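import Crest.Agent.R330.LS_839
import Crest.Agent.R330.Clus_839

/-!
# Row 330, section 6 binding (helper839)

* `colAlg b` : the colour algebra on `Colg N` (`ColAlg` of Clus_839).
* `comp x i` : the colour vector of `x`; `Uk b c` (`R⁹ ⊗ k`), `Mm b c` (`R⁹ ⊗ kᗮ`), `Zs b c = Mm ⊓ Nor`.
* for commuting `c`: `Tn ≤ Mm`, `Uk ≤ Nor`, `Nor = Uk ⊕ Zs` (`norBasis`), `nn_mem_Zs`.
* `thv M β u = Σ_A u_A θ_β^A`, `Od M K` = complex span of `thv β u`, `u ∈ K`; anticommutation.
* `lsMain_split` : `lsMain = A + B`, `A` with coefficients in `Od k`, `B` with coefficients in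
  `Od kᗮ`.
-/

set_option autoImplicit false
set_option linter.unusedSectionVars false

open MeasureTheory Filter Topology Crest.MathPhysics.MatrixQM
open Crest.Agent.R330.IBP837 Crest.Agent.R330.Defs478 Crest.Agent.R330.Frame839
open Crest.Agent.R330.LS839 Crest.Agent.R330.Clus839
open scoped ContDiff InnerProductSpace ENNReal

noncomputable section

namespace Crest.Agent.R330.Bind6839

variable {N : ℕ} (b : ColorBasis N)

/-! ## The colour algebra -/

theorem br_add_left (u u' v : Fin (N ^ 2 - 1) → ℝ) :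
    SlB314.br b (u + u') v = SlB314.br b u v + SlB314.br b u' v := by
  funext A
  simp [SlB314.br, mul_add, add_mul, Finset.sum_add_distrib]

theorem br_add_right (u v v' : Fin (N ^ 2 - 1) → ℝ) :
    SlB314.br b u (v + v') = SlB314.br b u v + SlB314.br b u v' := by
  funext A
  simp [SlB314.br, mul_add, Finset.sum_add_distrib]

theorem br_smul_left (r : ℝ) (u v : Fin (N ^ 2 - 1) → ℝ) :
    SlB314.br b (r • u) v = r • SlB314.br b u v := by
  funext A
  simp only [SlB314.br, Pi.smul_apply, smul_eq_mul, Finset.mul_sum]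
  exact Finset.sum_congr rfl fun B _ => Finset.sum_congr rfl fun C _ => by ring

theorem br_smul_right (r : ℝ) (u v : Fin (N ^ 2 - 1) → ℝ) :
    SlB314.br b u (r • v) = r • SlB314.br b u v := by
  funext A
  simp only [SlB314.br, Pi.smul_apply, smul_eq_mul, Finset.mul_sum]
  exact Finset.sum_congr rfl fun B _ => Finset.sum_congr rfl fun C _ => by ring

theorem inner_colg (u v : Colg N) :
    ((⟪u, v⟫_ℝ : ℝ) : ℂ) = (SlA314.cm b u.ofLp * SlA314.cm b v.ofLp).trace := by
  rw [SlA314.trace_cm_mul, PiLp.inner_apply]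
  push_cast
  exact Finset.sum_congr rfl fun A _ => by simp [mul_comm]

/-- **The colour algebra.** -/
def colAlg : ColAlg (Colg N) where
  br := LinearMap.mk₂ ℝ (fun u v => WithLp.toLp 2 (SlB314.br b u.ofLp v.ofLp))
    (fun u u' v => by rw [WithLp.ofLp_add, br_add_left, WithLp.toLp_add])
    (fun r u v => by rw [WithLp.ofLp_smul, br_smul_left, WithLp.toLp_smul])
    (fun u v v' => by rw [WithLp.ofLp_add, br_add_right, WithLp.toLp_add])
    (fun r u v => by rw [WithLp.ofLp_smul, br_smul_right, WithLp.toLp_smul])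
  anti u v := by
    change WithLp.toLp 2 (SlB314.br b u.ofLp v.ofLp) = - WithLp.toLp 2 (SlB314.br b v.ofLp u.ofLp)
    rw [← WithLp.toLp_neg]
    congr 1
    apply SlA314.cm_inj b
    have h1 : SlA314.cm b (-SlB314.br b v.ofLp u.ofLp) = - SlA314.cm b (SlB314.br b v.ofLp u.ofLp) := by
      have := SlA314.cm_smul b (-1) (SlB314.br b v.ofLp u.ofLp)
      simpa using this
    rw [h1, SlB314.cm_br, SlB314.cm_br, ← smul_neg]
    congr 1
    noncomm_ring
  jac u v w := by
    change WithLp.toLp 2 (SlB314.br b u.ofLp (SlB314.br b v.ofLp w.ofLp)) =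
      WithLp.toLp 2 (SlB314.br b (SlB314.br b u.ofLp v.ofLp) w.ofLp) +
      WithLp.toLp 2 (SlB314.br b v.ofLp (SlB314.br b u.ofLp w.ofLp))
    rw [← WithLp.toLp_add]
    congr 1
    apply SlA314.cm_inj b
    rw [SlA314.cm_add]
    simp only [SlB314.cm_br]
    simp only [mul_smul_comm, smul_mul_assoc, ← smul_sub, ← smul_add, smul_smul]
    congr 1
    noncomm_ring
  inv u v w := by
    have h : ((⟪(WithLp.toLp 2 (SlB314.br b u.ofLp v.ofLp) : Colg N), w⟫_ℝ : ℝ) : ℂ) =
        ((⟪u, (WithLp.toLp 2 (SlB314.br b v.ofLp w.ofLp) : Colg N)⟫_ℝ : ℝ) : ℂ) := by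
      rw [inner_colg b, inner_colg b]
      simp only [SlB314.cm_br, smul_mul_assoc, mul_smul_comm, Matrix.trace_smul]
      congr 1
      rw [sub_mul, mul_sub, Matrix.trace_sub, Matrix.trace_sub, Matrix.mul_assoc,
        Matrix.mul_assoc]
      congr 1
      rw [Matrix.trace_mul_comm, Matrix.mul_assoc]
    exact_mod_cast h

/-- colour vector of the `i`-th matrix -/
def comp (x : Cfg N) (i : Fin 9) : Colg N := WithLp.toLp 2 fun A => x (i, A)

theorem comp_add (x y : Cfg N) (i : Fin 9) : comp (x + y) i = comp x i + comp y i := rfl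

theorem comp_smul (r : ℝ) (x : Cfg N) (i : Fin 9) : comp (r • x) i = r • comp x i := rfl

theorem comp_sub (x y : Cfg N) (i : Fin 9) : comp (x - y) i = comp x i - comp y i := rfl

theorem comp_zero (i : Fin 9) : comp (0 : Cfg N) i = 0 := rfl

theorem comp_act (w : Colg N) (x : Cfg N) (i : Fin 9) :
    comp (actB b w x) i = (colAlg b).br w (comp x i) := rfl

theorem inner_comp (x y : Cfg N) : ⟪x, y⟫_ℝ = ∑ i, ⟪comp x i, comp y i⟫_ℝ := by
  rw [PiLp.inner_apply, Fintype.sum_prod_type]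
  exact Finset.sum_congr rfl fun i _ => by rw [PiLp.inner_apply]; rfl

theorem norm_sq_comp (x : Cfg N) : ‖x‖ ^ 2 = ∑ i, ‖comp x i‖ ^ 2 := by
  rw [← real_inner_self_eq_norm_sq, inner_comp]
  exact Finset.sum_congr rfl fun i _ => real_inner_self_eq_norm_sq _

theorem ext_comp {x y : Cfg N} (h : ∀ i, comp x i = comp y i) : x = y := by
  ext ⟨i, A⟩
  have := congrArg (fun v : Colg N => v A) (h i)
  exact this

/-- assemble a configuration from colour vectors -/
def mkc (f : Fin 9 → Colg N) : Cfg N := WithLp.toLp 2 fun p => f p.1 p.2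

theorem comp_mkc (f : Fin 9 → Colg N) (i : Fin 9) : comp (mkc f) i = f i := rfl

/-- Commuting configurations. -/
def Comc (c : Cfg N) : Prop := (colAlg b).Comm (comp c)

theorem kc_eq (c : Cfg N) : kc (actB b) c = (colAlg b).kk (comp c) := by
  ext w
  rw [mem_kc, ColAlg.mem_kk]
  constructor
  · intro h i
    have h1 := congrArg (fun x : Cfg N => comp x i) h
    simp only [comp_act, comp_zero] at h1
    rw [(colAlg b).anti, h1, neg_zero]
  · intro h
    refine ext_comp fun i => ?_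
    rw [comp_act, comp_zero, (colAlg b).anti, h i, neg_zero]

/-! ## The subspaces -/

/-- `R⁹ ⊗ K`. -/
def Tup (K : Submodule ℝ (Colg N)) : Submodule ℝ (Cfg N) where
  carrier := {x | ∀ i, comp x i ∈ K}
  add_mem' h h' i := by rw [comp_add]; exact K.add_mem (h i) (h' i)
  zero_mem' i := by rw [comp_zero]; exact K.zero_mem
  smul_mem' r x h i := by rw [comp_smul]; exact K.smul_mem r (h i)

theorem mem_Tup {K : Submodule ℝ (Colg N)} {x : Cfg N} : x ∈ Tup K ↔ ∀ i, comp x i ∈ K := Iff.rfl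

/-- `R⁹ ⊗ k` -/
def Uk (c : Cfg N) : Submodule ℝ (Cfg N) := Tup (kc (actB b) c)

/-- `R⁹ ⊗ kᗮ` -/
def Mm (c : Cfg N) : Submodule ℝ (Cfg N) := Tup (kc (actB b) c)ᗮ

/-- transverse off-diagonal directions -/
def Zs (c : Cfg N) : Submodule ℝ (Cfg N) := Mm b c ⊓ (Tn (actB b) c)ᗮ

theorem Tup_orth (K : Submodule ℝ (Colg N)) : (Tup K)ᗮ = Tup Kᗮ := by
  ext x
  rw [Submodule.mem_orthogonal, mem_Tup]
  constructor
  · intro h i
    rw [Submodule.mem_orthogonal]
    intro u hu
    have h1 := h (mkc fun j => if j = i then u else 0) (fun j => by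
      rw [comp_mkc]
      split_ifs
      · exact hu
      · exact K.zero_mem)
    rw [inner_comp] at h1
    rw [Finset.sum_eq_single i] at h1
    · rw [comp_mkc, if_pos rfl] at h1
      exact h1
    · intro j _ hj
      rw [comp_mkc, if_neg hj, inner_zero_left]
    · simp
  · intro h u hu
    rw [inner_comp]
    exact Finset.sum_eq_zero fun i _ => (Submodule.mem_orthogonal _ _).1 (h i) _ (hu i)

variable {b} {c : Cfg N}

theorem act_mem_Mm {p : Cfg N} (hp : p ∈ Uk b c) {w : Colg N}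
    (hw : w ∈ (kc (actB b) c)ᗮ) : actB b w p ∈ Mm b c := by
  intro i
  rw [comp_act, (colAlg b).anti]
  refine Submodule.neg_mem _ ?_
  have h1 := hp i
  rw [kc_eq] at h1 hw ⊢
  exact (colAlg b).br_mem_perp h1 hw

theorem self_mem_Uk (hc : Comc b c) : c ∈ Uk b c := by
  intro i
  rw [kc_eq]
  exact (colAlg b).self_mem_kk hc i

theorem Tn_le_Mm : Tn (actB b) c ≤ Mm b c := by
  rintro _ ⟨w, rfl⟩ i
  change comp (actB b w c) i ∈ _
  rw [comp_act, (colAlg b).anti, kc_eq]
  exact Submodule.neg_mem _ ((colAlg b).ad_mem_perp i w)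

theorem Uk_le_Nor : Uk b c ≤ (Tn (actB b) c)ᗮ := by
  intro x hx
  rw [Submodule.mem_orthogonal]
  intro t ht
  have h1 : x ∈ ((Mm b c)ᗮ : Submodule ℝ (Cfg N)) := by
    unfold Mm
    rw [Tup_orth, Submodule.orthogonal_orthogonal]
    exact hx
  exact (Submodule.mem_orthogonal _ _).1 h1 t (Tn_le_Mm ht)

theorem Zs_perp_Uk {x z : Cfg N} (hx : x ∈ Uk b c) (hz : z ∈ Zs b c) : ⟪x, z⟫_ℝ = 0 := by
  have h1 : z ∈ ((Uk b c)ᗮ : Submodule ℝ (Cfg N)) := by
    unfold Uk
    rw [Tup_orth]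
    exact hz.1
  exact (Submodule.mem_orthogonal _ _).1 h1 x hx

/-- **The oblique correction is transverse off-diagonal.** -/
theorem nn_mem_Zs {r B : ℝ} (hr0 : 0 < r) (hr : GapAt (actB b) c r)
    (hB : ActBound (actB b) B) {p : Cfg N} (hp : p ∈ Uk b c) (hx : B * ‖p - c‖ ≤ r / 2)
    (t : Tn (actB b) c) : nn (actB b) c p t ∈ Zs b c := by
  refine ⟨?_, nn_mem hr0 hr hB hx t⟩
  unfold nn
  exact Submodule.sub_mem _ (act_mem_Mm hp (om (actB b) c p t).2) (Tn_le_Mm t.2)

/-- Decomposition of the normal space. -/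
theorem nor_decomp {x : Cfg N} (hx : x ∈ (Tn (actB b) c)ᗮ) :
    ∃ y ∈ Uk b c, ∃ z ∈ Zs b c, x = y + z := by
  refine ⟨(Uk b c).starProjection x, Submodule.starProjection_apply_mem _ _,
    (Uk b c)ᗮ.starProjection x, ⟨?_, ?_⟩,
    (Submodule.starProjection_add_starProjection_orthogonal (K := Uk b c) x).symm⟩
  · have h := Submodule.starProjection_apply_mem (Uk b c)ᗮ x
    have h2 : (Uk b c)ᗮ = Mm b c := Tup_orth _
    exact h2.le h
  · have h1 : (Uk b c)ᗮ.starProjection x = x - (Uk b c).starProjection x := by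
      rw [Submodule.starProjection_orthogonal_val]
    rw [h1]
    exact Submodule.sub_mem _ hx (Uk_le_Nor (Submodule.starProjection_apply_mem _ _))

/-- Orthonormal basis of the normal space from bases of `R⁹ ⊗ k` and `Z`. -/
def norBasis {ι κ : Type*} [Fintype ι] [Fintype κ]
    (u : OrthonormalBasis ι ℝ (Uk b c)) (v : OrthonormalBasis κ ℝ (Zs b c)) :
    OrthonormalBasis (ι ⊕ κ) ℝ (Tn (actB b) c)ᗮ := by
  classical
  refine OrthonormalBasis.mk (v := Sum.elim
    (fun s => (⟨u s, Uk_le_Nor (u s).2⟩ : (Tn (actB b) c)ᗮ))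
    (fun a => (⟨v a, (v a).2.2⟩ : (Tn (actB b) c)ᗮ))) ?_ ?_
  · rw [orthonormal_iff_ite]
    rintro (i | i) (j | j)
    · have := u.inner_eq_ite i j
      simpa using this
    · have : ⟪((u i : Uk b c) : Cfg N), ((v j : Zs b c) : Cfg N)⟫_ℝ = 0 :=
        Zs_perp_Uk (u i).2 (v j).2
      simpa using this
    · have : ⟪((v i : Zs b c) : Cfg N), ((u j : Uk b c) : Cfg N)⟫_ℝ = 0 := by
        rw [real_inner_comm]
        exact Zs_perp_Uk (u j).2 (v i).2
      simpa using this
    · have := v.inner_eq_ite i j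
      simpa using this
  · intro x _
    obtain ⟨y, hy, z, hz, hxyz⟩ := nor_decomp x.2
    have hx : x = (⟨y, Uk_le_Nor hy⟩ : (Tn (actB b) c)ᗮ) + ⟨z, hz.2⟩ :=
      Subtype.ext hxyz
    rw [hx]
    refine Submodule.add_mem _ ?_ ?_
    · have h2 : (⟨y, Uk_le_Nor hy⟩ : (Tn (actB b) c)ᗮ) =
          ∑ s, ⟪u s, (⟨y, hy⟩ : Uk b c)⟫_ℝ • (⟨u s, Uk_le_Nor (u s).2⟩ : (Tn (actB b) c)ᗮ) := by
        apply Subtype.ext
        have h3 := congrArg (fun w : Uk b c => (w : Cfg N)) (u.sum_repr' ⟨y, hy⟩)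
        simp only [Submodule.coe_sum, Submodule.coe_smul] at h3 ⊢
        exact h3.symm
      rw [h2]
      exact Submodule.sum_mem _ fun s _ =>
        Submodule.smul_mem _ _ (Submodule.subset_span ⟨Sum.inl s, rfl⟩)
    · have h2 : (⟨z, hz.2⟩ : (Tn (actB b) c)ᗮ) =
          ∑ s, ⟪v s, (⟨z, hz⟩ : Zs b c)⟫_ℝ • (⟨v s, (v s).2.2⟩ : (Tn (actB b) c)ᗮ) := by
        apply Subtype.ext
        have h3 := congrArg (fun w : Zs b c => (w : Cfg N)) (v.sum_repr' ⟨z, hz⟩)
        simp only [Submodule.coe_sum, Submodule.coe_smul] at h3 ⊢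
        exact h3.symm
      rw [h2]
      exact Submodule.sum_mem _ fun s _ =>
        Submodule.smul_mem _ _ (Submodule.subset_span ⟨Sum.inr s, rfl⟩)

theorem norBasis_inl {ι κ : Type*} [Fintype ι] [Fintype κ]
    (u : OrthonormalBasis ι ℝ (Uk b c)) (v : OrthonormalBasis κ ℝ (Zs b c)) (s : ι) :
    ((norBasis u v (Sum.inl s) : (Tn (actB b) c)ᗮ) : Cfg N) = u s := by
  unfold norBasis
  simp

theorem norBasis_inr {ι κ : Type*} [Fintype ι] [Fintype κ]
    (u : OrthonormalBasis ι ℝ (Uk b c)) (v : OrthonormalBasis κ ℝ (Zs b c)) (s : κ) :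
    ((norBasis u v (Sum.inr s) : (Tn (actB b) c)ᗮ) : Cfg N) = v s := by
  unfold norBasis
  simp

/-! ## Fermions -/

variable {F : Type*} [NormedAddCommGroup F] [InnerProductSpace ℂ F] [FiniteDimensional ℂ F]

/-- `θ_β(u) = Σ_A u_A θ_β^A` -/
def thv (M : FermionRep N F) (β : Fin 16) (u : Colg N) : F →ₗ[ℂ] F :=
  ∑ A, ((u A : ℝ) : ℂ) • M.θ β A

/-- The complex span of the `θ_β(u)`, `u ∈ K`. -/
def Od (M : FermionRep N F) (K : Submodule ℝ (Colg N)) : Submodule ℂ (F →ₗ[ℂ] F) :=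
  Submodule.span ℂ {L | ∃ β, ∃ u ∈ K, L = thv M β u}

theorem thv_mem (M : FermionRep N F) {K : Submodule ℝ (Colg N)} (β : Fin 16) {u : Colg N}
    (hu : u ∈ K) : thv M β u ∈ Od M K := Submodule.subset_span ⟨β, u, hu, rfl⟩

theorem thv_anti (M : FermionRep N F) (α β : Fin 16) (u v : Colg N) (f : F) :
    thv M α u (thv M β v f) + thv M β v (thv M α u f) =
      (if α = β then ((⟪u, v⟫_ℝ : ℝ) : ℂ) else 0) • f := by
  unfold thv
  simp only [LinearMap.sum_apply, LinearMap.smul_apply, map_sum, map_smul]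
  have e1 : (∑ x, ((v x : ℝ) : ℂ) • ∑ y, ((u y : ℝ) : ℂ) • (M.θ α y) ((M.θ β x) f)) +
      (∑ x, ((u x : ℝ) : ℂ) • ∑ y, ((v y : ℝ) : ℂ) • (M.θ β y) ((M.θ α x) f)) =
      ∑ x, ∑ y, (((v x : ℝ) : ℂ) * ((u y : ℝ) : ℂ)) •
        ((M.θ α y) ((M.θ β x) f) + (M.θ β x) ((M.θ α y) f)) := by
    simp only [Finset.smul_sum, smul_smul, smul_add, Finset.sum_add_distrib]
    congr 1
    rw [Finset.sum_comm]
    exact Finset.sum_congr rfl fun x _ => Finset.sum_congr rfl fun y _ => by rw [mul_comm]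
  rw [e1]
  have e2 : ∀ x y, (M.θ α y) ((M.θ β x) f) + (M.θ β x) ((M.θ α y) f) =
      (if α = β ∧ y = x then (1 : ℂ) else 0) • f := by
    intro x y
    have h := congrArg (fun T : F →ₗ[ℂ] F => T f) (M.anticomm α y β x)
    simp only [LinearMap.add_apply, LinearMap.comp_apply] at h
    rw [h]
    split_ifs <;> simp
  simp only [e2, smul_smul]
  by_cases hab : α = β
  · subst hab
    simp only [true_and, if_true]
    rw [PiLp.inner_apply]
    push_cast
    rw [Finset.sum_smul]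
    refine Finset.sum_congr rfl fun x _ => ?_
    rw [Finset.sum_eq_single x]
    · simp
    · intro y _ hy
      rw [if_neg hy, mul_zero, zero_smul]
    · simp
  · simp [hab]

/-- Coefficients of orthogonal colour subspaces anticommute. -/
theorem Od_anti (M : FermionRep N F) {K K' : Submodule ℝ (Colg N)}
    (hK : ∀ u ∈ K, ∀ v ∈ K', ⟪u, v⟫_ℝ = 0) {L L' : F →ₗ[ℂ] F} (hL : L ∈ Od M K)
    (hL' : L' ∈ Od M K') (f : F) : L (L' f) = - L' (L f) := by
  unfold Od at hL hL'
  induction hL using Submodule.span_induction with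
  | mem x hx =>
    obtain ⟨β, u, hu, rfl⟩ := hx
    induction hL' using Submodule.span_induction with
    | mem x' hx' =>
      obtain ⟨β', v, hv, rfl⟩ := hx'
      have h := thv_anti M β β' u v f
      rw [hK u hu v hv] at h
      simp only [Complex.ofReal_zero, ite_self, zero_smul] at h
      exact eq_neg_of_add_eq_zero_left h
    | zero => simp
    | add x y _ _ h1 h2 =>
      rw [LinearMap.add_apply, LinearMap.add_apply, map_add, h1, h2]
      abel
    | smul r x _ h1 =>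
      rw [LinearMap.smul_apply, LinearMap.smul_apply, map_smul, h1, smul_neg]
  | zero => simp
  | add x y _ _ h1 h2 =>
    rw [LinearMap.add_apply, LinearMap.add_apply, map_add, h1, h2]
    abel
  | smul r x _ h1 =>
    rw [LinearMap.smul_apply, LinearMap.smul_apply, map_smul, h1, smul_neg]

theorem vco_mem (M : FermionRep N F) {K : Submodule ℝ (Colg N)}
    {w : Fin 16 → Fin (N ^ 2 - 1) → ℝ} (hw : ∀ β, (WithLp.toLp 2 (w β) : Colg N) ∈ K) :
    vco M w ∈ Od M K := by
  have h : vco M w = ∑ β, thv M β (WithLp.toLp 2 (w β)) := by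
    unfold vco thv
    rw [Finset.sum_comm]
  rw [h]
  exact Submodule.sum_mem _ fun β _ => thv_mem M β (hw β)

theorem Theta_eq (M : FermionRep N F) (G : GammaNine) (α : Fin 16) (e : Cfg N) :
    Theta M G α e = vco M (fun β A => ∑ i, G.γ i α β * e (i, A)) := by
  apply LinearMap.ext
  intro f
  unfold Theta
  rw [LinearMap.sum_apply, vco_apply, Fintype.sum_prod_type, Finset.sum_comm]
  refine Finset.sum_congr rfl fun A _ => ?_
  simp only [LinearMap.smul_apply, dco_apply, Finset.smul_sum, smul_smul]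
  rw [Finset.sum_comm]
  refine Finset.sum_congr rfl fun β _ => ?_
  push_cast
  rw [Finset.sum_smul]
  exact Finset.sum_congr rfl fun i _ => by rw [mul_comm]

theorem Theta_mem (M : FermionRep N F) (G : GammaNine) (α : Fin 16)
    {K : Submodule ℝ (Colg N)} {e : Cfg N} (he : e ∈ Tup K) : Theta M G α e ∈ Od M K := by
  rw [Theta_eq]
  refine vco_mem M fun β => ?_
  have h : (WithLp.toLp 2 (fun A => ∑ i, G.γ i α β * e (i, A)) : Colg N) =
      ∑ i, G.γ i α β • comp e i := by
    ext A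
    simp [comp]
  rw [h]
  exact Submodule.sum_mem _ fun i _ => K.smul_mem _ (he i)

/-! ## The split of the main part -/

theorem wbv_eq (b : ColorBasis N) (G : GammaNine) (α β : Fin 16) (x y : Cfg N) :
    (WithLp.toLp 2 (fun A => wb b G α β A x y) : Colg N) =
      ∑ i, ∑ j, (1 / 2 * G.γ2 i j α β) • (colAlg b).br (comp x i) (comp y j) := by
  ext A
  simp only [wb_eq]
  simp only [WithLp.ofLp_sum, WithLp.ofLp_smul, Finset.sum_apply, Pi.smul_apply, smul_eq_mul]
  refine Finset.sum_congr rfl fun i _ => Finset.sum_congr rfl fun j _ => ?_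
  have : ((colAlg b).br (comp x i) (comp y j)) A =
    SlB314.br b (fun B => x (i, B)) (fun C => y (j, C)) A := rfl
  rw [this]
  ring

theorem wlv_eq (G : GammaNine) (α β : Fin 16) (x : Cfg N) :
    (WithLp.toLp 2 (fun A => wl G α β A x) : Colg N) =
      ∑ j, (cc j * (Gam G * G.γ j) α β) • comp x j := by
  ext A
  simp only [wl]
  simp only [WithLp.ofLp_sum, WithLp.ofLp_smul, Finset.sum_apply, Pi.smul_apply, smul_eq_mul]
  refine Finset.sum_congr rfl fun j _ => ?_
  have : (comp x j) A = x (j, A) := rfl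
  rw [this]
  ring

theorem wbv_mem_k (G : GammaNine) (α β : Fin 16) {x y : Cfg N} (hx : x ∈ Uk b c)
    (hy : y ∈ Uk b c) :
    (WithLp.toLp 2 (fun A => wb b G α β A x y) : Colg N) ∈ kc (actB b) c := by
  rw [wbv_eq]
  refine Submodule.sum_mem _ fun i _ => Submodule.sum_mem _ fun j _ =>
    Submodule.smul_mem _ _ ?_
  have h1 := hx i
  have h2 := hy j
  rw [kc_eq] at h1 h2 ⊢
  exact (colAlg b).br_mem_kk h1 h2

theorem wbv_mem_m (G : GammaNine) (α β : Fin 16) {x y : Cfg N} (hx : x ∈ Uk b c)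
    (hy : y ∈ Mm b c) :
    (WithLp.toLp 2 (fun A => wb b G α β A x y) : Colg N) ∈ (kc (actB b) c)ᗮ := by
  rw [wbv_eq]
  refine Submodule.sum_mem _ fun i _ => Submodule.sum_mem _ fun j _ =>
    Submodule.smul_mem _ _ ?_
  have h1 := hx i
  have h2 := hy j
  rw [kc_eq] at h1 h2 ⊢
  exact (colAlg b).br_mem_perp h1 h2

theorem wlv_mem (G : GammaNine) (α β : Fin 16) {K : Submodule ℝ (Colg N)} {x : Cfg N}
    (hx : x ∈ Tup K) : (WithLp.toLp 2 (fun A => wl G α β A x) : Colg N) ∈ K := by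
  rw [wlv_eq]
  exact Submodule.sum_mem _ fun j _ => Submodule.smul_mem _ _ (hx j)

section split

variable (b) (M : FermionRep N F) (G : GammaNine) (g m : ℝ) (α : Fin 16) (c)

/-- light potential at `p` -/
def wA (p : Cfg N) : F →ₗ[ℂ] F := vco M (fun β A => wpot b G g m α β A p)

/-- heavy potential, linear in `z` -/
def wB (p z : Cfg N) : F →ₗ[ℂ] F := vco M (fun β A => 2 * g * wb b G α β A p z)

/-- coefficient of `∂_e` in the light part, `e ∈ R⁹ ⊗ k` -/
def aA (e : Cfg N) : F →ₗ[ℂ] F := (-Complex.I) • Theta M G α e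

/-- coefficient of `∂_e` in the heavy part at `p`, `e ∈ Z` -/
def aB {κ : Type*} [Fintype κ] (t : OrthonormalBasis κ ℝ (Tn (actB b) c)) (p e : Cfg N) :
    F →ₗ[ℂ] F :=
  (-Complex.I) • (Theta M G α e -
    ∑ a, ((⟪e, nn (actB b) c p (t a)⟫_ℝ : ℝ) : ℂ) • Theta M G α (t a))

variable {b c}

theorem wA_mem {p : Cfg N} (hp : p ∈ Uk b c) : wA b M G g m α p ∈ Od M (kc (actB b) c) := by
  refine vco_mem M fun β => ?_
  have h : (WithLp.toLp 2 (fun A => wpot b G g m α β A p) : Colg N) =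
      g • (WithLp.toLp 2 (fun A => wb b G α β A p p) : Colg N) -
      m • (WithLp.toLp 2 (fun A => wl G α β A p) : Colg N) := by
    ext A
    simp [wpot_wb]
  rw [h]
  exact Submodule.sub_mem _ (Submodule.smul_mem _ _ (wbv_mem_k G α β hp hp))
    (Submodule.smul_mem _ _ (wlv_mem G α β hp))

theorem wB_mem {p z : Cfg N} (hp : p ∈ Uk b c) (hz : z ∈ Mm b c) :
    wB b M G g α p z ∈ Od M (kc (actB b) c)ᗮ := by
  refine vco_mem M fun β => ?_
  have h : (WithLp.toLp 2 (fun A => 2 * g * wb b G α β A p z) : Colg N) =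
      (2 * g) • (WithLp.toLp 2 (fun A => wb b G α β A p z) : Colg N) := by
    ext A
    simp
  rw [h]
  exact Submodule.smul_mem _ _ (wbv_mem_m G α β hp hz)

theorem aA_mem {e : Cfg N} (he : e ∈ Uk b c) : aA M G α e ∈ Od M (kc (actB b) c) :=
  Submodule.smul_mem _ _ (Theta_mem M G α he)

theorem aB_mem {κ : Type*} [Fintype κ] (t : OrthonormalBasis κ ℝ (Tn (actB b) c)) (p : Cfg N)
    {e : Cfg N} (he : e ∈ Mm b c) : aB b c M G α t p e ∈ Od M (kc (actB b) c)ᗮ :=
  Submodule.smul_mem _ _ (Submodule.sub_mem _ (Theta_mem M G α he)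
    (Submodule.sum_mem _ fun a _ => Submodule.smul_mem _ _ (Theta_mem M G α (Tn_le_Mm (t a).2))))

theorem wA_symm (p : Cfg N) : (wA b M G g m α p).IsSymmetric := vco_symm M _

theorem wB_symm (p z : Cfg N) : (wB b M G g α p z).IsSymmetric := vco_symm M _

theorem skew_of_symm {L : F →ₗ[ℂ] F} (hL : L.IsSymmetric) (f h : F) :
    ⟪((-Complex.I) • L) f, h⟫_ℂ = - ⟪f, ((-Complex.I) • L) h⟫_ℂ := by
  rw [LinearMap.smul_apply, LinearMap.smul_apply, inner_smul_left, inner_smul_right, hL f h]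
  simp

theorem aA_skew (e : Cfg N) (f h : F) : ⟪aA M G α e f, h⟫_ℂ = - ⟪f, aA M G α e h⟫_ℂ :=
  skew_of_symm (Theta_symm M G α e) f h


theorem wB_add (p z z' : Cfg N) :
    wB b M G g α p (z + z') = wB b M G g α p z + wB b M G g α p z' := by
  apply LinearMap.ext
  intro f
  unfold wB
  rw [LinearMap.add_apply, ← LS839.vco_add]
  congr 2
  funext β A
  rw [wb_add_right]
  ring

/-- **The split of the main part of (LS)**: `lsMain = A + B`. -/
theorem lsMain_split {r B : ℝ} (hr0 : 0 < r) (hr : GapAt (actB b) c r)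
    (hB : ActBound (actB b) B) {ι κ η : Type*} [Fintype ι] [Fintype κ] [Fintype η]
    (u : OrthonormalBasis ι ℝ (Uk b c)) (v : OrthonormalBasis κ ℝ (Zs b c))
    (t : OrthonormalBasis η ℝ (Tn (actB b) c)) {p : Cfg N} (hp : p ∈ Uk b c)
    (hx : B * ‖p - c‖ ≤ r / 2) (z : Cfg N) (φ : Cfg N → F) :
    lsMain b M G g m α c (norBasis u v) t p z φ =
      ((∑ s, aA M G α (u s) (fderiv ℝ φ (p + z) (u s))) + wA b M G g m α p (φ (p + z))) +
      ((∑ i, aB b c M G α t p (v i) (fderiv ℝ φ (p + z) (v i))) +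
        wB b M G g α p z (φ (p + z))) := by
  unfold lsMain
  rw [LS839.vco_add, Fintype.sum_sum_type]
  simp only [norBasis_inl, norBasis_inr]
  have h1 : ∀ a, fderiv ℝ φ (p + z) (nn (actB b) c p (t a)) =
      ∑ i, ((⟪((v i : Zs b c) : Cfg N), nn (actB b) c p (t a)⟫_ℝ : ℝ) : ℂ) •
        fderiv ℝ φ (p + z) (v i) := by
    intro a
    have h2 := congrArg (fun w : Zs b c => (w : Cfg N))
      (v.sum_repr' ⟨nn (actB b) c p (t a), nn_mem_Zs hr0 hr hB hp hx (t a)⟩)
    simp only [Submodule.coe_sum, Submodule.coe_smul] at h2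
    conv_lhs => rw [← h2]
    rw [map_sum]
    refine Finset.sum_congr rfl fun i _ => ?_
    rw [map_smul]
    exact (Complex.coe_smul _ _).symm
  have h3 : ∑ a, Theta M G α (t a) (fderiv ℝ φ (p + z) (nn (actB b) c p (t a))) =
      ∑ i, (∑ a, ((⟪((v i : Zs b c) : Cfg N), nn (actB b) c p (t a)⟫_ℝ : ℝ) : ℂ) •
        Theta M G α (t a)) (fderiv ℝ φ (p + z) (v i)) := by
    simp only [h1, map_sum, map_smul, LinearMap.sum_apply, LinearMap.smul_apply]
    exact Finset.sum_comm
  rw [h3]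
  unfold aA aB wA wB
  simp only [LinearMap.smul_apply, LinearMap.sub_apply, ← Finset.smul_sum,
    Finset.sum_sub_distrib, smul_sub]
  module

end split

end Crest.Agent.R330.Bind6839

end
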