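import Mathlib
import Crest.Prelude.Def_MatrixModel

/-!
Row 330 (helper837): integration by parts, Leibniz rule, linearity, smoothness, symmetry,
closability for first order operators `D φ = Σ_k a_k (-i ∂_k φ) + V φ` on `ℝ^κ` with values in a
finite dimensional complex inner product space `F`, and their specialisation to the supercharges
of `Def_MatrixModel` and to all deformations with real potential coefficients.
-/

set_option autoImplicit false
set_option linter.unusedSectionVars false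
set_option linter.deprecated false

noncomputable section

namespace Crest.Agent.R330.IBP837

open MeasureTheory Filter Topology Crest.MathPhysics.MatrixQM
open scoped ContDiff InnerProductSpace ENNReal

/-! ### 1. Integration by parts -/

section General

variable {E : Type*} [NormedAddCommGroup E] [NormedSpace ℝ E]
  {F : Type*} [NormedAddCommGroup F] [InnerProductSpace ℂ F]

/-- the hermitian inner product as a continuous real-bilinear map -/
def innerRB (F : Type*) [NormedAddCommGroup F] [InnerProductSpace ℂ F] : F →L[ℝ] F →L[ℝ] ℂ :=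
  (isBoundedBilinearMap_inner (𝕜 := ℂ) (E := F)).toContinuousLinearMap

theorem innerRB_apply (v w : F) : innerRB F v w = ⟪v, w⟫_ℂ := rfl

theorem integrable_inner_of_cont [MeasurableSpace E] [BorelSpace E]
    {μ : Measure E} [IsFiniteMeasureOnCompacts μ] {φ ψ : E → F} (hφ : Continuous φ)
    (hψ : Continuous ψ) (hc : HasCompactSupport φ ∨ HasCompactSupport ψ) :
    Integrable (fun x => ⟪φ x, ψ x⟫_ℂ) μ := by
  apply (hφ.inner hψ).integrable_of_hasCompactSupport
  rcases hc with hc | hc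
  · exact hc.mono' (fun x hx => subset_tsupport _ (by
      intro h0; apply hx; simp [h0]))
  · exact hc.mono' (fun x hx => subset_tsupport _ (by
      intro h0; apply hx; simp [h0]))

theorem fderiv_apply_continuous {φ : E → F} (hφ : ContDiff ℝ 1 φ) (e : E) :
    Continuous fun x => fderiv ℝ φ x e :=
  (hφ.continuous_fderiv (by norm_num)).clm_apply continuous_const

theorem hasCompactSupport_fderiv_apply {φ : E → F} (hφ : HasCompactSupport φ) (e : E) :
    HasCompactSupport fun x => fderiv ℝ φ x e :=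
  (hφ.fderiv (𝕜 := ℝ)).mono' (fun x hx => subset_tsupport _ (by
    intro h0; apply hx; simp [h0]))

/-- (I1) integration by parts -/
theorem ibp [FiniteDimensional ℝ E] [MeasurableSpace E] [BorelSpace E]
    {μ : Measure E} [μ.IsAddHaarMeasure] {φ ψ : E → F} (hφ : ContDiff ℝ 1 φ)
    (hψ : ContDiff ℝ 1 ψ) (hc : HasCompactSupport φ ∨ HasCompactSupport ψ) (e : E) :
    ∫ x, ⟪fderiv ℝ φ x e, ψ x⟫_ℂ ∂μ = - ∫ x, ⟪φ x, fderiv ℝ ψ x e⟫_ℂ ∂μ := by
  have h := integral_bilinear_fderiv_right_eq_neg_left_of_integrable (μ := μ)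
    (B := innerRB F) (f := φ) (g := ψ) (v := e) ?_ ?_ ?_ ?_ ?_
  · simp only [innerRB_apply] at h
    rw [h, neg_neg]
  · exact integrable_inner_of_cont (fderiv_apply_continuous hφ e) hψ.continuous
      (hc.imp (fun h => hasCompactSupport_fderiv_apply h e) id)
  · exact integrable_inner_of_cont hφ.continuous (fderiv_apply_continuous hψ e)
      (hc.imp id (fun h => hasCompactSupport_fderiv_apply h e))
  · exact integrable_inner_of_cont hφ.continuous hψ.continuous hc
  · exact fun x _ => (hφ.differentiable (by norm_num)) x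
  · exact fun x _ => (hψ.differentiable (by norm_num)) x

end General

/-! ### 2. First order operators -/

section Dirac

variable {κ : Type*} [Fintype κ] [DecidableEq κ]
  {F : Type*} [NormedAddCommGroup F] [InnerProductSpace ℂ F]

/-- `D φ (x) = Σ_k a_k (-i ∂_k φ)(x) + V(x) φ(x)` on `ℝ^κ` -/
def dirac (a : κ → F →ₗ[ℂ] F) (V : EuclideanSpace ℝ κ → F →ₗ[ℂ] F)
    (φ : EuclideanSpace ℝ κ → F) (x : EuclideanSpace ℝ κ) : F :=
  (∑ k, (-Complex.I) • a k (fderiv ℝ φ x (EuclideanSpace.single k 1))) + V x (φ x)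

variable {a : κ → F →ₗ[ℂ] F} {V : EuclideanSpace ℝ κ → F →ₗ[ℂ] F}
  {φ ψ : EuclideanSpace ℝ κ → F}

theorem dirac_add {x : EuclideanSpace ℝ κ} (hφ : DifferentiableAt ℝ φ x)
    (hψ : DifferentiableAt ℝ ψ x) :
    dirac a V (φ + ψ) x = dirac a V φ x + dirac a V ψ x := by
  unfold dirac
  rw [fderiv_add hφ hψ]
  simp only [Pi.add_apply, ContinuousLinearMap.add_apply, map_add, smul_add,
    Finset.sum_add_distrib]
  abel

theorem dirac_neg {x : EuclideanSpace ℝ κ} :
    dirac a V (-φ) x = - dirac a V φ x := by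
  unfold dirac
  rw [fderiv_neg]
  simp only [Pi.neg_apply, ContinuousLinearMap.neg_apply, map_neg, smul_neg,
    Finset.sum_neg_distrib]
  abel

theorem dirac_sub {x : EuclideanSpace ℝ κ} (hφ : DifferentiableAt ℝ φ x)
    (hψ : DifferentiableAt ℝ ψ x) :
    dirac a V (φ - ψ) x = dirac a V φ x - dirac a V ψ x := by
  rw [sub_eq_add_neg, dirac_add hφ hψ.neg, dirac_neg, sub_eq_add_neg]

theorem dirac_zero {x : EuclideanSpace ℝ κ} : dirac a V (0 : EuclideanSpace ℝ κ → F) x = 0 := by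
  unfold dirac
  simp


/-- Leibniz rule for real cut-offs -/
theorem dirac_leibniz {χ : EuclideanSpace ℝ κ → ℝ} {x : EuclideanSpace ℝ κ}
    (hχ : DifferentiableAt ℝ χ x) (hφ : DifferentiableAt ℝ φ x) :
    dirac a V (fun y => χ y • φ y) x = χ x • dirac a V φ x +
      ∑ k, (-Complex.I) • (fderiv ℝ χ x (EuclideanSpace.single k 1)) • a k (φ x) := by
  unfold dirac
  have h : fderiv ℝ (fun y => χ y • φ y) x =
      χ x • fderiv ℝ φ x + (fderiv ℝ χ x).smulRight (φ x) := by
    exact fderiv_fun_smul hχ hφ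
  rw [h]
  have hr : ∀ (L : F →ₗ[ℂ] F) (r : ℝ) (v : F), L (r • v) = r • L v := by
    intro L r v
    exact (L.restrictScalars ℝ).map_smul r v
  simp only [ContinuousLinearMap.add_apply, ContinuousLinearMap.smul_apply,
    ContinuousLinearMap.smulRight_apply, map_add, hr, smul_add, Finset.sum_add_distrib,
    Finset.smul_sum]
  have h2 : ∀ k : κ, (-Complex.I) • χ x • a k (fderiv ℝ φ x (EuclideanSpace.single k 1)) =
      χ x • (-Complex.I) • a k (fderiv ℝ φ x (EuclideanSpace.single k 1)) := by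
    intro k; rw [smul_comm]
  simp only [h2]
  abel

theorem dirac_congr_nhds {x : EuclideanSpace ℝ κ} (h : φ =ᶠ[𝓝 x] ψ) :
    dirac a V φ x = dirac a V ψ x := by
  unfold dirac
  rw [h.fderiv_eq, h.eq_of_nhds]

theorem dirac_eq_zero_of_notMem {x : EuclideanSpace ℝ κ} (hx : x ∉ tsupport φ) :
    dirac a V φ x = 0 := by
  have h : φ =ᶠ[𝓝 x] (0 : EuclideanSpace ℝ κ → F) := notMem_tsupport_iff_eventuallyEq.mp hx
  rw [dirac_congr_nhds h, dirac_zero]

theorem support_dirac_subset : Function.support (dirac a V φ) ⊆ tsupport φ := by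
  intro x hx
  by_contra h
  exact hx (dirac_eq_zero_of_notMem h)

theorem tsupport_dirac_subset : tsupport (dirac a V φ) ⊆ tsupport φ :=
  closure_minimal support_dirac_subset (isClosed_tsupport _)

theorem hasCompactSupport_dirac (h : HasCompactSupport φ) :
    HasCompactSupport (dirac a V φ) :=
  h.mono' support_dirac_subset

/-! smoothness -/

section Smooth

variable [FiniteDimensional ℂ F]

theorem contDiff_linMap_apply {n : WithTop ℕ∞} (L : F →ₗ[ℂ] F)
    (hφ : ContDiff ℝ n φ) : ContDiff ℝ n (fun x => L (φ x)) := by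
  have h : (fun x => L (φ x)) =
      fun x => ((LinearMap.toContinuousLinearMap L).restrictScalars ℝ) (φ x) := rfl
  rw [h]
  exact ((LinearMap.toContinuousLinearMap L).restrictScalars ℝ).contDiff.comp hφ

theorem contDiff_potential {n : WithTop ℕ∞} (hV : ∀ v, ContDiff ℝ n (fun x => V x v))
    (hφ : ContDiff ℝ n φ) : ContDiff ℝ n (fun x => V x (φ x)) := by
  have h1 : ContDiff ℝ n (fun x => ((LinearMap.toContinuousLinearMap (V x)).restrictScalars ℝ :
      F →L[ℝ] F)) := by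
    rw [contDiff_clm_apply_iff]
    intro v
    exact hV v
  exact h1.clm_apply hφ

theorem contDiff_fderiv_apply {n : WithTop ℕ∞} {m : WithTop ℕ∞} (hmn : m + 1 ≤ n)
    (hφ : ContDiff ℝ n φ) (e : EuclideanSpace ℝ κ) :
    ContDiff ℝ m (fun x => fderiv ℝ φ x e) :=
  (hφ.fderiv_right hmn).clm_apply contDiff_const

theorem contDiff_dirac {n m : WithTop ℕ∞} (hmn : m + 1 ≤ n)
    (hV : ∀ v, ContDiff ℝ m (fun x => V x v))
    (hφ : ContDiff ℝ n φ) : ContDiff ℝ m (dirac a V φ) := by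
  unfold dirac
  have hm : ContDiff ℝ m φ := hφ.of_le (le_trans (by exact le_self_add) hmn)
  apply ContDiff.add
  · apply ContDiff.sum
    intro k _
    exact (contDiff_linMap_apply (a k) (contDiff_fderiv_apply hmn hφ _)).const_smul _
  · exact contDiff_potential hV hm

theorem contDiff_dirac_top (hV : ∀ v, ContDiff ℝ ∞ (fun x => V x v))
    (hφ : ContDiff ℝ ∞ φ) : ContDiff ℝ ∞ (dirac a V φ) :=
  contDiff_dirac (by simp) hV hφ

theorem continuous_dirac (hV : ∀ v, Continuous (fun x => V x v))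
    (hφ : ContDiff ℝ 1 φ) : Continuous (dirac a V φ) := by
  have h := contDiff_dirac (a := a) (V := V) (n := 1) (m := 0) (by norm_num)
    (fun v => contDiff_zero.mpr (hV v)) hφ
  exact h.continuous

theorem memLp_dirac {p : ℝ≥0∞} {μ : Measure (EuclideanSpace ℝ κ)} [IsFiniteMeasureOnCompacts μ]
    (hV : ∀ v, Continuous (fun x => V x v))
    (hφ : ContDiff ℝ 1 φ) (hc : HasCompactSupport φ) : MemLp (dirac a V φ) p μ :=
  (continuous_dirac hV hφ).memLp_of_hasCompactSupport (hasCompactSupport_dirac hc)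

/-- (I3) symmetry -/
theorem dirac_symm (ha : ∀ k, (a k).IsSymmetric) (hVs : ∀ x, (V x).IsSymmetric)
    (hV : ∀ v, Continuous (fun x => V x v))
    (hφ : ContDiff ℝ 1 φ) (hψ : ContDiff ℝ 1 ψ)
    (hc : HasCompactSupport φ ∨ HasCompactSupport ψ) :
    ∫ x, ⟪dirac a V φ x, ψ x⟫_ℂ = ∫ x, ⟪φ x, dirac a V ψ x⟫_ℂ := by
  have hVc : ∀ {f : EuclideanSpace ℝ κ → F}, ContDiff ℝ 1 f → Continuous fun x => V x (f x) := by
    intro f hf
    exact (contDiff_potential (n := 0) (fun v => contDiff_zero.mpr (hV v))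
      (hf.of_le (by norm_num))).continuous
  have hac : ∀ (k : κ) {f : EuclideanSpace ℝ κ → F}, ContDiff ℝ 1 f →
      ContDiff ℝ 1 fun x => a k (f x) := fun k f hf => contDiff_linMap_apply (a k) hf
  -- termwise integrability
  have hI1 : ∀ k, Integrable (fun x =>
      ⟪(-Complex.I) • a k (fderiv ℝ φ x (EuclideanSpace.single k 1)), ψ x⟫_ℂ) := by
    intro k
    apply integrable_inner_of_cont
    · exact ((contDiff_linMap_apply (n := 0) (a k)
        (contDiff_zero.mpr (fderiv_apply_continuous hφ _))).continuous).const_smul _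
    · exact hψ.continuous
    · refine hc.imp (fun h => ?_) id
      exact (hasCompactSupport_fderiv_apply h (EuclideanSpace.single k 1)).mono'
        (fun x hx => subset_tsupport _ (by intro h0; apply hx; simp [h0]))
  have hI2 : ∀ k, Integrable (fun x =>
      ⟪φ x, (-Complex.I) • a k (fderiv ℝ ψ x (EuclideanSpace.single k 1))⟫_ℂ) := by
    intro k
    apply integrable_inner_of_cont
    · exact hφ.continuous
    · exact ((contDiff_linMap_apply (n := 0) (a k)
        (contDiff_zero.mpr (fderiv_apply_continuous hψ _))).continuous).const_smul _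
    · refine hc.imp id (fun h => ?_)
      exact (hasCompactSupport_fderiv_apply h (EuclideanSpace.single k 1)).mono'
        (fun x hx => subset_tsupport _ (by intro h0; apply hx; simp [h0]))
  have hJ1 : Integrable (fun x => ⟪V x (φ x), ψ x⟫_ℂ) := by
    apply integrable_inner_of_cont (hVc hφ) hψ.continuous
    exact hc.imp (fun h => h.mono' (fun x hx => subset_tsupport _ (by
      intro h0; apply hx; simp [h0]))) id
  have hJ2 : Integrable (fun x => ⟪φ x, V x (ψ x)⟫_ℂ) := by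
    apply integrable_inner_of_cont hφ.continuous (hVc hψ)
    exact hc.imp id (fun h => h.mono' (fun x hx => subset_tsupport _ (by
      intro h0; apply hx; simp [h0])))
  have hL : ∫ x, ⟪dirac a V φ x, ψ x⟫_ℂ =
      (∑ k, ∫ x, ⟪(-Complex.I) • a k (fderiv ℝ φ x (EuclideanSpace.single k 1)), ψ x⟫_ℂ) +
        ∫ x, ⟪V x (φ x), ψ x⟫_ℂ := by
    rw [← integral_finset_sum _ (fun k _ => hI1 k),
      ← integral_add (integrable_finset_sum _ (fun k _ => hI1 k)) hJ1]
    refine integral_congr_ae (Eventually.of_forall fun x => ?_)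
    simp only [dirac, inner_add_left, sum_inner]
  have hR : ∫ x, ⟪φ x, dirac a V ψ x⟫_ℂ =
      (∑ k, ∫ x, ⟪φ x, (-Complex.I) • a k (fderiv ℝ ψ x (EuclideanSpace.single k 1))⟫_ℂ) +
        ∫ x, ⟪φ x, V x (ψ x)⟫_ℂ := by
    rw [← integral_finset_sum _ (fun k _ => hI2 k),
      ← integral_add (integrable_finset_sum _ (fun k _ => hI2 k)) hJ2]
    refine integral_congr_ae (Eventually.of_forall fun x => ?_)
    simp only [dirac, inner_add_right, inner_sum]
  rw [hL, hR]
  congr 1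
  · refine Finset.sum_congr rfl fun k _ => ?_
    have e1 : ∀ x, ⟪(-Complex.I) • a k (fderiv ℝ φ x (EuclideanSpace.single k 1)), ψ x⟫_ℂ =
        Complex.I * ⟪fderiv ℝ φ x (EuclideanSpace.single k 1), a k (ψ x)⟫_ℂ := by
      intro x
      rw [inner_smul_left, ha k]
      simp
    have e2 : ∀ x, ⟪φ x, (-Complex.I) • a k (fderiv ℝ ψ x (EuclideanSpace.single k 1))⟫_ℂ =
        (-Complex.I) * ⟪φ x, fderiv ℝ (fun y => a k (ψ y)) x (EuclideanSpace.single k 1)⟫_ℂ := by
      intro x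
      rw [inner_smul_right]
      congr 2
      have hd : fderiv ℝ (fun y => a k (ψ y)) x =
          ((LinearMap.toContinuousLinearMap (a k)).restrictScalars ℝ).comp (fderiv ℝ ψ x) := by
        have := ((LinearMap.toContinuousLinearMap (a k)).restrictScalars ℝ).hasFDerivAt.comp x
          ((hψ.differentiable (by norm_num)) x).hasFDerivAt
        exact this.fderiv
      rw [hd]
      rfl
    simp only [e1, e2]
    rw [integral_const_mul, integral_const_mul, ibp hφ (hac k hψ) ?_]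
    · ring
    · exact hc.imp id (fun h => h.mono' (fun x hx => subset_tsupport _ (by
        intro h0; apply hx; simp [h0])))
  · refine integral_congr_ae (Eventually.of_forall fun x => ?_)
    exact hVs x _ _

end Smooth

end Dirac

/-! ### 3. Passing to limits in `L²` -/

section Limits

variable {X : Type*} [MeasurableSpace X] {μ : Measure X}
  {F : Type*} [NormedAddCommGroup F] [InnerProductSpace ℂ F]

theorem integrable_inner_of_memLp {f g : X → F} (hf : MemLp f 2 μ) (hg : MemLp g 2 μ) :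
    Integrable (fun x => ⟪f x, g x⟫_ℂ) μ := by
  have h : Integrable (fun x => ‖f x‖ * ‖g x‖) μ := hf.norm.integrable_mul hg.norm
  refine h.mono' (hf.1.inner hg.1) (Eventually.of_forall fun x => ?_)
  exact norm_inner_le_norm _ _

theorem norm_integral_inner_le {f g : X → F} (hf : MemLp f 2 μ) (hg : MemLp g 2 μ) :
    ENNReal.ofReal ‖∫ x, ⟪f x, g x⟫_ℂ ∂μ‖ ≤ eLpNorm f 2 μ * eLpNorm g 2 μ := by
  have h1 : ENNReal.ofReal ‖∫ x, ⟪f x, g x⟫_ℂ ∂μ‖ ≤ ∫⁻ x, ‖⟪f x, g x⟫_ℂ‖ₑ ∂μ := by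
    rw [ofReal_norm_eq_enorm]
    exact enorm_integral_le_lintegral_enorm _
  refine h1.trans ?_
  have h2 : ∫⁻ x, ‖⟪f x, g x⟫_ℂ‖ₑ ∂μ = eLpNorm (fun x => ⟪f x, g x⟫_ℂ) 1 μ :=
    eLpNorm_one_eq_lintegral_enorm.symm
  rw [h2]
  have h3 := eLpNorm_le_eLpNorm_mul_eLpNorm_of_nnnorm (p := 2) (q := 2) (r := 1) (μ := μ)
    hf.1 hg.1 (fun v w : F => ⟪v, w⟫_ℂ) 1 (Eventually.of_forall fun x => by
      simpa using nnnorm_inner_le_nnnorm (𝕜 := ℂ) (f x) (g x))
  simpa using h3

theorem tendsto_integral_inner {f : ℕ → X → F} {g : ℕ → X → F} {f₀ g₀ : X → F}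
    (hf : ∀ n, MemLp (f n) 2 μ) (hf₀ : MemLp f₀ 2 μ) (hg : ∀ n, MemLp (g n) 2 μ)
    (hg₀ : MemLp g₀ 2 μ) (h1 : Tendsto (fun n => eLpNorm (f n - f₀) 2 μ) atTop (𝓝 0))
    (h2 : Tendsto (fun n => eLpNorm (g n - g₀) 2 μ) atTop (𝓝 0)) :
    Tendsto (fun n => ∫ x, ⟪f n x, g n x⟫_ℂ ∂μ) atTop (𝓝 (∫ x, ⟪f₀ x, g₀ x⟫_ℂ ∂μ)) := by
  rw [tendsto_iff_norm_sub_tendsto_zero]
  have hkey : ∀ n, ENNReal.ofReal ‖∫ x, ⟪f n x, g n x⟫_ℂ ∂μ - ∫ x, ⟪f₀ x, g₀ x⟫_ℂ ∂μ‖ ≤
      eLpNorm (f n - f₀) 2 μ * (eLpNorm (g n - g₀) 2 μ + eLpNorm g₀ 2 μ) +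
        eLpNorm f₀ 2 μ * eLpNorm (g n - g₀) 2 μ := by
    intro n
    have hfs : MemLp (f n - f₀) 2 μ := (hf n).sub hf₀
    have hgs : MemLp (g n - g₀) 2 μ := (hg n).sub hg₀
    have e : ∫ x, ⟪f n x, g n x⟫_ℂ ∂μ - ∫ x, ⟪f₀ x, g₀ x⟫_ℂ ∂μ =
        ∫ x, ⟪(f n - f₀) x, g n x⟫_ℂ ∂μ + ∫ x, ⟪f₀ x, (g n - g₀) x⟫_ℂ ∂μ := by
      rw [← integral_sub (integrable_inner_of_memLp (hf n) (hg n))
        (integrable_inner_of_memLp hf₀ hg₀), ← integral_add
        (integrable_inner_of_memLp hfs (hg n)) (integrable_inner_of_memLp hf₀ hgs)]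
      refine integral_congr_ae (Eventually.of_forall fun x => ?_)
      simp only [Pi.sub_apply, inner_sub_left, inner_sub_right]
      ring
    rw [e]
    calc ENNReal.ofReal ‖∫ x, ⟪(f n - f₀) x, g n x⟫_ℂ ∂μ + ∫ x, ⟪f₀ x, (g n - g₀) x⟫_ℂ ∂μ‖
        ≤ ENNReal.ofReal (‖∫ x, ⟪(f n - f₀) x, g n x⟫_ℂ ∂μ‖ +
            ‖∫ x, ⟪f₀ x, (g n - g₀) x⟫_ℂ ∂μ‖) := ENNReal.ofReal_le_ofReal (norm_add_le _ _)
      _ = ENNReal.ofReal ‖∫ x, ⟪(f n - f₀) x, g n x⟫_ℂ ∂μ‖ +
            ENNReal.ofReal ‖∫ x, ⟪f₀ x, (g n - g₀) x⟫_ℂ ∂μ‖ :=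
          ENNReal.ofReal_add (norm_nonneg _) (norm_nonneg _)
      _ ≤ eLpNorm (f n - f₀) 2 μ * eLpNorm (g n) 2 μ +
            eLpNorm f₀ 2 μ * eLpNorm (g n - g₀) 2 μ :=
          add_le_add (norm_integral_inner_le hfs (hg n)) (norm_integral_inner_le hf₀ hgs)
      _ ≤ _ := by
          gcongr
          have : g n = (g n - g₀) + g₀ := by simp
          calc eLpNorm (g n) 2 μ = eLpNorm ((g n - g₀) + g₀) 2 μ := by rw [← this]
            _ ≤ _ := eLpNorm_add_le hgs.1 hg₀.1 (by norm_num)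
  have hlim : Tendsto (fun n => eLpNorm (f n - f₀) 2 μ *
      (eLpNorm (g n - g₀) 2 μ + eLpNorm g₀ 2 μ) + eLpNorm f₀ 2 μ * eLpNorm (g n - g₀) 2 μ)
      atTop (𝓝 0) := by
    have hb : Tendsto (fun n => eLpNorm (g n - g₀) 2 μ + eLpNorm g₀ 2 μ) atTop
        (𝓝 (0 + eLpNorm g₀ 2 μ)) := h2.add_const _
    have h3 := ENNReal.Tendsto.mul h1 (Or.inr (by simpa using hg₀.2.ne)) hb
      (Or.inr (by simp))
    have h4 := ENNReal.Tendsto.const_mul (a := eLpNorm f₀ 2 μ) h2 (Or.inr hf₀.2.ne)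
    have h5 := h3.add h4
    simpa using h5
  have h0 := tendsto_of_tendsto_of_tendsto_of_le_of_le tendsto_const_nhds hlim
    (fun _ => bot_le) hkey
  have h6 := (ENNReal.tendsto_toReal (by simp : (0 : ℝ≥0∞) ≠ ⊤)).comp h0
  simpa [Function.comp_def, ENNReal.toReal_ofReal (norm_nonneg _)] using h6


end Limits

/-! ### 4. Weak form and closability -/

section Weak

variable {κ : Type*} [Fintype κ] [DecidableEq κ]
  {F : Type*} [NormedAddCommGroup F] [InnerProductSpace ℂ F] [FiniteDimensional ℂ F]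
  {a : κ → F →ₗ[ℂ] F} {V : EuclideanSpace ℝ κ → F →ₗ[ℂ] F}

/-- (I4, weak form) if `φ_n → Φ`, `D φ_n → X` in `L²` then `∫⟪X, ψ⟫ = ∫⟪Φ, D ψ⟫` for every test
function `ψ`. -/
theorem weak_of_limit (ha : ∀ k, (a k).IsSymmetric) (hVs : ∀ x, (V x).IsSymmetric)
    (hV : ∀ v, Continuous (fun x => V x v))
    {φ : ℕ → EuclideanSpace ℝ κ → F} {Φ Y ψ : EuclideanSpace ℝ κ → F}
    (hφ : ∀ n, ContDiff ℝ 1 (φ n)) (hc : ∀ n, HasCompactSupport (φ n))
    (hΦ : MemLp Φ 2 volume) (hY : MemLp Y 2 volume)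
    (h1 : Tendsto (fun n => eLpNorm (φ n - Φ) 2 volume) atTop (𝓝 0))
    (h2 : Tendsto (fun n => eLpNorm (dirac a V (φ n) - Y) 2 volume) atTop (𝓝 0))
    (hψ : ContDiff ℝ 1 ψ) (hψc : HasCompactSupport ψ) :
    ∫ x, ⟪Y x, ψ x⟫_ℂ = ∫ x, ⟪Φ x, dirac a V ψ x⟫_ℂ := by
  have hm : ∀ n, MemLp (φ n) 2 volume := fun n =>
    (hφ n).continuous.memLp_of_hasCompactSupport (hc n)
  have hψm : MemLp ψ 2 volume := hψ.continuous.memLp_of_hasCompactSupport hψc
  have hDm : MemLp (dirac a V ψ) 2 volume := memLp_dirac hV hψ hψc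
  have hDn : ∀ n, MemLp (dirac a V (φ n)) 2 volume := fun n => memLp_dirac hV (hφ n) (hc n)
  have z : Tendsto (fun _ : ℕ => eLpNorm (ψ - ψ) 2 (volume : Measure (EuclideanSpace ℝ κ)))
      atTop (𝓝 0) := by simp
  have z' : Tendsto (fun _ : ℕ => eLpNorm (dirac a V ψ - dirac a V ψ) 2
      (volume : Measure (EuclideanSpace ℝ κ))) atTop (𝓝 0) := by simp
  have hA := tendsto_integral_inner hDn hY (fun _ : ℕ => hψm) hψm h2 z
  have hB := tendsto_integral_inner hm hΦ (fun _ : ℕ => hDm) hDm h1 z'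
  have hAB : (fun n => ∫ x, ⟪dirac a V (φ n) x, ψ x⟫_ℂ) =
      fun n => ∫ x, ⟪φ n x, dirac a V ψ x⟫_ℂ := by
    funext n
    exact dirac_symm ha hVs hV (hφ n) hψ (Or.inl (hc n))
  rw [hAB] at hA
  exact tendsto_nhds_unique hA hB

/-- an `L²` function orthogonal to all test functions vanishes a.e. -/
theorem ae_zero_of_orth {Y : EuclideanSpace ℝ κ → F} (hY : MemLp Y 2 volume)
    (h : ∀ ψ : EuclideanSpace ℝ κ → F, ContDiff ℝ ∞ ψ → HasCompactSupport ψ →
      ∫ x, ⟪Y x, ψ x⟫_ℂ = 0) : Y =ᵐ[volume] 0 := by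
  have hloc : LocallyIntegrable Y volume := hY.locallyIntegrable (by norm_num)
  have hg : ∀ (g : EuclideanSpace ℝ κ → ℝ), ContDiff ℝ ∞ g → HasCompactSupport g →
      ∫ x, g x • Y x = 0 := by
    intro g hg hgc
    apply ext_inner_right ℂ
    intro v
    have hint : Integrable (fun x => g x • Y x) := by
      have := hloc.integrable_smul_left_of_hasCompactSupport hg.continuous hgc
      exact this
    have e1 : ⟪∫ x, g x • Y x, v⟫_ℂ = ∫ x, ⟪g x • Y x, v⟫_ℂ := by
      have h3 := integral_inner (𝕜 := ℂ) hint v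
      have h4 : ∫ x, ⟪g x • Y x, v⟫_ℂ = starRingEnd ℂ (∫ x, ⟪v, g x • Y x⟫_ℂ) := by
        rw [← integral_conj]
        refine integral_congr_ae (Eventually.of_forall fun x => ?_)
        exact (inner_conj_symm _ _).symm
      rw [h4, h3, inner_conj_symm]
    rw [e1, inner_zero_left]
    have e2 := h (fun x => g x • v) (hg.smul contDiff_const)
      (hgc.mono' (fun x hx => subset_tsupport _ (by intro h0; apply hx; simp [h0])))
    rw [← e2]
    refine integral_congr_ae (Eventually.of_forall fun x => ?_)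
    show ⟪g x • Y x, v⟫_ℂ = ⟪Y x, g x • v⟫_ℂ
    rw [← Complex.coe_smul, ← Complex.coe_smul, inner_smul_left, inner_smul_right]
    simp
  exact ae_eq_zero_of_integral_contDiff_smul_eq_zero hloc hg

/-- (I4) closability -/
theorem closable (ha : ∀ k, (a k).IsSymmetric) (hVs : ∀ x, (V x).IsSymmetric)
    (hV : ∀ v, Continuous (fun x => V x v))
    {φ : ℕ → EuclideanSpace ℝ κ → F} {Y : EuclideanSpace ℝ κ → F}
    (hφ : ∀ n, ContDiff ℝ 1 (φ n)) (hc : ∀ n, HasCompactSupport (φ n))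
    (hY : MemLp Y 2 volume)
    (h1 : Tendsto (fun n => eLpNorm (φ n) 2 volume) atTop (𝓝 0))
    (h2 : Tendsto (fun n => eLpNorm (dirac a V (φ n) - Y) 2 volume) atTop (𝓝 0)) :
    Y =ᵐ[volume] 0 := by
  apply ae_zero_of_orth hY
  intro ψ hψ hψc
  rw [weak_of_limit ha hVs hV hφ hc (MemLp.zero : MemLp (0 : EuclideanSpace ℝ κ → F) 2 volume)
    hY (by simpa using h1) h2 (hψ.of_le (by norm_num)) hψc]
  simp

end Weak

/-! ### 5. The supercharges -/

section Super

variable {N : ℕ} {F : Type*} [NormedAddCommGroup F] [InnerProductSpace ℂ F]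
  [FiniteDimensional ℂ F]

/-- coefficient of `-i ∂_{iA}` in every charge: `Σ_β γ^i_αβ θ_β^A` -/
def dco (M : FermionRep N F) (G : GammaNine) (α : Fin 16) (k : Fin 9 × Fin (N ^ 2 - 1)) :
    F →ₗ[ℂ] F :=
  ∑ β, (G.γ k.1 α β : ℂ) • M.θ β k.2

/-- real linear combination of the generators: `Σ_{A,β} c_β^A θ_β^A` -/
def vco (M : FermionRep N F) (c : Fin 16 → Fin (N ^ 2 - 1) → ℝ) : F →ₗ[ℂ] F :=
  ∑ A, ∑ β, (c β A : ℂ) • M.θ β A

/-- the potential coefficient of `Q_α`: `(1/2) Σ f_ABC x_i^B x_j^C γ^ij_αβ` -/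
def wco (b : ColorBasis N) (G : GammaNine) (α β : Fin 16) (A : Fin (N ^ 2 - 1)) (x : Cfg N) : ℝ :=
  ∑ B, ∑ C, ∑ i, ∑ j, 1 / 2 * b.structConst A B C * x (i, B) * x (j, C) * G.γ2 i j α β

/-- General charge with real potential coefficients `W α β A x`:
`Q_α^W φ = -i Σ γ^i_αβ θ_β^A ∂_{iA} φ + Σ W_{αβA}(x) θ_β^A φ`. -/
def chargeW (M : FermionRep N F) (G : GammaNine)
    (W : Fin 16 → Fin 16 → Fin (N ^ 2 - 1) → Cfg N → ℝ) (α : Fin 16) (φ : Cfg N → F) (x : Cfg N) :
    F :=
  dirac (dco M G α) (fun x => vco M (fun β A => W α β A x)) φ x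

theorem vco_apply (M : FermionRep N F) (c : Fin 16 → Fin (N ^ 2 - 1) → ℝ) (v : F) :
    vco M c v = ∑ A, ∑ β, (c β A : ℂ) • M.θ β A v := by
  simp [vco]

theorem dco_apply (M : FermionRep N F) (G : GammaNine) (α : Fin 16)
    (k : Fin 9 × Fin (N ^ 2 - 1)) (v : F) :
    dco M G α k v = ∑ β, (G.γ k.1 α β : ℂ) • M.θ β k.2 v := by
  simp [dco]

theorem isSymmetric_real_smul {L : F →ₗ[ℂ] F} (hL : L.IsSymmetric) (r : ℝ) :
    ((r : ℂ) • L).IsSymmetric := by
  intro v w
  simp only [LinearMap.smul_apply, inner_smul_left, inner_smul_right, hL v w]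
  simp

theorem isSymmetric_sum {ι : Type*} (s : Finset ι) {L : ι → F →ₗ[ℂ] F}
    (hL : ∀ i ∈ s, (L i).IsSymmetric) : (∑ i ∈ s, L i).IsSymmetric := by
  intro v w
  simp only [LinearMap.sum_apply, sum_inner, inner_sum]
  exact Finset.sum_congr rfl fun i hi => hL i hi v w

theorem dco_symm (M : FermionRep N F) (G : GammaNine) (α : Fin 16)
    (k : Fin 9 × Fin (N ^ 2 - 1)) : (dco M G α k).IsSymmetric :=
  isSymmetric_sum _ fun β _ => isSymmetric_real_smul (M.selfAdjoint β k.2) _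

theorem vco_symm (M : FermionRep N F) (c : Fin 16 → Fin (N ^ 2 - 1) → ℝ) :
    (vco M c).IsSymmetric :=
  isSymmetric_sum _ fun A _ => isSymmetric_sum _ fun β _ =>
    isSymmetric_real_smul (M.selfAdjoint β A) _

theorem vco_contDiff (M : FermionRep N F) {n : WithTop ℕ∞}
    {W : Fin 16 → Fin (N ^ 2 - 1) → Cfg N → ℝ} (hW : ∀ β A, ContDiff ℝ n (W β A)) (v : F) :
    ContDiff ℝ n (fun x => vco M (fun β A => W β A x) v) := by
  simp only [vco_apply]
  refine ContDiff.sum fun A _ => ContDiff.sum fun β _ => ?_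
  have h : (fun x => (W β A x : ℂ) • M.θ β A v) = fun x => W β A x • M.θ β A v := by
    funext x
    exact Complex.coe_smul _ _
  rw [h]
  exact (hW β A).smul contDiff_const

theorem wco_contDiff (b : ColorBasis N) (G : GammaNine) (α β : Fin 16) (A : Fin (N ^ 2 - 1))
    {n : WithTop ℕ∞} : ContDiff ℝ n (wco b G α β A) := by
  unfold wco
  refine ContDiff.sum fun B _ => ContDiff.sum fun C _ => ContDiff.sum fun i _ =>
    ContDiff.sum fun j _ => ?_
  have h1 : ∀ k : Fin 9 × Fin (N ^ 2 - 1), ContDiff ℝ n (fun x : Cfg N => x k) := fun k =>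
    (EuclideanSpace.proj k : Cfg N →L[ℝ] ℝ).contDiff
  exact (((contDiff_const.mul (h1 _)).mul (h1 _)).mul contDiff_const)

/-- the Prelude supercharge is the general charge with `W = wco` -/
theorem supercharge_eq (b : ColorBasis N) (M : FermionRep N F) (G : GammaNine) (α : Fin 16)
    (φ : Cfg N → F) : supercharge b M G α φ = chargeW M G (wco b G) α φ := by
  funext x
  unfold supercharge chargeW dirac
  congr 1
  · rw [Fintype.sum_prod_type]
    refine Finset.sum_congr rfl fun i _ => Finset.sum_congr rfl fun A _ => ?_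
    rw [dco_apply, Finset.smul_sum]
    refine Finset.sum_congr rfl fun β _ => ?_
    rw [smul_smul]
  · rw [vco_apply]
    refine Finset.sum_congr rfl fun A _ => ?_
    have h : ∀ β : Fin 16, ((wco b G α β A x : ℝ) : ℂ) • M.θ β A (φ x) =
        ∑ B : Fin (N ^ 2 - 1), ∑ C : Fin (N ^ 2 - 1), ∑ i : Fin 9, ∑ j : Fin 9,
          ((1 / 2 * b.structConst A B C * x (i, B) * x (j, C) * G.γ2 i j α β : ℝ) : ℂ) •
            M.θ β A (φ x) := by
      intro β
      unfold wco
      push_cast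
      simp only [Finset.sum_smul]
    simp only [h]
    symm
    rw [Finset.sum_comm]
    refine Finset.sum_congr rfl fun B _ => ?_
    rw [Finset.sum_comm]
    refine Finset.sum_congr rfl fun C _ => ?_
    rw [Finset.sum_comm]
    refine Finset.sum_congr rfl fun i _ => ?_
    rw [Finset.sum_comm]

section ChargeW

variable {M : FermionRep N F} {G : GammaNine}
  {W : Fin 16 → Fin 16 → Fin (N ^ 2 - 1) → Cfg N → ℝ} {α : Fin 16} {φ ψ : Cfg N → F}

theorem chargeW_apply (x : Cfg N) : chargeW M G W α φ x =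
    (∑ k : Fin 9 × Fin (N ^ 2 - 1),
      (-Complex.I) • dco M G α k (fderiv ℝ φ x (EuclideanSpace.single k 1))) +
      vco M (fun β A => W α β A x) (φ x) := rfl

/-- a change of the potential coefficients -/
theorem chargeW_sub_chargeW (W' : Fin 16 → Fin 16 → Fin (N ^ 2 - 1) → Cfg N → ℝ) (x : Cfg N) :
    chargeW M G W α φ x - chargeW M G W' α φ x =
      vco M (fun β A => W α β A x - W' α β A x) (φ x) := by
  simp only [chargeW_apply, vco_apply, add_sub_add_left_eq_sub, ← Finset.sum_sub_distrib,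
    ← sub_smul]
  push_cast
  rfl



theorem chargeW_sub {x : Cfg N} (hφ : DifferentiableAt ℝ φ x) (hψ : DifferentiableAt ℝ ψ x) :
    chargeW M G W α (φ - ψ) x = chargeW M G W α φ x - chargeW M G W α ψ x := dirac_sub hφ hψ





theorem tsupport_chargeW_subset : tsupport (chargeW M G W α φ) ⊆ tsupport φ :=
  tsupport_dirac_subset

theorem hasCompactSupport_chargeW (h : HasCompactSupport φ) :
    HasCompactSupport (chargeW M G W α φ) := hasCompactSupport_dirac h

theorem contDiff_chargeW (hW : ∀ β A, ContDiff ℝ ∞ (W α β A)) (hφ : ContDiff ℝ ∞ φ) :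
    ContDiff ℝ ∞ (chargeW M G W α φ) :=
  contDiff_dirac_top (fun v => vco_contDiff M (W := W α) hW v) hφ

theorem continuous_chargeW (hW : ∀ β A, Continuous (W α β A)) (hφ : ContDiff ℝ 1 φ) :
    Continuous (chargeW M G W α φ) :=
  continuous_dirac (fun v => (vco_contDiff M (n := 0) (W := W α)
    (fun β A => contDiff_zero.mpr (hW β A)) v).continuous) hφ

theorem memLp_chargeW {p : ℝ≥0∞} (hW : ∀ β A, Continuous (W α β A)) (hφ : ContDiff ℝ 1 φ)
    (hc : HasCompactSupport φ) : MemLp (chargeW M G W α φ) p volume :=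
  (continuous_chargeW hW hφ).memLp_of_hasCompactSupport (hasCompactSupport_chargeW hc)

/-- (I3) symmetry -/
theorem chargeW_symm (hW : ∀ β A, Continuous (W α β A)) (hφ : ContDiff ℝ 1 φ)
    (hψ : ContDiff ℝ 1 ψ) (hc : HasCompactSupport φ ∨ HasCompactSupport ψ) :
    ∫ x, ⟪chargeW M G W α φ x, ψ x⟫_ℂ = ∫ x, ⟪φ x, chargeW M G W α ψ x⟫_ℂ :=
  dirac_symm (dco_symm M G α) (fun _ => vco_symm M _)
    (fun v => (vco_contDiff M (n := 0) (W := W α)
      (fun β A => contDiff_zero.mpr (hW β A)) v).continuous) hφ hψ hc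

/-- (I4, weak form) -/
theorem chargeW_weak_of_limit (hW : ∀ β A, Continuous (W α β A))
    {f : ℕ → Cfg N → F} {Φ Y : Cfg N → F}
    (hf : ∀ n, ContDiff ℝ 1 (f n)) (hc : ∀ n, HasCompactSupport (f n))
    (hΦ : MemLp Φ 2 volume) (hY : MemLp Y 2 volume)
    (h1 : Tendsto (fun n => eLpNorm (f n - Φ) 2 volume) atTop (𝓝 0))
    (h2 : Tendsto (fun n => eLpNorm (chargeW M G W α (f n) - Y) 2 volume) atTop (𝓝 0))
    (hψ : ContDiff ℝ 1 ψ) (hψc : HasCompactSupport ψ) :
    ∫ x, ⟪Y x, ψ x⟫_ℂ = ∫ x, ⟪Φ x, chargeW M G W α ψ x⟫_ℂ :=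
  weak_of_limit (dco_symm M G α) (fun _ => vco_symm M _)
    (fun v => (vco_contDiff M (n := 0) (W := W α)
      (fun β A => contDiff_zero.mpr (hW β A)) v).continuous) hf hc hΦ hY h1 h2 hψ hψc

/-- (I4) closability -/
theorem chargeW_closable (hW : ∀ β A, Continuous (W α β A))
    {f : ℕ → Cfg N → F} {Y : Cfg N → F}
    (hf : ∀ n, ContDiff ℝ 1 (f n)) (hc : ∀ n, HasCompactSupport (f n))
    (hY : MemLp Y 2 volume)
    (h1 : Tendsto (fun n => eLpNorm (f n) 2 volume) atTop (𝓝 0))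
    (h2 : Tendsto (fun n => eLpNorm (chargeW M G W α (f n) - Y) 2 volume) atTop (𝓝 0)) :
    Y =ᵐ[volume] 0 :=
  closable (dco_symm M G α) (fun _ => vco_symm M _)
    (fun v => (vco_contDiff M (n := 0) (W := W α)
      (fun β A => contDiff_zero.mpr (hW β A)) v).continuous) hf hc hY h1 h2

end ChargeW

section SC

variable {b : ColorBasis N} {M : FermionRep N F} {G : GammaNine} {α : Fin 16}
  {φ ψ : Cfg N → F}

theorem wco_continuous (β : Fin 16) (A : Fin (N ^ 2 - 1)) : Continuous (wco b G α β A) :=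
  (wco_contDiff b G α β A (n := 0)).continuous








theorem hasCompactSupport_supercharge (h : HasCompactSupport φ) :
    HasCompactSupport (supercharge b M G α φ) := by
  rw [supercharge_eq]; exact hasCompactSupport_chargeW h

theorem contDiff_supercharge (hφ : ContDiff ℝ ∞ φ) : ContDiff ℝ ∞ (supercharge b M G α φ) := by
  rw [supercharge_eq]
  exact contDiff_chargeW (fun β A => wco_contDiff b G α β A) hφ


theorem memLp_supercharge {p : ℝ≥0∞} (hφ : ContDiff ℝ 1 φ) (hc : HasCompactSupport φ) :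
    MemLp (supercharge b M G α φ) p volume := by
  rw [supercharge_eq]
  exact memLp_chargeW wco_continuous hφ hc



theorem supercharge_closable {f : ℕ → Cfg N → F} {Y : Cfg N → F}
    (hf : ∀ n, ContDiff ℝ 1 (f n)) (hc : ∀ n, HasCompactSupport (f n))
    (hY : MemLp Y 2 volume)
    (h1 : Tendsto (fun n => eLpNorm (f n) 2 volume) atTop (𝓝 0))
    (h2 : Tendsto (fun n => eLpNorm (supercharge b M G α (f n) - Y) 2 volume) atTop (𝓝 0)) :
    Y =ᵐ[volume] 0 := by
  simp only [supercharge_eq] at h2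
  exact chargeW_closable wco_continuous hf hc hY h1 h2

/-- core vectors: basic closure properties -/
theorem core_contDiff {R : GaugeAction b M} (h : IsCoreVec b R φ) {n : WithTop ℕ∞}
    (hn : n ≤ ((⊤ : ℕ∞) : WithTop ℕ∞)) : ContDiff ℝ n φ := h.1.of_le hn

theorem core_differentiable {R : GaugeAction b M} (h : IsCoreVec b R φ) : Differentiable ℝ φ :=
  h.1.differentiable (by simp)

theorem core_memLp {R : GaugeAction b M} (h : IsCoreVec b R φ) {p : ℝ≥0∞} :
    MemLp φ p volume := h.1.continuous.memLp_of_hasCompactSupport h.2.1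


theorem core_add {R : GaugeAction b M} (h : IsCoreVec b R φ) (h' : IsCoreVec b R ψ) :
    IsCoreVec b R (φ + ψ) :=
  ⟨h.1.add h'.1, h.2.1.add h'.2.1, fun g x => by
    simp only [Pi.add_apply, h.2.2 g x, h'.2.2 g x, map_add]⟩

theorem core_smul {R : GaugeAction b M} (c : ℂ) (h : IsCoreVec b R φ) :
    IsCoreVec b R (c • φ) :=
  ⟨h.1.const_smul c, h.2.1.mono' (fun x hx => subset_tsupport _ (by
      intro h0; apply hx; simp [h0])), fun g x => by
    simp only [Pi.smul_apply, h.2.2 g x, map_smul]⟩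

theorem core_neg {R : GaugeAction b M} (h : IsCoreVec b R φ) : IsCoreVec b R (-φ) := by
  have := core_smul (-1) h
  simpa using this

theorem core_sub {R : GaugeAction b M} (h : IsCoreVec b R φ) (h' : IsCoreVec b R ψ) :
    IsCoreVec b R (φ - ψ) := by
  rw [sub_eq_add_neg]; exact core_add h (core_neg h')




end SC

end Super

end Crest.Agent.R330.IBP837
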