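import Mathlib
import Crest.Agent.R330.IBP_837

-- ▼ part R330/FreeA_122
section

/-!
Row 330 (helper122): the free massive abelian model, part A: Fourier injectivity on `L¹` and the
transport equation satisfied by the Fourier transform of `Φ f`.
-/

set_option autoImplicit false
set_option linter.unusedSectionVars false

noncomputable section

namespace Crest.Agent.R330.FreeA122

open MeasureTheory Filter Topology Crest.Agent.R330.IBP837
open scoped ContDiff InnerProductSpace ENNReal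

section Fourier

variable {E : Type*} [NormedAddCommGroup E] [InnerProductSpace ℝ E] [FiniteDimensional ℝ E]
  [MeasurableSpace E] [BorelSpace E]

/-- real version: an integrable real function with vanishing Fourier transform is zero a.e. -/
theorem ae_zero_of_char_real {r : E → ℝ} (hr : Integrable r)
    (h : ∀ k : E, ∫ x, (r x : ℂ) * Complex.exp (⟪x, k⟫_ℝ * Complex.I) = 0) : r =ᵐ[volume] 0 := by
  -- positive and negative parts
  set μ : Measure E := volume.withDensity (fun x => ENNReal.ofReal (r x)) with hμ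
  set ν : Measure E := volume.withDensity (fun x => ENNReal.ofReal (-r x)) with hν
  have fμ : IsFiniteMeasure μ := isFiniteMeasure_withDensity_ofReal hr.2
  have fν : IsFiniteMeasure ν := isFiniteMeasure_withDensity_ofReal hr.neg.2
  have hmeas : AEMeasurable r volume := hr.1.aemeasurable
  have key : ∀ (s : E → ℝ), AEMeasurable s volume → ∀ (g : E → ℂ),
      ∫ x, g x ∂(volume.withDensity (fun x => ENNReal.ofReal (s x))) =
        ∫ x, (max (s x) 0 : ℝ) • g x := by
    intro s hs g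
    rw [integral_withDensity_eq_integral_toReal_smul₀ hs.ennreal_ofReal
      (Eventually.of_forall fun x => ENNReal.ofReal_lt_top)]
    refine integral_congr_ae (Eventually.of_forall fun x => ?_)
    simp [ENNReal.toReal_ofReal']
  have hE : μ = ν := by
    apply Measure.ext_of_charFun
    ext k
    rw [charFun_apply, charFun_apply, hμ, hν, key r hmeas, key (fun x => -r x) hmeas.neg]
    have hbd : ∀ x : E, ‖Complex.exp (⟪x, k⟫_ℝ * Complex.I)‖ ≤ 1 := by
      intro x; rw [Complex.norm_exp_ofReal_mul_I]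
    have hcont : Continuous fun x : E => Complex.exp (⟪x, k⟫_ℝ * Complex.I) := by fun_prop
    have i1 : Integrable fun x => (max (r x) 0 : ℝ) • Complex.exp (⟪x, k⟫_ℝ * Complex.I) := by
      simp only [Complex.real_smul]
      exact (hr.pos_part.ofReal (𝕜 := ℂ)).mul_bdd (c := 1) hcont.aestronglyMeasurable
        (Eventually.of_forall hbd)
    have i2 : Integrable fun x => (max (-r x) 0 : ℝ) • Complex.exp (⟪x, k⟫_ℝ * Complex.I) := by
      simp only [Complex.real_smul]
      exact (hr.neg_part.ofReal (𝕜 := ℂ)).mul_bdd (c := 1) hcont.aestronglyMeasurable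
        (Eventually.of_forall hbd)
    rw [← sub_eq_zero, ← integral_sub i1 i2, ← h k]
    refine integral_congr_ae (Eventually.of_forall fun x => ?_)
    simp only [Complex.real_smul]
    rw [← sub_mul, ← Complex.ofReal_sub]
    congr 2
    rcases le_total 0 (r x) with h0 | h0
    · rw [max_eq_left h0, max_eq_right (by linarith)]; ring
    · rw [max_eq_right h0, max_eq_left (by linarith)]; ring
  have hEq : (fun x => ENNReal.ofReal (r x)) =ᵐ[volume] fun x => ENNReal.ofReal (-r x) := by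
    have := (withDensity_eq_iff (μ := (volume : Measure E)) hmeas.ennreal_ofReal
      hmeas.neg.ennreal_ofReal ?_).mp hE
    · exact this
    · have := hr.lintegral_lt_top
      exact this.ne
  filter_upwards [hEq] with x hx
  by_contra hne
  rcases lt_or_gt_of_ne hne with h0 | h0
  · have h0' : r x < 0 := h0
    rw [ENNReal.ofReal_of_nonpos h0'.le] at hx
    have : ENNReal.ofReal (-r x) ≠ 0 := by
      rw [Ne, ENNReal.ofReal_eq_zero, not_le]; linarith
    exact this hx.symm
  · have h0' : 0 < r x := h0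
    rw [ENNReal.ofReal_of_nonpos (show -r x ≤ 0 by linarith)] at hx
    have : ENNReal.ofReal (r x) ≠ 0 := by
      rw [Ne, ENNReal.ofReal_eq_zero, not_le]; linarith
    exact this hx

/-- an integrable complex function with vanishing Fourier transform is zero a.e. -/
theorem ae_zero_of_char {g : E → ℂ} (hg : Integrable g)
    (h : ∀ k : E, ∫ x, g x * Complex.exp (⟪x, k⟫_ℝ * Complex.I) = 0) : g =ᵐ[volume] 0 := by
  have hbd : ∀ k x : E, ‖Complex.exp (⟪x, k⟫_ℝ * Complex.I)‖ ≤ 1 := by
    intro k x; rw [Complex.norm_exp_ofReal_mul_I]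
  have hcont : ∀ k : E, Continuous fun x : E => Complex.exp (⟪x, k⟫_ℝ * Complex.I) := by
    intro k; fun_prop
  have hint : ∀ {u : E → ℂ}, Integrable u → ∀ k,
      Integrable fun x => u x * Complex.exp (⟪x, k⟫_ℝ * Complex.I) := by
    intro u hu k
    exact hu.mul_bdd (c := 1) (hcont k).aestronglyMeasurable (Eventually.of_forall (hbd k))
  have hconj : ∀ k : E, ∫ x, (starRingEnd ℂ) (g x) * Complex.exp (⟪x, k⟫_ℝ * Complex.I) = 0 := by
    intro k
    have h1 := h (-k)
    have h2 := congrArg (starRingEnd ℂ) h1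
    rw [map_zero, ← integral_conj] at h2
    rw [← h2]
    refine integral_congr_ae (Eventually.of_forall fun x => ?_)
    simp only [map_mul, ← Complex.exp_conj, inner_neg_right, Complex.conj_I, Complex.conj_ofReal]
    congr 2
    push_cast
    ring
  have hgc : Integrable fun x => (starRingEnd ℂ) (g x) := by
    have := (Complex.conjLIE.toContinuousLinearEquiv.toContinuousLinearMap).integrable_comp hg
    exact this
  have hre : (fun x => (g x).re) =ᵐ[volume] 0 := by
    refine ae_zero_of_char_real (r := fun x => (g x).re) hg.re ?_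
    intro k
    have e : ∀ x, (((g x).re : ℝ) : ℂ) * Complex.exp (⟪x, k⟫_ℝ * Complex.I) =
        (1 / 2 : ℂ) * (g x * Complex.exp (⟪x, k⟫_ℝ * Complex.I)) +
        (1 / 2 : ℂ) * ((starRingEnd ℂ) (g x) * Complex.exp (⟪x, k⟫_ℝ * Complex.I)) := by
      intro x
      rw [Complex.re_eq_add_conj]; ring
    rw [integral_congr_ae (Eventually.of_forall e)]
    rw [integral_add ((hint hg k).const_mul _) ((hint hgc k).const_mul _),
      integral_const_mul, integral_const_mul, h k, hconj k]
    simp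
  have him : (fun x => (g x).im) =ᵐ[volume] 0 := by
    refine ae_zero_of_char_real (r := fun x => (g x).im) hg.im ?_
    intro k
    have e : ∀ x, (((g x).im : ℝ) : ℂ) * Complex.exp (⟪x, k⟫_ℝ * Complex.I) =
        (1 / (2 * Complex.I) : ℂ) * (g x * Complex.exp (⟪x, k⟫_ℝ * Complex.I)) -
        (1 / (2 * Complex.I) : ℂ) * ((starRingEnd ℂ) (g x) *
          Complex.exp (⟪x, k⟫_ℝ * Complex.I)) := by
      intro x
      rw [Complex.im_eq_sub_conj]; ring
    rw [integral_congr_ae (Eventually.of_forall e)]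
    rw [integral_sub ((hint hg k).const_mul _) ((hint hgc k).const_mul _),
      integral_const_mul, integral_const_mul, h k, hconj k]
    simp
  filter_upwards [hre, him] with x h1 h2
  exact Complex.ext h1 h2

end Fourier

/-! ### The transport equation -/

section Transport

variable {κ : Type*} [Fintype κ] [DecidableEq κ]

/-- the plane wave phase `Σ k_l x_l` -/
def ph (k x : EuclideanSpace ℝ κ) : ℝ := ∑ l, k l * x l

theorem ph_eq_inner (k x : EuclideanSpace ℝ κ) : ph k x = ⟪x, k⟫_ℝ := by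
  unfold ph
  rw [PiLp.inner_apply]
  refine Finset.sum_congr rfl fun l _ => ?_
  simp

/-- the plane wave -/
def pw (k x : EuclideanSpace ℝ κ) : ℂ := Complex.exp (ph k x * Complex.I)

theorem norm_pw (k x : EuclideanSpace ℝ κ) : ‖pw k x‖ = 1 := by
  unfold pw; rw [Complex.norm_exp_ofReal_mul_I]

theorem continuous_pw (k : EuclideanSpace ℝ κ) : Continuous (pw k) := by
  unfold pw ph; fun_prop

/-- scaled frequency `k_l e^{om_l t}` -/
def kt (om : κ → ℝ) (k : EuclideanSpace ℝ κ) (t : ℝ) : EuclideanSpace ℝ κ :=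
  WithLp.toLp 2 (fun l => k l * Real.exp (om l * t))

theorem kt_apply (om : κ → ℝ) (k : EuclideanSpace ℝ κ) (t : ℝ) (l : κ) :
    kt om k t l = k l * Real.exp (om l * t) := rfl

theorem kt_zero (om : κ → ℝ) (k : EuclideanSpace ℝ κ) : kt om k 0 = k := by
  ext l; simp [kt_apply]

/-- TRANSPORT LEMMA: if `g`, `|x| g` are integrable and
`∫ g (½|k|² + λ + i Σ om_l k_l x_l) e^{i k·x} = 0` for all `k`, with `om_l > 0` and (`λ > 0` or
`λ = 0` and `∫ g = 0`), then `g = 0` a.e. -/
theorem transport {om : κ → ℝ} (hom : ∀ l, 0 < om l) {lam : ℝ} {g : EuclideanSpace ℝ κ → ℂ}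
    (hg : Integrable g) (hxg : ∀ l, Integrable fun x : EuclideanSpace ℝ κ => (x l : ℂ) * g x)
    (hlam : 0 < lam ∨ (lam = 0 ∧ ∫ x, g x = 0))
    (h : ∀ k : EuclideanSpace ℝ κ, ∫ x, g x *
      ((((1 / 2) * ∑ l, k l ^ 2 + lam : ℝ) : ℂ) + Complex.I * ∑ l, ((om l * k l : ℝ) : ℂ) * x l) *
        pw k x = 0) :
    g =ᵐ[volume] 0 := by
  apply ae_zero_of_char hg
  intro k
  -- the function y(t)
  set y : ℝ → ℂ := fun t => ∫ x, g x * pw (kt om k t) x with hy
  have hy0 : y 0 = ∫ x, g x * Complex.exp (⟪x, k⟫_ℝ * Complex.I) := by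
    simp only [hy, kt_zero]
    refine integral_congr_ae (Eventually.of_forall fun x => ?_)
    simp only [pw, ph_eq_inner]
  rw [← hy0]
  have hgp : ∀ q, Integrable fun x => g x * pw q x := by
    intro q
    exact hg.mul_bdd (c := 1) (continuous_pw q).aestronglyMeasurable
      (Eventually.of_forall fun x => (norm_pw q x).le)
  -- derivative
  have hder : ∀ t, HasDerivAt y (-(((1 / 2) * ∑ l, (kt om k t l) ^ 2 + lam : ℝ) : ℂ) * y t) t := by
    intro t
    have hd := hasDerivAt_integral_of_dominated_loc_of_deriv_le (μ := volume)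
      (F := fun (t : ℝ) (x : EuclideanSpace ℝ κ) => g x * pw (kt om k t) x)
      (F' := fun t x => g x * (Complex.I * ∑ l, ((om l * (kt om k t l) : ℝ) : ℂ) * x l) *
        pw (kt om k t) x) (x₀ := t) (s := Metric.ball t 1)
      (bound := fun x => ∑ l, (om l * |k l| * Real.exp (om l * (|t| + 1))) * ‖(x l : ℂ) * g x‖)
      (Metric.ball_mem_nhds t one_pos)
      (Eventually.of_forall fun t => (hgp _).1) (hgp _) ?_ ?_ ?_ ?_
    · have e := hd.2
      have h1 := h (kt om k t)
      have hI : Integrable fun x : EuclideanSpace ℝ κ =>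
          g x * (Complex.I * ∑ l, ((om l * (kt om k t l) : ℝ) : ℂ) * x l) * pw (kt om k t) x := hd.1
      have hJ : Integrable fun x : EuclideanSpace ℝ κ =>
          (((1 / 2) * ∑ l, (kt om k t l) ^ 2 + lam : ℝ) : ℂ) * (g x * pw (kt om k t) x) :=
        (hgp _).const_mul _
      have e3 : (∫ x, g x *
          ((((1 / 2) * ∑ l, (kt om k t l) ^ 2 + lam : ℝ) : ℂ) +
            Complex.I * ∑ l, ((om l * (kt om k t l) : ℝ) : ℂ) * x l) * pw (kt om k t) x) =
          (((1 / 2) * ∑ l, (kt om k t l) ^ 2 + lam : ℝ) : ℂ) * (∫ x, g x * pw (kt om k t) x) +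
          ∫ x, g x * (Complex.I * ∑ l, ((om l * (kt om k t l) : ℝ) : ℂ) * x l) *
            pw (kt om k t) x := by
        rw [← integral_const_mul, ← integral_add hJ hI]
        refine integral_congr_ae (Eventually.of_forall fun x => ?_)
        ring
      rw [e3] at h1
      have h2 : ∫ x, g x * (Complex.I * ∑ l, ((om l * (kt om k t l) : ℝ) : ℂ) * x l) *
            pw (kt om k t) x = -(((1 / 2) * ∑ l, (kt om k t l) ^ 2 + lam : ℝ) : ℂ) * y t := by
        rw [neg_mul, ← sub_eq_zero, sub_neg_eq_add, add_comm]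
        exact h1
      rw [← h2]
      exact e
    · have hc : Continuous fun x : EuclideanSpace ℝ κ =>
          (Complex.I * ∑ l, ((om l * (kt om k t l) : ℝ) : ℂ) * x l) * pw (kt om k t) x := by
        apply Continuous.mul
        · fun_prop
        · exact continuous_pw _
      have := hg.1.mul hc.aestronglyMeasurable
      refine this.congr (Eventually.of_forall fun x => ?_)
      simp only [Pi.mul_apply]; ring
    · refine Eventually.of_forall fun x s hs => ?_
      rw [norm_mul, norm_pw, mul_one, norm_mul, norm_mul, Complex.norm_I, one_mul]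
      have hb : ‖∑ l, ((om l * (kt om k s l) : ℝ) : ℂ) * (x l : ℂ)‖ ≤
          ∑ l, (om l * |k l| * Real.exp (om l * (|t| + 1))) * |x l| := by
        refine (norm_sum_le _ _).trans (Finset.sum_le_sum fun l _ => ?_)
        rw [norm_mul, Complex.norm_real, Complex.norm_real, Real.norm_eq_abs, Real.norm_eq_abs,
          abs_mul, kt_apply, abs_mul, abs_of_pos (hom l), abs_of_pos (Real.exp_pos _)]
        have hs' : s ≤ |t| + 1 := by
          have := Metric.mem_ball.mp hs
          rw [Real.dist_eq] at this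
          have h3 := abs_lt.mp this
          have h4 := le_abs_self t
          linarith [h3.2]
        have h5 : Real.exp (om l * s) ≤ Real.exp (om l * (|t| + 1)) := by
          apply Real.exp_le_exp.mpr
          exact mul_le_mul_of_nonneg_left hs' (hom l).le
        have h6 : om l * (|k l| * Real.exp (om l * s)) ≤
            om l * |k l| * Real.exp (om l * (|t| + 1)) := by
          rw [mul_assoc]
          exact mul_le_mul_of_nonneg_left (mul_le_mul_of_nonneg_left h5 (abs_nonneg _)) (hom l).le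
        exact mul_le_mul_of_nonneg_right h6 (abs_nonneg _)
      calc ‖g x‖ * ‖∑ l, ((om l * (kt om k s l) : ℝ) : ℂ) * (x l : ℂ)‖
          ≤ ‖g x‖ * ∑ l, (om l * |k l| * Real.exp (om l * (|t| + 1))) * |x l| :=
            mul_le_mul_of_nonneg_left hb (norm_nonneg _)
        _ = ∑ l, (om l * |k l| * Real.exp (om l * (|t| + 1))) * ‖(x l : ℂ) * g x‖ := by
            rw [Finset.mul_sum]
            refine Finset.sum_congr rfl fun l _ => ?_
            rw [norm_mul, Complex.norm_real, Real.norm_eq_abs]; ring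
    · exact integrable_finsetSum _ fun l _ => ((hxg l).norm).const_mul _
    · refine Eventually.of_forall fun x s _ => ?_
      have h1 : HasDerivAt (fun s : ℝ => ph (kt om k s) x)
          (∑ l, (om l * kt om k s l) * x l) s := by
        unfold ph
        apply HasDerivAt.fun_sum
        intro l _
        have h2 : HasDerivAt (fun s : ℝ => k l * Real.exp (om l * s) * x l)
            (k l * (Real.exp (om l * s) * (om l * 1)) * x l) s :=
          (((((hasDerivAt_id s).const_mul (om l)).exp).const_mul (k l)).mul_const (x l))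
        refine h2.congr_deriv ?_
        rw [kt_apply]; ring
      have h3 : HasDerivAt (fun s : ℝ => pw (kt om k s) x)
          (pw (kt om k s) x * (((∑ l, (om l * kt om k s l) * x l : ℝ) : ℂ) * Complex.I)) s := by
        unfold pw
        exact ((h1.ofReal_comp).mul_const Complex.I).cexp
      have h4 := h3.const_mul (g x)
      refine h4.congr_deriv ?_
      push_cast
      ring
  -- the conserved quantity
  set Ef : ℝ → ℝ := fun t => ∑ l, (k l) ^ 2 * Real.exp (2 * om l * t) / (4 * om l) with hEf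
  have hEd : ∀ t, HasDerivAt Ef ((1 / 2) * ∑ l, (kt om k t l) ^ 2) t := by
    intro t
    rw [Finset.mul_sum]
    apply HasDerivAt.fun_sum
    intro l _
    have h2 : HasDerivAt (fun s : ℝ => k l ^ 2 * Real.exp (2 * om l * s) / (4 * om l))
        (k l ^ 2 * (Real.exp (2 * om l * t) * (2 * om l * 1)) / (4 * om l)) t :=
      (((((hasDerivAt_id t).const_mul (2 * om l)).exp).const_mul (k l ^ 2)).div_const _)
    refine h2.congr_deriv ?_
    rw [kt_apply]
    have : Real.exp (2 * om l * t) = Real.exp (om l * t) ^ 2 := by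
      rw [← Real.exp_nat_mul]; congr 1; push_cast; ring
    rw [this]
    have := (hom l).ne'
    field_simp
    ring
  set z : ℝ → ℂ := fun t => y t * Complex.exp ((Ef t + lam * t : ℝ) : ℂ) with hz
  have hzd : ∀ t, HasDerivAt z 0 t := by
    intro t
    have h1 : HasDerivAt (fun t : ℝ => ((Ef t + lam * t : ℝ) : ℂ))
        (((1 / 2) * ∑ l, (kt om k t l) ^ 2 + lam : ℝ) : ℂ) t := by
      have := ((hEd t).add ((hasDerivAt_id t).const_mul lam)).ofReal_comp
      simpa using this
    have h2 := (hder t).mul h1.cexp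
    refine h2.congr_deriv ?_
    ring
  have hzc : ∀ t, z t = z 0 := by
    intro t
    exact is_const_of_deriv_eq_zero (fun t => (hzd t).differentiableAt)
      (fun t => (hzd t).deriv) t 0
  -- limit at -∞
  have hylim : Tendsto y atBot (𝓝 (∫ x, g x)) := by
    have hlim : ∀ x : EuclideanSpace ℝ κ,
        Tendsto (fun t : ℝ => g x * pw (kt om k t) x) atBot (𝓝 (g x)) := by
      intro x
      have h1 : Tendsto (fun t : ℝ => ph (kt om k t) x) atBot (𝓝 0) := by
        have h2 : ∀ l ∈ (Finset.univ : Finset κ), Tendsto (fun t : ℝ => kt om k t l * x l) atBot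
            (𝓝 0) := by
          intro l _
          have h3 : Tendsto (fun t : ℝ => Real.exp (om l * t)) atBot (𝓝 0) :=
            Real.tendsto_exp_atBot.comp (tendsto_id.const_mul_atBot (hom l))
          have h4 := (h3.const_mul (k l)).mul_const (x l)
          simpa [kt_apply] using h4
        have h5 := tendsto_finsetSum Finset.univ h2
        simpa [ph] using h5
      have h2 : Tendsto (fun t : ℝ => pw (kt om k t) x) atBot (𝓝 1) := by
        have h3 : Continuous fun r : ℝ => Complex.exp ((r : ℂ) * Complex.I) := by fun_prop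
        have h4 := (h3.tendsto 0).comp h1
        simpa [pw, Function.comp_def] using h4
      simpa using h2.const_mul (g x)
    refine tendsto_integral_filter_of_dominated_convergence (fun x => ‖g x‖)
      (Eventually.of_forall fun t => (hgp _).1) (Eventually.of_forall fun t =>
        Eventually.of_forall fun x => ?_) hg.norm (Eventually.of_forall hlim)
    rw [norm_mul, norm_pw, mul_one]
  have hElim : Tendsto Ef atBot (𝓝 0) := by
    have h2 : ∀ l ∈ (Finset.univ : Finset κ), Tendsto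
        (fun t : ℝ => k l ^ 2 * Real.exp (2 * om l * t) / (4 * om l)) atBot (𝓝 0) := by
      intro l _
      have h3 : Tendsto (fun t : ℝ => Real.exp (2 * om l * t)) atBot (𝓝 0) :=
        Real.tendsto_exp_atBot.comp (tendsto_id.const_mul_atBot (by have := hom l; positivity))
      have h4 := (h3.const_mul (k l ^ 2)).div_const (4 * om l)
      simpa using h4
    have h5 := tendsto_finsetSum Finset.univ h2
    simpa [hEf] using h5
  have hz0 : z 0 = 0 := by
    have hzl : Tendsto z atBot (𝓝 0) := by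
      have e1 : z = fun t => y t * Complex.exp ((Ef t : ℝ) : ℂ) *
          ((Real.exp (lam * t) : ℝ) : ℂ) := by
        funext t
        simp only [hz]
        push_cast
        rw [Complex.exp_add]; ring
      rw [e1]
      have h1 : Tendsto (fun t => Complex.exp ((Ef t : ℝ) : ℂ)) atBot (𝓝 1) := by
        have h3 : Continuous fun r : ℝ => Complex.exp (r : ℂ) := by fun_prop
        have h4 := (h3.tendsto 0).comp hElim
        simpa [Function.comp_def] using h4
      rcases hlam with hl | ⟨hl, hi⟩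
      · have h3 : Tendsto (fun t : ℝ => ((Real.exp (lam * t) : ℝ) : ℂ)) atBot (𝓝 0) := by
          have h4 : Tendsto (fun t : ℝ => Real.exp (lam * t)) atBot (𝓝 0) :=
            Real.tendsto_exp_atBot.comp (tendsto_id.const_mul_atBot hl)
          have := (Complex.continuous_ofReal.tendsto 0).comp h4
          simpa [Function.comp_def] using this
        have := (hylim.mul h1).mul h3
        simpa using this
      · rw [hi] at hylim
        subst hl
        have := (hylim.mul h1)
        simpa using this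
    have hcst : Tendsto z atBot (𝓝 (z 0)) := by
      have : z = fun _ => z 0 := funext hzc
      rw [this]; exact tendsto_const_nhds
    exact tendsto_nhds_unique hcst hzl
  have : z 0 = y 0 * Complex.exp ((Ef 0 + lam * 0 : ℝ) : ℂ) := rfl
  rw [this] at hz0
  exact (mul_eq_zero.mp hz0).resolve_right (Complex.exp_ne_zero _)

end Transport

end Crest.Agent.R330.FreeA122
end
end

-- ▼ part R330/FreeB_122
section

/-!
Row 330 (helper122): part B.  Removable sets, extension of weak equations to non compactly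
supported test functions, abstract oscillator systems and their weak zero modes.
-/

set_option autoImplicit false
set_option linter.unusedSectionVars false

noncomputable section

namespace Crest.Agent.R330.FreeB122

open MeasureTheory Filter Topology Crest.Agent.R330.IBP837 Crest.Agent.R330.FreeA122
open scoped ContDiff InnerProductSpace ENNReal

section Weak

variable {κ : Type*} [Fintype κ] [DecidableEq κ]
  {F : Type*} [NormedAddCommGroup F] [InnerProductSpace ℂ F] [FiniteDimensional ℂ F]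

/-- weak zero mode of one first order operator, tested off the set `S` -/
def WeakZ (S : Set (EuclideanSpace ℝ κ)) (a : κ → F →ₗ[ℂ] F)
    (V : EuclideanSpace ℝ κ → F →ₗ[ℂ] F) (f : EuclideanSpace ℝ κ → F) : Prop :=
  ∀ ψ : EuclideanSpace ℝ κ → F, ContDiff ℝ ∞ ψ → HasCompactSupport ψ →
    Disjoint (tsupport ψ) S → ∫ x, ⟪f x, dirac a V ψ x⟫_ℂ = 0

/-- cut-offs removing `S` with small `H¹` cost on balls -/
structure Cuts (S : Set (EuclideanSpace ℝ κ)) where
  ζ : ℕ → EuclideanSpace ℝ κ → ℝ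
  smooth : ∀ n, ContDiff ℝ ∞ (ζ n)
  nonneg : ∀ n x, 0 ≤ ζ n x
  le_one : ∀ n x, ζ n x ≤ 1
  disj : ∀ n, Disjoint (tsupport (ζ n)) S
  lim : ∀ᵐ x ∂(volume : Measure (EuclideanSpace ℝ κ)), Tendsto (fun n => ζ n x) atTop (𝓝 1)
  grad : ∀ (R : ℝ) (l : κ), Tendsto (fun n => eLpNorm (fun x =>
    (Metric.closedBall (0 : EuclideanSpace ℝ κ) R).indicator
      (fun x => fderiv ℝ (ζ n) x (EuclideanSpace.single l 1)) x) 2 volume) atTop (𝓝 0)

variable {a : κ → F →ₗ[ℂ] F} {V : EuclideanSpace ℝ κ → F →ₗ[ℂ] F}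
  {f : EuclideanSpace ℝ κ → F}

theorem inner_dirac_cut {χ : EuclideanSpace ℝ κ → ℝ} {ψ : EuclideanSpace ℝ κ → F}
    (hχ : ContDiff ℝ ∞ χ) (hψ : ContDiff ℝ ∞ ψ) (x : EuclideanSpace ℝ κ) :
    ⟪f x, dirac a V (fun y => χ y • ψ y) x⟫_ℂ = (χ x : ℂ) * ⟪f x, dirac a V ψ x⟫_ℂ +
      ∑ l, (-Complex.I * (fderiv ℝ χ x (EuclideanSpace.single l 1) : ℝ)) *
        ⟪f x, a l (ψ x)⟫_ℂ := by
  rw [dirac_leibniz ((hχ.differentiable (by simp)) x) ((hψ.differentiable (by simp)) x)]
  rw [inner_add_right, inner_sum]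
  congr 1
  · rw [← Complex.coe_smul, inner_smul_right]
  · refine Finset.sum_congr rfl fun l _ => ?_
    rw [← Complex.coe_smul, inner_smul_right, inner_smul_right]
    ring

/-- (D1) removable sets: weak zero modes in `L²` off `S` are weak zero modes. -/
theorem weakZ_remove {S : Set (EuclideanSpace ℝ κ)} (C : Cuts S)
    (hV : ∀ v, ContDiff ℝ ∞ (fun x => V x v)) (hf : MemLp f 2 volume)
    (h : WeakZ S a V f) : WeakZ ∅ a V f := by
  intro ψ hψ hc _
  have hVc : ∀ v, Continuous (fun x => V x v) := fun v => (hV v).continuous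
  have hψ1 : ContDiff ℝ 1 ψ := hψ.of_le (by simp)
  have hI : Integrable (fun x => ⟪f x, dirac a V ψ x⟫_ℂ) :=
    integrable_inner_of_memLp hf (memLp_dirac hVc hψ1 hc)
  obtain ⟨R, hR⟩ : ∃ R : ℝ, tsupport ψ ⊆ Metric.closedBall 0 R :=
    hc.isBounded.subset_closedBall 0
  -- each cut version vanishes
  have hz : ∀ n, ∫ x, ⟪f x, dirac a V (fun y => C.ζ n y • ψ y) x⟫_ℂ = 0 := by
    intro n
    apply h
    · exact (C.smooth n).smul hψ
    · exact hc.smul_left
    · refine (C.disj n).mono_left ?_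
      exact tsupport_smul_subset_left (C.ζ n) ψ
  obtain ⟨K, hK⟩ : ∃ K : ℝ, ∀ l, ∀ x, ‖a l (ψ x)‖ ≤ K := by
    have h1 : ∀ l, ∃ K : ℝ, ∀ x, ‖a l (ψ x)‖ ≤ K := by
      intro l
      have hcl : Continuous fun x => a l (ψ x) :=
        (contDiff_linMap_apply (n := 0) (a l) (contDiff_zero.mpr hψ.continuous)).continuous
      have hcc : HasCompactSupport fun x => a l (ψ x) :=
        hc.mono' (fun x hx => subset_tsupport _ (by intro h0; apply hx; simp [h0]))
      exact hcl.bounded_above_of_compact_support hcc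
    choose K hK using h1
    refine ⟨∑ l, |K l|, fun l x => (hK l x).trans ?_⟩
    exact (le_abs_self _).trans (Finset.single_le_sum (f := fun l => |K l|)
      (fun _ _ => abs_nonneg _) (Finset.mem_univ l))
  have hK0 : 0 ≤ K ∨ IsEmpty κ := by
    rcases isEmpty_or_nonempty κ with he | ⟨⟨l⟩⟩
    · exact Or.inr he
    · exact Or.inl ((norm_nonneg _).trans (hK l 0))
  -- limits
  have hlim1 : Tendsto (fun n => ∫ x, (C.ζ n x : ℂ) * ⟪f x, dirac a V ψ x⟫_ℂ) atTop
      (𝓝 (∫ x, ⟪f x, dirac a V ψ x⟫_ℂ)) := by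
    refine tendsto_integral_of_dominated_convergence (fun x => ‖⟪f x, dirac a V ψ x⟫_ℂ‖)
      (fun n => ?_) hI.norm (fun n => Eventually.of_forall fun x => ?_) ?_
    · exact ((Complex.continuous_ofReal.comp (C.smooth n).continuous).aestronglyMeasurable).mul
        hI.1
    · rw [norm_mul, Complex.norm_real, Real.norm_eq_abs, abs_of_nonneg (C.nonneg n x)]
      exact mul_le_of_le_one_left (norm_nonneg _) (C.le_one n x)
    · filter_upwards [C.lim] with x hx
      have := ((Complex.continuous_ofReal.tendsto 1).comp hx).mul_const ⟪f x, dirac a V ψ x⟫_ℂ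
      simpa using this
  have hlim2 : ∀ l, Tendsto (fun n => ∫ x,
      (-Complex.I * (fderiv ℝ (C.ζ n) x (EuclideanSpace.single l 1) : ℝ)) *
        ⟪f x, a l (ψ x)⟫_ℂ) atTop (𝓝 0) := by
    intro l
    have hK0' : 0 ≤ K := by
      rcases hK0 with h0 | h0
      · exact h0
      · exact (h0.false l).elim
    rw [tendsto_zero_iff_norm_tendsto_zero]
    have hbound : ∀ n, ENNReal.ofReal ‖∫ x,
        (-Complex.I * (fderiv ℝ (C.ζ n) x (EuclideanSpace.single l 1) : ℝ)) *
        ⟪f x, a l (ψ x)⟫_ℂ‖ ≤ eLpNorm f 2 volume * (ENNReal.ofReal K * eLpNorm (fun x =>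
        (Metric.closedBall (0 : EuclideanSpace ℝ κ) R).indicator
        (fun x => fderiv ℝ (C.ζ n) x (EuclideanSpace.single l 1)) x) 2 volume) := by
      intro n
      set u : EuclideanSpace ℝ κ → F := fun x =>
        (-Complex.I * (fderiv ℝ (C.ζ n) x (EuclideanSpace.single l 1) : ℝ)) • a l (ψ x) with hu
      have hu_cont : Continuous u := by
        have h1 : Continuous fun x => fderiv ℝ (C.ζ n) x (EuclideanSpace.single l 1) :=
          ((C.smooth n).continuous_fderiv (by simp)).clm_apply continuous_const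
        have h2 : Continuous fun x => a l (ψ x) :=
          (contDiff_linMap_apply (n := 0) (a l) (contDiff_zero.mpr hψ.continuous)).continuous
        exact (continuous_const.mul (Complex.continuous_ofReal.comp h1)).smul h2
      have hu_cs : HasCompactSupport u :=
        hc.mono' (fun x hx => subset_tsupport _ (by
          intro h0; apply hx; simp [hu, h0]))
      have hu_mem : MemLp u 2 volume := hu_cont.memLp_of_hasCompactSupport hu_cs
      have e1 : ∫ x, (-Complex.I * (fderiv ℝ (C.ζ n) x (EuclideanSpace.single l 1) : ℝ)) *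
        ⟪f x, a l (ψ x)⟫_ℂ = ∫ x, ⟪f x, u x⟫_ℂ := by
        refine integral_congr_ae (Eventually.of_forall fun x => ?_)
        simp only [hu, inner_smul_right]
      rw [e1]
      refine (norm_integral_inner_le hf hu_mem).trans (mul_le_mul_right ?_ _)
      have e2 : ENNReal.ofReal K * eLpNorm (fun x =>
        (Metric.closedBall (0 : EuclideanSpace ℝ κ) R).indicator
        (fun x => fderiv ℝ (C.ζ n) x (EuclideanSpace.single l 1)) x) 2 volume =
          eLpNorm (fun x => K • (Metric.closedBall (0 : EuclideanSpace ℝ κ) R).indicator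
        (fun x => fderiv ℝ (C.ζ n) x (EuclideanSpace.single l 1)) x) 2 volume := by
        have := eLpNorm_const_smul (μ := (volume : Measure (EuclideanSpace ℝ κ))) (p := 2) K
          (fun x => (Metric.closedBall (0 : EuclideanSpace ℝ κ) R).indicator
        (fun x => fderiv ℝ (C.ζ n) x (EuclideanSpace.single l 1)) x)
        rw [show (fun x => K • (Metric.closedBall (0 : EuclideanSpace ℝ κ) R).indicator
          (fun x => fderiv ℝ (C.ζ n) x (EuclideanSpace.single l 1)) x) =
          K • (fun x => (Metric.closedBall (0 : EuclideanSpace ℝ κ) R).indicator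
          (fun x => fderiv ℝ (C.ζ n) x (EuclideanSpace.single l 1)) x) from rfl, this]
        congr 1
        rw [Real.enorm_eq_ofReal_abs, abs_of_nonneg hK0']
      rw [e2]
      refine eLpNorm_mono fun x => ?_
      by_cases hx : x ∈ Metric.closedBall (0 : EuclideanSpace ℝ κ) R
      · rw [Set.indicator_of_mem hx]
        simp only [hu, norm_smul, norm_mul, norm_neg, Complex.norm_I, one_mul, Complex.norm_real]
        rw [Real.norm_eq_abs K, abs_of_nonneg hK0', mul_comm]
        exact mul_le_mul_of_nonneg_right (hK l x) (norm_nonneg _)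
      · rw [Set.indicator_of_notMem hx]
        have : ψ x = 0 := by
          by_contra h0
          exact hx (hR (subset_tsupport _ h0))
        simp [hu, this]
    have hto : Tendsto (fun n => eLpNorm f 2 volume * (ENNReal.ofReal K * eLpNorm (fun x =>
        (Metric.closedBall (0 : EuclideanSpace ℝ κ) R).indicator
        (fun x => fderiv ℝ (C.ζ n) x (EuclideanSpace.single l 1)) x) 2 volume)) atTop (𝓝 0) := by
      have h1 := ENNReal.Tendsto.const_mul (a := ENNReal.ofReal K) (C.grad R l)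
        (Or.inr ENNReal.ofReal_ne_top)
      have h2 := ENNReal.Tendsto.const_mul (a := eLpNorm f 2 volume) h1 (Or.inr hf.2.ne)
      simpa using h2
    have h3 := tendsto_of_tendsto_of_tendsto_of_le_of_le tendsto_const_nhds hto
      (fun n => bot_le) hbound
    have h4 := (ENNReal.tendsto_toReal ENNReal.zero_ne_top).comp h3
    simpa [Function.comp_def, ENNReal.toReal_ofReal] using h4
  -- assemble
  have hsum : ∀ n, (0 : ℂ) = (∫ x, (C.ζ n x : ℂ) * ⟪f x, dirac a V ψ x⟫_ℂ) +
      ∑ l, ∫ x, (-Complex.I * (fderiv ℝ (C.ζ n) x (EuclideanSpace.single l 1) : ℝ)) *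
        ⟪f x, a l (ψ x)⟫_ℂ := by
    intro n
    rw [← hz n]
    have hi1 : Integrable fun x => (C.ζ n x : ℂ) * ⟪f x, dirac a V ψ x⟫_ℂ := by
      refine hI.bdd_mul (c := 1)
        (Complex.continuous_ofReal.comp (C.smooth n).continuous).aestronglyMeasurable
        (Eventually.of_forall fun x => ?_)
      rw [Complex.norm_real, Real.norm_eq_abs, abs_of_nonneg (C.nonneg n x)]
      exact C.le_one n x
    have hi2 : ∀ l, Integrable fun x =>
        (-Complex.I * (fderiv ℝ (C.ζ n) x (EuclideanSpace.single l 1) : ℝ)) *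
        ⟪f x, a l (ψ x)⟫_ℂ := by
      intro l
      have h1 : Continuous fun x => fderiv ℝ (C.ζ n) x (EuclideanSpace.single l 1) :=
        ((C.smooth n).continuous_fderiv (by simp)).clm_apply continuous_const
      have h2 : Continuous fun x => a l (ψ x) :=
        (contDiff_linMap_apply (n := 0) (a l) (contDiff_zero.mpr hψ.continuous)).continuous
      have h3 : Continuous fun x =>
          (-Complex.I * (fderiv ℝ (C.ζ n) x (EuclideanSpace.single l 1) : ℝ)) • a l (ψ x) :=
        (continuous_const.mul (Complex.continuous_ofReal.comp h1)).smul h2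
      have h4 : HasCompactSupport fun x =>
          (-Complex.I * (fderiv ℝ (C.ζ n) x (EuclideanSpace.single l 1) : ℝ)) • a l (ψ x) :=
        hc.mono' (fun x hx => subset_tsupport _ (by
          intro h0; apply hx; simp [h0]))
      have h5 := integrable_inner_of_memLp hf (h3.memLp_of_hasCompactSupport (p := 2) h4)
      refine h5.congr (Eventually.of_forall fun x => ?_)
      simp only [inner_smul_right]
    rw [← integral_finsetSum _ (fun l _ => hi2 l),
      ← integral_add hi1 (integrable_finsetSum _ (fun l _ => hi2 l))]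
    exact integral_congr_ae (Eventually.of_forall fun x => inner_dirac_cut (C.smooth n) hψ x)
  have hfin : Tendsto (fun n => (∫ x, (C.ζ n x : ℂ) * ⟪f x, dirac a V ψ x⟫_ℂ) +
      ∑ l, ∫ x, (-Complex.I * (fderiv ℝ (C.ζ n) x (EuclideanSpace.single l 1) : ℝ)) *
        ⟪f x, a l (ψ x)⟫_ℂ) atTop (𝓝 ((∫ x, ⟪f x, dirac a V ψ x⟫_ℂ) + ∑ _l : κ, 0)) :=
    hlim1.add (tendsto_finsetSum _ fun l _ => hlim2 l)
  have hconst : Tendsto (fun _ : ℕ => (0 : ℂ)) atTop
      (𝓝 ((∫ x, ⟪f x, dirac a V ψ x⟫_ℂ) + ∑ _l : κ, 0)) := by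
    refine hfin.congr (fun n => (hsum n).symm)
  have := tendsto_nhds_unique hconst tendsto_const_nhds
  simpa using this

/-- smooth cut-offs at infinity -/
def bump (κ : Type*) [Fintype κ] : ContDiffBump (0 : EuclideanSpace ℝ κ) :=
  ⟨1, 2, one_pos, one_lt_two⟩

/-- `χ_n(x) = χ(x/(n+1))` -/
def cutInf (κ : Type*) [Fintype κ] (n : ℕ) (x : EuclideanSpace ℝ κ) : ℝ :=
  bump κ ((1 / ((n : ℝ) + 1)) • x)

theorem cutInf_smooth (n : ℕ) : ContDiff ℝ ∞ (cutInf κ n) := by
  unfold cutInf
  exact (bump κ).contDiff.comp (contDiff_const_smul _)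

theorem cutInf_nonneg (n : ℕ) (x : EuclideanSpace ℝ κ) : 0 ≤ cutInf κ n x := (bump κ).nonneg

theorem cutInf_le_one (n : ℕ) (x : EuclideanSpace ℝ κ) : cutInf κ n x ≤ 1 := (bump κ).le_one

theorem cutInf_eq_one {n : ℕ} {x : EuclideanSpace ℝ κ} (h : ‖x‖ ≤ (n : ℝ) + 1) :
    cutInf κ n x = 1 := by
  unfold cutInf
  apply (bump κ).one_of_mem_closedBall
  have hn : (0 : ℝ) < (n : ℝ) + 1 := by positivity
  rw [mem_closedBall_zero_iff, norm_smul, Real.norm_eq_abs, abs_of_pos (by positivity)]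
  rw [one_div, inv_mul_le_iff₀ hn]
  show ‖x‖ ≤ ((n : ℝ) + 1) * 1
  linarith

theorem cutInf_compact (n : ℕ) : HasCompactSupport (cutInf κ n) := by
  have hn : (0 : ℝ) < (n : ℝ) + 1 := by positivity
  apply HasCompactSupport.of_support_subset_isCompact
    (isCompact_closedBall (0 : EuclideanSpace ℝ κ) (2 * ((n : ℝ) + 1)))
  intro x hx
  by_contra h
  apply hx
  unfold cutInf
  have h2 : (2 : ℝ) ≤ dist ((1 / ((n : ℝ) + 1)) • x) 0 := by
    rw [dist_zero_right, norm_smul, Real.norm_eq_abs, abs_of_pos (by positivity)]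
    rw [mem_closedBall_zero_iff, not_le] at h
    rw [one_div, le_inv_mul_iff₀ hn]
    linarith
  exact (bump κ).zero_of_le_dist h2

theorem cutInf_grad : ∃ C : ℝ, ∀ (n : ℕ) (x : EuclideanSpace ℝ κ) (l : κ),
    |fderiv ℝ (cutInf κ n) x (EuclideanSpace.single l 1)| ≤ C / ((n : ℝ) + 1) := by
  obtain ⟨C, hC⟩ : ∃ C : ℝ, ∀ x, ‖fderiv ℝ (bump κ : EuclideanSpace ℝ κ → ℝ) x‖ ≤ C := by
    have h1 : Continuous (fderiv ℝ (bump κ : EuclideanSpace ℝ κ → ℝ)) :=
      ((bump κ).contDiff (n := 1)).continuous_fderiv (by norm_num)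
    exact h1.bounded_above_of_compact_support ((bump κ).hasCompactSupport.fderiv (𝕜 := ℝ))
  refine ⟨C, fun n x l => ?_⟩
  have hn : (0 : ℝ) < (n : ℝ) + 1 := by positivity
  have h2 : HasFDerivAt (cutInf κ n)
      ((fderiv ℝ (bump κ : EuclideanSpace ℝ κ → ℝ) ((1 / ((n : ℝ) + 1)) • x)).comp
        ((1 / ((n : ℝ) + 1)) • ContinuousLinearMap.id ℝ (EuclideanSpace ℝ κ))) x := by
    have h3 : HasFDerivAt (fun x : EuclideanSpace ℝ κ => (1 / ((n : ℝ) + 1)) • x)
        ((1 / ((n : ℝ) + 1)) • ContinuousLinearMap.id ℝ (EuclideanSpace ℝ κ)) x :=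
      (hasFDerivAt_id (𝕜 := ℝ) x).fun_const_smul _
    have h4 : DifferentiableAt ℝ (bump κ : EuclideanSpace ℝ κ → ℝ) ((1 / ((n : ℝ) + 1)) • x) :=
      (((bump κ).contDiff (n := 1)).differentiable (by norm_num)) _
    exact h4.hasFDerivAt.comp x h3
  rw [h2.fderiv]
  simp only [ContinuousLinearMap.comp_apply, ContinuousLinearMap.coe_smul', Pi.smul_apply,
    ContinuousLinearMap.id_apply, map_smul, smul_eq_mul, abs_mul]
  rw [abs_of_pos (show (0 : ℝ) < 1 / ((n : ℝ) + 1) by positivity)]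
  rw [show C / ((n : ℝ) + 1) = 1 / ((n : ℝ) + 1) * C by ring]
  apply mul_le_mul_of_nonneg_left _ (by positivity)
  have h5 := (fderiv ℝ (bump κ : EuclideanSpace ℝ κ → ℝ)
    ((1 / ((n : ℝ) + 1)) • x)).le_opNorm (EuclideanSpace.single l (1 : ℝ))
  rw [Real.norm_eq_abs] at h5
  refine h5.trans ?_
  rw [EuclideanSpace.norm_single, norm_one, mul_one]
  exact hC _

/-- (D2) weak equations hold for non compactly supported test functions -/
theorem weak_extend (h : WeakZ ∅ a V f) {ψ : EuclideanSpace ℝ κ → F} (hψ : ContDiff ℝ ∞ ψ)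
    (hI : Integrable (fun x => ⟪f x, dirac a V ψ x⟫_ℂ))
    (hJ : ∀ l, Integrable (fun x => ⟪f x, a l (ψ x)⟫_ℂ)) :
    ∫ x, ⟪f x, dirac a V ψ x⟫_ℂ = 0 := by
  obtain ⟨C, hC⟩ := cutInf_grad (κ := κ)
  have hz : ∀ n, ∫ x, ⟪f x, dirac a V (fun y => cutInf κ n y • ψ y) x⟫_ℂ = 0 := by
    intro n
    apply h
    · exact (cutInf_smooth n).smul hψ
    · exact (cutInf_compact n).smul_right
    · exact Set.disjoint_empty _
  have hlim1 : Tendsto (fun n => ∫ x, (cutInf κ n x : ℂ) * ⟪f x, dirac a V ψ x⟫_ℂ) atTop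
      (𝓝 (∫ x, ⟪f x, dirac a V ψ x⟫_ℂ)) := by
    refine tendsto_integral_of_dominated_convergence (fun x => ‖⟪f x, dirac a V ψ x⟫_ℂ‖)
      (fun n => ?_) hI.norm (fun n => Eventually.of_forall fun x => ?_)
      (Eventually.of_forall fun x => ?_)
    · exact ((Complex.continuous_ofReal.comp
        (cutInf_smooth n).continuous).aestronglyMeasurable).mul hI.1
    · rw [norm_mul, Complex.norm_real, Real.norm_eq_abs, abs_of_nonneg (cutInf_nonneg n x)]
      exact mul_le_of_le_one_left (norm_nonneg _) (cutInf_le_one n x)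
    · apply tendsto_const_nhds.congr'
      obtain ⟨n0, hn0⟩ := exists_nat_ge ‖x‖
      filter_upwards [eventually_ge_atTop n0] with n hn
      have : (n0 : ℝ) ≤ n := by exact_mod_cast hn
      rw [cutInf_eq_one (by linarith)]
      simp
  have hCn : Tendsto (fun n : ℕ => C / ((n : ℝ) + 1)) atTop (𝓝 0) := by
    have h1 := (tendsto_one_div_add_atTop_nhds_zero_nat (𝕜 := ℝ)).const_mul C
    simpa [div_eq_mul_inv] using h1
  have hi2 : ∀ n l, Integrable fun x =>
      (-Complex.I * (fderiv ℝ (cutInf κ n) x (EuclideanSpace.single l 1) : ℝ)) *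
      ⟪f x, a l (ψ x)⟫_ℂ := by
    intro n l
    have h1 : Continuous fun x => fderiv ℝ (cutInf κ n) x (EuclideanSpace.single l 1) :=
      ((cutInf_smooth n).continuous_fderiv (by simp)).clm_apply continuous_const
    refine (hJ l).bdd_mul (c := C / ((n : ℝ) + 1))
      (continuous_const.mul (Complex.continuous_ofReal.comp h1)).aestronglyMeasurable
      (Eventually.of_forall fun x => ?_)
    rw [norm_mul, norm_neg, Complex.norm_I, one_mul, Complex.norm_real, Real.norm_eq_abs]
    exact hC n x l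
  have hlim2 : ∀ l, Tendsto (fun n => ∫ x,
      (-Complex.I * (fderiv ℝ (cutInf κ n) x (EuclideanSpace.single l 1) : ℝ)) *
        ⟪f x, a l (ψ x)⟫_ℂ) atTop (𝓝 0) := by
    intro l
    apply squeeze_zero_norm (a := fun n : ℕ => (C / ((n : ℝ) + 1)) * ∫ x, ‖⟪f x, a l (ψ x)⟫_ℂ‖)
    · intro n
      refine (norm_integral_le_integral_norm _).trans ?_
      rw [← integral_const_mul]
      refine integral_mono (hi2 n l).norm ((hJ l).norm.const_mul _) fun x => ?_
      simp only [norm_mul, norm_neg, Complex.norm_I, one_mul, Complex.norm_real, Real.norm_eq_abs]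
      exact mul_le_mul_of_nonneg_right (hC n x l) (norm_nonneg _)
    · simpa using hCn.mul_const (∫ x, ‖⟪f x, a l (ψ x)⟫_ℂ‖)
  have hsum : ∀ n, (0 : ℂ) = (∫ x, (cutInf κ n x : ℂ) * ⟪f x, dirac a V ψ x⟫_ℂ) +
      ∑ l, ∫ x, (-Complex.I * (fderiv ℝ (cutInf κ n) x (EuclideanSpace.single l 1) : ℝ)) *
        ⟪f x, a l (ψ x)⟫_ℂ := by
    intro n
    rw [← hz n]
    have hi1 : Integrable fun x => (cutInf κ n x : ℂ) * ⟪f x, dirac a V ψ x⟫_ℂ := by
      refine hI.bdd_mul (c := 1)
        (Complex.continuous_ofReal.comp (cutInf_smooth n).continuous).aestronglyMeasurable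
        (Eventually.of_forall fun x => ?_)
      rw [Complex.norm_real, Real.norm_eq_abs, abs_of_nonneg (cutInf_nonneg n x)]
      exact cutInf_le_one n x
    rw [← integral_finsetSum _ (fun l _ => hi2 n l),
      ← integral_add hi1 (integrable_finsetSum _ (fun l _ => hi2 n l))]
    exact integral_congr_ae (Eventually.of_forall fun x => inner_dirac_cut (cutInf_smooth n) hψ x)
  have hfin : Tendsto (fun n => (∫ x, (cutInf κ n x : ℂ) * ⟪f x, dirac a V ψ x⟫_ℂ) +
      ∑ l, ∫ x, (-Complex.I * (fderiv ℝ (cutInf κ n) x (EuclideanSpace.single l 1) : ℝ)) *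
        ⟪f x, a l (ψ x)⟫_ℂ) atTop (𝓝 ((∫ x, ⟪f x, dirac a V ψ x⟫_ℂ) + ∑ _l : κ, 0)) :=
    hlim1.add (tendsto_finsetSum _ fun l _ => hlim2 l)
  have hconst : Tendsto (fun _ : ℕ => (0 : ℂ)) atTop
      (𝓝 ((∫ x, ⟪f x, dirac a V ψ x⟫_ℂ) + ∑ _l : κ, 0)) := by
    refine hfin.congr (fun n => (hsum n).symm)
  have := tendsto_nhds_unique hconst tendsto_const_nhds
  simpa using this

end Weak

end Crest.Agent.R330.FreeB122
end
end

-- ▼ part R330/FreeC_122

/-!
Row 330 (helper122): part C.  Abstract oscillator systems: charges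
`D_α = Σ_k (-i) a_αk ∂_k + Σ_k x_k v_αk` with `Σ_α {a,a} = 2c δ`, `Σ_α {a,v} = 0`,
`Σ_α {v,v} = 2c ω² δ`.  Weak `L²` zero modes are exactly `Gauss ⊗ e`, `e ∈ ker M`.
-/

set_option autoImplicit false
set_option linter.unusedSectionVars false

noncomputable section

namespace Crest.Agent.R330.FreeC122

open MeasureTheory Filter Topology Crest.Agent.R330.IBP837 Crest.Agent.R330.FreeA122
  Crest.Agent.R330.FreeB122
open scoped ContDiff InnerProductSpace ENNReal

section Sys

variable {ι κ : Type*} [Fintype ι] [Fintype κ] [DecidableEq κ]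
  {F : Type*} [NormedAddCommGroup F] [InnerProductSpace ℂ F] [FiniteDimensional ℂ F]

/-- the linear potential `Σ_k x_k v_k` -/
def lin (v : κ → F →ₗ[ℂ] F) (x : EuclideanSpace ℝ κ) : F →ₗ[ℂ] F :=
  ∑ l, ((x l : ℝ) : ℂ) • v l

theorem lin_apply (v : κ → F →ₗ[ℂ] F) (x : EuclideanSpace ℝ κ) (w : F) :
    lin v x w = ∑ l, ((x l : ℝ) : ℂ) • v l w := by
  simp [lin, LinearMap.sum_apply]

theorem lin_smooth (v : κ → F →ₗ[ℂ] F) (w : F) :
    ContDiff ℝ ∞ (fun x : EuclideanSpace ℝ κ => lin v x w) := by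
  simp only [lin_apply]
  apply ContDiff.sum
  intro l _
  have h1 : ContDiff ℝ ∞ (fun x : EuclideanSpace ℝ κ => ((x l : ℝ) : ℂ)) :=
    Complex.ofRealCLM.contDiff.comp (EuclideanSpace.proj (𝕜 := ℝ) l).contDiff
  exact h1.smul contDiff_const

/-- an oscillator system -/
structure OscSys (ι κ : Type*) [Fintype ι] [Fintype κ] [DecidableEq κ]
    (F : Type*) [NormedAddCommGroup F] [InnerProductSpace ℂ F] where
  a : ι → κ → F →ₗ[ℂ] F
  v : ι → κ → F →ₗ[ℂ] F
  om : κ → ℝ
  c : ℝ
  om_pos : ∀ k, 0 < om k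
  c_pos : 0 < c
  a_symm : ∀ α k, (a α k).IsSymmetric
  v_symm : ∀ α k, (v α k).IsSymmetric
  aa : ∀ k l, ∀ w : F, ∑ α, (a α k (a α l w) + a α l (a α k w)) =
    if k = l then ((2 * c : ℝ) : ℂ) • w else 0
  av : ∀ k l, ∀ w : F, ∑ α, (a α k (v α l w) + v α l (a α k w)) = 0
  vv : ∀ k l, ∀ w : F, ∑ α, (v α k (v α l w) + v α l (v α k w)) =
    if k = l then ((2 * c * om k ^ 2 : ℝ) : ℂ) • w else 0

namespace OscSys

variable (S : OscSys ι κ F)

/-- the charge -/
def D (α : ι) (φ : EuclideanSpace ℝ κ → F) (x : EuclideanSpace ℝ κ) : F :=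
  dirac (S.a α) (lin (S.v α)) φ x

/-- `C_αk = i ω_k a_αk + v_αk` -/
def C (α : ι) (k : κ) : F →ₗ[ℂ] F := (Complex.I * S.om k) • S.a α k + S.v α k

/-- the fermionic mass operator (times `2c`) -/
def M : F →ₗ[ℂ] F := ((S.c * ∑ k, S.om k : ℝ) : ℂ) • LinearMap.id -
  Complex.I • ∑ α, ∑ k, S.a α k ∘ₗ S.v α k

theorem M_apply (w : F) : S.M w = ((S.c * ∑ k, S.om k : ℝ) : ℂ) • w -
    Complex.I • ∑ α, ∑ k, S.a α k (S.v α k w) := by
  simp [M, LinearMap.sum_apply]

/-- the Gaussian -/
def gs (x : EuclideanSpace ℝ κ) : ℝ := Real.exp (-(1 / 2) * ∑ k, S.om k * x k ^ 2)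

theorem gs_pos (x : EuclideanSpace ℝ κ) : 0 < S.gs x := Real.exp_pos _

theorem gs_smooth : ContDiff ℝ ∞ S.gs := by
  unfold gs
  apply Real.contDiff_exp.comp
  apply contDiff_const.mul
  apply ContDiff.sum
  intro k _
  exact contDiff_const.mul ((EuclideanSpace.proj (𝕜 := ℝ) k).contDiff.pow 2)

/-- symmetrisation of a double sum -/
theorem sym_sum {T : κ → κ → F} {s : κ → F}
    (h : ∀ j l, T j l + T l j = if j = l then s j else 0) (p : κ → ℂ) :
    ∑ j, ∑ l, (p j * p l) • T j l = ∑ j, (p j ^ 2 / 2) • s j := by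
  have h4 : ∑ j, ∑ l, (p j * p l) • T l j = ∑ j, ∑ l, (p j * p l) • T j l := by
    rw [Finset.sum_comm]
    refine Finset.sum_congr rfl fun j _ => Finset.sum_congr rfl fun l _ => ?_
    rw [mul_comm (p l) (p j)]
  have h2 : (2 : ℂ) • ∑ j, ∑ l, (p j * p l) • T j l =
      (2 : ℂ) • ∑ j, (p j ^ 2 / 2) • s j := by
    rw [two_smul]
    nth_rewrite 2 [← h4]
    rw [← Finset.sum_add_distrib, Finset.smul_sum]
    refine Finset.sum_congr rfl fun j _ => ?_
    rw [← Finset.sum_add_distrib]
    have : ∀ l, (p j * p l) • T j l + (p j * p l) • T l j =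
        if j = l then (p j * p l) • s j else 0 := by
      intro l
      rw [← smul_add, h j l]
      split_ifs <;> simp
    simp only [this, Finset.sum_ite_eq, Finset.mem_univ, if_true]
    rw [smul_smul]
    congr 1; ring
  exact smul_right_injective F (two_ne_zero : (2 : ℂ) ≠ 0) h2

/-- `Σ_α (Σ p_j a_αj + Σ q_j v_αj)² = c (Σ p² + Σ ω² q²)` -/
theorem sq_sum (p q : κ → ℂ) (w : F) :
    ∑ α, ∑ j, (p j • S.a α j (∑ l, (p l • S.a α l w + q l • S.v α l w)) +
      q j • S.v α j (∑ l, (p l • S.a α l w + q l • S.v α l w))) =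
    ((S.c : ℂ) * (∑ j, p j ^ 2 + ∑ j, (S.om j : ℂ) ^ 2 * q j ^ 2)) • w := by
  have e1 : ∀ α, (∑ j, (p j • S.a α j (∑ l, (p l • S.a α l w + q l • S.v α l w)) +
      q j • S.v α j (∑ l, (p l • S.a α l w + q l • S.v α l w)))) =
      (∑ j, ∑ l, (p j * p l) • S.a α j (S.a α l w)) +
      (∑ j, ∑ l, (q j * q l) • S.v α j (S.v α l w)) +
      (∑ j, ∑ l, (p j * q l) • (S.a α j (S.v α l w) + S.v α l (S.a α j w))) := by
    intro α
    have h1 : ∑ j, ∑ l, (p j * q l) • S.v α l (S.a α j w) =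
        ∑ j, ∑ l, (q j * p l) • S.v α j (S.a α l w) := by
      rw [Finset.sum_comm]
      refine Finset.sum_congr rfl fun j _ => Finset.sum_congr rfl fun l _ => ?_
      rw [mul_comm]
    have h2 : ∑ j, ∑ l, (p j * q l) • (S.a α j (S.v α l w) + S.v α l (S.a α j w)) =
        (∑ j, ∑ l, (p j * q l) • S.a α j (S.v α l w)) +
          ∑ j, ∑ l, (q j * p l) • S.v α j (S.a α l w) := by
      rw [← h1, ← Finset.sum_add_distrib]
      refine Finset.sum_congr rfl fun j _ => ?_
      rw [← Finset.sum_add_distrib]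
      refine Finset.sum_congr rfl fun l _ => ?_
      rw [smul_add]
    rw [h2]
    have h3 : ∀ j, (p j • S.a α j (∑ l, (p l • S.a α l w + q l • S.v α l w)) +
        q j • S.v α j (∑ l, (p l • S.a α l w + q l • S.v α l w))) =
        (∑ l, (p j * p l) • S.a α j (S.a α l w)) + (∑ l, (p j * q l) • S.a α j (S.v α l w)) +
        ((∑ l, (q j * p l) • S.v α j (S.a α l w)) + ∑ l, (q j * q l) • S.v α j (S.v α l w)) := by
      intro j
      simp only [map_sum, map_add, map_smul, Finset.smul_sum, smul_add, smul_smul,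
        Finset.sum_add_distrib]
    rw [Finset.sum_congr rfl (fun j _ => h3 j)]
    simp only [Finset.sum_add_distrib]
    abel
  rw [Finset.sum_congr rfl (fun α _ => e1 α), Finset.sum_add_distrib, Finset.sum_add_distrib]
  have hA : ∑ α, ∑ j, ∑ l, (p j * p l) • S.a α j (S.a α l w) =
      ((S.c : ℂ) * ∑ j, p j ^ 2) • w := by
    have h3 : ∑ α, ∑ j, ∑ l, (p j * p l) • S.a α j (S.a α l w) =
        ∑ j, ∑ l, (p j * p l) • ∑ α, S.a α j (S.a α l w) := by
      rw [Finset.sum_comm]
      refine Finset.sum_congr rfl fun j _ => ?_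
      rw [Finset.sum_comm]
      refine Finset.sum_congr rfl fun l _ => ?_
      rw [Finset.smul_sum]
    rw [h3, sym_sum (s := fun _ => ((2 * S.c : ℝ) : ℂ) • w)]
    · simp only [smul_smul]
      rw [← Finset.sum_smul]
      congr 1
      rw [Finset.mul_sum]
      refine Finset.sum_congr rfl fun j _ => ?_
      push_cast; ring
    · intro j l
      rw [← Finset.sum_add_distrib]
      exact S.aa j l w
  have hB : ∑ α, ∑ j, ∑ l, (q j * q l) • S.v α j (S.v α l w) =
      ((S.c : ℂ) * ∑ j, (S.om j : ℂ) ^ 2 * q j ^ 2) • w := by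
    have h3 : ∑ α, ∑ j, ∑ l, (q j * q l) • S.v α j (S.v α l w) =
        ∑ j, ∑ l, (q j * q l) • ∑ α, S.v α j (S.v α l w) := by
      rw [Finset.sum_comm]
      refine Finset.sum_congr rfl fun j _ => ?_
      rw [Finset.sum_comm]
      refine Finset.sum_congr rfl fun l _ => ?_
      rw [Finset.smul_sum]
    rw [h3, sym_sum (s := fun j => ((2 * S.c * S.om j ^ 2 : ℝ) : ℂ) • w)]
    · simp only [smul_smul]
      rw [← Finset.sum_smul]
      congr 1
      rw [Finset.mul_sum]
      refine Finset.sum_congr rfl fun j _ => ?_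
      push_cast; ring
    · intro j l
      rw [← Finset.sum_add_distrib]
      exact S.vv j l w
  have hC : ∑ α, ∑ j, ∑ l, (p j * q l) • (S.a α j (S.v α l w) + S.v α l (S.a α j w)) = 0 := by
    rw [Finset.sum_comm]
    refine Finset.sum_eq_zero fun j _ => ?_
    rw [Finset.sum_comm]
    refine Finset.sum_eq_zero fun l _ => ?_
    rw [← Finset.smul_sum, S.av j l w, smul_zero]
  rw [hA, hB, hC, add_zero, ← add_smul]
  congr 1; ring

/-- `Σ_α Σ_j a_αj a_αj = c |κ|`-type identity, weighted -/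
theorem sum_aa (w : F) : ∑ α, ∑ j, (S.om j : ℂ) • S.a α j (S.a α j w) =
    ((S.c * ∑ j, S.om j : ℝ) : ℂ) • w := by
  rw [Finset.sum_comm]
  have h : ∀ j, ∑ α, (S.om j : ℂ) • S.a α j (S.a α j w) = ((S.c * S.om j : ℝ) : ℂ) • w := by
    intro j
    have h1 := S.aa j j w
    simp only [if_true] at h1
    have h2 : (2 : ℂ) • ∑ α, S.a α j (S.a α j w) = (2 : ℂ) • ((S.c : ℂ) • w) := by
      rw [two_smul, ← Finset.sum_add_distrib, h1, smul_smul]
      congr 1; push_cast; ring
    have h3 := smul_right_injective F (two_ne_zero : (2 : ℂ) ≠ 0) h2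
    rw [← Finset.smul_sum, h3, smul_smul]
    congr 1; push_cast; ring
  simp only [h]
  rw [← Finset.sum_smul]
  congr 1
  rw [Finset.mul_sum]; push_cast; rfl

/-- `M = Σ_k (1/(2 ω_k)) Σ_α C† C` -/
theorem inner_M (w : F) : ⟪w, S.M w⟫_ℂ =
    ((∑ k, ∑ α, (1 / (2 * S.om k)) * ‖S.C α k w‖ ^ 2 : ℝ) : ℂ) := by
  have hC : ∀ α k, ((‖S.C α k w‖ ^ 2 : ℝ) : ℂ) =
      (S.om k : ℂ) ^ 2 * ⟪w, S.a α k (S.a α k w)⟫_ℂ + ⟪w, S.v α k (S.v α k w)⟫_ℂ +
      (-Complex.I * S.om k) * ⟪w, S.a α k (S.v α k w)⟫_ℂ +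
      (Complex.I * S.om k) * ⟪w, S.v α k (S.a α k w)⟫_ℂ := by
    intro α k
    have h0 : ((‖S.C α k w‖ ^ 2 : ℝ) : ℂ) = ⟪S.C α k w, S.C α k w⟫_ℂ := by
      rw [inner_self_eq_norm_sq_to_K]; norm_cast
    rw [h0]
    have hCw : S.C α k w = (Complex.I * S.om k) • S.a α k w + S.v α k w := by
      simp [C]
    rw [hCw]
    simp only [inner_add_left, inner_add_right, inner_smul_left, inner_smul_right]
    rw [← S.a_symm α k w (S.a α k w), ← S.v_symm α k w (S.v α k w),
      ← S.a_symm α k w (S.v α k w), ← S.v_symm α k w (S.a α k w)]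
    simp only [map_mul, Complex.conj_I, Complex.conj_ofReal]
    ring_nf
    simp only [Complex.I_sq]
    ring
  have hsum : ∀ k, ((∑ α, ‖S.C α k w‖ ^ 2 : ℝ) : ℂ) = ((2 * S.om k : ℝ) : ℂ) *
      (((S.c * S.om k : ℝ) : ℂ) * ⟪w, w⟫_ℂ - Complex.I * ∑ α, ⟪w, S.a α k (S.v α k w)⟫_ℂ) := by
    intro k
    push_cast
    have h1 : ∀ α, ((‖S.C α k w‖ : ℂ)) ^ 2 = (S.om k : ℂ) ^ 2 * ⟪w, S.a α k (S.a α k w)⟫_ℂ +
      ⟪w, S.v α k (S.v α k w)⟫_ℂ +
      (-Complex.I * S.om k) * ⟪w, S.a α k (S.v α k w)⟫_ℂ +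
      (Complex.I * S.om k) * ⟪w, S.v α k (S.a α k w)⟫_ℂ := by
      intro α
      have := hC α k
      push_cast at this
      exact this
    simp only [h1, Finset.sum_add_distrib, ← Finset.mul_sum, ← inner_sum]
    have ha : ∑ α, S.a α k (S.a α k w) = (S.c : ℂ) • w := by
      have h1 := S.aa k k w
      simp only [if_true] at h1
      have h2 : (2 : ℂ) • ∑ α, S.a α k (S.a α k w) = (2 : ℂ) • ((S.c : ℂ) • w) := by
        rw [two_smul, ← Finset.sum_add_distrib, h1, smul_smul]
        congr 1; push_cast; ring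
      exact smul_right_injective F (two_ne_zero : (2 : ℂ) ≠ 0) h2
    have hv : ∑ α, S.v α k (S.v α k w) = ((S.c : ℂ) * (S.om k : ℂ) ^ 2) • w := by
      have h1 := S.vv k k w
      simp only [if_true] at h1
      have h2 : (2 : ℂ) • ∑ α, S.v α k (S.v α k w) =
          (2 : ℂ) • (((S.c : ℂ) * (S.om k : ℂ) ^ 2) • w) := by
        rw [two_smul, ← Finset.sum_add_distrib, h1, smul_smul]
        congr 1; push_cast; ring
      exact smul_right_injective F (two_ne_zero : (2 : ℂ) ≠ 0) h2
    have hva : ∑ α, S.v α k (S.a α k w) = - ∑ α, S.a α k (S.v α k w) := by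
      have h1 := S.av k k w
      rw [Finset.sum_add_distrib] at h1
      rw [eq_neg_iff_add_eq_zero, add_comm]; exact h1
    rw [ha, hv, hva, inner_neg_right, inner_smul_right, inner_smul_right]
    ring
  rw [M_apply, inner_sub_right, inner_smul_right, inner_smul_right]
  have e1 : ⟪w, ∑ α, ∑ k, S.a α k (S.v α k w)⟫_ℂ = ∑ k, ∑ α, ⟪w, S.a α k (S.v α k w)⟫_ℂ := by
    rw [Finset.sum_comm, inner_sum]
    refine Finset.sum_congr rfl fun k _ => ?_
    rw [inner_sum]
  rw [e1]
  have e2 : ((∑ k, ∑ α, (1 / (2 * S.om k)) * ‖S.C α k w‖ ^ 2 : ℝ) : ℂ) =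
      ∑ k, (((1 / (2 * S.om k) : ℝ) : ℂ) * ((∑ α, ‖S.C α k w‖ ^ 2 : ℝ) : ℂ)) := by
    push_cast
    refine Finset.sum_congr rfl fun k _ => ?_
    rw [Finset.mul_sum]
  rw [e2]
  have e3 : ∀ k, (((1 / (2 * S.om k) : ℝ) : ℂ) * ((∑ α, ‖S.C α k w‖ ^ 2 : ℝ) : ℂ)) =
      ((S.c * S.om k : ℝ) : ℂ) * ⟪w, w⟫_ℂ - Complex.I * ∑ α, ⟪w, S.a α k (S.v α k w)⟫_ℂ := by
    intro k
    rw [hsum k, ← mul_assoc, ← Complex.ofReal_mul]
    have : 1 / (2 * S.om k) * (2 * S.om k) = 1 := by
      have := (S.om_pos k).ne'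
      field_simp
    rw [this, Complex.ofReal_one, one_mul]
  simp only [e3, Finset.sum_sub_distrib, ← Finset.sum_mul, ← Finset.mul_sum]
  push_cast
  rw [Finset.mul_sum]

/-! ### test functions -/

/-- complex Gaussian wave `gs x * e^{i k x}` -/
def G (k x : EuclideanSpace ℝ κ) : ℂ :=
  Complex.exp ((-(1 / 2) * ∑ l, (S.om l : ℂ) * (x l : ℂ) ^ 2) + Complex.I * ∑ l, (k l : ℂ) * x l)

theorem G_eq (k x : EuclideanSpace ℝ κ) : S.G k x = (S.gs x : ℂ) * pw k x := by
  unfold G gs pw ph
  rw [Complex.exp_add]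
  congr 1
  · push_cast; rfl
  · push_cast; rw [mul_comm]

theorem norm_G (k x : EuclideanSpace ℝ κ) : ‖S.G k x‖ = S.gs x := by
  rw [G_eq, norm_mul, norm_pw, mul_one, Complex.norm_real, Real.norm_eq_abs,
    abs_of_pos (S.gs_pos x)]

/-- coordinate functional, complex valued -/
def pr (κ : Type*) [Fintype κ] (l : κ) : EuclideanSpace ℝ κ →L[ℝ] ℂ :=
  Complex.ofRealCLM.comp (EuclideanSpace.proj (𝕜 := ℝ) l)

theorem pr_apply (l : κ) (x : EuclideanSpace ℝ κ) : pr κ l x = (x l : ℂ) := rfl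

theorem hasFDerivAt_coord (l : κ) (x : EuclideanSpace ℝ κ) :
    HasFDerivAt (fun x : EuclideanSpace ℝ κ => (x l : ℂ)) (pr κ l) x :=
  (pr κ l).hasFDerivAt

theorem hasFDerivAt_G (k x : EuclideanSpace ℝ κ) :
    HasFDerivAt (S.G k) (S.G k x • ∑ l, (-(S.om l : ℂ) * x l + Complex.I * k l) • pr κ l) x := by
  have h1 : HasFDerivAt (fun x : EuclideanSpace ℝ κ =>
      ((-(1 / 2) * ∑ l, (S.om l : ℂ) * (x l : ℂ) ^ 2) + Complex.I * ∑ l, (k l : ℂ) * x l))
      (∑ l, (-(S.om l : ℂ) * x l + Complex.I * k l) • pr κ l) x := by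
    have h2 : HasFDerivAt (fun x : EuclideanSpace ℝ κ => ∑ l, (S.om l : ℂ) * (x l : ℂ) ^ 2)
        (∑ l, (S.om l : ℂ) • ((2 * (x l : ℂ)) • pr κ l)) x := by
      apply HasFDerivAt.fun_sum
      intro l _
      have h3 := ((hasFDerivAt_coord l x).pow 2).const_mul (S.om l : ℂ)
      refine h3.congr_fderiv ?_
      ext e
      simp [smul_smul]
    have h4 : HasFDerivAt (fun x : EuclideanSpace ℝ κ => ∑ l, (k l : ℂ) * (x l : ℂ))
        (∑ l, (k l : ℂ) • pr κ l) x := by
      apply HasFDerivAt.fun_sum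
      intro l _
      exact (hasFDerivAt_coord l x).const_mul (k l : ℂ)
    refine ((h2.const_mul (-(1 / 2) : ℂ)).add (h4.const_mul Complex.I)).congr_fderiv ?_
    rw [Finset.smul_sum, Finset.smul_sum, ← Finset.sum_add_distrib]
    refine Finset.sum_congr rfl fun l _ => ?_
    rw [smul_smul, smul_smul, smul_smul, ← add_smul]
    congr 1; ring
  exact h1.cexp

theorem G_smooth (k : EuclideanSpace ℝ κ) : ContDiff ℝ ∞ (S.G k) := by
  unfold G
  have hc : ∀ l, ContDiff ℝ ∞ (fun x : EuclideanSpace ℝ κ => (x l : ℂ)) :=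
    fun l => (pr κ l).contDiff
  apply ContDiff.cexp
  apply ContDiff.add
  · exact contDiff_const.mul (ContDiff.sum fun l _ => contDiff_const.mul ((hc l).pow 2))
  · exact contDiff_const.mul (ContDiff.sum fun l _ => contDiff_const.mul (hc l))

/-- test functions `G_k (w0 + Σ x_l w_l)` -/
def tf (k : EuclideanSpace ℝ κ) (w0 : F) (w : κ → F) (x : EuclideanSpace ℝ κ) : F :=
  S.G k x • (w0 + ∑ l, (x l : ℂ) • w l)

theorem tf_smooth (k : EuclideanSpace ℝ κ) (w0 : F) (w : κ → F) : ContDiff ℝ ∞ (S.tf k w0 w) := by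
  unfold tf
  have hc : ∀ l, ContDiff ℝ ∞ (fun x : EuclideanSpace ℝ κ => (x l : ℂ)) :=
    fun l => (pr κ l).contDiff
  exact (S.G_smooth k).smul (contDiff_const.add (ContDiff.sum fun l _ =>
    (hc l).smul contDiff_const))

theorem fderiv_tf (k : EuclideanSpace ℝ κ) (w0 : F) (w : κ → F) (x : EuclideanSpace ℝ κ) (j : κ) :
    fderiv ℝ (S.tf k w0 w) x (EuclideanSpace.single j 1) =
      S.G k x • ((-(S.om j : ℂ) * x j + Complex.I * k j) • (w0 + ∑ l, (x l : ℂ) • w l) + w j) := by
  have h1 : HasFDerivAt (fun x : EuclideanSpace ℝ κ => w0 + ∑ l, (x l : ℂ) • w l)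
      (∑ l, (pr κ l).smulRight (w l)) x := by
    apply HasFDerivAt.const_add
    apply HasFDerivAt.fun_sum
    intro l _
    exact (hasFDerivAt_coord l x).smul_const (w l)
  have h2 := (S.hasFDerivAt_G k x).smul h1
  have h3 : HasFDerivAt (S.tf k w0 w) _ x := h2
  rw [h3.fderiv]
  have hs : ∀ l, pr κ l (EuclideanSpace.single j (1 : ℝ)) = if l = j then 1 else 0 := by
    intro l
    rw [pr_apply]
    by_cases h : l = j
    · subst h; simp
    · simp [h]
  simp only [ContinuousLinearMap.add_apply, ContinuousLinearMap.smulRight_apply,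
    FunLike.coe_smul, Pi.smul_apply, ContinuousLinearMap.sum_apply, hs, smul_eq_mul, ite_smul,
    one_smul, zero_smul, mul_ite, mul_one, mul_zero, Finset.sum_ite_eq', Finset.mem_univ,
    if_true, smul_add, smul_smul]
  abel

theorem D_tf (α : ι) (k : EuclideanSpace ℝ κ) (w0 : F) (w : κ → F) (x : EuclideanSpace ℝ κ) :
    S.D α (S.tf k w0 w) x = S.G k x •
      ((∑ j, (((k j : ℂ) + Complex.I * S.om j * x j) • S.a α j (w0 + ∑ l, (x l : ℂ) • w l) +
        (x j : ℂ) • S.v α j (w0 + ∑ l, (x l : ℂ) • w l))) +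
        (-Complex.I) • ∑ j, S.a α j (w j)) := by
  unfold D dirac
  simp only [fderiv_tf, lin_apply]
  set W := w0 + ∑ l, (x l : ℂ) • w l with hW
  have htf : S.tf k w0 w x = S.G k x • W := rfl
  rw [htf]
  simp only [map_smul, map_add, smul_add, Finset.sum_add_distrib, Finset.smul_sum, smul_smul]
  have e1 : ∑ j, (-Complex.I * (S.G k x * (-(S.om j : ℂ) * x j + Complex.I * k j))) • S.a α j W =
      ∑ j, (S.G k x * ((k j : ℂ) + Complex.I * S.om j * x j)) • S.a α j W := by
    refine Finset.sum_congr rfl fun j _ => ?_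
    congr 1
    ring_nf
    simp only [Complex.I_sq]
    ring
  have e2 : ∑ j, (-Complex.I * S.G k x) • S.a α j (w j) =
      ∑ j, (S.G k x * -Complex.I) • S.a α j (w j) := by
    refine Finset.sum_congr rfl fun j _ => ?_
    rw [mul_comm]
  have e3 : ∑ j, ((x j : ℂ) * S.G k x) • S.v α j W = ∑ j, (S.G k x * (x j : ℂ)) • S.v α j W := by
    refine Finset.sum_congr rfl fun j _ => ?_
    rw [mul_comm]
  rw [e1, e2, e3]
  abel

/-- first level: `D_α (G_k e) = tf` -/
theorem D_G (α : ι) (k : EuclideanSpace ℝ κ) (e : F) :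
    S.D α (S.tf k e 0) = S.tf k (∑ j, (k j : ℂ) • S.a α j e) (fun j => S.C α j e) := by
  funext x
  rw [D_tf]
  unfold tf
  congr 1
  simp only [Pi.zero_apply, smul_zero, Finset.sum_const_zero, add_zero, map_zero]
  rw [← Finset.sum_add_distrib]
  refine Finset.sum_congr rfl fun j _ => ?_
  simp only [C, LinearMap.add_apply, LinearMap.smul_apply, smul_add, smul_smul, add_smul]
  have : (x j : ℂ) * (Complex.I * (S.om j : ℂ)) = Complex.I * S.om j * x j := by ring
  rw [this, add_assoc]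

/-- second level: the sum of squares on Gaussian waves -/
theorem DD_G (k : EuclideanSpace ℝ κ) (e : F) (x : EuclideanSpace ℝ κ) :
    ∑ α, S.D α (S.D α (S.tf k e 0)) x = S.G k x •
      ((((S.c : ℂ) * (∑ j, (k j : ℂ) ^ 2 + 2 * Complex.I * ∑ j, (S.om j : ℂ) * k j * x j)) • e) +
        S.M e) := by
  have h1 : ∀ α, S.D α (S.D α (S.tf k e 0)) x = S.G k x •
      ((∑ j, (((k j : ℂ) + Complex.I * S.om j * x j) • S.a α j
          (∑ l, (((k l : ℂ) + Complex.I * S.om l * x l) • S.a α l e + (x l : ℂ) • S.v α l e)) +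
        (x j : ℂ) • S.v α j
          (∑ l, (((k l : ℂ) + Complex.I * S.om l * x l) • S.a α l e + (x l : ℂ) • S.v α l e)))) +
        (-Complex.I) • ∑ j, S.a α j (S.C α j e)) := by
    intro α
    rw [D_G, D_tf]
    have h2 : (∑ j, (k j : ℂ) • S.a α j e) + ∑ l, (x l : ℂ) • S.C α l e =
        ∑ l, (((k l : ℂ) + Complex.I * S.om l * x l) • S.a α l e + (x l : ℂ) • S.v α l e) := by
      rw [← Finset.sum_add_distrib]
      refine Finset.sum_congr rfl fun j _ => ?_
      simp only [C, LinearMap.add_apply, LinearMap.smul_apply, smul_add, smul_smul, add_smul]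
      have : (x j : ℂ) * (Complex.I * (S.om j : ℂ)) = Complex.I * S.om j * x j := by ring
      rw [this, add_assoc]
    rw [h2]
  rw [Finset.sum_congr rfl (fun α _ => h1 α), ← Finset.smul_sum, Finset.sum_add_distrib]
  congr 1
  rw [S.sq_sum (fun j => (k j : ℂ) + Complex.I * S.om j * x j) (fun j => (x j : ℂ)) e]
  congr 1
  · congr 1
    congr 1
    rw [Finset.mul_sum, ← Finset.sum_add_distrib, ← Finset.sum_add_distrib]
    refine Finset.sum_congr rfl fun j _ => ?_
    ring_nf
    simp only [Complex.I_sq]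
    ring
  · rw [M_apply, ← S.sum_aa e]
    rw [← Finset.smul_sum]
    have h3 : ∑ α, ∑ j, S.a α j (S.C α j e) =
        Complex.I • (∑ α, ∑ j, (S.om j : ℂ) • S.a α j (S.a α j e)) +
          ∑ α, ∑ j, S.a α j (S.v α j e) := by
      rw [Finset.smul_sum, ← Finset.sum_add_distrib]
      refine Finset.sum_congr rfl fun α _ => ?_
      rw [Finset.smul_sum, ← Finset.sum_add_distrib]
      refine Finset.sum_congr rfl fun j _ => ?_
      simp only [C, LinearMap.add_apply, LinearMap.smul_apply, map_add, map_smul, smul_smul]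
    rw [h3, smul_add, smul_smul]
    have : -Complex.I * Complex.I = 1 := by rw [neg_mul, Complex.I_mul_I, neg_neg]
    rw [this, one_smul, neg_smul]
    abel

/-! ### square integrability -/

theorem exists_lower : ∃ c0 : ℝ, 0 < c0 ∧ ∀ k, c0 ≤ S.om k := by
  rcases isEmpty_or_nonempty κ with he | hne
  · exact ⟨1, one_pos, fun k => (he.false k).elim⟩
  · obtain ⟨k0, hk0⟩ := Finite.exists_min S.om
    exact ⟨S.om k0, S.om_pos k0, hk0⟩

theorem gs_le {c0 : ℝ} (h : ∀ k, c0 ≤ S.om k) (x : EuclideanSpace ℝ κ) :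
    S.gs x ≤ Real.exp (-(c0 / 2) * ‖x‖ ^ 2) := by
  unfold gs
  apply Real.exp_le_exp.mpr
  rw [EuclideanSpace.norm_sq_eq]
  have : c0 * ∑ k, ‖x k‖ ^ 2 ≤ ∑ k, S.om k * x k ^ 2 := by
    rw [Finset.mul_sum]
    refine Finset.sum_le_sum fun k _ => ?_
    rw [Real.norm_eq_abs, sq_abs]
    exact mul_le_mul_of_nonneg_right (h k) (sq_nonneg _)
  linarith

theorem poly_le {d : ℝ} (hd : 0 < d) (r : ℝ) :
    (1 + r) ^ 2 ≤ (2 + 2 / d) * Real.exp (d * r ^ 2) := by
  have h1 : d * r ^ 2 + 1 ≤ Real.exp (d * r ^ 2) := Real.add_one_le_exp _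
  have h2 : (1 + r) ^ 2 ≤ 2 + 2 * r ^ 2 := by nlinarith [sq_nonneg (1 - r)]
  have h3 : 2 + 2 * r ^ 2 ≤ (2 + 2 / d) * (d * r ^ 2 + 1) := by
    have : (2 + 2 / d) * (d * r ^ 2 + 1) = 2 * d * r ^ 2 + 2 + 2 * r ^ 2 + 2 / d := by
      field_simp
      ring
    rw [this]
    have h4 : 0 ≤ 2 / d := by positivity
    have h5 : 0 ≤ 2 * d * r ^ 2 := by positivity
    linarith
  calc (1 + r) ^ 2 ≤ (2 + 2 / d) * (d * r ^ 2 + 1) := h2.trans h3
    _ ≤ _ := mul_le_mul_of_nonneg_left h1 (by positivity)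

theorem memLp_of_bound {u : EuclideanSpace ℝ κ → F} (hu : Continuous u) {K : ℝ}
    (h : ∀ x, ‖u x‖ ≤ K * (1 + ‖x‖) ^ 2 * S.gs x) : MemLp u 2 volume := by
  obtain ⟨c0, hc0, hc⟩ := S.exists_lower
  have hK : 0 ≤ K ∨ ∀ x, u x = 0 := by
    by_contra hcon
    push Not at hcon
    obtain ⟨h1, x, hx⟩ := hcon
    have h2 := h x
    have h3 : 0 < ‖u x‖ := norm_pos_iff.mpr hx
    have h4 : K * (1 + ‖x‖) ^ 2 * S.gs x ≤ 0 := by
      apply mul_nonpos_of_nonpos_of_nonneg _ (S.gs_pos x).le
      exact mul_nonpos_of_nonpos_of_nonneg h1.le (sq_nonneg _)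
    linarith
  rcases hK with hK | hK
  · have hint : MemLp (fun x : EuclideanSpace ℝ κ => Real.exp (-(c0 / 4) * ‖x‖ ^ 2)) 2 volume := by
      rw [memLp_two_iff_integrable_sq]
      · have h0 := GaussianFourier.integrable_cexp_neg_mul_sq_norm_add
          (V := EuclideanSpace ℝ κ) (b := ((c0 / 2 : ℝ) : ℂ)) (by simpa using hc0) 0 0
        have h1 := h0.re
        refine h1.congr (Eventually.of_forall fun x => ?_)
        simp only [zero_mul, add_zero]
        have : Complex.exp (-((c0 / 2 : ℝ) : ℂ) * (‖x‖ : ℂ) ^ 2) =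
            ((Real.exp (-(c0 / 2) * ‖x‖ ^ 2) : ℝ) : ℂ) := by
          push_cast; rfl
        rw [this]
        rw [← Real.exp_nat_mul]
        show Real.exp (-(c0 / 2) * ‖x‖ ^ 2) = _
        congr 1
        push_cast; ring
      · exact (by fun_prop : Continuous fun x : EuclideanSpace ℝ κ =>
          Real.exp (-(c0 / 4) * ‖x‖ ^ 2)).aestronglyMeasurable
    refine (hint.const_mul (K * (2 + 2 / (c0 / 4)))).mono hu.aestronglyMeasurable
      (Eventually.of_forall fun x => ?_)
    rw [Real.norm_eq_abs, abs_of_nonneg (by positivity)]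
    refine (h x).trans ?_
    have h1 := poly_le (d := c0 / 4) (by positivity) ‖x‖
    have h2 := S.gs_le hc x
    calc K * (1 + ‖x‖) ^ 2 * S.gs x
        ≤ K * ((2 + 2 / (c0 / 4)) * Real.exp (c0 / 4 * ‖x‖ ^ 2)) *
            Real.exp (-(c0 / 2) * ‖x‖ ^ 2) := by
          apply mul_le_mul (mul_le_mul_of_nonneg_left h1 hK) h2 (S.gs_pos x).le
          positivity
      _ = K * (2 + 2 / (c0 / 4)) * Real.exp (-(c0 / 4) * ‖x‖ ^ 2) := by
          rw [show -(c0 / 4) * ‖x‖ ^ 2 = c0 / 4 * ‖x‖ ^ 2 + -(c0 / 2) * ‖x‖ ^ 2 by ring,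
            Real.exp_add]
          ring
  · have : u = 0 := funext hK
    rw [this]; exact MemLp.zero

theorem norm_poly_le (w0 : F) (w : κ → F) (x : EuclideanSpace ℝ κ) :
    ‖w0 + ∑ l, (x l : ℂ) • w l‖ ≤ (‖w0‖ + ∑ l, ‖w l‖) * (1 + ‖x‖) := by
  refine (norm_add_le _ _).trans ?_
  have h1 : ‖∑ l, (x l : ℂ) • w l‖ ≤ (∑ l, ‖w l‖) * ‖x‖ := by
    refine (norm_sum_le _ _).trans ?_
    rw [Finset.sum_mul]
    refine Finset.sum_le_sum fun l _ => ?_
    rw [norm_smul, Complex.norm_real, mul_comm]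
    exact mul_le_mul_of_nonneg_left (PiLp.norm_apply_le x l) (norm_nonneg _)
  have h2 : 0 ≤ ‖w0‖ * ‖x‖ := by positivity
  have h3 : 0 ≤ ∑ l, ‖w l‖ := Finset.sum_nonneg fun _ _ => norm_nonneg _
  nlinarith

theorem memLp_tf (k : EuclideanSpace ℝ κ) (w0 : F) (w : κ → F) :
    MemLp (S.tf k w0 w) 2 volume := by
  apply S.memLp_of_bound (S.tf_smooth k w0 w).continuous (K := ‖w0‖ + ∑ l, ‖w l‖)
  intro x
  unfold tf
  rw [norm_smul, norm_G, mul_comm]
  apply mul_le_mul_of_nonneg_right _ (S.gs_pos x).le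
  refine (norm_poly_le w0 w x).trans ?_
  apply mul_le_mul_of_nonneg_left
  · nlinarith [norm_nonneg x]
  · have h3 : 0 ≤ ∑ l, ‖w l‖ := Finset.sum_nonneg fun _ _ => norm_nonneg _
    positivity

theorem memLp_D_tf (α : ι) (k : EuclideanSpace ℝ κ) (w0 : F) (w : κ → F) :
    MemLp (S.D α (S.tf k w0 w)) 2 volume := by
  obtain ⟨K, hK⟩ : ∃ K : ℝ, ∀ j, ∀ u : F, ‖S.a α j u‖ ≤ K * ‖u‖ ∧ ‖S.v α j u‖ ≤ K * ‖u‖ := by
    have h1 : ∀ j, ∀ u : F, ‖S.a α j u‖ ≤ ‖LinearMap.toContinuousLinearMap (S.a α j)‖ * ‖u‖ :=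
      fun j u => (LinearMap.toContinuousLinearMap (S.a α j)).le_opNorm u
    have h2 : ∀ j, ∀ u : F, ‖S.v α j u‖ ≤ ‖LinearMap.toContinuousLinearMap (S.v α j)‖ * ‖u‖ :=
      fun j u => (LinearMap.toContinuousLinearMap (S.v α j)).le_opNorm u
    refine ⟨∑ j, (‖LinearMap.toContinuousLinearMap (S.a α j)‖ +
      ‖LinearMap.toContinuousLinearMap (S.v α j)‖), fun j u => ?_⟩
    have h3 : ‖LinearMap.toContinuousLinearMap (S.a α j)‖ +
      ‖LinearMap.toContinuousLinearMap (S.v α j)‖ ≤
      ∑ j, (‖LinearMap.toContinuousLinearMap (S.a α j)‖ +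
      ‖LinearMap.toContinuousLinearMap (S.v α j)‖) :=
      Finset.single_le_sum (f := fun j => ‖LinearMap.toContinuousLinearMap (S.a α j)‖ +
        ‖LinearMap.toContinuousLinearMap (S.v α j)‖) (fun _ _ => by positivity)
        (Finset.mem_univ j)
    constructor
    · refine (h1 j u).trans (mul_le_mul_of_nonneg_right ?_ (norm_nonneg _))
      linarith [norm_nonneg (LinearMap.toContinuousLinearMap (S.v α j))]
    · refine (h2 j u).trans (mul_le_mul_of_nonneg_right ?_ (norm_nonneg _))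
      linarith [norm_nonneg (LinearMap.toContinuousLinearMap (S.a α j))]
  set A : ℝ := ‖w0‖ + ∑ l, ‖w l‖ with hA
  have hA0 : 0 ≤ A := by
    have h3 : 0 ≤ ∑ l, ‖w l‖ := Finset.sum_nonneg fun _ _ => norm_nonneg _
    positivity
  set B : ℝ := ∑ j, (|k j| + S.om j + 1) * (|K| * A) + ∑ j, |K| * ‖w j‖ with hB
  apply S.memLp_of_bound (K := B)
  · exact (contDiff_dirac_top (fun u => lin_smooth (S.v α) u) (S.tf_smooth k w0 w)).continuous
  · intro x
    rw [D_tf, norm_smul, norm_G, mul_comm]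
    apply mul_le_mul_of_nonneg_right _ (S.gs_pos x).le
    set W := w0 + ∑ l, (x l : ℂ) • w l with hW
    have hWn : ‖W‖ ≤ A * (1 + ‖x‖) := norm_poly_le w0 w x
    have hx : ∀ j, |x j| ≤ ‖x‖ := fun j => by
      have := PiLp.norm_apply_le x j
      rwa [Real.norm_eq_abs] at this
    have h1 : ∀ j, ‖(((k j : ℂ) + Complex.I * S.om j * x j) • S.a α j W +
        (x j : ℂ) • S.v α j W)‖ ≤ (|k j| + S.om j + 1) * (|K| * A) * (1 + ‖x‖) ^ 2 := by
      intro j
      refine (norm_add_le _ _).trans ?_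
      rw [norm_smul, norm_smul]
      have h2 : ‖((k j : ℂ) + Complex.I * S.om j * x j)‖ ≤ (|k j| + S.om j) * (1 + ‖x‖) := by
        refine (norm_add_le _ _).trans ?_
        rw [norm_mul, norm_mul, Complex.norm_I, one_mul, Complex.norm_real, Complex.norm_real,
          Complex.norm_real, Real.norm_eq_abs, Real.norm_eq_abs, Real.norm_eq_abs,
          abs_of_pos (S.om_pos j)]
        have h3 := mul_le_mul_of_nonneg_left (hx j) (S.om_pos j).le
        have h4 : 0 ≤ |k j| * ‖x‖ := by positivity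
        have h5 := (S.om_pos j)
        nlinarith
      have h6 : ‖S.a α j W‖ ≤ |K| * (A * (1 + ‖x‖)) := by
        refine (hK j W).1.trans ?_
        refine (mul_le_mul_of_nonneg_right (le_abs_self K) (norm_nonneg _)).trans ?_
        exact mul_le_mul_of_nonneg_left hWn (abs_nonneg _)
      have h7 : ‖S.v α j W‖ ≤ |K| * (A * (1 + ‖x‖)) := by
        refine (hK j W).2.trans ?_
        refine (mul_le_mul_of_nonneg_right (le_abs_self K) (norm_nonneg _)).trans ?_
        exact mul_le_mul_of_nonneg_left hWn (abs_nonneg _)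
      have h8 : ‖((x j : ℝ) : ℂ)‖ ≤ 1 + ‖x‖ := by
        rw [Complex.norm_real, Real.norm_eq_abs]; linarith [hx j]
      calc ‖((k j : ℂ) + Complex.I * S.om j * x j)‖ * ‖S.a α j W‖ +
            ‖((x j : ℝ) : ℂ)‖ * ‖S.v α j W‖
          ≤ ((|k j| + S.om j) * (1 + ‖x‖)) * (|K| * (A * (1 + ‖x‖))) +
            (1 + ‖x‖) * (|K| * (A * (1 + ‖x‖))) := by
            apply add_le_add
            · exact mul_le_mul h2 h6 (norm_nonneg _) (by have := S.om_pos j; positivity)
            · exact mul_le_mul h8 h7 (norm_nonneg _) (by positivity)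
        _ = (|k j| + S.om j + 1) * (|K| * A) * (1 + ‖x‖) ^ 2 := by ring
    have h9 : ‖(-Complex.I) • ∑ j, S.a α j (w j)‖ ≤ (∑ j, |K| * ‖w j‖) * (1 + ‖x‖) ^ 2 := by
      rw [norm_smul, norm_neg, Complex.norm_I, one_mul]
      refine (norm_sum_le _ _).trans ?_
      have h10 : ∑ j, ‖S.a α j (w j)‖ ≤ ∑ j, |K| * ‖w j‖ :=
        Finset.sum_le_sum fun j _ => (hK j (w j)).1.trans
          (mul_le_mul_of_nonneg_right (le_abs_self K) (norm_nonneg _))
      have h11 : 0 ≤ ∑ j, |K| * ‖w j‖ := Finset.sum_nonneg fun _ _ => by positivity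
      have h12 : 1 ≤ (1 + ‖x‖) ^ 2 := by nlinarith [norm_nonneg x]
      nlinarith
    refine (norm_add_le _ _).trans ?_
    rw [hB, add_mul, Finset.sum_mul]
    exact add_le_add ((norm_sum_le _ _).trans (Finset.sum_le_sum fun j _ => h1 j)) h9

end OscSys

end Sys

end Crest.Agent.R330.FreeC122
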