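import Crest.Agent.R330.Defs_478
import Crest.Agent.R330.Sec_478

-- ▼ part R330/BaseOne_547
section

/-!
# Row 330: the case `N = 1` (helper547)

For one colour the configuration space is a point, the fermionic module is a line, all charges
vanish, and the kernel of the charges is one-dimensional.
-/

set_option autoImplicit false

open MeasureTheory Filter Topology Crest.MathPhysics.MatrixQM
open scoped ContDiff InnerProductSpace ENNReal

noncomputable section

namespace Crest.Agent.R330.BaseOne547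

open Crest.Agent.R330.Defs478

instance emptyCol : IsEmpty (Fin (1 ^ 2 - 1)) := by
  rw [show 1 ^ 2 - 1 = 0 from rfl]
  infer_instance

instance subCfg : Subsingleton (Cfg 1) :=
  ⟨fun x y => by
    ext i
    exact isEmptyElim i⟩

variable {F : Type*} [NormedAddCommGroup F] [InnerProductSpace ℂ F]

/-- Every vector spans an invariant subspace. -/
theorem span_top (M : FermionRep 1 F) {v : F} (hv : v ≠ 0) : Submodule.span ℂ {v} = ⊤ := by
  rcases M.irreducible (Submodule.span ℂ {v}) (fun _ A => isEmptyElim A) with h | h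
  · exact absurd (Submodule.span_singleton_eq_bot.1 h) hv
  · exact h


/-- All charges vanish. -/
theorem dcharge_zero (b : ColorBasis 1) (M : FermionRep 1 F) (G : GammaNine) (g m : ℝ)
    (α : Fin 16) (φ : Cfg 1 → F) : dcharge b M G g m α φ = 0 := by
  funext x
  simp [dcharge, kin]


theorem su_one (g : Matrix.specialUnitaryGroup (Fin 1) ℂ) : g = 1 := by
  have h := (Matrix.mem_specialUnitaryGroup_iff.1 g.2).2
  apply Subtype.ext
  ext i j
  rw [Matrix.det_fin_one] at h
  have hi : i = 0 := Subsingleton.elim _ _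
  have hj : j = 0 := Subsingleton.elim _ _
  rw [hi, hj, h]
  simp

/-- Every function on the point is a core vector. -/
theorem isCore [FiniteDimensional ℂ F] {b : ColorBasis 1} {M : FermionRep 1 F}
    (R : GaugeAction b M) (φ : Cfg 1 → F) : IsCoreVec b R φ := by
  have hc : φ = fun _ => φ 0 := funext fun x => congrArg φ (Subsingleton.elim _ _)
  refine ⟨by rw [hc]; exact contDiff_const, ?_, fun g x => ?_⟩
  · exact HasCompactSupport.of_compactSpace φ
  · rw [su_one g, map_one]
    exact congrArg φ (Subsingleton.elim _ _)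

theorem volume_eq : (volume : Measure (Cfg 1)) = Measure.dirac 0 :=
  volume_euclideanSpace_eq_dirac _

instance probVol : IsProbabilityMeasure (volume : Measure (Cfg 1)) := by
  rw [volume_eq]
  infer_instance

variable [FiniteDimensional ℂ F]

theorem memLp_any (φ : Cfg 1 → F) : MemLp φ 2 volume := by
  have hc : φ = fun _ => φ 0 := funext fun x => congrArg φ (Subsingleton.elim _ _)
  rw [hc]
  exact memLp_const _

/-- Every function is a zero state. -/
theorem mem_zset {b : ColorBasis 1} {M : FermionRep 1 F} (R : GaugeAction b M) (G : GammaNine)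
    (g m : ℝ) (Ψ : Cfg 1 → F) : Ψ ∈ zset b M R G g m := by
  refine ⟨memLp_any Ψ, fun _ => Ψ, fun _ => isCore R Ψ, by simp, fun α => ?_⟩
  simp [dcharge_zero]





/-- The gauge group acts trivially. -/
theorem rho_one {b : ColorBasis 1} {M : FermionRep 1 F} (R : GaugeAction b M)
    (g : Matrix.specialUnitaryGroup (Fin 1) ℂ) : R.ρ g = LinearMap.id := by
  rw [su_one g, map_one]
  rfl

/-- Every gauge action for one colour exists: the trivial one. -/
def gauge (b : ColorBasis 1) (M : FermionRep 1 F) : GaugeAction b M where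
  ρ := 1
  continuous := by
    change Continuous fun _ : Matrix.specialUnitaryGroup (Fin 1) ℂ =>
      LinearMap.toContinuousLinearMap (1 : F →ₗ[ℂ] F)
    exact continuous_const
  unitary _ _ _ := rfl
  intertwine _ _ A := isEmptyElim A

end Crest.Agent.R330.BaseOne547

end
end

-- ▼ part R330/SInd_478

/-!
# Row 330: the induction statement `S(k)` (helper478)

* `IsGVac M G Ω` : `Ω` is a vacuum of the complex structure `Γ ⊗ 1` (reference vacuum).
* `IsParity M G P` : `P` anticommutes with all generators and fixes the reference vacua.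
* `Ground b M R G ψ` : `ψ` is a normalised zero state spanning the kernel, with moments, Hardy
  inequality and even parity.
* `SInd N` : for all data there is a ground state.
* `sInd_one`.
-/

set_option autoImplicit false
set_option linter.unusedSectionVars false

open MeasureTheory Filter Topology Crest.MathPhysics.MatrixQM
open scoped ContDiff InnerProductSpace ENNReal

noncomputable section

namespace Crest.Agent.R330.SInd478

open Crest.Agent.R330.Defs478 Crest.Agent.R330.Top478 Crest.Agent.R330.Sec478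

variable {N : ℕ} {F : Type*} [NormedAddCommGroup F] [InnerProductSpace ℂ F]

/-- `Ω` is a vacuum of the complex structure `Γ ⊗ 1`: `θ(v) Ω = i θ(Γ v) Ω` for all `v`. -/
def IsGVac (M : FermionRep N F) (G : GammaNine) (Ω : F) : Prop :=
  ∀ (α : Fin 16) (A : Fin (N ^ 2 - 1)),
    M.θ α A Ω = Complex.I • ∑ β : Fin 16, ((Gam G β α : ℝ) : ℂ) • M.θ β A Ω

/-- The fermion parity, normalised on the reference vacuum. -/
structure IsParity (M : FermionRep N F) (G : GammaNine) (P : F →ₗ[ℂ] F) : Prop where
  anti : ∀ α A v, P (M.θ α A v) = -M.θ α A (P v)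
  vac : ∀ Ω, IsGVac M G Ω → P Ω = Ω

/-- Everything that the induction knows about the ground state of `Q^{1,0}`. -/
structure Ground [FiniteDimensional ℂ F] (b : ColorBasis N) (M : FermionRep N F)
    (R : GaugeAction b M) (G : GammaNine) (ψ : Cfg N → F) : Prop where
  mem : ψ ∈ zset b M R G 1 0
  norm : ∫ x, ‖ψ x‖ ^ 2 = 1
  line : ∀ φ ∈ zset b M R G 1 0, φ =ᵐ[volume] fun x => (∫ y, ⟪ψ y, φ y⟫_ℂ) • ψ x
  moment : ∀ s : ℝ, 0 ≤ s → s < 5 / 2 → Integrable fun x => ‖x‖ ^ (2 * s) * ‖ψ x‖ ^ 2
  hardy : ∃ c : ℝ, 0 < c ∧ ∀ φ : Cfg N → F, IsCoreVec b R φ →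
    c * ∫ x, (1 + ‖x‖ ^ 2)⁻¹ * ‖φ x - (∫ y, ⟪ψ y, φ y⟫_ℂ) • ψ x‖ ^ 2 ≤ qf b M G 1 0 φ
  even : ∀ P : F →ₗ[ℂ] F, IsParity M G P → ∀ᵐ x, P (ψ x) = ψ x

/-- The induction statement. -/
def SInd (N : ℕ) : Prop :=
  ∀ (F : Type) [NormedAddCommGroup F] [InnerProductSpace ℂ F] [FiniteDimensional ℂ F]
    [Nontrivial F] (b : ColorBasis N) (M : FermionRep N F) (R : GaugeAction b M) (G : GammaNine),
    ∃ ψ : Cfg N → F, Ground b M R G ψ

theorem qf_nonneg (b : ColorBasis N) (M : FermionRep N F) (G : GammaNine) (g m : ℝ)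
    (φ : Cfg N → F) : 0 ≤ qf b M G g m φ :=
  mul_nonneg (by norm_num) (Finset.sum_nonneg fun _ _ => integral_nonneg fun _ => sq_nonneg _)

section ground

variable [FiniteDimensional ℂ F] {b : ColorBasis N} {M : FermionRep N F} {R : GaugeAction b M}
  {G : GammaNine} {ψ : Cfg N → F}

theorem Ground.memLp (h : Ground b M R G ψ) : MemLp ψ 2 volume := h.mem.1

theorem Ground.integrable_sq (h : Ground b M R G ψ) : Integrable fun x => ‖ψ x‖ ^ 2 :=
  h.memLp.integrable_norm_pow (by norm_num)

end ground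

/-! ## one colour -/

section one

open Crest.Agent.R330.BaseOne547

theorem eq_smul_one {F : Type*} [NormedAddCommGroup F] [InnerProductSpace ℂ F]
    [FiniteDimensional ℂ F] [Nontrivial F] (M : FermionRep 1 F) {e : F} (he : ‖e‖ = 1) (v : F) :
    v = ⟪e, v⟫_ℂ • e := by
  have h0 : e ≠ 0 := by
    intro h
    rw [h, norm_zero] at he
    exact zero_ne_one he
  obtain ⟨c, hc⟩ := Submodule.mem_span_singleton.1
    (show v ∈ Submodule.span ℂ {e} by rw [span_top M h0]; exact Submodule.mem_top)
  rw [← hc, inner_smul_right, inner_self_eq_norm_sq_to_K, he]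
  simp

theorem sInd_one : SInd 1 := by
  intro F _ _ _ _ b M R G
  obtain ⟨e₀, he₀⟩ := exists_ne (0 : F)
  set e : F := ((‖e₀‖⁻¹ : ℝ) : ℂ) • e₀ with he
  have hn : ‖e‖ = 1 := by
    rw [he, norm_smul]
    simp [norm_ne_zero_iff.2 he₀]
  have hint : ∀ f : Cfg 1 → ℂ, ∫ x, f x = f 0 := fun f => by
    rw [volume_eq, integral_dirac]
  have hcs : ∀ (φ : Cfg 1 → F) (x : Cfg 1), φ x = (∫ y, ⟪e, φ y⟫_ℂ) • e := fun φ x => by
    rw [hint, Subsingleton.elim x 0]
    exact eq_smul_one M hn _
  refine ⟨fun _ => e, mem_zset R G 1 0 _, ?_, fun φ _ => ?_, fun s _ _ => ?_, ⟨1, one_pos,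
    fun φ _ => ?_⟩, fun P hP => ?_⟩
  · simp [hn]
  · exact Eventually.of_forall fun x => hcs φ x
  · have hc : (fun x : Cfg 1 => ‖x‖ ^ (2 * s) * ‖e‖ ^ 2) = fun _ => ‖(0 : Cfg 1)‖ ^ (2 * s) *
        ‖e‖ ^ 2 := funext fun x => by rw [Subsingleton.elim x 0]
    rw [hc]
    exact integrable_const _
  · have h0 : ∀ x, φ x - (∫ y, ⟪e, φ y⟫_ℂ) • e = 0 := fun x => sub_eq_zero.2 (hcs φ x)
    simp only [h0, norm_zero]
    simp [qf_nonneg]
  · exact Eventually.of_forall fun _ => hP.vac e fun α A => isEmptyElim A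

end one

end Crest.Agent.R330.SInd478

end
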