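import Crest.Agent.R330.SlG_944
import Crest.Agent.R330.Bind6_839
import Crest.Agent.R330.FreeC_122
import Crest.Agent.R330.SInd_478
import Crest.Agent.R330.SlP_314

/-!
# Row 330, S8: the literal definition of the trial states (helper414)

Definitions and their elementary properties only.

* `Pos p` : positions of the clusters, `EuclideanSpace ℝ (Fin 9 × Fin p)`, `p + 1` clusters.
* `Chn b p S` : the geometry of one channel, block free: stabiliser algebra `kk`, isometric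
  coordinates `cen` of its centre, finite symmetry group `S` (permutations of equal clusters).
  `C.cf X : Cfg N` the configuration with positions `X`; `C.Reg X`, `C.BReg X` (regular, and
  regular already by its last six components); `C.Fl`, `C.Fx` light vacuum spaces.
* `Sl C` : slice charts centred at `C.cf X0`.
* `TPack C M R G` : the heavy vacuum `U`, the state `Psi` of the blocks, the Gaussian exponent `A`.
* `tau`, `Tgen` : the trial state `T^c_{g,χ} = ext (τ / j)` of one chart and one amplitude `χ`.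
* `XX` : the free complex vector space on the pairs (chart, amplitude); `TT`, `DD`, `WW` : trial
  state, free charges and radial multiplication on it.
-/

set_option autoImplicit false
set_option linter.unusedSectionVars false

open MeasureTheory Filter Topology Crest.MathPhysics.MatrixQM
open scoped ContDiff InnerProductSpace ENNReal

noncomputable section

namespace Crest.Agent.R330.TDef414

open Crest.Agent.R330.Defs478 Crest.Agent.R330.LS839 Crest.Agent.R330.Frame839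
  Crest.Agent.R330.Clus839
  Crest.Agent.R330.Bind6839 Crest.Agent.R330.SlG944 Crest.Agent.R330.SlF944
  Crest.Agent.R330.IBP837 Crest.Agent.R330.FreeC122
open Crest.Agent.R330.SlB314 (Nor Tan br)
open Crest.Agent.R330.SlD314 (tube)

variable {N p : ℕ}

/-! ## positions -/

/-- Positions of the clusters. -/
abbrev Pos (p : ℕ) := EuclideanSpace ℝ (Fin 9 × Fin p)

/-- The `i`-th component of a position. -/
def pcomp (X : Pos p) (i : Fin 9) : EuclideanSpace ℝ (Fin p) := WithLp.toLp 2 fun s => X (i, s)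

/-- Assemble a position. -/
def mkp (f : Fin 9 → EuclideanSpace ℝ (Fin p)) : Pos p := WithLp.toLp 2 fun q => f q.1 q.2

@[simp] theorem pcomp_mkp (f : Fin 9 → EuclideanSpace ℝ (Fin p)) (i : Fin 9) :
    pcomp (mkp f) i = f i := rfl

@[simp] theorem mkp_pcomp (X : Pos p) : mkp (pcomp X) = X := rfl

theorem pcomp_add (X Y : Pos p) (i : Fin 9) : pcomp (X + Y) i = pcomp X i + pcomp Y i := rfl

theorem pcomp_smul (r : ℝ) (X : Pos p) (i : Fin 9) : pcomp (r • X) i = r • pcomp X i := rfl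

theorem norm_sq_pcomp (X : Pos p) : ‖X‖ ^ 2 = ∑ i, ‖pcomp X i‖ ^ 2 := by
  rw [EuclideanSpace.norm_sq_eq, Fintype.sum_prod_type]
  exact Finset.sum_congr rfl fun i _ => by rw [EuclideanSpace.norm_sq_eq]; rfl

/-- An isometry of the cluster index acts on positions. -/
def lift9 (o : EuclideanSpace ℝ (Fin p) ≃ₗᵢ[ℝ] EuclideanSpace ℝ (Fin p)) : Pos p ≃ₗᵢ[ℝ] Pos p where
  toFun X := mkp fun i => o (pcomp X i)
  invFun X := mkp fun i => o.symm (pcomp X i)
  map_add' X Y := by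
    have : (fun i => o (pcomp (X + Y) i)) = fun i => o (pcomp X i) + o (pcomp Y i) := by
      funext i
      rw [pcomp_add, map_add]
    show mkp (fun i => o (pcomp (X + Y) i)) = _
    rw [this]
    rfl
  map_smul' r X := by
    have : (fun i => o (pcomp (r • X) i)) = fun i => r • o (pcomp X i) := by
      funext i
      rw [pcomp_smul, map_smul]
    show mkp (fun i => o (pcomp (r • X) i)) = _
    rw [this]
    rfl
  left_inv X := by
    show mkp (fun i => o.symm (pcomp (mkp fun i => o (pcomp X i)) i)) = X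
    simp
  right_inv X := by
    show mkp (fun i => o (pcomp (mkp fun i => o.symm (pcomp X i)) i)) = X
    simp
  norm_map' X := by
    have h : ‖mkp (fun i => o (pcomp X i))‖ ^ 2 = ‖X‖ ^ 2 := by
      rw [norm_sq_pcomp, norm_sq_pcomp X]
      simp
    exact (sq_eq_sq₀ (norm_nonneg _) (norm_nonneg _)).1 h

@[simp] theorem pcomp_lift9 (o : EuclideanSpace ℝ (Fin p) ≃ₗᵢ[ℝ] EuclideanSpace ℝ (Fin p))
    (X : Pos p) (i : Fin 9) : pcomp (lift9 o X) i = o (pcomp X i) := rfl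

/-- The configuration with positions `X`. -/
def cfOf (cen : EuclideanSpace ℝ (Fin p) →ₗᵢ[ℝ] Colg N) : Pos p →ₗᵢ[ℝ] Cfg N where
  toFun X := mkc fun i => cen (pcomp X i)
  map_add' X Y := by
    refine ext_comp fun i => ?_
    rw [comp_mkc, comp_add, comp_mkc, comp_mkc, pcomp_add, map_add]
  map_smul' r X := by
    refine ext_comp fun i => ?_
    rw [comp_mkc, RingHom.id_apply, comp_smul, comp_mkc, pcomp_smul, map_smul]
  norm_map' X := by
    have h : ‖mkc (fun i => cen (pcomp X i))‖ ^ 2 = ‖X‖ ^ 2 := by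
      rw [norm_sq_comp, norm_sq_pcomp]
      exact Finset.sum_congr rfl fun i _ => by rw [comp_mkc, cen.norm_map]
    exact (sq_eq_sq₀ (norm_nonneg _) (norm_nonneg _)).1 h

@[simp] theorem comp_cfOf (cen : EuclideanSpace ℝ (Fin p) →ₗᵢ[ℝ] Colg N) (X : Pos p) (i : Fin 9) :
    comp (cfOf cen X) i = cen (pcomp X i) := rfl

/-! ## the geometry of a channel -/

/-- Geometry of one channel with `p + 1` clusters. -/
structure Chn (b : ColorBasis N) (p : ℕ) (S : Type) [Group S] [Fintype S] where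
  /-- the stabiliser algebra (block diagonal traceless matrices) -/
  kk : Submodule ℝ (Colg N)
  /-- orthonormal coordinates of its centre -/
  cen : EuclideanSpace ℝ (Fin p) →ₗᵢ[ℝ] Colg N
  /-- permutations of equal clusters, on the centre -/
  o : S →* (EuclideanSpace ℝ (Fin p) ≃ₗᵢ[ℝ] EuclideanSpace ℝ (Fin p))
  /-- their representatives -/
  w : S → Matrix.specialUnitaryGroup (Fin N) ℂ
  /-- flats of codimension six -/
  J : Type
  /-- finitely many -/
  hJ : Fintype J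
  /-- the difference of two positions, last six components -/
  Lf : J → Pos p →L[ℝ] EuclideanSpace ℝ (Fin 6)
  cen_mem : ∀ t, cen t ∈ kk
  cen_comm : ∀ t, ∀ u ∈ kk, (colAlg b).br (cen t) u = 0
  /-- `cen` is onto the centre -/
  cen_all : ∀ u ∈ kk, (∀ v ∈ kk, (colAlg b).br u v = 0) → ∃ t, cen t = u
  act_w : ∀ s X, b.act (w s) (cfOf cen X) = cfOf cen (lift9 (o s) X)
  /-- two regular positions are conjugate only by a permutation -/
  orbit : ∀ (X X' : Pos p) (h : Matrix.specialUnitaryGroup (Fin N) ℂ),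
    kc (actB b) (cfOf cen X) = kk → kc (actB b) (cfOf cen X') = kk →
    b.act h (cfOf cen X) = cfOf cen X' → ∃ s, X' = lift9 (o s) X
  free : ∀ (s : S) (X : Pos p), kc (actB b) (cfOf cen X) = kk → lift9 (o s) X = X → s = 1
  Lf_surj : ∀ a, Function.Surjective (Lf a)
  /-- regular by the last six components, expressed by the flats -/
  breg : ∀ X, (∀ a, Lf a X ≠ 0) ↔
    ∀ u : Colg N, (∀ i : Fin 9, 3 ≤ (i : ℕ) → (colAlg b).br u (cen (pcomp X i)) = 0) → u ∈ kk

section chn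

variable {b : ColorBasis N} {S : Type} [Group S] [Fintype S] (C : Chn b p S)

namespace Chn

/-- The configuration with positions `X`. -/
def cf : Pos p →ₗᵢ[ℝ] Cfg N := cfOf C.cen

/-- The permutations of equal clusters on positions. -/
def O (s : S) : Pos p ≃ₗᵢ[ℝ] Pos p := lift9 (C.o s)

/-- The stabiliser algebra of `C.cf X` is `kk`. -/
def Reg (X : Pos p) : Prop := kc (actB b) (C.cf X) = C.kk

/-- The last six components of `C.cf X` already have stabiliser algebra `kk`. -/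
def BReg (X : Pos p) : Prop := ∀ a, C.Lf a X ≠ 0

theorem comp_cf (X : Pos p) (i : Fin 9) : comp (C.cf X) i = C.cen (pcomp X i) := rfl

theorem act_O (s : S) (X : Pos p) : b.act (C.w s) (C.cf X) = C.cf (C.O s X) := C.act_w s X

theorem breg_iff (X : Pos p) : C.BReg X ↔
    ∀ u : Colg N, (∀ i : Fin 9, 3 ≤ (i : ℕ) → (colAlg b).br u (C.cen (pcomp X i)) = 0) →
      u ∈ C.kk := C.breg X

theorem BReg.reg {C : Chn b p S} {X : Pos p} (h : C.BReg X) : C.Reg X := by
  rw [breg_iff] at h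
  unfold Reg
  refine le_antisymm (fun u hu => h u fun i _ => ?_) fun u hu => ?_
  · rw [kc_eq, ColAlg.mem_kk] at hu
    have h1 := hu i
    rw [comp_cf] at h1
    rw [(colAlg b).anti, h1, neg_zero]
  · rw [kc_eq, ColAlg.mem_kk]
    intro i
    rw [comp_cf]
    exact C.cen_comm _ u hu

theorem isOpen_breg : IsOpen {X | C.BReg X} := by
  have := C.hJ
  have : {X | C.BReg X} = ⋂ a, {X | C.Lf a X ≠ 0} := by
    ext X
    simp [BReg]
  rw [this]
  exact isOpen_iInter_of_finite fun a =>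
    isOpen_ne_fun (C.Lf a).continuous continuous_const

/-- The adjoint of `cf`: the positions of a configuration. -/
def cfT : Cfg N →L[ℝ] Pos p := ContinuousLinearMap.adjoint C.cf.toContinuousLinearMap

theorem cfT_cf (X : Pos p) : C.cfT (C.cf X) = X := by
  refine ext_inner_right ℝ fun Y => ?_
  unfold cfT
  rw [ContinuousLinearMap.adjoint_inner_left]
  exact C.cf.inner_map_map X Y

/-- Projection onto `R⁹ ⊗ kk`. -/
def PK : Cfg N →L[ℝ] Cfg N := (Tup C.kk).starProjection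

/-- Projection onto the block part `R⁹ ⊗ [kk, kk]`. -/
def PY (u : Cfg N) : Cfg N := C.PK u - C.cf (C.cfT u)

/-- Projection onto the off-diagonal part `R⁹ ⊗ kkᗮ`. -/
def PM (u : Cfg N) : Cfg N := u - C.PK u

/-- Positions as a subspace. -/
def Cen : Submodule ℝ (Cfg N) := LinearMap.range C.cf.toLinearMap

/-- The block part. -/
def Blk : Submodule ℝ (Cfg N) := Tup C.kk ⊓ C.Cenᗮ

/-- The transverse space at the centre `X`. -/
def Zt (X : Pos p) : Submodule ℝ (Cfg N) := Tup C.kkᗮ ⊓ Nor b (C.cf X)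

theorem decomp (u : Cfg N) : u = C.cf (C.cfT u) + C.PY u + C.PM u := by
  unfold PY PM
  abel

end Chn

/-! ## light Fock spaces -/

variable {F : Type*} [NormedAddCommGroup F] [InnerProductSpace ℂ F] [FiniteDimensional ℂ F]

/-- The annihilators of the complex structure `Γ ⊗ 1`. -/
def gan (M : FermionRep N F) (G : GammaNine) (α : Fin 16) (u : Colg N) : F →ₗ[ℂ] F :=
  thv M α u - Complex.I • ∑ β, ((Gam G β α : ℝ) : ℂ) • thv M β u

/-- The vectors killed by the annihilators of `ℝ¹⁶ ⊗ K`. -/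
def vacOf (M : FermionRep N F) (G : GammaNine) (K : Submodule ℝ (Colg N)) : Submodule ℂ F where
  carrier := {f | ∀ α, ∀ u ∈ K, gan M G α u f = 0}
  add_mem' hf hf' α u hu := by rw [map_add, hf α u hu, hf' α u hu, add_zero]
  zero_mem' α u _ := map_zero _
  smul_mem' c f hf α u hu := by rw [map_smul, hf α u hu, smul_zero]

theorem mem_vacOf {M : FermionRep N F} {G : GammaNine} {K : Submodule ℝ (Colg N)} {f : F} :
    f ∈ vacOf M G K ↔ ∀ α, ∀ u ∈ K, gan M G α u f = 0 := Iff.rfl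

theorem vacOf_mono {M : FermionRep N F} {G : GammaNine} {K K' : Submodule ℝ (Colg N)}
    (h : K ≤ K') : vacOf M G K' ≤ vacOf M G K := fun _ hf α u hu => hf α u (h hu)

theorem gan_thv (M : FermionRep N F) (G : GammaNine) (α β : Fin 16) {u v : Colg N}
    (h : ⟪u, v⟫_ℝ = 0) (f : F) :
    gan M G α u (thv M β v f) = -thv M β v (gan M G α u f) := by
  have h1 : ∀ γ, thv M γ u (thv M β v f) = -thv M β v (thv M γ u f) := by
    intro γ
    have h2 := thv_anti M γ β u v f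
    rw [h, Complex.ofReal_zero, ite_self, zero_smul] at h2
    exact eq_neg_of_add_eq_zero_left h2
  unfold gan
  simp only [LinearMap.sub_apply, LinearMap.smul_apply, LinearMap.sum_apply, map_sub, map_smul,
    map_sum, h1, smul_neg, Finset.sum_neg_distrib]
  abel

theorem thv_mem_vacOf {M : FermionRep N F} {G : GammaNine} {K : Submodule ℝ (Colg N)} {β : Fin 16}
    {v : Colg N} (hv : v ∈ Kᗮ) {f : F} (hf : f ∈ vacOf M G K) : thv M β v f ∈ vacOf M G K := by
  intro α u hu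
  rw [gan_thv M G α β ((Submodule.mem_orthogonal _ _).1 hv u hu), hf α u hu, map_zero, neg_zero]

namespace Chn

/-- Light Fock space: the heavy modes are in the reference vacuum. -/
def Fl (M : FermionRep N F) (G : GammaNine) : Submodule ℂ F := vacOf M G C.kkᗮ

/-- Amplitude space: all modes except those of the centre are in the reference vacuum. -/
def Fx (M : FermionRep N F) (G : GammaNine) : Submodule ℂ F :=
  vacOf M G (LinearMap.range C.cen.toLinearMap)ᗮ

theorem Fx_le_Fl (M : FermionRep N F) (G : GammaNine) : C.Fx M G ≤ C.Fl M G := by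
  refine vacOf_mono (Submodule.orthogonal_le ?_)
  rintro _ ⟨t, rfl⟩
  exact C.cen_mem t

/-- The fermions of the centre on the amplitude space. -/
def thx (M : FermionRep N F) (G : GammaNine) (β : Fin 16) (t : EuclideanSpace ℝ (Fin p)) :
    C.Fx M G →ₗ[ℂ] C.Fx M G :=
  (thv M β (C.cen t)).restrict fun _ hf =>
    thv_mem_vacOf (Submodule.le_orthogonal_orthogonal (LinearMap.range C.cen.toLinearMap)
      (LinearMap.mem_range_self C.cen.toLinearMap t)) hf

/-- Kinetic coefficients of the free charges. -/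
def ax (M : FermionRep N F) (G : GammaNine) (α : Fin 16) (q : Fin 9 × Fin p) :
    C.Fx M G →ₗ[ℂ] C.Fx M G :=
  ∑ β, ((G.γ q.1 α β : ℝ) : ℂ) • C.thx M G β (EuclideanSpace.single q.2 1)

/-- Mass coefficients of the free charges. -/
def vx (M : FermionRep N F) (G : GammaNine) (m : ℝ) (α : Fin 16) (q : Fin 9 × Fin p) :
    C.Fx M G →ₗ[ℂ] C.Fx M G :=
  ∑ β, ((-(m * (cc q.1 * (Gam G * G.γ q.1) α β)) : ℝ) : ℂ) •
    C.thx M G β (EuclideanSpace.single q.2 1)

/-- The free charges of the channel. -/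
def Dx (M : FermionRep N F) (G : GammaNine) (m : ℝ) (α : Fin 16) (χ : Pos p → C.Fx M G) :
    Pos p → C.Fx M G := dirac (C.ax M G α) (lin (C.vx M G m α)) χ

end Chn

/-! ## slice charts -/

/-- A slice chart centred at `C.cf X0`, `X0` regular (not necessarily in `BReg`). -/
structure Sl where
  /-- centre -/
  X0 : Pos p
  /-- radius -/
  r : ℝ
  /-- density -/
  j : Cfg N → ℝ
  pos : 0 < r
  good : Good b (C.cf X0) r
  /-- the chart `(t, y) ↦ exp(om t) (c + y)` is close to the identity -/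
  grad : Crest.Agent.R330.SlP314.GoodRad b (C.cf X0) r
  /-- the frames of 839 are available on the whole chart -/
  gap : ∃ r₀ B : ℝ, 0 < r₀ ∧ 0 ≤ B ∧ ActBound (actB b) B ∧ GapAt (actB b) (C.cf X0) r₀ ∧
    B * r ≤ r₀ / 2
  reg : ∀ X : Pos p, ‖X - X0‖ < r → C.Reg X
  /-- the images of the ball under the permutations are disjoint -/
  disj : ∀ s : S, s ≠ 1 → ∀ X : Pos p, ‖X - X0‖ < r → r ≤ ‖C.O s X - X0‖
  smooth : ∀ y ∈ Nor b (C.cf X0), ‖y‖ < r → ContDiffAt ℝ ∞ j y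
  jpos : ∀ y ∈ Nor b (C.cf X0), ‖y‖ < r → 0 < j y
  inv : ∀ k : Matrix.specialUnitaryGroup (Fin N) ℂ, b.act k (C.cf X0) = C.cf X0 →
    ∀ y ∈ Nor b (C.cf X0), ‖y‖ < r → j (b.act k y) = j y
  /-- integration formula for invariant functions -/
  int : ∀ h : Cfg N → ℝ≥0∞, Measurable h → (∀ (k : Matrix.specialUnitaryGroup (Fin N) ℂ) x,
    h (b.act k x) = h x) → ∫⁻ x in tube b (C.cf X0) r, h x =
      ∫⁻ y in Metric.ball (0 : Nor b (C.cf X0)) r, ENNReal.ofReal (j y) * h (C.cf X0 + y)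

/-! ## the data of the trial states -/

/-- The block charges on `R⁹ ⊗ [kk, kk]`. -/
def qblk (M : FermionRep N F) (G : GammaNine) (g : ℝ) (α : Fin 16) (f : Cfg N → F) (Y : Cfg N) :
    F :=
  (∑ n, aA M G α ((stdOrthonormalBasis ℝ C.Blk n : C.Blk) : Cfg N)
    (fderiv ℝ f Y ((stdOrthonormalBasis ℝ C.Blk n : C.Blk) : Cfg N))) + wA b M G g 0 α Y (f Y)

/-- Heavy vacuum, state of the blocks, Gaussian exponent. -/
structure TPack (M : FermionRep N F) (R : GaugeAction b M) (G : GammaNine) where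
  /-- exponent of the Gaussian at the positions `X` -/
  A : Pos p → Cfg N →L[ℝ] Cfg N
  /-- the heavy vacuum at `X` -/
  U : Pos p → F →L[ℂ] F
  /-- the state of the blocks at coupling `g` -/
  Psi : ℝ → Cfg N → F →L[ℂ] F
  /-- its radius -/
  s : ℝ → ℝ
  -- the Gaussian exponent
  A_smooth : ∀ X, C.Reg X → ContDiffAt ℝ ∞ A X
  A_symm : ∀ X z z', ⟪A X z, z'⟫_ℝ = ⟪z, A X z'⟫_ℝ
  A_nonneg : ∀ X z, 0 ≤ ⟪A X z, z⟫_ℝ
  A_off : ∀ X, C.Reg X → ∀ z, A X z ∈ Tup C.kkᗮ
  A_gauge : ∀ X, C.Reg X → ∀ om : Colg N, A X (actB b om (C.cf X)) = 0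
  A_low : ∀ X0, C.Reg X0 → ∃ c ε : ℝ, 0 < c ∧ 0 < ε ∧ ∀ X, ‖X - X0‖ < ε →
    ∀ z ∈ C.Zt X0, c * ‖z‖ ^ 2 ≤ ⟪A X z, z⟫_ℝ
  A_cov : ∀ (h : Matrix.specialUnitaryGroup (Fin N) ℂ) (X X' : Pos p), C.Reg X → C.Reg X' →
    b.act h (C.cf X) = C.cf X' → ∀ z, A X' (b.act h z) = b.act h (A X z)
  -- the heavy vacuum
  U_smooth : ∀ X, C.BReg X → ContDiffAt ℝ ∞ U X
  U_inner : ∀ X, C.BReg X → ∀ f ∈ C.Fl M G, ∀ f' ∈ C.Fl M G, ⟪U X f, U X f'⟫_ℂ = ⟪f, f'⟫_ℂ
  U_comm : ∀ X, C.BReg X → ∀ β, ∀ u ∈ C.kk, ∀ f ∈ C.Fl M G,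
    U X (thv M β u f) = thv M β u (U X f)
  U_kill : ∀ X, C.BReg X → ∀ f ∈ C.Fl M G, ∀ z ∈ Tup C.kkᗮ, ∀ α,
    Complex.I • Theta M G α (A X z) (U X f) + wB b M G 1 α (C.cf X) z (U X f) = 0
  /-- every heavy vacuum vector at `X` is in the range -/
  U_full : ∀ X, C.BReg X → ∀ f : F, (∀ z ∈ Tup C.kkᗮ, ∀ α,
    Complex.I • Theta M G α (A X z) f + wB b M G 1 α (C.cf X) z f = 0) →
    ∃ f' ∈ C.Fl M G, U X f' = f
  U_cov : ∀ (h : Matrix.specialUnitaryGroup (Fin N) ℂ) (X X' : Pos p), C.BReg X → C.BReg X' →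
    b.act h (C.cf X) = C.cf X' → ∀ f ∈ C.Fl M G,
      R.ρ h f ∈ C.Fl M G ∧ R.ρ h (U X f) = U X' (R.ρ h f)
  U_berry : ∀ X, C.BReg X → ∀ e : Pos p, ∀ f ∈ C.Fl M G, ∀ f' ∈ C.Fl M G,
    ⟪U X f, fderiv ℝ (fun X' => U X' f') X e⟫_ℂ = 0
  /-- `U X` commutes with the parity of the heavy fermions -/
  U_par : ∀ X, C.BReg X → ∀ P : F →ₗ[ℂ] F,
    (∀ β, ∀ u ∈ C.kkᗮ, ∀ f, P (thv M β u f) = -thv M β u (P f)) →
    (∀ β, ∀ u ∈ C.kk, ∀ f, P (thv M β u f) = thv M β u (P f)) →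
    ∀ f ∈ C.Fl M G, P (U X f) = U X (P f)
  -- the state of the blocks
  Psi_smooth : ∀ᶠ g in atTop, ContDiff ℝ ∞ (Psi g)
  s_pos : ∀ g, 0 < s g
  s_lim : Tendsto s atTop (𝓝 0)
  Psi_supp : ∀ g, ∀ Y ∈ C.Blk, s g ≤ ‖Y‖ → Psi g Y = 0
  Psi_mem : ∀ g, ∀ Y ∈ C.Blk, ∀ f ∈ C.Fx M G, Psi g Y f ∈ C.Fl M G
  Psi_thx : ∀ g, ∀ Y ∈ C.Blk, ∀ β t, ∀ f ∈ C.Fx M G,
    Psi g Y (thv M β (C.cen t) f) = thv M β (C.cen t) (Psi g Y f)
  /-- covariance under the stabiliser (which acts trivially on `Fx`) and the permutations -/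
  Psi_cov : ∀ (h : Matrix.specialUnitaryGroup (Fin N) ℂ) (X X' : Pos p), C.Reg X → C.Reg X' →
    b.act h (C.cf X) = C.cf X' → ∀ g, ∀ Y ∈ C.Blk, ∀ f ∈ C.Fx M G,
      R.ρ h f ∈ C.Fx M G ∧ R.ρ h (Psi g Y f) = Psi g (b.act h Y) (R.ρ h f)
  stab_fix : ∀ (h : Matrix.specialUnitaryGroup (Fin N) ℂ) (X : Pos p), C.Reg X →
    b.act h (C.cf X) = C.cf X → ∀ f ∈ C.Fx M G, R.ρ h f = f
  Psi_iso : ∀ f ∈ C.Fx M G, ∀ f' ∈ C.Fx M G,
    Tendsto (fun g => ∫ Y : C.Blk, ⟪Psi g Y f, Psi g Y f'⟫_ℂ) atTop (𝓝 ⟪f, f'⟫_ℂ)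
  Psi_mom : ∃ K : ℝ, ∀ᶠ g in atTop, ∀ f ∈ C.Fx M G,
    g ^ ((2 : ℝ) / 3) * ∫ Y : C.Blk, ‖(Y : Cfg N)‖ ^ 2 * ‖Psi g Y f‖ ^ 2 ≤ K * ‖f‖ ^ 2
  Psi_grad : ∃ K : ℝ, ∀ᶠ g in atTop, ∀ f ∈ C.Fx M G,
    ∫ Y : C.Blk, ‖fderiv ℝ (fun Y : C.Blk => Psi g Y f) Y‖ ^ 2 ≤
      K * g ^ ((2 : ℝ) / 3) * ‖f‖ ^ 2
  Psi_charge : ∀ f ∈ C.Fx M G, ∀ α, Tendsto (fun g => ∫ Y : C.Blk,
    ‖qblk C M G g α (fun Y => Psi g Y f) Y‖ ^ 2) atTop (𝓝 0)
  /-- the states of the blocks are self-similar up to a small error -/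
  Psi_scale : ∀ ε : ℝ, 0 < ε → ∀ᶠ g0 in atTop, ∀ᶠ g in atTop, ∀ f ∈ C.Fx M G,
    ∫ Y : C.Blk, ‖Psi g Y f - (((g / g0) ^ ((Module.finrank ℝ C.Blk : ℝ) / 6) : ℝ) : ℂ) •
      Psi g0 (((g / g0) ^ ((1 : ℝ) / 3)) • (Y : Cfg N)) f‖ ^ 2 ≤ ε * ‖f‖ ^ 2

/-! ## the trial states -/

/-- Smooth cut-off in `t = ‖z‖²`: one for `t ≤ r²/64`, zero for `t ≥ r²/16`. -/
def kap (r t : ℝ) : ℝ := Real.smoothTransition ((r ^ 2 / 16 - t) / (r ^ 2 / 16 - r ^ 2 / 64))

theorem contDiff_kap (r : ℝ) : ContDiff ℝ ∞ (kap r) :=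
  Real.smoothTransition.contDiff.comp ((contDiff_const.sub contDiff_id).div_const _)

theorem kap_one {r t : ℝ} (hr : 0 < r) (ht : t ≤ r ^ 2 / 64) : kap r t = 1 := by
  unfold kap
  apply Real.smoothTransition.one_of_one_le
  rw [le_div_iff₀ (by nlinarith [sq_pos_of_pos hr])]
  linarith

theorem kap_zero {r t : ℝ} (_hr : 0 < r) (ht : r ^ 2 / 16 ≤ t) : kap r t = 0 := by
  unfold kap
  apply Real.smoothTransition.zero_of_nonpos
  exact div_nonpos_of_nonpos_of_nonneg (by linarith) (by nlinarith [sq_nonneg r])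

theorem kap_nonneg (r t : ℝ) : 0 ≤ kap r t := Real.smoothTransition.nonneg _

theorem kap_le_one (r t : ℝ) : kap r t ≤ 1 := Real.smoothTransition.le_one _

variable {C} {M : FermionRep N F} {R : GaugeAction b M} {G : GammaNine}

/-- Normalisation of the Gaussian on the slice at the centre of the chart `σ`. -/
def nI (P : TPack C M R G) (σ : Sl C) (g : ℝ) (X : Pos p) : ℝ :=
  ∫ z : C.Zt σ.X0, Real.exp (-(g * ⟪P.A X z, z⟫_ℝ))

/-- The normalisation factor `(j_c(X) / I_g(X))^{1/2}`. -/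
def nrm (P : TPack C M R G) (σ : Sl C) (g : ℝ) (X : Pos p) : ℝ :=
  Real.sqrt (σ.j (C.cf (X - σ.X0)) / nI P σ g X)

/-- The trial function on the slice, in the coordinates `u = x - c`. -/
def tau (P : TPack C M R G) (σ : Sl C) (g : ℝ) (χ : Pos p → C.Fx M G) (u : Cfg N) : F :=
  ((nrm P σ g (σ.X0 + C.cfT u) * kap σ.r (‖C.PM u‖ ^ 2) *
    Real.exp (-(g / 2 * ⟪P.A (σ.X0 + C.cfT u) (C.PM u), C.PM u⟫_ℝ)) : ℝ) : ℂ) •
    P.U (σ.X0 + C.cfT u) (P.Psi g (C.PY u) (χ (σ.X0 + C.cfT u) : F))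

/-- The trial state `T^c_{g,χ}`. -/
def Tgen (P : TPack C M R G) (σ : Sl C) (g : ℝ) (χ : Pos p → C.Fx M G) : Cfg N → F :=
  ext R (C.cf σ.X0) σ.r fun u => (((σ.j u)⁻¹ : ℝ) : ℂ) • tau P σ g χ u

/-- Amplitudes of a chart: supported near the centre and in `BReg`. -/
structure Amp (M : FermionRep N F) (G : GammaNine) (σ : Sl C) where
  /-- the amplitude -/
  fn : Pos p → C.Fx M G
  smooth : ContDiff ℝ ∞ fn
  supp : tsupport fn ⊆ Metric.ball σ.X0 (σ.r / 4)
  off : ∀ X ∈ tsupport fn, C.BReg X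

theorem Amp.compact {σ : Sl C} (χ : Amp M G σ) : HasCompactSupport χ.fn :=
  (isCompact_closedBall σ.X0 (σ.r / 4)).of_isClosed_subset (isClosed_tsupport _)
    (χ.supp.trans Metric.ball_subset_closedBall)

theorem contDiff_lin {F' : Type*} [NormedAddCommGroup F'] [InnerProductSpace ℂ F']
    [FiniteDimensional ℂ F'] {κ : Type*} [Fintype κ] [DecidableEq κ] (v : κ → F' →ₗ[ℂ] F')
    {f : EuclideanSpace ℝ κ → F'} (hf : ContDiff ℝ ∞ f) :
    ContDiff ℝ ∞ fun x => lin v x (f x) := by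
  simp only [lin_apply]
  refine ContDiff.sum fun l _ => ?_
  have h1 : ContDiff ℝ ∞ (fun x : EuclideanSpace ℝ κ => ((x l : ℝ) : ℂ)) :=
    Complex.ofRealCLM.contDiff.comp (EuclideanSpace.proj (𝕜 := ℝ) l).contDiff
  have h2 : ContDiff ℝ ∞ fun x => v l (f x) :=
    (((v l).toContinuousLinearMap).restrictScalars ℝ).contDiff.comp hf
  exact h1.smul h2

theorem contDiff_dirac {F' : Type*} [NormedAddCommGroup F'] [InnerProductSpace ℂ F']
    [FiniteDimensional ℂ F'] {κ : Type*} [Fintype κ] [DecidableEq κ] (a v : κ → F' →ₗ[ℂ] F')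
    {f : EuclideanSpace ℝ κ → F'} (hf : ContDiff ℝ ∞ f) :
    ContDiff ℝ ∞ (dirac a (lin v) f) := by
  unfold dirac
  refine ContDiff.add (ContDiff.sum fun k _ => ?_) (contDiff_lin v hf)
  have h1 : ContDiff ℝ ∞ fun x => fderiv ℝ f x (EuclideanSpace.single k 1) :=
    (hf.fderiv_right (m := ∞) (by simp)).clm_apply contDiff_const
  exact ((((a k).toContinuousLinearMap).restrictScalars ℝ).contDiff.comp h1).const_smul _

theorem tsupport_dirac {F' : Type*} [NormedAddCommGroup F'] [InnerProductSpace ℂ F']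
    [FiniteDimensional ℂ F'] {κ : Type*} [Fintype κ] [DecidableEq κ] (a v : κ → F' →ₗ[ℂ] F')
    (f : EuclideanSpace ℝ κ → F') : tsupport (dirac a (lin v) f) ⊆ tsupport f := by
  refine closure_minimal (fun x hx => ?_) (isClosed_tsupport _)
  by_contra h0
  apply hx
  have h1 : f x = 0 := image_eq_zero_of_notMem_tsupport h0
  have h2 : fderiv ℝ f x = 0 := by
    by_contra h3
    exact h0 (tsupport_fderiv_subset ℝ (subset_tsupport _ h3))
  unfold dirac
  rw [h1, h2]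
  simp

/-- The free charges on amplitudes. -/
def Amp.D {σ : Sl C} (m : ℝ) (α : Fin 16) (χ : Amp M G σ) : Amp M G σ where
  fn := C.Dx M G m α χ.fn
  smooth := contDiff_dirac _ _ χ.smooth
  supp := (tsupport_dirac _ _ _).trans χ.supp
  off X hX := χ.off X (tsupport_dirac _ _ _ hX)

open Classical in
/-- Radial multiplication (zero if `w` is not smooth). -/
def wfn (w : ℝ → ℝ) (χ : Pos p → C.Fx M G) (X : Pos p) : C.Fx M G :=
  if ContDiff ℝ ∞ w then ((w (‖X‖ ^ 2) : ℝ) : ℂ) • χ X else 0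

theorem wfn_smooth (w : ℝ → ℝ) {χ : Pos p → C.Fx M G} (hχ : ContDiff ℝ ∞ χ) :
    ContDiff ℝ ∞ (wfn w χ) := by
  unfold wfn
  split_ifs with h
  · exact (Complex.ofRealCLM.contDiff.comp (h.comp (contDiff_norm_sq ℝ))).smul hχ
  · exact contDiff_const

theorem tsupport_wfn (w : ℝ → ℝ) (χ : Pos p → C.Fx M G) : tsupport (wfn w χ) ⊆ tsupport χ := by
  refine closure_minimal (fun x hx => ?_) (isClosed_tsupport _)
  by_contra h0
  apply hx
  have h1 : χ x = 0 := image_eq_zero_of_notMem_tsupport h0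
  simp [wfn, h1]

/-- Radial multiplication on amplitudes. -/
def Amp.W {σ : Sl C} (w : ℝ → ℝ) (χ : Amp M G σ) : Amp M G σ where
  fn := wfn w χ.fn
  smooth := wfn_smooth w χ.smooth
  supp := (tsupport_wfn w χ.fn).trans χ.supp
  off X hX := χ.off X (tsupport_wfn w χ.fn hX)

theorem Amp.W_fn {σ : Sl C} {w : ℝ → ℝ} (hw : ContDiff ℝ ∞ w) (χ : Amp M G σ) (X : Pos p) :
    (χ.W w).fn X = ((w (‖X‖ ^ 2) : ℝ) : ℂ) • χ.fn X := by
  show wfn w χ.fn X = _
  unfold wfn
  rw [if_pos hw]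

theorem Amp.ext {σ : Sl C} {χ χ' : Amp M G σ} (h : χ.fn = χ'.fn) : χ = χ' := by
  cases χ
  cases χ'
  subst h
  rfl

variable (C) (M) (G)

/-- The generators: a chart and an amplitude. -/
def Gen := Σ σ : Sl C, Amp M G σ

/-- The test space: free complex vector space on the generators. -/
abbrev XX := Gen C M G →₀ ℂ

/-- The free charges on the test space. -/
def DD (m : ℝ) (α : Fin 16) : XX C M G →ₗ[ℂ] XX C M G :=
  Finsupp.lmapDomain ℂ ℂ fun q : Gen C M G => ⟨q.1, q.2.D m α⟩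

/-- Radial multiplication on the test space. -/
def WW (w : ℝ → ℝ) : XX C M G →ₗ[ℂ] XX C M G :=
  Finsupp.lmapDomain ℂ ℂ fun q : Gen C M G => ⟨q.1, q.2.W w⟩

variable {C} {M} {G}

/-- The trial states. -/
def TT (P : TPack C M R G) (g : ℝ) : XX C M G →ₗ[ℂ] (Cfg N → F) :=
  Finsupp.linearCombination ℂ fun q : Gen C M G => Tgen P q.1 g q.2.fn

/-- A generator as a test element. -/
def gen (σ : Sl C) (χ : Amp M G σ) : XX C M G := Finsupp.single ⟨σ, χ⟩ 1

theorem TT_gen (P : TPack C M R G) (g : ℝ) (σ : Sl C) (χ : Amp M G σ) :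
    TT P g (gen σ χ) = Tgen P σ g χ.fn := by
  unfold TT gen
  rw [Finsupp.linearCombination_single, one_smul]

theorem DD_gen (m : ℝ) (α : Fin 16) (σ : Sl C) (χ : Amp M G σ) :
    DD C M G m α (gen σ χ) = gen σ (χ.D m α) := by
  unfold DD gen
  rw [Finsupp.lmapDomain_apply, Finsupp.mapDomain_single]


end chn

end Crest.Agent.R330.TDef414

end
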