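import Crest.Agent.R330.GBind_984
import Crest.Agent.R330.TCore_944
import Crest.Agent.R330.TDef_414

-- ▼ part R330/GCov_984
section

/-!
# Row 330, S8-GBIND (helper984): covariance and regularity of `Q_X`

* `adC_br`, `adE : Colg N ≃ₗᵢ Colg N`, `kc_act`, `proj_cov`.
* `AXc_cov`, `QX_cov` : `Q_{hX}(hz) = Q_X(z)`; `QX_stab`.
* `contDiffAt_QX` (jointly), `nI` : the fibre integral `∫_{Zs b c} exp(-Q_X)`, smooth and positive.
-/

set_option autoImplicit false
set_option linter.unusedSectionVars false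

open MeasureTheory Filter Topology Crest.MathPhysics.MatrixQM
open Crest.Agent.R330.Frame839 Crest.Agent.R330.LS839 Crest.Agent.R330.Clus839
open Crest.Agent.R330.Bind6839 Crest.Agent.R330.SqrtPD984 Crest.Agent.R330.GPar984
open Crest.Agent.R330.AX984 Crest.Agent.R330.E1984 Crest.Agent.R330.GBind984
open Crest.Agent.R330.SlA314 Crest.Agent.R330.SlB314 Crest.Agent.R330.TCore944
open scoped ContDiff InnerProductSpace

noncomputable section

namespace Crest.Agent.R330.GCov984

variable {N : ℕ} {b : ColorBasis N}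

local notation "SU" => Matrix.specialUnitaryGroup (Fin N) ℂ

/-- the adjoint action preserves the bracket -/
theorem adC_br (k : SU) (u v : Colg N) :
    adC b k ((colAlg b).br u v) = (colAlg b).br (adC b k u) (adC b k v) := by
  have h := congrArg (fun x : Cfg N => comp x 0) (act_actB (b := b) k u (insL 0 v))
  simp only [comp_actg, comp_act] at h
  have h1 : comp (insL (N := N) 0 v) 0 = v := by rw [comp_insL, if_pos rfl]
  rw [h1] at h
  exact h

/-- the adjoint action as an isometry -/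
def adE (b : ColorBasis N) (k : SU) : Colg N ≃ₗᵢ[ℝ] Colg N where
  toLinearEquiv := LinearEquiv.ofLinearMap (adC b k) (adC b k⁻¹)
    (by ext1 v; rw [LinearMap.comp_apply, ← adC_mul, mul_inv_cancel, adC_one, LinearMap.id_apply])
    (by ext1 v; rw [LinearMap.comp_apply, ← adC_mul, inv_mul_cancel, adC_one, LinearMap.id_apply])
  norm_map' v := by
    have h1 : ‖adC b k v‖ ^ 2 = ‖v‖ ^ 2 := by
      rw [← real_inner_self_eq_norm_sq, ← real_inner_self_eq_norm_sq, adC_inner]
    have h2 : ‖adC b k v‖ = ‖v‖ := by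
      have := congrArg Real.sqrt h1
      rwa [Real.sqrt_sq (norm_nonneg _), Real.sqrt_sq (norm_nonneg _)] at this
    exact h2

theorem adE_apply (k : SU) (v : Colg N) : adE b k v = adC b k v := rfl

theorem adE_adX (k : SU) (X : Cfg N) (i : Fin 9) (v : Colg N) :
    adE b k (adX b X i v) = adX b (b.act k X) i (adE b k v) := by
  rw [adE_apply, adE_apply, adX_apply, adX_apply, adC_br, comp_actg]

theorem mem_kc_act (k : SU) (X : Cfg N) (w : Colg N) :
    adE b k w ∈ kc (actB b) (b.act k X) ↔ w ∈ kc (actB b) X := by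
  rw [mem_kc_iff', mem_kc_iff']
  constructor
  · intro h i
    have h1 := h i
    rw [← adE_adX] at h1
    exact (adE b k).map_eq_zero_iff.mp h1
  · intro h i
    rw [← adE_adX, h i, map_zero]

/-- the orthogonal projection is covariant -/
theorem proj_cov (k : SU) (X : Cfg N) (v : Colg N) :
    adE b k ((kc (actB b) X).starProjection v) =
      (kc (actB b) (b.act k X)).starProjection (adE b k v) := by
  symm
  apply Submodule.eq_starProjection_of_mem_of_inner_eq_zero
  · exact (mem_kc_act k X _).mpr (Submodule.starProjection_apply_mem _ _)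
  · intro w hw
    obtain ⟨w', rfl⟩ := (adE b k).surjective w
    rw [mem_kc_act] at hw
    rw [← map_sub, (adE b k).inner_map_map]
    rw [real_inner_comm]
    exact Submodule.inner_right_of_mem_orthogonal hw
      (Submodule.sub_starProjection_mem_orthogonal v)

theorem comc_act (k : SU) {X : Cfg N} (hX : Comc b X) : Comc b (b.act k X) := by
  intro i j
  have h1 : comp (b.act k X) i = adC b k (comp X i) := comp_actg k X i
  have h2 : comp (b.act k X) j = adC b k (comp X j) := comp_actg k X j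
  rw [h1, h2, ← adC_br, hX i j, map_zero]

theorem lr_act (k : SU) {X : Cfg N} (hX : Comc b X) (v : Colg N) :
    adE b k (lr (kc (actB b) X) (adX b X) v) =
      lr (kc (actB b) (b.act k X)) (adX b (b.act k X)) (adE b k v) := by
  obtain ⟨s, hs, h⟩ := exists_fam b hX
  obtain ⟨s', hs', h'⟩ := exists_fam b (comc_act k hX)
  exact h.lr_cov h' hs hs' (adE b k) (fun i v => adE_adX k X i v) (fun v => proj_cov k X v) v

theorem li_act (k : SU) {X : Cfg N} (hX : Comc b X) (v : Colg N) :
    adE b k (li (kc (actB b) X) (adX b X) v) =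
      li (kc (actB b) (b.act k X)) (adX b (b.act k X)) (adE b k v) := by
  obtain ⟨s, hs, h⟩ := exists_fam b hX
  obtain ⟨s', hs', h'⟩ := exists_fam b (comc_act k hX)
  have h1 := lr_act k hX (li (kc (actB b) X) (adX b X) v)
  rw [h.lr_li hs] at h1
  rw [h1, h'.li_lr hs']

/-- covariance of `|r| P_{r^⊥}` -/
theorem AXc_cov (k : SU) {X : Cfg N} (hX : Comc b X) (z : Cfg N) :
    AXc b (kc (actB b) (b.act k X)) (b.act k X) (b.act k z) =
      b.act k (AXc b (kc (actB b) X) X z) := by
  have hdv : tenC.dv (adX b (b.act k X)) (b.act k z) = adE b k (tenC.dv (adX b X) z) := by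
    rw [dv_adX, dv_adX, map_sum]
    refine Finset.sum_congr rfl fun j _ => ?_
    rw [comp_actg, comp_actg, adE_apply, adC_br]
  refine ext_comp fun i => ?_
  rw [comp_actg, ← adE_apply]
  unfold AXc
  rw [← pr_tenC i, ← pr_tenC i, tenC.pr_AX, tenC.pr_AX, map_add, map_sub, lr_act k hX, proj_cov,
    adE_adX, li_act k hX, pr_tenC, pr_tenC, comp_actg, ← adE_apply, hdv]




/-! ## regularity -/



/-- commuting `X` with `kc X = K` has `ll K (adX X)` positive definite -/
theorem ll_pd_of_eq {K : Submodule ℝ (Colg N)} {X : Cfg N} (hX : Comc b X)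
    (hK : kc (actB b) X = K) : PD (ll K (adX b X)) := by
  obtain ⟨s, hs, h⟩ := fam_of_eq hX hK
  exact h.ll_pd hs

/-- the fibre integral `∫_{Z_c} exp(-Q_X)` -/
def nI (b : ColorBasis N) (c X : Cfg N) : ℝ :=
  ∫ z : Zs b c, Real.exp (-QX b (kc (actB b) c) X z)






end Crest.Agent.R330.GCov984
end
end

-- ▼ part R330/AFld_984

/-!
# Row 330, T7 (helper984): the Gaussian exponent of `TPack`

`Afld C X` = `|r| P_{r^⊥}` at `C.cf X` for regular `X`, zero otherwise; the fields `A_smooth` ...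
`A_cov` of `TDef414.TPack`.
-/

set_option autoImplicit false
set_option linter.unusedSectionVars false

open MeasureTheory Filter Topology Crest.MathPhysics.MatrixQM
open Crest.Agent.R330.Frame839 Crest.Agent.R330.LS839 Crest.Agent.R330.Clus839
open Crest.Agent.R330.Bind6839 Crest.Agent.R330.SqrtPD984 Crest.Agent.R330.GPar984
open Crest.Agent.R330.AX984 Crest.Agent.R330.E1984 Crest.Agent.R330.GBind984
open Crest.Agent.R330.GCov984 Crest.Agent.R330.TDef414
open Crest.Agent.R330.SlB314 (Nor)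
open scoped ContDiff InnerProductSpace

noncomputable section

namespace Crest.Agent.R330.AFld984

variable {N p : ℕ} {b : ColorBasis N} {S : Type} [Group S] [Fintype S] (C : Chn b p S)

theorem comc_cf (X : Pos p) : Comc b (C.cf X) := by
  intro i j
  rw [C.comp_cf, C.comp_cf]
  exact C.cen_comm _ _ (C.cen_mem _)

theorem kk_le (X : Pos p) : C.kk ≤ kc (actB b) (C.cf X) := by
  intro u hu
  rw [mem_kc_iff']
  intro i
  rw [adX_apply, C.comp_cf]
  exact C.cen_comm _ _ hu

theorem reg_of_pd {X : Pos p} (h : PD (ll C.kk (adX b (C.cf X)))) : C.Reg X := by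
  refine le_antisymm (fun w hw => ?_) (kk_le C X)
  have h1 : w - C.kk.starProjection w ∈ C.kkᗮ := Submodule.sub_starProjection_mem_orthogonal w
  have h2 : ∀ i, adX b (C.cf X) i (w - C.kk.starProjection w) = 0 := by
    intro i
    rw [map_sub, (mem_kc_iff' b).mp hw i,
      (mem_kc_iff' b).mp (kk_le C X (Submodule.starProjection_apply_mem C.kk w)) i, sub_zero]
  by_contra hne
  have h3 : w - C.kk.starProjection w ≠ 0 := by
    intro h0
    apply hne
    rw [sub_eq_zero.mp h0]
    exact Submodule.starProjection_apply_mem _ _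
  have h4 := h.2 _ h3
  rw [inner_ll_of (adX_skew b _), proj_zero h1, inner_zero_left, zero_add] at h4
  simp only [h2, inner_zero_left, Finset.sum_const_zero, lt_self_iff_false] at h4

theorem pd_of_reg {X : Pos p} (h : C.Reg X) : PD (ll C.kk (adX b (C.cf X))) :=
  ll_pd_of_eq (comc_cf C X) h


theorem eventually_reg {X : Pos p} (h : C.Reg X) : ∀ᶠ Y in 𝓝 X, C.Reg Y := by
  have h1 := eventually_ll b (pd_of_reg C h)
  have h2 : ContinuousAt (fun Y : Pos p => C.cf Y) X := C.cf.continuous.continuousAt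
  filter_upwards [h2.eventually h1] with Y hY
  exact reg_of_pd C hY


theorem Zt_eq {X0 : Pos p} (h : C.Reg X0) : C.Zt X0 = Zs b (C.cf X0) := by
  unfold Chn.Zt Zs Mm
  rw [Nor_eq, h]

open Classical in
/-- **the Gaussian exponent** -/
def Afld (X : Pos p) : Cfg N →L[ℝ] Cfg N := if C.Reg X then AXc b C.kk (C.cf X) else 0

theorem Afld_reg {X : Pos p} (h : C.Reg X) : Afld C X = AXc b C.kk (C.cf X) := if_pos h

theorem Afld_not {X : Pos p} (h : ¬ C.Reg X) : Afld C X = 0 := if_neg h

theorem inner_Afld {X : Pos p} (h : C.Reg X) (z : Cfg N) :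
    ⟪Afld C X z, z⟫_ℝ = QX b C.kk (C.cf X) z := by rw [Afld_reg C h]; rfl

theorem A_smooth (X : Pos p) (h : C.Reg X) : ContDiffAt ℝ ∞ (Afld C) X := by
  have h1 : ContDiffAt ℝ ∞ (fun Y : Pos p => AXc b C.kk (C.cf Y)) X :=
    ContDiffAt.comp X (g := fun Y => AXc b C.kk Y) (contDiffAt_AXc b (pd_of_reg C h))
      C.cf.toContinuousLinearMap.contDiff.contDiffAt
  refine h1.congr_of_eventuallyEq ?_
  filter_upwards [eventually_reg C h] with Y hY
  exact Afld_reg C hY

theorem A_symm (X : Pos p) (z z' : Cfg N) : ⟪Afld C X z, z'⟫_ℝ = ⟪z, Afld C X z'⟫_ℝ := by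
  by_cases h : C.Reg X
  · rw [Afld_reg C h]
    exact AXc_sy (comc_cf C X) h z z'
  · rw [Afld_not C h]
    simp

theorem A_nonneg (X : Pos p) (z : Cfg N) : 0 ≤ ⟪Afld C X z, z⟫_ℝ := by
  by_cases h : C.Reg X
  · rw [inner_Afld C h]
    exact QX_nonneg (comc_cf C X) h z
  · rw [Afld_not C h]
    simp

theorem A_off (X : Pos p) (h : C.Reg X) (z : Cfg N) : Afld C X z ∈ Tup C.kkᗮ := by
  intro i
  rw [Afld_reg C h]
  exact comp_AXc_mem (comc_cf C X) h z i

theorem A_gauge (X : Pos p) (h : C.Reg X) (om : Colg N) :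
    Afld C X (actB b om (C.cf X)) = 0 := by
  rw [Afld_reg C h]
  exact AXc_act (comc_cf C X) h om


theorem A_low (X0 : Pos p) (h : C.Reg X0) : ∃ c ε : ℝ, 0 < c ∧ 0 < ε ∧ ∀ X, ‖X - X0‖ < ε →
    ∀ z ∈ C.Zt X0, c * ‖z‖ ^ 2 ≤ ⟪Afld C X z, z⟫_ℝ := by
  obtain ⟨δ, a, K, M, l, hδ, hPR, -⟩ := exists_chart b (comc_cf C X0)
  obtain ⟨δ', hδ', h'⟩ := Metric.eventually_nhds_iff_ball.mp (eventually_reg C h)
  refine ⟨a, min δ δ', hPR.pos, lt_min hδ hδ', fun X hX z hz => ?_⟩
  have hX1 : ‖X - X0‖ < δ := lt_of_lt_of_le hX (min_le_left _ _)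
  have hX2 : X ∈ Metric.ball X0 δ' := by
    rw [mem_ball_iff_norm]; exact lt_of_lt_of_le hX (min_le_right _ _)
  have hX3 : C.cf X ∈ Metric.ball (C.cf X0) δ := by
    rw [mem_ball_iff_norm, ← map_sub, C.cf.norm_map]; exact hX1
  rw [inner_Afld C (h' X hX2)]
  rw [Zt_eq C h] at hz
  have h1 := QX_low b hPR hX3 hz
  have h2 : kc (actB b) (C.cf X0) = C.kk := h
  rwa [h2] at h1

theorem A_cov (k : Matrix.specialUnitaryGroup (Fin N) ℂ) (X X' : Pos p) (h : C.Reg X)
    (h' : C.Reg X') (he : b.act k (C.cf X) = C.cf X') (z : Cfg N) :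
    Afld C X' (b.act k z) = b.act k (Afld C X z) := by
  rw [Afld_reg C h, Afld_reg C h']
  have h1 := AXc_cov (b := b) k (comc_cf C X) z
  rw [he] at h1
  have h2 : kc (actB b) (C.cf X) = C.kk := h
  have h3 : kc (actB b) (C.cf X') = C.kk := h'
  rwa [h2, h3] at h1

end Crest.Agent.R330.AFld984
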