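import Mathlib
import Crest.Prelude.Def_MatrixModel

-- ▼ part R330/Coerc_383
section

/-!
# Row 330, coercivity of the mass deformed potential (helper383), matrix form

* `hs A` : Hilbert-Schmidt norm squared.
* `gap` : a gap in the upper half of a finite spectrum of zero mean.
* `diag_ineq` : the inequality for a diagonal third matrix.
* `coerc_one`, `coerc_mat` : `Σ_cyc |X_i / 3 + i [X_j, X_k]|² ≥ c |X|² - C` for Hermitian traceless
  matrices.
-/

set_option autoImplicit false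
set_option linter.unusedSectionVars false

open Matrix Unitary
open scoped ComplexOrder

namespace Crest.Agent.R330.Coerc383

noncomputable section

variable {n : Type*} [Fintype n] [DecidableEq n]

/-- Hilbert-Schmidt norm squared. -/
def hs (A : Matrix n n ℂ) : ℝ := ∑ i, ∑ j, ‖A i j‖ ^ 2

theorem hs_nonneg (A : Matrix n n ℂ) : 0 ≤ hs A := by unfold hs; positivity

theorem hs_eq_trace (A : Matrix n n ℂ) : ((hs A : ℝ) : ℂ) = (A * Aᴴ).trace := by
  unfold hs
  rw [Matrix.trace]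
  push_cast
  refine Finset.sum_congr rfl fun i _ => ?_
  rw [Matrix.diag_apply, Matrix.mul_apply]
  refine Finset.sum_congr rfl fun j _ => ?_
  rw [Matrix.conjTranspose_apply, ← Complex.mul_conj', starRingEnd_apply]

/-- Conjugation by a unitary. -/
abbrev cj (U : unitary (Matrix n n ℂ)) : Matrix n n ℂ ≃⋆ₐ[ℂ] Matrix n n ℂ :=
  conjStarAlgAut ℂ (Matrix n n ℂ) U

theorem trace_cj (U : unitary (Matrix n n ℂ)) (A : Matrix n n ℂ) :
    (cj U A).trace = A.trace := by
  unfold cj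
  rw [conjStarAlgAut_apply, Matrix.trace_mul_comm, ← mul_assoc, Unitary.coe_star_mul_self, one_mul]

theorem hs_cj (U : unitary (Matrix n n ℂ)) (A : Matrix n n ℂ) : hs (cj U A) = hs A := by
  have h : ((hs (cj U A) : ℝ) : ℂ) = ((hs A : ℝ) : ℂ) := by
    rw [hs_eq_trace, hs_eq_trace]
    have h1 : cj U A * (cj U A)ᴴ = cj U (A * Aᴴ) := by
      rw [map_mul, ← Matrix.star_eq_conjTranspose, ← Matrix.star_eq_conjTranspose, map_star]
    rw [h1, trace_cj]
  exact_mod_cast h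

theorem sq_le_hs (A : Matrix n n ℂ) (i j : n) : ‖A i j‖ ^ 2 ≤ hs A := by
  unfold hs
  calc ‖A i j‖ ^ 2 ≤ ∑ j, ‖A i j‖ ^ 2 :=
        Finset.single_le_sum (f := fun j => ‖A i j‖ ^ 2) (fun _ _ => by positivity)
          (Finset.mem_univ j)
    _ ≤ _ := Finset.single_le_sum (f := fun i => ∑ j, ‖A i j‖ ^ 2) (fun _ _ => by positivity)
          (Finset.mem_univ i)

/-- Off-block part of the norm. -/
theorem offblock_le_hs (A : Matrix n n ℂ) (S T : Finset n) :
    ∑ a ∈ S, ∑ b ∈ T, ‖A a b‖ ^ 2 ≤ hs A := by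
  unfold hs
  calc ∑ a ∈ S, ∑ b ∈ T, ‖A a b‖ ^ 2 ≤ ∑ a ∈ S, ∑ b, ‖A a b‖ ^ 2 :=
        Finset.sum_le_sum fun a _ => Finset.sum_le_sum_of_subset_of_nonneg (Finset.subset_univ _)
          fun _ _ _ => by positivity
    _ ≤ _ := Finset.sum_le_sum_of_subset_of_nonneg (Finset.subset_univ _) fun _ _ _ => by positivity

theorem hs_sub_le (A B : Matrix n n ℂ) : hs (A - B) ≤ 2 * hs A + 2 * hs B := by
  unfold hs
  rw [Finset.mul_sum, Finset.mul_sum, ← Finset.sum_add_distrib]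
  refine Finset.sum_le_sum fun i _ => ?_
  rw [Finset.mul_sum, Finset.mul_sum, ← Finset.sum_add_distrib]
  refine Finset.sum_le_sum fun j _ => ?_
  have h1 : ‖(A - B) i j‖ ≤ ‖A i j‖ + ‖B i j‖ := norm_sub_le _ _
  have h2 : ‖(A - B) i j‖ ^ 2 ≤ (‖A i j‖ + ‖B i j‖) ^ 2 :=
    pow_le_pow_left₀ (norm_nonneg _) h1 2
  nlinarith [sq_nonneg (‖A i j‖ - ‖B i j‖)]

/-! ### A gap in the spectrum -/

/-- **A gap in the upper half of the spectrum.** -/
theorem gap (d : n → ℝ) (a₀ : n) (h0 : 0 < d a₀) :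
    ∃ S : Finset n, a₀ ∈ S ∧ (∀ a ∈ S, d a₀ / 2 ≤ d a) ∧
      ∀ a ∈ S, ∀ b ∉ S, d a₀ / (2 * Fintype.card n) ≤ d a - d b := by
  classical
  set N := Fintype.card n with hN
  have hNpos : 0 < N := Fintype.card_pos_iff.2 ⟨a₀⟩
  have hNr : (0 : ℝ) < N := by exact_mod_cast hNpos
  set γ : ℝ := d a₀ / (2 * N) with hγ
  have hγ0 : 0 < γ := by positivity
  have hex : ∃ k : Fin N, ∀ a, d a ≤ d a₀ - (k + 1) * γ ∨ d a₀ - k * γ ≤ d a := by
    by_contra hcon
    push Not at hcon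
    choose f hf using hcon
    have hinj : Function.Injective f := by
      intro k l hkl
      by_contra hne
      rcases lt_or_gt_of_ne (fun h => hne (Fin.ext h) : (k : ℕ) ≠ l) with h | h
      · have h1 := (hf k).1
        have h2 := (hf l).2
        rw [hkl] at h1
        have h3 : ((k : ℕ) : ℝ) + 1 ≤ ((l : ℕ) : ℝ) := by exact_mod_cast h
        nlinarith
      · have h1 := (hf l).1
        have h2 := (hf k).2
        rw [hkl] at h2
        have h3 : ((l : ℕ) : ℝ) + 1 ≤ ((k : ℕ) : ℝ) := by exact_mod_cast h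
        nlinarith
    have hsurj : Function.Surjective f :=
      ((Fintype.bijective_iff_injective_and_card f).2 ⟨hinj, by simp [hN]⟩).2
    obtain ⟨k, hk⟩ := hsurj a₀
    have h1 := (hf k).2
    rw [hk] at h1
    have h2 : (0 : ℝ) ≤ ((k : ℕ) : ℝ) := Nat.cast_nonneg _
    nlinarith
  obtain ⟨k, hk⟩ := hex
  have hk0 : (0 : ℝ) ≤ ((k : ℕ) : ℝ) := Nat.cast_nonneg _
  have hk1 : ((k : ℕ) : ℝ) + 1 ≤ N := by exact_mod_cast k.2
  have hNγ : N * γ = d a₀ / 2 := by
    rw [hγ]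
    field_simp
  refine ⟨Finset.univ.filter fun a => d a₀ - k * γ ≤ d a, ?_, ?_, ?_⟩
  · rw [Finset.mem_filter]
    exact ⟨Finset.mem_univ _, by nlinarith⟩
  · intro a ha
    have h1 := (Finset.mem_filter.1 ha).2
    nlinarith
  · intro a ha b hb
    have h1 := (Finset.mem_filter.1 ha).2
    have h2 : ¬ d a₀ - k * γ ≤ d b := fun h => hb (Finset.mem_filter.2 ⟨Finset.mem_univ _, h⟩)
    have h3 := (hk b).resolve_right h2
    nlinarith

/-- The maximum of a vector of zero sum. -/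
theorem max_ge (d : n → ℝ) (hd : ∑ a, d a = 0) (a₀ : n) (hmax : ∀ a, d a ≤ d a₀) :
    ∑ a, d a ^ 2 ≤ (Fintype.card n : ℝ) ^ 3 * d a₀ ^ 2 := by
  classical
  set N := Fintype.card n with hN
  have hNpos : 0 < N := Fintype.card_pos_iff.2 ⟨a₀⟩
  have hNr : (1 : ℝ) ≤ N := by exact_mod_cast hNpos
  have h0 : 0 ≤ d a₀ := by
    by_contra hcon
    push Not at hcon
    have h1 : ∑ a, d a < ∑ _a : n, (0 : ℝ) :=
      Finset.sum_lt_sum_of_nonempty ⟨a₀, Finset.mem_univ _⟩ fun a _ => (hmax a).trans_lt hcon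
    simp [hd] at h1
  have h1 : ∀ a, d a ^ 2 ≤ (N * d a₀) ^ 2 := by
    intro a
    refine sq_le_sq' ?_ ((hmax a).trans (le_mul_of_one_le_left h0 hNr))
    have h2 : d a = -∑ b ∈ Finset.univ.erase a, d b := by
      rw [← Finset.add_sum_erase _ _ (Finset.mem_univ a)] at hd
      linarith
    have h3 : ∑ b ∈ Finset.univ.erase a, d b ≤ ∑ _b ∈ Finset.univ.erase a, d a₀ :=
      Finset.sum_le_sum fun b _ => hmax b
    have h4 : ∑ _b ∈ Finset.univ.erase a, d a₀ ≤ N * d a₀ := by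
      rw [Finset.sum_const, nsmul_eq_mul]
      refine mul_le_mul_of_nonneg_right ?_ h0
      exact_mod_cast (Finset.card_le_card (Finset.subset_univ _)).trans Finset.card_univ.le
    linarith
  calc ∑ a, d a ^ 2 ≤ ∑ _a : n, (N * d a₀) ^ 2 := Finset.sum_le_sum fun a _ => h1 a
    _ = (N : ℝ) ^ 3 * d a₀ ^ 2 := by
      rw [Finset.sum_const, Finset.card_univ, nsmul_eq_mul]
      ring

/-! ### The diagonal case -/

/-- The third matrix is diagonal. -/
theorem diag_ineq (d : n → ℝ) (A B : Matrix n n ℂ) (hA : A.IsHermitian) (hB : B.IsHermitian)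
    (S : Finset n) {γ δ R lam : ℝ} (hγ : 0 < γ)
    (hgap : ∀ a ∈ S, ∀ b ∉ S, γ ≤ d a - d b) (hS : S.Nonempty) (hlam : ∀ a ∈ S, lam ≤ d a)
    (hδ : 0 ≤ δ) (hRA : hs A ≤ R ^ 2) (hRB : hs B ≤ R ^ 2)
    (hM : hs ((1 / 3 : ℂ) • A + Complex.I • (B * diagonal (fun a => (d a : ℂ)) -
        diagonal (fun a => (d a : ℂ)) * B)) +
      hs ((1 / 3 : ℂ) • B + Complex.I • (diagonal (fun a => (d a : ℂ)) * A -
        A * diagonal (fun a => (d a : ℂ)))) +
      hs ((1 / 3 : ℂ) • diagonal (fun a => (d a : ℂ)) + Complex.I • (A * B - B * A)) ≤ δ ^ 2) :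
    lam / 3 ≤ δ + 2 / γ ^ 2 * (δ ^ 2 + R ^ 2) := by
  classical
  set D : Matrix n n ℂ := diagonal (fun a => (d a : ℂ)) with hD
  set M₁ := (1 / 3 : ℂ) • A + Complex.I • (B * D - D * B) with hM₁
  set M₂ := (1 / 3 : ℂ) • B + Complex.I • (D * A - A * D) with hM₂
  set M₃ := (1 / 3 : ℂ) • D + Complex.I • (A * B - B * A) with hM₃
  have hAh : ∀ a b, A b a = star (A a b) := fun a b => (hA.apply b a).symm
  have hBh : ∀ a b, B b a = star (B a b) := fun a b => (hB.apply b a).symm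
  -- entries off the block
  have hBe : ∀ a ∈ S, ∀ b ∉ S, γ * ‖B a b‖ ≤ ‖(M₁ - (1 / 3 : ℂ) • A) a b‖ := by
    intro a ha b hb
    have h1 : (M₁ - (1 / 3 : ℂ) • A) a b = Complex.I * (B a b * (d b - d a)) := by
      have h0 : M₁ - (1 / 3 : ℂ) • A = Complex.I • (B * D - D * B) := by
        rw [hM₁, add_sub_cancel_left]
      rw [h0]
      simp only [hD, Matrix.smul_apply, Matrix.sub_apply, Matrix.mul_diagonal,
        Matrix.diagonal_mul, smul_eq_mul]
      ring
    rw [h1, norm_mul, Complex.norm_I, one_mul, norm_mul, mul_comm]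
    refine mul_le_mul_of_nonneg_left ?_ (norm_nonneg _)
    have h2 : ((d b : ℂ) - d a) = ((d b - d a : ℝ) : ℂ) := by push_cast; ring
    rw [h2, Complex.norm_real, Real.norm_eq_abs, abs_sub_comm]
    exact (hgap a ha b hb).trans (le_abs_self _)
  have hAe : ∀ a ∈ S, ∀ b ∉ S, γ * ‖A a b‖ ≤ ‖(M₂ - (1 / 3 : ℂ) • B) a b‖ := by
    intro a ha b hb
    have h1 : (M₂ - (1 / 3 : ℂ) • B) a b = Complex.I * (A a b * (d a - d b)) := by
      have h0 : M₂ - (1 / 3 : ℂ) • B = Complex.I • (D * A - A * D) := by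
        rw [hM₂, add_sub_cancel_left]
      rw [h0]
      simp only [hD, Matrix.smul_apply, Matrix.sub_apply, Matrix.mul_diagonal,
        Matrix.diagonal_mul, smul_eq_mul]
      ring
    rw [h1, norm_mul, Complex.norm_I, one_mul, norm_mul, mul_comm]
    refine mul_le_mul_of_nonneg_left ?_ (norm_nonneg _)
    have h2 : ((d a : ℂ) - d b) = ((d a - d b : ℝ) : ℂ) := by push_cast; ring
    rw [h2, Complex.norm_real, Real.norm_eq_abs]
    exact (hgap a ha b hb).trans (le_abs_self _)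
  -- the off-block sum
  have hoff : ∑ a ∈ S, ∑ b ∈ Sᶜ, 2 * (‖A a b‖ * ‖B a b‖) ≤ 2 / γ ^ 2 * (δ ^ 2 + R ^ 2) := by
    have h1 : ∀ a ∈ S, ∀ b ∈ Sᶜ, 2 * (‖A a b‖ * ‖B a b‖) ≤
        1 / γ ^ 2 * (‖(M₁ - (1 / 3 : ℂ) • A) a b‖ ^ 2 + ‖(M₂ - (1 / 3 : ℂ) • B) a b‖ ^ 2) := by
      intro a ha b hb
      have hb' : b ∉ S := by simpa using hb
      have h2 := hBe a ha b hb'
      have h3 := hAe a ha b hb'
      have h4 : (γ * ‖B a b‖) ^ 2 ≤ ‖(M₁ - (1 / 3 : ℂ) • A) a b‖ ^ 2 :=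
        pow_le_pow_left₀ (by positivity) h2 2
      have h5 : (γ * ‖A a b‖) ^ 2 ≤ ‖(M₂ - (1 / 3 : ℂ) • B) a b‖ ^ 2 :=
        pow_le_pow_left₀ (by positivity) h3 2
      rw [one_div, inv_mul_eq_div, le_div_iff₀ (by positivity)]
      nlinarith [sq_nonneg (γ * ‖B a b‖ - γ * ‖A a b‖)]
    calc ∑ a ∈ S, ∑ b ∈ Sᶜ, 2 * (‖A a b‖ * ‖B a b‖)
        ≤ ∑ a ∈ S, ∑ b ∈ Sᶜ, 1 / γ ^ 2 * (‖(M₁ - (1 / 3 : ℂ) • A) a b‖ ^ 2 +
            ‖(M₂ - (1 / 3 : ℂ) • B) a b‖ ^ 2) :=
          Finset.sum_le_sum fun a ha => Finset.sum_le_sum fun b hb => h1 a ha b hb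
      _ = 1 / γ ^ 2 * (∑ a ∈ S, ∑ b ∈ Sᶜ, ‖(M₁ - (1 / 3 : ℂ) • A) a b‖ ^ 2 +
            ∑ a ∈ S, ∑ b ∈ Sᶜ, ‖(M₂ - (1 / 3 : ℂ) • B) a b‖ ^ 2) := by
          simp only [← Finset.mul_sum, Finset.sum_add_distrib]
      _ ≤ 1 / γ ^ 2 * (hs (M₁ - (1 / 3 : ℂ) • A) + hs (M₂ - (1 / 3 : ℂ) • B)) := by
          refine mul_le_mul_of_nonneg_left (add_le_add (offblock_le_hs _ _ _)
            (offblock_le_hs _ _ _)) (by positivity)
      _ ≤ 1 / γ ^ 2 * (2 * (δ ^ 2 + R ^ 2)) := by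
          refine mul_le_mul_of_nonneg_left ?_ (by positivity)
          have h2 := hs_sub_le M₁ ((1 / 3 : ℂ) • A)
          have h3 := hs_sub_le M₂ ((1 / 3 : ℂ) • B)
          have h4 : ∀ X : Matrix n n ℂ, hs ((1 / 3 : ℂ) • X) = 1 / 9 * hs X := by
            intro X
            unfold hs
            rw [Finset.mul_sum]
            refine Finset.sum_congr rfl fun i _ => ?_
            rw [Finset.mul_sum]
            refine Finset.sum_congr rfl fun j _ => ?_
            rw [Matrix.smul_apply, smul_eq_mul, norm_mul, mul_pow]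
            norm_num
          rw [h4] at h2 h3
          have h5 := hs_nonneg M₃
          nlinarith
      _ = _ := by ring
  -- the trace over the block
  have htr : ∑ a ∈ S, M₃ a a = (1 / 3 : ℂ) * ∑ a ∈ S, (d a : ℂ) +
      Complex.I * ∑ a ∈ S, ∑ b ∈ Sᶜ, (A a b * B b a - B a b * A b a) := by
    have h1 : ∀ a, M₃ a a = (1 / 3 : ℂ) * d a + Complex.I * ∑ b, (A a b * B b a - B a b * A b a) := by
      intro a
      simp only [hM₃, hD, Matrix.add_apply, Matrix.smul_apply, Matrix.sub_apply,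
        Matrix.diagonal_apply_eq, Matrix.mul_apply, smul_eq_mul, Finset.sum_sub_distrib]
    have h2 : ∑ a ∈ S, ∑ b ∈ S, (A a b * B b a - B a b * A b a) = 0 := by
      have h3 : ∑ a ∈ S, ∑ b ∈ S, A a b * B b a = ∑ a ∈ S, ∑ b ∈ S, B a b * A b a := by
        rw [Finset.sum_comm]
        exact Finset.sum_congr rfl fun a _ => Finset.sum_congr rfl fun b _ => mul_comm _ _
      simp only [Finset.sum_sub_distrib]
      rw [h3, sub_self]
    simp only [h1, Finset.sum_add_distrib, ← Finset.mul_sum]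
    congr 2
    have h4 : ∀ a, ∑ b, (A a b * B b a - B a b * A b a) =
        ∑ b ∈ S, (A a b * B b a - B a b * A b a) + ∑ b ∈ Sᶜ, (A a b * B b a - B a b * A b a) :=
      fun a => (Finset.sum_add_sum_compl S _).symm
    simp only [h4, Finset.sum_add_distrib]
    rw [h2, zero_add]
  have hn1 : ‖Complex.I * ∑ a ∈ S, ∑ b ∈ Sᶜ, (A a b * B b a - B a b * A b a)‖ ≤
      2 / γ ^ 2 * (δ ^ 2 + R ^ 2) := by
    rw [norm_mul, Complex.norm_I, one_mul]
    refine (norm_sum_le _ _).trans ((Finset.sum_le_sum fun a _ => norm_sum_le _ _).trans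
      (le_trans (Finset.sum_le_sum fun a _ => Finset.sum_le_sum fun b _ => ?_) hoff))
    refine (norm_sub_le _ _).trans ?_
    rw [norm_mul, norm_mul, hAh a b, hBh a b, norm_star, norm_star]
    linarith [mul_comm ‖B a b‖ ‖A a b‖]
  have hn2 : ‖∑ a ∈ S, M₃ a a‖ ≤ S.card * δ := by
    refine (norm_sum_le _ _).trans ?_
    rw [← nsmul_eq_mul]
    refine Finset.sum_le_card_nsmul _ _ _ fun a _ => ?_
    refine abs_le_of_sq_le_sq' ?_ hδ |>.2
    have h1 := sq_le_hs M₃ a a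
    have h2 := hs_nonneg M₁
    have h3 := hs_nonneg M₂
    linarith
  have hn3 : (1 / 3 : ℝ) * (S.card * lam) ≤ ‖(1 / 3 : ℂ) * ∑ a ∈ S, (d a : ℂ)‖ := by
    have h1 : (1 / 3 : ℂ) * ∑ a ∈ S, (d a : ℂ) = ((1 / 3 * ∑ a ∈ S, d a : ℝ) : ℂ) := by
      push_cast; ring
    rw [h1, Complex.norm_real, Real.norm_eq_abs]
    refine le_trans ?_ (le_abs_self _)
    refine mul_le_mul_of_nonneg_left ?_ (by norm_num)
    rw [← nsmul_eq_mul]
    exact Finset.card_nsmul_le_sum _ _ _ hlam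
  have hcard : (1 : ℝ) ≤ S.card := by exact_mod_cast hS.card_pos
  have hfin : (1 / 3 : ℝ) * (S.card * lam) ≤ S.card * δ + 2 / γ ^ 2 * (δ ^ 2 + R ^ 2) := by
    have h1 : (1 / 3 : ℂ) * ∑ a ∈ S, (d a : ℂ) = ∑ a ∈ S, M₃ a a -
        Complex.I * ∑ a ∈ S, ∑ b ∈ Sᶜ, (A a b * B b a - B a b * A b a) := by rw [htr]; ring
    rw [h1] at hn3
    exact hn3.trans ((norm_sub_le _ _).trans (add_le_add hn2 hn1))
  have hE : 0 ≤ 2 / γ ^ 2 * (δ ^ 2 + R ^ 2) := by positivity
  have h2 : (S.card : ℝ) * (lam / 3) ≤ S.card * (δ + 2 / γ ^ 2 * (δ ^ 2 + R ^ 2)) := by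
    nlinarith
  exact le_of_mul_le_mul_left h2 (by linarith)

/-! ### The inequality -/

/-- **One distinguished matrix.** -/
theorem coerc_one (A B X : Matrix n n ℂ) (hA : A.IsHermitian) (hB : B.IsHermitian)
    (hX : X.IsHermitian) (htr : X.trace = 0) (h3 : hs A + hs B + hs X ≤ 3 * hs X) :
    (hs A + hs B + hs X) / (216 * (Fintype.card n : ℝ) ^ 3) - 2304 * (Fintype.card n : ℝ) ^ 10 ≤
      hs ((1 / 3 : ℂ) • A + Complex.I • (B * X - X * B)) +
      hs ((1 / 3 : ℂ) • B + Complex.I • (X * A - A * X)) +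
      hs ((1 / 3 : ℂ) • X + Complex.I • (A * B - B * A)) := by
  classical
  set N : ℝ := (Fintype.card n : ℝ) with hN
  set Δ := hs ((1 / 3 : ℂ) • A + Complex.I • (B * X - X * B)) +
      hs ((1 / 3 : ℂ) • B + Complex.I • (X * A - A * X)) +
      hs ((1 / 3 : ℂ) • X + Complex.I • (A * B - B * A)) with hΔ
  have hΔ0 : 0 ≤ Δ := add_nonneg (add_nonneg (hs_nonneg _) (hs_nonneg _)) (hs_nonneg _)
  set Q := hs A + hs B + hs X with hQ
  have hQ0 : 0 ≤ Q := add_nonneg (add_nonneg (hs_nonneg _) (hs_nonneg _)) (hs_nonneg _)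
  have hN0 : 0 ≤ N := Nat.cast_nonneg _
  -- trivial case
  rcases hQ0.eq_or_lt with hQz | hQp
  · rw [← hQz, zero_div]
    nlinarith [pow_nonneg hN0 10]
  -- diagonalise
  set U := star hX.eigenvectorUnitary with hU
  set d := hX.eigenvalues with hd
  have hXd : cj U X = diagonal (fun a => (d a : ℂ)) := by
    have h1 := hX.conjStarAlgAut_star_eigenvectorUnitary
    exact h1
  have hΔd : Δ = hs ((1 / 3 : ℂ) • cj U A + Complex.I • (cj U B * diagonal (fun a => (d a : ℂ)) -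
        diagonal (fun a => (d a : ℂ)) * cj U B)) +
      hs ((1 / 3 : ℂ) • cj U B + Complex.I • (diagonal (fun a => (d a : ℂ)) * cj U A -
        cj U A * diagonal (fun a => (d a : ℂ)))) +
      hs ((1 / 3 : ℂ) • diagonal (fun a => (d a : ℂ)) +
        Complex.I • (cj U A * cj U B - cj U B * cj U A)) := by
    rw [← hXd, hΔ, ← hs_cj U ((1 / 3 : ℂ) • A + Complex.I • (B * X - X * B)),
      ← hs_cj U ((1 / 3 : ℂ) • B + Complex.I • (X * A - A * X)),
      ← hs_cj U ((1 / 3 : ℂ) • X + Complex.I • (A * B - B * A))]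
    simp only [map_add, map_sub, map_mul, map_smul]
  have hherm : ∀ Y : Matrix n n ℂ, Y.IsHermitian → (cj U Y).IsHermitian := by
    intro Y hY
    have h1 : star (cj U Y) = cj U Y := by rw [← map_star, Matrix.star_eq_conjTranspose, hY.eq]
    exact h1
  have hsd : hs X = ∑ a, d a ^ 2 := by
    rw [← hs_cj U X, hXd]
    unfold hs
    refine Finset.sum_congr rfl fun i _ => ?_
    rw [Finset.sum_eq_single i]
    · rw [Matrix.diagonal_apply_eq, Complex.norm_real, Real.norm_eq_abs, sq_abs]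
    · intro j _ hj
      rw [Matrix.diagonal_apply_ne _ (Ne.symm hj)]
      simp
    · intro h
      exact absurd (Finset.mem_univ i) h
  have hd0 : ∑ a, d a = 0 := by
    have h1 : (diagonal (fun a => (d a : ℂ))).trace = 0 := by rw [← hXd, trace_cj, htr]
    rw [Matrix.trace_diagonal] at h1
    exact_mod_cast h1
  have hXp : 0 < hs X := by linarith
  have : Nonempty n := by
    by_contra hne
    rw [not_nonempty_iff] at hne
    rw [hsd, Finset.univ_eq_empty, Finset.sum_empty] at hXp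
    exact lt_irrefl _ hXp
  obtain ⟨a₀, -, hmax⟩ := Finset.exists_max_image Finset.univ d Finset.univ_nonempty
  have hmax' : ∀ a, d a ≤ d a₀ := fun a => hmax a (Finset.mem_univ a)
  have hN1 : 1 ≤ N := by
    rw [hN]
    exact_mod_cast Fintype.card_pos
  have hge := max_ge d hd0 a₀ hmax'
  rw [← hsd, ← hN] at hge
  have hlam0 : 0 < d a₀ := by
    by_contra hcon
    push Not at hcon
    have h1 : d a₀ = 0 := by
      refine le_antisymm hcon ?_
      by_contra hcon'
      push Not at hcon'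
      have h2 : ∑ a, d a < ∑ _a : n, (0 : ℝ) :=
        Finset.sum_lt_sum_of_nonempty ⟨a₀, Finset.mem_univ _⟩ fun a _ => (hmax' a).trans_lt hcon'
      simp [hd0] at h2
    rw [h1] at hge
    nlinarith
  obtain ⟨S, haS, hS1, hS2⟩ := gap d a₀ hlam0
  have hγ : 0 < d a₀ / (2 * (Fintype.card n : ℝ)) := by
    rw [← hN]
    positivity
  have hmain := diag_ineq d (cj U A) (cj U B) (hherm A hA) (hherm B hB) S hγ hS2 ⟨a₀, haS⟩ hS1
    (Real.sqrt_nonneg Δ) (R := Real.sqrt Q)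
    (by rw [hs_cj, Real.sq_sqrt hQ0]; linarith [hs_nonneg B, hs_nonneg X])
    (by rw [hs_cj, Real.sq_sqrt hQ0]; linarith [hs_nonneg A, hs_nonneg X])
    (by rw [Real.sq_sqrt hΔ0, ← hΔd])
  rw [Real.sq_sqrt hΔ0, Real.sq_sqrt hQ0, ← hN] at hmain
  set lam := d a₀ with hlam
  have hQl : Q ≤ 3 * N ^ 3 * lam ^ 2 := by nlinarith
  have hN3 : 0 < 216 * N ^ 3 := by positivity
  rw [sub_le_iff_le_add, div_le_iff₀ hN3]
  rcases le_total Q Δ with hQΔ | hQΔ
  · have h1 : 1 ≤ 216 * N ^ 3 := by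
      have := one_le_pow₀ hN1 (n := 3)
      linarith
    have h2 : 0 ≤ 2304 * N ^ 10 * (216 * N ^ 3) := by positivity
    nlinarith
  · -- `Δ ≤ Q`
    have h1 : 2 / (lam / (2 * N)) ^ 2 * (Δ + Q) ≤ 48 * N ^ 5 := by
      have h2 : 2 / (lam / (2 * N)) ^ 2 = 8 * N ^ 2 / lam ^ 2 := by
        field_simp
        ring
      rw [h2, div_mul_eq_mul_div, div_le_iff₀ (by positivity)]
      calc 8 * N ^ 2 * (Δ + Q) ≤ 8 * N ^ 2 * (2 * (3 * N ^ 3 * lam ^ 2)) := by
            refine mul_le_mul_of_nonneg_left ?_ (by positivity)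
            linarith
        _ = 48 * N ^ 5 * lam ^ 2 := by ring
    have h2 : lam ≤ 6 * Real.sqrt Δ + 288 * N ^ 5 := by linarith
    have h3 : lam ^ 2 ≤ 72 * Δ + 2 * (288 * N ^ 5) ^ 2 := by
      have h4 : lam ^ 2 ≤ (6 * Real.sqrt Δ + 288 * N ^ 5) ^ 2 :=
        pow_le_pow_left₀ hlam0.le h2 2
      have h5 := Real.sq_sqrt hΔ0
      nlinarith [sq_nonneg (6 * Real.sqrt Δ - 288 * N ^ 5)]
    calc Q ≤ 3 * N ^ 3 * lam ^ 2 := hQl
      _ ≤ 3 * N ^ 3 * (72 * Δ + 2 * (288 * N ^ 5) ^ 2) :=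
          mul_le_mul_of_nonneg_left h3 (by positivity)
      _ = (Δ + 2304 * N ^ 10) * (216 * N ^ 3) := by ring

/-- The misfit of a triple of matrices: `X_i / 3 + i [X_{i+1}, X_{i+2}]`. -/
def mis (X : Fin 3 → Matrix n n ℂ) (i : Fin 3) : Matrix n n ℂ :=
  (1 / 3 : ℂ) • X i + Complex.I • (X (i + 1) * X (i + 2) - X (i + 2) * X (i + 1))

/-- **Coercivity**, matrix form. -/
theorem coerc_mat (X : Fin 3 → Matrix n n ℂ) (hX : ∀ i, (X i).IsHermitian)
    (htr : ∀ i, (X i).trace = 0) :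
    (∑ i, hs (X i)) / (216 * (Fintype.card n : ℝ) ^ 3) - 2304 * (Fintype.card n : ℝ) ^ 10 ≤
      ∑ i, hs (mis X i) := by
  obtain ⟨i, -, hi⟩ := Finset.exists_max_image Finset.univ (fun i => hs (X i))
    (Finset.univ_nonempty (α := Fin 3))
  have h0 := hi 0 (Finset.mem_univ _)
  have h1 := hi 1 (Finset.mem_univ _)
  have h2 := hi 2 (Finset.mem_univ _)
  have e1 : (1 : Fin 3) + 1 = 2 := rfl
  have e2 : (1 : Fin 3) + 2 = 0 := rfl
  have e3 : (2 : Fin 3) + 1 = 0 := rfl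
  have e4 : (2 : Fin 3) + 2 = 1 := rfl
  have e5 : (0 : Fin 3) + 1 = 1 := rfl
  have e6 : (0 : Fin 3) + 2 = 2 := rfl
  simp only [Fin.sum_univ_three, mis, e1, e2, e3, e4, e5, e6]
  fin_cases i
  · have h := coerc_one (X 1) (X 2) (X 0) (hX 1) (hX 2) (hX 0) (htr 0) (by simp at h0 h1 h2; linarith)
    convert h using 1 <;> ring_nf
  · have h := coerc_one (X 2) (X 0) (X 1) (hX 2) (hX 0) (hX 1) (htr 1) (by simp at h0 h1 h2; linarith)
    convert h using 1 <;> ring_nf
  · have h := coerc_one (X 0) (X 1) (X 2) (hX 0) (hX 1) (hX 2) (htr 2) (by simp at h0 h1 h2; linarith)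
    convert h using 1

end

end Crest.Agent.R330.Coerc383
end

-- ▼ part R330/CoerCfg_87

/-!
# Row 330, section 4.1: coercivity of the mass deformed potential in colour coordinates (helper87)

* `cmat b u = Σ_A u_A T_A`, `br b u v A = Σ_{B C} f_ABC u_B v_C`.
* `completeness` : a traceless matrix is `Σ_A Tr(M T_A) T_A`.
* `comm_cmat` : `[cmat u, cmat v] = i cmat (br u v)`.
* `coercivity` : `½ Σ_cyc |x_i/3 - g [x_j, x_k]|² + ½ Σ_{j ≥ 3} |x_j|²/36 ≥ |x|²/(432 N³) - 1152 N¹⁰/g²`.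
-/

set_option autoImplicit false

open Matrix Crest.MathPhysics.MatrixQM

namespace Crest.Agent.R330.CoerCfg87

open Crest.Agent.R330.Coerc383

noncomputable section

variable {N : ℕ} (b : ColorBasis N)

/-- The matrix with colour coordinates `u`. -/
def cmat (u : Fin (N ^ 2 - 1) → ℝ) : Matrix (Fin N) (Fin N) ℂ := ∑ A, (u A : ℂ) • b.T A

/-- The bracket in colour coordinates: `[u,v]^A = f_ABC u^B v^C`. -/
def br (u v : Fin (N ^ 2 - 1) → ℝ) (A : Fin (N ^ 2 - 1)) : ℝ :=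
  ∑ B, ∑ C, b.structConst A B C * u B * v C

theorem cmat_herm (u : Fin (N ^ 2 - 1) → ℝ) : (cmat b u).IsHermitian := by
  unfold cmat Matrix.IsHermitian
  rw [Matrix.conjTranspose_sum]
  refine Finset.sum_congr rfl fun A _ => ?_
  rw [Matrix.conjTranspose_smul, (b.herm A).eq, Complex.star_def, Complex.conj_ofReal]

theorem cmat_trace (u : Fin (N ^ 2 - 1) → ℝ) : (cmat b u).trace = 0 := by
  unfold cmat
  rw [Matrix.trace_sum]
  refine Finset.sum_eq_zero fun A _ => ?_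
  rw [Matrix.trace_smul, b.traceless, smul_zero]

theorem trace_cmat_mul (u : Fin (N ^ 2 - 1) → ℝ) (B : Fin (N ^ 2 - 1)) :
    (cmat b u * b.T B).trace = (u B : ℂ) := by
  unfold cmat
  rw [Finset.sum_mul, Matrix.trace_sum]
  simp only [Matrix.smul_mul, Matrix.trace_smul, b.orthonormal, smul_eq_mul]
  simp

theorem trace_cmat_cmat (u v : Fin (N ^ 2 - 1) → ℝ) :
    (cmat b u * cmat b v).trace = ((∑ A, u A * v A : ℝ) : ℂ) := by
  have h : cmat b v = ∑ A, (v A : ℂ) • b.T A := rfl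
  rw [h, Finset.mul_sum, Matrix.trace_sum]
  push_cast
  refine Finset.sum_congr rfl fun A _ => ?_
  rw [Matrix.mul_smul, Matrix.trace_smul, trace_cmat_mul, smul_eq_mul, mul_comm]

theorem hs_cmat (u : Fin (N ^ 2 - 1) → ℝ) : hs (cmat b u) = ∑ A, u A ^ 2 := by
  have h := hs_eq_trace (cmat b u)
  rw [(cmat_herm b u).eq, trace_cmat_cmat] at h
  have h' : hs (cmat b u) = ∑ A, u A * u A := by exact_mod_cast h
  rw [h']
  exact Finset.sum_congr rfl fun A _ => (sq _).symm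

theorem cmat_smul (c : ℝ) (u : Fin (N ^ 2 - 1) → ℝ) :
    cmat b (fun A => c * u A) = (c : ℂ) • cmat b u := by
  unfold cmat
  rw [Finset.smul_sum]
  refine Finset.sum_congr rfl fun A _ => ?_
  rw [smul_smul]; push_cast; rfl


theorem cmat_sub (u v : Fin (N ^ 2 - 1) → ℝ) :
    cmat b (fun A => u A - v A) = cmat b u - cmat b v := by
  unfold cmat
  rw [← Finset.sum_sub_distrib]
  refine Finset.sum_congr rfl fun A _ => ?_
  rw [← sub_smul]; push_cast; rfl

/-! ### Completeness -/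

/-- `1` together with the `T_A`. -/
def fam : Option (Fin (N ^ 2 - 1)) → Matrix (Fin N) (Fin N) ℂ
  | none => 1
  | some A => b.T A

theorem fam_indep (hN : 0 < N) : LinearIndependent ℂ (fam b) := by
  rw [Fintype.linearIndependent_iff]
  intro g hg
  rw [Fintype.sum_option] at hg
  simp only [fam] at hg
  have h0 : g none = 0 := by
    have := congrArg Matrix.trace hg
    rw [Matrix.trace_add, Matrix.trace_smul, Matrix.trace_sum, Matrix.trace_one] at this
    simp only [Matrix.trace_smul, b.traceless, Matrix.trace_zero, Fintype.card_fin, smul_eq_mul,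
      mul_zero, Finset.sum_const_zero, add_zero, mul_eq_zero, Nat.cast_eq_zero] at this
    rcases this with h | h
    · exact h
    · omega
  rw [h0, zero_smul, zero_add] at hg
  intro o
  cases o with
  | none => exact h0
  | some B =>
    have := congrArg (fun M => (M * b.T B).trace) hg
    simp only [Finset.sum_mul, Matrix.trace_sum, Matrix.smul_mul, Matrix.trace_smul,
      b.orthonormal, smul_eq_mul, Matrix.zero_mul, Matrix.trace_zero] at this
    simpa using this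

/-- **Completeness.** -/
theorem completeness (hN : 0 < N) (M : Matrix (Fin N) (Fin N) ℂ) (hM : M.trace = 0) :
    M = ∑ A, (M * b.T A).trace • b.T A := by
  have hcard : Fintype.card (Option (Fin (N ^ 2 - 1))) = Module.finrank ℂ (Matrix (Fin N) (Fin N) ℂ) := by
    rw [Fintype.card_option, Fintype.card_fin, Module.finrank_matrix]
    simp only [Fintype.card_fin, Module.finrank_self, mul_one]
    have : 1 ≤ N ^ 2 := Nat.one_le_pow _ _ hN
    rw [← sq]; omega
  have : Nonempty (Option (Fin (N ^ 2 - 1))) := ⟨none⟩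
  let B := basisOfLinearIndependentOfCardEqFinrank (fam_indep b hN) hcard
  have hB : ∀ o, B o = fam b o := fun o => by
    simp [B]
  have hM' := B.sum_repr M
  rw [Fintype.sum_option] at hM'
  simp only [hB, fam] at hM'
  have h0 : B.repr M none = 0 := by
    have := congrArg Matrix.trace hM'
    rw [Matrix.trace_add, Matrix.trace_smul, Matrix.trace_sum, Matrix.trace_one, hM] at this
    simp only [Matrix.trace_smul, b.traceless, Fintype.card_fin, smul_eq_mul,
      mul_zero, Finset.sum_const_zero, add_zero, mul_eq_zero, Nat.cast_eq_zero] at this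
    rcases this with h | h
    · exact h
    · omega
  rw [h0, zero_smul, zero_add] at hM'
  have hc : ∀ A, B.repr M (some A) = (M * b.T A).trace := by
    intro A
    conv_rhs => rw [← hM']
    simp only [Finset.sum_mul, Matrix.trace_sum, Matrix.smul_mul, Matrix.trace_smul,
      b.orthonormal, smul_eq_mul]
    simp
  conv_lhs => rw [← hM']
  exact Finset.sum_congr rfl fun A _ => by rw [hc]

theorem trace_herm_real (P Q : Matrix (Fin N) (Fin N) ℂ) (hP : P.IsHermitian) (hQ : Q.IsHermitian) :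
    (((P * Q).trace.re : ℝ) : ℂ) = (P * Q).trace := by
  have h : star (P * Q).trace = (P * Q).trace := by
    rw [← Matrix.trace_conjTranspose, Matrix.conjTranspose_mul, hP.eq, hQ.eq, Matrix.trace_mul_comm]
  rw [Complex.star_def] at h
  exact (Complex.conj_eq_iff_re.mp h)

theorem structConst_cyc (A B C : Fin (N ^ 2 - 1)) : b.structConst A B C = b.structConst B C A := by
  unfold ColorBasis.structConst
  congr 2
  rw [Matrix.sub_mul, Matrix.sub_mul, Matrix.trace_sub, Matrix.trace_sub]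
  rw [Matrix.mul_assoc, Matrix.trace_mul_comm (b.T A), Matrix.mul_assoc (b.T B) (b.T A) (b.T C),
    Matrix.trace_mul_comm (b.T B), Matrix.mul_assoc (b.T A) (b.T C) (b.T B),
    Matrix.trace_mul_comm (b.T A)]

theorem structConst_swap (A B C : Fin (N ^ 2 - 1)) : b.structConst B A C = - b.structConst A B C := by
  unfold ColorBasis.structConst
  rw [← Complex.neg_re]
  congr 1
  rw [← neg_sub (b.T A * b.T B) (b.T B * b.T A), Matrix.neg_mul, Matrix.trace_neg]
  ring

/-- `[T_A, T_B] = i Σ_C f_ABC T_C`. -/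
theorem comm_T (hN : 0 < N) (A B : Fin (N ^ 2 - 1)) :
    b.T A * b.T B - b.T B * b.T A = Complex.I • ∑ C, (b.structConst A B C : ℂ) • b.T C := by
  set P : Matrix (Fin N) (Fin N) ℂ := (-Complex.I) • (b.T A * b.T B - b.T B * b.T A) with hP
  have hPh : P.IsHermitian := by
    rw [hP]
    unfold Matrix.IsHermitian
    rw [Matrix.conjTranspose_smul, Matrix.conjTranspose_sub, Matrix.conjTranspose_mul,
      Matrix.conjTranspose_mul, (b.herm A).eq, (b.herm B).eq, Complex.star_def, map_neg,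
      Complex.conj_I, neg_neg, neg_smul, ← smul_neg, neg_sub]
  have hPt : P.trace = 0 := by
    rw [hP, Matrix.trace_smul, Matrix.trace_sub, Matrix.trace_mul_comm, sub_self, smul_zero]
  have hc := completeness b hN P hPt
  have hcoef : ∀ C, (P * b.T C).trace = (b.structConst A B C : ℂ) := by
    intro C
    rw [← trace_herm_real P (b.T C) hPh (b.herm C)]
    congr 1
    unfold ColorBasis.structConst
    rw [hP, Matrix.smul_mul, Matrix.trace_smul, smul_eq_mul]
  simp only [hcoef] at hc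
  rw [← hc, hP, smul_smul]
  simp

theorem comm_cmat (hN : 0 < N) (u v : Fin (N ^ 2 - 1) → ℝ) :
    cmat b u * cmat b v - cmat b v * cmat b u = Complex.I • cmat b (br b u v) := by
  have h1 : cmat b u * cmat b v - cmat b v * cmat b u
      = ∑ A, ∑ B, ((u A * v B : ℝ) : ℂ) • (b.T A * b.T B - b.T B * b.T A) := by
    unfold cmat
    rw [Finset.sum_mul_sum, Finset.sum_mul_sum]
    rw [Finset.sum_comm (f := fun i j => (v i : ℂ) • b.T i * (u j : ℂ) • b.T j)]
    rw [← Finset.sum_sub_distrib]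
    refine Finset.sum_congr rfl fun A _ => ?_
    rw [← Finset.sum_sub_distrib]
    refine Finset.sum_congr rfl fun B _ => ?_
    rw [Matrix.smul_mul, Matrix.smul_mul, Matrix.mul_smul, Matrix.mul_smul, smul_smul, smul_smul,
      smul_sub]
    push_cast
    rw [mul_comm (v B : ℂ)]
  rw [h1]
  simp only [comm_T b hN]
  unfold cmat br
  simp only [smul_comm _ Complex.I]
  simp only [← Finset.smul_sum]
  congr 1
  simp only [Finset.smul_sum, smul_smul]
  rw [Finset.sum_congr rfl fun A _ => Finset.sum_comm]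
  rw [Finset.sum_comm]
  refine Finset.sum_congr rfl fun C _ => ?_
  push_cast
  simp only [← Finset.sum_smul]
  congr 1
  refine Finset.sum_congr rfl fun A _ => Finset.sum_congr rfl fun B _ => ?_
  rw [structConst_cyc b A B C, structConst_cyc b B C A]
  ring

/-! ### Coercivity -/

/-- The `i`-th vector of a configuration. -/
def comp (x : Cfg N) (i : Fin 9) (A : Fin (N ^ 2 - 1)) : ℝ := x (i, A)

/-- `Fin 3` as the first three directions. -/
def lo (i : Fin 3) : Fin 9 := ⟨i, by omega⟩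

/-- `Σ_{i mod 3} |m x_i / 3 - g [x_{i+1}, x_{i+2}]|²`. -/
def Vcyc (g m : ℝ) (x : Cfg N) : ℝ :=
  ∑ i : Fin 3, ∑ A, (m * comp x (lo i) A / 3
    - g * br b (comp x (lo (i + 1))) (comp x (lo (i + 2))) A) ^ 2

/-- `Σ_{j ≥ 3} |x_j|²`. -/
def Vhi (x : Cfg N) : ℝ := ∑ i : Fin 6, ∑ A, (comp x ⟨i + 3, by omega⟩ A) ^ 2

theorem br_smul_smul (c d : ℝ) (u v : Fin (N ^ 2 - 1) → ℝ) (A : Fin (N ^ 2 - 1)) :
    br b (fun B => c * u B) (fun B => d * v B) A = c * d * br b u v A := by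
  unfold br
  rw [Finset.mul_sum]
  refine Finset.sum_congr rfl fun B _ => ?_
  rw [Finset.mul_sum]
  refine Finset.sum_congr rfl fun C _ => ?_
  ring

theorem Vcyc_eq (hN : 0 < N) {g : ℝ} (x : Cfg N) :
    g ^ 2 * Vcyc b g 1 x = ∑ i : Fin 3, hs (mis (fun i => cmat b (fun A => g * comp x (lo i) A)) i) := by
  unfold Vcyc
  rw [Finset.mul_sum]
  refine Finset.sum_congr rfl fun i _ => ?_
  unfold mis
  rw [comm_cmat b hN]
  have h1 : (1 / 3 : ℂ) • cmat b (fun A => g * comp x (lo i) A)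
      + Complex.I • (Complex.I • cmat b (br b (fun A => g * comp x (lo (i + 1)) A)
        (fun A => g * comp x (lo (i + 2)) A)))
      = cmat b (fun A => g * (1 * comp x (lo i) A / 3
          - g * br b (comp x (lo (i + 1))) (comp x (lo (i + 2))) A)) := by
    rw [smul_smul, Complex.I_mul_I, neg_one_smul, ← sub_eq_add_neg]
    have e1 : ((1 / 3 : ℂ)) = (((1 / 3 : ℝ)) : ℂ) := by push_cast; rfl
    rw [e1, ← cmat_smul, ← cmat_sub]
    congr 1
    funext A
    rw [br_smul_smul]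
    ring
  rw [h1, hs_cmat, Finset.mul_sum]
  refine Finset.sum_congr rfl fun A _ => ?_
  ring

theorem norm_sq_eq (x : Cfg N) :
    ‖x‖ ^ 2 = ∑ i : Fin 3, ∑ A, (comp x (lo i) A) ^ 2 + Vhi x := by
  rw [EuclideanSpace.norm_sq_eq, Fintype.sum_prod_type]
  unfold Vhi comp lo
  simp only [Real.norm_eq_abs, sq_abs]
  rw [Fin.sum_univ_succ, Fin.sum_univ_succ, Fin.sum_univ_succ, Fin.sum_univ_three]
  simp only [add_assoc]
  rfl

/-- **Coercivity of the mass deformed potential** (constants depend on `N` only). -/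
theorem coercivity (hN : 0 < N) {g : ℝ} (hg : 0 < g) (x : Cfg N) :
    ‖x‖ ^ 2 / (432 * (N : ℝ) ^ 3) - 1152 * (N : ℝ) ^ 10 / g ^ 2
      ≤ 1 / 2 * Vcyc b g 1 x + 1 / 72 * Vhi x := by
  have hN1 : (1 : ℝ) ≤ N := by exact_mod_cast hN
  have hNe : Nonempty (Fin N) := ⟨⟨0, hN⟩⟩
  have h := coerc_mat (fun i : Fin 3 => cmat b (fun A => g * comp x (lo i) A))
    (fun i => cmat_herm b _) (fun i => cmat_trace b _)
  rw [← Vcyc_eq b hN x, Fintype.card_fin] at h
  simp only [hs_cmat] at h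
  have h1 : ∑ i : Fin 3, ∑ A, (g * comp x (lo i) A) ^ 2
      = g ^ 2 * ∑ i : Fin 3, ∑ A, (comp x (lo i) A) ^ 2 := by
    simp only [mul_pow, Finset.mul_sum]
  rw [h1] at h
  set S := ∑ i : Fin 3, ∑ A, (comp x (lo i) A) ^ 2 with hS
  have hVhi : 0 ≤ Vhi x := Finset.sum_nonneg fun _ _ => Finset.sum_nonneg fun _ _ => sq_nonneg _
  rw [norm_sq_eq x]
  have hg2 : 0 < g ^ 2 := by positivity
  have hN3 : (1 : ℝ) ≤ (N : ℝ) ^ 3 := one_le_pow₀ hN1
  have h2 : S / (216 * (N : ℝ) ^ 3) - 2304 * (N : ℝ) ^ 10 / g ^ 2 ≤ Vcyc b g 1 x := by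
    have h3 : g ^ 2 * (S / (216 * (N : ℝ) ^ 3) - 2304 * (N : ℝ) ^ 10 / g ^ 2)
        ≤ g ^ 2 * Vcyc b g 1 x := by
      refine le_trans (le_of_eq ?_) h
      field_simp
    exact le_of_mul_le_mul_left h3 hg2
  have h4 : Vhi x / (432 * (N : ℝ) ^ 3) ≤ 1 / 72 * Vhi x := by
    rw [div_le_iff₀ (by positivity)]
    nlinarith
  have h5 : (S + Vhi x) / (432 * (N : ℝ) ^ 3) - 1152 * (N : ℝ) ^ 10 / g ^ 2
      = 1 / 2 * (S / (216 * (N : ℝ) ^ 3) - 2304 * (N : ℝ) ^ 10 / g ^ 2)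
        + Vhi x / (432 * (N : ℝ) ^ 3) := by
    field_simp; ring
  rw [h5]
  linarith

end

end Crest.Agent.R330.CoerCfg87
private theorem rz_48dd65f0d1 : type_of% @_root_.Crest.Agent.R330.CoerCfg87.fam.eq_1 := @_root_.Crest.Agent.R330.CoerCfg87.fam.eq_1 -- L90
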