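import Crest.Agent.R330.Moll_350
import Crest.Agent.R330.Rellich_893

/-!
Row 330 (helper406): amplitudes, leaf `S9-AMP`.

* (G1) `amp_null` : a sequence of `C¹` functions supported in one ball, bounded in `H¹` and weakly null
  (against smooth compactly supported test functions) tends to zero in `L²`.
-/

set_option autoImplicit false
set_option linter.unusedSectionVars false

noncomputable section

namespace Crest.Agent.R330.Amp406

open MeasureTheory Filter Topology Crest.Agent.R330.Moll350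
open scoped ContDiff InnerProductSpace ENNReal

/-! ### (G1) translations of `H¹` functions -/

section G1

variable {R : Type*} [NormedAddCommGroup R] [InnerProductSpace ℝ R] [FiniteDimensional ℝ R]
  [MeasurableSpace R] [BorelSpace R]

section Trans

variable {G : Type*} [NormedAddCommGroup G] [NormedSpace ℝ G] [CompleteSpace G]

theorem enorm_translate_sub_le {g : R → G} (hg : ContDiff ℝ 1 g) (x z : R) :
    ‖g (x - z) - g x‖ₑ ≤ ‖z‖ₑ * ∫⁻ t in Set.Ioc (0 : ℝ) 1, ‖fderiv ℝ g (x - t • z)‖ₑ := by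
  have hd : ∀ t : ℝ, HasDerivAt (fun t : ℝ => g (x - t • z)) (fderiv ℝ g (x - t • z) (-z)) t := by
    intro t
    have h1 : HasDerivAt (fun t : ℝ => x - t • z) (-z) t := by
      have := ((hasDerivAt_id t).smul_const z).const_sub x
      simpa using this
    exact ((hg.differentiable (by norm_num) (x - t • z)).hasFDerivAt).comp_hasDerivAt t h1
  have hfc : Continuous (fderiv ℝ g) := hg.continuous_fderiv (by norm_num)
  have hc : Continuous fun t : ℝ => fderiv ℝ g (x - t • z) (-z) :=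
    (hfc.comp (by fun_prop)).clm_apply continuous_const
  have h3 := intervalIntegral.integral_eq_sub_of_hasDerivAt (f := fun t : ℝ => g (x - t • z))
    (fun t _ => hd t) (hc.intervalIntegrable 0 1)
  simp only [one_smul, zero_smul, sub_zero] at h3
  rw [← h3, intervalIntegral.integral_of_le zero_le_one]
  refine (enorm_integral_le_lintegral_enorm _).trans ?_
  rw [← lintegral_const_mul']
  · refine lintegral_mono fun t => ?_
    simp only [map_neg, enorm_neg]
    rw [mul_comm]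
    exact ContinuousLinearMap.le_opENorm _ _
  · exact enorm_ne_top

theorem eLpNorm_translate_le {g : R → G} (hg : ContDiff ℝ 1 g) (z : R) :
    eLpNorm (fun x => g (x - z) - g x) 2 volume ≤ ‖z‖ₑ * eLpNorm (fderiv ℝ g) 2 volume := by
  have hfc : Continuous (fderiv ℝ g) := hg.continuous_fderiv (by norm_num)
  refine eLpNorm_le_of_sq ?_
  have hm : Measurable (Function.uncurry fun (x : R) (t : ℝ) => ‖fderiv ℝ g (x - t • z)‖ₑ) := by
    have : Continuous fun p : R × ℝ => ‖fderiv ℝ g (p.1 - p.2 • z)‖ₑ := by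
      exact (hfc.comp (by fun_prop)).enorm
    exact this.measurable
  calc ∫⁻ x, ‖g (x - z) - g x‖ₑ ^ 2
      ≤ ∫⁻ x, ‖z‖ₑ ^ 2 * ∫⁻ t in Set.Ioc (0 : ℝ) 1, ‖fderiv ℝ g (x - t • z)‖ₑ ^ 2 := by
        refine lintegral_mono fun x => ?_
        calc ‖g (x - z) - g x‖ₑ ^ 2
            ≤ (‖z‖ₑ * ∫⁻ t in Set.Ioc (0 : ℝ) 1, ‖fderiv ℝ g (x - t • z)‖ₑ) ^ 2 := by
              gcongr
              exact enorm_translate_sub_le hg x z
          _ = ‖z‖ₑ ^ 2 * (∫⁻ t in Set.Ioc (0 : ℝ) 1, ‖fderiv ℝ g (x - t • z)‖ₑ) ^ 2 := mul_pow _ _ _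
          _ ≤ _ := by
              gcongr
              have h := cs_sq (μ := (volume : Measure ℝ).restrict (Set.Ioc (0 : ℝ) 1))
                (k := fun _ => 1) (h := fun t => ‖fderiv ℝ g (x - t • z)‖ₑ) aemeasurable_const
                (hm.comp measurable_prodMk_left).aemeasurable
              simpa using h
    _ = ‖z‖ₑ ^ 2 * ∫⁻ x, ∫⁻ t in Set.Ioc (0 : ℝ) 1, ‖fderiv ℝ g (x - t • z)‖ₑ ^ 2 := by
        rw [lintegral_const_mul']
        exact ENNReal.pow_ne_top enorm_ne_top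
    _ = ‖z‖ₑ ^ 2 * ∫⁻ t in Set.Ioc (0 : ℝ) 1, ∫⁻ x, ‖fderiv ℝ g (x - t • z)‖ₑ ^ 2 := by
        congr 1
        exact lintegral_lintegral_swap ((hm.pow_const 2).aemeasurable)
    _ = ‖z‖ₑ ^ 2 * ∫⁻ t in Set.Ioc (0 : ℝ) 1, ∫⁻ x, ‖fderiv ℝ g x‖ₑ ^ 2 := by
        congr 1
        refine lintegral_congr fun t => ?_
        exact lintegral_sub_right_eq_self (μ := (volume : Measure R))
          (fun x => ‖fderiv ℝ g x‖ₑ ^ 2) (t • z)
    _ = ‖z‖ₑ ^ 2 * ∫⁻ x, ‖fderiv ℝ g x‖ₑ ^ 2 := by
        congr 1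
        simp

end Trans

/-- quantitative mollification of an `H¹` function -/
theorem eLpNorm_moll_sub_le' {G : Type*} [NormedAddCommGroup G] [NormedSpace ℝ G] [CompleteSpace G]
    {g : R → G} (hg : ContDiff ℝ 1 g) (hg2 : MemLp g 2 volume) (φ : ContDiffBump (0 : R)) :
    eLpNorm (moll φ g - g) 2 volume ≤ ENNReal.ofReal φ.rOut * eLpNorm (fderiv ℝ g) 2 volume := by
  refine eLpNorm_moll_sub_le hg2 fun z hz => ?_
  refine (eLpNorm_translate_le hg z).trans ?_
  gcongr
  rw [← ofReal_norm]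
  exact ENNReal.ofReal_le_ofReal hz.le

variable {Fx : Type*} [NormedAddCommGroup Fx] [InnerProductSpace ℂ Fx] [FiniteDimensional ℂ Fx]

theorem ofReal_integral_sq {α G : Type*} [MeasurableSpace α] {μ : Measure α} [NormedAddCommGroup G]
    {f : α → G} (hf : MemLp f 2 μ) : ENNReal.ofReal (∫ x, ‖f x‖ ^ 2 ∂μ) = eLpNorm f 2 μ ^ 2 := by
  rw [Rel893.eLpNorm_two_sq hf, ← ENNReal.ofReal_pow (Real.sqrt_nonneg _),
    Real.sq_sqrt (integral_nonneg fun x => by positivity)]

theorem eLpNorm_le_sqrt {α G : Type*} [MeasurableSpace α] {μ : Measure α} [NormedAddCommGroup G]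
    {f : α → G} (hf : MemLp f 2 μ) {C : ℝ} (h : ∫ x, ‖f x‖ ^ 2 ∂μ ≤ C) :
    eLpNorm f 2 μ ≤ ENNReal.ofReal (Real.sqrt C) := by
  rw [Rel893.eLpNorm_two_sq hf]
  exact ENNReal.ofReal_le_ofReal (Real.sqrt_le_sqrt h)

/-- weakly null sequences with supports in a ball: mollifications tend to zero pointwise -/
theorem tendsto_moll_apply {ι : Type*} {l : Filter ι} {a : ι → R → Fx}
    (hloc : ∀ j, LocallyIntegrable (a j) volume)
    (hw : ∀ χ : R → Fx, ContDiff ℝ ∞ χ → HasCompactSupport χ →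
      Tendsto (fun j => ∫ x, ⟪χ x, a j x⟫_ℂ) l (𝓝 0)) (φ : ContDiffBump (0 : R)) (x : R) :
    Tendsto (fun j => moll φ (a j) x) l (𝓝 0) := by
  have : CompleteSpace Fx := FiniteDimensional.complete ℂ Fx
  have hI : ∀ j, Integrable (fun y => φ.normed volume (x - y) • a j y) volume := by
    intro j
    have hc : HasCompactSupport fun y => φ.normed (volume : Measure R) (x - y) :=
      φ.hasCompactSupport_normed.comp_homeomorph (Homeomorph.subLeft x)
    have hcont : Continuous fun y => φ.normed (volume : Measure R) (x - y) :=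
      φ.continuous_normed.comp (by fun_prop)
    exact (hloc j).integrable_smul_left_of_hasCompactSupport hcont hc
  have hv : ∀ v : Fx, Tendsto (fun j => ⟪v, moll φ (a j) x⟫_ℂ) l (𝓝 0) := by
    intro v
    have hχ1 : ContDiff ℝ ∞ fun y => φ.normed (volume : Measure R) (x - y) • v :=
      (φ.contDiff_normed.comp (by fun_prop)).smul contDiff_const
    have hχ2 : HasCompactSupport fun y => φ.normed (volume : Measure R) (x - y) • v := by
      have hc : HasCompactSupport fun y => φ.normed (volume : Measure R) (x - y) :=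
        φ.hasCompactSupport_normed.comp_homeomorph (Homeomorph.subLeft x)
      exact hc.smul_right
    refine (hw _ hχ1 hχ2).congr fun j => ?_
    have h1 : ⟪v, moll φ (a j) x⟫_ℂ = ∫ y, ⟪v, φ.normed volume (x - y) • a j y⟫_ℂ := by
      have := ((innerSL ℂ v).integral_comp_comm (hI j))
      simpa [moll] using this.symm
    rw [h1]
    refine integral_congr_ae (Eventually.of_forall fun y => ?_)
    simp only [inner_rs_left, inner_rs_right]
  let b := stdOrthonormalBasis ℂ Fx
  have h2 : Tendsto (fun j => ∑ i, ⟪b i, moll φ (a j) x⟫_ℂ • b i) l (𝓝 (∑ i, (0 : ℂ) • b i)) :=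
    tendsto_finsetSum _ fun i _ => (hv (b i)).smul_const (b i)
  simp only [zero_smul, Finset.sum_const_zero] at h2
  refine h2.congr fun j => ?_
  exact b.sum_repr' _


theorem memLp_of_supp {G : Type*} [NormedAddCommGroup G] {g : R → G} (hg : Continuous g) {r : ℝ}
    (hs : ∀ x, r < ‖x‖ → g x = 0) : MemLp g 2 volume := by
  refine hg.memLp_of_hasCompactSupport ?_
  refine HasCompactSupport.intro (isCompact_closedBall (0 : R) r) fun x hx => hs x ?_
  simpa using hx

theorem fderiv_supp {G : Type*} [NormedAddCommGroup G] [NormedSpace ℝ G] {g : R → G} {r : ℝ}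
    (hs : ∀ x, r < ‖x‖ → g x = 0) : ∀ x, r < ‖x‖ → fderiv ℝ g x = 0 := by
  intro x hx
  have h : g =ᶠ[𝓝 x] fun _ => 0 := by
    filter_upwards [(isOpen_lt continuous_const continuous_norm).mem_nhds hx] with y hy
    exact hs y hy
  rw [h.fderiv_eq]
  simp

/-- mollifications of a weakly null bounded sequence with supports in a ball tend to zero in `L²` -/
theorem tendsto_eLpNorm_moll {ι : Type*} {l : Filter ι} [l.IsCountablyGenerated] {a : ι → R → Fx}
    (ha : ∀ j, Continuous (a j)) {r : ℝ} (hs : ∀ j x, r < ‖x‖ → a j x = 0) {C : ℝ≥0∞}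
    (hC : C ≠ ⊤) (h0 : ∀ j, eLpNorm (a j) 2 volume ≤ C)
    (hw : ∀ χ : R → Fx, ContDiff ℝ ∞ χ → HasCompactSupport χ →
      Tendsto (fun j => ∫ x, ⟪χ x, a j x⟫_ℂ) l (𝓝 0)) (φ : ContDiffBump (0 : R)) :
    Tendsto (fun j => eLpNorm (moll φ (a j)) 2 volume) l (𝓝 0) := by
  have : CompleteSpace Fx := FiniteDimensional.complete ℂ Fx
  have hloc : ∀ j, LocallyIntegrable (a j) volume := fun j => (ha j).locallyIntegrable
  obtain ⟨M, hM⟩ : ∃ M : ℝ, ∀ z : R, φ.normed volume z ≤ M := by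
    obtain ⟨M, hM⟩ := φ.hasCompactSupport_normed.exists_bound_of_continuous
      (φ.continuous_normed (μ := (volume : Measure R)))
    exact ⟨M, fun z => (le_abs_self _).trans (hM z)⟩
  -- uniform bound
  have hb : ∀ j x, ‖moll φ (a j) x‖ₑ ^ 2 ≤ ENNReal.ofReal M * C ^ 2 := by
    intro j x
    have e1 : ‖moll φ (a j) x‖ₑ ≤ ∫⁻ y, ENNReal.ofReal (φ.normed volume (x - y)) * ‖a j y‖ₑ := by
      refine (enorm_integral_le_lintegral_enorm _).trans (le_of_eq ?_)
      refine lintegral_congr fun y => ?_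
      rw [enorm_smul, Real.enorm_eq_ofReal (φ.nonneg_normed _)]
    have hk : Measurable fun y => ENNReal.ofReal (φ.normed (volume : Measure R) (x - y)) :=
      ENNReal.measurable_ofReal.comp (φ.continuous_normed.comp (by fun_prop)).measurable
    calc ‖moll φ (a j) x‖ₑ ^ 2
        ≤ (∫⁻ y, ENNReal.ofReal (φ.normed volume (x - y)) * ‖a j y‖ₑ) ^ 2 := by gcongr
      _ ≤ (∫⁻ y, ENNReal.ofReal (φ.normed volume (x - y))) *
            ∫⁻ y, ENNReal.ofReal (φ.normed volume (x - y)) * ‖a j y‖ₑ ^ 2 :=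
          cs_sq hk.aemeasurable (ha j).enorm.measurable.aemeasurable
      _ = ∫⁻ y, ENNReal.ofReal (φ.normed volume (x - y)) * ‖a j y‖ₑ ^ 2 := by
          rw [lintegral_normed_left, one_mul]
      _ ≤ ∫⁻ y, ENNReal.ofReal M * ‖a j y‖ₑ ^ 2 := by
          refine lintegral_mono fun y => ?_
          gcongr
          exact hM _
      _ = ENNReal.ofReal M * ∫⁻ y, ‖a j y‖ₑ ^ 2 := by
          rw [lintegral_const_mul' _ _ ENNReal.ofReal_ne_top]
      _ ≤ ENNReal.ofReal M * C ^ 2 := by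
          rw [← Moll350.eLpNorm_two_sq]
          gcongr
          exact h0 j
  have hlim : Tendsto (fun j => ∫⁻ x, ‖moll φ (a j) x‖ₑ ^ 2) l (𝓝 (∫⁻ _ : R, 0)) := by
    refine tendsto_lintegral_filter_of_dominated_convergence
      ((Metric.closedBall (0 : R) (r + φ.rOut)).indicator fun _ => ENNReal.ofReal M * C ^ 2) ?_ ?_ ?_ ?_
    · refine Eventually.of_forall fun j => ?_
      exact ((contDiff_moll (hloc j)).continuous.enorm.measurable.pow_const 2)
    · refine Eventually.of_forall fun j => Eventually.of_forall fun x => ?_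
      by_cases hx : x ∈ Metric.closedBall (0 : R) (r + φ.rOut)
      · rw [Set.indicator_of_mem hx]
        exact hb j x
      · rw [Set.indicator_of_notMem hx, moll_eq_zero (hs j)]
        · simp
        · simpa using hx
    · rw [lintegral_indicator_const measurableSet_closedBall]
      refine ENNReal.mul_ne_top (ENNReal.mul_ne_top ENNReal.ofReal_ne_top (ENNReal.pow_ne_top hC)) ?_
      exact measure_closedBall_lt_top.ne
    · refine Eventually.of_forall fun x => ?_
      have h1 := (tendsto_moll_apply hloc hw φ x).enorm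
      rw [enorm_zero] at h1
      have h2 := ENNReal.Tendsto.pow (n := 2) h1
      simpa using h2
  rw [lintegral_zero] at hlim
  have h3 := (ENNReal.continuous_rpow_const (y := (1 / 2 : ℝ))).tendsto 0 |>.comp hlim
  rw [ENNReal.zero_rpow_of_pos (by norm_num)] at h3
  refine h3.congr fun j => ?_
  simp only [Function.comp]
  rw [← Moll350.eLpNorm_two_sq, ← ENNReal.rpow_natCast, ← ENNReal.rpow_mul]
  norm_num

/-- (G1), `ℝ≥0∞` form -/
theorem amp_null_eLpNorm {ι : Type*} {l : Filter ι} [l.IsCountablyGenerated] {a : ι → R → Fx}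
    (ha : ∀ j, ContDiff ℝ 1 (a j)) {r : ℝ} (hs : ∀ j x, r < ‖x‖ → a j x = 0) {C : ℝ≥0∞}
    (hC : C ≠ ⊤) (h0 : ∀ j, eLpNorm (a j) 2 volume ≤ C)
    (h1 : ∀ j, eLpNorm (fderiv ℝ (a j)) 2 volume ≤ C)
    (hw : ∀ χ : R → Fx, ContDiff ℝ ∞ χ → HasCompactSupport χ →
      Tendsto (fun j => ∫ x, ⟪χ x, a j x⟫_ℂ) l (𝓝 0)) :
    Tendsto (fun j => eLpNorm (a j) 2 volume) l (𝓝 0) := by
  have : CompleteSpace Fx := FiniteDimensional.complete ℂ Fx
  rw [ENNReal.tendsto_nhds_zero]
  intro ε hε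
  -- choose the mollification scale
  obtain ⟨δ, hδ, hδ2⟩ : ∃ δ : ℝ, 0 < δ ∧ ENNReal.ofReal δ * C ≤ ε / 2 := by
    by_cases hC0 : C = 0
    · exact ⟨1, one_pos, by simp [hC0]⟩
    · have h2 : ε / 2 / C ≠ 0 := by
        refine ENNReal.div_ne_zero.2 ⟨?_, hC⟩
        exact (ENNReal.half_pos hε.ne').ne'
      obtain ⟨δ, hδ, hδ2⟩ := ENNReal.lt_iff_exists_real_btwn.1 (pos_iff_ne_zero.2 h2)
      refine ⟨δ, ENNReal.ofReal_pos.1 hδ2.1, ?_⟩
      calc ENNReal.ofReal δ * C ≤ ε / 2 / C * C := by gcongr; exact hδ2.2.le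
        _ ≤ ε / 2 := by rw [ENNReal.div_mul_cancel hC0 hC]
  let φ : ContDiffBump (0 : R) := ⟨δ / 2, δ, by positivity, by linarith⟩
  have h2 := tendsto_eLpNorm_moll (fun j => (ha j).continuous) hs hC h0 hw φ
  rw [ENNReal.tendsto_nhds_zero] at h2
  filter_upwards [h2 (ε / 2) (ENNReal.half_pos hε.ne')] with j hj
  have hm : MemLp (a j) 2 volume := memLp_of_supp (ha j).continuous (hs j)
  have hmm : AEStronglyMeasurable (moll φ (a j)) volume :=
    (contDiff_moll (ha j).continuous.locallyIntegrable).continuous.aestronglyMeasurable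
  calc eLpNorm (a j) 2 volume = eLpNorm (moll φ (a j) - (moll φ (a j) - a j)) 2 volume := by
        congr 1; abel
    _ ≤ eLpNorm (moll φ (a j)) 2 volume + eLpNorm (moll φ (a j) - a j) 2 volume :=
        eLpNorm_sub_le hmm (hmm.sub hm.1) (by norm_num)
    _ ≤ ε / 2 + ε / 2 := by
        refine add_le_add hj ?_
        refine (eLpNorm_moll_sub_le' (ha j) hm φ).trans ?_
        refine le_trans ?_ hδ2
        gcongr
        exact h1 j
    _ = ε := ENNReal.add_halves ε

/-- **(G1)** A family of `C¹` functions supported in one ball, bounded in `H¹` and weakly null, tends to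
zero in `L²`. -/
theorem amp_null {ι : Type*} {l : Filter ι} [l.IsCountablyGenerated] {a : ι → R → Fx}
    (ha : ∀ j, ContDiff ℝ 1 (a j)) {r : ℝ} (hs : ∀ j, tsupport (a j) ⊆ Metric.closedBall 0 r) {C : ℝ}
    (h0 : ∀ j, ∫ x, ‖a j x‖ ^ 2 ≤ C) (h1 : ∀ j, ∫ x, ‖fderiv ℝ (a j) x‖ ^ 2 ≤ C)
    (hw : ∀ χ : R → Fx, ContDiff ℝ ∞ χ → HasCompactSupport χ →
      Tendsto (fun j => ∫ x, ⟪χ x, a j x⟫_ℂ) l (𝓝 0)) :
    Tendsto (fun j => ∫ x, ‖a j x‖ ^ 2) l (𝓝 0) := by
  have hs' : ∀ j x, r < ‖x‖ → a j x = 0 := by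
    intro j x hx
    refine image_eq_zero_of_notMem_tsupport fun h => ?_
    have := hs j h
    rw [mem_closedBall_zero_iff] at this
    linarith
  have hm : ∀ j, MemLp (a j) 2 volume := fun j => memLp_of_supp (ha j).continuous (hs' j)
  have hdm : ∀ j, MemLp (fderiv ℝ (a j)) 2 volume := fun j =>
    memLp_of_supp ((ha j).continuous_fderiv (by norm_num)) (fderiv_supp (hs' j))
  rw [← Rel893.tendsto_eLpNorm_iff hm]
  exact amp_null_eLpNorm ha hs' ENNReal.ofReal_ne_top (fun j => eLpNorm_le_sqrt (hm j) (h0 j))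
    (fun j => eLpNorm_le_sqrt (hdm j) (h1 j)) hw


end G1

end Crest.Agent.R330.Amp406
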