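import Crest.Agent.R330.StrAbs_796

/-!
# Row 330, S9-ANNHI (helper245): the abstract limit argument for the annulus Hardy inequality

`V` core, `ι : V → H`, `q g a : V → V` the charges at coupling `g` (mass `0`), `e : X → L` test
amplitudes in the limit space, `D a` the limit charges, `T g : X → V` trial maps (not necessarily
linear).

* `Sys` : symmetry, asymptotic isometry, weak decoupling.
* `recover` : for every `χ` there are core vectors `u g` with `u g - T g χ → 0` and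
  `q g a (u g) - T g (D a χ) → 0` in norm (helper395's argument: self-adjointness of one charge and
  `q_a² = q_b²`).
* `ann` : Hardy inequality for test amplitudes + weak = strong in the limit system + local
  capture ⟹ Hardy inequality for core vectors at large coupling.
-/

set_option autoImplicit false
set_option linter.unusedSectionVars false

open Filter Topology Set
open scoped InnerProductSpace

noncomputable section

namespace Crest.Agent.R330.AnnAbs245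

open Crest.Agent.R330.StrAbs796 (ulim exists_riesz expand_lin)

variable {V H L X : Type*} [AddCommGroup V] [Module ℂ V]
  [NormedAddCommGroup H] [InnerProductSpace ℂ H]
  [NormedAddCommGroup L] [InnerProductSpace ℂ L]
  [AddCommGroup X] [Module ℂ X] {α : Type*} [Fintype α]

/-- The square of the form norm. -/
def En (ι : V →ₗ[ℂ] H) (q : α → V →ₗ[ℂ] V) (v : V) : ℝ := ‖ι v‖ ^ 2 + ∑ a, ‖ι (q a v)‖ ^ 2


theorem norm_sq_le_En (ι : V →ₗ[ℂ] H) (q : α → V →ₗ[ℂ] V) (v : V) : ‖ι v‖ ^ 2 ≤ En ι q v := by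
  have : 0 ≤ ∑ a, ‖ι (q a v)‖ ^ 2 := Finset.sum_nonneg fun _ _ => sq_nonneg _
  unfold En
  linarith


theorem sq_norm_sub_le {E : Type*} [NormedAddCommGroup E] [InnerProductSpace ℂ E] (x y : E) :
    ‖x - y‖ ^ 2 ≤ 2 * ‖x‖ ^ 2 + 2 * ‖y‖ ^ 2 := by
  have h := norm_sub_le x y
  have h1 := norm_nonneg (x - y)
  nlinarith [sq_nonneg (‖x‖ - ‖y‖)]

theorem En_sub_le (ι : V →ₗ[ℂ] H) (q : α → V →ₗ[ℂ] V) (u v : V) :
    En ι q (u - v) ≤ 2 * En ι q u + 2 * En ι q v := by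
  unfold En
  have h1 : ‖ι (u - v)‖ ^ 2 ≤ 2 * ‖ι u‖ ^ 2 + 2 * ‖ι v‖ ^ 2 := by
    rw [map_sub]
    exact sq_norm_sub_le _ _
  have h2 : ∑ a, ‖ι (q a (u - v))‖ ^ 2 ≤
      2 * ∑ a, ‖ι (q a u)‖ ^ 2 + 2 * ∑ a, ‖ι (q a v)‖ ^ 2 := by
    rw [Finset.mul_sum, Finset.mul_sum, ← Finset.sum_add_distrib]
    refine Finset.sum_le_sum fun a _ => ?_
    rw [map_sub, map_sub]
    exact sq_norm_sub_le _ _
  linarith

/-- **Trial system at mass `0`.** -/
structure Sys (ι : V →ₗ[ℂ] H) (q : ℝ → α → V →ₗ[ℂ] V) (e : X →ₗ[ℂ] L) (D : α → X →ₗ[ℂ] X)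
    (T : ℝ → X → V) : Prop where
  sym : ∀ g a u v, ⟪ι (q g a u), ι v⟫_ℂ = ⟪ι u, ι (q g a v)⟫_ℂ
  iso : ∀ χ χ', Tendsto (fun g => ⟪ι (T g χ), ι (T g χ')⟫_ℂ) atTop (𝓝 ⟪e χ, e χ'⟫_ℂ)
  dec : ∀ χ a, ∀ ε : ℝ, 0 < ε → ∀ᶠ g in atTop, ∀ v : V,
    ‖⟪ι v, ι (q g a (T g χ) - T g (D a χ))⟫_ℂ‖ ≤ ε * Real.sqrt (En ι (q g) v)

variable {ι : V →ₗ[ℂ] H} {q : ℝ → α → V →ₗ[ℂ] V} {e : X →ₗ[ℂ] L}
  {D : α → X →ₗ[ℂ] X} {T : ℝ → X → V}

namespace Sys

theorem norm_T (h : Sys ι q e D T) (χ : X) :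
    Tendsto (fun g => ‖ι (T g χ)‖) atTop (𝓝 ‖e χ‖) := by
  have h1 := (h.iso χ χ).norm.sqrt
  have h3 : ∀ x : H, Real.sqrt ‖⟪x, x⟫_ℂ‖ = ‖x‖ := fun x => by
    rw [inner_self_eq_norm_sq_to_K]
    simp [Real.sqrt_sq]
  have h4 : ∀ x : L, Real.sqrt ‖⟪x, x⟫_ℂ‖ = ‖x‖ := fun x => by
    rw [inner_self_eq_norm_sq_to_K]
    simp [Real.sqrt_sq]
  rw [h4] at h1
  exact h1.congr fun g => h3 _

theorem norm_T_sub (h : Sys ι q e D T) (χ χ' : X) :
    Tendsto (fun g => ‖ι (T g χ) - ι (T g χ')‖) atTop (𝓝 ‖e χ - e χ'‖) := by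
  have h3 : ∀ (x y : H), ‖x - y‖ = Real.sqrt (‖⟪x, x⟫_ℂ - ⟪x, y⟫_ℂ - ⟪y, x⟫_ℂ + ⟪y, y⟫_ℂ‖) := by
    intro x y
    have : ⟪x, x⟫_ℂ - ⟪x, y⟫_ℂ - ⟪y, x⟫_ℂ + ⟪y, y⟫_ℂ = ⟪x - y, x - y⟫_ℂ := by
      rw [inner_sub_sub_self]
    rw [this, inner_self_eq_norm_sq_to_K]
    simp [Real.sqrt_sq]
  have h4 : ∀ (x y : L), ‖x - y‖ = Real.sqrt (‖⟪x, x⟫_ℂ - ⟪x, y⟫_ℂ - ⟪y, x⟫_ℂ + ⟪y, y⟫_ℂ‖) := by
    intro x y
    have : ⟪x, x⟫_ℂ - ⟪x, y⟫_ℂ - ⟪y, x⟫_ℂ + ⟪y, y⟫_ℂ = ⟪x - y, x - y⟫_ℂ := by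
      rw [inner_sub_sub_self]
    rw [this, inner_self_eq_norm_sq_to_K]
    simp [Real.sqrt_sq]
  simp only [h3, h4]
  exact ((((h.iso χ χ).sub (h.iso χ χ')).sub (h.iso χ' χ)).add (h.iso χ' χ')).norm.sqrt

/-- `T` is asymptotically linear. -/
theorem lin (h : Sys ι q e D T) (c : ℂ) (χ χ' : X) :
    Tendsto (fun g => ‖ι (T g (c • χ + χ')) - (c • ι (T g χ) + ι (T g χ'))‖) atTop (𝓝 0) := by
  have h0 : Real.sqrt ‖⟪e (c • χ + χ'), e (c • χ + χ')⟫_ℂ - c * ⟪e (c • χ + χ'), e χ⟫_ℂ -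
      ⟪e (c • χ + χ'), e χ'⟫_ℂ -
        (starRingEnd ℂ c) * ⟪e χ, e (c • χ + χ')⟫_ℂ - ⟪e χ', e (c • χ + χ')⟫_ℂ +
        (starRingEnd ℂ c) * (c * ⟪e χ, e χ⟫_ℂ) +
        (starRingEnd ℂ c) * ⟪e χ, e χ'⟫_ℂ + c * ⟪e χ', e χ⟫_ℂ + ⟪e χ', e χ'⟫_ℂ‖ = 0 := by
    rw [← expand_lin c (e χ) (e χ') (e (c • χ + χ'))]
    simp
  rw [← h0]
  simp only [expand_lin]
  refine Tendsto.sqrt (Tendsto.norm ?_)
  exact ((((((((h.iso _ _).sub ((h.iso _ _).const_mul c)).sub (h.iso _ _)).sub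
    ((h.iso _ _).const_mul _)).sub (h.iso _ _)).add (((h.iso _ _).const_mul c).const_mul _)).add
    ((h.iso _ _).const_mul _)).add ((h.iso _ _).const_mul c)).add (h.iso _ _)

/-- The weak limit of a bounded family, along an ultrafilter. -/
theorem limit [CompleteSpace L] (h : Sys ι q e D T) (U : Ultrafilter ℕ) {g : ℕ → ℝ}
    (hg : Tendsto g U atTop) {w : ℕ → H} {B : ℝ} (hw : ∀ j, ‖w j‖ ≤ B) :
    ∃ f : L, ∀ χ, Tendsto (fun j => ⟪w j, ι (T (g j) χ)⟫_ℂ) U (𝓝 ⟪f, e χ⟫_ℂ) := by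
  have hB : 0 ≤ B := (norm_nonneg _).trans (hw 0)
  have hbd : ∀ χ, ∀ᶠ j in (U : Filter ℕ), ‖⟪w j, ι (T (g j) χ)⟫_ℂ‖ ≤ B * (‖e χ‖ + 1) := by
    intro χ
    have h1 : ∀ᶠ g in atTop, ‖ι (T g χ)‖ < ‖e χ‖ + 1 :=
      (h.norm_T χ).eventually_lt_const (lt_add_one _)
    filter_upwards [hg.eventually h1] with j hj
    exact (norm_inner_le_norm _ _).trans (mul_le_mul (hw j) hj.le (norm_nonneg _) hB)
  have hex : ∀ χ, ∃ z : ℂ, Tendsto (fun j => ⟪w j, ι (T (g j) χ)⟫_ℂ) U (𝓝 z) := fun χ =>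
    ulim U (hbd χ)
  choose lam hlam using hex
  have hlin : ∀ (c : ℂ) χ χ', lam (c • χ + χ') = c * lam χ + lam χ' := by
    intro c χ χ'
    have h1 : Tendsto (fun j => ⟪w j, ι (T (g j) (c • χ + χ')) -
        (c • ι (T (g j) χ) + ι (T (g j) χ'))⟫_ℂ) U (𝓝 0) := by
      have h2 : Tendsto (fun j => B * ‖ι (T (g j) (c • χ + χ')) -
          (c • ι (T (g j) χ) + ι (T (g j) χ'))‖) U (𝓝 0) := by
        have := ((h.lin c χ χ').comp hg).const_mul B
        simpa using this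
      exact squeeze_zero_norm (fun j => (norm_inner_le_norm _ _).trans
        (mul_le_mul_of_nonneg_right (hw j) (norm_nonneg _))) h2
    have h2 : Tendsto (fun j => ⟪w j, ι (T (g j) (c • χ + χ')) -
        (c • ι (T (g j) χ) + ι (T (g j) χ'))⟫_ℂ) U
        (𝓝 (lam (c • χ + χ') - (c * lam χ + lam χ'))) := by
      simp only [inner_sub_right, inner_add_right, inner_smul_right]
      exact (hlam _).sub (((hlam _).const_mul c).add (hlam _))
    exact sub_eq_zero.1 (tendsto_nhds_unique h2 h1)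
  let lamL : X →ₗ[ℂ] ℂ :=
    { toFun := lam
      map_add' := fun χ χ' => by
        have := hlin 1 χ χ'
        simpa using this
      map_smul' := fun c χ => by
        have h0 : lam 0 = 0 := by
          have := hlin 1 0 0
          simpa using this
        have := hlin c χ 0
        simpa [h0] using this }
  have hle : ∀ χ, ‖lamL χ‖ ≤ B * ‖e χ‖ := by
    intro χ
    have h1 : Tendsto (fun j => ‖⟪w j, ι (T (g j) χ)⟫_ℂ‖) U (𝓝 ‖lam χ‖) := (hlam χ).norm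
    have h2 : Tendsto (fun j => B * ‖ι (T (g j) χ)‖) U (𝓝 (B * ‖e χ‖)) :=
      ((h.norm_T χ).comp hg).const_mul B
    exact le_of_tendsto_of_tendsto' h1 h2 fun j => (norm_inner_le_norm _ _).trans
      (mul_le_mul_of_nonneg_right (hw j) (norm_nonneg _))
  obtain ⟨f, hf⟩ := exists_riesz e lamL hle
  have hfl : ∀ χ, ⟪f, e χ⟫_ℂ = lam χ := hf
  exact ⟨f, fun χ => by rw [hfl]; exact hlam χ⟩

/-- Decoupling along a filter, for families of bounded energy. -/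
theorem dec_lim (h : Sys ι q e D T) {β : Type*} {l : Filter β} {g : β → ℝ}
    (hg : Tendsto g l atTop) {v : β → V} {C : ℝ} (hv : ∀ᶠ j in l, En ι (q (g j)) (v j) ≤ C)
    (χ : X) (a : α) :
    Tendsto (fun j => ⟪ι (q (g j) a (v j)), ι (T (g j) χ)⟫_ℂ - ⟪ι (v j), ι (T (g j) (D a χ))⟫_ℂ) l
      (𝓝 0) := by
  rw [tendsto_zero_iff_norm_tendsto_zero, Metric.tendsto_nhds]
  intro ε hε
  have hs : 0 ≤ Real.sqrt C := Real.sqrt_nonneg _
  have h5 := h.dec χ a (ε / (Real.sqrt C + 1)) (by positivity)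
  filter_upwards [hg.eventually h5, hv] with j h7 h8
  rw [dist_zero_right, norm_norm]
  have h9 := h7 (v j)
  have h10 : ⟪ι (q (g j) a (v j)), ι (T (g j) χ)⟫_ℂ - ⟪ι (v j), ι (T (g j) (D a χ))⟫_ℂ =
      ⟪ι (v j), ι (q (g j) a (T (g j) χ) - T (g j) (D a χ))⟫_ℂ := by
    rw [h.sym, ← inner_sub_right, map_sub]
  rw [h10]
  refine h9.trans_lt ?_
  have h11 : Real.sqrt (En ι (q (g j)) (v j)) ≤ Real.sqrt C := Real.sqrt_le_sqrt h8
  calc ε / (Real.sqrt C + 1) * Real.sqrt (En ι (q (g j)) (v j))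
      ≤ ε / (Real.sqrt C + 1) * Real.sqrt C :=
        mul_le_mul_of_nonneg_left h11 (by positivity)
    _ < ε / (Real.sqrt C + 1) * (Real.sqrt C + 1) :=
        mul_lt_mul_of_pos_left (lt_add_one _) (by positivity)
    _ = ε := by field_simp

/-! ### Recovery sequences -/

/-- **Recovery.** `u g - T g χ → 0` and `q g b (u g) - T g (D b χ) → 0` in norm, for all `b`. -/
theorem recover (h : Sys ι q e D T) (a : α)
    (hqq : ∀ g b v, q g b (q g b v) = q g a (q g a v))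
    (hDD : ∀ b χ, D b (D b χ) = D a (D a χ))
    (hDs : ∀ b χ χ', ⟪e (D b χ), e χ'⟫_ℂ = ⟪e χ, e (D b χ')⟫_ℂ)
    (hdens : ∀ g, 0 < g → ∀ (w : V) (ε : ℝ), 0 < ε →
      ∃ u : V, ‖ι (q g a u) - Complex.I • ι u - ι w‖ < ε) (χ : X) :
    ∃ u : ℝ → V, Tendsto (fun g => ‖ι (u g) - ι (T g χ)‖) atTop (𝓝 0) ∧
      ∀ b, Tendsto (fun g => ‖ι (q g b (u g)) - ι (T g (D b χ))‖) atTop (𝓝 0) := by
  classical
  set ζ : X := (-Complex.I) • χ + D a χ with hζ
  have hex : ∀ g : ℝ, ∃ u : V, 0 < g → ‖ι (q g a u) - Complex.I • ι u - ι (T g ζ)‖ < g⁻¹ := by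
    intro g
    by_cases hg : 0 < g
    · obtain ⟨u, hu⟩ := hdens g hg (T g ζ) g⁻¹ (inv_pos.2 hg)
      exact ⟨u, fun _ => hu⟩
    · exact ⟨0, fun h0 => absurd h0 hg⟩
  choose u hu using hex
  -- the residual
  set r : ℝ → H := fun g => ι (q g a (u g)) - Complex.I • ι (u g) - ι (T g ζ) with hr
  have hr0 : Tendsto (fun g => ‖r g‖) atTop (𝓝 0) := by
    refine squeeze_zero' (Eventually.of_forall fun g => norm_nonneg _) ?_ tendsto_inv_atTop_zero
    filter_upwards [eventually_gt_atTop 0] with g hg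
    exact (hu g hg).le
  -- `⟪q u, u⟫` is real
  have hreal : ∀ g, (⟪ι (u g), ι (q g a (u g))⟫_ℂ).im = 0 := by
    intro g
    have h1 : ⟪ι (u g), ι (q g a (u g))⟫_ℂ = (starRingEnd ℂ) ⟪ι (u g), ι (q g a (u g))⟫_ℂ := by
      rw [inner_conj_symm]
      exact (h.sym g a (u g) (u g)).symm
    have h2 := congrArg Complex.im h1
    rw [Complex.conj_im] at h2
    linarith
  have hR : ∀ g, ‖ι (q g a (u g)) - Complex.I • ι (u g)‖ ^ 2 =
      ‖ι (q g a (u g))‖ ^ 2 + ‖ι (u g)‖ ^ 2 := by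
    intro g
    rw [@norm_sub_sq ℂ]
    have h1 : RCLike.re ⟪ι (q g a (u g)), Complex.I • ι (u g)⟫_ℂ = 0 := by
      rw [inner_smul_right, h.sym]
      have := hreal g
      simp only [RCLike.re_to_complex, Complex.mul_re, Complex.I_re, Complex.I_im, zero_mul,
        one_mul, zero_sub, neg_eq_zero]
      exact this
    rw [h1, norm_smul, Complex.norm_I, one_mul]
    ring
  -- bounded energy
  have hTζ : ∀ᶠ g in atTop, ‖ι (T g ζ)‖ < ‖e ζ‖ + 1 :=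
    (h.norm_T ζ).eventually_lt_const (lt_add_one _)
  set K : ℝ := (‖e ζ‖ + 1 + 1) ^ 2 with hK
  have hbd : ∀ᶠ g in atTop, ‖ι (q g a (u g))‖ ^ 2 + ‖ι (u g)‖ ^ 2 ≤ K := by
    filter_upwards [hTζ, hr0.eventually_lt_const one_pos] with g h1 h2
    rw [← hR]
    have h3 : ι (q g a (u g)) - Complex.I • ι (u g) = r g + ι (T g ζ) := by
      simp only [hr]
      abel
    have h4 : ‖ι (q g a (u g)) - Complex.I • ι (u g)‖ ≤ ‖e ζ‖ + 1 + 1 := by
      rw [h3]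
      exact (norm_add_le _ _).trans (by linarith)
    exact pow_le_pow_left₀ (norm_nonneg _) h4 2
  have hqb : ∀ g b, ‖ι (q g b (u g))‖ = ‖ι (q g a (u g))‖ := by
    intro g b
    have h1 : ∀ c, ⟪ι (q g c (u g)), ι (q g c (u g))⟫_ℂ = ⟪ι (u g), ι (q g a (q g a (u g)))⟫_ℂ := by
      intro c
      rw [h.sym, hqq]
    have h2 : ⟪ι (q g b (u g)), ι (q g b (u g))⟫_ℂ = ⟪ι (q g a (u g)), ι (q g a (u g))⟫_ℂ := by
      rw [h1, h1]
    rw [inner_self_eq_norm_sq_to_K, inner_self_eq_norm_sq_to_K] at h2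
    have h3 : ‖ι (q g b (u g))‖ ^ 2 = ‖ι (q g a (u g))‖ ^ 2 := by
      have := congrArg Complex.re h2
      norm_cast at this
    exact (pow_left_inj₀ (norm_nonneg _) (norm_nonneg _) two_ne_zero).1 h3
  set n : ℝ := (Fintype.card α : ℝ) with hn
  have hEn : ∀ᶠ g in atTop, En ι (q g) (u g) ≤ K + n * K := by
    filter_upwards [hbd] with g hg
    unfold En
    have h1 : ‖ι (u g)‖ ^ 2 ≤ K := by nlinarith [sq_nonneg ‖ι (q g a (u g))‖]
    have h2 : ‖ι (q g a (u g))‖ ^ 2 ≤ K := by nlinarith [sq_nonneg ‖ι (u g)‖]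
    have h3 : ∑ b, ‖ι (q g b (u g))‖ ^ 2 = n * ‖ι (q g a (u g))‖ ^ 2 := by
      simp only [hqb, Finset.sum_const, Finset.card_univ, nsmul_eq_mul, hn]
    rw [h3]
    have h4 : 0 ≤ n := by positivity
    nlinarith [mul_le_mul_of_nonneg_left h2 h4]
  have hun : ∀ᶠ g in atTop, ‖ι (u g)‖ ≤ Real.sqrt K := by
    filter_upwards [hbd] with g hg
    refine Real.le_sqrt_of_sq_le ?_
    nlinarith [sq_nonneg ‖ι (q g a (u g))‖]
  have hqn : ∀ᶠ g in atTop, ∀ b, ‖ι (q g b (u g))‖ ≤ Real.sqrt K := by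
    filter_upwards [hbd] with g hg b
    rw [hqb]
    refine Real.le_sqrt_of_sq_le ?_
    nlinarith [sq_nonneg ‖ι (u g)‖]
  -- a family bounded times a null family
  have hnull : ∀ (x y : ℝ → H) (C : ℝ), (∀ᶠ g in atTop, ‖x g‖ ≤ C) →
      Tendsto (fun g => ‖y g‖) atTop (𝓝 0) →
      Tendsto (fun g => ⟪x g, y g⟫_ℂ) atTop (𝓝 0) := by
    intro x y C hx hy
    have h1 : Tendsto (fun g => C * ‖y g‖) atTop (𝓝 0) := by
      have := hy.const_mul C
      simpa using this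
    refine squeeze_zero_norm' ?_ h1
    filter_upwards [hx] with g hg
    exact (norm_inner_le_norm _ _).trans (mul_le_mul_of_nonneg_right hg (norm_nonneg _))
  -- (1) `⟪u, T ζ⟫ = -i ⟪u, T χ⟫ + ⟪u, T D χ⟫ + o(1)`
  have s1 : Tendsto (fun g => ⟪ι (u g), ι (T g ζ)⟫_ℂ - (-Complex.I * ⟪ι (u g), ι (T g χ)⟫_ℂ +
      ⟪ι (u g), ι (T g (D a χ))⟫_ℂ)) atTop (𝓝 0) := by
    have h1 := hnull _ (fun g => ι (T g ζ) - ((-Complex.I) • ι (T g χ) + ι (T g (D a χ)))) _ hun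
      (h.lin (-Complex.I) χ (D a χ))
    refine h1.congr fun g => ?_
    rw [inner_sub_right, inner_add_right, inner_smul_right]
  -- (2) decoupling
  have s2 : Tendsto (fun g => ⟪ι (q g a (u g)), ι (T g χ)⟫_ℂ - ⟪ι (u g), ι (T g (D a χ))⟫_ℂ)
      atTop (𝓝 0) := h.dec_lim tendsto_id hEn χ a
  -- (3) `q u = r + T ζ + i u`
  have hqu : ∀ g, ι (q g a (u g)) = r g + ι (T g ζ) + Complex.I • ι (u g) := fun g => by
    simp only [hr]
    abel
  have hTχ : ∀ᶠ g in atTop, ‖ι (T g χ)‖ ≤ ‖e χ‖ + 1 :=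
    ((h.norm_T χ).eventually_lt_const (lt_add_one _)).mono fun g hg => hg.le
  have s3 : Tendsto (fun g => ⟪ι (q g a (u g)), ι (T g χ)⟫_ℂ -
      (⟪ι (T g ζ), ι (T g χ)⟫_ℂ - Complex.I * ⟪ι (u g), ι (T g χ)⟫_ℂ)) atTop (𝓝 0) := by
    have h1 := hnull (fun g => ι (T g χ)) r _ hTχ hr0
    have h2 := (Complex.continuous_conj.tendsto _).comp h1
    rw [map_zero] at h2
    refine h2.congr fun g => ?_
    simp only [Function.comp_apply]
    rw [inner_conj_symm, hqu, inner_add_left, inner_add_left, inner_smul_left, Complex.conj_I]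
    ring
  -- (4) the norm of `u`
  have s4 : Tendsto (fun g => ‖ι (u g)‖ ^ 2 + (⟪ι (u g), ι (T g ζ)⟫_ℂ).im) atTop (𝓝 0) := by
    have h1 := hnull (fun g => ι (u g)) r _ hun hr0
    have h2 := ((Complex.continuous_im.tendsto _).comp h1).neg
    rw [Complex.zero_im, neg_zero] at h2
    refine h2.congr fun g => ?_
    have h4 : ⟪ι (u g), ι (u g)⟫_ℂ = ((‖ι (u g)‖ ^ 2 : ℝ) : ℂ) := by
      rw [inner_self_eq_norm_sq_to_K]
      push_cast
      rfl
    have h5 : (⟪ι (u g), r g⟫_ℂ).im = -‖ι (u g)‖ ^ 2 - (⟪ι (u g), ι (T g ζ)⟫_ℂ).im := by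
      simp only [hr]
      rw [inner_sub_right, inner_sub_right, inner_smul_right, Complex.sub_im, Complex.sub_im,
        hreal, h4, Complex.mul_im, Complex.I_re, Complex.I_im, Complex.ofReal_re]
      ring
    simp only [Function.comp_apply]
    rw [h5]
    ring
  -- (5) combination
  have s5 : Tendsto (fun g => (⟪ι (u g), ι (T g ζ)⟫_ℂ).im + 2 * (⟪ι (u g), ι (T g χ)⟫_ℂ).re -
      (⟪ι (T g ζ), ι (T g χ)⟫_ℂ).im) atTop (𝓝 0) := by
    have h1 := (Complex.continuous_im.tendsto _).comp ((s1.sub s2).add s3)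
    simp only [sub_zero, add_zero, Complex.zero_im] at h1
    refine h1.congr fun g => ?_
    simp only [Function.comp_apply, Complex.add_im, Complex.sub_im, Complex.mul_im,
      Complex.neg_im, Complex.neg_re, Complex.I_re, Complex.I_im]
    ring
  have hζχ : (⟪e ζ, e χ⟫_ℂ).im = ‖e χ‖ ^ 2 := by
    have h1 : (⟪e (D a χ), e χ⟫_ℂ).im = 0 := by
      have h2 : ⟪e (D a χ), e χ⟫_ℂ = (starRingEnd ℂ) ⟪e (D a χ), e χ⟫_ℂ := by
        rw [inner_conj_symm]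
        exact hDs a χ χ
      have h3 := congrArg Complex.im h2
      rw [Complex.conj_im] at h3
      linarith
    have h4 : ⟪e χ, e χ⟫_ℂ = ((‖e χ‖ ^ 2 : ℝ) : ℂ) := by
      rw [inner_self_eq_norm_sq_to_K]
      push_cast
      rfl
    rw [hζ, map_add, map_smul, inner_add_left, inner_smul_left, Complex.add_im, h1, h4, map_neg,
      Complex.conj_I, neg_neg, Complex.mul_im, Complex.I_re, Complex.I_im, Complex.ofReal_re]
    ring
  have s6 : Tendsto (fun g => (⟪ι (T g ζ), ι (T g χ)⟫_ℂ).im) atTop (𝓝 (‖e χ‖ ^ 2)) := by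
    rw [← hζχ]
    exact (Complex.continuous_im.tendsto _).comp (h.iso ζ χ)
  have s7 : Tendsto (fun g => ‖ι (u g)‖ ^ 2 - 2 * (⟪ι (u g), ι (T g χ)⟫_ℂ).re) atTop
      (𝓝 (-‖e χ‖ ^ 2)) := by
    have h1 := (s4.sub s5).sub s6
    rw [sub_zero, zero_sub] at h1
    refine h1.congr fun g => ?_
    ring
  have s8 : Tendsto (fun g => ‖ι (u g) - ι (T g χ)‖ ^ 2) atTop (𝓝 0) := by
    have h1 := s7.add ((h.norm_T χ).pow 2)
    rw [neg_add_cancel] at h1
    refine h1.congr fun g => ?_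
    rw [@norm_sub_sq ℂ]
    simp only [RCLike.re_to_complex]
  have hsq : ∀ x : ℝ → H, Tendsto (fun g => ‖x g‖ ^ 2) atTop (𝓝 0) →
      Tendsto (fun g => ‖x g‖) atTop (𝓝 0) := by
    intro x hx
    have := hx.sqrt
    rw [Real.sqrt_zero] at this
    exact this.congr fun g => Real.sqrt_sq (norm_nonneg _)
  have s9 : Tendsto (fun g => ‖ι (u g) - ι (T g χ)‖) atTop (𝓝 0) := hsq _ s8
  -- (6) the charge `a`
  have s10 : Tendsto (fun g => ‖ι (q g a (u g)) - ι (T g (D a χ))‖) atTop (𝓝 0) := by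
    have h1 : Tendsto (fun g => ‖r g‖ + ‖ι (T g ζ) - ((-Complex.I) • ι (T g χ) +
        ι (T g (D a χ)))‖ + ‖ι (u g) - ι (T g χ)‖) atTop (𝓝 0) := by
      have h0 := (hr0.add (h.lin (-Complex.I) χ (D a χ))).add s9
      rw [add_zero, add_zero] at h0
      exact h0
    refine squeeze_zero (fun _ => norm_nonneg _) (fun g => ?_) h1
    have h2 : ι (q g a (u g)) - ι (T g (D a χ)) = r g + (ι (T g ζ) - ((-Complex.I) • ι (T g χ) +
        ι (T g (D a χ)))) + Complex.I • (ι (u g) - ι (T g χ)) := by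
      rw [hqu, smul_sub, neg_smul]
      abel
    rw [h2]
    refine (norm_add₃_le).trans ?_
    rw [norm_smul, Complex.norm_I, one_mul]
  have hDn : ∀ b, ‖e (D b χ)‖ = ‖e (D a χ)‖ := by
    intro b
    have h1 : ∀ c, ⟪e (D c χ), e (D c χ)⟫_ℂ = ⟪e χ, e (D a (D a χ))⟫_ℂ := by
      intro c
      rw [hDs, hDD]
    have h2 : ⟪e (D b χ), e (D b χ)⟫_ℂ = ⟪e (D a χ), e (D a χ)⟫_ℂ := by
      rw [h1, h1]
    rw [inner_self_eq_norm_sq_to_K, inner_self_eq_norm_sq_to_K] at h2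
    have h3 : ‖e (D b χ)‖ ^ 2 = ‖e (D a χ)‖ ^ 2 := by
      have := congrArg Complex.re h2
      norm_cast at this
    exact (pow_left_inj₀ (norm_nonneg _) (norm_nonneg _) two_ne_zero).1 h3
  refine ⟨u, s9, fun b => hsq _ ?_⟩
  -- (7) the other charges
  have t1 : Tendsto (fun g => ‖ι (q g b (u g))‖ ^ 2) atTop (𝓝 (‖e (D b χ)‖ ^ 2)) := by
    have h1 : Tendsto (fun g => ‖ι (q g a (u g))‖) atTop (𝓝 ‖e (D a χ)‖) := by
      have h2 : Tendsto (fun g => ‖ι (q g a (u g))‖ - ‖ι (T g (D a χ))‖) atTop (𝓝 0) := by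
        refine squeeze_zero_norm (fun g => ?_) s10
        rw [Real.norm_eq_abs]
        exact abs_norm_sub_norm_le _ _
      have h3 := h2.add (h.norm_T (D a χ))
      rw [zero_add] at h3
      exact h3.congr fun g => by ring
    rw [hDn]
    exact (h1.congr fun g => (hqb g b).symm).pow 2
  have t2 : Tendsto (fun g => (⟪ι (q g b (u g)), ι (T g (D b χ))⟫_ℂ).re) atTop
      (𝓝 (‖e (D b χ)‖ ^ 2)) := by
    have h1 := h.dec_lim tendsto_id hEn (D b χ) b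
    have h2 : Tendsto (fun g => ⟪ι (u g), ι (T g (D b (D b χ)))⟫_ℂ) atTop
        (𝓝 ⟪e χ, e (D b (D b χ))⟫_ℂ) := by
      have h3 : Tendsto (fun g => ⟪ι (u g) - ι (T g χ), ι (T g (D b (D b χ)))⟫_ℂ) atTop (𝓝 0) := by
        have h4 : Tendsto (fun g => ‖ι (u g) - ι (T g χ)‖ * ‖ι (T g (D b (D b χ)))‖) atTop
            (𝓝 (0 * ‖e (D b (D b χ))‖)) := s9.mul (h.norm_T _)
        rw [zero_mul] at h4
        exact squeeze_zero_norm (fun g => norm_inner_le_norm _ _) h4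
      have h5 := h3.add (h.iso χ (D b (D b χ)))
      rw [zero_add] at h5
      refine h5.congr fun g => ?_
      rw [inner_sub_left, sub_add_cancel]
    have h6 : ⟪e χ, e (D b (D b χ))⟫_ℂ = ((‖e (D b χ)‖ ^ 2 : ℝ) : ℂ) := by
      rw [← hDs, inner_self_eq_norm_sq_to_K]
      push_cast
      rfl
    have h7 := h1.add h2
    rw [zero_add, h6] at h7
    have h8 := (Complex.continuous_re.tendsto _).comp h7
    rw [Complex.ofReal_re] at h8
    refine h8.congr fun g => ?_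
    simp only [Function.comp_apply, id, sub_add_cancel]
  have t3 := (t1.sub (t2.const_mul 2)).add ((h.norm_T (D b χ)).pow 2)
  have t4 : ‖e (D b χ)‖ ^ 2 - 2 * ‖e (D b χ)‖ ^ 2 + ‖e (D b χ)‖ ^ 2 = 0 := by ring
  rw [t4] at t3
  refine t3.congr fun g => ?_
  rw [@norm_sub_sq ℂ]
  simp only [RCLike.re_to_complex]

/-! ### Capture in finite form -/

/-- **Finite form of capture.** -/
theorem cap_fin [TopologicalSpace.SeparableSpace L] (h : Sys ι q e D T) (B : V → ℝ)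
    (hcap : ∀ (g : ℕ → ℝ) (v : ℕ → V) (C : ℝ), Tendsto g atTop atTop →
      (∀ j, En ι (q (g j)) (v j) ≤ C) →
      (∀ χ, Tendsto (fun j => ⟪ι (T (g j) χ), ι (v j)⟫_ℂ) atTop (𝓝 0)) →
      Tendsto (fun j => B (v j)) atTop (𝓝 0)) (C δ : ℝ) (hδ : 0 < δ) :
    ∃ (S : Finset X) (η : ℝ) (g₀ : ℝ), 0 < η ∧ ∀ g, g₀ ≤ g → ∀ v : V, En ι (q g) v ≤ C →
      (∀ χ ∈ S, ‖⟪ι (T g χ), ι v⟫_ℂ‖ < η) → B v ≤ δ := by
  classical
  -- a countable dense set of amplitudes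
  obtain ⟨X₀, hX₀⟩ : ∃ x : ℕ → X, ∀ χ, ∀ ε : ℝ, 0 < ε → ∃ n, ‖e χ - e (x n)‖ < ε := by
    have hsep : TopologicalSpace.IsSeparable (Set.range e) :=
      TopologicalSpace.IsSeparable.of_separableSpace _
    have : TopologicalSpace.SeparableSpace (Set.range e) := hsep.separableSpace
    have : Nonempty (Set.range e) := ⟨⟨e 0, ⟨0, rfl⟩⟩⟩
    obtain ⟨s, hs⟩ := TopologicalSpace.exists_dense_seq (Set.range e)
    have hx : ∀ n, ∃ χ, e χ = s n := fun n => (s n).2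
    choose x hx using hx
    refine ⟨x, fun χ ε hε => ?_⟩
    obtain ⟨n, hn⟩ := Metric.denseRange_iff.1 hs ⟨e χ, ⟨χ, rfl⟩⟩ ε hε
    refine ⟨n, ?_⟩
    rw [← dist_eq_norm, hx]
    exact hn
  by_contra hcon
  push Not at hcon
  have hex : ∀ n : ℕ, ∃ g : ℝ, (n : ℝ) ≤ g ∧ ∃ v : V, En ι (q g) v ≤ C ∧
      (∀ k < n, ‖⟪ι (T g (X₀ k)), ι v⟫_ℂ‖ < 1 / ((n : ℝ) + 1)) ∧ δ < B v := by
    intro n
    obtain ⟨g, hg, v, h1, h2, h3⟩ := hcon ((Finset.range n).image X₀) (1 / ((n : ℝ) + 1)) n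
      (by positivity)
    exact ⟨g, hg, v, h1, fun k hk => h2 _ (Finset.mem_image_of_mem _ (Finset.mem_range.2 hk)), h3⟩
  choose g hg v hv1 hv2 hv3 using hex
  have hgt : Tendsto g atTop atTop := tendsto_atTop_mono hg tendsto_natCast_atTop_atTop
  have hvn : ∀ n, ‖ι (v n)‖ ≤ Real.sqrt C := fun n =>
    Real.le_sqrt_of_sq_le ((norm_sq_le_En ι (q (g n)) (v n)).trans (hv1 n))
  have hw : ∀ χ, Tendsto (fun j => ⟪ι (T (g j) χ), ι (v j)⟫_ℂ) atTop (𝓝 0) := by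
    intro χ
    rw [tendsto_zero_iff_norm_tendsto_zero, Metric.tendsto_nhds]
    intro ε hε
    have hs : 0 ≤ Real.sqrt C := Real.sqrt_nonneg _
    obtain ⟨k, hk⟩ := hX₀ χ (ε / (2 * (Real.sqrt C + 1))) (by positivity)
    have h1 := ((h.norm_T_sub χ (X₀ k)).comp hgt).eventually_lt_const hk
    have h2 : ∀ᶠ n : ℕ in atTop, 1 / ((n : ℝ) + 1) < ε / 2 :=
      tendsto_one_div_add_atTop_nhds_zero_nat.eventually_lt_const (by positivity)
    filter_upwards [h1, h2, eventually_gt_atTop k] with n h3 h4 h5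
    rw [dist_zero_right, norm_norm]
    have h6 : ⟪ι (T (g n) χ), ι (v n)⟫_ℂ = ⟪ι (T (g n) χ) - ι (T (g n) (X₀ k)), ι (v n)⟫_ℂ +
        ⟪ι (T (g n) (X₀ k)), ι (v n)⟫_ℂ := by
      rw [inner_sub_left, sub_add_cancel]
    rw [h6]
    have h7 : ‖⟪ι (T (g n) χ) - ι (T (g n) (X₀ k)), ι (v n)⟫_ℂ‖ ≤
        ε / (2 * (Real.sqrt C + 1)) * Real.sqrt C :=
      (norm_inner_le_norm _ _).trans (mul_le_mul h3.le (hvn n) (norm_nonneg _) (by positivity))
    have h8 : ε / (2 * (Real.sqrt C + 1)) * Real.sqrt C ≤ ε / 2 := by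
      rw [div_mul_eq_mul_div, div_le_div_iff₀ (by positivity) (by positivity)]
      nlinarith
    have h9 := hv2 n k h5
    calc _ ≤ ‖⟪ι (T (g n) χ) - ι (T (g n) (X₀ k)), ι (v n)⟫_ℂ‖ +
          ‖⟪ι (T (g n) (X₀ k)), ι (v n)⟫_ℂ‖ := norm_add_le _ _
      _ < ε / 2 + ε / 2 := by linarith
      _ = ε := by ring
  have h0 := hcap g v C hgt hv1 hw
  have h1 := h0.eventually_lt_const hδ
  obtain ⟨n, hn⟩ := h1.exists
  exact absurd (hv3 n) (not_lt.2 hn.le)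

/-! ### The annulus inequality -/

/-- **Hardy inequality at large coupling.** `B` is a bounded weight on `H` (`w(|x|²)`), `W` the same
weight on test amplitudes. -/
theorem ann [CompleteSpace L] [TopologicalSpace.SeparableSpace L] (h : Sys ι q e D T)
    (hrec : ∀ χ, ∃ u : ℝ → V, Tendsto (fun g => ‖ι (u g) - ι (T g χ)‖) atTop (𝓝 0) ∧
      ∀ b, Tendsto (fun g => ‖ι (q g b (u g)) - ι (T g (D b χ))‖) atTop (𝓝 0))
    (hws : ∀ (f : L) (k : α → L), (∀ χ a, ⟪f, e (D a χ)⟫_ℂ = ⟪k a, e χ⟫_ℂ) → ∀ ε : ℝ, 0 < ε →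
      ∃ χ, ‖e χ - f‖ ≤ ε ∧ ∀ a, ‖e (D a χ) - k a‖ ≤ ε)
    (B : H →L[ℂ] H) (W : X → X)
    (hW : ∀ χ, Tendsto (fun g => ‖ι (T g (W χ)) - B (ι (T g χ))‖) atTop (𝓝 0))
    (hcap : ∀ (g : ℕ → ℝ) (v : ℕ → V) (C : ℝ), Tendsto g atTop atTop →
      (∀ j, En ι (q (g j)) (v j) ≤ C) →
      (∀ χ, Tendsto (fun j => ⟪ι (T (g j) χ), ι (v j)⟫_ℂ) atTop (𝓝 0)) →
      Tendsto (fun j => ‖B (ι (v j))‖) atTop (𝓝 0))
    {κ c₀ : ℝ} (hc₀ : 0 < c₀)
    (hhardy : ∀ χ, κ * ‖e (W χ)‖ ^ 2 ≤ c₀ * ∑ a, ‖e (D a χ)‖ ^ 2) {κ' : ℝ} (hκ : κ' < κ)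
    (C : ℝ) :
    ∃ g₀ : ℝ, ∀ g, g₀ ≤ g → ∀ v : V, ‖ι v‖ ≤ C * ‖B (ι v)‖ →
      κ' * ‖B (ι v)‖ ^ 2 ≤ c₀ * ∑ a, ‖ι (q g a v)‖ ^ 2 := by
  classical
  by_contra hcon
  push Not at hcon
  -- the contradiction sequence, normalised
  have hex : ∀ n : ℕ, ∃ g : ℝ, (n : ℝ) ≤ g ∧ ∃ v : V, ‖B (ι v)‖ = 1 ∧ ‖ι v‖ ≤ C ∧
      c₀ * ∑ a, ‖ι (q g a v)‖ ^ 2 < κ' := by
    intro n
    obtain ⟨g, hg, v, h1, h2⟩ := hcon n
    have h0 : 0 ≤ c₀ * ∑ a, ‖ι (q g a v)‖ ^ 2 := by positivity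
    have hB : ‖B (ι v)‖ ≠ 0 := by
      intro h3
      rw [h3] at h2
      linarith [h2, h0, show κ' * (0 : ℝ) ^ 2 = 0 by ring]
    have hB' : 0 < ‖B (ι v)‖ := lt_of_le_of_ne (norm_nonneg _) (Ne.symm hB)
    set t : ℝ := ‖B (ι v)‖ with ht
    refine ⟨g, hg, ((t⁻¹ : ℝ) : ℂ) • v, ?_, ?_, ?_⟩
    · rw [map_smul, map_smul, norm_smul, Complex.norm_real, Real.norm_eq_abs,
        abs_of_pos (inv_pos.2 hB'), ← ht, inv_mul_cancel₀ hB]
    · rw [map_smul, norm_smul, Complex.norm_real, Real.norm_eq_abs, abs_of_pos (inv_pos.2 hB')]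
      rw [inv_mul_le_iff₀ hB', mul_comm]
      exact h1
    · have h3 : ∑ a, ‖ι (q g a (((t⁻¹ : ℝ) : ℂ) • v))‖ ^ 2 = (t⁻¹) ^ 2 * ∑ a, ‖ι (q g a v)‖ ^ 2 := by
        rw [Finset.mul_sum]
        refine Finset.sum_congr rfl fun a _ => ?_
        rw [map_smul, map_smul, norm_smul, Complex.norm_real, Real.norm_eq_abs,
          abs_of_pos (inv_pos.2 hB'), mul_pow]
      rw [h3]
      have h4 : 0 < (t⁻¹) ^ 2 := by positivity
      calc c₀ * ((t⁻¹) ^ 2 * ∑ a, ‖ι (q g a v)‖ ^ 2)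
          = (t⁻¹) ^ 2 * (c₀ * ∑ a, ‖ι (q g a v)‖ ^ 2) := by ring
        _ < (t⁻¹) ^ 2 * (κ' * t ^ 2) := mul_lt_mul_of_pos_left h2 h4
        _ = κ' := by field_simp
  choose g hgn v hv1 hv2 hv3 using hex
  have hg : Tendsto g atTop atTop := tendsto_atTop_mono hgn tendsto_natCast_atTop_atTop
  have hκ'0 : 0 < κ' := lt_of_le_of_lt (by positivity) (hv3 0)
  have hC0 : 0 ≤ C := (norm_nonneg _).trans (hv2 0)
  have hqs : ∀ n, ∑ a, ‖ι (q (g n) a (v n))‖ ^ 2 ≤ κ' / c₀ := fun n => by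
    rw [le_div_iff₀ hc₀, mul_comm]
    exact (hv3 n).le
  have hqn : ∀ n a, ‖ι (q (g n) a (v n))‖ ≤ Real.sqrt (κ' / c₀) := by
    intro n a
    refine Real.le_sqrt_of_sq_le ((Finset.single_le_sum
      (f := fun b => ‖ι (q (g n) b (v n))‖ ^ 2) (fun b _ => sq_nonneg _)
      (Finset.mem_univ a)).trans (hqs n))
  set C₁ : ℝ := C ^ 2 + κ' / c₀ with hC₁
  have hEn : ∀ n, En ι (q (g n)) (v n) ≤ C₁ := fun n => by
    unfold En
    exact add_le_add (pow_le_pow_left₀ (norm_nonneg _) (hv2 n) 2) (hqs n)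
  set U : Ultrafilter ℕ := Filter.hyperfilter ℕ with hUdef
  have hU : (U : Filter ℕ) ≤ atTop := by
    rw [hUdef, ← Nat.cofinite_eq_atTop]
    exact Filter.hyperfilter_le_cofinite
  have hgU : Tendsto g U atTop := hg.mono_left hU
  obtain ⟨f, hf⟩ := h.limit U hgU (w := fun n => ι (v n)) hv2
  have hk := fun a => h.limit U hgU (w := fun n => ι (q (g n) a (v n))) (fun n => hqn n a)
  choose k hk using hk
  -- the weak equation
  have hweak : ∀ χ a, ⟪f, e (D a χ)⟫_ℂ = ⟪k a, e χ⟫_ℂ := by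
    intro χ a
    have h1 := h.dec_lim hgU (v := v) (Eventually.of_forall hEn) χ a
    have h2 := (hk a χ).sub (hf (D a χ))
    have h3 := tendsto_nhds_unique h1 h2
    exact (sub_eq_zero.1 h3.symm).symm
  -- the recovery bound
  set K : ℝ := 2 * C₁ + 2 * ((‖f‖ + 1) ^ 2 + ∑ a, (‖k a‖ + 1) ^ 2 + 1) with hK
  -- choice of the parameters
  set S₁ : ℝ := ∑ a, 2 * (‖k a‖ + 1) with hS₁
  have hS₁0 : 0 ≤ S₁ := by positivity
  -- main estimate for all small `ε`, `δ`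
  have main : ∀ δ : ℝ, 0 < δ → δ < 1 → κ * (1 - δ) ^ 2 ≤ κ' + c₀ * (δ * S₁) := by
    intro δ hδ hδ1
    obtain ⟨S, η, g₀, hη, hS⟩ := h.cap_fin (fun v => ‖B (ι v)‖) hcap K δ hδ
    set M : ℝ := ∑ χ ∈ S, ‖e χ‖ + 1 with hM
    have hM0 : 0 < M := by positivity
    set ε : ℝ := min δ (η / (2 * M)) with hε
    have hε0 : 0 < ε := lt_min hδ (by positivity)
    have hεδ : ε ≤ δ := min_le_left _ _
    have hεη : ε * M < η := by
      have : ε ≤ η / (2 * M) := min_le_right _ _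
      calc ε * M ≤ η / (2 * M) * M := mul_le_mul_of_nonneg_right this hM0.le
        _ = η / 2 := by field_simp
        _ < η := by linarith
    obtain ⟨χ, hχ1, hχ2⟩ := hws f k hweak ε hε0
    obtain ⟨u, hu1, hu2⟩ := hrec χ
    have hε1 : ε < 1 := hεδ.trans_lt hδ1
    -- energy of `u`
    have hun : ∀ᶠ s in atTop, En ι (q s) (u s) ≤ (‖f‖ + 1) ^ 2 + ∑ a, (‖k a‖ + 1) ^ 2 + 1 := by
      have h1 : Tendsto (fun s => ‖ι (u s)‖) atTop (𝓝 ‖e χ‖) := by
        have h2 : Tendsto (fun s => ‖ι (u s)‖ - ‖ι (T s χ)‖) atTop (𝓝 0) := by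
          refine squeeze_zero_norm (fun s => ?_) hu1
          rw [Real.norm_eq_abs]
          exact abs_norm_sub_norm_le _ _
        have h3 := h2.add (h.norm_T χ)
        rw [zero_add] at h3
        exact h3.congr fun s => by ring
      have h2 : ∀ a, Tendsto (fun s => ‖ι (q s a (u s))‖) atTop (𝓝 ‖e (D a χ)‖) := by
        intro a
        have h2 : Tendsto (fun s => ‖ι (q s a (u s))‖ - ‖ι (T s (D a χ))‖) atTop (𝓝 0) := by
          refine squeeze_zero_norm (fun s => ?_) (hu2 a)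
          rw [Real.norm_eq_abs]
          exact abs_norm_sub_norm_le _ _
        have h3 := h2.add (h.norm_T (D a χ))
        rw [zero_add] at h3
        exact h3.congr fun s => by ring
      have h3 : Tendsto (fun s => En ι (q s) (u s)) atTop
          (𝓝 (‖e χ‖ ^ 2 + ∑ a, ‖e (D a χ)‖ ^ 2)) :=
        (h1.pow 2).add (tendsto_finsetSum _ fun a _ => (h2 a).pow 2)
      have h4 : ‖e χ‖ ^ 2 + ∑ a, ‖e (D a χ)‖ ^ 2 <
          (‖f‖ + 1) ^ 2 + ∑ a, (‖k a‖ + 1) ^ 2 + 1 := by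
        have h5 : ‖e χ‖ ≤ ‖f‖ + 1 := by
          have := norm_add_le (e χ - f) f
          rw [sub_add_cancel] at this
          linarith
        have h6 : ∀ a, ‖e (D a χ)‖ ≤ ‖k a‖ + 1 := fun a => by
          have := norm_add_le (e (D a χ) - k a) (k a)
          rw [sub_add_cancel] at this
          have := hχ2 a
          linarith
        have h7 : ∑ a, ‖e (D a χ)‖ ^ 2 ≤ ∑ a, (‖k a‖ + 1) ^ 2 :=
          Finset.sum_le_sum fun a _ => pow_le_pow_left₀ (norm_nonneg _) (h6 a) 2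
        have h8 : ‖e χ‖ ^ 2 ≤ (‖f‖ + 1) ^ 2 := pow_le_pow_left₀ (norm_nonneg _) h5 2
        linarith
      exact (h3.eventually_lt_const h4).mono fun s hs => hs.le
    -- pairing of the difference
    have hpair : ∀ χ' ∈ S, ∀ᶠ n in (U : Filter ℕ),
        ‖⟪ι (T (g n) χ'), ι (v n - u (g n))⟫_ℂ‖ < η := by
      intro χ' hχ'
      have h1 : Tendsto (fun n => ⟪ι (v n - u (g n)), ι (T (g n) χ')⟫_ℂ) U
          (𝓝 (⟪f, e χ'⟫_ℂ - ⟪e χ, e χ'⟫_ℂ)) := by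
        have h2 : Tendsto (fun s => ⟪ι (u s), ι (T s χ')⟫_ℂ) atTop (𝓝 ⟪e χ, e χ'⟫_ℂ) := by
          have h3 : Tendsto (fun s => ⟪ι (u s) - ι (T s χ), ι (T s χ')⟫_ℂ) atTop (𝓝 0) := by
            have h4 : Tendsto (fun s => ‖ι (u s) - ι (T s χ)‖ * ‖ι (T s χ')‖) atTop
                (𝓝 (0 * ‖e χ'‖)) := hu1.mul (h.norm_T _)
            rw [zero_mul] at h4
            exact squeeze_zero_norm (fun s => norm_inner_le_norm _ _) h4
          have h5 := h3.add (h.iso χ χ')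
          rw [zero_add] at h5
          refine h5.congr fun s => ?_
          rw [inner_sub_left, sub_add_cancel]
        have h3 := (hf χ').sub (h2.comp hgU)
        refine h3.congr fun n => ?_
        rw [map_sub, inner_sub_left]
        rfl
      have h2 : ‖⟪f, e χ'⟫_ℂ - ⟪e χ, e χ'⟫_ℂ‖ < η := by
        rw [← inner_sub_left]
        refine (norm_inner_le_norm _ _).trans_lt ?_
        have h3 : ‖e χ'‖ ≤ M := by
          have := Finset.single_le_sum (f := fun χ => ‖e χ‖) (fun b _ => norm_nonneg _) hχ'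
          simp only [hM]
          linarith
        calc ‖f - e χ‖ * ‖e χ'‖ ≤ ε * M := by
              rw [norm_sub_rev]
              exact mul_le_mul hχ1 h3 (norm_nonneg _) hε0.le
          _ < η := hεη
      have h3 := h1.norm.eventually_lt_const h2
      filter_upwards [h3] with n hn
      rw [norm_inner_symm]
      exact hn
    have hpair' : ∀ᶠ n in (U : Filter ℕ), ∀ χ' ∈ S,
        ‖⟪ι (T (g n) χ'), ι (v n - u (g n))⟫_ℂ‖ < η :=
      (Filter.eventually_all_finset S).2 hpair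
    have hsmall : ∀ᶠ n in (U : Filter ℕ), ‖B (ι (v n - u (g n)))‖ ≤ δ := by
      filter_upwards [hpair', hgU.eventually hun, hgU.eventually_ge_atTop g₀] with n h1 h2 h3
      refine hS (g n) h3 _ ?_ h1
      refine (En_sub_le _ _ _ _).trans ?_
      have := hEn n
      simp only [hK]
      linarith
    -- the weight of `u`
    have hBu : Tendsto (fun s => ‖B (ι (u s))‖) atTop (𝓝 ‖e (W χ)‖) := by
      have h1 : Tendsto (fun s => ‖B (ι (u s))‖ - ‖ι (T s (W χ))‖) atTop (𝓝 0) := by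
        have h2 : Tendsto (fun s => ‖B‖ * ‖ι (u s) - ι (T s χ)‖ +
            ‖ι (T s (W χ)) - B (ι (T s χ))‖) atTop (𝓝 0) := by
          have := (hu1.const_mul ‖B‖).add (hW χ)
          simpa using this
        refine squeeze_zero_norm (fun s => ?_) h2
        rw [Real.norm_eq_abs]
        refine (abs_norm_sub_norm_le _ _).trans ?_
        have h3 : B (ι (u s)) - ι (T s (W χ)) = B (ι (u s) - ι (T s χ)) -
            (ι (T s (W χ)) - B (ι (T s χ))) := by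
          rw [map_sub]
          abel
        rw [h3]
        refine (norm_sub_le _ _).trans ?_
        gcongr
        exact B.le_opNorm _
      have h3 := h1.add (h.norm_T (W χ))
      rw [zero_add] at h3
      exact h3.congr fun s => by ring
    have hWχ : 1 - δ ≤ ‖e (W χ)‖ := by
      refine ge_of_tendsto (hBu.comp hgU) ?_
      filter_upwards [hsmall] with n hn
      have h1 : B (ι (v n)) = B (ι (v n - u (g n))) + B (ι (u (g n))) := by
        rw [map_sub, map_sub, sub_add_cancel]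
      have h2 : ‖B (ι (v n))‖ ≤ ‖B (ι (v n - u (g n)))‖ + ‖B (ι (u (g n)))‖ := by
        rw [h1]
        exact norm_add_le _ _
      rw [hv1] at h2
      simp only [Function.comp_apply]
      linarith
    -- Bessel
    have hbes : ∑ a, ‖e (D a χ)‖ ^ 2 ≤ κ' / c₀ + ∑ a, 2 * ε * ‖e (D a χ)‖ := by
      have h1 : Tendsto (fun n => ∑ a, (2 * (⟪ι (q (g n) a (v n)), ι (T (g n) (D a χ))⟫_ℂ).re -
          ‖ι (T (g n) (D a χ))‖ ^ 2)) U
          (𝓝 (∑ a, (2 * (⟪k a, e (D a χ)⟫_ℂ).re - ‖e (D a χ)‖ ^ 2))) := by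
        refine tendsto_finsetSum _ fun a _ => ?_
        exact (((Complex.continuous_re.tendsto _).comp (hk a (D a χ))).const_mul 2).sub
          (((h.norm_T (D a χ)).comp hgU).pow 2)
      have h2 : ∑ a, (2 * (⟪k a, e (D a χ)⟫_ℂ).re - ‖e (D a χ)‖ ^ 2) ≤ κ' / c₀ := by
        refine le_of_tendsto h1 (Eventually.of_forall fun n => ?_)
        refine le_trans (Finset.sum_le_sum fun a _ => ?_) (hqs n)
        have h3 : 0 ≤ ‖ι (q (g n) a (v n)) - ι (T (g n) (D a χ))‖ ^ 2 := sq_nonneg _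
        rw [@norm_sub_sq ℂ] at h3
        simp only [RCLike.re_to_complex] at h3
        linarith
      have h3 : ∀ a, ‖e (D a χ)‖ ^ 2 - 2 * ε * ‖e (D a χ)‖ ≤
          2 * (⟪k a, e (D a χ)⟫_ℂ).re - ‖e (D a χ)‖ ^ 2 := by
        intro a
        have h4 : ⟪k a, e (D a χ)⟫_ℂ = ⟪k a - e (D a χ), e (D a χ)⟫_ℂ +
            ((‖e (D a χ)‖ ^ 2 : ℝ) : ℂ) := by
          have h5 : ((‖e (D a χ)‖ ^ 2 : ℝ) : ℂ) = ⟪e (D a χ), e (D a χ)⟫_ℂ := by
            rw [inner_self_eq_norm_sq_to_K]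
            push_cast
            rfl
          rw [h5, inner_sub_left, sub_add_cancel]
        have h6 : -(ε * ‖e (D a χ)‖) ≤ (⟪k a - e (D a χ), e (D a χ)⟫_ℂ).re := by
          have h7 : ‖⟪k a - e (D a χ), e (D a χ)⟫_ℂ‖ ≤ ε * ‖e (D a χ)‖ := by
            refine (norm_inner_le_norm _ _).trans ?_
            rw [norm_sub_rev]
            exact mul_le_mul_of_nonneg_right (hχ2 a) (norm_nonneg _)
          have h8 := Complex.abs_re_le_norm ⟪k a - e (D a χ), e (D a χ)⟫_ℂ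
          have h9 := neg_abs_le (⟪k a - e (D a χ), e (D a χ)⟫_ℂ).re
          linarith
        rw [h4, Complex.add_re, Complex.ofReal_re]
        linarith
      have h4 := (Finset.sum_le_sum fun a (_ : a ∈ Finset.univ) => h3 a).trans h2
      rw [Finset.sum_sub_distrib] at h4
      linarith
    have h6 : ∀ a, ‖e (D a χ)‖ ≤ ‖k a‖ + 1 := fun a => by
      have := norm_add_le (e (D a χ) - k a) (k a)
      rw [sub_add_cancel] at this
      have := hχ2 a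
      linarith
    have h7 : ∑ a, 2 * ε * ‖e (D a χ)‖ ≤ δ * S₁ := by
      rw [hS₁, Finset.mul_sum]
      refine Finset.sum_le_sum fun a _ => ?_
      have h8 := h6 a
      have h9 := norm_nonneg (e (D a χ))
      nlinarith [mul_le_mul hεδ h8 h9 hδ.le]
    have h8 := hhardy χ
    have h9 : c₀ * ∑ a, ‖e (D a χ)‖ ^ 2 ≤ κ' + c₀ * (δ * S₁) := by
      have h10 : c₀ * (κ' / c₀) = κ' := by field_simp
      nlinarith [mul_le_mul_of_nonneg_left (hbes.trans (add_le_add_right h7 (κ' / c₀))) hc₀.le]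
    have hκ0 : 0 < κ := hκ'0.trans hκ
    have h10 : (1 - δ) ^ 2 ≤ ‖e (W χ)‖ ^ 2 := pow_le_pow_left₀ (by linarith) hWχ 2
    exact (mul_le_mul_of_nonneg_left h10 hκ0.le).trans (h8.trans h9)
  -- conclusion
  have hκ0 : 0 < κ := hκ'0.trans hκ
  set P : ℝ := 2 * κ + c₀ * S₁ + 1 with hP
  have hP0 : 0 < P := by positivity
  set δ : ℝ := min (1 / 2) ((κ - κ') / (2 * P)) with hδ
  have hd : 0 < κ - κ' := sub_pos.2 hκ
  have hδ0 : 0 < δ := lt_min (by norm_num) (by positivity)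
  have hδ1 : δ < 1 := (min_le_left _ _).trans_lt (by norm_num)
  have h1 := main δ hδ0 hδ1
  have h2 : δ * P < κ - κ' := by
    have h3 : δ ≤ (κ - κ') / (2 * P) := min_le_right _ _
    calc δ * P ≤ (κ - κ') / (2 * P) * P := mul_le_mul_of_nonneg_right h3 hP0.le
      _ = (κ - κ') / 2 := by field_simp
      _ < κ - κ' := by linarith
  have h3 : κ * (1 - 2 * δ) ≤ κ * (1 - δ) ^ 2 := by
    refine mul_le_mul_of_nonneg_left ?_ hκ0.le
    nlinarith [sq_nonneg δ]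
  rw [hP] at h2
  nlinarith

end Sys

end Crest.Agent.R330.AnnAbs245

end
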