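import Crest.Agent.R330.SlB_314

-- ▼ part R330/Blk_317
section

/-!
# Row 330 (helper317): block decompositions `N = Σ k_p` (S6-ADAPT, T4)

A block decomposition `D : Dec N k` is a family of isometries `V p : ℂ^{k p} → ℂ^N` with
orthogonal ranges and `Σ_p V_p V_p* = 1` (`Dec.ofEquiv` : from `e : (Σ p, Fin (k p)) ≃ Fin N`).

* `embM p X = V_p X V_p*`, `proj p = V_p V_p*` : block embedding of matrices.
* `vec b X` : colour vector of a matrix (`A ↦ Re Tr (T_A X)`), `cm_vec`.
* `iota p : SU(k p) →* SU(N)`.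
* `emb p : ℝ^{k_p^2-1} →ₗᵢ ℝ^{N^2-1}` (colour), `embCfg p : Cfg (k p) →ₗᵢ Cfg N`.
* brackets, adjoint action, orthogonality of the pieces.
-/

set_option autoImplicit false
set_option linter.unusedSectionVars false

noncomputable section

open Matrix
open Crest.MathPhysics.MatrixQM
open Crest.Agent.R330.SlA314 Crest.Agent.R330.SlB314
open scoped InnerProductSpace

namespace Crest.Agent.R330.Blk317

/-! ### 1. Colour vectors of matrices -/

section vec

variable {N : ℕ} (b : ColorBasis N)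

/-- The colour vector of a matrix. -/
def vec (X : Matrix (Fin N) (Fin N) ℂ) : EuclideanSpace ℝ (Fin (N ^ 2 - 1)) :=
  WithLp.toLp 2 fun A => (b.T A * X).trace.re

theorem vec_apply (X : Matrix (Fin N) (Fin N) ℂ) (A : Fin (N ^ 2 - 1)) :
    vec b X A = (b.T A * X).trace.re := rfl

theorem cm_vec {X : Matrix (Fin N) (Fin N) ℂ} (hX : X.IsHermitian) (h0 : X.trace = 0) :
    cm b (vec b X) = X := exists_cm b X hX h0






theorem vec_cm (u : EuclideanSpace ℝ (Fin (N ^ 2 - 1))) : vec b (cm b u) = u := by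
  ext A
  rw [vec_apply, T_mul_cm_trace]
  simp

theorem inner_eq_trace (u v : EuclideanSpace ℝ (Fin (N ^ 2 - 1))) :
    ((⟪u, v⟫_ℝ : ℝ) : ℂ) = (cm b u * cm b v).trace := by
  rw [trace_cm_mul, PiLp.inner_apply]
  push_cast
  refine Finset.sum_congr rfl fun A _ => ?_
  simp [mul_comm]


theorem cm_eq_iff {u v : EuclideanSpace ℝ (Fin (N ^ 2 - 1))} : cm b u = cm b v ↔ u = v := by
  refine ⟨fun h => ?_, fun h => by rw [h]⟩
  rw [← vec_cm b u, h, vec_cm]

theorem cm_adjVec (g : specialUnitaryGroup (Fin N) ℂ) (u : Fin (N ^ 2 - 1) → ℝ) :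
    cm b (fun A => ∑ B, b.adjMat g A B * u B) =
      (g : Matrix (Fin N) (Fin N) ℂ) * cm b u * star (g : Matrix (Fin N) (Fin N) ℂ) :=
  cm_adj b g u

end vec

/-! ### 2. Block decompositions -/

/-- A block decomposition of `ℂ^N` with blocks of size `k p`. -/
structure Dec (N : ℕ) {ι : Type*} [Fintype ι] (k : ι → ℕ) where
  /-- the isometries -/
  V : ∀ p, Matrix (Fin N) (Fin (k p)) ℂ
  iso : ∀ p, (V p)ᴴ * V p = 1
  ortho : ∀ p q, p ≠ q → (V p)ᴴ * V q = 0
  compl : ∑ p, V p * (V p)ᴴ = 1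

namespace Dec

variable {N : ℕ} {ι : Type*} [Fintype ι] {k : ι → ℕ}

/-- The block decomposition of an index bijection. -/
def ofEquiv (e : (Σ p, Fin (k p)) ≃ Fin N) : Dec N k where
  V p := Matrix.of fun a i => if a = e ⟨p, i⟩ then 1 else 0
  iso p := by
    ext i j
    rw [Matrix.mul_apply]
    simp only [Matrix.conjTranspose_apply, Matrix.of_apply, apply_ite star, star_one, star_zero,
      mul_ite, mul_one, mul_zero, Finset.sum_ite_eq', Finset.mem_univ, if_true]
    rw [Matrix.one_apply]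
    refine if_congr ?_ rfl rfl
    rw [EmbeddingLike.apply_eq_iff_eq, Sigma.mk.injEq]
    simp [eq_comm]
  ortho p q h := by
    ext i j
    rw [Matrix.mul_apply]
    simp only [Matrix.conjTranspose_apply, Matrix.of_apply, apply_ite star, star_one, star_zero,
      mul_ite, mul_one, mul_zero, Finset.sum_ite_eq', Finset.mem_univ, if_true]
    rw [Matrix.zero_apply, if_neg]
    intro h1
    have h2 := e.injective h1
    rw [Sigma.mk.injEq] at h2
    exact h h2.1.symm
  compl := by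
    ext a c
    rw [Matrix.sum_apply]
    simp only [Matrix.mul_apply, Matrix.conjTranspose_apply, Matrix.of_apply]
    have h1 : ∀ f : (Σ p, Fin (k p)) → ℂ, ∑ x, ∑ y, f ⟨x, y⟩ = ∑ s, f s := fun f =>
      (Fintype.sum_sigma f).symm
    rw [h1 fun s => (if a = e s then 1 else 0) * star (if c = e s then 1 else 0),
      e.sum_comp fun d => (if a = d then (1 : ℂ) else 0) * star (if c = d then (1 : ℂ) else 0)]
    simp only [ite_mul, one_mul, zero_mul, Finset.sum_ite_eq, Finset.mem_univ, if_true,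
      apply_ite star, star_one, star_zero, Matrix.one_apply, eq_comm]

variable (D : Dec N k)

/-- Block embedding of matrices. -/
def embM (p : ι) (X : Matrix (Fin (k p)) (Fin (k p)) ℂ) : Matrix (Fin N) (Fin N) ℂ :=
  D.V p * X * (D.V p)ᴴ

/-- The projection on the block. -/
def proj (p : ι) : Matrix (Fin N) (Fin N) ℂ := D.V p * (D.V p)ᴴ

/-- The compression to the block. -/
def cut (p : ι) (X : Matrix (Fin N) (Fin N) ℂ) : Matrix (Fin (k p)) (Fin (k p)) ℂ :=
  (D.V p)ᴴ * X * D.V p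

theorem embM_one (p : ι) : D.embM p 1 = D.proj p := by
  unfold embM proj
  rw [Matrix.mul_one]

theorem embM_add (p : ι) (X Y : Matrix (Fin (k p)) (Fin (k p)) ℂ) :
    D.embM p (X + Y) = D.embM p X + D.embM p Y := by
  unfold embM
  rw [Matrix.mul_add, Matrix.add_mul]

theorem embM_sub (p : ι) (X Y : Matrix (Fin (k p)) (Fin (k p)) ℂ) :
    D.embM p (X - Y) = D.embM p X - D.embM p Y := by
  unfold embM
  rw [Matrix.mul_sub, Matrix.sub_mul]

theorem embM_smul (p : ι) (c : ℂ) (X : Matrix (Fin (k p)) (Fin (k p)) ℂ) :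
    D.embM p (c • X) = c • D.embM p X := by
  unfold embM
  rw [Matrix.mul_smul, Matrix.smul_mul]


theorem embM_mul (p : ι) (X Y : Matrix (Fin (k p)) (Fin (k p)) ℂ) :
    D.embM p X * D.embM p Y = D.embM p (X * Y) := by
  unfold embM
  calc D.V p * X * (D.V p)ᴴ * (D.V p * Y * (D.V p)ᴴ)
      = D.V p * X * ((D.V p)ᴴ * D.V p) * Y * (D.V p)ᴴ := by simp only [Matrix.mul_assoc]
    _ = D.V p * (X * Y) * (D.V p)ᴴ := by
      rw [D.iso]
      simp only [Matrix.mul_assoc, Matrix.mul_one]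

theorem embM_mul_ne {p q : ι} (h : p ≠ q) (X : Matrix (Fin (k p)) (Fin (k p)) ℂ)
    (Y : Matrix (Fin (k q)) (Fin (k q)) ℂ) : D.embM p X * D.embM q Y = 0 := by
  unfold embM
  calc D.V p * X * (D.V p)ᴴ * (D.V q * Y * (D.V q)ᴴ)
      = D.V p * X * ((D.V p)ᴴ * D.V q) * Y * (D.V q)ᴴ := by simp only [Matrix.mul_assoc]
    _ = 0 := by rw [D.ortho p q h]; simp

theorem embM_conjTranspose (p : ι) (X : Matrix (Fin (k p)) (Fin (k p)) ℂ) :
    (D.embM p X)ᴴ = D.embM p Xᴴ := by
  unfold embM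
  simp only [Matrix.conjTranspose_mul, Matrix.conjTranspose_conjTranspose, Matrix.mul_assoc]

theorem embM_herm (p : ι) {X : Matrix (Fin (k p)) (Fin (k p)) ℂ} (hX : X.IsHermitian) :
    (D.embM p X).IsHermitian := by
  unfold Matrix.IsHermitian
  rw [embM_conjTranspose, hX.eq]

theorem trace_embM (p : ι) (X : Matrix (Fin (k p)) (Fin (k p)) ℂ) :
    (D.embM p X).trace = X.trace := by
  unfold embM
  rw [Matrix.trace_mul_comm, ← Matrix.mul_assoc, D.iso, Matrix.one_mul]

theorem embM_mul_proj (p : ι) (X : Matrix (Fin (k p)) (Fin (k p)) ℂ) :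
    D.embM p X * D.proj p = D.embM p X := by
  rw [← embM_one, embM_mul, Matrix.mul_one]

theorem proj_mul_embM (p : ι) (X : Matrix (Fin (k p)) (Fin (k p)) ℂ) :
    D.proj p * D.embM p X = D.embM p X := by
  rw [← embM_one, embM_mul, Matrix.one_mul]

theorem embM_mul_proj_ne {p q : ι} (h : p ≠ q) (X : Matrix (Fin (k p)) (Fin (k p)) ℂ) :
    D.embM p X * D.proj q = 0 := by
  rw [← embM_one, D.embM_mul_ne h]

theorem proj_mul_embM_ne {p q : ι} (h : p ≠ q) (X : Matrix (Fin (k q)) (Fin (k q)) ℂ) :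
    D.proj p * D.embM q X = 0 := by
  rw [← embM_one, D.embM_mul_ne h]


theorem proj_mul_self (p : ι) : D.proj p * D.proj p = D.proj p := by
  rw [← embM_one, embM_mul, Matrix.one_mul]


theorem proj_herm (p : ι) : (D.proj p).IsHermitian := by
  rw [← embM_one]
  exact D.embM_herm p Matrix.isHermitian_one

theorem trace_proj (p : ι) : (D.proj p).trace = (k p : ℂ) := by
  rw [← embM_one, trace_embM, Matrix.trace_one, Fintype.card_fin]











/-! ### 3. The groups -/


/-- The matrix `V_p h V_p* + (1 - V_p V_p*)`. -/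
def iotaM (p : ι) (h : Matrix (Fin (k p)) (Fin (k p)) ℂ) : Matrix (Fin N) (Fin N) ℂ :=
  D.embM p h + (1 - D.proj p)

theorem iotaM_mul (p : ι) (h h' : Matrix (Fin (k p)) (Fin (k p)) ℂ) :
    D.iotaM p h * D.iotaM p h' = D.iotaM p (h * h') := by
  unfold iotaM
  rw [Matrix.add_mul, Matrix.mul_add, Matrix.mul_add, embM_mul, Matrix.mul_sub, Matrix.mul_one,
    embM_mul_proj, sub_self, add_zero, Matrix.sub_mul, Matrix.one_mul, proj_mul_embM, sub_self,
    zero_add, Matrix.sub_mul, Matrix.one_mul, Matrix.mul_sub, Matrix.mul_one, proj_mul_self,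
    sub_self, sub_zero]

theorem iotaM_one (p : ι) : D.iotaM p 1 = 1 := by
  unfold iotaM
  rw [embM_one]
  abel

theorem iotaM_star (p : ι) (h : Matrix (Fin (k p)) (Fin (k p)) ℂ) :
    (D.iotaM p h)ᴴ = D.iotaM p hᴴ := by
  unfold iotaM
  rw [Matrix.conjTranspose_add, embM_conjTranspose, Matrix.conjTranspose_sub,
    Matrix.conjTranspose_one, (D.proj_herm p).eq]

theorem det_iotaM (p : ι) (h : Matrix (Fin (k p)) (Fin (k p)) ℂ) :
    (D.iotaM p h).det = h.det := by
  have h1 : D.iotaM p h = 1 + D.V p * ((h - 1) * (D.V p)ᴴ) := by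
    unfold iotaM embM proj
    rw [Matrix.sub_mul, Matrix.one_mul, Matrix.mul_sub, Matrix.mul_assoc]
    abel
  rw [h1, Matrix.det_one_add_mul_comm, Matrix.mul_assoc, D.iso, Matrix.mul_one]
  congr 1
  abel

/-- The embedding `SU(k_p) → SU(N)`. -/
def iota (p : ι) : specialUnitaryGroup (Fin (k p)) ℂ →* specialUnitaryGroup (Fin N) ℂ where
  toFun h := ⟨D.iotaM p h, by
    rw [Matrix.mem_specialUnitaryGroup_iff, Matrix.mem_unitaryGroup_iff]
    refine ⟨?_, ?_⟩
    · rw [Matrix.star_eq_conjTranspose, iotaM_star, iotaM_mul, ← Matrix.star_eq_conjTranspose,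
        mul_star_self', iotaM_one]
    · rw [det_iotaM]
      exact (Matrix.mem_specialUnitaryGroup_iff.1 h.2).2⟩
  map_one' := Subtype.ext (D.iotaM_one p)
  map_mul' h h' := Subtype.ext (D.iotaM_mul p h h').symm

theorem iota_coe (p : ι) (h : specialUnitaryGroup (Fin (k p)) ℂ) :
    ((D.iota p h : specialUnitaryGroup (Fin N) ℂ) : Matrix (Fin N) (Fin N) ℂ) =
      D.iotaM p (h : Matrix (Fin (k p)) (Fin (k p)) ℂ) := rfl


/-- Conjugation by `iota p h` of the same block. -/
theorem iota_conj_embM (p : ι) (h : specialUnitaryGroup (Fin (k p)) ℂ)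
    (X : Matrix (Fin (k p)) (Fin (k p)) ℂ) :
    (D.iota p h : Matrix (Fin N) (Fin N) ℂ) * D.embM p X *
        star (D.iota p h : Matrix (Fin N) (Fin N) ℂ) =
      D.embM p ((h : Matrix (Fin (k p)) (Fin (k p)) ℂ) * X *
        star (h : Matrix (Fin (k p)) (Fin (k p)) ℂ)) := by
  rw [iota_coe, Matrix.star_eq_conjTranspose, iotaM_star, Matrix.star_eq_conjTranspose]
  unfold iotaM
  rw [Matrix.add_mul, embM_mul, Matrix.sub_mul, Matrix.one_mul, proj_mul_embM, sub_self,
    add_zero, Matrix.mul_add, embM_mul, Matrix.mul_sub, Matrix.mul_one, embM_mul_proj, sub_self,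
    add_zero]

/-- Conjugation by `iota p h` of another block. -/
theorem iota_conj_embM_ne {p q : ι} (hpq : p ≠ q) (h : specialUnitaryGroup (Fin (k p)) ℂ)
    (X : Matrix (Fin (k q)) (Fin (k q)) ℂ) :
    (D.iota p h : Matrix (Fin N) (Fin N) ℂ) * D.embM q X *
        star (D.iota p h : Matrix (Fin N) (Fin N) ℂ) = D.embM q X := by
  rw [iota_coe, Matrix.star_eq_conjTranspose, iotaM_star]
  unfold iotaM
  rw [Matrix.add_mul, D.embM_mul_ne hpq, zero_add, Matrix.sub_mul, Matrix.one_mul,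
    D.proj_mul_embM_ne hpq, sub_zero, Matrix.mul_add, D.embM_mul_ne hpq.symm, zero_add,
    Matrix.mul_sub, Matrix.mul_one, D.embM_mul_proj_ne hpq.symm, sub_zero]

/-- Conjugation by `iota p h` of the centre. -/
theorem iota_conj_proj (p q : ι) (h : specialUnitaryGroup (Fin (k p)) ℂ) :
    (D.iota p h : Matrix (Fin N) (Fin N) ℂ) * D.proj q *
        star (D.iota p h : Matrix (Fin N) (Fin N) ℂ) = D.proj q := by
  by_cases hpq : p = q
  · subst hpq
    rw [← embM_one, iota_conj_embM, Matrix.mul_one, mul_star_self']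
  · rw [← embM_one, D.iota_conj_embM_ne hpq]


end Dec

end Crest.Agent.R330.Blk317

end
end

-- ▼ part R330/Blk2_317

/-!
# Row 330 (helper317): block decompositions, part 2: colour vectors and configurations

* `D.emb b bp p : ℝ^{k_p^2-1} →ₗᵢ ℝ^{N^2-1}` with `cm b (emb u) = embM p (cm (bp p) u)`.
* brackets: `br_emb`, `br_emb_ne`; adjoint action: `adj_emb`, `adj_emb_ne`.
* `D.embCfg b bp p : Cfg (k p) →ₗᵢ Cfg N`, `mat_embCfg`, `act_embCfg`, `act_embCfg_ne`.
* `D.cenCfg b R` : the commuting configuration with cluster positions `R`, `mat_cenCfg`,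
  `act_cenCfg`.
-/

set_option autoImplicit false
set_option linter.unusedSectionVars false

noncomputable section

open Matrix
open Crest.MathPhysics.MatrixQM
open Crest.Agent.R330.SlA314 Crest.Agent.R330.SlB314
open scoped InnerProductSpace

namespace Crest.Agent.R330.Blk317

namespace Dec

variable {N : ℕ} {ι : Type*} [Fintype ι] {k : ι → ℕ} (D : Dec N k) (b : ColorBasis N)
  (bp : ∀ p, ColorBasis (k p))

/-! ### 1. Colour vectors -/

/-- The colour vector in `su(N)` of a colour vector of the block. -/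
def embF (p : ι) (u : EuclideanSpace ℝ (Fin (k p ^ 2 - 1))) :
    EuclideanSpace ℝ (Fin (N ^ 2 - 1)) := vec b (D.embM p (cm (bp p) u))

theorem cm_embF (p : ι) (u : EuclideanSpace ℝ (Fin (k p ^ 2 - 1))) :
    cm b (D.embF b bp p u) = D.embM p (cm (bp p) u) :=
  cm_vec b (D.embM_herm p (cm_herm _ _)) (by rw [D.trace_embM, cm_trace])

theorem cmE_add {n : ℕ} (b : ColorBasis n) (u v : EuclideanSpace ℝ (Fin (n ^ 2 - 1))) :
    cm b (u + v : EuclideanSpace ℝ (Fin (n ^ 2 - 1))) = cm b u + cm b v := cm_add b _ _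


theorem cmE_smul {n : ℕ} (b : ColorBasis n) (t : ℝ) (v : EuclideanSpace ℝ (Fin (n ^ 2 - 1))) :
    cm b (t • v : EuclideanSpace ℝ (Fin (n ^ 2 - 1))) = (t : ℂ) • cm b v := cm_smul b _ _

theorem cmE_zero {n : ℕ} (b : ColorBasis n) :
    cm b (0 : EuclideanSpace ℝ (Fin (n ^ 2 - 1))) = 0 := by
  have := cmE_smul b 0 0
  simpa using this

theorem inner_embF (p : ι) (u v : EuclideanSpace ℝ (Fin (k p ^ 2 - 1))) :
    ⟪D.embF b bp p u, D.embF b bp p v⟫_ℝ = ⟪u, v⟫_ℝ := by
  have h : ((⟪D.embF b bp p u, D.embF b bp p v⟫_ℝ : ℝ) : ℂ) = ((⟪u, v⟫_ℝ : ℝ) : ℂ) := by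
    rw [inner_eq_trace b, inner_eq_trace (bp p), cm_embF, cm_embF, embM_mul, trace_embM]
  exact_mod_cast h

theorem inner_embF_ne {p q : ι} (hpq : p ≠ q) (u : EuclideanSpace ℝ (Fin (k p ^ 2 - 1)))
    (v : EuclideanSpace ℝ (Fin (k q ^ 2 - 1))) :
    ⟪D.embF b bp p u, D.embF b bp q v⟫_ℝ = 0 := by
  have h : ((⟪D.embF b bp p u, D.embF b bp q v⟫_ℝ : ℝ) : ℂ) = ((0 : ℝ) : ℂ) := by
    rw [inner_eq_trace b, cm_embF, cm_embF, D.embM_mul_ne hpq, Matrix.trace_zero,
      Complex.ofReal_zero]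
  exact_mod_cast h

/-- **The colour embedding of the block.** -/
def emb (p : ι) : EuclideanSpace ℝ (Fin (k p ^ 2 - 1)) →ₗᵢ[ℝ]
    EuclideanSpace ℝ (Fin (N ^ 2 - 1)) where
  toFun := D.embF b bp p
  map_add' u v := by
    apply (cm_eq_iff b).1
    rw [cmE_add, cm_embF, cm_embF, cm_embF, cmE_add, embM_add]
  map_smul' t v := by
    apply (cm_eq_iff b).1
    rw [RingHom.id_apply, cmE_smul, cm_embF, cm_embF, cmE_smul, embM_smul]
  norm_map' u := by
    have h := D.inner_embF b bp p u u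
    rw [real_inner_self_eq_norm_sq, real_inner_self_eq_norm_sq] at h
    exact (sq_eq_sq₀ (norm_nonneg _) (norm_nonneg _)).1 h

theorem cm_emb (p : ι) (u : EuclideanSpace ℝ (Fin (k p ^ 2 - 1))) :
    cm b (D.emb b bp p u) = D.embM p (cm (bp p) u) := D.cm_embF b bp p u


theorem inner_emb_ne {p q : ι} (hpq : p ≠ q) (u : EuclideanSpace ℝ (Fin (k p ^ 2 - 1)))
    (v : EuclideanSpace ℝ (Fin (k q ^ 2 - 1))) :
    ⟪D.emb b bp p u, D.emb b bp q v⟫_ℝ = 0 := D.inner_embF_ne b bp hpq u v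







/-! ### 2. Brackets -/



/-! ### 3. The adjoint action -/





/-! ### 4. Configurations -/

/-- The configuration of a tuple of matrices. -/
def cfgOf (X : Fin 9 → Matrix (Fin N) (Fin N) ℂ) : Cfg N :=
  WithLp.toLp 2 fun iA => (b.T iA.2 * X iA.1).trace.re

theorem mat_cfgOf {X : Fin 9 → Matrix (Fin N) (Fin N) ℂ} (hX : ∀ i, (X i).IsHermitian)
    (h0 : ∀ i, (X i).trace = 0) (i : Fin 9) : mat b (cfgOf b X) i = X i :=
  exists_cm b (X i) (hX i) (h0 i)


/-- The embedding of the configurations of the block, as a function. -/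
def embCfgF (p : ι) (y : Cfg (k p)) : Cfg N := cfgOf b fun i => D.embM p (mat (bp p) y i)

theorem mat_embCfgF (p : ι) (y : Cfg (k p)) (i : Fin 9) :
    mat b (D.embCfgF b bp p y) i = D.embM p (mat (bp p) y i) :=
  mat_cfgOf b (X := fun i => D.embM p (mat (bp p) y i))
    (fun i => D.embM_herm p (mat_herm _ _ _)) (fun i => by rw [D.trace_embM, mat_trace]) i

/-- **The embedding of the configurations of the block.** -/
def embCfg (p : ι) : Cfg (k p) →ₗᵢ[ℝ] Cfg N where
  toFun := D.embCfgF b bp p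
  map_add' x y := by
    apply mat_inj b
    intro i
    rw [mat_add, mat_embCfgF, mat_embCfgF, mat_embCfgF, mat_add, embM_add]
  map_smul' t y := by
    apply mat_inj b
    intro i
    rw [RingHom.id_apply, mat_smul, mat_embCfgF, mat_embCfgF, mat_smul, embM_smul]
  norm_map' y := by
    have h : ((‖D.embCfgF b bp p y‖ ^ 2 : ℝ) : ℂ) = ((‖y‖ ^ 2 : ℝ) : ℂ) := by
      rw [norm_sq_eq b, norm_sq_eq (bp p)]
      refine Finset.sum_congr rfl fun i _ => ?_
      rw [mat_embCfgF, embM_mul, trace_embM]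
    have h' : ‖D.embCfgF b bp p y‖ ^ 2 = ‖y‖ ^ 2 := by exact_mod_cast h
    exact (sq_eq_sq₀ (norm_nonneg _) (norm_nonneg _)).1 h'









/-! ### 5. The centre -/

/-- The matrix `Σ_p r_p V_p V_p*`. -/
def cenM (r : ι → ℝ) : Matrix (Fin N) (Fin N) ℂ := ∑ p, (r p : ℂ) • D.proj p

theorem cenM_herm (r : ι → ℝ) : (D.cenM r).IsHermitian := by
  unfold Matrix.IsHermitian cenM
  rw [Matrix.conjTranspose_sum]
  refine Finset.sum_congr rfl fun p _ => ?_
  rw [Matrix.conjTranspose_smul, (D.proj_herm p).eq, Complex.star_def, Complex.conj_ofReal]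

theorem trace_cenM (r : ι → ℝ) : (D.cenM r).trace = ((∑ p, k p * r p : ℝ) : ℂ) := by
  unfold cenM
  rw [Matrix.trace_sum]
  push_cast
  refine Finset.sum_congr rfl fun p _ => ?_
  rw [Matrix.trace_smul, D.trace_proj, smul_eq_mul, mul_comm]

theorem cenM_mul_embM (r : ι → ℝ) (p : ι) (X : Matrix (Fin (k p)) (Fin (k p)) ℂ) :
    D.cenM r * D.embM p X = (r p : ℂ) • D.embM p X := by
  classical
  unfold cenM
  rw [Finset.sum_mul, Finset.sum_eq_single p]
  · rw [Matrix.smul_mul, proj_mul_embM]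
  · intro q _ hq
    rw [Matrix.smul_mul, D.proj_mul_embM_ne hq, smul_zero]
  · intro h
    exact absurd (Finset.mem_univ p) h






theorem conj_cenM (r : ι → ℝ) (p : ι) (h : specialUnitaryGroup (Fin (k p)) ℂ) :
    (D.iota p h : Matrix (Fin N) (Fin N) ℂ) * D.cenM r *
        star (D.iota p h : Matrix (Fin N) (Fin N) ℂ) = D.cenM r := by
  unfold cenM
  rw [Finset.mul_sum, Finset.sum_mul]
  refine Finset.sum_congr rfl fun q _ => ?_
  rw [Matrix.mul_smul, Matrix.smul_mul, iota_conj_proj]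

/-- The commuting configuration with cluster positions `R i p` (`Σ_p k_p R i p = 0`). -/
def cenCfg (R : Fin 9 → ι → ℝ) : Cfg N := cfgOf b fun i => D.cenM (R i)

theorem mat_cenCfg {R : Fin 9 → ι → ℝ} (hR : ∀ i, ∑ p, (k p : ℝ) * R i p = 0) (i : Fin 9) :
    mat b (D.cenCfg b R) i = D.cenM (R i) :=
  mat_cfgOf b (fun i => D.cenM_herm _) (fun i => by rw [D.trace_cenM, hR i, Complex.ofReal_zero]) i

theorem act_cenCfg {R : Fin 9 → ι → ℝ} (hR : ∀ i, ∑ p, (k p : ℝ) * R i p = 0) (p : ι)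
    (h : specialUnitaryGroup (Fin (k p)) ℂ) :
    b.act (D.iota p h) (D.cenCfg b R) = D.cenCfg b R := by
  apply mat_inj b
  intro i
  rw [mat_act, D.mat_cenCfg b hR, conj_cenM]




end Dec

end Crest.Agent.R330.Blk317

end
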