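import Mathlib

-- ▼ part R330/Diag_973
section

/-!
# Row 330 (helper973): unitary matrices are diagonalisable

* `exists_eigenbasis` : a linear isometry of a finite-dimensional complex inner product space has
  an orthonormal eigenbasis.
* `exists_diag` : `g = u · diag(d) · u*` with `u ∈ U(N)` for `g ∈ U(N)`.
-/

set_option autoImplicit false

noncomputable section

open scoped InnerProductSpace Matrix ComplexConjugate

namespace Crest.Agent.R330.Diag973

open Module Module.End

section op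

variable {E : Type*} [NormedAddCommGroup E] [InnerProductSpace ℂ E] {T : E →ₗ[ℂ] E}


theorem conj_mul_of_eig (hT : ∀ x y, ⟪T x, T y⟫_ℂ = ⟪x, y⟫_ℂ) {v : E} {μ : ℂ} (hv : T v = μ • v)
    (h0 : v ≠ 0) : conj μ * μ = 1 := by
  have h1 := hT v v
  rw [hv, inner_smul_left, inner_smul_right, ← mul_assoc] at h1
  have h2 : ⟪v, v⟫_ℂ ≠ 0 := inner_self_ne_zero.2 h0
  exact mul_right_cancel₀ h2 (h1.trans (one_mul _).symm)

theorem orth_eig (hT : ∀ x y, ⟪T x, T y⟫_ℂ = ⟪x, y⟫_ℂ) :
    OrthogonalFamily ℂ (fun μ => eigenspace T μ) fun μ => (eigenspace T μ).subtypeₗᵢ := by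
  rintro μ ν hμν ⟨v, hv⟩ ⟨w, hw⟩
  by_cases hv' : v = 0
  · simp [hv']
  rw [mem_eigenspace_iff] at hv hw
  have h1 := conj_mul_of_eig hT hv hv'
  have h2 := hT v w
  rw [hv, hw, inner_smul_left, inner_smul_right, ← mul_assoc] at h2
  show ⟪v, w⟫_ℂ = 0
  by_contra h3
  have h4 : conj μ * ν = 1 := mul_right_cancel₀ h3 (h2.trans (one_mul _).symm)
  have h5 : conj μ ≠ 0 := fun h => by rw [h, zero_mul] at h1; exact zero_ne_one h1
  exact hμν (mul_left_cancel₀ h5 (h1.trans h4.symm))

theorem orth_eig' (hT : ∀ x y, ⟪T x, T y⟫_ℂ = ⟪x, y⟫_ℂ) :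
    OrthogonalFamily ℂ (fun μ : Eigenvalues T => eigenspace T μ) fun μ =>
      (eigenspace T μ).subtypeₗᵢ :=
  (orth_eig hT).comp Subtype.coe_injective

theorem inv_compl (hT : ∀ x y, ⟪T x, T y⟫_ℂ = ⟪x, y⟫_ℂ) (v : E)
    (hv : v ∈ (⨆ μ, eigenspace T μ)ᗮ) : T v ∈ (⨆ μ, eigenspace T μ)ᗮ := by
  rw [← Submodule.iInf_orthogonal, Submodule.mem_iInf] at hv ⊢
  intro μ w hw
  by_cases h0 : w = 0
  · rw [h0, inner_zero_left]
  have hw' := mem_eigenspace_iff.1 hw
  have h1 := conj_mul_of_eig hT hw' h0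
  have h2 : μ ≠ 0 := fun h => by rw [h, mul_zero] at h1; exact zero_ne_one h1
  have h3 : w = T (μ⁻¹ • w) := by rw [map_smul, hw', smul_smul, inv_mul_cancel₀ h2, one_smul]
  rw [h3, hT]
  exact hv μ _ ((eigenspace T μ).smul_mem _ hw)

variable [FiniteDimensional ℂ E]

theorem compl_eq_bot (hT : ∀ x y, ⟪T x, T y⟫_ℂ = ⟪x, y⟫_ℂ) : (⨆ μ, eigenspace T μ)ᗮ = ⊥ := by
  by_contra h
  set W : Submodule ℂ E := (⨆ μ, eigenspace T μ)ᗮ with hW
  have : Nontrivial W := Submodule.nontrivial_iff_ne_bot.2 h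
  obtain ⟨μ, hμ⟩ := Module.End.exists_eigenvalue (T.restrict (inv_compl hT))
  obtain ⟨v, hv⟩ := hμ.exists_hasEigenvector
  have h1 : T v = μ • (v : E) := by
    have h2 := congrArg (Subtype.val) hv.apply_eq_smul
    simpa using h2
  have h3 : (v : E) ∈ ⨆ μ, eigenspace T μ :=
    (le_iSup (fun μ => eigenspace T μ) μ) (mem_eigenspace_iff.2 h1)
  have h4 : ⟪(v : E), (v : E)⟫_ℂ = 0 := v.2 _ h3
  exact hv.2 (Subtype.ext (inner_self_eq_zero.1 h4))

/-- **A linear isometry of a finite-dimensional complex inner product space has an orthonormal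
eigenbasis.** -/
theorem exists_eigenbasis (hT : ∀ x y, ⟪T x, T y⟫_ℂ = ⟪x, y⟫_ℂ) {n : ℕ} (hn : finrank ℂ E = n) :
    ∃ (e : OrthonormalBasis (Fin n) ℂ E) (d : Fin n → ℂ), ∀ i, T (e i) = d i • e i := by
  have h1 : (⨆ μ : Eigenvalues T, eigenspace T μ)ᗮ = ⊥ := by
    show (⨆ μ : { μ // eigenspace T μ ≠ ⊥ }, eigenspace T μ)ᗮ = ⊥
    rw [iSup_ne_bot_subtype, compl_eq_bot hT]
  have h2 : DirectSum.IsInternal fun μ : Eigenvalues T => eigenspace T μ :=
    (orth_eig' hT).isInternal_iff.mpr h1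
  refine ⟨h2.subordinateOrthonormalBasis hn (orth_eig' hT), fun i =>
    (h2.subordinateOrthonormalBasisIndex hn i (orth_eig' hT)).val, fun i => ?_⟩
  exact mem_eigenspace_iff.1 (h2.subordinateOrthonormalBasis_subordinate hn i (orth_eig' hT))

end op

section mat

variable {n : ℕ}

/-- **Unitary matrices are diagonalisable by unitary matrices.** -/
theorem exists_diag (g : Matrix (Fin n) (Fin n) ℂ) (hg : star g * g = 1) :
    ∃ (u : Matrix (Fin n) (Fin n) ℂ) (d : Fin n → ℂ), u * star u = 1 ∧ star u * u = 1 ∧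
      g * u = u * Matrix.diagonal d ∧ ∀ i, conj (d i) * d i = 1 := by
  set T : EuclideanSpace ℂ (Fin n) →ₗ[ℂ] EuclideanSpace ℂ (Fin n) := Matrix.toEuclideanLin g
  have hT : ∀ x y, ⟪T x, T y⟫_ℂ = ⟪x, y⟫_ℂ := by
    intro x y
    have h1 : ⟪T x, T y⟫_ℂ = ⟪x, Matrix.toEuclideanLin (gᴴ) (T y)⟫_ℂ := by
      rw [Matrix.toEuclideanLin_conjTranspose_eq_adjoint, LinearMap.adjoint_inner_right]
    rw [h1]
    congr 1
    have h2 : gᴴ * g = 1 := hg
    show Matrix.toEuclideanLin gᴴ (Matrix.toEuclideanLin g y) = y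
    simp only [Matrix.toLpLin_apply, Matrix.mulVec_mulVec, h2, Matrix.one_mulVec]
  obtain ⟨e, d, hed⟩ := exists_eigenbasis hT (n := n) (by simp)
  set u : Matrix (Fin n) (Fin n) ℂ := fun i j => e j i with hu
  have h1 : star u * u = 1 := by
    ext j k
    rw [Matrix.mul_apply, Matrix.one_apply]
    have h2 : ⟪e j, e k⟫_ℂ = if j = k then 1 else 0 := orthonormal_iff_ite.1 e.orthonormal j k
    rw [← h2, PiLp.inner_apply]
    refine Finset.sum_congr rfl fun i _ => ?_
    rw [Matrix.star_apply, RCLike.inner_apply, mul_comm]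
    rfl
  refine ⟨u, d, mul_eq_one_comm.1 h1, h1, ?_, fun i => ?_⟩
  · ext i j
    rw [Matrix.mul_diagonal]
    have h2 := congrArg (fun v : EuclideanSpace ℂ (Fin n) => v i) (hed j)
    simp only [PiLp.smul_apply, smul_eq_mul] at h2
    rw [mul_comm, hu]
    refine Eq.trans ?_ h2
    rfl
  · refine conj_mul_of_eig hT (hed i) ?_
    exact e.toBasis.ne_zero i |> fun h => by simpa using h

end mat

end Crest.Agent.R330.Diag973

end
end

-- ▼ part R330/Char_973

/-!
# Row 330 (helper973): SU(N) has no non-trivial characters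

`char_trivial` : every monoid homomorphism from `SU(N)` to a commutative monoid is trivial.
-/

set_option autoImplicit false

noncomputable section

open scoped Matrix ComplexConjugate

namespace Crest.Agent.R330.Char973

open Matrix

/-- Shorthand for the special unitary group. -/
abbrev SU (N : ℕ) := Matrix.specialUnitaryGroup (Fin N) ℂ

theorem mem_SU {N : ℕ} {A : Matrix (Fin N) (Fin N) ℂ} (h : A * star A = 1) (h' : A.det = 1) :
    A ∈ Matrix.specialUnitaryGroup (Fin N) ℂ :=
  mem_specialUnitaryGroup_iff.2 ⟨mem_unitaryGroup_iff.2 h, h'⟩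

theorem circle_mul_conj (z : Circle) : (z : ℂ) * conj (z : ℂ) = 1 := by
  rw [Complex.mul_conj, Circle.normSq_coe, Complex.ofReal_one]

section torus

variable {m : ℕ}

/-- The diagonal entries of a torus element. -/
def dg (z : Fin m → Circle) : Fin (m + 1) → Circle := Fin.cons (∏ i, (z i)⁻¹) z

theorem prod_dg (z : Fin m → Circle) : ∏ i, dg z i = 1 := by
  rw [Fin.prod_univ_succ]
  simp only [dg, Fin.cons_zero, Fin.cons_succ]
  rw [Finset.prod_inv_distrib, inv_mul_cancel]

theorem diag_mul_star {n : ℕ} (d : Fin n → Circle) :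
    diagonal (fun i => (d i : ℂ)) * star (diagonal fun i => (d i : ℂ)) = 1 := by
  rw [Matrix.star_eq_conjTranspose, diagonal_conjTranspose, diagonal_mul_diagonal]
  rw [← diagonal_one]
  congr 1
  funext i
  exact circle_mul_conj (d i)

theorem prod_coe {n : ℕ} (d : Fin n → Circle) : ((∏ i, d i : Circle) : ℂ) = ∏ i, (d i : ℂ) :=
  map_prod Circle.coeHom d Finset.univ

/-- Diagonal elements. -/
def tor {n : ℕ} (d : Fin n → Circle) (hd : ∏ i, d i = 1) : SU n :=
  ⟨diagonal fun i => (d i : ℂ), mem_SU (diag_mul_star d) (by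
    rw [det_diagonal, ← prod_coe, hd, Circle.coe_one])⟩

/-- The maximal torus as a homomorphism. -/
def torHom (m : ℕ) : (Fin m → Circle) →* SU (m + 1) where
  toFun z := tor (dg z) (prod_dg z)
  map_one' := by
    refine Subtype.ext ?_
    show diagonal (fun i => (dg (1 : Fin m → Circle) i : ℂ)) = 1
    rw [← diagonal_one]
    congr 1
    funext i
    refine Fin.cases ?_ (fun j => ?_) i
    · simp [dg]
    · simp [dg]
  map_mul' z w := by
    refine Subtype.ext ?_
    show diagonal (fun i => (dg (z * w) i : ℂ)) =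
      diagonal (fun i => (dg z i : ℂ)) * diagonal (fun i => (dg w i : ℂ))
    rw [diagonal_mul_diagonal]
    congr 1
    funext i
    refine Fin.cases ?_ (fun j => ?_) i
    · simp only [dg, Fin.cons_zero, Pi.mul_apply, mul_inv, Finset.prod_mul_distrib, Circle.coe_mul]
    · simp only [dg, Fin.cons_succ, Pi.mul_apply, Circle.coe_mul]

/-- A permutation matrix corrected to determinant one. -/
def weyl (σ : Equiv.Perm (Fin (m + 1))) : SU (m + 1) :=
  ⟨diagonal (fun i => (if i = 0 then ((Equiv.Perm.sign σ : ℤ) : ℂ) else 1)) * σ.permMatrix ℂ,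
    mem_SU (by
      have h1 : σ.permMatrix ℂ * star (σ.permMatrix ℂ) = 1 := by
        rw [Matrix.star_eq_conjTranspose, conjTranspose_permMatrix, ← permMatrix_mul]
        simp
      rw [star_mul, mul_assoc, ← mul_assoc (σ.permMatrix ℂ), h1, one_mul,
        Matrix.star_eq_conjTranspose, diagonal_conjTranspose, diagonal_mul_diagonal,
        ← diagonal_one]
      congr 1
      funext i
      rw [Pi.star_apply]
      split_ifs with h
      · rcases Int.units_eq_one_or (Equiv.Perm.sign σ) with h2 | h2 <;> rw [h2] <;> simp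
      · simp) (by
      rw [det_mul, det_diagonal, det_permutation, Finset.prod_ite_eq' Finset.univ (0 : Fin (m + 1))]
      rcases Int.units_eq_one_or (Equiv.Perm.sign σ) with h2 | h2 <;> rw [h2] <;> simp)⟩

theorem weyl_tor (σ : Equiv.Perm (Fin (m + 1))) (d : Fin (m + 1) → Circle) (hd : ∏ i, d i = 1)
    (hd' : ∏ i, d (σ i) = 1) : weyl σ * tor d hd = tor (fun i => d (σ i)) hd' * weyl σ := by
  refine Subtype.ext ?_
  show diagonal _ * σ.permMatrix ℂ * diagonal (fun i => (d i : ℂ)) =
    diagonal (fun i => (d (σ i) : ℂ)) * (diagonal _ * σ.permMatrix ℂ)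
  have h1 : σ.permMatrix ℂ * diagonal (fun i => (d i : ℂ)) =
      diagonal (fun i => (d (σ i) : ℂ)) * σ.permMatrix ℂ := by
    ext a b
    rw [mul_diagonal, diagonal_mul]
    by_cases h : σ a = b
    · rw [h, mul_comm]
    · have h2 : σ.permMatrix ℂ a b = 0 := by
        rw [Equiv.Perm.permMatrix, PEquiv.toMatrix_toPEquiv_apply, Pi.single_eq_of_ne (Ne.symm h)]
      rw [h2, zero_mul, mul_zero]
  rw [mul_assoc, h1, ← mul_assoc, ← mul_assoc, diagonal_mul_diagonal, diagonal_mul_diagonal]
  simp only [mul_comm]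

end torus

theorem exists_sqrt (z : Circle) : ∃ w : Circle, w * w = z := by
  refine ⟨Circle.exp (Complex.arg z / 2), ?_⟩
  rw [← Circle.exp_add, add_halves, Circle.exp_arg]

section char

variable {K : Type*} [CommMonoid K]

theorem char_conj {G : Type*} [Group G] (χ : G →* K) {a b w : G} (h : w * a = b * w) :
    χ a = χ b := by
  have h1 : a = w⁻¹ * (b * w) := by rw [← h, inv_mul_cancel_left]
  rw [h1, map_mul, map_mul, mul_comm (χ b), ← mul_assoc, ← map_mul, inv_mul_cancel, map_one,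
    one_mul]

theorem char_tor {m : ℕ} (χ : SU (m + 1) →* K) (z : Fin m → Circle) : χ (torHom m z) = 1 := by
  have h1 : ∀ (i : Fin m) (z : Circle), χ (torHom m (Pi.mulSingle i z)) =
      χ (torHom m (Pi.mulSingle i z⁻¹)) := by
    intro i z
    set σ : Equiv.Perm (Fin (m + 1)) := Equiv.swap 0 i.succ with hσ
    have h2 : ∀ k, dg (Pi.mulSingle i z) (σ k) = dg (Pi.mulSingle i z⁻¹) k := by
      intro k
      have h3 : ∀ y : Circle, ∏ j, ((Pi.mulSingle i y : Fin m → Circle) j)⁻¹ = y⁻¹ := by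
        intro y
        rw [Finset.prod_eq_single i]
        · rw [Pi.mulSingle_eq_same]
        · intro j _ hj
          rw [Pi.mulSingle_eq_of_ne hj, inv_one]
        · intro h
          exact absurd (Finset.mem_univ i) h
      refine Fin.cases ?_ (fun j => ?_) k
      · rw [hσ, Equiv.swap_apply_left]
        simp only [dg, Fin.cons_zero, Fin.cons_succ, h3, Pi.mulSingle_eq_same, inv_inv]
      · by_cases hj : j = i
        · rw [hj, hσ, Equiv.swap_apply_right]
          simp only [dg, Fin.cons_zero, Fin.cons_succ, h3, Pi.mulSingle_eq_same]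
        · rw [hσ, Equiv.swap_apply_of_ne_of_ne (Fin.succ_ne_zero j)
            (fun h => hj (Fin.succ_injective _ h))]
          simp only [dg, Fin.cons_succ, Pi.mulSingle_eq_of_ne hj]
    have h4 : ∏ k, dg (Pi.mulSingle i z) (σ k) = 1 := by
      simp only [h2]
      exact prod_dg _
    have h5 := char_conj χ (weyl_tor σ (dg (Pi.mulSingle i z)) (prod_dg _) h4)
    refine h5.trans ?_
    congr 1
    refine Subtype.ext ?_
    show diagonal (fun k => (dg (Pi.mulSingle i z) (σ k) : ℂ)) =
      diagonal (fun k => (dg (Pi.mulSingle i z⁻¹) k : ℂ))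
    simp only [h2]
  have h6 : ∀ (i : Fin m) (z : Circle), χ (torHom m (Pi.mulSingle i z)) = 1 := by
    intro i z
    obtain ⟨w, rfl⟩ := exists_sqrt z
    rw [Pi.mulSingle_mul, map_mul, map_mul]
    nth_rewrite 2 [h1]
    rw [← map_mul, ← map_mul, ← Pi.mulSingle_mul, mul_inv_cancel, Pi.mulSingle_one, map_one,
      map_one]
  show (χ.comp (torHom m)) z = 1
  rw [← Finset.univ_prod_mulSingle z, map_prod]
  exact Finset.prod_eq_one fun i _ => h6 i _

/-- **SU(N) has no non-trivial characters.** -/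
theorem char_trivial {N : ℕ} (χ : SU N →* K) (g : SU N) : χ g = 1 := by
  rcases N with _ | m
  · have h : g = 1 := Subtype.ext (Subsingleton.elim _ _)
    rw [h, map_one]
  have hg : star (g : Matrix (Fin (m + 1)) (Fin (m + 1)) ℂ) * g = 1 :=
    mem_unitaryGroup_iff'.1 (mem_specialUnitaryGroup_iff.1 g.2).1
  obtain ⟨u, d, hu, hu', hgu, hd⟩ := Diag973.exists_diag _ hg
  -- the eigenvalues as elements of the circle
  have hcirc : ∀ w : ℂ, conj w * w = 1 → ‖w‖ = 1 := fun w hw => by
    have h1 : ((‖w‖ ^ 2 : ℝ) : ℂ) = ((1 : ℝ) : ℂ) := by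
      rw [mul_comm, Complex.mul_conj'] at hw
      push_cast
      exact hw
    have h2 : ‖w‖ ^ 2 = 1 := Complex.ofReal_injective h1
    have h3 := norm_nonneg w
    nlinarith
  set e : Fin (m + 1) → Circle := fun i => ⟨d i, mem_sphere_zero_iff_norm.2 (hcirc _ (hd i))⟩
    with he
  have hdu : conj u.det * u.det = 1 := by
    have h1 := congrArg Matrix.det hu'
    rw [det_mul, det_one, Matrix.star_eq_conjTranspose, det_conjTranspose] at h1
    exact h1
  set δ : Circle := ⟨u.det, mem_sphere_zero_iff_norm.2 (hcirc _ hdu)⟩ with hδ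
  have hδu : (δ : ℂ) = u.det := rfl
  have hpe : ∏ i, e i = 1 := by
    have h1 := congrArg Matrix.det hgu
    rw [det_mul, det_mul, (mem_specialUnitaryGroup_iff.1 g.2).2, one_mul, det_diagonal] at h1
    have h2 : u.det ≠ 0 := by rw [← hδu]; exact δ.coe_ne_zero
    have h3 : ∏ i, d i = 1 := mul_left_cancel₀ h2 (h1.symm.trans (mul_one _).symm)
    refine Circle.ext ?_
    rw [prod_coe, Circle.coe_one]
    exact h3
  set c : Fin (m + 1) → Circle := fun i => if i = 0 then δ⁻¹ else 1 with hc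
  set v : SU (m + 1) := ⟨u * diagonal (fun i => (c i : ℂ)), mem_SU (by
    rw [star_mul, mul_assoc, ← mul_assoc (diagonal _), diag_mul_star, one_mul, hu]) (by
    rw [det_mul, det_diagonal, ← prod_coe, hc, Finset.prod_ite_eq' Finset.univ (0 : Fin (m + 1)),
      if_pos (Finset.mem_univ _), ← hδu, ← Circle.coe_mul, mul_inv_cancel, Circle.coe_one])⟩ with hv
  have h4 : v * tor e hpe = g * v := by
    refine Subtype.ext ?_
    show u * diagonal (fun i => (c i : ℂ)) * diagonal (fun i => (e i : ℂ)) =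
      g * (u * diagonal (fun i => (c i : ℂ)))
    rw [← mul_assoc (g : Matrix (Fin (m + 1)) (Fin (m + 1)) ℂ), hgu, mul_assoc, mul_assoc,
      diagonal_mul_diagonal, diagonal_mul_diagonal]
    simp only [mul_comm]
    rfl
  have h5 : tor e hpe = torHom m (fun i => e i.succ) := by
    refine Subtype.ext ?_
    show diagonal (fun i => (e i : ℂ)) = diagonal fun i => (dg (fun i => e i.succ) i : ℂ)
    congr 1
    funext i
    refine Fin.cases ?_ (fun j => ?_) i
    · have h6 : e 0 = ∏ i, (e (Fin.succ i))⁻¹ := by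
        rw [Fin.prod_univ_succ] at hpe
        rw [Finset.prod_inv_distrib]
        exact eq_inv_of_mul_eq_one_left hpe
      simp only [dg, Fin.cons_zero]
      rw [h6]
    · simp only [dg, Fin.cons_succ]
  rw [← char_conj χ h4, h5, char_tor]

end char

end Crest.Agent.R330.Char973

end
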