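import Crest.Agent.R330.Cliff5_442

/-!
# Row 330 (helper442): covariance and smoothness of the vacuum projection; bridge to matrices

* `num_comm_th` / `proj_comm_th` : `proj J` commutes with `θ x` if `J x = 0`.
* `proj_cov` : `U θ x = θ' (R x) U` (`R` linear isometry equivalence, `U` additive and real linear;
  complex linear or antilinear) implies `U proj J = proj (± R J R⁻¹) U`.
* `proj_even` : `proj J` commutes with the parity.
* `contDiffAt_proj` : smooth in parameters.
* `proj_add` : orthogonal sum of two partial complex structures.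
* `CRep.of` : bridge from `θ : κ → F →ₗ F`.
-/

set_option autoImplicit false
set_option linter.unusedSectionVars false

open scoped InnerProductSpace

noncomputable section

namespace Crest.Agent.R330.Cliff442

variable {V V' F F' : Type*} [NormedAddCommGroup V] [InnerProductSpace ℝ V]
  [NormedAddCommGroup V'] [InnerProductSpace ℝ V']
  [NormedAddCommGroup F] [InnerProductSpace ℂ F] [NormedAddCommGroup F'] [InnerProductSpace ℂ F']

namespace CRep

variable (M : CRep V F) (M' : CRep V' F') [FiniteDimensional ℝ V] [FiniteDimensional ℝ V']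

theorem num_apply (J : V →ₗ[ℝ] V) (f : F) : M.num J f =
    (Complex.I / 2) • ∑ i, M.θ (J (stdOrthonormalBasis ℝ V i)) (M.θ (stdOrthonormalBasis ℝ V i) f) +
      ((1 / 4 * ∑ i, ‖J (stdOrthonormalBasis ℝ V i)‖ ^ 2 : ℝ) : ℂ) • f := by
  rw [num, LinearMap.add_apply, quad_apply, LinearMap.smul_apply, Module.End.one_apply]


/-- `num J` commutes with `θ x`, `J x = 0`. -/
theorem num_comm_th {J : V →ₗ[ℝ] V} (hJ : Skew J) {x : V} (hx : J x = 0) (f : F) :
    M.θ x (M.num J f) = M.num J (M.θ x f) := by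
  have h1 := M.quad_comm (stdOrthonormalBasis ℝ V) hJ x f
  rw [hx, M.zero, LinearMap.zero_apply, smul_zero, sub_eq_zero] at h1
  rw [num, LinearMap.add_apply, LinearMap.add_apply, map_add, h1]
  simp

theorem proj_comm_th {J : V →ₗ[ℝ] V} (hJ : Skew J) {x : V} (hx : J x = 0) (f : F) :
    M.θ x (M.proj J f) = M.proj J (M.θ x f) :=
  fall_comm _ _ (M.θ x) (fun _ _ => map_sub _ _ _) (fun _ _ => map_smul _ _ _)
    (M.num_comm_th hJ hx) _ f








section smooth

variable [FiniteDimensional ℂ F] {E : Type*} [NormedAddCommGroup E] [NormedSpace ℝ E]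

/-- Complex linear maps of `F` are smooth. -/
theorem contDiff_lin {G G' : Type*} [NormedAddCommGroup G] [InnerProductSpace ℂ G]
    [NormedAddCommGroup G'] [InnerProductSpace ℂ G'] [FiniteDimensional ℂ G] (T : G →ₗ[ℂ] G')
    (n : WithTop ℕ∞) : ContDiff ℝ n (fun g : G => T g) :=
  ((LinearMap.toContinuousLinearMap T).restrictScalars ℝ).contDiff

/-- **Smoothness of the number operator in parameters.** -/
theorem contDiffAt_num {n : WithTop ℕ∞} {J : E → V →ₗ[ℝ] V} {f : E → F} {x : E}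
    (hJ : ∀ y, ContDiffAt ℝ n (fun t => J t y) x) (hf : ContDiffAt ℝ n f x) :
    ContDiffAt ℝ n (fun t => M.num (J t) (f t)) x := by
  set e := stdOrthonormalBasis ℝ V with he
  have h1 : (fun t => M.num (J t) (f t)) = fun t => (Complex.I / 2) •
      ∑ i, ∑ j, ((⟪e j, J t (e i)⟫_ℝ : ℝ) : ℂ) • M.θ (e j) (M.θ (e i) (f t)) +
      ((1 / 4 * ∑ i, ‖J t (e i)‖ ^ 2 : ℝ) : ℂ) • f t := by
    funext t
    rw [num_apply]
    congr 2
    refine Finset.sum_congr rfl fun i _ => ?_
    rw [← M.expand_basis e (J t (e i))]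
  rw [h1]
  have h2 : ∀ i j, ContDiffAt ℝ n
      (fun t => ((⟪e j, J t (e i)⟫_ℝ : ℝ) : ℂ) • M.θ (e j) (M.θ (e i) (f t))) x := by
    intro i j
    refine ContDiffAt.smul ?_ ?_
    · exact Complex.ofRealCLM.contDiff.contDiffAt.comp x
        (ContDiffAt.inner ℝ contDiffAt_const (hJ (e i)))
    · exact (contDiff_lin (M.θ (e j) ∘ₗ M.θ (e i)) n).contDiffAt.comp x hf
  have h3 : ContDiffAt ℝ n (fun t => ((1 / 4 * ∑ i, ‖J t (e i)‖ ^ 2 : ℝ) : ℂ)) x := by
    refine Complex.ofRealCLM.contDiff.contDiffAt.comp x ?_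
    refine contDiffAt_const.mul ?_
    refine ContDiffAt.sum fun i _ => ?_
    exact ContDiffAt.norm_sq ℝ (hJ (e i))
  have h4 : ContDiffAt ℝ n (fun t => (Complex.I / 2) •
      ∑ i, ∑ j, ((⟪e j, J t (e i)⟫_ℝ : ℝ) : ℂ) • M.θ (e j) (M.θ (e i) (f t))) x := by
    refine ContDiffAt.const_smul _ ?_
    exact ContDiffAt.sum fun i _ => ContDiffAt.sum fun j _ => h2 i j
  exact h4.add (h3.smul hf)

theorem contDiffAt_fall {n : WithTop ℕ∞} {N : E → Module.End ℂ F} {f : E → F} {x : E}
    (hN : ∀ g : E → F, ContDiffAt ℝ n g x → ContDiffAt ℝ n (fun t => N t (g t)) x)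
    (hf : ContDiffAt ℝ n f x) (m : ℕ) : ContDiffAt ℝ n (fun t => fall (N t) m (f t)) x := by
  induction m with
  | zero => exact hf
  | succ m ih =>
    have h1 : (fun t => fall (N t) (m + 1) (f t)) = fun t =>
        fall (N t) m (f t) - (1 / ((m : ℂ) + 1)) • N t (fall (N t) m (f t)) := rfl
    rw [h1]
    exact ih.sub (ContDiffAt.const_smul _ (hN _ ih))

/-- **Smoothness of the vacuum projection in parameters.** -/
theorem contDiffAt_proj {n : WithTop ℕ∞} {J : E → V →ₗ[ℝ] V} {f : E → F} {x : E}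
    (hJ : ∀ y, ContDiffAt ℝ n (fun t => J t y) x) (hf : ContDiffAt ℝ n f x) :
    ContDiffAt ℝ n (fun t => M.proj (J t) (f t)) x :=
  contDiffAt_fall (fun _ hg => M.contDiffAt_num hJ hg) hf _

end smooth

end CRep

/-! ### Bridge to families of generators -/

section bridge

variable {κ : Type*} [Fintype κ] [DecidableEq κ]

/-- The module of a family of generators. -/
def CRep.of (θ : κ → F →ₗ[ℂ] F) (hs : ∀ k, (θ k).IsSymmetric)
    (hc : ∀ j k, θ j ∘ₗ θ k + θ k ∘ₗ θ j = if j = k then (LinearMap.id : F →ₗ[ℂ] F) else 0) :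
    CRep (EuclideanSpace ℝ κ) F where
  θ u := ∑ k, ((u k : ℝ) : ℂ) • θ k
  add u v := by
    simp only [PiLp.add_apply, Complex.ofReal_add, add_smul, Finset.sum_add_distrib]
  smul r u := by
    simp only [PiLp.smul_apply, smul_eq_mul, Complex.ofReal_mul, mul_smul, Finset.smul_sum]
  symm u f g := by
    simp only [LinearMap.sum_apply, LinearMap.smul_apply, sum_inner, inner_sum, inner_smul_left,
      inner_smul_right, Complex.conj_ofReal]
    exact Finset.sum_congr rfl fun k _ => by rw [hs k]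
  anti u v := by
    have h1 : ∀ j k, (θ j : Module.End ℂ F) * θ k + θ k * θ j = if j = k then 1 else 0 := by
      intro j k
      exact hc j k
    have h2 : (∑ k, ((u k : ℝ) : ℂ) • (θ k : Module.End ℂ F)) *
        (∑ k, ((v k : ℝ) : ℂ) • (θ k : Module.End ℂ F)) =
        ∑ j, ∑ k, (((u j : ℝ) : ℂ) * ((v k : ℝ) : ℂ)) • ((θ j : Module.End ℂ F) * θ k) := by
      rw [Finset.sum_mul]
      refine Finset.sum_congr rfl fun j _ => ?_
      rw [Finset.mul_sum]
      refine Finset.sum_congr rfl fun k _ => ?_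
      rw [smul_mul_smul_comm]
    have h3 : (∑ k, ((v k : ℝ) : ℂ) • (θ k : Module.End ℂ F)) *
        (∑ k, ((u k : ℝ) : ℂ) • (θ k : Module.End ℂ F)) =
        ∑ j, ∑ k, (((u j : ℝ) : ℂ) * ((v k : ℝ) : ℂ)) • ((θ k : Module.End ℂ F) * θ j) := by
      rw [Finset.sum_mul]
      simp only [Finset.mul_sum, smul_mul_smul_comm]
      rw [Finset.sum_comm]
      refine Finset.sum_congr rfl fun j _ => Finset.sum_congr rfl fun k _ => ?_
      rw [mul_comm]
    rw [h2, h3, ← Finset.sum_add_distrib]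
    simp only [← Finset.sum_add_distrib, ← smul_add, h1]
    have h4 : ∀ j, ∑ k, (((u j : ℝ) : ℂ) * ((v k : ℝ) : ℂ)) •
        (if j = k then (1 : Module.End ℂ F) else 0) =
        (((u j : ℝ) : ℂ) * ((v j : ℝ) : ℂ)) • (1 : Module.End ℂ F) := by
      intro j
      rw [Finset.sum_eq_single_of_mem j (Finset.mem_univ j)]
      · rw [if_pos rfl]
      · intro k _ hk
        rw [if_neg (Ne.symm hk), smul_zero]
    rw [Finset.sum_congr rfl (fun j _ => h4 j), ← Finset.sum_smul]
    congr 1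
    rw [PiLp.inner_apply]
    push_cast
    refine Finset.sum_congr rfl fun j _ => ?_
    simp [mul_comm]

theorem CRep.of_single (θ : κ → F →ₗ[ℂ] F) (hs : ∀ k, (θ k).IsSymmetric)
    (hc : ∀ j k, θ j ∘ₗ θ k + θ k ∘ₗ θ j = if j = k then (LinearMap.id : F →ₗ[ℂ] F) else 0)
    (k : κ) : (CRep.of θ hs hc).θ (EuclideanSpace.single k (1 : ℝ)) = θ k := by
  change ∑ j, (((EuclideanSpace.single k (1 : ℝ) : EuclideanSpace ℝ κ) j : ℝ) : ℂ) • θ j = θ k
  rw [Finset.sum_eq_single_of_mem k (Finset.mem_univ k)]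
  · simp
  · intro j _ hj
    simp [hj]

theorem CRep.of_irr (θ : κ → F →ₗ[ℂ] F) (hs : ∀ k, (θ k).IsSymmetric)
    (hc : ∀ j k, θ j ∘ₗ θ k + θ k ∘ₗ θ j = if j = k then (LinearMap.id : F →ₗ[ℂ] F) else 0)
    (hi : ∀ W : Submodule ℂ F, (∀ k, ∀ f ∈ W, θ k f ∈ W) → W = ⊥ ∨ W = ⊤) :
    (CRep.of θ hs hc).Irr := by
  refine ⟨fun _ _ _ _ => trivial, fun W _ hW => hi W fun k f hf => ?_⟩
  have h := hW (EuclideanSpace.single k (1 : ℝ)) trivial f hf
  rwa [CRep.of_single] at h

end bridge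

end Crest.Agent.R330.Cliff442

end
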