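import Crest.Agent.R330.Fact_161

/-!
# Row 330 (helper161): factorisation operators on the whole module, several blocks

* `PE M e u v s` : orthogonal projection of `F` on the vacuum space of the block.
* `wop h M e : F₁ →ₗ F →ₗ F` : `wop f w = Op w f` for `w ∈ vacE`, `0` for `w ⟂ vacE`
  (`wop_of_mem`, `wop_eq_zero`, `wop_PE`, `wop_vac`, `th_wop`, `th_perp_wop`, `inner_wop`,
  `inner_wop_of_mem`, `norm_wop_le`, `contDiff_wop`, `fderiv_wop`).
* `wop_lift` : equivariance.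
* several blocks (`Fam`): `mem_wop`, `wop_comm` (even factors), `pr l f w` : ordered products,
  `inner_pr`, `th_perp_pr`, `th_pr` (slot action), `pr_perm`, `pr_lift`.
-/

set_option autoImplicit false
set_option linter.unusedSectionVars false

open scoped InnerProductSpace ContDiff

noncomputable section

namespace Crest.Agent.R330.Fact161

open Crest.Agent.R330.Cliff442 Crest.Agent.R330.Cliff442.CRep

variable {V V₁ V₂ F F₁ F₂ : Type*} [NormedAddCommGroup V] [InnerProductSpace ℝ V]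
  [NormedAddCommGroup V₁] [InnerProductSpace ℝ V₁]
  [NormedAddCommGroup V₂] [InnerProductSpace ℝ V₂]
  [NormedAddCommGroup F] [InnerProductSpace ℂ F] [NormedAddCommGroup F₁] [InnerProductSpace ℂ F₁]
  [NormedAddCommGroup F₂] [InnerProductSpace ℂ F₂] {ι ι₂ : Type*}

/-! ### The total operators -/

section total

variable [FiniteDimensional ℂ F]

/-- The orthogonal projection of `F` on the vacuum space. -/
def PE (M : CRep V F) (e : V₁ →ₗᵢ[ℝ] V) (u v : ι → V₁) (s : Finset ι) : F →ₗ[ℂ] F :=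
  ((vacE M e u v s).starProjection : F →ₗ[ℂ] F)

theorem PE_mem (M : CRep V F) (e : V₁ →ₗᵢ[ℝ] V) (u v : ι → V₁) (s : Finset ι) (w : F) :
    PE M e u v s w ∈ vacE M e u v s := Submodule.starProjection_apply_mem _ w

theorem PE_of_mem {M : CRep V F} {e : V₁ →ₗᵢ[ℝ] V} {u v : ι → V₁} {s : Finset ι} {w : F}
    (hw : w ∈ vacE M e u v s) : PE M e u v s w = w :=
  Submodule.starProjection_eq_self_iff.2 hw

theorem PE_PE (M : CRep V F) (e : V₁ →ₗᵢ[ℝ] V) (u v : ι → V₁) (s : Finset ι) (w : F) :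
    PE M e u v s (PE M e u v s w) = PE M e u v s w := PE_of_mem (PE_mem M e u v s w)

theorem inner_PE (M : CRep V F) (e : V₁ →ₗᵢ[ℝ] V) (u v : ι → V₁) (s : Finset ι) (w w' : F) :
    ⟪PE M e u v s w, w'⟫_ℂ = ⟪w, PE M e u v s w'⟫_ℂ :=
  Submodule.inner_starProjection_left_eq_right _ w w'

theorem norm_PE_le (M : CRep V F) (e : V₁ →ₗᵢ[ℝ] V) (u v : ι → V₁) (s : Finset ι) (w : F) :
    ‖PE M e u v s w‖ ≤ ‖w‖ := Submodule.norm_starProjection_apply_le _ w


variable {M₁ : CRep V₁ F₁} {u v : ι → V₁} {s : Finset ι} {Ω : F₁} (h : Pol M₁ u v s Ω)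
  (M : CRep V F) (e : V₁ →ₗᵢ[ℝ] V)

include h

variable {e} in
/-- The projection commutes with `θ x`, `x` orthogonal to the block. -/
theorem PE_th {x : V} (hx : ∀ y, ⟪x, e y⟫_ℝ = 0) (w : F) :
    PE M e u v s (M.θ x w) = M.θ x (PE M e u v s w) := by
  refine Submodule.eq_starProjection_of_mem_orthogonal (th_vacE h M hx (PE_mem M e u v s w)) ?_
  rw [← map_sub]
  intro z hz
  rw [← M.symm]
  exact (Submodule.sub_starProjection_mem_orthogonal w) _ (th_vacE h M hx hz)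

/-- **The factorisation operators.** -/
def wop : F₁ →ₗ[ℂ] F →ₗ[ℂ] F :=
  (Op h M e ∘ₗ ((vacE M e u v s).orthogonalProjectionOnto : F →ₗ[ℂ] vacE M e u v s)).flip

theorem wop_apply (f : F₁) (w : F) :
    wop h M e f w = Op h M e ⟨PE M e u v s w, PE_mem M e u v s w⟩ f := rfl

theorem wop_of_mem (f : F₁) {w : F} (hw : w ∈ vacE M e u v s) :
    wop h M e f w = Op h M e ⟨w, hw⟩ f := by
  rw [wop_apply]
  congr 2
  exact Subtype.ext (PE_of_mem hw)

theorem wop_PE (f : F₁) (w : F) : wop h M e f (PE M e u v s w) = wop h M e f w := by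
  rw [wop_of_mem h M e f (PE_mem M e u v s w), wop_apply]


theorem wop_vac (w : F) : wop h M e Ω w = PE M e u v s w := by
  rw [wop_apply, Op_vac]

theorem wop_vac_of_mem {w : F} (hw : w ∈ vacE M e u v s) : wop h M e Ω w = w := by
  rw [wop_vac, PE_of_mem hw]

theorem th_wop (x : V₁) (f : F₁) (w : F) :
    M.θ (e x) (wop h M e f w) = wop h M e (M₁.θ x f) w := by
  rw [wop_apply, wop_apply, th_Op]

variable {e} in
theorem th_perp_wop {x : V} (hx : ∀ y, ⟪x, e y⟫_ℝ = 0) (f : F₁) (w : F) :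
    M.θ x (wop h M e f w) = wop h M e (par h f) (M.θ x w) := by
  rw [wop_apply, wop_apply, th_perp_Op h M hx]
  congr 2
  exact Subtype.ext (PE_th h M hx w).symm

theorem inner_wop (f g : F₁) (w w' : F) :
    ⟪wop h M e f w, wop h M e g w'⟫_ℂ = ⟪PE M e u v s w, w'⟫_ℂ * ⟪f, g⟫_ℂ := by
  rw [wop_apply, wop_apply, inner_Op, inner_PE, PE_PE, ← inner_PE]

theorem inner_wop_of_mem (f g : F₁) {w : F} (hw : w ∈ vacE M e u v s) (w' : F) :
    ⟪wop h M e f w, wop h M e g w'⟫_ℂ = ⟪w, w'⟫_ℂ * ⟪f, g⟫_ℂ := by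
  rw [inner_wop, PE_of_mem hw]

theorem norm_wop_of_mem (f : F₁) {w : F} (hw : w ∈ vacE M e u v s) :
    ‖wop h M e f w‖ = ‖f‖ * ‖w‖ := by
  rw [wop_of_mem h M e f hw, norm_Op, mul_comm]

theorem norm_wop_le (f : F₁) (w : F) : ‖wop h M e f w‖ ≤ ‖f‖ * ‖w‖ := by
  rw [wop_apply, norm_Op, mul_comm]
  exact mul_le_mul_of_nonneg_left (norm_PE_le M e u v s w) (norm_nonneg _)

theorem bilin_wop : IsBoundedBilinearMap ℝ fun p : F₁ × F => wop h M e p.1 p.2 where
  add_left x y z := by rw [map_add, LinearMap.add_apply]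
  smul_left c x y := by
    have : (c • x : F₁) = (c : ℂ) • x := (Complex.coe_smul c x).symm
    change wop h M e (c • x) y = c • wop h M e x y
    rw [this, map_smul, LinearMap.smul_apply, Complex.coe_smul]
  add_right x y z := map_add _ _ _
  smul_right c x y := by
    have : (c • y : F) = (c : ℂ) • y := (Complex.coe_smul c y).symm
    change wop h M e x (c • y) = c • wop h M e x y
    rw [this, map_smul, Complex.coe_smul]
  bound := ⟨1, one_pos, fun x y => by rw [one_mul]; exact norm_wop_le h M e x y⟩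

theorem contDiff_wop {E : Type*} [NormedAddCommGroup E] [NormedSpace ℝ E] {n : WithTop ℕ∞}
    {f : E → F₁} {w : E → F} (hf : ContDiff ℝ n f) (hw : ContDiff ℝ n w) :
    ContDiff ℝ n fun x => wop h M e (f x) (w x) :=
  (bilin_wop h M e).contDiff.comp (hf.prodMk hw)


theorem fderiv_wop {E : Type*} [NormedAddCommGroup E] [NormedSpace ℝ E]
    {f : E → F₁} {w : E → F} {x : E} (hf : DifferentiableAt ℝ f x) (hw : DifferentiableAt ℝ w x)
    (y : E) : fderiv ℝ (fun x => wop h M e (f x) (w x)) x y =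
      wop h M e (f x) (fderiv ℝ w x y) + wop h M e (fderiv ℝ f x y) (w x) := by
  have h1 := ((bilin_wop h M e).hasFDerivAt (f x, w x)).comp x
    (hf.hasFDerivAt.prodMk hw.hasFDerivAt)
  have h2 : fderiv ℝ (fun x => wop h M e (f x) (w x)) x = _ := h1.fderiv
  rw [h2]
  rfl

end total

/-! ### Equivariance -/

section lift

variable {V' F' : Type*} [NormedAddCommGroup V'] [InnerProductSpace ℝ V']
  [NormedAddCommGroup F'] [InnerProductSpace ℂ F'] [FiniteDimensional ℂ F]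
  [FiniteDimensional ℂ F']
  {M₁ : CRep V₁ F₁} {u v : ι → V₁} {s : Finset ι} {Ω : F₁} (h : Pol M₁ u v s Ω)
  {M₂ : CRep V₂ F₂} {u₂ v₂ : ι₂ → V₂} {s₂ : Finset ι₂} {Ω₂ : F₂} (h₂ : Pol M₂ u₂ v₂ s₂ Ω₂)
  (M : CRep V F) (M' : CRep V' F') (e : V₁ →ₗᵢ[ℝ] V) (e' : V₂ →ₗᵢ[ℝ] V')
  {O : V₁ → V₂} {U : F →ₗ[ℂ] F'} {U₁ : F₁ →ₗ[ℂ] F₂}

include h h₂

/-- **Equivariance** on the vacuum space. -/
theorem wop_lift (hO : Function.Surjective O) (hU₁ : Function.Injective U₁)
    (hU : ∀ x f, U (M.θ (e x) f) = M'.θ (e' (O x)) (U f))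
    (h1 : ∀ x f, U₁ (M₁.θ x f) = M₂.θ (O x) (U₁ f)) (h0 : U₁ Ω = Ω₂)
    {w : F} (hw : w ∈ vacE M e u v s) (f : F₁) :
    U w ∈ vacE M' e' u₂ v₂ s₂ ∧ U (wop h M e f w) = wop h₂ M' e' (U₁ f) (U w) := by
  have h2 := lift_mem h h₂ M M' e e' hO hU₁ hU h1 h0 hw
  refine ⟨h2, ?_⟩
  rw [wop_of_mem h M e f hw, wop_of_mem h₂ M' e' _ h2]
  exact lift_Op h h₂ M M' e e' hU h1 h0 ⟨w, hw⟩ h2 f

end lift

/-! ### Two blocks -/

section two

variable [FiniteDimensional ℂ F]
  {M₁ : CRep V₁ F₁} {u v : ι → V₁} {s : Finset ι} {Ω : F₁} (h : Pol M₁ u v s Ω)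
  {M₂ : CRep V₂ F₂} {u₂ v₂ : ι₂ → V₂} {s₂ : Finset ι₂} {Ω₂ : F₂} (h₂ : Pol M₂ u₂ v₂ s₂ Ω₂)
  (M : CRep V F) {e : V₁ →ₗᵢ[ℝ] V} {e₂ : V₂ →ₗᵢ[ℝ] V}
  (ho : ∀ x y, ⟪e x, e₂ y⟫_ℝ = 0)

include ho h₂

/-- The operators of one block preserve the vacuum space of an orthogonal block. -/
theorem mem_wop {w : F} (hw : w ∈ vacE M e u v s) (g : F₂) :
    wop h₂ M e₂ g w ∈ vacE M e u v s := by
  refine mem_vacE.2 fun k hk => ?_
  rw [ann_apply, th_perp_wop h₂ M (fun y => ho _ y), th_perp_wop h₂ M (fun y => ho _ y),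
    ← map_smul, ← map_add, ← ann_apply, mem_vacE.1 hw k hk, map_zero]

include h in
/-- **Even factors commute.** -/
theorem wop_comm {f : F₁} (hf : par h f = f) (g : F₂) {w : F} (hw : w ∈ vacE M e u v s)
    (hw₂ : w ∈ vacE M e₂ u₂ v₂ s₂) :
    wop h M e f (wop h₂ M e₂ g w) = wop h₂ M e₂ g (wop h M e f w) := by
  have ho' : ∀ (x : V₂) (y : V₁), ⟪e₂ x, e y⟫_ℝ = 0 := fun x y => by
    rw [real_inner_comm]
    exact ho y x
  have h3 : wop h M e f w ∈ vacE M e₂ u₂ v₂ s₂ := mem_wop h M ho' hw₂ f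
  have h4 : wop h M e f ∘ₗ (wop h₂ M e₂).flip w = Op h₂ M e₂ ⟨wop h M e f w, h3⟩ := by
    refine Op_unique h₂ M e₂ (fun x g => ?_) ?_
    · simp only [LinearMap.comp_apply, LinearMap.flip_apply]
      rw [← th_wop, th_perp_wop h M (fun y => ho' x y), hf]
    · simp only [LinearMap.comp_apply, LinearMap.flip_apply]
      rw [wop_vac_of_mem h₂ M e₂ hw₂]
  have h5 := LinearMap.congr_fun h4 g
  simp only [LinearMap.comp_apply, LinearMap.flip_apply] at h5
  rw [h5, wop_of_mem h₂ M e₂ g h3]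

end two

/-! ### Several blocks -/

section fam

variable [FiniteDimensional ℂ F] {κ : Type*} {Vf Ff ιf : κ → Type*}
  [∀ p, NormedAddCommGroup (Vf p)] [∀ p, InnerProductSpace ℝ (Vf p)]
  [∀ p, NormedAddCommGroup (Ff p)] [∀ p, InnerProductSpace ℂ (Ff p)]
  {M₁ : ∀ p, CRep (Vf p) (Ff p)} {u v : ∀ p, ιf p → Vf p} {s : ∀ p, Finset (ιf p)}
  {Ω : ∀ p, Ff p} (h : ∀ p, Pol (M₁ p) (u p) (v p) (s p) (Ω p)) (M : CRep V F)
  {e : ∀ p, Vf p →ₗᵢ[ℝ] V}

/-- The common vacuum space of all blocks. -/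
def vacA (M : CRep V F) (e : ∀ p, Vf p →ₗᵢ[ℝ] V) (u v : ∀ p, ιf p → Vf p)
    (s : ∀ p, Finset (ιf p)) : Submodule ℂ F := ⨅ p, vacE M (e p) (u p) (v p) (s p)

theorem mem_vacA {M : CRep V F} {w : F} :
    w ∈ vacA M e u v s ↔ ∀ p, w ∈ vacE M (e p) (u p) (v p) (s p) := by
  unfold vacA
  rw [Submodule.mem_iInf]

/-- Ordered products. -/
def pr (M : CRep V F) (e : ∀ p, Vf p →ₗᵢ[ℝ] V) (l : List κ) (f : ∀ p, Ff p) (w : F) : F :=
  l.foldr (fun p z => wop (h p) M (e p) (f p) z) w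

theorem pr_nil (f : ∀ p, Ff p) (w : F) : pr h M e [] f w = w := rfl

theorem pr_cons (p : κ) (l : List κ) (f : ∀ p, Ff p) (w : F) :
    pr h M e (p :: l) f w = wop (h p) M (e p) (f p) (pr h M e l f w) := rfl

theorem pr_congr {l : List κ} {f g : ∀ p, Ff p} (hfg : ∀ p ∈ l, f p = g p) (w : F) :
    pr h M e l f w = pr h M e l g w := by
  induction l with
  | nil => rfl
  | cons p l ih =>
    rw [pr_cons, pr_cons, hfg p (List.mem_cons_self ..),
      ih fun q hq => hfg q (List.mem_cons_of_mem _ hq)]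

theorem pr_add (l : List κ) (f : ∀ p, Ff p) (w w' : F) :
    pr h M e l f (w + w') = pr h M e l f w + pr h M e l f w' := by
  induction l with
  | nil => rfl
  | cons p l ih => rw [pr_cons, pr_cons, pr_cons, ih, map_add]

theorem pr_smul (l : List κ) (f : ∀ p, Ff p) (c : ℂ) (w : F) :
    pr h M e l f (c • w) = c • pr h M e l f w := by
  induction l with
  | nil => rfl
  | cons p l ih => rw [pr_cons, pr_cons, ih, map_smul]


theorem norm_pr_le (l : List κ) (f : ∀ p, Ff p) (w : F) :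
    ‖pr h M e l f w‖ ≤ (l.map fun p => ‖f p‖).prod * ‖w‖ := by
  induction l with
  | nil => simp [pr_nil]
  | cons p l ih =>
    rw [pr_cons, List.map_cons, List.prod_cons, mul_assoc]
    exact (norm_wop_le (h p) M (e p) _ _).trans (mul_le_mul_of_nonneg_left ih (norm_nonneg _))

theorem contDiff_pr {E : Type*} [NormedAddCommGroup E] [NormedSpace ℝ E] {n : WithTop ℕ∞}
    (l : List κ) {f : E → ∀ p, Ff p} {w : E → F} (hf : ∀ p, ContDiff ℝ n fun x => f x p)
    (hw : ContDiff ℝ n w) : ContDiff ℝ n fun x => pr h M e l (f x) (w x) := by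
  induction l with
  | nil => exact hw
  | cons p l ih => exact contDiff_wop (h p) M (e p) (hf p) ih

section orth

variable (ho : ∀ p q, p ≠ q → ∀ x y, ⟪e p x, e q y⟫_ℝ = 0)
include ho

theorem mem_pr {l : List κ} {q : κ} (hq : q ∉ l) (f : ∀ p, Ff p) {w : F}
    (hw : w ∈ vacE M (e q) (u q) (v q) (s q)) :
    pr h M e l f w ∈ vacE M (e q) (u q) (v q) (s q) := by
  induction l with
  | nil => exact hw
  | cons p l ih =>
    have h1 : q ≠ p := fun e => hq (e ▸ List.mem_cons_self ..)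
    exact mem_wop (h p) M (ho q p h1) (ih fun hm => hq (List.mem_cons_of_mem _ hm)) (f p)

/-- **Inner products of products.** -/
theorem inner_pr {l : List κ} (hl : l.Nodup) (f g : ∀ p, Ff p) {w w' : F}
    (hw : w ∈ vacA M e u v s) :
    ⟪pr h M e l f w, pr h M e l g w'⟫_ℂ = (l.map fun p => ⟪f p, g p⟫_ℂ).prod * ⟪w, w'⟫_ℂ := by
  induction l with
  | nil => simp [pr_nil]
  | cons p l ih =>
    obtain ⟨h1, h2⟩ := List.nodup_cons.1 hl
    rw [pr_cons, pr_cons, inner_wop_of_mem (h p) M (e p) _ _ (mem_pr h M ho h1 f (mem_vacA.1 hw p)),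
      ih h2, List.map_cons, List.prod_cons]
    ring

theorem norm_pr {l : List κ} (hl : l.Nodup) (f : ∀ p, Ff p) {w : F}
    (hw : w ∈ vacA M e u v s) : ‖pr h M e l f w‖ = (l.map fun p => ‖f p‖).prod * ‖w‖ := by
  induction l with
  | nil => simp [pr_nil]
  | cons p l ih =>
    obtain ⟨h1, h2⟩ := List.nodup_cons.1 hl
    rw [pr_cons, norm_wop_of_mem (h p) M (e p) _ (mem_pr h M ho h1 f (mem_vacA.1 hw p)), ih h2,
      List.map_cons, List.prod_cons, mul_assoc]

/-- Even factors can be reordered. -/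
theorem pr_perm {l l' : List κ} (hp : l.Perm l') (hl : l.Nodup) {f : ∀ p, Ff p}
    (hf : ∀ p, par (h p) (f p) = f p) {w : F} (hw : w ∈ vacA M e u v s) :
    pr h M e l f w = pr h M e l' f w := by
  induction hp with
  | nil => rfl
  | cons p _ ih => rw [pr_cons, pr_cons, ih (List.nodup_cons.1 hl).2]
  | swap p q l =>
    simp only [List.nodup_cons, List.mem_cons, not_or] at hl
    obtain ⟨⟨h1, h2⟩, h3, -⟩ := hl
    rw [pr_cons, pr_cons, pr_cons, pr_cons]
    exact wop_comm (h q) (h p) M (ho q p h1) (hf q) (f p)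
      (mem_pr h M ho h2 f (mem_vacA.1 hw q)) (mem_pr h M ho h3 f (mem_vacA.1 hw p))
  | trans h1 _ ih1 ih2 => rw [ih1 hl, ih2 (h1.nodup_iff.1 hl)]

/-- `θ y` for `y` orthogonal to all blocks. -/
theorem th_perp_pr {l : List κ} {y : V} (hy : ∀ p ∈ l, ∀ x, ⟪y, e p x⟫_ℝ = 0) (f : ∀ p, Ff p)
    (w : F) : M.θ y (pr h M e l f w) = pr h M e l (fun p => par (h p) (f p)) (M.θ y w) := by
  induction l with
  | nil => rfl
  | cons p l ih =>
    rw [pr_cons, pr_cons, th_perp_wop (h p) M (hy p (List.mem_cons_self ..)),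
      ih fun q hq => hy q (List.mem_cons_of_mem _ hq)]

theorem th_perp_pr_even {l : List κ} {y : V} (hy : ∀ p ∈ l, ∀ x, ⟪y, e p x⟫_ℝ = 0)
    {f : ∀ p, Ff p} (hf : ∀ p ∈ l, par (h p) (f p) = f p) (w : F) :
    M.θ y (pr h M e l f w) = pr h M e l f (M.θ y w) := by
  rw [th_perp_pr h M ho hy]
  exact pr_congr h M hf _

/-- **Slot action**: `θ` of the block `q` acts on the factor `q`; the factors in front of it get
their parity. -/
theorem th_pr [DecidableEq κ] {l : List κ} (hl : l.Nodup) {q : κ} (hq : q ∈ l) (x : Vf q)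
    {f : ∀ p, Ff p} (hf : ∀ p ∈ l, p ≠ q → par (h p) (f p) = f p) (w : F) :
    M.θ (e q x) (pr h M e l f w) = pr h M e l (Function.update f q ((M₁ q).θ x (f q))) w := by
  induction l with
  | nil => exact absurd hq List.not_mem_nil
  | cons p l ih =>
    obtain ⟨h1, h2⟩ := List.nodup_cons.1 hl
    rw [pr_cons, pr_cons]
    by_cases hpq : p = q
    · subst hpq
      rw [th_wop, Function.update_self]
      congr 1
      refine pr_congr h M (fun q hq' => ?_) w
      rw [Function.update_of_ne]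
      exact fun e => h1 (e ▸ hq')
    · have hq' : q ∈ l := (List.mem_cons.1 hq).resolve_left (Ne.symm hpq)
      rw [th_perp_wop (h p) M (fun y => ho q p (Ne.symm hpq) x y),
        hf p (List.mem_cons_self ..) hpq, ih h2 hq' fun r hr => hf r (List.mem_cons_of_mem _ hr),
        Function.update_of_ne hpq]

end orth

/-- **Equivariance of products** under lifts which map the blocks to blocks. -/
theorem pr_lift {U : F →ₗ[ℂ] F} {σ : κ → κ} {O : ∀ p, Vf p → Vf (σ p)}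
    {Up : ∀ p, Ff p →ₗ[ℂ] Ff (σ p)} (ho : ∀ p q, p ≠ q → ∀ x y, ⟪e p x, e q y⟫_ℝ = 0)
    (hO : ∀ p, Function.Surjective (O p)) (hi : ∀ p, Function.Injective (Up p))
    (hU : ∀ p x f, U (M.θ (e p x) f) = M.θ (e (σ p) (O p x)) (U f))
    (h1 : ∀ p x f, Up p ((M₁ p).θ x f) = (M₁ (σ p)).θ (O p x) (Up p f))
    (h0 : ∀ p, Up p (Ω p) = Ω (σ p)) {l : List κ} (hl : l.Nodup) {f g : ∀ p, Ff p}
    (hg : ∀ p ∈ l, g (σ p) = Up p (f p)) {w : F} (hw : w ∈ vacA M e u v s) :
    U (pr h M e l f w) = pr h M e (l.map σ) g (U w) := by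
  induction l with
  | nil => rfl
  | cons p l ih =>
    obtain ⟨h2, h3⟩ := List.nodup_cons.1 hl
    rw [List.map_cons, pr_cons, pr_cons, hg p (List.mem_cons_self ..),
      ← ih h3 fun q hq => hg q (List.mem_cons_of_mem _ hq)]
    exact (wop_lift (h p) (h (σ p)) M M (e p) (e (σ p)) (hO p) (hi p) (hU p) (h1 p) (h0 p)
      (mem_pr h M ho h2 f (mem_vacA.1 hw p)) (f p)).2

end fam

end Crest.Agent.R330.Fact161

end
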