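import Crest.Prelude.Def_MatrixModel

/-! Row 330, gamma matrices: the nine-dimensional Fierz identity for an abstract `GammaNine`. -/

set_option autoImplicit false

open Matrix Finset
open Crest.MathPhysics.MatrixQM

namespace Crest.Agent.R330.Gam962

variable (G : GammaNine)

/-- `u · γ^i v`. -/
def B (i : Fin 9) (u v : Fin 16 → ℝ) : ℝ := u ⬝ᵥ (G.γ i *ᵥ v)

theorem sq_one (i : Fin 9) : G.γ i * G.γ i = 1 := by
  have h := G.clifford i i
  simp only [if_true] at h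
  have h2 : (2 : ℝ) • (G.γ i * G.γ i) = (2 : ℝ) • (1 : Matrix (Fin 16) (Fin 16) ℝ) := by
    rw [two_smul, h]
    ext a b
    simp [Matrix.ofNat_apply, Matrix.one_apply]
  have h3 := congrArg (fun M => (1 / 2 : ℝ) • M) h2
  simpa [smul_smul] using h3

theorem anti {i j : Fin 9} (h : i ≠ j) : G.γ i * G.γ j = - (G.γ j * G.γ i) := by
  have h' := G.clifford i j
  rw [if_neg h] at h'
  exact eq_neg_of_add_eq_zero_left h'

theorem B_symm (i : Fin 9) (u v : Fin 16 → ℝ) : B G i u v = B G i v u := by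
  unfold B
  rw [Matrix.dotProduct_mulVec, ← Matrix.mulVec_transpose, G.symm, dotProduct_comm]

theorem dot_mul (i : Fin 9) (u v : Fin 16 → ℝ) :
    (G.γ i *ᵥ u) ⬝ᵥ v = u ⬝ᵥ (G.γ i *ᵥ v) := by
  rw [dotProduct_comm]
  exact B_symm G i v u

theorem mulVec_mulVec_self (i : Fin 9) (v : Fin 16 → ℝ) : G.γ i *ᵥ (G.γ i *ᵥ v) = v := by
  rw [Matrix.mulVec_mulVec, sq_one, Matrix.one_mulVec]

theorem mulVec_anti {i j : Fin 9} (h : i ≠ j) (v : Fin 16 → ℝ) :
    G.γ i *ᵥ (G.γ j *ᵥ v) = - (G.γ j *ᵥ (G.γ i *ᵥ v)) := by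
  rw [Matrix.mulVec_mulVec, anti G h, Matrix.neg_mulVec, ← Matrix.mulVec_mulVec]

/-- orthogonality of the vectors `γ^i v`. -/
theorem dot_gam (i j : Fin 9) (v : Fin 16 → ℝ) :
    (G.γ i *ᵥ v) ⬝ᵥ (G.γ j *ᵥ v) = if i = j then v ⬝ᵥ v else 0 := by
  split_ifs with h
  · subst h
    rw [dot_mul, mulVec_mulVec_self]
  · have h1 : (G.γ i *ᵥ v) ⬝ᵥ (G.γ j *ᵥ v) = v ⬝ᵥ (G.γ i *ᵥ (G.γ j *ᵥ v)) := dot_mul G i _ _
    have h2 : (G.γ j *ᵥ v) ⬝ᵥ (G.γ i *ᵥ v) = v ⬝ᵥ (G.γ j *ᵥ (G.γ i *ᵥ v)) := dot_mul G j _ _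
    rw [mulVec_anti G h, dotProduct_neg, ← h2] at h1
    rw [dotProduct_comm (G.γ j *ᵥ v)] at h1
    linarith

theorem trace_gam (i : Fin 9) : (G.γ i).trace = 0 := by
  obtain ⟨j, hj⟩ : ∃ j : Fin 9, j ≠ i := by
    by_cases h : i = 0
    · exact ⟨1, by rw [h]; decide⟩
    · exact ⟨0, fun h' => h h'.symm⟩
  have h1 : (G.γ i).trace = (G.γ j * (G.γ j * G.γ i)).trace := by
    rw [← mul_assoc, sq_one, one_mul]
  have h2 : (G.γ j * (G.γ j * G.γ i)).trace = - (G.γ i).trace := by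
    rw [anti G hj, mul_neg, Matrix.trace_neg, Matrix.trace_mul_comm, mul_assoc, sq_one, mul_one]
  linarith

/-- The projection `(1 + γ^9)/2`. -/
noncomputable def P : Matrix (Fin 16) (Fin 16) ℝ := (1 / 2 : ℝ) • (1 + G.γ (Fin.last 8))

theorem trace_P : (P G).trace = 8 := by
  unfold P
  rw [Matrix.trace_smul, Matrix.trace_add, trace_gam, Matrix.trace_one]
  norm_num

theorem P_mul_P : P G * P G = P G := by
  unfold P
  have h := sq_one G (Fin.last 8)
  rw [smul_mul_smul_comm, mul_add, add_mul, add_mul, h]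
  simp only [one_mul, mul_one]
  ext a b
  simp only [Matrix.smul_apply, Matrix.add_apply, smul_eq_mul]
  ring

theorem P_symm : (P G)ᵀ = P G := by
  unfold P
  rw [Matrix.transpose_smul, Matrix.transpose_add, Matrix.transpose_one, G.symm]

theorem P_gam (i : Fin 8) : P G * G.γ i.castSucc = G.γ i.castSucc * (1 - P G) := by
  have h := anti G (show (Fin.last 8) ≠ i.castSucc from (Fin.castSucc_lt_last i).ne')
  unfold P
  rw [smul_mul_assoc, add_mul, h, one_mul, mul_sub, mul_one, mul_smul_comm, mul_add, mul_one]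
  ext a b
  simp only [Matrix.smul_apply, Matrix.add_apply, Matrix.sub_apply, Matrix.neg_apply, smul_eq_mul]
  ring

/-- The eight vectors `γ^i v` (`v` in the `-1` eigenspace of `γ^9`) resolve the identity of the
`+1` eigenspace. -/
theorem resolve (v : Fin 16 → ℝ) (hv : P G *ᵥ v = 0) (u : Fin 16 → ℝ) (hu : P G *ᵥ u = u) :
    ∑ i : Fin 8, (B G i.castSucc u v) ^ 2 = (u ⬝ᵥ u) * (v ⬝ᵥ v) := by
  set w : Fin 8 → Fin 16 → ℝ := fun i => G.γ i.castSucc *ᵥ v with hw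
  set s : ℝ := v ⬝ᵥ v with hs
  set M : Matrix (Fin 16) (Fin 16) ℝ := ∑ i, Matrix.vecMulVec (w i) (w i) with hM
  have hPw : ∀ i, P G *ᵥ w i = w i := by
    intro i
    rw [hw]
    simp only
    rw [Matrix.mulVec_mulVec, P_gam, ← Matrix.mulVec_mulVec, Matrix.sub_mulVec, hv,
      Matrix.one_mulVec, sub_zero]
  have hww : ∀ i j, w i ⬝ᵥ w j = if i = j then s else 0 := by
    intro i j
    have := dot_gam G i.castSucc j.castSucc v
    simpa [hw, hs, Fin.castSucc_inj] using this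
  have hPM : P G * M = M := by
    rw [hM, Finset.mul_sum]
    refine Finset.sum_congr rfl fun i _ => ?_
    rw [Matrix.mul_vecMulVec, hPw]
  have hMT : Mᵀ = M := by
    rw [hM, Matrix.transpose_sum]
    refine Finset.sum_congr rfl fun i _ => ?_
    rw [Matrix.transpose_vecMulVec]
  have hMP : M * P G = M := by
    have := congrArg Matrix.transpose hPM
    rwa [Matrix.transpose_mul, hMT, P_symm] at this
  have hMM : M * M = s • M := by
    rw [hM, Finset.sum_mul, Finset.smul_sum]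
    refine Finset.sum_congr rfl fun i _ => ?_
    rw [Finset.mul_sum, Finset.sum_eq_single i]
    · rw [Matrix.vecMulVec_mul_vecMulVec, hww, if_pos rfl]
      ext a b
      simp [Matrix.vecMulVec_apply, mul_comm, mul_left_comm, mul_assoc]
    · intro j _ hj
      rw [Matrix.vecMulVec_mul_vecMulVec, hww, if_neg (Ne.symm hj)]
      ext a b
      simp [Matrix.vecMulVec_apply]
    · simp
  have htrM : M.trace = 8 * s := by
    rw [hM, Matrix.trace_sum]
    have : ∀ i ∈ (Finset.univ : Finset (Fin 8)), (Matrix.vecMulVec (w i) (w i)).trace = s := by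
      intro i _
      rw [Matrix.trace_vecMulVec, hww, if_pos rfl]
    rw [Finset.sum_congr rfl this]
    simp
  set D : Matrix (Fin 16) (Fin 16) ℝ := s • P G - M with hD
  have hDD : D * D = s • D := by
    rw [hD, sub_mul, mul_sub, mul_sub, smul_mul_smul_comm, P_mul_P, smul_mul_assoc, hPM,
      mul_smul_comm, hMP, hMM]
    rw [smul_sub, smul_smul]
    abel
  have hDT : Dᵀ = D := by
    rw [hD, Matrix.transpose_sub, Matrix.transpose_smul, P_symm, hMT]
  have htrD : D.trace = 0 := by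
    rw [hD, Matrix.trace_sub, Matrix.trace_smul, trace_P, htrM, smul_eq_mul]
    ring
  have hD0 : D = 0 := by
    have h1 : (Dᵀ * D).trace = 0 := by
      rw [hDT, hDD, Matrix.trace_smul, htrD, smul_zero]
    have h2 : (Dᴴ * D).trace = 0 := by
      rwa [Matrix.conjTranspose_eq_transpose_of_trivial]
    exact Matrix.trace_conjTranspose_mul_self_eq_zero_iff.mp h2
  have hfin : u ⬝ᵥ (D *ᵥ u) = 0 := by
    rw [hD0, Matrix.zero_mulVec, dotProduct_zero]
  rw [hD, Matrix.sub_mulVec, Matrix.smul_mulVec, hu, dotProduct_sub, dotProduct_smul, hM,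
    Matrix.sum_mulVec, dotProduct_sum] at hfin
  have hterm : ∀ i ∈ (Finset.univ : Finset (Fin 8)),
      u ⬝ᵥ (Matrix.vecMulVec (w i) (w i) *ᵥ u) = (B G i.castSucc u v) ^ 2 := by
    intro i _
    rw [Matrix.vecMulVec_mulVec]
    have : w i ⬝ᵥ u = B G i.castSucc u v := by
      rw [dotProduct_comm]
      rfl
    have h2 : u ⬝ᵥ w i = B G i.castSucc u v := rfl
    rw [this, dotProduct_smul, h2, op_smul_eq_mul]
    ring
  rw [Finset.sum_congr rfl hterm, smul_eq_mul] at hfin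
  linarith

/-- Fierz, quartic form. -/
theorem fierz4 (ψ : Fin 16 → ℝ) : ∑ i : Fin 9, (B G i ψ ψ) ^ 2 = (ψ ⬝ᵥ ψ) ^ 2 := by
  set u : Fin 16 → ℝ := P G *ᵥ ψ with hu
  set v : Fin 16 → ℝ := ψ - u with hv
  have hPu : P G *ᵥ u = u := by
    rw [hu, Matrix.mulVec_mulVec, P_mul_P]
  have hPv : P G *ᵥ v = 0 := by
    rw [hv, Matrix.mulVec_sub, hPu, ← hu, sub_self]
  have hψ : ψ = u + v := by rw [hv]; abel
  have huv : u ⬝ᵥ v = 0 := by
    have : u ⬝ᵥ v = (P G *ᵥ u) ⬝ᵥ v := by rw [hPu]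
    rw [this, dotProduct_comm, Matrix.dotProduct_mulVec, ← Matrix.mulVec_transpose, P_symm, hPv,
      zero_dotProduct]
  have hgu : G.γ (Fin.last 8) *ᵥ u = u := by
    have h1 : G.γ (Fin.last 8) = (2 : ℝ) • P G - 1 := by
      unfold P
      rw [smul_smul]
      norm_num
    rw [h1, Matrix.sub_mulVec, Matrix.smul_mulVec, hPu, Matrix.one_mulVec, two_smul]
    abel
  have hgv : G.γ (Fin.last 8) *ᵥ v = -v := by
    have h1 : G.γ (Fin.last 8) = (2 : ℝ) • P G - 1 := by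
      unfold P
      rw [smul_smul]
      norm_num
    rw [h1, Matrix.sub_mulVec, Matrix.smul_mulVec, hPv, Matrix.one_mulVec, smul_zero, zero_sub]
  have hBu : ∀ i : Fin 8, B G i.castSucc u u = 0 := by
    intro i
    have h1 : P G *ᵥ (G.γ i.castSucc *ᵥ u) = 0 := by
      rw [Matrix.mulVec_mulVec, P_gam, ← Matrix.mulVec_mulVec, Matrix.sub_mulVec, hPu,
        Matrix.one_mulVec, sub_self, Matrix.mulVec_zero]
    unfold B
    have h2 : u ⬝ᵥ (G.γ i.castSucc *ᵥ u) = (P G *ᵥ u) ⬝ᵥ (G.γ i.castSucc *ᵥ u) := by rw [hPu]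
    rw [h2, dotProduct_comm, Matrix.dotProduct_mulVec, ← Matrix.mulVec_transpose, P_symm, h1,
      zero_dotProduct]
  have hBv : ∀ i : Fin 8, B G i.castSucc v v = 0 := by
    intro i
    have h1 : P G *ᵥ (G.γ i.castSucc *ᵥ v) = G.γ i.castSucc *ᵥ v := by
      rw [Matrix.mulVec_mulVec, P_gam, ← Matrix.mulVec_mulVec, Matrix.sub_mulVec, hPv,
        Matrix.one_mulVec, sub_zero]
    unfold B
    rw [← h1, Matrix.dotProduct_mulVec, ← Matrix.mulVec_transpose, P_symm, hPv,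
      zero_dotProduct]
  have hB : ∀ i : Fin 8, B G i.castSucc ψ ψ = 2 * B G i.castSucc u v := by
    intro i
    have h1 : B G i.castSucc ψ ψ = B G i.castSucc u u + B G i.castSucc u v
        + (B G i.castSucc v u + B G i.castSucc v v) := by
      unfold B
      rw [hψ]
      simp only [Matrix.mulVec_add, add_dotProduct, dotProduct_add]
      ring
    rw [h1, hBu, hBv, B_symm G _ v u]
    ring
  have hB8 : B G (Fin.last 8) ψ ψ = u ⬝ᵥ u - v ⬝ᵥ v := by
    unfold B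
    rw [hψ, Matrix.mulVec_add, hgu, hgv]
    simp only [add_dotProduct, dotProduct_add, dotProduct_neg, dotProduct_comm v u, huv]
    ring
  have hnorm : ψ ⬝ᵥ ψ = u ⬝ᵥ u + v ⬝ᵥ v := by
    rw [hψ]
    simp only [add_dotProduct, dotProduct_add, dotProduct_comm v u, huv]
    ring
  rw [Fin.sum_univ_castSucc, hB8, hnorm]
  have h8 : ∑ i : Fin 8, (B G i.castSucc ψ ψ) ^ 2 = 4 * ((u ⬝ᵥ u) * (v ⬝ᵥ v)) := by
    rw [← resolve G v hPv u hPu, Finset.mul_sum]
    refine Finset.sum_congr rfl fun i _ => ?_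
    rw [hB]
    ring
  rw [h8]
  ring

theorem B_add_left (i : Fin 9) (u u' v : Fin 16 → ℝ) :
    B G i (u + u') v = B G i u v + B G i u' v := by
  unfold B; rw [add_dotProduct]

theorem B_add_right (i : Fin 9) (u v v' : Fin 16 → ℝ) :
    B G i u (v + v') = B G i u v + B G i u v' := by
  unfold B; rw [Matrix.mulVec_add, dotProduct_add]

theorem B_smul_left (i : Fin 9) (t : ℝ) (u v : Fin 16 → ℝ) :
    B G i (t • u) v = t * B G i u v := by
  unfold B; rw [smul_dotProduct, smul_eq_mul]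

theorem B_smul_right (i : Fin 9) (t : ℝ) (u v : Fin 16 → ℝ) :
    B G i u (t • v) = t * B G i u v := by
  unfold B; rw [Matrix.mulVec_smul, dotProduct_smul, smul_eq_mul]

/-- Fierz, cubic form: `Σ_i (ψγ^iψ)(χγ^iψ) = (ψψ)(χψ)`. -/
theorem fierz3 (ψ χ : Fin 16 → ℝ) :
    ∑ i : Fin 9, B G i ψ ψ * B G i χ ψ = (ψ ⬝ᵥ ψ) * (χ ⬝ᵥ ψ) := by
  have key : ∀ t : ℝ, ∑ i : Fin 9, (B G i ψ ψ) ^ 2 + 4 * t * ∑ i : Fin 9, B G i ψ ψ * B G i χ ψ
      + t ^ 2 * ∑ i : Fin 9, (4 * (B G i χ ψ) ^ 2 + 2 * B G i ψ ψ * B G i χ χ)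
      + 4 * t ^ 3 * ∑ i : Fin 9, B G i χ χ * B G i χ ψ + t ^ 4 * ∑ i : Fin 9, (B G i χ χ) ^ 2
      = (ψ ⬝ᵥ ψ + 2 * t * (χ ⬝ᵥ ψ) + t ^ 2 * (χ ⬝ᵥ χ)) ^ 2 := by
    intro t
    have h := fierz4 G (ψ + t • χ)
    have h1 : ∀ i, B G i (ψ + t • χ) (ψ + t • χ) = B G i ψ ψ + 2 * t * B G i χ ψ
        + t ^ 2 * B G i χ χ := by
      intro i
      simp only [B_add_left, B_add_right, B_smul_left, B_smul_right, B_symm G i ψ χ]
      ring
    have h2 : (ψ + t • χ) ⬝ᵥ (ψ + t • χ) = ψ ⬝ᵥ ψ + 2 * t * (χ ⬝ᵥ ψ) + t ^ 2 * (χ ⬝ᵥ χ) := by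
      simp only [add_dotProduct, dotProduct_add, smul_dotProduct, dotProduct_smul, smul_eq_mul,
        dotProduct_comm ψ χ]
      ring
    rw [h2] at h
    rw [← h]
    simp only [h1, Finset.mul_sum, ← Finset.sum_add_distrib]
    refine Finset.sum_congr rfl fun i _ => ?_
    ring
  have e1 := key 1
  have e2 := key (-1)
  have e3 := key 2
  have e4 := key (-2)
  norm_num at e1 e2 e3 e4
  linear_combination (8 * (e1 - e2) - (e3 - e4)) / 48

/-- `(γ^kε)·(γ^iε) = δ_ik |ε|²`, in `B` form. -/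
theorem B_gam_self (i k : Fin 9) (ε : Fin 16 → ℝ) :
    B G i (G.γ k *ᵥ ε) ε = if i = k then ε ⬝ᵥ ε else 0 := by
  unfold B
  rw [dot_gam]
  simp only [eq_comm]

/-- `(γ^kε)·(γ^iη) = 2δ_ik ε·η − ε·γ^iγ^kη`. -/
theorem B_gam_swap (i k : Fin 9) (ε η : Fin 16 → ℝ) :
    B G i (G.γ k *ᵥ ε) η = (if i = k then 2 * (ε ⬝ᵥ η) else 0) - B G i ε (G.γ k *ᵥ η) := by
  unfold B
  rw [dot_mul]
  split_ifs with h
  · subst h
    rw [mulVec_mulVec_self]
    ring
  · rw [mulVec_anti G (Ne.symm h), dotProduct_neg]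
    ring

/-- Fierz, the form used for the supersymmetry algebra (with `γ^i γ^k`). -/
theorem fierzT (k : Fin 9) (ε η : Fin 16 → ℝ) :
    ∑ i : Fin 9, B G i ε η * B G i ε (G.γ k *ᵥ η) = (ε ⬝ᵥ η) * B G k ε η
      + (1 / 2) * ((ε ⬝ᵥ ε) * B G k η η - (η ⬝ᵥ η) * B G k ε ε) := by
  have key : ∀ t : ℝ, ∑ i : Fin 9, (B G i ε ε + 2 * t * B G i ε η + t ^ 2 * B G i η η)
      * (B G i (G.γ k *ᵥ ε) ε + t * B G i (G.γ k *ᵥ ε) η)
      = (ε ⬝ᵥ ε + 2 * t * (ε ⬝ᵥ η) + t ^ 2 * (η ⬝ᵥ η)) * (B G k ε ε + t * B G k ε η) := by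
    intro t
    have h := fierz3 G (ε + t • η) (G.γ k *ᵥ ε)
    have h1 : ∀ i, B G i (ε + t • η) (ε + t • η) = B G i ε ε + 2 * t * B G i ε η
        + t ^ 2 * B G i η η := by
      intro i
      simp only [B_add_left, B_add_right, B_smul_left, B_smul_right, B_symm G i η ε]
      ring
    have h2 : (ε + t • η) ⬝ᵥ (ε + t • η) = ε ⬝ᵥ ε + 2 * t * (ε ⬝ᵥ η) + t ^ 2 * (η ⬝ᵥ η) := by
      simp only [add_dotProduct, dotProduct_add, smul_dotProduct, dotProduct_smul, smul_eq_mul,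
        dotProduct_comm η ε]
      ring
    have h3 : (G.γ k *ᵥ ε) ⬝ᵥ (ε + t • η) = B G k ε ε + t * B G k ε η := by
      rw [dot_mul]
      unfold B
      rw [Matrix.mulVec_add, Matrix.mulVec_smul, dotProduct_add, dotProduct_smul, smul_eq_mul]
    rw [h2, h3] at h
    rw [← h]
    refine Finset.sum_congr rfl fun i _ => ?_
    rw [h1, B_add_right, B_smul_right]
  have e0 := key 0
  have e1 := key 1
  have e2 := key (-1)
  have hsum : ∑ i : Fin 9, (2 * B G i ε η * B G i (G.γ k *ᵥ ε) η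
      + B G i η η * B G i (G.γ k *ᵥ ε) ε) = 2 * (ε ⬝ᵥ η) * B G k ε η + (η ⬝ᵥ η) * B G k ε ε := by
    have h : ∑ i : Fin 9, (2 * B G i ε η * B G i (G.γ k *ᵥ ε) η
        + B G i η η * B G i (G.γ k *ᵥ ε) ε)
        = (1 / 2) * ∑ i : Fin 9, (B G i ε ε + 2 * 1 * B G i ε η + 1 ^ 2 * B G i η η)
            * (B G i (G.γ k *ᵥ ε) ε + 1 * B G i (G.γ k *ᵥ ε) η)
          + (1 / 2) * ∑ i : Fin 9, (B G i ε ε + 2 * (-1) * B G i ε η + (-1) ^ 2 * B G i η η)
            * (B G i (G.γ k *ᵥ ε) ε + (-1) * B G i (G.γ k *ᵥ ε) η)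
          - ∑ i : Fin 9, (B G i ε ε + 2 * 0 * B G i ε η + 0 ^ 2 * B G i η η)
            * (B G i (G.γ k *ᵥ ε) ε + 0 * B G i (G.γ k *ᵥ ε) η) := by
      rw [Finset.mul_sum, Finset.mul_sum, ← Finset.sum_add_distrib, ← Finset.sum_sub_distrib]
      refine Finset.sum_congr rfl fun i _ => ?_
      ring
    rw [h, e0, e1, e2]
    ring
  have hs2 : ∑ i : Fin 9, (2 * B G i ε η * B G i (G.γ k *ᵥ ε) η
      + B G i η η * B G i (G.γ k *ᵥ ε) ε)
      = 4 * (ε ⬝ᵥ η) * B G k ε η - 2 * ∑ i : Fin 9, B G i ε η * B G i ε (G.γ k *ᵥ η)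
        + (ε ⬝ᵥ ε) * B G k η η := by
    have : ∀ i : Fin 9, 2 * B G i ε η * B G i (G.γ k *ᵥ ε) η
      + B G i η η * B G i (G.γ k *ᵥ ε) ε =
        (if i = k then 4 * (ε ⬝ᵥ η) * B G i ε η + (ε ⬝ᵥ ε) * B G i η η else 0)
        - 2 * (B G i ε η * B G i ε (G.γ k *ᵥ η)) := by
      intro i
      rw [B_gam_swap, B_gam_self]
      split_ifs <;> ring
    rw [Finset.sum_congr rfl fun i _ => this i, Finset.sum_sub_distrib, ← Finset.mul_sum,
      Finset.sum_ite_eq' Finset.univ k]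
    simp only [Finset.mem_univ, if_true]
    ring
  linarith

/-- `u · γ^{ik} v` -/
noncomputable def B2 (i k : Fin 9) (u v : Fin 16 → ℝ) : ℝ := u ⬝ᵥ (G.γ2 i k *ᵥ v)

theorem B2_eq (i k : Fin 9) (u v : Fin 16 → ℝ) :
    B2 G i k u v = B G i u (G.γ k *ᵥ v) - if i = k then u ⬝ᵥ v else 0 := by
  unfold B2 B GammaNine.γ2
  rw [Matrix.smul_mulVec, Matrix.sub_mulVec, ← Matrix.mulVec_mulVec, ← Matrix.mulVec_mulVec,
    dotProduct_smul, dotProduct_sub, smul_eq_mul]
  split_ifs with h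
  · subst h
    rw [mulVec_mulVec_self]
    ring
  · rw [mulVec_anti G (Ne.symm h), dotProduct_neg]
    ring

/-- Fierz with `γ^{ik}`:
`Σ_i (ε·γ^iη)(ε·γ^{ik}η) = ½(|ε|² η·γ^kη − |η|² ε·γ^kε)`. -/
theorem fierz2 (k : Fin 9) (ε η : Fin 16 → ℝ) :
    ∑ i : Fin 9, B G i ε η * B2 G i k ε η
      = (1 / 2) * ((ε ⬝ᵥ ε) * B G k η η - (η ⬝ᵥ η) * B G k ε ε) := by
  have h := fierzT G k ε η
  have h2 : ∀ i : Fin 9, B G i ε η * B2 G i k ε η = B G i ε η * B G i ε (G.γ k *ᵥ η)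
      - if i = k then B G i ε η * (ε ⬝ᵥ η) else 0 := by
    intro i
    rw [B2_eq]
    split_ifs <;> ring
  rw [Finset.sum_congr rfl fun i _ => h2 i, Finset.sum_sub_distrib, h,
    Finset.sum_ite_eq' Finset.univ k]
  simp only [Finset.mem_univ, if_true]
  ring


theorem B2_add_left (i k : Fin 9) (u u' v : Fin 16 → ℝ) :
    B2 G i k (u + u') v = B2 G i k u v + B2 G i k u' v := by
  unfold B2; rw [add_dotProduct]

theorem B2_add_right (i k : Fin 9) (u v v' : Fin 16 → ℝ) :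
    B2 G i k u (v + v') = B2 G i k u v + B2 G i k u v' := by
  unfold B2; rw [Matrix.mulVec_add, dotProduct_add]

/-- `fierz2`, fully polarised. -/
theorem fierz2_polar (k : Fin 9) (a b c d : Fin 16 → ℝ) :
    ∑ i : Fin 9, (B G i a c * B2 G i k b d + B G i b c * B2 G i k a d
        + B G i a d * B2 G i k b c + B G i b d * B2 G i k a c)
      = 2 * ((a ⬝ᵥ b) * B G k c d - (c ⬝ᵥ d) * B G k a b) := by
  have key : ∑ i : Fin 9, (B G i a c * B2 G i k b d + B G i b c * B2 G i k a d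
        + B G i a d * B2 G i k b c + B G i b d * B2 G i k a c)
      = (∑ i : Fin 9, B G i (a + b) (c + d) * B2 G i k (a + b) (c + d)
        - ∑ i : Fin 9, B G i a (c + d) * B2 G i k a (c + d)
        - ∑ i : Fin 9, B G i b (c + d) * B2 G i k b (c + d))
        - (∑ i : Fin 9, B G i (a + b) c * B2 G i k (a + b) c
        - ∑ i : Fin 9, B G i a c * B2 G i k a c
        - ∑ i : Fin 9, B G i b c * B2 G i k b c)
        - (∑ i : Fin 9, B G i (a + b) d * B2 G i k (a + b) d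
        - ∑ i : Fin 9, B G i a d * B2 G i k a d
        - ∑ i : Fin 9, B G i b d * B2 G i k b d) := by
    simp only [← Finset.sum_sub_distrib]
    refine Finset.sum_congr rfl fun i _ => ?_
    simp only [B_add_left, B_add_right, B2_add_left, B2_add_right]
    ring
  rw [key]
  simp only [fierz2]
  simp only [add_dotProduct, dotProduct_add, B_add_left, B_add_right, dotProduct_comm b a,
    dotProduct_comm d c, B_symm G k b a, B_symm G k d c]
  ring

theorem B_single (i : Fin 9) (α β : Fin 16) :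
    B G i (Pi.single α 1) (Pi.single β 1) = G.γ i α β := by
  unfold B
  rw [Matrix.mulVec_single_one, single_one_dotProduct]
  rfl

theorem B2_single (i k : Fin 9) (α β : Fin 16) :
    B2 G i k (Pi.single α 1) (Pi.single β 1) = G.γ2 i k α β := by
  unfold B2
  rw [Matrix.mulVec_single_one, single_one_dotProduct]
  rfl

theorem dot_single (α β : Fin 16) :
    (Pi.single α 1 : Fin 16 → ℝ) ⬝ᵥ Pi.single β 1 = if α = β then 1 else 0 := by
  rw [single_one_dotProduct, Pi.single_apply]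

/-- Fierz, the index form used for the supersymmetry algebra. -/
theorem fierz_index (k : Fin 9) (α β c d : Fin 16) :
    ∑ i : Fin 9, (G.γ i α c * G.γ2 i k β d + G.γ i β c * G.γ2 i k α d
        + G.γ i α d * G.γ2 i k β c + G.γ i β d * G.γ2 i k α c)
      = 2 * ((if α = β then 1 else 0) * G.γ k c d - (if c = d then 1 else 0) * G.γ k α β) := by
  have h := fierz2_polar G k (Pi.single α 1) (Pi.single β 1) (Pi.single c 1) (Pi.single d 1)
  simpa only [B_single, B2_single, dot_single] using h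


theorem g2_self (i : Fin 9) : G.γ2 i i = 0 := by
  unfold GammaNine.γ2
  rw [sub_self, smul_zero]

theorem g2_ne {i j : Fin 9} (h : i ≠ j) : G.γ2 i j = G.γ i * G.γ j := by
  unfold GammaNine.γ2
  rw [anti G (Ne.symm h), sub_neg_eq_add, ← two_smul ℝ (G.γ i * G.γ j), smul_smul]
  norm_num

theorem g2_swap (i j : Fin 9) : G.γ2 j i = - G.γ2 i j := by
  unfold GammaNine.γ2
  rw [← smul_neg, neg_sub]

theorem g2_transpose (i j : Fin 9) : (G.γ2 i j)ᵀ = - G.γ2 i j := by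
  unfold GammaNine.γ2
  rw [Matrix.transpose_smul, Matrix.transpose_sub, Matrix.transpose_mul, Matrix.transpose_mul,
    G.symm, G.symm, ← smul_neg, neg_sub]

theorem g_symm (i : Fin 9) (α β : Fin 16) : G.γ i α β = G.γ i β α := by
  conv_lhs => rw [← G.symm i]
  rfl

theorem g2_asymm (i j : Fin 9) (α β : Fin 16) : G.γ2 i j α β = - G.γ2 i j β α := by
  have h := congrFun (congrFun (g2_transpose G i j) β) α
  rw [Matrix.transpose_apply, Matrix.neg_apply] at h
  exact h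

/-- `[γ^i, γ^{jk}] = 2δ_ij γ^k − 2δ_ik γ^j`. -/
theorem g_g2_comm (i j k : Fin 9) :
    G.γ i * G.γ2 j k - G.γ2 j k * G.γ i
      = (if i = j then (2 : ℝ) • G.γ k else 0) - (if i = k then (2 : ℝ) • G.γ j else 0) := by
  have h1 : G.γ i * G.γ j = (if i = j then (2 : ℝ) • (1 : Matrix (Fin 16) (Fin 16) ℝ) else 0)
      - G.γ j * G.γ i := by
    have := G.clifford i j
    rw [eq_sub_iff_add_eq, this]
    split_ifs
    · ext a b
      simp [Matrix.ofNat_apply, Matrix.one_apply]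
    · rfl
  have h2 : G.γ i * G.γ k = (if i = k then (2 : ℝ) • (1 : Matrix (Fin 16) (Fin 16) ℝ) else 0)
      - G.γ k * G.γ i := by
    have := G.clifford i k
    rw [eq_sub_iff_add_eq, this]
    split_ifs
    · ext a b
      simp [Matrix.ofNat_apply, Matrix.one_apply]
    · rfl
  have e1 : G.γ i * (G.γ j * G.γ k) = (if i = j then (2 : ℝ) • G.γ k else 0)
      - (if i = k then (2 : ℝ) • G.γ j else 0) + G.γ j * G.γ k * G.γ i := by
    rw [← mul_assoc, h1, sub_mul, mul_assoc (G.γ j), h2, mul_sub, ← mul_assoc]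
    split_ifs <;> simp <;> abel
  have e2 : G.γ i * (G.γ k * G.γ j) = (if i = k then (2 : ℝ) • G.γ j else 0)
      - (if i = j then (2 : ℝ) • G.γ k else 0) + G.γ k * G.γ j * G.γ i := by
    rw [← mul_assoc, h2, sub_mul, mul_assoc (G.γ k), h1, mul_sub, ← mul_assoc]
    split_ifs <;> simp <;> abel
  unfold GammaNine.γ2
  rw [mul_smul_comm, smul_mul_assoc, mul_sub, sub_mul, e1, e2, ← smul_sub]
  have : ∀ X Y Z W : Matrix (Fin 16) (Fin 16) ℝ,
      (1 / 2 : ℝ) • (X - Y + Z - (Y - X + W) - (Z - W)) = X - Y := by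
    intro X Y Z W
    have : X - Y + Z - (Y - X + W) - (Z - W) = (2 : ℝ) • (X - Y) := by
      rw [two_smul]; abel
    rw [this, smul_smul]
    norm_num
  exact this _ _ _ _

end Crest.Agent.R330.Gam962
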