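import Crest.Agent.R330.Ovl_693
import Crest.Agent.R330.Om0_331
import Crest.Agent.R330.Defs_478
import Crest.Agent.R330.Gam_962

/-!
# Row 330 (helper693): neutrality and parity of Clifford vacua, literal form

`G3 G = γ^4 γ^5 γ^6` (indices 3, 4, 5) : antisymmetric, square `-1`, anticommutes with `Gam G` and with
`γ^1, γ^2, γ^3`.

* `rho_vac1` : `J` commutes with `1 ⊗ R(h^{-1})` ⟹ `ρ h` maps vacua of `J` to vacua.
* `overlap_lit` : `J^2 = -1`, `J` anticommutes with `J'`, `J'^2 = -1` ⟹ vacua of `J`, `J'` have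
  non-zero inner product.
* `neutral_lit` : if moreover `J` commutes with `1 ⊗ R(h^{-1})` and `ρ h` fixes the vacuum of `J'` then
  `ρ h` fixes the vacuum of `J`.
* `neutral_G3` : `J' = (γ^4 γ^5 γ^6) ⊗ 1`.
* `parity_lit` : a unitary `U` with `U θ_k = -θ_k U` has the same eigenvalue on the two vacua.
-/

set_option autoImplicit false
set_option linter.unusedSectionVars false

open scoped InnerProductSpace BigOperators

noncomputable section

namespace Crest.Agent.R330.Ovl693

open Crest.MathPhysics.MatrixQM Crest.Agent.R330 Crest.Agent.R330.Neut45 Crest.Agent.R330.Om0331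

/-! ### `γ^4 γ^5 γ^6` -/

section gam

variable (G : GammaNine)


/-- a product of three pairwise different gammas, general -/
theorem triple_sq {i j k : Fin 9} (hij : i ≠ j) (hik : i ≠ k) (hjk : j ≠ k) :
    (G.γ i * G.γ j * G.γ k) * (G.γ i * G.γ j * G.γ k) = -1 := by
  have a := Gam962.anti G hij
  have b := Gam962.anti G hik
  have c := Gam962.anti G hjk
  have si := Gam962.sq_one G i
  have sj := Gam962.sq_one G j
  have sk := Gam962.sq_one G k
  calc (G.γ i * G.γ j * G.γ k) * (G.γ i * G.γ j * G.γ k)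
      = G.γ i * G.γ j * (G.γ k * G.γ i) * G.γ j * G.γ k := by simp only [mul_assoc]
    _ = G.γ i * G.γ j * (-(G.γ i * G.γ k)) * G.γ j * G.γ k := by rw [b, neg_neg]
    _ = -(G.γ i * (G.γ j * G.γ i) * (G.γ k * G.γ j) * G.γ k) := by
        simp only [mul_neg, neg_mul, mul_assoc]
    _ = -(G.γ i * (-(G.γ i * G.γ j)) * (-(G.γ j * G.γ k)) * G.γ k) := by
        rw [a, c, neg_neg, neg_neg]
    _ = -((G.γ i * G.γ i) * (G.γ j * G.γ j) * (G.γ k * G.γ k)) := by
        simp only [mul_neg, neg_mul, neg_neg, mul_assoc]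
    _ = -1 := by rw [si, sj, sk, mul_one, mul_one]


theorem triple_transpose {i j k : Fin 9} (hij : i ≠ j) (hik : i ≠ k) (hjk : j ≠ k) :
    (G.γ i * G.γ j * G.γ k).transpose = -(G.γ i * G.γ j * G.γ k) := by
  have a := Gam962.anti G hij
  have b := Gam962.anti G hik
  have c := Gam962.anti G hjk
  rw [Matrix.transpose_mul, Matrix.transpose_mul, G.symm, G.symm, G.symm]
  calc G.γ k * (G.γ j * G.γ i) = G.γ k * (-(G.γ i * G.γ j)) := by rw [a, neg_neg]
    _ = -((G.γ k * G.γ i) * G.γ j) := by simp only [mul_neg, mul_assoc]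
    _ = -((-(G.γ i * G.γ k)) * G.γ j) := by rw [b, neg_neg]
    _ = G.γ i * (G.γ k * G.γ j) := by simp only [neg_mul, neg_neg, mul_assoc]
    _ = -(G.γ i * G.γ j * G.γ k) := by rw [mul_assoc, c]; simp only [mul_neg, neg_neg]





theorem Gam_sq : Defs478.Gam G * Defs478.Gam G = -1 :=
  triple_sq G (by decide) (by decide) (by decide)

end gam

/-! ### literal forms -/

section lit

variable {N : ℕ} {F : Type*} [NormedAddCommGroup F] [InnerProductSpace ℂ F] {M : FermionRep N F}






variable [FiniteDimensional ℂ F] {b : ColorBasis N} (R : GaugeAction b M)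




end lit

end Crest.Agent.R330.Ovl693

end
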