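import Crest.Agent.R330.Neut_45
import Mathlib.Analysis.InnerProductSpace.Symmetric

/-!
# Row 330 (helper693): overlap of Clifford vacua

`θ : κ → End F` symmetric with `θ_j θ_k + θ_k θ_j = δ_jk`, irreducible; `J`, `J'` real matrices.
(Conventions of `Neut_45`: `IsVac θ J Ω : θ_k Ω = -i Σ_l J_lk θ_l Ω`.)

* `overlap_ne_zero` : `J' ^ 2 = -1`, `J'` antisymmetric, `1 - J' J` surjective, `Ω' ≠ 0` vacuum of `J'`,
  `Ω ≠ 0` vacuum of `J`  ⟹  `⟪Ω', Ω⟫ ≠ 0`.
* `overlap_ne_zero_of_anti` : the case `J ^ 2 = -1`, `J J' = - J' J`.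
* `neutral` : an isometry `U` with `U Ω' = Ω'` and `U Ω = lam • Ω` has `lam = 1`.
* `same_parity` : an isometry `U` with `U Ω' = s • Ω'` and `U Ω = t • Ω` has `s = t`.
-/

set_option autoImplicit false

open scoped InnerProductSpace BigOperators

noncomputable section

namespace Crest.Agent.R330.Ovl693

open Crest.Agent.R330.Neut45

variable {F : Type*} [NormedAddCommGroup F] [InnerProductSpace ℂ F] {κ : Type*} [Fintype κ]
  [DecidableEq κ]

/-- `θ(v) = Σ_k v_k θ_k`. -/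
def th (θ : κ → F →ₗ[ℂ] F) (v : κ → ℝ) : F →ₗ[ℂ] F := ∑ k, ((v k : ℝ) : ℂ) • θ k

variable {θ : κ → F →ₗ[ℂ] F}

omit [DecidableEq κ] in
theorem th_apply (v : κ → ℝ) (x : F) : th θ v x = ∑ k, ((v k : ℝ) : ℂ) • θ k x := by
  simp only [th, LinearMap.sum_apply, LinearMap.smul_apply]








omit [DecidableEq κ] in
/-- the vacuum relation for all vectors -/
theorem IsVac.all {J : Matrix κ κ ℝ} {Ω : F} (h : IsVac θ J Ω) (v : κ → ℝ) :
    th θ v Ω = -Complex.I • th θ (J.mulVec v) Ω := by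
  rw [th_apply, th_apply]
  have h1 : ∀ k, ((v k : ℝ) : ℂ) • θ k Ω =
      -Complex.I • ∑ l, ((J l k * v k : ℝ) : ℂ) • θ l Ω := by
    intro k
    rw [h k, smul_comm, Finset.smul_sum]
    congr 1
    refine Finset.sum_congr rfl fun l _ => ?_
    rw [smul_smul]
    push_cast
    rw [mul_comm]
  simp only [h1]
  rw [← Finset.smul_sum, Finset.sum_comm]
  congr 1
  refine Finset.sum_congr rfl fun l _ => ?_
  rw [← Finset.sum_smul, Matrix.mulVec, dotProduct, Complex.ofReal_sum]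

/-- annihilation operators of `J` -/
def an (θ : κ → F →ₗ[ℂ] F) (J : Matrix κ κ ℝ) (v : κ → ℝ) : F →ₗ[ℂ] F :=
  th θ v + Complex.I • th θ (J.mulVec v)

/-- creation operators of `J` -/
def cr (θ : κ → F →ₗ[ℂ] F) (J : Matrix κ κ ℝ) (v : κ → ℝ) : F →ₗ[ℂ] F :=
  th θ v - Complex.I • th θ (J.mulVec v)






/-- words of length at most `n` in the creation operators on `Ω'` -/
def W (θ : κ → F →ₗ[ℂ] F) (J : Matrix κ κ ℝ) (Ω : F) : ℕ → Submodule ℂ F
  | 0 => Submodule.span ℂ {Ω}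
  | n + 1 => W θ J Ω n ⊔ ⨆ v : κ → ℝ, (W θ J Ω n).map (cr θ J v)








end Crest.Agent.R330.Ovl693

end
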