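import Crest.Agent.R330.Cliff4_442
import Crest.Agent.R330.Ovl_693
import Crest.Agent.R330.Om0_331
import Crest.Agent.R330.Char_973
import Crest.Agent.R330.Ovl2_693
import Crest.Agent.R330.Fact2_161
import Crest.Agent.R330.Bind6_839
import Crest.Agent.R330.SInd_478
import Crest.Agent.R330.Prod_494
import Crest.Agent.R330.Cliff6_442

-- ▼ part R330/Real_311
section

/-!
# Row 330 (helper311): antiunitary lifts, reality of the heavy vacuum section

* `CF F` : the conjugate space (`c • f := conj c • f`), `conjO M O` : the conjugate module with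
  `θ' x = θ (O x)`.
* `exists_anti` : an orthogonal `O` with `O J = -J O` has an antiunitary lift `Θ` with
  `Θ (θ x f) = θ (O x) (Θ f)` and `Θ Ω = Ω` for the vacuum `Ω` of the complex structure `J`.
* `AntiU.starProjection`, `AntiU.im_inner_eq_zero` : `Θ` commutes with the projections on the
  subspaces it preserves; the inner products of the projections of `Ω` are real.
* `hvac θ S` : the heavy vacuum space of a real matrix `S`; preserved by `Θ` if `O S = -S O`.
-/

set_option autoImplicit false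
set_option linter.unusedSectionVars false

open scoped InnerProductSpace BigOperators

noncomputable section

namespace Crest.Agent.R330.Real311

open Crest.Agent.R330.Cliff442 Crest.Agent.R330.Neut45 Crest.Agent.R330.Ovl693

/-! ### The conjugate space -/

/-- The conjugate space of `F`. -/
def CF (F : Type*) : Type _ := F

namespace CF

variable {F : Type*} [NormedAddCommGroup F] [InnerProductSpace ℂ F]

instance : NormedAddCommGroup (CF F) := inferInstanceAs (NormedAddCommGroup F)

/-- The identity `F → CF F`. -/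
def mk (f : F) : CF F := f

/-- The identity `CF F → F`. -/
def un (f : CF F) : F := f

@[simp] theorem un_mk (f : F) : un (mk f) = f := rfl

@[simp] theorem mk_un (f : CF F) : mk (un f) = f := rfl

instance : Module ℂ (CF F) := Module.compHom F (starRingEnd ℂ)


theorem un_smul (c : ℂ) (f : CF F) : un (c • f) = (starRingEnd ℂ) c • un f := rfl



theorem norm_un (f : CF F) : ‖un f‖ = ‖f‖ := rfl

instance : NormedSpace ℂ (CF F) where
  norm_smul_le c f := by
    rw [← norm_un, un_smul, norm_smul, norm_un, RCLike.norm_conj]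

instance : InnerProductSpace ℂ (CF F) where
  inner f g := ⟪un g, un f⟫_ℂ
  norm_sq_eq_re_inner f := norm_sq_eq_re_inner (𝕜 := ℂ) (un f)
  conj_inner_symm f g := inner_conj_symm (𝕜 := ℂ) (un g) (un f)
  add_left f g h := inner_add_right (𝕜 := ℂ) (un h) (un f) (un g)
  smul_left f g c := by
    change ⟪un g, (starRingEnd ℂ) c • un f⟫_ℂ = (starRingEnd ℂ) c * ⟪un g, un f⟫_ℂ
    rw [inner_smul_right]


end CF

section crep

variable {V F : Type*} [NormedAddCommGroup V] [InnerProductSpace ℝ V]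
  [NormedAddCommGroup F] [InnerProductSpace ℂ F]




end crep

/-! ### Antiunitary maps -/

section anti

variable {F : Type*} [NormedAddCommGroup F] [InnerProductSpace ℂ F]

/-- Conjugate linear isometries. -/
structure AntiU (Θ : F → F) : Prop where
  add : ∀ f g, Θ (f + g) = Θ f + Θ g
  smul : ∀ (c : ℂ) f, Θ (c • f) = (starRingEnd ℂ) c • Θ f
  inner : ∀ f g, ⟪Θ f, Θ g⟫_ℂ = ⟪g, f⟫_ℂ

namespace AntiU

variable {Θ : F → F} (h : AntiU Θ)
include h

theorem zero : Θ 0 = 0 := by
  have := h.smul 0 0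
  simpa using this

theorem neg (f : F) : Θ (-f) = -Θ f := by
  have := h.smul (-1) f
  simpa using this

theorem sub (f g : F) : Θ (f - g) = Θ f - Θ g := by
  rw [sub_eq_add_neg, h.add, h.neg, sub_eq_add_neg]


theorem norm (f : F) : ‖Θ f‖ = ‖f‖ := by
  have h1 := h.inner f f
  rw [inner_self_c, inner_self_c] at h1
  have h2 : ‖Θ f‖ ^ 2 = ‖f‖ ^ 2 := by exact_mod_cast h1
  exact (sq_eq_sq₀ (norm_nonneg _) (norm_nonneg _)).1 h2



/-- An involutive `Θ` commutes with the projection on a subspace it preserves. -/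
theorem starProjection (hi : ∀ f, Θ (Θ f) = f) (W : Submodule ℂ F) [W.HasOrthogonalProjection]
    (hW : ∀ f ∈ W, Θ f ∈ W) (f : F) : Θ (W.starProjection f) = W.starProjection (Θ f) := by
  symm
  refine Submodule.eq_starProjection_of_mem_of_inner_eq_zero (hW _ ?_) ?_
  · exact Submodule.starProjection_apply_mem W f
  · intro w hw
    rw [← h.sub]
    conv_lhs => rw [← hi w]
    rw [h.inner, ← inner_conj_symm, Submodule.starProjection_inner_eq_zero _ _ (hW w hw), map_zero]


end AntiU


end anti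

/-! ### The lift -/

section lift

variable {V F : Type*} [NormedAddCommGroup V] [InnerProductSpace ℝ V]
  [NormedAddCommGroup F] [InnerProductSpace ℂ F] {ι : Type*}



/-- A complex structure `A` (skew, `A² = -1`) and its vacuum vector in pair form. -/
theorem exists_pairs [FiniteDimensional ℝ V] {M : CRep V F} {A : V →ₗ[ℝ] V} (hA : Skew A)
    (hA2 : ∀ x, A (A x) = -x) {Ω : F} (h1 : ‖Ω‖ = 1)
    (hΩ : ∀ x, M.θ x Ω + Complex.I • M.θ (A x) Ω = 0) :
    ∃ (m : ℕ) (u v : ℕ → V), M.Vac u v (Finset.range m) Ω ∧ (∀ k ∈ Finset.range m, v k = A (u k)) := by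
  have hB : Skew (-A) := fun x y => by
    rw [LinearMap.neg_apply, LinearMap.neg_apply, inner_neg_left, inner_neg_right, hA]
  obtain ⟨m, u, v, lam, hNF⟩ := hB.exists_NF
  have hau : ∀ k ∈ Finset.range m, A (u k) = lam k • v k := fun k hk => by
    have := hNF.au k hk
    rw [LinearMap.neg_apply, neg_smul, neg_inj] at this
    exact this
  have hav : ∀ k ∈ Finset.range m, A (v k) = -(lam k • u k) := fun k hk => by
    have := hNF.av k hk
    rw [LinearMap.neg_apply] at this
    rw [← this, neg_neg]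
  have hl : ∀ k ∈ Finset.range m, lam k = 1 := fun k hk => by
    have e1 := hA2 (u k)
    rw [hau k hk, map_smul, hav k hk, smul_neg, smul_smul, neg_inj] at e1
    have e2 : ⟪(lam k * lam k) • u k, u k⟫_ℝ = ⟪u k, u k⟫_ℝ := by rw [e1]
    rw [inner_smul_left, real_inner_self_eq_norm_sq, (hNF.prs.pr k hk).1] at e2
    simp only [conj_trivial, one_pow, mul_one] at e2
    nlinarith [hNF.pos k hk]
  have hv : ∀ k ∈ Finset.range m, v k = A (u k) := fun k hk => by
    rw [hau k hk, hl k hk, one_smul]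
  refine ⟨m, u, v, ⟨hNF.prs, fun x hx => ?_, fun k hk => ?_, h1⟩, hv⟩
  · have e := hNF.ker x hx
    rw [LinearMap.neg_apply, neg_eq_zero] at e
    have := hA2 x
    rw [e, map_zero] at this
    exact neg_eq_zero.1 this.symm
  · rw [CRep.ann_apply, hv k hk]
    exact hΩ (u k)


end lift

/-! ### The index form -/

section index

variable {F : Type*} [NormedAddCommGroup F] [InnerProductSpace ℂ F] {κ : Type*} [Fintype κ]
  [DecidableEq κ] {θ : κ → F →ₗ[ℂ] F}



/-- The linear map of a matrix. -/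
def mlin (J : Matrix κ κ ℝ) : EuclideanSpace ℝ κ →ₗ[ℝ] EuclideanSpace ℝ κ where
  toFun x := WithLp.toLp 2 (J.mulVec x)
  map_add' x y := by
    change WithLp.toLp 2 (J.mulVec ((x : κ → ℝ) + (y : κ → ℝ))) = _
    rw [Matrix.mulVec_add]
    rfl
  map_smul' r x := by
    change WithLp.toLp 2 (J.mulVec (r • (x : κ → ℝ))) = _
    rw [Matrix.mulVec_smul]
    rfl

theorem mlin_apply (J : Matrix κ κ ℝ) (x : EuclideanSpace ℝ κ) :
    mlin J x = WithLp.toLp 2 (J.mulVec x) := rfl

theorem inner_toLp (x y : EuclideanSpace ℝ κ) : ⟪x, y⟫_ℝ = (x : κ → ℝ) ⬝ᵥ (y : κ → ℝ) := by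
  rw [PiLp.inner_apply, dotProduct]
  refine Finset.sum_congr rfl fun k _ => ?_
  change y k * x k = x k * y k
  ring

theorem mlin_adj (J : Matrix κ κ ℝ) (x y : EuclideanSpace ℝ κ) :
    ⟪mlin J x, y⟫_ℝ = ⟪x, mlin J.transpose y⟫_ℝ := by
  rw [inner_toLp, inner_toLp]
  change J.mulVec x ⬝ᵥ (y : κ → ℝ) = (x : κ → ℝ) ⬝ᵥ J.transpose.mulVec y
  rw [Matrix.mulVec_transpose, dotProduct_comm, Matrix.dotProduct_mulVec, dotProduct_comm]

theorem mlin_mul (J K : Matrix κ κ ℝ) (x : EuclideanSpace ℝ κ) :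
    mlin J (mlin K x) = mlin (J * K) x := by
  rw [mlin_apply, mlin_apply, mlin_apply, ← Matrix.mulVec_mulVec]

theorem mlin_neg (J : Matrix κ κ ℝ) (x : EuclideanSpace ℝ κ) : mlin (-J) x = -mlin J x := by
  rw [mlin_apply, mlin_apply, Matrix.neg_mulVec]
  rfl

theorem mlin_one (x : EuclideanSpace ℝ κ) : mlin (1 : Matrix κ κ ℝ) x = x := by
  rw [mlin_apply, Matrix.one_mulVec]

theorem skew_mlin {J : Matrix κ κ ℝ} (hJ : J.transpose = -J) : Skew (mlin J) := by
  intro x y
  rw [mlin_adj, hJ, mlin_neg, inner_neg_right]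





/-- The heavy vacuum space of a real matrix `S`: `θ(Sv) f = -i θ(SSv) f`. -/
def hvac (θ : κ → F →ₗ[ℂ] F) (S : Matrix κ κ ℝ) : Submodule ℂ F where
  carrier := {f | ∀ v : κ → ℝ, an θ S (S.mulVec v) f = 0}
  add_mem' := fun {f g} hf hg v => by rw [map_add, hf v, hg v, add_zero]
  zero_mem' := fun v => map_zero _
  smul_mem' := fun c f hf v => by rw [map_smul, hf v, smul_zero]




end index

end Crest.Agent.R330.Real311

end
end

-- ▼ part R330/Om0b_331
section

/-!
# Closed forms of the neutrality statements (row 330), helper331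

The characters of `SU(N)` are trivial (`Char973.char_trivial`), so `Om0331.rho_fix_of_char` and
`Ovl693.neutral_G3` hold without hypotheses.
-/

set_option autoImplicit false

noncomputable section

open scoped InnerProductSpace BigOperators

namespace Crest.Agent.R330.Om0331

open Crest.MathPhysics.MatrixQM Crest.Agent.R330

variable {N : ℕ} {F : Type*} [NormedAddCommGroup F] [InnerProductSpace ℂ F]
  [FiniteDimensional ℂ F] {b : ColorBasis N} {M : FermionRep N F} (R : GaugeAction b M)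

theorem char_one (χ : Matrix.specialUnitaryGroup (Fin N) ℂ →* ℂ)
    (g : Matrix.specialUnitaryGroup (Fin N) ℂ) : χ g = 1 := Char973.char_trivial χ g

/-- **Every vacuum of a gauge-invariant `J` is fixed by the gauge group.** -/
theorem rho_fix {J : Matrix (Idx N) (Idx N) ℝ} (hJ : ∀ g, J * adI b g = adI b g * J)
    {Ω : F} (h : Neut45.IsVac (tht M) J Ω) (g : Matrix.specialUnitaryGroup (Fin N) ℂ) :
    R.ρ g Ω = Ω :=
  rho_fix_of_char R char_one hJ h g

/-- **The vacuum of `K ⊗ 1` is fixed by the gauge group**, for every real `16 × 16` matrix `K`. -/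
theorem rho_fix_tens (K : Matrix (Fin 16) (Fin 16) ℝ) {Ω : F}
    (h : Neut45.IsVac (tht M) (tens N K) Ω) (g : Matrix.specialUnitaryGroup (Fin N) ℂ) :
    R.ρ g Ω = Ω :=
  rho_fix R (tens_comm_adI b K) h g


/-- The other sign. -/
theorem rho_fix_neg_Gam (G : GammaNine) {Ω : F}
    (h : Neut45.IsVac (tht M) (-tens N (Defs478.Gam G)) Ω)
    (g : Matrix.specialUnitaryGroup (Fin N) ℂ) : R.ρ g Ω = Ω := by
  rw [← tens_neg] at h
  exact rho_fix_tens R _ h g


/-- Existence of a unit vacuum of `K ⊗ 1`, `K` a real orthogonal complex structure on `ℝ^16`. -/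
theorem exists_vac_tens [Nontrivial F] (M : FermionRep N F) {K : Matrix (Fin 16) (Fin 16) ℝ}
    (hK : K.transpose = -K) (hKK : K * K = -1) :
    ∃ Ω : F, ‖Ω‖ = 1 ∧ Neut45.IsVac (tht M) (tens N K) Ω := by
  have h1 : (tens N K).transpose = -tens N K := by rw [tens_transpose, hK, tens_neg]
  have h2 : tens N K * tens N K = -1 := by rw [tens_mul, hKK, tens_neg, tens_one]
  obtain ⟨Ω, h0, h⟩ := Neut45.exists_vac (cliff_tht M) h1 h2
  refine ⟨((‖Ω‖⁻¹ : ℝ) : ℂ) • Ω, ?_, ?_⟩
  · rw [norm_smul, Complex.norm_real, norm_inv, norm_norm, inv_mul_cancel₀ (norm_ne_zero_iff.2 h0)]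
  · rw [isVac_iff] at h ⊢
    intro k
    rw [map_smul, h k, smul_zero]

end Crest.Agent.R330.Om0331

end
end

-- ▼ part R330/FactI_161

/-!
# Row 330, S8-FACT (helper161): the factorisation for the literal data

* `cr M` : the Clifford module of a `FermionRep`; `row`, `ins` : spinor components of a vector.
* `GJ G` : the complex structure `Γ ⊗ 1`; `gu gv gs` : its pairs (depending only on `G` and `N`);
  `polG` : the polarisation of `cr M` by a unit reference vacuum (478's `IsGVac`);
  `isParity` : `par` is 478's parity.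
* `te ε` : the isometry `1 ⊗ ε` of a colour isometry `ε`; `mem_vacE_te` : the literal form of the
  vacuum space of a block.
* `rho_th`, `rho_wop` : gauge covariance.
* `mult` : 494's `Mult` structure.
* `prG` : the product over a family of blocks, all properties.
-/

set_option autoImplicit false
set_option linter.unusedSectionVars false

open MeasureTheory Crest.MathPhysics.MatrixQM
open scoped BigOperators InnerProductSpace

noncomputable section

namespace Crest.Agent.R330.FactI161

open Crest.Agent.R330.Cliff442 Crest.Agent.R330.Cliff442.CRep Crest.Agent.R330.Fact161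
open Crest.Agent.R330.LS839 Crest.Agent.R330.Bind6839 Crest.Agent.R330.Defs478
open Crest.Agent.R330.SInd478 Crest.Agent.R330.Om0331 Crest.Agent.R330.Real311

/-- Spinor-colour vectors. -/
abbrev W16 (N : ℕ) := EuclideanSpace ℝ (Fin 16 × Fin (N ^ 2 - 1))

/-! ### Rows -/

section rows

variable {N k : ℕ}

/-- The spinor component `β`. -/
def row (β : Fin 16) : W16 N →ₗ[ℝ] Colg N where
  toFun x := WithLp.toLp 2 fun A => x (β, A)
  map_add' _ _ := rfl
  map_smul' _ _ := rfl

theorem row_apply (β : Fin 16) (x : W16 N) (A : Fin (N ^ 2 - 1)) : row β x A = x (β, A) := rfl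

/-- The vector `e_β ⊗ u`. -/
def ins (β : Fin 16) : Colg N →ₗ[ℝ] W16 N where
  toFun u := WithLp.toLp 2 fun p => if p.1 = β then u p.2 else 0
  map_add' x y := by
    ext p
    change (if p.1 = β then x p.2 + y p.2 else 0) =
      (if p.1 = β then x p.2 else 0) + (if p.1 = β then y p.2 else 0)
    split_ifs <;> simp
  map_smul' r x := by
    ext p
    change (if p.1 = β then r * x p.2 else 0) = r * (if p.1 = β then x p.2 else 0)
    split_ifs <;> simp

theorem ins_apply (β : Fin 16) (u : Colg N) (p : Fin 16 × Fin (N ^ 2 - 1)) :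
    ins β u p = if p.1 = β then u p.2 else 0 := rfl

theorem ext_row {x y : W16 N} (h : ∀ β, row β x = row β y) : x = y := by
  ext p
  have := congrArg (fun u : Colg N => u p.2) (h p.1)
  exact this

theorem row_ins (β β' : Fin 16) (u : Colg N) : row β (ins β' u) = if β = β' then u else 0 := by
  ext A
  rw [row_apply, ins_apply]
  split_ifs <;> rfl

theorem row_ins_self (β : Fin 16) (u : Colg N) : row β (ins β u) = u := by
  rw [row_ins, if_pos rfl]

theorem inner_row (x y : W16 N) : ⟪x, y⟫_ℝ = ∑ β, ⟪row β x, row β y⟫_ℝ := by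
  rw [PiLp.inner_apply, Fintype.sum_prod_type]
  refine Finset.sum_congr rfl fun β _ => ?_
  rw [PiLp.inner_apply]
  rfl

theorem sum_ins_row (x : W16 N) : ∑ β, ins β (row β x) = x := by
  refine ext_row fun β => ?_
  rw [map_sum]
  simp only [row_ins]
  rw [Finset.sum_ite_eq]
  simp

theorem inner_ins (β : Fin 16) (u : Colg N) (y : W16 N) : ⟪ins β u, y⟫_ℝ = ⟪u, row β y⟫_ℝ := by
  rw [inner_row]
  simp only [row_ins]
  rw [Finset.sum_eq_single β]
  · rw [if_pos rfl]
  · intro β' _ h
    rw [if_neg h, inner_zero_left]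
  · intro h
    exact absurd (Finset.mem_univ _) h

/-- `1 ⊗ ε`. -/
def teL (ε : Colg k →ₗ[ℝ] Colg N) : W16 k →ₗ[ℝ] W16 N := ∑ β, ins β ∘ₗ ε ∘ₗ row β

theorem row_teL (ε : Colg k →ₗ[ℝ] Colg N) (β : Fin 16) (x : W16 k) :
    row β (teL ε x) = ε (row β x) := by
  unfold teL
  rw [LinearMap.sum_apply, map_sum]
  simp only [LinearMap.comp_apply, row_ins]
  rw [Finset.sum_ite_eq]
  simp

/-- `1 ⊗ ε` for an isometry. -/
def te (ε : Colg k →ₗᵢ[ℝ] Colg N) : W16 k →ₗᵢ[ℝ] W16 N :=
  (teL ε.toLinearMap).isometryOfInner fun x y => by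
    rw [inner_row, inner_row]
    refine Finset.sum_congr rfl fun β _ => ?_
    rw [row_teL, row_teL]
    exact ε.inner_map_map _ _

theorem row_te (ε : Colg k →ₗᵢ[ℝ] Colg N) (β : Fin 16) (x : W16 k) :
    row β (te ε x) = ε (row β x) := row_teL ε.toLinearMap β x

theorem te_ins (ε : Colg k →ₗᵢ[ℝ] Colg N) (β : Fin 16) (u : Colg k) :
    te ε (ins β u) = ins β (ε u) := by
  refine ext_row fun β' => ?_
  rw [row_te, row_ins, row_ins]
  split_ifs
  · rfl
  · rw [map_zero]

/-- Orthogonal colour blocks give orthogonal blocks. -/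
theorem te_orth {k' : ℕ} {ε : Colg k →ₗᵢ[ℝ] Colg N} {ε' : Colg k' →ₗᵢ[ℝ] Colg N}
    (h : ∀ u v, ⟪ε u, ε' v⟫_ℝ = 0) (x : W16 k) (y : W16 k') : ⟪te ε x, te ε' y⟫_ℝ = 0 := by
  rw [inner_row]
  refine Finset.sum_eq_zero fun β _ => ?_
  rw [row_te, row_te, h]

/-- A colour vector orthogonal to the block. -/
theorem ins_orth {ε : Colg k →ₗᵢ[ℝ] Colg N} {u : Colg N} (h : ∀ v, ⟪u, ε v⟫_ℝ = 0) (β : Fin 16)
    (y : W16 k) : ⟪ins β u, te ε y⟫_ℝ = 0 := by
  rw [inner_ins, row_te, h]

end rows

/-! ### The Clifford module -/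

section rep

variable {N k : ℕ} {F F₁ : Type*} [NormedAddCommGroup F] [InnerProductSpace ℂ F]
  [NormedAddCommGroup F₁] [InnerProductSpace ℂ F₁]

/-- The Clifford module over `EuclideanSpace ℝ (Fin 16 × Fin (N^2-1))`. -/
def cr (M : FermionRep N F) : CRep (W16 N) F :=
  CRep.of (fun p : Fin 16 × Fin (N ^ 2 - 1) => M.θ p.1 p.2) (fun p => M.selfAdjoint p.1 p.2)
    fun p q => by
      rw [M.anticomm]
      simp only [Prod.ext_iff]

theorem cr_apply (M : FermionRep N F) (x : W16 N) (f : F) :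
    (cr M).θ x f = ∑ p, ((x p : ℝ) : ℂ) • M.θ p.1 p.2 f := by
  change (∑ p, ((x p : ℝ) : ℂ) • M.θ p.1 p.2 : F →ₗ[ℂ] F) f = _
  rw [LinearMap.sum_apply]
  rfl

theorem cr_single (M : FermionRep N F) (p : Fin 16 × Fin (N ^ 2 - 1)) :
    (cr M).θ (EuclideanSpace.single p (1 : ℝ)) = M.θ p.1 p.2 :=
  CRep.of_single _ _ _ p

theorem cr_irr (M : FermionRep N F) : (cr M).IrrOn ⊤ ⊤ :=
  CRep.of_irr _ _ _ fun W hW => M.irreducible W fun α A f hf => hW (α, A) f hf

theorem cr_eq_sum (M : FermionRep N F) (x : W16 N) (f : F) :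
    (cr M).θ x f = ∑ β, thv M β (row β x) f := by
  rw [cr_apply, Fintype.sum_prod_type]
  refine Finset.sum_congr rfl fun β _ => ?_
  unfold thv
  rw [LinearMap.sum_apply]
  rfl

theorem cr_ins (M : FermionRep N F) (β : Fin 16) (u : Colg N) : (cr M).θ (ins β u) = thv M β u := by
  ext f
  rw [cr_eq_sum]
  simp only [row_ins]
  rw [Finset.sum_eq_single β]
  · rw [if_pos rfl]
  · intro β' _ h
    rw [if_neg h]
    unfold thv
    simp
  · intro h
    exact absurd (Finset.mem_univ _) h

end rep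

/-! ### The complex structure `Γ ⊗ 1` -/

section gam

theorem Gam_transpose (G : GammaNine) : (Gam G).transpose = -Gam G := by
  have h01 := G.clifford 0 1
  have h02 := G.clifford 0 2
  have h12 := G.clifford 1 2
  rw [if_neg (by decide)] at h01 h02 h12
  unfold Gam
  rw [Matrix.transpose_mul, Matrix.transpose_mul, G.symm, G.symm, G.symm]
  have e1 : G.γ 1 * G.γ 0 = -(G.γ 0 * G.γ 1) := by
    rw [eq_neg_iff_add_eq_zero, add_comm]; exact h01
  have e2 : G.γ 2 * G.γ 0 = -(G.γ 0 * G.γ 2) := by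
    rw [eq_neg_iff_add_eq_zero, add_comm]; exact h02
  have e3 : G.γ 2 * G.γ 1 = -(G.γ 1 * G.γ 2) := by
    rw [eq_neg_iff_add_eq_zero, add_comm]; exact h12
  rw [e1, mul_neg, ← Matrix.mul_assoc, e2, neg_mul, neg_neg, Matrix.mul_assoc, e3, mul_neg,
    Matrix.mul_assoc]

theorem Gam_mul (G : GammaNine) : Gam G * Gam G = -1 := by
  have h01 := G.clifford 0 1
  have h02 := G.clifford 0 2
  have h12 := G.clifford 1 2
  have h00 := G.clifford 0 0
  have h11 := G.clifford 1 1
  have h22 := G.clifford 2 2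
  rw [if_neg (by decide)] at h01 h02 h12
  rw [if_pos rfl] at h00 h11 h22
  have sq : ∀ X : Matrix (Fin 16) (Fin 16) ℝ, X * X + X * X = 2 → X * X = 1 := by
    intro X hX
    have h2 : (2 : ℝ) • (X * X) = (2 : ℝ) • (1 : Matrix (Fin 16) (Fin 16) ℝ) := by
      rw [two_smul, hX, two_smul]
      norm_num
    exact smul_right_injective _ (two_ne_zero) h2
  have s0 := sq _ h00
  have s1 := sq _ h11
  have s2 := sq _ h22
  have e1 : G.γ 1 * G.γ 0 = -(G.γ 0 * G.γ 1) := by
    rw [eq_neg_iff_add_eq_zero, add_comm]; exact h01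
  have e2 : G.γ 2 * G.γ 0 = -(G.γ 0 * G.γ 2) := by
    rw [eq_neg_iff_add_eq_zero, add_comm]; exact h02
  have e3 : G.γ 2 * G.γ 1 = -(G.γ 1 * G.γ 2) := by
    rw [eq_neg_iff_add_eq_zero, add_comm]; exact h12
  unfold Gam
  calc G.γ 0 * G.γ 1 * G.γ 2 * (G.γ 0 * G.γ 1 * G.γ 2)
      = G.γ 0 * (G.γ 1 * (G.γ 2 * G.γ 0) * G.γ 1 * G.γ 2) := by
        simp only [Matrix.mul_assoc]
    _ = G.γ 0 * (G.γ 1 * -(G.γ 0 * G.γ 2) * G.γ 1 * G.γ 2) := by rw [e2]
    _ = -(G.γ 0 * ((G.γ 1 * G.γ 0) * (G.γ 2 * G.γ 1) * G.γ 2)) := by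
        simp only [Matrix.mul_neg, Matrix.neg_mul, Matrix.mul_assoc]
    _ = -(G.γ 0 * (-(G.γ 0 * G.γ 1) * -(G.γ 1 * G.γ 2) * G.γ 2)) := by rw [e1, e3]
    _ = -((G.γ 0 * G.γ 0) * ((G.γ 1 * G.γ 1) * (G.γ 2 * G.γ 2))) := by
        simp only [Matrix.mul_neg, Matrix.neg_mul, Matrix.mul_assoc, neg_neg]
    _ = -1 := by rw [s0, s1, s2]; simp

variable {N k : ℕ}

/-- The complex structure `Γ ⊗ 1`. -/
def GJ (G : GammaNine) (N : ℕ) : W16 N →ₗ[ℝ] W16 N := mlin (tens N (Gam G))

theorem row_GJ (G : GammaNine) (β : Fin 16) (x : W16 N) :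
    row β (GJ G N x) = ∑ β', Gam G β β' • row β' x := by
  ext A
  rw [row_apply]
  change (tens N (Gam G)).mulVec x (β, A) = _
  rw [Matrix.mulVec, dotProduct, Fintype.sum_prod_type]
  have h1 : ∀ β', ∑ B, tens N (Gam G) (β, A) (β', B) * x (β', B) = Gam G β β' * x (β', A) := by
    intro β'
    simp only [tens]
    rw [Finset.sum_eq_single A]
    · rw [if_pos rfl]
    · intro B _ hB
      rw [if_neg (Ne.symm hB), zero_mul]
    · intro h
      exact absurd (Finset.mem_univ _) h
  simp only [h1]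
  have h2 : ∀ s : Finset (Fin 16), (∑ β' ∈ s, Gam G β β' • row β' x : Colg N) A =
      ∑ β' ∈ s, Gam G β β' * x (β', A) := by
    classical
    intro s
    induction s using Finset.induction_on with
    | empty => simp
    | insert a s ha ih =>
      rw [Finset.sum_insert ha, Finset.sum_insert ha, PiLp.add_apply, ih]
      rfl
  rw [h2]

theorem tens_GJ_sq (G : GammaNine) : tens N (Gam G) * tens N (Gam G) = -1 := by
  rw [tens_mul, Gam_mul, tens_neg, tens_one]

theorem tens_GJ_transpose (G : GammaNine) : (tens N (Gam G)).transpose = -tens N (Gam G) := by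
  rw [tens_transpose, Gam_transpose, tens_neg]

theorem GJ_skew (G : GammaNine) (N : ℕ) : Skew (GJ G N) := skew_mlin (tens_GJ_transpose G)

theorem GJ_GJ (G : GammaNine) (x : W16 N) : GJ G N (GJ G N x) = -x := by
  unfold GJ
  rw [mlin_mul, tens_GJ_sq, mlin_neg, mlin_one]

theorem te_GJ (G : GammaNine) (ε : Colg k →ₗᵢ[ℝ] Colg N) (x : W16 k) :
    te ε (GJ G k x) = GJ G N (te ε x) := by
  refine ext_row fun β => ?_
  rw [row_te, row_GJ, row_GJ, map_sum]
  refine Finset.sum_congr rfl fun β' _ => ?_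
  rw [map_smul, row_te]

/-- Pairs of `Γ ⊗ 1`. -/
theorem exists_gp (G : GammaNine) (N : ℕ) : ∃ (m : ℕ) (u v : ℕ → W16 N),
    Prs u v (Finset.range m) ∧ perpS (⊤ : Submodule ℝ (W16 N)) u v (Finset.range m) = ⊥ ∧
    (∀ j ∈ Finset.range m, v j = -GJ G N (u j)) ∧ ∀ j ∈ Finset.range m, u j = GJ G N (v j) := by
  obtain ⟨m, u, v, lam, h⟩ := (GJ_skew G N).exists_NF
  have hl : ∀ j ∈ Finset.range m, lam j = 1 := fun j hj => by
    have e1 := GJ_GJ G (u j)
    rw [h.au j hj, map_smul, h.av j hj, smul_smul, neg_mul, neg_smul, neg_inj] at e1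
    have e2 : ⟪(lam j * lam j) • u j, u j⟫_ℝ = ⟪u j, u j⟫_ℝ := by rw [e1]
    rw [inner_smul_left, real_inner_self_eq_norm_sq, (h.prs.pr j hj).1] at e2
    simp only [conj_trivial, one_pow, mul_one] at e2
    nlinarith [h.pos j hj]
  refine ⟨m, u, v, h.prs, ?_, fun j hj => ?_, fun j hj => ?_⟩
  · rw [Submodule.eq_bot_iff]
    intro x hx
    have e := h.ker x (mem_perpS.1 hx).2
    have e1 := GJ_GJ G x
    rw [e, map_zero] at e1
    exact neg_eq_zero.1 e1.symm
  · rw [h.au j hj, hl j hj, neg_smul, one_smul, neg_neg]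
  · rw [h.av j hj, hl j hj, one_smul]

/-- the number of pairs -/
def gm (G : GammaNine) (N : ℕ) : ℕ := Classical.choose (exists_gp G N)

/-- the index set of the pairs -/
def gs (G : GammaNine) (N : ℕ) : Finset ℕ := Finset.range (gm G N)

/-- first members -/
def gu (G : GammaNine) (N : ℕ) : ℕ → W16 N :=
  Classical.choose (Classical.choose_spec (exists_gp G N))

/-- second members -/
def gv (G : GammaNine) (N : ℕ) : ℕ → W16 N :=
  Classical.choose (Classical.choose_spec (Classical.choose_spec (exists_gp G N)))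

theorem gp_spec (G : GammaNine) (N : ℕ) : Prs (gu G N) (gv G N) (gs G N) ∧
    perpS (⊤ : Submodule ℝ (W16 N)) (gu G N) (gv G N) (gs G N) = ⊥ ∧
    (∀ j ∈ gs G N, gv G N j = -GJ G N (gu G N j)) ∧ ∀ j ∈ gs G N, gu G N j = GJ G N (gv G N j) :=
  Classical.choose_spec (Classical.choose_spec (Classical.choose_spec (exists_gp G N)))

theorem gp_expand (G : GammaNine) (x : W16 N) : x = ∑ l ∈ gs G N,
    (⟪x, gu G N l⟫_ℝ • gu G N l + ⟪x, gv G N l⟫_ℝ • gv G N l) := by
  obtain ⟨h1, h2, -, -⟩ := gp_spec G N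
  have h3 : x - ∑ l ∈ gs G N, (⟪x, gu G N l⟫_ℝ • gu G N l + ⟪x, gv G N l⟫_ℝ • gv G N l) ∈
      perpS (⊤ : Submodule ℝ (W16 N)) (gu G N) (gv G N) (gs G N) :=
    mem_perpS.2 ⟨Submodule.mem_top, h1.proj_mem x⟩
  rw [h2, Submodule.mem_bot, sub_eq_zero] at h3
  exact h3

/-- Annihilation by the pairs is annihilation by all `θ(x) - i θ(Γ x)`. -/
theorem pairs_iff {V F : Type*} [NormedAddCommGroup V] [InnerProductSpace ℝ V]
    [NormedAddCommGroup F] [InnerProductSpace ℂ F] (M : CRep V F) (G : GammaNine)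
    (e : W16 N →ₗᵢ[ℝ] V) (w : F) :
    (∀ j ∈ gs G N, M.ann (e (gu G N j)) (e (gv G N j)) w = 0) ↔
      ∀ x, M.θ (e x) w = Complex.I • M.θ (e (GJ G N x)) w := by
  obtain ⟨-, -, h3, h4⟩ := gp_spec G N
  constructor
  · intro h x
    let S : Submodule ℝ (W16 N) :=
      { carrier := {x | M.θ (e x) w = Complex.I • M.θ (e (GJ G N x)) w}
        add_mem' := fun {a b} ha hb => by
          have ha' : M.θ (e a) w = Complex.I • M.θ (e (GJ G N a)) w := ha
          have hb' : M.θ (e b) w = Complex.I • M.θ (e (GJ G N b)) w := hb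
          change M.θ (e (a + b)) w = Complex.I • M.θ (e (GJ G N (a + b))) w
          rw [map_add, map_add, map_add, M.add, M.add, LinearMap.add_apply, LinearMap.add_apply,
            ha', hb', smul_add]
        zero_mem' := by
          change M.θ (e 0) w = Complex.I • M.θ (e (GJ G N 0)) w
          rw [map_zero, map_zero, map_zero, M.zero]
          simp
        smul_mem' := fun r a ha => by
          have ha' : M.θ (e a) w = Complex.I • M.θ (e (GJ G N a)) w := ha
          change M.θ (e (r • a)) w = Complex.I • M.θ (e (GJ G N (r • a))) w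
          rw [map_smul, map_smul, map_smul, M.smul, M.smul, LinearMap.smul_apply,
            LinearMap.smul_apply, ha', smul_comm] }
    have hu : ∀ j ∈ gs G N, gu G N j ∈ S := fun j hj => by
      have h5 := h j hj
      rw [ann_apply, h3 j hj, map_neg, M.neg, LinearMap.neg_apply, smul_neg, ← sub_eq_add_neg,
        sub_eq_zero] at h5
      exact h5
    have hv : ∀ j ∈ gs G N, gv G N j ∈ S := fun j hj => by
      have h5 := h j hj
      rw [ann_apply] at h5
      change M.θ (e (gv G N j)) w = Complex.I • M.θ (e (GJ G N (gv G N j))) w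
      rw [← h4 j hj, eq_neg_of_add_eq_zero_left h5, smul_neg, smul_smul, Complex.I_mul_I, neg_smul,
        one_smul, neg_neg]
    have hx : x ∈ S := by
      rw [gp_expand G x]
      exact Submodule.sum_mem _ fun l hl => S.add_mem (S.smul_mem _ (hu l hl)) (S.smul_mem _ (hv l hl))
    exact hx
  · intro h j hj
    rw [ann_apply, h, h3 j hj, map_neg, M.neg, LinearMap.neg_apply, smul_neg, ← sub_eq_add_neg,
      sub_self]

end gam

/-! ### The polarisation -/

section pol

variable {N k : ℕ} {F F₁ : Type*} [NormedAddCommGroup F] [InnerProductSpace ℂ F]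
  [NormedAddCommGroup F₁] [InnerProductSpace ℂ F₁]

/-- `IsGVac` in vector form. -/
theorem isGVac_iff (M : FermionRep N F) (G : GammaNine) (Ω : F) :
    IsGVac M G Ω ↔ ∀ x, (cr M).θ x Ω = Complex.I • (cr M).θ (GJ G N x) Ω := by
  have key : ∀ α A, (cr M).θ (GJ G N (EuclideanSpace.single (α, A) 1)) Ω =
      ∑ β, ((Gam G β α : ℝ) : ℂ) • M.θ β A Ω := by
    intro α A
    rw [cr_apply, Fintype.sum_prod_type]
    refine Finset.sum_congr rfl fun β _ => ?_
    have h1 : ∀ B, (GJ G N (EuclideanSpace.single (α, A) (1 : ℝ)) : W16 N) (β, B) =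
        if B = A then Gam G β α else 0 := by
      intro B
      change (tens N (Gam G)).mulVec (EuclideanSpace.single (α, A) (1 : ℝ)) (β, B) = _
      have : ((EuclideanSpace.single (α, A) (1 : ℝ) : W16 N) : (Fin 16 × Fin (N ^ 2 - 1)) → ℝ) =
          Pi.single (α, A) 1 := rfl
      rw [this, Matrix.mulVec_single_one]
      rfl
    simp only [h1]
    rw [Finset.sum_eq_single A]
    · rw [if_pos rfl]
    · intro B _ hB
      rw [if_neg hB]
      simp
    · intro h
      exact absurd (Finset.mem_univ _) h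
  constructor
  · intro h x
    have hx : x = ∑ p, x p • (EuclideanSpace.single p (1 : ℝ) : W16 N) := by
      ext q
      simp [Finset.sum_apply, Pi.single_apply]
    have e1 : (cr M).θ (GJ G N x) Ω = ∑ p, ((x p : ℝ) : ℂ) •
        (cr M).θ (GJ G N (EuclideanSpace.single p 1)) Ω := by
      conv_lhs => rw [hx]
      rw [map_sum, CRep.sum, LinearMap.sum_apply]
      refine Finset.sum_congr rfl fun p _ => ?_
      rw [map_smul, CRep.smul]
      rfl
    rw [e1, cr_apply, Finset.smul_sum]
    refine Finset.sum_congr rfl fun p _ => ?_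
    rw [key p.1 p.2, h p.1 p.2, smul_comm]
  · intro h α A
    rw [← key, ← h, cr_single]

/-- **The polarisation of the literal module.** -/
theorem polG {M : FermionRep N F} {G : GammaNine} {Ω : F} (hΩ : IsGVac M G Ω) (h1 : ‖Ω‖ = 1) :
    Pol (cr M) (gu G N) (gv G N) (gs G N) Ω where
  irr := cr_irr M
  prs := (gp_spec G N).1
  span := (gp_spec G N).2.1
  vac := by
    rw [mem_vacS]
    refine ⟨Submodule.mem_top, ?_⟩
    have := (pairs_iff (cr M) G (LinearIsometry.id : W16 N →ₗᵢ[ℝ] W16 N) Ω).2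
      ((isGVac_iff M G Ω).1 hΩ)
    exact this
  norm := h1

/-- Existence of unit reference vacua. -/
theorem exists_gvac [Nontrivial F] [FiniteDimensional ℂ F] (M : FermionRep N F) (G : GammaNine) :
    ∃ Ω : F, ‖Ω‖ = 1 ∧ IsGVac M G Ω := by
  obtain ⟨Ω, h1, h2⟩ := exists_vac_tens M (K := -Gam G)
    (by rw [Matrix.transpose_neg, Gam_transpose]) (by rw [neg_mul_neg, Gam_mul])
  refine ⟨Ω, h1, fun α A => ?_⟩
  have h3 := h2 (α, A)
  change M.θ α A Ω = _ at h3
  rw [h3]
  rw [Fintype.sum_prod_type, neg_smul, ← smul_neg, ← Finset.sum_neg_distrib]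
  congr 1
  refine Finset.sum_congr rfl fun β _ => ?_
  rw [Finset.sum_eq_single A]
  · simp only [tens, if_true, Matrix.neg_apply, Complex.ofReal_neg, neg_smul, neg_neg]
  · intro B _ hB
    simp [tens, hB]
  · intro h
    exact absurd (Finset.mem_univ _) h

/-- The reference vacuum is unique up to a factor. -/
theorem gvac_line {M : FermionRep N F} {G : GammaNine} {Ω : F} (hΩ : IsGVac M G Ω) (h1 : ‖Ω‖ = 1)
    {f : F} (hf : IsGVac M G f) : f = ⟪Ω, f⟫_ℂ • Ω := by
  refine (polG hΩ h1).line ?_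
  rw [mem_vacS]
  exact ⟨Submodule.mem_top, (pairs_iff (cr M) G (LinearIsometry.id : W16 N →ₗᵢ[ℝ] W16 N) f).2
    ((isGVac_iff M G f).1 hf)⟩

/-- **The parity of the polarisation is the parity of the induction hypothesis.** -/
theorem isParity {M : FermionRep N F} {G : GammaNine} {Ω : F} (hΩ : IsGVac M G Ω)
    (h1 : ‖Ω‖ = 1) : IsParity M G (par (polG hΩ h1)) where
  anti α A v := by
    have h := par_th (polG hΩ h1) (EuclideanSpace.single (α, A) 1) v
    rw [cr_single] at h
    exact h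
  vac f hf := by
    rw [gvac_line hΩ h1 hf, map_smul, par_vac]

/-- Even vectors with respect to 478's parities are even with respect to `par`. -/
theorem par_of_parity {M : FermionRep N F} {G : GammaNine} {Ω : F} (hΩ : IsGVac M G Ω)
    (h1 : ‖Ω‖ = 1) {f : F} (hf : ∀ P : F →ₗ[ℂ] F, IsParity M G P → P f = f) :
    par (polG hΩ h1) f = f := hf _ (isParity hΩ h1)

/-! ### Blocks -/

variable (M : FermionRep N F) (G : GammaNine) (ε : Colg k →ₗᵢ[ℝ] Colg N)

/-- The vacuum space of a block. -/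
abbrev vacB : Submodule ℂ F := vacE (cr M) (te ε) (gu G k) (gv G k) (gs G k)

theorem mem_vacB {w : F} : w ∈ vacB M G ε ↔
    ∀ x, (cr M).θ (te ε x) w = Complex.I • (cr M).θ (te ε (GJ G k x)) w := by
  rw [mem_vacE]
  exact pairs_iff (cr M) G (te ε) w

theorem cr_te_ins (β : Fin 16) (c : Colg k) : (cr M).θ (te ε (ins β c)) = thv M β (ε c) := by
  rw [te_ins, cr_ins]

theorem cr_te (x : W16 k) (f : F) : (cr M).θ (te ε x) f = ∑ β, thv M β (ε (row β x)) f := by
  rw [cr_eq_sum]
  simp only [row_te]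

theorem GJ_ins (β : Fin 16) (c : Colg k) : GJ G k (ins β c) = ∑ β', ins β' (Gam G β' β • c) := by
  refine ext_row fun α => ?_
  rw [row_GJ, map_sum]
  simp only [row_ins]
  rw [Finset.sum_ite_eq, if_pos (Finset.mem_univ _), Finset.sum_eq_single β]
  · rw [if_pos rfl]
  · intro β' _ h
    rw [if_neg h, smul_zero]
  · intro h
    exact absurd (Finset.mem_univ _) h

theorem thv_smul (β : Fin 16) (r : ℝ) (c : Colg N) (f : F) :
    thv M β (r • c) f = ((r : ℝ) : ℂ) • thv M β c f := by
  rw [← cr_ins, ← cr_ins, map_smul, CRep.smul]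
  rfl

/-- **The literal form of the vacuum space of a block.** -/
theorem mem_vacB_iff {w : F} : w ∈ vacB M G ε ↔ ∀ (β : Fin 16) (c : Colg k),
    thv M β (ε c) w = Complex.I • ∑ β', ((Gam G β' β : ℝ) : ℂ) • thv M β' (ε c) w := by
  rw [mem_vacB]
  have key : ∀ β c, (cr M).θ (te ε (GJ G k (ins β c))) w =
      ∑ β', ((Gam G β' β : ℝ) : ℂ) • thv M β' (ε c) w := by
    intro β c
    rw [GJ_ins, map_sum, CRep.sum, LinearMap.sum_apply]
    refine Finset.sum_congr rfl fun β' _ => ?_
    rw [cr_te_ins, map_smul, thv_smul]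
  constructor
  · intro h β c
    have h1 := h (ins β c)
    rw [key, cr_te_ins] at h1
    exact h1
  · intro h x
    conv_lhs => rw [← sum_ins_row x]
    conv_rhs => rw [← sum_ins_row x]
    rw [map_sum, map_sum, map_sum, CRep.sum, CRep.sum, LinearMap.sum_apply, LinearMap.sum_apply,
      Finset.smul_sum]
    refine Finset.sum_congr rfl fun β _ => ?_
    rw [key, cr_te_ins, h]

/-- The whole reference vacuum lies in every block vacuum space. -/
theorem gvac_mem_vacB {Ω : F} (hΩ : IsGVac M G Ω) : Ω ∈ vacB M G ε := by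
  rw [mem_vacB]
  intro x
  rw [te_GJ]
  exact (isGVac_iff M G Ω).1 hΩ _

end pol

end Crest.Agent.R330.FactI161

end
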