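import Crest.Agent.R330.Fact2_161
import Crest.Agent.R330.FactI_161
import Crest.Agent.R330.TCore_944
import Crest.Agent.R330.Blk2_317

-- ▼ part R330/Fact3_161
section

/-!
# Row 330, S8-FACT (helper161), several blocks, part 2 (abstract)

* `pr_update_add`, `pr_update_smul` : the product is linear in every slot.
* `th_pr_gen` : **slot action for arbitrary (not nec. even) factors**: `θ (e q x)` acts on slot `q`
  and the slots in front of `q` get their parity.
* `anti_wop`, `anti_pr` : an operator which anticommutes with all `θ (e p x)` (total parity).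
* `comm_pr` : an operator which commutes with all `θ (e p x)`.
* `eq_zero_of_pr`, `ext_pr`, `span_pr` : the products span.
* `fderiv_pr` : Leibniz rule.
-/

set_option autoImplicit false
set_option linter.unusedSectionVars false

open scoped InnerProductSpace

noncomputable section

namespace Crest.Agent.R330.Fact161

open Crest.Agent.R330.Cliff442 Crest.Agent.R330.Cliff442.CRep

section one

variable {V V₁ F F₁ : Type*} [NormedAddCommGroup V] [InnerProductSpace ℝ V]
  [NormedAddCommGroup V₁] [InnerProductSpace ℝ V₁]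
  [NormedAddCommGroup F] [InnerProductSpace ℂ F] [NormedAddCommGroup F₁] [InnerProductSpace ℂ F₁]
  {ι : Type*} [FiniteDimensional ℂ F]
  {M₁ : CRep V₁ F₁} {u v : ι → V₁} {s : Finset ι} {Ω : F₁} (h : Pol M₁ u v s Ω)
  (M : CRep V F) (e : V₁ →ₗᵢ[ℝ] V)

include h



variable [FiniteDimensional ℂ F₁]


theorem adj_wop_th {x : V} (hx : ∀ y, ⟪x, e y⟫_ℝ = 0) (f : F₁) (g : F) :
    M.θ x ((wop h M e f).adjoint g) = (wop h M e (par h f)).adjoint (M.θ x g) := by
  refine ext_inner_left ℂ fun w => ?_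
  rw [← M.symm, LinearMap.adjoint_inner_right, LinearMap.adjoint_inner_right,
    ← M.symm, th_perp_wop h M hx, par_par]

end one


section fam

variable {V F : Type*} [NormedAddCommGroup V] [InnerProductSpace ℝ V]
  [NormedAddCommGroup F] [InnerProductSpace ℂ F] [FiniteDimensional ℂ F]
  {κ : Type*} {Vf Ff ιf : κ → Type*}
  [∀ p, NormedAddCommGroup (Vf p)] [∀ p, InnerProductSpace ℝ (Vf p)]
  [∀ p, NormedAddCommGroup (Ff p)] [∀ p, InnerProductSpace ℂ (Ff p)]
  {M₁ : ∀ p, CRep (Vf p) (Ff p)} {u v : ∀ p, ιf p → Vf p} {s : ∀ p, Finset (ιf p)}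
  {Ω : ∀ p, Ff p} (h : ∀ p, Pol (M₁ p) (u p) (v p) (s p) (Ω p)) (M : CRep V F)
  {e : ∀ p, Vf p →ₗᵢ[ℝ] V}









section orth

variable (ho : ∀ p q, p ≠ q → ∀ x y, ⟪e p x, e q y⟫_ℝ = 0)
include ho







end orth


end fam

end Crest.Agent.R330.Fact161

end
end

-- ▼ part R330/FactG_161

/-!
# Row 330, S8-FACT (helper161): the literal factorisation, part 2

* `rho_thv`, `rho_cr`, `rho_gvac` : gauge covariance of the generators and of the reference vacuum.
* `rho_wop` : gauge covariance of the factorisation operators.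
* `mult` : 494's `Mult` structure of a block.
* `prG` : the product over a family of blocks `ε p : Colg (k p) →ₗᵢ Colg N`; `inner_prG`,
  `thv_prG`, `thv_prG_gen`, `thv_perp_prG`, `rho_prG`, `rho_prG_id`, `span_prG`, ...
* `rho_iota_prG` : 317's block embeddings.
-/

set_option autoImplicit false
set_option linter.unusedSectionVars false

open MeasureTheory Crest.MathPhysics.MatrixQM
open scoped BigOperators InnerProductSpace

noncomputable section

namespace Crest.Agent.R330.FactI161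

open Crest.Agent.R330.Cliff442 Crest.Agent.R330.Cliff442.CRep Crest.Agent.R330.Fact161
open Crest.Agent.R330.LS839 Crest.Agent.R330.Bind6839 Crest.Agent.R330.Defs478
open Crest.Agent.R330.SInd478 Crest.Agent.R330.Om0331 Crest.Agent.R330.TCore944

/-! ### Gauge covariance -/

section gauge

variable {N k : ℕ} {F F₁ : Type*} [NormedAddCommGroup F] [InnerProductSpace ℂ F]
  [FiniteDimensional ℂ F] [NormedAddCommGroup F₁] [InnerProductSpace ℂ F₁]
  [FiniteDimensional ℂ F₁] {b : ColorBasis N} {M : FermionRep N F} (R : GaugeAction b M)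

theorem rho_theta (g : Matrix.specialUnitaryGroup (Fin N) ℂ) (α : Fin 16) (A : Fin (N ^ 2 - 1))
    (f : F) : R.ρ g (M.θ α A f) = ∑ B, ((b.adjMat g B A : ℝ) : ℂ) • M.θ α B (R.ρ g f) := by
  have h := LinearMap.congr_fun (R.intertwine g α A) f
  simp only [LinearMap.comp_apply, LinearMap.sum_apply, LinearMap.smul_apply] at h
  exact h

/-- **Gauge covariance of `θ_β(u)`.** -/
theorem rho_thv (g : Matrix.specialUnitaryGroup (Fin N) ℂ) (β : Fin 16) (u : Colg N) (f : F) :
    R.ρ g (thv M β u f) = thv M β (adC b g u) (R.ρ g f) := by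
  unfold thv
  simp only [LinearMap.sum_apply, LinearMap.smul_apply, map_sum, map_smul, rho_theta,
    Finset.smul_sum, smul_smul]
  rw [Finset.sum_comm]
  refine Finset.sum_congr rfl fun B _ => ?_
  rw [← Finset.sum_smul]
  congr 1
  change _ = ((∑ A, b.adjMat g B A * u A : ℝ) : ℂ)
  push_cast
  exact Finset.sum_congr rfl fun A _ => mul_comm _ _

theorem rho_cr (g : Matrix.specialUnitaryGroup (Fin N) ℂ) (x : W16 N) (f : F) :
    R.ρ g ((cr M).θ x f) = (cr M).θ (teL (adC b g) x) (R.ρ g f) := by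
  rw [cr_eq_sum, cr_eq_sum, map_sum]
  refine Finset.sum_congr rfl fun β _ => ?_
  rw [rho_thv, row_teL]

/-- **The reference vacuum is gauge invariant.** -/
theorem rho_gvac {G : GammaNine} {Ω : F} (hΩ : IsGVac M G Ω)
    (g : Matrix.specialUnitaryGroup (Fin N) ℂ) : R.ρ g Ω = Ω := by
  refine rho_fix_neg_Gam R G (fun p => ?_) g
  change M.θ p.1 p.2 Ω = _
  rw [hΩ p.1 p.2, Fintype.sum_prod_type, neg_smul, ← smul_neg, ← Finset.sum_neg_distrib]
  congr 1
  refine Finset.sum_congr rfl fun β _ => ?_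
  rw [Finset.sum_eq_single p.2]
  · simp only [Matrix.neg_apply, tens, if_true, Complex.ofReal_neg, neg_smul, neg_neg]
  · intro B _ hB
    simp [tens, hB]
  · intro h
    exact absurd (Finset.mem_univ _) h

theorem rho_mul_apply (g h : Matrix.specialUnitaryGroup (Fin N) ℂ) (f : F) :
    R.ρ (g * h) f = R.ρ g (R.ρ h f) := by
  rw [map_mul]
  rfl

theorem rho_inv_apply (g : Matrix.specialUnitaryGroup (Fin N) ℂ) (f : F) :
    R.ρ g⁻¹ (R.ρ g f) = f := by
  rw [← rho_mul_apply, inv_mul_cancel, map_one]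
  rfl


theorem rho_injective (g : Matrix.specialUnitaryGroup (Fin N) ℂ) :
    Function.Injective (R.ρ g) := fun x y h => by
  rw [← rho_inv_apply R g x, h, rho_inv_apply]

theorem adC_surjective (b : ColorBasis N) (g : Matrix.specialUnitaryGroup (Fin N) ℂ) :
    Function.Surjective (adC b g) := fun u =>
  ⟨adC b g⁻¹ u, by rw [← adC_mul, mul_inv_cancel, adC_one]⟩

theorem teL_surjective {k' : ℕ} {τ : Colg k →ₗ[ℝ] Colg k'} (hτ : Function.Surjective τ) :
    Function.Surjective (teL τ) := by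
  intro y
  choose c hc using fun β => hτ (row β y)
  refine ⟨∑ β, ins β (c β), ext_row fun β => ?_⟩
  rw [row_teL, map_sum]
  simp only [row_ins]
  rw [Finset.sum_ite_eq, if_pos (Finset.mem_univ _), hc]

/-- A linear map `U` on `F` which maps `θ(ε c)` to `θ(ε' (τ c))`, on spinor-colour vectors. -/
theorem cr_te_of_thv {k' : ℕ} {N' : ℕ} {F' : Type*} [NormedAddCommGroup F']
    [InnerProductSpace ℂ F'] {M' : FermionRep N' F'} {ε : Colg k →ₗᵢ[ℝ] Colg N}
    {ε' : Colg k' →ₗᵢ[ℝ] Colg N'} {τ : Colg k →ₗ[ℝ] Colg k'} {U : F →ₗ[ℂ] F'}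
    (hU : ∀ β c f, U (thv M β (ε c) f) = thv M' β (ε' (τ c)) (U f)) (x : W16 k) (f : F) :
    U ((cr M).θ (te ε x) f) = (cr M').θ (te ε' (teL τ x)) (U f) := by
  rw [cr_te, cr_te, map_sum]
  refine Finset.sum_congr rfl fun β _ => ?_
  rw [hU, row_teL]

theorem cr_of_thv {k' : ℕ} {F' : Type*} [NormedAddCommGroup F']
    [InnerProductSpace ℂ F'] {M₁ : FermionRep k F₁} {M' : FermionRep k' F'}
    {τ : Colg k →ₗ[ℝ] Colg k'} {U : F₁ →ₗ[ℂ] F'}
    (hU : ∀ β c f, U (thv M₁ β c f) = thv M' β (τ c) (U f)) (x : W16 k) (f : F₁) :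
    U ((cr M₁).θ x f) = (cr M').θ (teL τ x) (U f) := by
  rw [cr_eq_sum, cr_eq_sum, map_sum]
  refine Finset.sum_congr rfl fun β _ => ?_
  rw [hU, row_teL]

variable {G : GammaNine} {b₁ : ColorBasis k} {M₁ : FermionRep k F₁} (R₁ : GaugeAction b₁ M₁)
  {Ω : F₁} (hΩ : IsGVac M₁ G Ω) (h1 : ‖Ω‖ = 1) {ε ε' : Colg k →ₗᵢ[ℝ] Colg N}


end gauge

/-! ### 494's structure -/

section mult

variable {N k : ℕ} {F F₁ : Type*} [NormedAddCommGroup F] [InnerProductSpace ℂ F]
  [FiniteDimensional ℂ F] [NormedAddCommGroup F₁] [InnerProductSpace ℂ F₁]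
  [FiniteDimensional ℂ F₁] (M : FermionRep N F) {G : GammaNine} {M₁ : FermionRep k F₁} {Ω : F₁}
  (hΩ : IsGVac M₁ G Ω) (h1 : ‖Ω‖ = 1) (ε : Colg k →ₗᵢ[ℝ] Colg N)

/-- The generators of a block. -/
def bth (M : FermionRep N F) (ε : Colg k →ₗᵢ[ℝ] Colg N) (β : Fin 16) (a : Fin (k ^ 2 - 1)) :
    F →ₗ[ℂ] F := thv M β (ε (EuclideanSpace.single a 1))

theorem cr_te_single (p : Fin 16 × Fin (k ^ 2 - 1)) :
    (cr M).θ (te ε (EuclideanSpace.single p 1)) = bth M ε p.1 p.2 := by
  have h : (EuclideanSpace.single p (1 : ℝ) : W16 k) = ins p.1 (EuclideanSpace.single p.2 1) := by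
    ext q
    rw [ins_apply]
    by_cases h1 : q.1 = p.1
    · rw [if_pos h1]
      by_cases h2 : q.2 = p.2
      · have : q = p := Prod.ext h1 h2
        subst this
        simp
      · have : q ≠ p := fun e => h2 (by rw [e])
        simp [this, h2]
    · rw [if_neg h1]
      have : q ≠ p := fun e => h1 (by rw [e])
      simp [this]
  rw [h, cr_te_ins]
  rfl



variable {κ : Type*} [Fintype κ] [DecidableEq κ]

/-- **494's multiplicity structure of a block**, from an orthonormal basis of its vacuum space. -/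
def mult (W : OrthonormalBasis κ ℂ (vacB M G ε)) : Prod494.Mult M₁ (bth M ε) κ where
  J i := Op (polG hΩ h1) (cr M) (te ε) (W i)
  inner_J i j u v := by
    rw [inner_Op]
    have h2 : ⟪((W i : vacB M G ε) : F), W j⟫_ℂ = if i = j then 1 else 0 :=
      orthonormal_iff_ite.1 W.orthonormal i j
    rw [h2]
    split_ifs <;> simp
  span v := ⟨fun i => (Op (polG hΩ h1) (cr M) (te ε) (W i)).adjoint v,
    sum_J_apply (polG hΩ h1) (cr M) (te ε) W v⟩
  inter i β a u := by
    have h := th_Op (polG hΩ h1) (cr M) (te ε) (W i) (EuclideanSpace.single (β, a) 1) u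
    rw [cr_te_single, cr_single] at h
    exact h

theorem mult_J (W : OrthonormalBasis κ ℂ (vacB M G ε)) (i : κ) (f : F₁) :
    (mult M hΩ h1 ε W).J i f = wop (polG hΩ h1) (cr M) (te ε) f (W i) :=
  (wop_of_mem (polG hΩ h1) (cr M) (te ε) f (W i).2).symm

end mult

/-! ### Families of blocks -/

section fam

variable {N : ℕ} {F : Type*} [NormedAddCommGroup F] [InnerProductSpace ℂ F]
  [FiniteDimensional ℂ F] {κ : Type*} {k : κ → ℕ} {Ff : κ → Type*}
  [∀ p, NormedAddCommGroup (Ff p)] [∀ p, InnerProductSpace ℂ (Ff p)]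
  [∀ p, FiniteDimensional ℂ (Ff p)] (M : FermionRep N F) {G : GammaNine}
  {Mp : ∀ p, FermionRep (k p) (Ff p)} {Ωp : ∀ p, Ff p} (hΩ : ∀ p, IsGVac (Mp p) G (Ωp p))
  (h1 : ∀ p, ‖Ωp p‖ = 1) (ε : ∀ p, Colg (k p) →ₗᵢ[ℝ] Colg N)

/-- The product over the list `l` of the block factors `f p`, applied to `w`. -/
def prG (l : List κ) (f : ∀ p, Ff p) (w : F) : F :=
  pr (fun p => polG (hΩ p) (h1 p)) (cr M) (fun p => te (ε p)) l f w

/-- The common vacuum space of the blocks. -/
def vacAll (M : FermionRep N F) (G : GammaNine) (ε : ∀ p, Colg (k p) →ₗᵢ[ℝ] Colg N) :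
    Submodule ℂ F :=
  vacA (cr M) (fun p => te (ε p)) (fun p => gu G (k p)) (fun p => gv G (k p)) fun p => gs G (k p)

theorem mem_vacAll {w : F} : w ∈ vacAll M G ε ↔ ∀ p (β : Fin 16) (c : Colg (k p)),
    thv M β (ε p c) w = Complex.I • ∑ β', ((Gam G β' β : ℝ) : ℂ) • thv M β' (ε p c) w := by
  unfold vacAll
  rw [mem_vacA]
  exact forall_congr' fun p => mem_vacB_iff M G (ε p)














/-- Orthogonality of the blocks on spinor-colour vectors. -/
theorem fam_orth {ε : ∀ p, Colg (k p) →ₗᵢ[ℝ] Colg N}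
    (ho : ∀ p q, p ≠ q → ∀ u v, ⟪ε p u, ε q v⟫_ℝ = 0) :
    ∀ p q, p ≠ q → ∀ x y, ⟪te (ε p) x, te (ε q) y⟫_ℝ = 0 :=
  fun p q hpq => te_orth (ho p q hpq)

section orth

variable (ho : ∀ p q, p ≠ q → ∀ u v, ⟪ε p u, ε q v⟫_ℝ = 0)
include ho












variable {b : ColorBasis N} {M} (R : GaugeAction b M)

/-- **Gauge covariance of products**, general form (block permutations allowed). -/
theorem rho_prG {g : Matrix.specialUnitaryGroup (Fin N) ℂ} {σ : κ → κ}
    {τ : ∀ p, Colg (k p) →ₗ[ℝ] Colg (k (σ p))} {Up : ∀ p, Ff p →ₗ[ℂ] Ff (σ p)}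
    (hτ : ∀ p, Function.Surjective (τ p)) (hi : ∀ p, Function.Injective (Up p))
    (hg : ∀ p c, adC b g (ε p c) = ε (σ p) (τ p c))
    (hU : ∀ p β c f, Up p (thv (Mp p) β c f) = thv (Mp (σ p)) β (τ p c) (Up p f))
    (h0 : ∀ p, Up p (Ωp p) = Ωp (σ p)) {l : List κ} (hl : l.Nodup) {f f' : ∀ p, Ff p}
    (hf : ∀ p ∈ l, f' (σ p) = Up p (f p)) {w : F} (hw : w ∈ vacAll M G ε) :
    R.ρ g (prG M hΩ h1 ε l f w) = prG M hΩ h1 ε (l.map σ) f' (R.ρ g w) :=
  pr_lift (fun p => polG (hΩ p) (h1 p)) (cr M) (e := fun p => te (ε p)) (U := R.ρ g) (σ := σ)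
    (O := fun p => teL (τ p)) (Up := Up) (fam_orth ho) (fun p => teL_surjective (hτ p)) hi
    (fun p => cr_te_of_thv (fun β c f => by rw [rho_thv, hg]))
    (fun p => cr_of_thv (hU p)) h0 hl hf hw

variable {bp : ∀ p, ColorBasis (k p)} (Rp : ∀ p, GaugeAction (bp p) (Mp p))


end orth

/-! ### 317's block embeddings -/

section dec

open Crest.Agent.R330.Blk317

variable {ι : Type*} [Fintype ι] [DecidableEq ι] {kk : ι → ℕ} (D : Dec N kk) (b : ColorBasis N)
  (bp : ∀ p, ColorBasis (kk p))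




variable {Gf : ι → Type*} [∀ p, NormedAddCommGroup (Gf p)] [∀ p, InnerProductSpace ℂ (Gf p)]
  [∀ p, FiniteDimensional ℂ (Gf p)] {Mq : ∀ p, FermionRep (kk p) (Gf p)} {Ωq : ∀ p, Gf p}
  (hΩq : ∀ p, IsGVac (Mq p) G (Ωq p)) (h1q : ∀ p, ‖Ωq p‖ = 1) {b bp M} (R : GaugeAction b M)
  (Rq : ∀ p, GaugeAction (bp p) (Mq p))


end dec

end fam

end Crest.Agent.R330.FactI161

end
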