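import Crest.Agent.R330.Cliff2_442

/-!
# Row 330 (helper161): factorisation of a Clifford module along an embedded block

`e : V₁ →ₗᵢ V` an isometric embedding, `M₁ : CRep V₁ F₁` irreducible with vacuum vector `Ω` for
orthonormal pairs which span `V₁` (`Pol`), `M : CRep V F`; `vacE M e u v s` is the common kernel of the
embedded annihilation operators.

* `Op h M e : vacE →ₗ F₁ →ₗ F` : `Op w Ω = w`, `θ (e x) (Op w f) = Op w (θ₁ x f)`,
  `⟪Op w f, Op w' g⟫ = ⟪w, w'⟫ ⟪f, g⟫` (`Op_vac`, `th_Op`, `inner_Op`), `Op_unique`.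
* `par h` : the parity of `F₁` (`par_vac`, `par_th`, `par_par`, `inner_par`).
* `th_vacE`, `th_perp_Op` : for `x` orthogonal to the block, `θ x (Op w f) = Op (θ x w) (par f)`.
* `span_Op` : the vectors `Op w f` span `F` (`F` finite dimensional).
* `lift_mem`, `lift_Op` : equivariance under lifts, also between different blocks and modules.
* `wop h M e : F₁ →ₗ F →ₗ F` : total version (orthogonal projection on `vacE` in the second slot).
* `J_adj`, `sum_J` : `J_i^* J_j = δ`, `∑ J_i J_i^* = 1` for an orthonormal basis of `vacE`.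
-/

set_option autoImplicit false
set_option linter.unusedSectionVars false

open scoped InnerProductSpace

noncomputable section

namespace Crest.Agent.R330.Fact161

open Crest.Agent.R330.Cliff442 Crest.Agent.R330.Cliff442.CRep

variable {V V₁ V₂ F F₁ F₂ : Type*} [NormedAddCommGroup V] [InnerProductSpace ℝ V]
  [NormedAddCommGroup V₁] [InnerProductSpace ℝ V₁]
  [NormedAddCommGroup V₂] [InnerProductSpace ℝ V₂]
  [NormedAddCommGroup F] [InnerProductSpace ℂ F] [NormedAddCommGroup F₁] [InnerProductSpace ℂ F₁]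
  [NormedAddCommGroup F₂] [InnerProductSpace ℂ F₂] {ι ι₂ : Type*}

/-! ### Restriction and sign change -/

/-- Restriction of a module along an isometric embedding. -/
def res (M : CRep V F) (e : V₁ →ₗᵢ[ℝ] V) : CRep V₁ F where
  θ x := M.θ (e x)
  add u v := by rw [map_add, M.add]
  smul r u := by rw [map_smul, M.smul]
  symm u := M.symm _
  anti u v := by rw [M.anti, e.inner_map_map]

/-- The module with all signs changed. -/
def ng (M : CRep V F) : CRep V F where
  θ x := -M.θ x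
  add u v := by rw [M.add, neg_add]
  smul r u := by rw [M.smul, smul_neg]
  symm u f g := by
    rw [LinearMap.neg_apply, LinearMap.neg_apply, inner_neg_left, inner_neg_right, M.symm]
  anti u v := by rw [neg_mul_neg, neg_mul_neg, M.anti]

theorem ng_ann (M : CRep V F) (u v : V) (f : F) : (ng M).ann u v f = -M.ann u v f := by
  rw [ann_apply, ann_apply]
  change (-M.θ u) f + Complex.I • (-M.θ v) f = _
  rw [LinearMap.neg_apply, LinearMap.neg_apply, smul_neg, neg_add]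


/-! ### Polarised irreducible modules -/

/-- `M₁` is irreducible, the pairs span `V₁` and `Ω` is the unit vacuum vector. -/
structure Pol (M₁ : CRep V₁ F₁) (u v : ι → V₁) (s : Finset ι) (Ω : F₁) : Prop where
  irr : M₁.IrrOn ⊤ ⊤
  prs : Prs u v s
  span : perpS (⊤ : Submodule ℝ V₁) u v s = ⊥
  vac : Ω ∈ M₁.vacS ⊤ u v s
  norm : ‖Ω‖ = 1

/-- The common kernel of the embedded annihilation operators. -/
def vacE (M : CRep V F) (e : V₁ →ₗᵢ[ℝ] V) (u v : ι → V₁) (s : Finset ι) : Submodule ℂ F :=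
  (res M e).vacS ⊤ u v s

theorem mem_vacE {M : CRep V F} {e : V₁ →ₗᵢ[ℝ] V} {u v : ι → V₁} {s : Finset ι} {w : F} :
    w ∈ vacE M e u v s ↔ ∀ k ∈ s, M.ann (e (u k)) (e (v k)) w = 0 := by
  unfold vacE
  rw [mem_vacS]
  exact ⟨fun h => h.2, fun h => ⟨Submodule.mem_top, h⟩⟩

section pol

variable {M₁ : CRep V₁ F₁} {u v : ι → V₁} {s : Finset ι} {Ω : F₁} (h : Pol M₁ u v s Ω)
include h

theorem Pol.ne_zero : Ω ≠ 0 := fun e => by
  have := h.norm
  rw [e, norm_zero] at this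
  exact zero_ne_one this

theorem Pol.line {f : F₁} (hf : f ∈ M₁.vacS ⊤ u v s) : f = ⟪Ω, f⟫_ℂ • Ω :=
  vac_line h.irr h.prs (fun _ _ => ⟨Submodule.mem_top, Submodule.mem_top⟩) h.span h.vac h.norm hf

theorem Pol.ann_vac {k : ι} (hk : k ∈ s) : M₁.ann (u k) (v k) Ω = 0 := (M₁.mem_vacS.1 h.vac).2 k hk

/-- A submodule invariant under all `θ₁ x` which contains `Ω` is everything. -/
theorem Pol.eq_top {E : Submodule ℂ F₁} (hE : ∀ x, ∀ f ∈ E, M₁.θ x f ∈ E) (hΩ : Ω ∈ E) : E = ⊤ := by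
  rcases h.irr.2 E le_top fun x _ f hf => hE x f hf with hb | ht
  · exact absurd ((Submodule.mem_bot ℂ).1 (hb ▸ hΩ)) h.ne_zero
  · exact ht

/-- Two linear maps which intertwine `θ₁ x` with the same operators and agree at `Ω` are equal. -/
theorem Pol.ext {G : Type*} [AddCommGroup G] [Module ℂ G] {T : V₁ → (G →ₗ[ℂ] G)}
    {J J' : F₁ →ₗ[ℂ] G} (h1 : ∀ x f, J (M₁.θ x f) = T x (J f))
    (h2 : ∀ x f, J' (M₁.θ x f) = T x (J' f)) (h0 : J Ω = J' Ω) : J = J' := by
  have ht := h.eq_top (E := LinearMap.eqLocus J J') (fun x f hf => by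
    rw [LinearMap.mem_eqLocus] at hf ⊢
    rw [h1, h2, hf]) h0
  ext f
  have : f ∈ LinearMap.eqLocus J J' := ht ▸ Submodule.mem_top
  exact this

theorem exists_J (M : CRep V F) (e : V₁ →ₗᵢ[ℝ] V) {w : F} (hw : w ∈ vacE M e u v s) :
    ∃ J : F₁ →ₗ[ℂ] F, J Ω = w ∧ (∀ x f, J (M₁.θ x f) = M.θ (e x) (J f)) ∧
      ∀ f g, ⟪J f, J g⟫_ℂ = ((‖w‖ ^ 2 : ℝ) : ℂ) * ⟪f, g⟫_ℂ := by
  obtain ⟨J, j1, -, j3, j4⟩ := exists_inter (M := M₁) (M' := res M e) (K := ⊤) (W := ⊤) (W' := ⊤)
    s h.prs (fun _ _ => ⟨Submodule.mem_top, Submodule.mem_top⟩) h.span h.irr.1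
    (fun _ _ _ _ => Submodule.mem_top) h.vac h.norm hw
  exact ⟨J, j1, fun x f => j3 x Submodule.mem_top f Submodule.mem_top,
    fun f g => j4 (fun f hf => h.line hf) f Submodule.mem_top g Submodule.mem_top⟩

/-- **The factorisation map**: `Op w : F₁ → F` is the intertwiner with `Op w Ω = w`. -/
def Op (M : CRep V F) (e : V₁ →ₗᵢ[ℝ] V) : vacE M e u v s →ₗ[ℂ] F₁ →ₗ[ℂ] F where
  toFun w := Classical.choose (exists_J h M e w.2)
  map_add' w w' := by
    have a := Classical.choose_spec (exists_J h M e w.2)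
    have b := Classical.choose_spec (exists_J h M e w'.2)
    have c := Classical.choose_spec (exists_J h M e (w + w').2)
    refine h.ext (T := fun x => M.θ (e x)) c.2.1 (fun x f => ?_) ?_
    · rw [LinearMap.add_apply, LinearMap.add_apply, a.2.1, b.2.1, map_add]
    · rw [LinearMap.add_apply, a.1, b.1, c.1]
      rfl
  map_smul' r w := by
    have a := Classical.choose_spec (exists_J h M e w.2)
    have c := Classical.choose_spec (exists_J h M e (r • w).2)
    refine h.ext (T := fun x => M.θ (e x)) c.2.1 (fun x f => ?_) ?_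
    · rw [LinearMap.smul_apply, LinearMap.smul_apply, RingHom.id_apply, a.2.1, map_smul]
    · rw [LinearMap.smul_apply, a.1, c.1]
      rfl

variable (M : CRep V F) (e : V₁ →ₗᵢ[ℝ] V)

theorem Op_vac (w : vacE M e u v s) : Op h M e w Ω = w :=
  (Classical.choose_spec (exists_J h M e w.2)).1

theorem th_Op (w : vacE M e u v s) (x : V₁) (f : F₁) :
    M.θ (e x) (Op h M e w f) = Op h M e w (M₁.θ x f) :=
  ((Classical.choose_spec (exists_J h M e w.2)).2.1 x f).symm

theorem Op_unique {J : F₁ →ₗ[ℂ] F} (hJ : ∀ x f, J (M₁.θ x f) = M.θ (e x) (J f))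
    {w : vacE M e u v s} (h0 : J Ω = w) : J = Op h M e w :=
  h.ext (T := fun x => M.θ (e x)) hJ (fun x f => (th_Op h M e w x f).symm)
    (by rw [h0, Op_vac])


theorem inner_Op_self (w : vacE M e u v s) (f g : F₁) :
    ⟪Op h M e w f, Op h M e w g⟫_ℂ = ⟪(w : F), w⟫_ℂ * ⟪f, g⟫_ℂ := by
  rw [inner_self_c]
  exact (Classical.choose_spec (exists_J h M e w.2)).2.2 f g

theorem inner_Op (w w' : vacE M e u v s) (f g : F₁) :
    ⟪Op h M e w f, Op h M e w' g⟫_ℂ = ⟪(w : F), w'⟫_ℂ * ⟪f, g⟫_ℂ := by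
  have key : ∀ c : ℂ, starRingEnd ℂ c * ⟪Op h M e w' f, Op h M e w g⟫_ℂ +
      c * ⟪Op h M e w f, Op h M e w' g⟫_ℂ =
      (starRingEnd ℂ c * ⟪(w' : F), w⟫_ℂ + c * ⟪(w : F), w'⟫_ℂ) * ⟪f, g⟫_ℂ := by
    intro c
    have h1 := inner_Op_self h M e (w + c • w') f g
    have h2 := inner_Op_self h M e w f g
    have h3 := inner_Op_self h M e w' f g
    simp only [map_add, map_smul, LinearMap.add_apply, LinearMap.smul_apply, inner_add_left,
      inner_add_right, inner_smul_left, inner_smul_right, Submodule.coe_add,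
      Submodule.coe_smul] at h1
    rw [h2, h3] at h1
    linear_combination h1
  have k1 := key 1
  have k2 := key Complex.I
  rw [map_one] at k1
  rw [Complex.conj_I] at k2
  have hI : Complex.I * Complex.I = -1 := Complex.I_mul_I
  have e1 : (2 : ℂ) * ⟪Op h M e w f, Op h M e w' g⟫_ℂ = 2 * (⟪(w : F), w'⟫_ℂ * ⟪f, g⟫_ℂ) := by
    linear_combination k1 - Complex.I * k2 +
      (-⟪Op h M e w' f, Op h M e w g⟫_ℂ + ⟪Op h M e w f, Op h M e w' g⟫_ℂ +
        ⟪(w' : F), w⟫_ℂ * ⟪f, g⟫_ℂ - ⟪(w : F), w'⟫_ℂ * ⟪f, g⟫_ℂ) * hI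
  exact mul_left_cancel₀ two_ne_zero e1

theorem norm_Op (w : vacE M e u v s) (f : F₁) : ‖Op h M e w f‖ = ‖(w : F)‖ * ‖f‖ := by
  have h1 := inner_Op_self h M e w f f
  rw [inner_self_c, inner_self_c, inner_self_c] at h1
  have h2 : ‖Op h M e w f‖ ^ 2 = ‖(w : F)‖ ^ 2 * ‖f‖ ^ 2 := by exact_mod_cast h1
  rw [← mul_pow] at h2
  exact (pow_left_inj₀ (norm_nonneg _) (by positivity) two_ne_zero).1 h2

/-! ### Parity of the small module -/

theorem exists_par : ∃ J : F₁ →ₗ[ℂ] F₁, J Ω = Ω ∧ (∀ x f, J (M₁.θ x f) = -M₁.θ x (J f)) ∧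
    ∀ f g, ⟪J f, J g⟫_ℂ = ⟪f, g⟫_ℂ := by
  have hv : Ω ∈ vacE (ng M₁) (LinearIsometry.id : V₁ →ₗᵢ[ℝ] V₁) u v s := by
    refine mem_vacE.2 fun k hk => ?_
    change (ng M₁).ann (u k) (v k) Ω = 0
    rw [ng_ann, h.ann_vac hk, neg_zero]
  obtain ⟨J, j1, j2, j3⟩ := exists_J h (ng M₁) LinearIsometry.id hv
  refine ⟨J, j1, fun x f => j2 x f, fun f g => ?_⟩
  rw [j3, h.norm]
  simp

/-- The parity operator of `F₁`. -/
def par : F₁ →ₗ[ℂ] F₁ := Classical.choose (exists_par h)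

theorem par_vac : par h Ω = Ω := (Classical.choose_spec (exists_par h)).1

theorem par_th (x : V₁) (f : F₁) : par h (M₁.θ x f) = -M₁.θ x (par h f) :=
  (Classical.choose_spec (exists_par h)).2.1 x f


theorem par_par (f : F₁) : par h (par h f) = f := by
  have h1 : (par h) ∘ₗ (par h) = LinearMap.id := by
    refine h.ext (T := fun x => M₁.θ x) (fun x f => ?_) (fun x f => rfl) ?_
    · rw [LinearMap.comp_apply, LinearMap.comp_apply, par_th, map_neg, par_th, neg_neg]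
    · rw [LinearMap.comp_apply, par_vac, par_vac, LinearMap.id_apply]
  exact LinearMap.congr_fun h1 f


/-! ### Vectors orthogonal to the block -/

variable {e} in
/-- `x` is orthogonal to the block. -/
theorem th_vacE {x : V} (hx : ∀ y, ⟪x, e y⟫_ℝ = 0) {w : F} (hw : w ∈ vacE M e u v s) :
    M.θ x w ∈ vacE M e u v s := by
  refine mem_vacE.2 fun k hk => ?_
  rw [M.th_ann_perp (hx _) (hx _), mem_vacE.1 hw k hk, map_zero, neg_zero]

variable {e} in
theorem th_perp_Op {x : V} (hx : ∀ y, ⟪x, e y⟫_ℝ = 0) (w : vacE M e u v s) (f : F₁) :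
    M.θ x (Op h M e w f) = Op h M e ⟨M.θ x w, th_vacE h M hx w.2⟩ (par h f) := by
  have h1 : M.θ x ∘ₗ Op h M e w ∘ₗ par h = Op h M e ⟨M.θ x w, th_vacE h M hx w.2⟩ := by
    refine Op_unique h M e (fun y f => ?_) ?_
    · simp only [LinearMap.comp_apply]
      rw [par_th, map_neg, map_neg, ← th_Op, M.comm_apply (hx y), neg_neg]
    · simp only [LinearMap.comp_apply]
      rw [par_vac, Op_vac]
  have h2 := LinearMap.congr_fun h1 (par h f)
  simp only [LinearMap.comp_apply] at h2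
  rw [par_par] at h2
  exact h2

end pol

/-! ### Spanning -/

section span

variable {M₁ : CRep V₁ F₁} {u v : ι → V₁} {s : Finset ι} {Ω : F₁} (h : Pol M₁ u v s Ω)
  (M : CRep V F) (e : V₁ →ₗᵢ[ℝ] V)
include h

/-- A vector orthogonal to all `Op w f` vanishes. -/
theorem eq_zero_of_inner {g : F} (hg : ∀ w f, ⟪Op h M e w f, g⟫_ℂ = 0) : g = 0 := by
  let U : Submodule ℂ F :=
    { carrier := {g | ∀ w f, ⟪Op h M e w f, g⟫_ℂ = 0}
      add_mem' := fun {a b} ha hb w f => by rw [inner_add_right, ha, hb, add_zero]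
      zero_mem' := fun w f => inner_zero_right _
      smul_mem' := fun c a ha w f => by rw [inner_smul_right, ha, mul_zero] }
  have hU : (res M e).InvOn ⊤ U := by
    intro x _ g hg w f
    change ⟪Op h M e w f, M.θ (e x) g⟫_ℂ = 0
    rw [← M.symm, th_Op]
    exact hg w _
  by_contra hne
  have hb : U ≠ ⊥ := fun hb => hne ((Submodule.mem_bot ℂ).1 (hb ▸ (hg : g ∈ U)))
  have h1 := vacS_ne_bot hU h.prs (fun _ _ => ⟨Submodule.mem_top, Submodule.mem_top⟩) hb
  obtain ⟨w, hw, hw0⟩ := Submodule.exists_mem_ne_zero_of_ne_bot h1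
  obtain ⟨hwU, hwa⟩ := ((res M e).mem_vacS).1 hw
  have hwE : w ∈ vacE M e u v s := mem_vacE.2 hwa
  have h2 := hwU ⟨w, hwE⟩ Ω
  rw [Op_vac] at h2
  exact hw0 (inner_self_eq_zero.1 h2)


/-- The vectors `Op w f` span. -/
theorem span_Op [FiniteDimensional ℂ F] :
    Submodule.span ℂ {g | ∃ w f, g = Op h M e w f} = ⊤ := by
  rw [← Submodule.orthogonal_eq_bot_iff, Submodule.eq_bot_iff]
  intro g hg
  refine eq_zero_of_inner h M e fun w f => ?_
  have hm : Op h M e w f ∈ Submodule.span ℂ {g | ∃ w f, g = Op h M e w f} :=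
    Submodule.subset_span ⟨w, f, rfl⟩
  exact Submodule.inner_right_of_mem_orthogonal hm hg

/-- Linear maps which agree on all `Op w f` are equal. -/
theorem ext_Op [FiniteDimensional ℂ F] {G : Type*} [AddCommGroup G] [Module ℂ G]
    {T T' : F →ₗ[ℂ] G} (hT : ∀ w f, T (Op h M e w f) = T' (Op h M e w f)) : T = T' := by
  refine LinearMap.ext_on (s := {g | ∃ w f, g = Op h M e w f}) (span_Op h M e) ?_
  rintro _ ⟨w, f, rfl⟩
  exact hT w f

end span

/-! ### Equivariance -/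

section lift

variable {V' F' : Type*} [NormedAddCommGroup V'] [InnerProductSpace ℝ V']
  [NormedAddCommGroup F'] [InnerProductSpace ℂ F']
  {M₁ : CRep V₁ F₁} {u v : ι → V₁} {s : Finset ι} {Ω : F₁} (h : Pol M₁ u v s Ω)
  {M₂ : CRep V₂ F₂} {u₂ v₂ : ι₂ → V₂} {s₂ : Finset ι₂} {Ω₂ : F₂} (h₂ : Pol M₂ u₂ v₂ s₂ Ω₂)
  (M : CRep V F) (M' : CRep V' F') (e : V₁ →ₗᵢ[ℝ] V) (e' : V₂ →ₗᵢ[ℝ] V')
  {O : V₁ → V₂} {U : F →ₗ[ℂ] F'} {U₁ : F₁ →ₗ[ℂ] F₂}

include h h₂

/-- Lifts map the vacuum space of the block to the vacuum space of the image block. `O` has to be onto,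
`U₁` injective. -/
theorem lift_mem (hO : Function.Surjective O) (hU₁ : Function.Injective U₁)
    (hU : ∀ x f, U (M.θ (e x) f) = M'.θ (e' (O x)) (U f))
    (h1 : ∀ x f, U₁ (M₁.θ x f) = M₂.θ (O x) (U₁ f)) (h0 : U₁ Ω = Ω₂)
    {w : F} (hw : w ∈ vacE M e u v s) : U w ∈ vacE M' e' u₂ v₂ s₂ := by
  refine mem_vacE.2 fun k hk => ?_
  obtain ⟨x, hx⟩ := hO (u₂ k)
  obtain ⟨y, hy⟩ := hO (v₂ k)
  have e1 : M₁.ann x y Ω = 0 := by
    apply hU₁
    rw [ann_apply, map_add, map_smul, h1, h1, hx, hy, h0, map_zero, ← ann_apply, h₂.ann_vac hk]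
  have e2 : M.ann (e x) (e y) w = 0 := by
    have e3 := Op_vac h M e ⟨w, hw⟩
    have e4 : (w : F) = Op h M e ⟨w, hw⟩ Ω := e3.symm
    rw [e4, ann_apply, th_Op, th_Op, ← map_smul, ← map_add, ← ann_apply, e1, map_zero]
  rw [← hx, ← hy, ann_apply, ← hU, ← hU, ← map_smul, ← map_add, ← ann_apply, e2, map_zero]

/-- **Equivariance of the factorisation.** -/
theorem lift_Op (hU : ∀ x f, U (M.θ (e x) f) = M'.θ (e' (O x)) (U f))
    (h1 : ∀ x f, U₁ (M₁.θ x f) = M₂.θ (O x) (U₁ f)) (h0 : U₁ Ω = Ω₂)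
    (w : vacE M e u v s) (hw : U w ∈ vacE M' e' u₂ v₂ s₂) (f : F₁) :
    U (Op h M e w f) = Op h₂ M' e' ⟨U w, hw⟩ (U₁ f) := by
  have h3 : U ∘ₗ Op h M e w = Op h₂ M' e' ⟨U w, hw⟩ ∘ₗ U₁ := by
    refine h.ext (T := fun x => M'.θ (e' (O x))) (fun x f => ?_) (fun x f => ?_) ?_
    · rw [LinearMap.comp_apply, LinearMap.comp_apply, ← hU, th_Op]
    · rw [LinearMap.comp_apply, LinearMap.comp_apply, h1, th_Op]
    · rw [LinearMap.comp_apply, LinearMap.comp_apply, h0, Op_vac, Op_vac]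
  exact LinearMap.congr_fun h3 f

omit h₂ in
/-- Linear operators commuting with the `θ` of the block. -/
theorem comm_Op {U : F →ₗ[ℂ] F'} {e' : V₁ →ₗᵢ[ℝ] V'}
    (hU : ∀ x f, U (M.θ (e x) f) = M'.θ (e' x) (U f))
    (w : vacE M e u v s) : ∃ hw : U w ∈ vacE M' e' u v s,
      ∀ f : F₁, U (Op h M e w f) = Op h M' e' ⟨U w, hw⟩ f := by
  have hw : U w ∈ vacE M' e' u v s := lift_mem h h M M' e e' (O := id) (U₁ := LinearMap.id)
    Function.surjective_id Function.injective_id hU (fun _ _ => rfl) rfl w.2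
  exact ⟨hw, fun f => lift_Op h h M M' e e' (O := id) (U₁ := LinearMap.id) hU (fun _ _ => rfl) rfl
    w hw f⟩

end lift

/-! ### Orthonormal bases of the vacuum space -/

section res

variable {M₁ : CRep V₁ F₁} {u v : ι → V₁} {s : Finset ι} {Ω : F₁} (h : Pol M₁ u v s Ω)
  (M : CRep V F) (e : V₁ →ₗᵢ[ℝ] V) [FiniteDimensional ℂ F] [FiniteDimensional ℂ F₁]
  {κ : Type*} [Fintype κ] (W : OrthonormalBasis κ ℂ (vacE M e u v s))
include h

theorem J_adj_apply (w w' : vacE M e u v s) (f : F₁) :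
    (Op h M e w).adjoint (Op h M e w' f) = ⟪(w : F), w'⟫_ℂ • f := by
  refine ext_inner_left ℂ fun g => ?_
  rw [LinearMap.adjoint_inner_right, inner_Op, inner_smul_right]


/-- **`∑ J_i J_i^* = 1`**. -/
theorem sum_J : ∑ i, Op h M e (W i) ∘ₗ (Op h M e (W i)).adjoint = LinearMap.id := by
  refine ext_Op h M e fun w f => ?_
  rw [LinearMap.sum_apply]
  simp only [LinearMap.comp_apply, J_adj_apply, map_smul, LinearMap.id_apply]
  conv_rhs => rw [← W.sum_repr' w]
  rw [map_sum, LinearMap.sum_apply]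
  refine Finset.sum_congr rfl fun i _ => ?_
  rw [map_smul, LinearMap.smul_apply]
  rfl

theorem sum_J_apply (g : F) : ∑ i, Op h M e (W i) ((Op h M e (W i)).adjoint g) = g := by
  have h1 := LinearMap.congr_fun (sum_J h M e W) g
  rw [LinearMap.sum_apply] at h1
  exact h1




/-- Any operator which commutes with the block acts on the multiplicities. -/
theorem finrank_eq : Module.finrank ℂ F =
    Module.finrank ℂ (vacE M e u v s) * Module.finrank ℂ F₁ := by
  have b₁ := stdOrthonormalBasis ℂ F₁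
  have W := stdOrthonormalBasis ℂ (vacE M e u v s)
  have ho : Orthonormal ℂ (fun p : Fin (Module.finrank ℂ (vacE M e u v s)) ×
      Fin (Module.finrank ℂ F₁) => Op h M e (W p.1) (b₁ p.2)) := by
    rw [orthonormal_iff_ite]
    rintro ⟨i, a⟩ ⟨j, c⟩
    rw [inner_Op]
    have h1 : ⟪((W i : vacE M e u v s) : F), W j⟫_ℂ = if i = j then 1 else 0 :=
      orthonormal_iff_ite.1 W.orthonormal i j
    have h2 : ⟪b₁ a, b₁ c⟫_ℂ = if a = c then 1 else 0 := orthonormal_iff_ite.1 b₁.orthonormal a c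
    rw [h1, h2]
    simp only [Prod.mk.injEq]
    split_ifs <;> simp_all
  have hs : ⊤ ≤ Submodule.span ℂ (Set.range (fun p : Fin (Module.finrank ℂ (vacE M e u v s)) ×
      Fin (Module.finrank ℂ F₁) => Op h M e (W p.1) (b₁ p.2))) := by
    rw [← span_Op h M e, Submodule.span_le]
    rintro _ ⟨w, f, rfl⟩
    rw [← W.sum_repr' w, map_sum, LinearMap.sum_apply]
    refine Submodule.sum_mem _ fun i _ => ?_
    rw [map_smul, LinearMap.smul_apply, ← b₁.sum_repr' f, map_sum]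
    refine Submodule.smul_mem _ _ (Submodule.sum_mem _ fun j _ => ?_)
    rw [map_smul]
    exact Submodule.smul_mem _ _ (Submodule.subset_span ⟨(i, j), rfl⟩)
  have h3 := Module.finrank_eq_card_basis (Module.Basis.mk ho.linearIndependent hs)
  rw [h3]
  simp

end res

end Crest.Agent.R330.Fact161

end
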