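import Crest.Agent.R330.Cliff7_442

/-!
# Row 330 (helper442): the section of the heavy vacuum by projection

`M` irreducible, `J₀` a partial complex structure (reference), `Ω` a unit vector of `vacJ J₀`,
`J` a partial complex structure with `J₀ x = 0 → J x = 0`, `proj J Ω ≠ 0`:

`U M J Ω f = ‖proj J Ω‖⁻¹ • proj J f` on `vacJ J₀`: isometric, commutes with the light generators,
onto `vacJ J` if the kernels agree, covariant, even, smooth in parameters, and without connection
if `⟪proj J Ω, proj J' Ω⟫` is real.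
-/

set_option autoImplicit false
set_option linter.unusedSectionVars false

open scoped InnerProductSpace

noncomputable section

namespace Crest.Agent.R330.Cliff442

variable {V F : Type*} [NormedAddCommGroup V] [InnerProductSpace ℝ V]
  [NormedAddCommGroup F] [InnerProductSpace ℂ F]

namespace CRep

variable (M : CRep V F)

variable {M} in
/-- **Schur.** -/
theorem IrrOn.schur [FiniteDimensional ℂ F] {K : Submodule ℝ V} {W : Submodule ℂ F}
    (h : M.IrrOn K W) (T : F →ₗ[ℂ] F) (hT : ∀ f ∈ W, T f ∈ W)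
    (hc : ∀ x ∈ K, ∀ f ∈ W, T (M.θ x f) = M.θ x (T f)) : ∃ c : ℂ, ∀ f ∈ W, T f = c • f := by
  by_cases hW : W = ⊥
  · refine ⟨0, fun f hf => ?_⟩
    rw [hW, Submodule.mem_bot] at hf
    rw [hf, map_zero, smul_zero]
  have : Nontrivial W := (Submodule.nontrivial_iff_ne_bot).2 hW
  set S : W →ₗ[ℂ] W := T.restrict hT with hS
  obtain ⟨c, hc1⟩ := Module.End.exists_eigenvalue S
  obtain ⟨w, hw⟩ := hc1.exists_hasEigenvector
  refine ⟨c, ?_⟩
  set W' : Submodule ℂ F := W ⊓ LinearMap.ker (T - c • LinearMap.id) with hW'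
  have hmem : ∀ f, f ∈ W' ↔ f ∈ W ∧ T f = c • f := by
    intro f
    rw [hW', Submodule.mem_inf, LinearMap.mem_ker, LinearMap.sub_apply, LinearMap.smul_apply,
      LinearMap.id_apply, sub_eq_zero]
  have hinv : M.InvOn K W' := by
    intro x hx f hf
    obtain ⟨h1, h2⟩ := (hmem f).1 hf
    refine (hmem _).2 ⟨h.1 x hx f h1, ?_⟩
    rw [hc x hx f h1, h2, map_smul]
  rcases h.2 W' inf_le_left hinv with hb | ht
  · exfalso
    have h1 : S w = c • w := hw.apply_eq_smul
    have h2 : T (w : F) = c • (w : F) := congrArg (fun y : W => (y : F)) h1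
    have h3 : (w : F) ∈ W' := (hmem _).2 ⟨w.2, h2⟩
    rw [hb, Submodule.mem_bot] at h3
    exact hw.2 (Subtype.ext h3)
  · intro f hf
    rw [← ht] at hf
    exact ((hmem f).1 hf).2

/-- The light subspace. -/
def light (J : V →ₗ[ℝ] V) : Submodule ℝ V := LinearMap.ker J

theorem mem_light {J : V →ₗ[ℝ] V} {x : V} : x ∈ light J ↔ J x = 0 := LinearMap.mem_ker

variable [FiniteDimensional ℝ V]

variable {M} in
/-- The vacuum space is irreducible for the light generators. -/
theorem Irr.vacJ (hI : M.Irr) {J : V →ₗ[ℝ] V} (hJ : PCS J) : M.IrrOn (light J) (M.vacJ J) := by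
  obtain ⟨m, u, v, lam, hn⟩ := hJ.skew.exists_NF
  have h1 : light J = perpS ⊤ u v (Finset.range m) := by
    ext x
    rw [mem_light, mem_perpS]
    constructor
    · intro hx
      refine ⟨trivial, fun k hk => ?_⟩
      have hl := hJ.lam_one hn k hk
      have hu : u k = J (v k) := by rw [hn.av k hk, hl, one_smul]
      have hv : v k = -J (u k) := by rw [hn.au k hk, hl]; simp
      constructor
      · have e := hJ.skew x (v k)
        rw [hx, inner_zero_left] at e
        rw [hu]
        linarith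
      · have e := hJ.skew x (u k)
        rw [hx, inner_zero_left] at e
        rw [hv, inner_neg_right]
        linarith
    · rintro ⟨-, hx⟩
      exact hn.ker x hx
  rw [h1, M.vacJ_eq hJ hn]
  exact IrrOn.vacS hI hn.prs (fun _ _ => ⟨trivial, trivial⟩)

variable {M} in
theorem vacJ_ne_bot [Nontrivial F] {J : V →ₗ[ℝ] V} (hJ : PCS J) : M.vacJ J ≠ ⊥ := by
  obtain ⟨m, u, v, lam, hn⟩ := hJ.skew.exists_NF
  rw [M.vacJ_eq hJ hn]
  exact vacS_ne_bot (K := ⊤) (W := ⊤) (fun _ _ _ _ => trivial) hn.prs
    (fun _ _ => ⟨trivial, trivial⟩) (by simp)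


/-- **The section.** -/
def U (J : V →ₗ[ℝ] V) (Ω : F) : F →ₗ[ℂ] F := ((‖M.proj J Ω‖⁻¹ : ℝ) : ℂ) • M.proj J












section smooth

variable [FiniteDimensional ℂ F] {E : Type*} [NormedAddCommGroup E] [NormedSpace ℝ E]


end smooth


end CRep

end Crest.Agent.R330.Cliff442

end
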