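import Crest.Agent.R330.IBP_837

/-!
# Row 330, S9 capture / S7 (CC): parity decoupling, part 1 (helper924)

General first order operators on a finite dimensional real normed space `E` with values in a
finite dimensional complex inner product space `F`:

* `op e a w f x = ∑ k, a k x (∂_{e k} f x) + w x (f x)`;
* `cross_identity` : for `A = op e a w` (constant skew `a k`, symmetric `w`) and
  `B = op v β p` (skew `β i x`, symmetric `p x`, coefficients of `A` anticommute with those of `B`,
  `w`, `β` constant in the directions `v`):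
  `∫ ⟪A f, B h⟫ + ∫ ⟪B f, A h⟫ = ∫ ⟪f, X h⟫`, `X = ∑ a k ∘ ([∂_{e k}, B])` of order one in the
  directions `v` and order zero.
-/

set_option autoImplicit false
set_option linter.unusedSectionVars false

noncomputable section

namespace Crest.Agent.R330.Decoup924

open MeasureTheory Filter Topology
open scoped ContDiff InnerProductSpace ENNReal
open Crest.Agent.R330.IBP837

variable {E : Type*} [NormedAddCommGroup E] [NormedSpace ℝ E]
  {F : Type*} [NormedAddCommGroup F] [InnerProductSpace ℂ F]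
  {κ ι : Type*} [Fintype κ] [Fintype ι]

/-- a first order operator with coefficients `a k x` (in front of `∂_{e k}`) and `w x` -/
def op (e : κ → E) (a : κ → E → F →L[ℝ] F) (w : E → F →L[ℝ] F) (f : E → F) (x : E) : F :=
  ∑ k, a k x (fderiv ℝ f x (e k)) + w x (f x)

/-- skew endomorphism -/
def Skew (T : F →L[ℝ] F) : Prop := ∀ v w : F, ⟪T v, w⟫_ℂ = -⟪v, T w⟫_ℂ

/-- symmetric endomorphism -/
def Symm (T : F →L[ℝ] F) : Prop := ∀ v w : F, ⟪T v, w⟫_ℂ = ⟪v, T w⟫_ℂ

/-- anticommuting endomorphisms -/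
def Anti (S T : F →L[ℝ] F) : Prop := ∀ v : F, S (T v) = -T (S v)

section basic

variable {e : κ → E} {a : κ → E → F →L[ℝ] F} {w : E → F →L[ℝ] F} {f h : E → F} {x : E}


theorem op_clm (T : F →L[ℝ] F) (hf : DifferentiableAt ℝ f x) :
    op e a w (fun y => T (f y)) x =
      ∑ k, a k x (T (fderiv ℝ f x (e k))) + w x (T (f x)) := by
  have h1 : ∀ k, fderiv ℝ (fun y => T (f y)) x (e k) = T (fderiv ℝ f x (e k)) := fun k => by
    have := (T.hasFDerivAt.comp x hf.hasFDerivAt).fderiv
    simp only [Function.comp_def] at this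
    rw [this]; rfl
  simp only [op, h1]

/-- if `T` anticommutes with the coefficients of the operator, it anticommutes with it -/
theorem op_clm_anti {T : F →L[ℝ] F} (ha : ∀ k, Anti (a k x) T) (hw : Anti (w x) T)
    (hf : DifferentiableAt ℝ f x) :
    op e a w (fun y => T (f y)) x = -T (op e a w f x) := by
  rw [op_clm T hf]
  simp only [op, map_add, map_sum]
  rw [hw, neg_add, ← Finset.sum_neg_distrib]
  congr 1
  exact Finset.sum_congr rfl fun k _ => ha k _

/-- if `T` commutes with the coefficients of the operator, it commutes with it -/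
theorem op_clm_comm {T : F →L[ℝ] F} (ha : ∀ k v, a k x (T v) = T (a k x v))
    (hw : ∀ v, w x (T v) = T (w x v)) (hf : DifferentiableAt ℝ f x) :
    op e a w (fun y => T (f y)) x = T (op e a w f x) := by
  rw [op_clm T hf]
  simp only [op, map_add, map_sum, ha, hw]

theorem contDiff_op {n m : WithTop ℕ∞} (hnm : m + 1 ≤ n) (ha : ∀ k, ContDiff ℝ m (a k))
    (hw : ContDiff ℝ m w) (hf : ContDiff ℝ n f) : ContDiff ℝ m (op e a w f) := by
  unfold op
  refine ContDiff.add (ContDiff.sum fun k _ => ?_) ?_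
  · exact (ha k).clm_apply ((hf.fderiv_right hnm).clm_apply contDiff_const)
  · exact hw.clm_apply (hf.of_le (le_trans (by exact le_self_add) hnm))

theorem hasCompactSupport_op (hf : HasCompactSupport f) : HasCompactSupport (op e a w f) := by
  refine hf.mono' fun x hx => ?_
  by_contra h0
  apply hx
  have h1 : f =ᶠ[𝓝 x] 0 := by
    exact notMem_tsupport_iff_eventuallyEq.mp h0
  have h2 : fderiv ℝ f x = 0 := by
    rw [h1.fderiv_eq]; simp
  have h3 : f x = 0 := h1.eq_of_nhds
  simp [op, h2, h3]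

end basic

section ident

variable [FiniteDimensional ℝ E] [MeasurableSpace E] [BorelSpace E]
  {μ : Measure E} [μ.IsAddHaarMeasure]

/-- integral over `E` of an inner product of two continuous functions, one compactly supported:
additivity -/
theorem integral_inner_sum_left {f : κ → E → F} {h : E → F} (hf : ∀ k, Continuous (f k))
    (hh : Continuous h) (hc : HasCompactSupport h ∨ ∀ k, HasCompactSupport (f k)) :
    ∫ x, ⟪∑ k, f k x, h x⟫_ℂ ∂μ = ∑ k, ∫ x, ⟪f k x, h x⟫_ℂ ∂μ := by
  simp only [sum_inner]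
  refine integral_finsetSum _ fun k _ => ?_
  refine integrable_inner_of_cont (hf k) hh ?_
  rcases hc with hc | hc
  · exact Or.inr hc
  · exact Or.inl (hc k)

theorem integral_inner_sum_right {f : κ → E → F} {h : E → F} (hf : ∀ k, Continuous (f k))
    (hh : Continuous h) (hc : HasCompactSupport h ∨ ∀ k, HasCompactSupport (f k)) :
    ∫ x, ⟪h x, ∑ k, f k x⟫_ℂ ∂μ = ∑ k, ∫ x, ⟪h x, f k x⟫_ℂ ∂μ := by
  simp only [inner_sum]
  refine integral_finsetSum _ fun k _ => ?_
  refine integrable_inner_of_cont hh (hf k) ?_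
  rcases hc with hc | hc
  · exact Or.inl hc
  · exact Or.inr (hc k)

theorem cd_one_of_two {f : E → F} (hf : ContDiff ℝ 2 f) : ContDiff ℝ 1 f :=
  hf.of_le (by norm_num)

/-- one derivative term of a first order operator, skew coefficient constant along its
direction -/
theorem term_symm {β : E → F →L[ℝ] F} {v : E} (hβ : ContDiff ℝ 1 β)
    (hs : ∀ x, Skew (β x)) (hv : ∀ x, fderiv ℝ β x v = 0) {f h : E → F}
    (hf : ContDiff ℝ 1 f) (hh : ContDiff ℝ 1 h)
    (hc : HasCompactSupport f ∨ HasCompactSupport h) :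
    ∫ x, ⟪β x (fderiv ℝ f x v), h x⟫_ℂ ∂μ = ∫ x, ⟪f x, β x (fderiv ℝ h x v)⟫_ℂ ∂μ := by
  have h1 : ∀ x, fderiv ℝ (fun y => β y (h y)) x v = β x (fderiv ℝ h x v) := fun x => by
    have hb : HasFDerivAt β (fderiv ℝ β x) x :=
      (hβ.differentiable (by norm_num) x).hasFDerivAt
    have hh' : HasFDerivAt h (fderiv ℝ h x) x :=
      (hh.differentiable (by norm_num) x).hasFDerivAt
    rw [(hb.clm_apply hh').fderiv]
    simp [hv x]
  have h2 : ContDiff ℝ 1 fun y => β y (h y) := hβ.clm_apply hh
  have h3 : HasCompactSupport f ∨ HasCompactSupport fun y => β y (h y) := by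
    refine hc.imp id fun hc => ?_
    exact hc.mono' fun x hx => subset_tsupport _ (by intro h0; apply hx; simp [h0])
  calc ∫ x, ⟪β x (fderiv ℝ f x v), h x⟫_ℂ ∂μ
      = -∫ x, ⟪fderiv ℝ f x v, β x (h x)⟫_ℂ ∂μ := by
        rw [← integral_neg]
        exact integral_congr_ae (Eventually.of_forall fun x => hs x _ _)
    _ = ∫ x, ⟪f x, fderiv ℝ (fun y => β y (h y)) x v⟫_ℂ ∂μ := by
        rw [ibp hf h2 h3 v, neg_neg]
    _ = _ := by simp only [h1]

/-- symmetry of `op` with skew first order coefficients which are constant along their own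
directions -/
theorem op_symm {v : ι → E} {β : ι → E → F →L[ℝ] F} {p : E → F →L[ℝ] F}
    (hβ : ∀ i, ContDiff ℝ 1 (β i)) (hp : Continuous p) (hs : ∀ i x, Skew (β i x))
    (hps : ∀ x, Symm (p x)) (hv : ∀ i x, fderiv ℝ (β i) x (v i) = 0) {f h : E → F}
    (hf : ContDiff ℝ 1 f) (hh : ContDiff ℝ 1 h) (hcf : HasCompactSupport f)
    (hch : HasCompactSupport h) :
    ∫ x, ⟪op v β p f x, h x⟫_ℂ ∂μ = ∫ x, ⟪f x, op v β p h x⟫_ℂ ∂μ := by
  have c1 : ∀ i, Continuous fun x => β i x (fderiv ℝ f x (v i)) := fun i =>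
    (hβ i).continuous.clm_apply (fderiv_apply_continuous hf (v i))
  have c2 : ∀ i, Continuous fun x => β i x (fderiv ℝ h x (v i)) := fun i =>
    (hβ i).continuous.clm_apply (fderiv_apply_continuous hh (v i))
  have c3 : Continuous fun x => p x (f x) := hp.clm_apply hf.continuous
  have c4 : Continuous fun x => p x (h x) := hp.clm_apply hh.continuous
  unfold op
  simp only [inner_add_left, inner_add_right]
  rw [integral_add, integral_add, integral_inner_sum_left c1 hh.continuous (Or.inl hch),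
    integral_inner_sum_right c2 hf.continuous (Or.inl hcf)]
  · congr 1
    · exact Finset.sum_congr rfl fun i _ =>
        term_symm (hβ i) (hs i) (hv i) hf hh (Or.inl hcf)
    · exact integral_congr_ae (Eventually.of_forall fun x => hps x _ _)
  · exact integrable_inner_of_cont hf.continuous (continuous_finsetSum _ fun i _ => c2 i)
      (Or.inl hcf)
  · exact integrable_inner_of_cont hf.continuous c4 (Or.inl hcf)
  · exact integrable_inner_of_cont (continuous_finsetSum _ fun i _ => c1 i) hh.continuous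
      (Or.inr hch)
  · exact integrable_inner_of_cont c3 hh.continuous (Or.inr hch)

/-- the commutator part `[∂_e, B]` of `B = op v β p` -/
def dop (e : E) (v : ι → E) (β : ι → E → F →L[ℝ] F) (p : E → F →L[ℝ] F) (h : E → F) (x : E) : F :=
  ∑ i, (fderiv ℝ (β i) x e) (fderiv ℝ h x (v i)) + (fderiv ℝ p x e) (h x)

theorem fderiv_op {e : E} {v : ι → E} {β : ι → E → F →L[ℝ] F} {p : E → F →L[ℝ] F}
    (hβ : ∀ i, ContDiff ℝ 1 (β i)) (hp : ContDiff ℝ 1 p) {h : E → F} (hh : ContDiff ℝ 2 h)
    (x : E) :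
    fderiv ℝ (op v β p h) x e = op v β p (fun y => fderiv ℝ h y e) x + dop e v β p h x := by
  have hd : ∀ y, HasFDerivAt h (fderiv ℝ h y) y := fun y =>
    ((hh.differentiable (by norm_num)) y).hasFDerivAt
  have hd2 : HasFDerivAt (fderiv ℝ h) (fderiv ℝ (fderiv ℝ h) x) x :=
    ((hh.fderiv_right (m := 1) (by norm_num)).differentiable (by norm_num) x).hasFDerivAt
  have hsymm : ∀ s t : E, fderiv ℝ (fderiv ℝ h) x s t = fderiv ℝ (fderiv ℝ h) x t s := by
    intro s t
    have := (hh.contDiffAt (x := x)).isSymmSndFDerivAt (by simp)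
    exact this.eq s t
  have hv : ∀ s : E, HasFDerivAt (fun y => fderiv ℝ h y s)
      ((ContinuousLinearMap.apply ℝ F s).comp (fderiv ℝ (fderiv ℝ h) x)) x := fun s =>
    (ContinuousLinearMap.apply ℝ F s).hasFDerivAt.comp x hd2
  have hb : ∀ i, HasFDerivAt (β i) (fderiv ℝ (β i) x) x := fun i =>
    ((hβ i).differentiable (by norm_num) x).hasFDerivAt
  have hpd : HasFDerivAt p (fderiv ℝ p x) x := (hp.differentiable (by norm_num) x).hasFDerivAt
  have hop : HasFDerivAt (op v β p h)
      (∑ i, ((β i x).comp ((ContinuousLinearMap.apply ℝ F (v i)).comp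
          (fderiv ℝ (fderiv ℝ h) x)) + (fderiv ℝ (β i) x).flip (fderiv ℝ h x (v i))) +
        ((p x).comp (fderiv ℝ h x) + (fderiv ℝ p x).flip (h x))) x := by
    unfold op
    refine HasFDerivAt.add (HasFDerivAt.fun_sum fun i _ => ?_) ?_
    · exact (hb i).clm_apply (hv (v i))
    · exact hpd.clm_apply (hd x)
  rw [hop.fderiv]
  have h3 : ∀ i, fderiv ℝ (fun y => fderiv ℝ h y e) x (v i) =
      fderiv ℝ (fderiv ℝ h) x e (v i) := fun i => by
    rw [(hv e).fderiv]
    simp only [ContinuousLinearMap.comp_apply, ContinuousLinearMap.apply_apply]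
    exact hsymm _ _
  simp only [op, dop, h3, _root_.add_apply, _root_.sum_apply,
    ContinuousLinearMap.comp_apply, ContinuousLinearMap.apply_apply,
    ContinuousLinearMap.flip_apply, Finset.sum_add_distrib]
  abel

/-- **Polarised cross identity.** -/
theorem cross_identity {e : κ → E} {a : κ → F →L[ℝ] F} {w : E → F →L[ℝ] F}
    {v : ι → E} {β : ι → E → F →L[ℝ] F} {p : E → F →L[ℝ] F}
    (hw : ContDiff ℝ 1 w) (hβ : ∀ i, ContDiff ℝ 1 (β i)) (hp : ContDiff ℝ 1 p)
    (has : ∀ k, Skew (a k)) (hws : ∀ x, Symm (w x))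
    (hβs : ∀ i x, Skew (β i x)) (hps : ∀ x, Symm (p x))
    (hvβ : ∀ i x, fderiv ℝ (β i) x (v i) = 0) (hvw : ∀ i x, fderiv ℝ w x (v i) = 0)
    (haβ : ∀ k i x, Anti (a k) (β i x)) (hap : ∀ k x, Anti (a k) (p x))
    (hwβ : ∀ i x, Anti (w x) (β i x)) (hwp : ∀ x, Anti (w x) (p x))
    {f h : E → F} (hf : ContDiff ℝ 2 f) (hh : ContDiff ℝ 2 h)
    (hcf : HasCompactSupport f) (hch : HasCompactSupport h) :
    ∫ x, ⟪op e (fun k _ => a k) w f x, op v β p h x⟫_ℂ ∂μ +
      ∫ x, ⟪op v β p f x, op e (fun k _ => a k) w h x⟫_ℂ ∂μ =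
    ∫ x, ⟪f x, ∑ k, a k (dop (e k) v β p h x)⟫_ℂ ∂μ := by
  have f1 := cd_one_of_two hf
  have h1 := cd_one_of_two hh
  have hBh : ContDiff ℝ 1 (op v β p h) :=
    contDiff_op (n := 2) (m := 1) (by norm_num) hβ hp hh
  have hBhc : HasCompactSupport (op v β p h) := hasCompactSupport_op hch
  have hBf : Continuous (op v β p f) :=
    (contDiff_op (n := 2) (m := 1) (by norm_num) hβ hp hf).continuous
  have hdh : ∀ s, ContDiff ℝ 1 fun y => fderiv ℝ h y s := fun s =>
    (hh.fderiv_right (m := 1) (by norm_num)).clm_apply contDiff_const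
  have hdhc : ∀ s, HasCompactSupport fun y => fderiv ℝ h y s := fun s =>
    hasCompactSupport_fderiv_apply hch s
  have hadh : ∀ k, ContDiff ℝ 1 fun y => a k (fderiv ℝ h y (e k)) := fun k =>
    (a k).contDiff.comp (hdh (e k))
  have hadhc : ∀ k, HasCompactSupport fun y => a k (fderiv ℝ h y (e k)) := fun k =>
    (hdhc (e k)).mono' fun x hx => subset_tsupport _ (by intro h0; apply hx; simp [h0])
  have cdop : ∀ k, Continuous fun x => a k (dop (e k) v β p h x) := fun k => by
    refine (a k).continuous.comp ?_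
    unfold dop
    refine Continuous.add (continuous_finsetSum _ fun i _ => ?_) ?_
    · exact (((hβ i).continuous_fderiv (by norm_num)).clm_apply continuous_const).clm_apply
        (fderiv_apply_continuous h1 (v i))
    · exact ((hp.continuous_fderiv (by norm_num)).clm_apply continuous_const).clm_apply
        h1.continuous
  -- the derivative terms
  have key : ∀ k, ∫ x, ⟪a k (fderiv ℝ f x (e k)), op v β p h x⟫_ℂ ∂μ +
      ∫ x, ⟪op v β p f x, a k (fderiv ℝ h x (e k))⟫_ℂ ∂μ =
      ∫ x, ⟪f x, a k (dop (e k) v β p h x)⟫_ℂ ∂μ := by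
    intro k
    have s1 : ∫ x, ⟪a k (fderiv ℝ f x (e k)), op v β p h x⟫_ℂ ∂μ =
        ∫ x, ⟪f x, a k (fderiv ℝ (op v β p h) x (e k))⟫_ℂ ∂μ :=
      term_symm (β := fun _ => a k) (v := e k) contDiff_const (fun _ => has k)
        (fun x => by simp) f1 hBh (Or.inl hcf)
    have s2 : ∫ x, ⟪op v β p f x, a k (fderiv ℝ h x (e k))⟫_ℂ ∂μ =
        ∫ x, ⟪f x, op v β p (fun y => a k (fderiv ℝ h y (e k))) x⟫_ℂ ∂μ :=
      op_symm hβ hp.continuous hβs hps hvβ f1 (hadh k) hcf (hadhc k)
    have s3 : ∀ x, a k (fderiv ℝ (op v β p h) x (e k)) +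
        op v β p (fun y => a k (fderiv ℝ h y (e k))) x = a k (dop (e k) v β p h x) := by
      intro x
      have hx : DifferentiableAt ℝ (fun y => fderiv ℝ h y (e k)) x :=
        (hdh (e k)).differentiable (by norm_num) x
      have e1 : op v β p (fun y => a k (fderiv ℝ h y (e k))) x =
          -a k (op v β p (fun y => fderiv ℝ h y (e k)) x) := by
        refine op_clm_anti (fun i => ?_) ?_ hx
        · intro u
          rw [haβ k i x u, neg_neg]
        · intro u
          rw [hap k x u, neg_neg]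
      rw [fderiv_op hβ hp hh x, map_add, e1]
      abel
    have i1 : Integrable (fun x => ⟪f x, a k (fderiv ℝ (op v β p h) x (e k))⟫_ℂ) μ :=
      integrable_inner_of_cont f1.continuous
        ((a k).continuous.comp (fderiv_apply_continuous hBh (e k))) (Or.inl hcf)
    have i2 : Integrable (fun x => ⟪f x, op v β p (fun y => a k (fderiv ℝ h y (e k))) x⟫_ℂ) μ := by
      refine integrable_inner_of_cont f1.continuous ?_ (Or.inl hcf)
      unfold op
      refine Continuous.add (continuous_finsetSum _ fun i _ => ?_) ?_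
      · exact (hβ i).continuous.clm_apply (fderiv_apply_continuous (hadh k) (v i))
      · exact hp.continuous.clm_apply (hadh k).continuous
    rw [s1, s2, ← integral_add i1 i2]
    refine integral_congr_ae (Eventually.of_forall fun x => ?_)
    simp only
    rw [← inner_add_right, s3 x]
  -- the zero order term
  have kw : ∫ x, ⟪w x (f x), op v β p h x⟫_ℂ ∂μ + ∫ x, ⟪op v β p f x, w x (h x)⟫_ℂ ∂μ = 0 := by
    have hwh : ContDiff ℝ 1 fun y => w y (h y) := hw.clm_apply h1
    have hwhc : HasCompactSupport fun y => w y (h y) :=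
      hch.mono' fun x hx => subset_tsupport _ (by intro h0; apply hx; simp [h0])
    have s1 : ∫ x, ⟪w x (f x), op v β p h x⟫_ℂ ∂μ = ∫ x, ⟪f x, w x (op v β p h x)⟫_ℂ ∂μ :=
      integral_congr_ae (Eventually.of_forall fun x => hws x _ _)
    have s2 : ∫ x, ⟪op v β p f x, w x (h x)⟫_ℂ ∂μ =
        ∫ x, ⟪f x, op v β p (fun y => w y (h y)) x⟫_ℂ ∂μ :=
      op_symm hβ hp.continuous hβs hps hvβ f1 hwh hcf hwhc
    have s3 : ∀ x, op v β p (fun y => w y (h y)) x = -w x (op v β p h x) := by
      intro x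
      have hd : ∀ i, fderiv ℝ (fun y => w y (h y)) x (v i) = w x (fderiv ℝ h x (v i)) := by
        intro i
        have hb : HasFDerivAt w (fderiv ℝ w x) x :=
          (hw.differentiable (by norm_num) x).hasFDerivAt
        have hh' : HasFDerivAt h (fderiv ℝ h x) x :=
          (h1.differentiable (by norm_num) x).hasFDerivAt
        rw [(hb.clm_apply hh').fderiv]
        simp [hvw i x]
      simp only [op, hd, map_add, map_sum]
      rw [neg_add, ← Finset.sum_neg_distrib]
      congr 1
      · refine Finset.sum_congr rfl fun i _ => ?_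
        rw [hwβ i x, neg_neg]
      · rw [hwp x, neg_neg]
    rw [s1, s2]
    simp only [s3, inner_neg_right, integral_neg]
    ring
  have cA1 : ∀ k, Continuous fun x => a k (fderiv ℝ f x (e k)) := fun k =>
    (a k).continuous.comp (fderiv_apply_continuous f1 (e k))
  have cA2 : ∀ k, Continuous fun x => a k (fderiv ℝ h x (e k)) := fun k => (hadh k).continuous
  have cwf : Continuous fun x => w x (f x) := hw.continuous.clm_apply f1.continuous
  have cwh : Continuous fun x => w x (h x) := hw.continuous.clm_apply h1.continuous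
  have hBfc : HasCompactSupport (op v β p f) := hasCompactSupport_op hcf
  have e1 : ∫ x, ⟪op e (fun k _ => a k) w f x, op v β p h x⟫_ℂ ∂μ =
      ∑ k, ∫ x, ⟪a k (fderiv ℝ f x (e k)), op v β p h x⟫_ℂ ∂μ +
        ∫ x, ⟪w x (f x), op v β p h x⟫_ℂ ∂μ := by
    rw [← integral_inner_sum_left cA1 hBh.continuous (Or.inl hBhc), ← integral_add]
    · refine integral_congr_ae (Eventually.of_forall fun x => ?_)
      simp only [op, inner_add_left]
    · exact integrable_inner_of_cont (continuous_finsetSum _ fun k _ => cA1 k) hBh.continuous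
        (Or.inr hBhc)
    · exact integrable_inner_of_cont cwf hBh.continuous (Or.inr hBhc)
  have e2 : ∫ x, ⟪op v β p f x, op e (fun k _ => a k) w h x⟫_ℂ ∂μ =
      ∑ k, ∫ x, ⟪op v β p f x, a k (fderiv ℝ h x (e k))⟫_ℂ ∂μ +
        ∫ x, ⟪op v β p f x, w x (h x)⟫_ℂ ∂μ := by
    rw [← integral_inner_sum_right cA2 hBf (Or.inl hBfc), ← integral_add]
    · refine integral_congr_ae (Eventually.of_forall fun x => ?_)
      simp only [op, inner_add_right]
    · exact integrable_inner_of_cont hBf (continuous_finsetSum _ fun k _ => cA2 k)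
        (Or.inl hBfc)
    · exact integrable_inner_of_cont hBf cwh (Or.inl hBfc)
  rw [e1, e2, integral_inner_sum_right cdop f1.continuous (Or.inl hcf)]
  calc _ = ∑ k, (∫ x, ⟪a k (fderiv ℝ f x (e k)), op v β p h x⟫_ℂ ∂μ +
        ∫ x, ⟪op v β p f x, a k (fderiv ℝ h x (e k))⟫_ℂ ∂μ) +
        (∫ x, ⟪w x (f x), op v β p h x⟫_ℂ ∂μ + ∫ x, ⟪op v β p f x, w x (h x)⟫_ℂ ∂μ) := by
        rw [Finset.sum_add_distrib]; ring
    _ = _ := by rw [kw, add_zero]; exact Finset.sum_congr rfl fun k _ => key k

end ident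

end Crest.Agent.R330.Decoup924
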