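import Mathlib
import Crest.Prelude.Def_MatrixModel
import Crest.Agent.R330.IBP_837

/-!
Row 330 (helper423), leaf S0-SCALE: the scaling unitary `U_l φ(x) = l^{d/2} φ(l x)` on wave
functions over `Cfg N`, its effect on the general charge `chargeW` of helper837 (potential `W`
goes to `scaleW l W α β A y = l⁻¹ W α β A (l⁻¹ y)`), on the form, and on the kernels.
-/

set_option autoImplicit false
set_option linter.unusedSectionVars false
set_option linter.deprecated false

noncomputable section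

namespace Crest.Agent.R330.Scale423

open MeasureTheory Filter Topology Crest.MathPhysics.MatrixQM Crest.Agent.R330.IBP837
open scoped ContDiff InnerProductSpace ENNReal

variable {N : ℕ} {F : Type*} [NormedAddCommGroup F] [InnerProductSpace ℂ F]
  [FiniteDimensional ℂ F]

/-! ### 1. The unitary -/

/-- the normalisation `l^{d/2}`, `d = dim Cfg N` -/
def nrm (N : ℕ) (l : ℝ) : ℝ := l ^ ((Module.finrank ℝ (Cfg N) : ℝ) / 2)

theorem nrm_pos {l : ℝ} (hl : 0 < l) : 0 < nrm N l := Real.rpow_pos_of_pos hl _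

theorem nrm_one : nrm N 1 = 1 := Real.one_rpow _

theorem nrm_mul {l l' : ℝ} (hl : 0 < l) (hl' : 0 < l') :
    nrm N (l * l') = nrm N l * nrm N l' := Real.mul_rpow hl.le hl'.le

theorem nrm_sq {l : ℝ} (hl : 0 < l) : nrm N l ^ 2 = l ^ (Module.finrank ℝ (Cfg N)) := by
  unfold nrm
  rw [← Real.rpow_natCast, ← Real.rpow_mul hl.le, ← Real.rpow_natCast]
  congr 1
  push_cast
  ring

/-- `U_l φ(x) = l^{d/2} φ(l x)` -/
def Us (l : ℝ) (φ : Cfg N → F) : Cfg N → F := fun x => ((nrm N l : ℝ) : ℂ) • φ (l • x)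

theorem Us_apply (l : ℝ) (φ : Cfg N → F) (x : Cfg N) :
    Us l φ x = ((nrm N l : ℝ) : ℂ) • φ (l • x) := rfl

theorem Us_one (φ : Cfg N → F) : Us 1 φ = φ := by
  funext x; simp [Us, nrm_one]

theorem Us_Us {l l' : ℝ} (hl : 0 < l) (hl' : 0 < l') (φ : Cfg N → F) :
    Us l (Us l' φ) = Us (l' * l) φ := by
  funext x
  simp only [Us, smul_smul, nrm_mul hl' hl]
  push_cast
  rw [mul_comm ((nrm N l : ℝ) : ℂ)]

theorem Us_inv_left {l : ℝ} (hl : 0 < l) (φ : Cfg N → F) : Us l⁻¹ (Us l φ) = φ := by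
  rw [Us_Us (inv_pos.2 hl) hl, mul_inv_cancel₀ hl.ne', Us_one]

theorem Us_inv_right {l : ℝ} (hl : 0 < l) (φ : Cfg N → F) : Us l (Us l⁻¹ φ) = φ := by
  rw [Us_Us hl (inv_pos.2 hl), inv_mul_cancel₀ hl.ne', Us_one]

theorem Us_add (l : ℝ) (φ ψ : Cfg N → F) : Us l (φ + ψ) = Us l φ + Us l ψ := by
  funext x; simp [Us, smul_add]

theorem Us_sub (l : ℝ) (φ ψ : Cfg N → F) : Us l (φ - ψ) = Us l φ - Us l ψ := by
  funext x; simp [Us, smul_sub]

theorem Us_smul (l : ℝ) (c : ℂ) (φ : Cfg N → F) : Us l (c • φ) = c • Us l φ := by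
  funext x
  simp only [Us, Pi.smul_apply, smul_smul]
  rw [mul_comm]



theorem Us_contDiff {n : WithTop ℕ∞} {l : ℝ} {φ : Cfg N → F} (hφ : ContDiff ℝ n φ) :
    ContDiff ℝ n (Us l φ) := by
  unfold Us
  have h1 : ContDiff ℝ n fun x : Cfg N => φ (l • x) :=
    hφ.comp (contDiff_const_smul l)
  have h2 : (fun x : Cfg N => ((nrm N l : ℝ) : ℂ) • φ (l • x)) =
      fun x => (nrm N l : ℝ) • φ (l • x) := by
    funext x; exact Complex.coe_smul _ _
  rw [h2]
  exact h1.const_smul (nrm N l)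

theorem Us_hasCompactSupport {l : ℝ} (hl : 0 < l) {φ : Cfg N → F} (hφ : HasCompactSupport φ) :
    HasCompactSupport (Us l φ) := by
  have h1 : HasCompactSupport fun x : Cfg N => φ (l • x) :=
    hφ.comp_homeomorph (Homeomorph.smulOfNeZero l hl.ne')
  have h2 : HasCompactSupport ((fun _ : Cfg N => ((nrm N l : ℝ) : ℂ)) • fun x : Cfg N => φ (l • x)) :=
    h1.smul_left
  exact h2

theorem act_smul (b : ColorBasis N) (g : Matrix.specialUnitaryGroup (Fin N) ℂ) (l : ℝ)
    (x : Cfg N) : b.act g (l • x) = l • b.act g x := by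
  ext iA
  simp only [ColorBasis.act, PiLp.smul_apply, smul_eq_mul, Finset.mul_sum]
  exact Finset.sum_congr rfl fun B _ => by ring

/-- the scaling unitary preserves the core -/
theorem core_Us {b : ColorBasis N} {M : FermionRep N F} {R : GaugeAction b M} {l : ℝ}
    (hl : 0 < l) {φ : Cfg N → F} (h : IsCoreVec b R φ) : IsCoreVec b R (Us l φ) := by
  refine ⟨Us_contDiff h.1, Us_hasCompactSupport hl h.2.1, fun g x => ?_⟩
  simp only [Us, ← act_smul, h.2.2 g (l • x), map_smul]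


/-! ### 2. Norms and inner products -/

theorem map_smul_volume {l : ℝ} (hl : 0 < l) :
    Measure.map (fun x : Cfg N => l • x) (volume : Measure (Cfg N)) =
      ENNReal.ofReal ((l ^ Module.finrank ℝ (Cfg N))⁻¹) • (volume : Measure (Cfg N)) := by
  have h := Measure.map_addHaar_smul (volume : Measure (Cfg N)) hl.ne'
  rw [abs_of_pos (inv_pos.2 (pow_pos hl _))] at h
  exact h

theorem eLpNorm_comp_smul {l : ℝ} (hl : 0 < l) (φ : Cfg N → F) :
    eLpNorm (fun x => φ (l • x)) 2 volume =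
      ENNReal.ofReal ((nrm N l)⁻¹) * eLpNorm φ 2 volume := by
  have hemb : MeasurableEmbedding (fun x : Cfg N => l • x) :=
    (Homeomorph.smulOfNeZero l hl.ne').measurableEmbedding
  have h1 : eLpNorm (fun x => φ (l • x)) 2 volume =
      eLpNorm φ 2 (Measure.map (fun x : Cfg N => l • x) volume) :=
    (hemb.eLpNorm_map_measure).symm
  rw [h1, map_smul_volume hl, eLpNorm_smul_measure_of_ne_top (by norm_num)]
  congr 1
  rw [ENNReal.ofReal_rpow_of_nonneg (by positivity) (by norm_num)]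
  congr 1
  rw [← nrm_sq hl, ← Real.rpow_natCast, ← Real.rpow_neg (nrm_pos hl).le, ← Real.rpow_mul
    (nrm_pos hl).le]
  norm_num
  rw [Real.rpow_neg_one]

theorem eLpNorm_Us {l : ℝ} (hl : 0 < l) (φ : Cfg N → F) :
    eLpNorm (Us l φ) 2 volume = eLpNorm φ 2 volume := by
  have h : Us l φ = ((nrm N l : ℝ) : ℂ) • fun x => φ (l • x) := rfl
  rw [h, eLpNorm_const_smul, eLpNorm_comp_smul hl, ← mul_assoc]
  have : ‖((nrm N l : ℝ) : ℂ)‖ₑ = ENNReal.ofReal (nrm N l) := by
    rw [← ofReal_norm, Complex.norm_real, Real.norm_of_nonneg (nrm_pos hl).le]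
  rw [this, ← ENNReal.ofReal_mul (nrm_pos hl).le, mul_inv_cancel₀ (nrm_pos hl).ne',
    ENNReal.ofReal_one, one_mul]

theorem Us_memLp {l : ℝ} (hl : 0 < l) {φ : Cfg N → F} (hφ : MemLp φ 2 volume) :
    MemLp (Us l φ) 2 volume := by
  refine ⟨?_, ?_⟩
  · have h1 : AEStronglyMeasurable (fun x : Cfg N => φ (l • x)) volume := by
      refine hφ.1.comp_quasiMeasurePreserving ⟨(measurable_const_smul l), ?_⟩
      rw [map_smul_volume hl]
      exact Measure.smul_absolutelyContinuous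
    exact h1.const_smul _
  · rw [eLpNorm_Us hl]; exact hφ.2


/-- unitarity -/
theorem integral_inner_Us {l : ℝ} (hl : 0 < l) (φ ψ : Cfg N → F) :
    ∫ x, ⟪Us l φ x, Us l ψ x⟫_ℂ = ∫ x, ⟪φ x, ψ x⟫_ℂ := by
  have h1 : ∀ x, ⟪Us l φ x, Us l ψ x⟫_ℂ =
      ((nrm N l ^ 2 : ℝ) : ℂ) * (fun y => ⟪φ y, ψ y⟫_ℂ) (l • x) := by
    intro x
    simp only [Us, inner_smul_left, inner_smul_right, Complex.conj_ofReal]
    push_cast
    ring
  simp only [h1]
  rw [integral_const_mul, Measure.integral_comp_smul volume (fun y => ⟪φ y, ψ y⟫_ℂ) l,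
    nrm_sq hl, abs_of_pos (inv_pos.2 (pow_pos hl _)), Complex.real_smul, ← mul_assoc,
    ← Complex.ofReal_mul, mul_inv_cancel₀ (pow_pos hl _).ne']
  simp

theorem ae_comp_smul {l : ℝ} (hl : 0 < l) {p : Cfg N → Prop} (h : ∀ᵐ x, p x) :
    ∀ᵐ x : Cfg N, p (l • x) := by
  have hq : Measure.QuasiMeasurePreserving (fun x : Cfg N => l • x) volume volume := by
    refine ⟨(measurable_const_smul l), ?_⟩
    rw [map_smul_volume hl]
    exact Measure.smul_absolutelyContinuous
  exact hq.ae h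

theorem Us_congr_ae {l : ℝ} (hl : 0 < l) {φ ψ : Cfg N → F} (h : φ =ᵐ[volume] ψ) :
    Us l φ =ᵐ[volume] Us l ψ := by
  filter_upwards [ae_comp_smul hl h] with x hx
  simp only [Us, hx]


/-! ### 3. Charges -/

/-- the potential seen after scaling -/
def scaleW (l : ℝ) (W : Fin 16 → Fin 16 → Fin (N ^ 2 - 1) → Cfg N → ℝ) :
    Fin 16 → Fin 16 → Fin (N ^ 2 - 1) → Cfg N → ℝ :=
  fun α β A y => l⁻¹ * W α β A (l⁻¹ • y)

theorem fderiv_Us {l : ℝ} {φ : Cfg N → F} {x : Cfg N} (hφ : DifferentiableAt ℝ φ (l • x))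
    (e : Cfg N) :
    fderiv ℝ (Us l φ) x e = ((nrm N l : ℝ) : ℂ) • ((l : ℂ) • fderiv ℝ φ (l • x) e) := by
  have h0 : HasFDerivAt (fun x : Cfg N => l • x) (l • ContinuousLinearMap.id ℝ (Cfg N)) x := by
    exact (l • ContinuousLinearMap.id ℝ (Cfg N)).hasFDerivAt
  have h1 : HasFDerivAt (fun x : Cfg N => φ (l • x))
      ((fderiv ℝ φ (l • x)).comp (l • ContinuousLinearMap.id ℝ (Cfg N))) x :=
    HasFDerivAt.comp x (hφ.hasFDerivAt) h0
  have h2 : HasFDerivAt (fun x : Cfg N => (nrm N l) • φ (l • x))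
      ((nrm N l) • ((fderiv ℝ φ (l • x)).comp (l • ContinuousLinearMap.id ℝ (Cfg N)))) x :=
    h1.const_smul (nrm N l)
  have h3 : Us l φ = fun x : Cfg N => (nrm N l) • φ (l • x) := by
    funext y; exact Complex.coe_smul _ _
  rw [h3, h2.fderiv]
  simp only [ContinuousLinearMap.smul_apply, ContinuousLinearMap.comp_apply,
    ContinuousLinearMap.id_apply, map_smul]
  rw [Complex.coe_smul, Complex.coe_smul]

/-- **Scaling of the general charge**: `Q_α^W (U_l φ) = l · U_l (Q_α^{W_l} φ)` with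
`W_l(y) = l⁻¹ W(l⁻¹ y)`. -/
theorem chargeW_Us {M : FermionRep N F} {G : GammaNine}
    {W : Fin 16 → Fin 16 → Fin (N ^ 2 - 1) → Cfg N → ℝ} {l : ℝ} (hl : 0 < l) {α : Fin 16}
    {φ : Cfg N → F} (hφ : Differentiable ℝ φ) :
    chargeW M G W α (Us l φ) = (l : ℂ) • Us l (chargeW M G (scaleW l W) α φ) := by
  funext x
  have hd : ∀ k : Fin 9 × Fin (N ^ 2 - 1), (-Complex.I) • dco M G α k
      (fderiv ℝ (Us l φ) x (EuclideanSpace.single k 1)) =
      ((l : ℂ) * ((nrm N l : ℝ) : ℂ)) • ((-Complex.I) • dco M G α k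
        (fderiv ℝ φ (l • x) (EuclideanSpace.single k 1))) := by
    intro k
    rw [fderiv_Us (hφ _)]
    simp only [map_smul, smul_smul]
    congr 1
    ring
  have hp : vco M (fun β A => W α β A x) (Us l φ x) =
      ((l : ℂ) * ((nrm N l : ℝ) : ℂ)) •
        vco M (fun β A => scaleW l W α β A (l • x)) (φ (l • x)) := by
    simp only [vco_apply, Us, map_smul, Finset.smul_sum, smul_smul, scaleW]
    refine Finset.sum_congr rfl fun A _ => Finset.sum_congr rfl fun β _ => ?_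
    rw [inv_mul_cancel₀ hl.ne', one_smul]
    congr 1
    push_cast
    have hlc : (l : ℂ) ≠ 0 := by exact_mod_cast hl.ne'
    field_simp
  rw [chargeW_apply, hp]
  simp only [hd]
  simp only [Pi.smul_apply, Us]
  rw [chargeW_apply, ← Finset.smul_sum, ← smul_add, smul_smul]



/-! ### 4. Homogeneous potentials -/

/-- linear potential `Σ_i c_i(α,β) x_i^A` (BMN mass terms: `c i α β = -c_i (Γ γ^i)_αβ`) -/
def linW (N : ℕ) (c : Fin 9 → Fin 16 → Fin 16 → ℝ) :
    Fin 16 → Fin 16 → Fin (N ^ 2 - 1) → Cfg N → ℝ :=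
  fun α β A x => ∑ i, c i α β * x (i, A)

theorem scaleW_add (l : ℝ) (W W' : Fin 16 → Fin 16 → Fin (N ^ 2 - 1) → Cfg N → ℝ) :
    scaleW l (W + W') = scaleW l W + scaleW l W' := by
  funext α β A y; simp [scaleW, mul_add]

theorem scaleW_smul (l r : ℝ) (W : Fin 16 → Fin 16 → Fin (N ^ 2 - 1) → Cfg N → ℝ) :
    scaleW l (r • W) = r • scaleW l W := by
  funext α β A y; simp only [scaleW, Pi.smul_apply, smul_eq_mul]; ring


/-- a potential homogeneous of degree `k` -/
theorem scaleW_of_homog {l : ℝ} {k : ℕ}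
    {W : Fin 16 → Fin 16 → Fin (N ^ 2 - 1) → Cfg N → ℝ}
    (hW : ∀ α β A (r : ℝ) x, W α β A (r • x) = r ^ k * W α β A x) :
    scaleW l W = (l⁻¹ ^ (k + 1)) • W := by
  funext α β A y
  simp only [scaleW, hW, Pi.smul_apply, smul_eq_mul]
  ring

theorem wco_smul (b : ColorBasis N) (G : GammaNine) (α β : Fin 16) (A : Fin (N ^ 2 - 1))
    (r : ℝ) (x : Cfg N) : wco b G α β A (r • x) = r ^ 2 * wco b G α β A x := by
  simp only [wco, PiLp.smul_apply, smul_eq_mul, Finset.mul_sum]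
  refine Finset.sum_congr rfl fun B _ => Finset.sum_congr rfl fun C _ =>
    Finset.sum_congr rfl fun i _ => Finset.sum_congr rfl fun j _ => ?_
  ring

theorem linW_smul (c : Fin 9 → Fin 16 → Fin 16 → ℝ) (α β : Fin 16) (A : Fin (N ^ 2 - 1))
    (r : ℝ) (x : Cfg N) : linW N c α β A (r • x) = r ^ 1 * linW N c α β A x := by
  simp only [linW, PiLp.smul_apply, smul_eq_mul, Finset.mul_sum, pow_one]
  exact Finset.sum_congr rfl fun i _ => by ring

/-- `(g, m) ↦ (g / l³, m / l²)` -/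
theorem scaleW_family (b : ColorBasis N) (G : GammaNine) (c : Fin 9 → Fin 16 → Fin 16 → ℝ)
    (l g m : ℝ) : scaleW l (g • wco b G + m • linW N c) =
      (g / l ^ 3) • wco b G + (m / l ^ 2) • linW N c := by
  rw [scaleW_add, scaleW_smul, scaleW_smul, scaleW_of_homog (k := 2) (wco_smul b G),
    scaleW_of_homog (k := 1) (linW_smul c), smul_smul, smul_smul]
  congr 2
  · rw [inv_pow]; rfl
  · rw [inv_pow]; rfl


/-! ### 5. Kernels of the closed forms -/








end Crest.Agent.R330.Scale423
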