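import Mathlib
import Crest.Prelude.Def_MatrixModel
import Crest.Agent.R330.IBP_837
import Crest.Agent.R330.Defs_478
import Crest.Agent.R330.Scale_423

/-!
Row 330 (helper423), leaf S0-SCALE, literal form: the scaling unitary `U_l` on the family
`dcharge b M G g m`, `qf`, `zset`, `zker`, `HasDim` of `Defs_478`:
`Q^{g,m} U_l = l U_l Q^{g/l³, m/l²}`.
-/

set_option autoImplicit false
set_option linter.unusedSectionVars false
set_option linter.deprecated false

noncomputable section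

namespace Crest.Agent.R330.ScaleD423

open MeasureTheory Filter Topology Crest.MathPhysics.MatrixQM
open Crest.Agent.R330.IBP837 Crest.Agent.R330.Defs478 Crest.Agent.R330.Scale423
open scoped ContDiff InnerProductSpace ENNReal

variable {N : ℕ} {F : Type*} [NormedAddCommGroup F] [InnerProductSpace ℂ F]
  [FiniteDimensional ℂ F]

/-! ### 1. The dictionary `dcharge` / `chargeW` -/

theorem kin_eq (M : FermionRep N F) (G : GammaNine) (α : Fin 16) (φ : Cfg N → F) (x : Cfg N) :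
    kin M G α φ x = ∑ k : Fin 9 × Fin (N ^ 2 - 1),
      (-Complex.I) • dco M G α k (fderiv ℝ φ x (EuclideanSpace.single k 1)) := by
  unfold kin
  rw [Fintype.sum_prod_type]
  refine Finset.sum_congr rfl fun i _ => Finset.sum_congr rfl fun A _ => ?_
  rw [dco_apply, Finset.smul_sum]
  refine Finset.sum_congr rfl fun β _ => ?_
  rw [smul_smul]

/-- `dcharge` is the general charge with potential `wpot` -/
theorem dcharge_eq (b : ColorBasis N) (M : FermionRep N F) (G : GammaNine) (g m : ℝ) (α : Fin 16)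
    (φ : Cfg N → F) : dcharge b M G g m α φ = chargeW M G (wpot b G g m) α φ := by
  funext x
  rw [chargeW_apply, ← kin_eq, vco_apply]
  rfl

theorem wpot_contDiff (b : ColorBasis N) (G : GammaNine) (g m : ℝ) (α β : Fin 16)
    (A : Fin (N ^ 2 - 1)) {n : WithTop ℕ∞} : ContDiff ℝ n (wpot b G g m α β A) := by
  have h1 : ∀ k : Fin 9 × Fin (N ^ 2 - 1), ContDiff ℝ n (fun x : Cfg N => x k) := fun k =>
    (EuclideanSpace.proj k : Cfg N →L[ℝ] ℝ).contDiff
  unfold wpot
  refine (contDiff_const.mul (ContDiff.sum fun B _ => ContDiff.sum fun C _ =>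
    ContDiff.sum fun i _ => ContDiff.sum fun j _ => ?_)).sub
    (contDiff_const.mul (ContDiff.sum fun j _ => ?_))
  · exact (((contDiff_const.mul (h1 _)).mul (h1 _)).mul contDiff_const)
  · exact (contDiff_const.mul (h1 _)).mul contDiff_const

theorem wpot_eq (b : ColorBasis N) (G : GammaNine) (g m : ℝ) :
    wpot b G g m = g • wco b G + m • linW N (fun j α β => -(cc j * (Gam G * G.γ j) α β)) := by
  funext α β A x
  simp only [Pi.add_apply, Pi.smul_apply, smul_eq_mul, wpot, wco, linW, sub_eq_add_neg]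
  congr 1
  rw [← mul_neg, ← Finset.sum_neg_distrib]
  congr 1
  exact Finset.sum_congr rfl fun j _ => by ring



/-! ### 2. Scaling -/

theorem scaleW_wpot (b : ColorBasis N) (G : GammaNine) (l g m : ℝ) :
    scaleW l (wpot b G g m) = wpot b G (g / l ^ 3) (m / l ^ 2) := by
  rw [wpot_eq, wpot_eq, scaleW_family]

/-- **`Q^{g,m} U_l = l U_l Q^{g/l³, m/l²}`** -/
theorem dcharge_Us (b : ColorBasis N) (M : FermionRep N F) (G : GammaNine) (g m : ℝ)
    (α : Fin 16) {l : ℝ} (hl : 0 < l) {φ : Cfg N → F} (hφ : Differentiable ℝ φ) :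
    dcharge b M G g m α (Us l φ) =
      (l : ℂ) • Us l (dcharge b M G (g / l ^ 3) (m / l ^ 2) α φ) := by
  rw [dcharge_eq, chargeW_Us hl hφ, scaleW_wpot, ← dcharge_eq]


theorem integral_norm_sq_Us {l : ℝ} (hl : 0 < l) (φ : Cfg N → F) :
    ∫ x, ‖Us l φ x‖ ^ 2 = ∫ x, ‖φ x‖ ^ 2 := by
  have h1 : ∀ x, ‖Us l φ x‖ ^ 2 = nrm N l ^ 2 * (fun y => ‖φ y‖ ^ 2) (l • x) := by
    intro x
    simp only [Us, norm_smul, Complex.norm_real, Real.norm_of_nonneg (nrm_pos hl).le, mul_pow]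
  simp only [h1]
  rw [integral_const_mul, Measure.integral_comp_smul volume (fun y => ‖φ y‖ ^ 2) l,
    nrm_sq hl, abs_of_pos (inv_pos.2 (pow_pos hl _)), smul_eq_mul, ← mul_assoc,
    mul_inv_cancel₀ (pow_pos hl _).ne', one_mul]

theorem integral_norm_sq_dcharge_Us (b : ColorBasis N) (M : FermionRep N F) (G : GammaNine)
    (g m : ℝ) (α : Fin 16) {l : ℝ} (hl : 0 < l) {φ : Cfg N → F} (hφ : Differentiable ℝ φ) :
    ∫ x, ‖dcharge b M G g m α (Us l φ) x‖ ^ 2 =
      l ^ 2 * ∫ x, ‖dcharge b M G (g / l ^ 3) (m / l ^ 2) α φ x‖ ^ 2 := by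
  have h1 : ∀ x, ‖dcharge b M G g m α (Us l φ) x‖ ^ 2 =
      l ^ 2 * ‖Us l (dcharge b M G (g / l ^ 3) (m / l ^ 2) α φ) x‖ ^ 2 := by
    intro x
    rw [dcharge_Us b M G g m α hl hφ, Pi.smul_apply, norm_smul, Complex.norm_real,
      Real.norm_of_nonneg hl.le, mul_pow]
  simp only [h1]
  rw [integral_const_mul, integral_norm_sq_Us hl]

/-- **`q_{g,m}(U_l φ) = l² q_{g/l³, m/l²}(φ)`** -/
theorem qf_Us (b : ColorBasis N) (M : FermionRep N F) (G : GammaNine) (g m : ℝ) {l : ℝ}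
    (hl : 0 < l) {φ : Cfg N → F} (hφ : Differentiable ℝ φ) :
    qf b M G g m (Us l φ) = l ^ 2 * qf b M G (g / l ^ 3) (m / l ^ 2) φ := by
  unfold qf
  simp only [integral_norm_sq_dcharge_Us b M G g m _ hl hφ, ← Finset.mul_sum]
  ring




/-! ### 3. Kernels -/



/-- the scaling unitary on `L²` -/
def UsLp (N : ℕ) (F : Type*) [NormedAddCommGroup F] [InnerProductSpace ℂ F]
    [FiniteDimensional ℂ F] (l : ℝ) (hl : 0 < l) :
    Lp F 2 (volume : Measure (Cfg N)) ≃ₗᵢ[ℂ] Lp F 2 (volume : Measure (Cfg N)) where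
  toFun ψ := (Us_memLp hl (Lp.memLp ψ)).toLp (Us l ψ)
  map_add' ψ ψ' := by
    rw [← MemLp.toLp_add]
    refine MemLp.toLp_congr _ _ ?_
    rw [← Us_add]
    exact Us_congr_ae hl (Lp.coeFn_add ψ ψ')
  map_smul' c ψ := by
    simp only [RingHom.id_apply]
    rw [← MemLp.toLp_const_smul]
    refine MemLp.toLp_congr _ _ ?_
    rw [← Us_smul]
    exact Us_congr_ae hl (Lp.coeFn_smul c ψ)
  invFun ψ := (Us_memLp (inv_pos.2 hl) (Lp.memLp ψ)).toLp (Us l⁻¹ ψ)
  left_inv ψ := by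
    have h1 : ((Us_memLp (inv_pos.2 hl) (Lp.memLp
        ((Us_memLp hl (Lp.memLp ψ)).toLp (Us l ψ)))).toLp _ : Lp F 2 (volume : Measure (Cfg N))) =
        (Lp.memLp ψ).toLp (ψ : Cfg N → F) := by
      refine MemLp.toLp_congr _ _ ?_
      refine (Us_congr_ae (inv_pos.2 hl) (MemLp.coeFn_toLp _)).trans ?_
      rw [Us_inv_left hl]
    exact h1.trans (Lp.toLp_coeFn _ _)
  right_inv ψ := by
    have h1 : ((Us_memLp hl (Lp.memLp
        ((Us_memLp (inv_pos.2 hl) (Lp.memLp ψ)).toLp (Us l⁻¹ ψ)))).toLp _ :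
        Lp F 2 (volume : Measure (Cfg N))) =
        (Lp.memLp ψ).toLp (ψ : Cfg N → F) := by
      refine MemLp.toLp_congr _ _ ?_
      refine (Us_congr_ae hl (MemLp.coeFn_toLp _)).trans ?_
      rw [Us_inv_right hl]
    exact h1.trans (Lp.toLp_coeFn _ _)
  norm_map' ψ := by
    change ‖(Us_memLp hl (Lp.memLp ψ)).toLp (Us l ψ)‖ = ‖ψ‖
    rw [Lp.norm_toLp, eLpNorm_Us hl, Lp.norm_def]



theorem UsLp_toLp {l : ℝ} (hl : 0 < l) {φ : Cfg N → F} (hφ : MemLp φ 2 volume) :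
    UsLp N F l hl (hφ.toLp φ) = (Us_memLp hl hφ).toLp (Us l φ) :=
  MemLp.toLp_congr (Us_memLp hl (Lp.memLp _)) _ (Us_congr_ae hl (MemLp.coeFn_toLp hφ))









end Crest.Agent.R330.ScaleD423
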