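import Crest.Agent.R330.Prod3_494
import Crest.Agent.R330.SInd_478
import Crest.Agent.R330.ScaleD_423
import Crest.Agent.R330.Prod2_494
import Crest.Agent.R330.Decoup_924

-- ▼ part R330/Prod4_494
section

/-!
# Row 330 (helper494): the lower bound of the small system at coupling `g`, on balls

* `hws s y = (s + ‖y‖²)⁻¹`.
* `Ground.low`, `Low.scale`, `Ground.low_g` : the Hardy inequality of `SInd` at coupling `g`, with the
  weight `(g^{-2/3} + ‖y‖²)⁻¹` and the bound state `Us (g^{1/3}) ψ`.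
* `Low.capture_on`, `Low.capture_ball` : `∫_{‖y‖ ≤ δ} |φ - P φ|² ≤ (s + δ²)/c · q(φ)`.
* `tail_Us` : `∫_{‖y‖ > ρ} |U_l ψ|² ≤ (l ρ)^{-2s} ∫ ‖x‖^{2s} |ψ|²`.
-/

set_option autoImplicit false
set_option linter.unusedSectionVars false

open MeasureTheory Filter Topology Crest.MathPhysics.MatrixQM
open scoped ContDiff InnerProductSpace ENNReal

noncomputable section

namespace Crest.Agent.R330.Prod494

open Crest.Agent.R330.Defs478 Crest.Agent.R330.Scale423 Crest.Agent.R330.ScaleD423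
  Crest.Agent.R330.SInd478

variable {N : ℕ} {F₁ F : Type*} [NormedAddCommGroup F₁] [InnerProductSpace ℂ F₁]
  [FiniteDimensional ℂ F₁] [NormedAddCommGroup F] [InnerProductSpace ℂ F] [FiniteDimensional ℂ F]
  {ι : Type*} [Fintype ι] [DecidableEq ι]
  {b : ColorBasis N} {M : FermionRep N F₁} {R : GaugeAction b M} {G : GammaNine}
  {g m : ℝ} {θ : Fin 16 → Fin (N ^ 2 - 1) → (F →ₗ[ℂ] F)}

/-- The Hardy weight with core radius `√s`. -/
def hws (s : ℝ) (y : Cfg N) : ℝ := (s + ‖y‖ ^ 2)⁻¹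


theorem hws_pos {s : ℝ} (hs : 0 < s) (y : Cfg N) : 0 < hws s y := by unfold hws; positivity

theorem hws_le {s : ℝ} (hs : 0 < s) (y : Cfg N) : ‖hws s y‖ ≤ s⁻¹ := by
  rw [Real.norm_of_nonneg (hws_pos hs y).le]
  unfold hws
  exact inv_anti₀ hs (by nlinarith [sq_nonneg ‖y‖])

theorem continuous_hws {s : ℝ} (hs : 0 < s) : Continuous (hws (N := N) s) := by
  unfold hws
  exact (continuous_const.add (continuous_norm.pow 2)).inv₀ fun y =>
    (by positivity : s + ‖y‖ ^ 2 ≠ 0)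

theorem hws_scale {l : ℝ} (hl : 0 < l) (y : Cfg N) :
    l ^ 2 * hw (l • y) = hws (l ^ 2)⁻¹ y := by
  unfold hw hws
  rw [norm_smul, Real.norm_of_nonneg hl.le]
  have h1 : (0 : ℝ) < 1 + (l * ‖y‖) ^ 2 := by positivity
  have h2 : (0 : ℝ) < (l ^ 2)⁻¹ + ‖y‖ ^ 2 := by positivity
  have h3 : l ^ 2 * ((l ^ 2)⁻¹ + ‖y‖ ^ 2) = 1 + (l * ‖y‖) ^ 2 := by
    rw [mul_add, mul_inv_cancel₀ (pow_pos hl 2).ne']
    ring
  rw [← h3, mul_inv, ← mul_assoc, mul_inv_cancel₀ (pow_pos hl 2).ne', one_mul]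

theorem Ground.low {ψ : Cfg N → F₁} (h : Ground b M R G ψ) :
    ∃ c : ℝ, 0 < c ∧ Low b M R G 1 0 c hw ψ := by
  obtain ⟨c, hc, h⟩ := h.hardy
  exact ⟨c, hc, fun f hf => h f hf⟩

/-- **Scaling of the lower bound.** -/
theorem Low.scale {c l : ℝ} (hl : 0 < l) {wt : Cfg N → ℝ} {ψ : Cfg N → F₁}
    (h : Low b M R G (g / l ^ 3) (m / l ^ 2) c wt ψ) :
    Low b M R G g m c (fun y => l ^ 2 * wt (l • y)) (Us l ψ) := by
  intro f hf
  set f' : Cfg N → F₁ := Us l⁻¹ f with hf'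
  have h0 : Us l f' = f := Us_inv_right hl f
  have hf'c : IsCoreVec b R f' := core_Us (inv_pos.2 hl) hf
  have hd : Differentiable ℝ f' := hf'c.1.differentiable (by simp)
  have hq : qf b M G g m f = l ^ 2 * qf b M G (g / l ^ 3) (m / l ^ 2) f' := by
    rw [← h0, qf_Us b M G g m hl hd]
  have hc : ∫ z, ⟪Us l ψ z, f z⟫_ℂ = ∫ z, ⟪ψ z, f' z⟫_ℂ := by
    conv_lhs => rw [← h0]
    exact integral_inner_Us hl ψ f'
  have e1 : ∀ y, l ^ 2 * wt (l • y) * ‖f y - (∫ z, ⟪Us l ψ z, f z⟫_ℂ) • Us l ψ y‖ ^ 2 =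
      l ^ 2 * (nrm N l ^ 2 * (fun z => wt z * ‖f' z - (∫ z, ⟪ψ z, f' z⟫_ℂ) • ψ z‖ ^ 2) (l • y)) := by
    intro y
    have e2 : f y - (∫ z, ⟪Us l ψ z, f z⟫_ℂ) • Us l ψ y =
        ((nrm N l : ℝ) : ℂ) • (f' (l • y) - (∫ z, ⟪ψ z, f' z⟫_ℂ) • ψ (l • y)) := by
      rw [hc]
      conv_lhs => rw [← h0]
      simp only [Us_apply, smul_sub, smul_smul]
      rw [mul_comm]
    rw [e2, norm_smul, mul_pow, Complex.norm_real, Real.norm_of_nonneg (nrm_pos hl).le]
    ring
  rw [hq]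
  simp only [e1]
  rw [integral_const_mul, integral_const_mul, Measure.integral_comp_smul volume
    (fun z => wt z * ‖f' z - (∫ z, ⟪ψ z, f' z⟫_ℂ) • ψ z‖ ^ 2) l]
  have h3 : |(l ^ Module.finrank ℝ (Cfg N))⁻¹| = (nrm N l ^ 2)⁻¹ := by
    rw [nrm_sq hl, abs_of_pos (inv_pos.2 (pow_pos hl _))]
  rw [h3, smul_eq_mul, mul_inv_cancel_left₀ (pow_ne_zero 2 (nrm_pos hl).ne')]
  have h4 := h f' hf'c
  nlinarith [pow_pos hl 2]

/-- the Hardy inequality of the small system at coupling `g` -/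
theorem Ground.low_g {ψ : Cfg N → F₁} (h : Ground b M R G ψ) :
    ∃ c : ℝ, 0 < c ∧ ∀ g : ℝ, 0 < g →
      Low b M R G g 0 c (hws (g ^ (-(2 : ℝ) / 3))) (Us (g ^ ((1 : ℝ) / 3)) ψ) := by
  obtain ⟨c, hc, h1⟩ := Ground.low h
  refine ⟨c, hc, fun g hg => ?_⟩
  have hl : 0 < g ^ ((1 : ℝ) / 3) := Real.rpow_pos_of_pos hg _
  have h3 : (g ^ ((1 : ℝ) / 3)) ^ 3 = g := by
    rw [← Real.rpow_natCast, ← Real.rpow_mul hg.le]
    norm_num
  have h2 : ((g ^ ((1 : ℝ) / 3)) ^ 2)⁻¹ = g ^ (-(2 : ℝ) / 3) := by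
    rw [← Real.rpow_natCast, ← Real.rpow_mul hg.le, ← Real.rpow_neg hg.le]
    norm_num
  have h4 : Low b M R G (g / (g ^ ((1 : ℝ) / 3)) ^ 3) (0 / (g ^ ((1 : ℝ) / 3)) ^ 2) c hw ψ := by
    rw [h3, div_self hg.ne', zero_div]
    exact h1
  have h5 := Low.scale hl h4
  simp only [hws_scale hl, h2] at h5
  exact h5

/-! ### Moments of the scaled state -/



theorem integral_norm_sq_Us_ground {ψ : Cfg N → F₁} (h : Ground b M R G ψ) {l : ℝ} (hl : 0 < l) :
    ∫ x, ‖Us l ψ x‖ ^ 2 = 1 := by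
  rw [integral_norm_sq_Us hl, h.norm]

theorem memLp_Us_ground {ψ : Cfg N → F₁} (h : Ground b M R G ψ) {l : ℝ} (hl : 0 < l) :
    MemLp (Us l ψ) 2 volume := Us_memLp hl h.memLp

/-! ### The estimate on a region -/

section more

variable {E E' : Type*} [NormedAddCommGroup E] [InnerProductSpace ℝ E] [FiniteDimensional ℝ E]
  [MeasurableSpace E] [BorelSpace E] [NormedAddCommGroup E'] [InnerProductSpace ℝ E']
  [FiniteDimensional ℝ E'] [MeasurableSpace E'] [BorelSpace E']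

theorem measurable_fst (T : E ≃ₗᵢ[ℝ] WithLp 2 (Cfg N × E')) : Measurable fun x => (T x).fst :=
  (continuous_fst.comp (ptH T).symm.continuous).measurable


/-- **The block estimate on a region** `S` where the weight is at least `κ`. -/
theorem Low.capture_on {c : ℝ} {wt : Cfg N → ℝ} {ψ : Cfg N → F₁} (h : Low b M R G g m c wt ψ)
    (hc : 0 < c) (T : E ≃ₗᵢ[ℝ] WithLp 2 (Cfg N × E')) (L : Mult M θ ι) (hψ : MemLp ψ 2 volume)
    (hwt : AEStronglyMeasurable wt volume) {B : ℝ} (hB : ∀ y, ‖wt y‖ ≤ B) (h0 : ∀ y, 0 ≤ wt y)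
    {φ : E → F} (hφ : ContDiff ℝ 1 φ) (hcs : HasCompactSupport φ)
    (hcore : ∀ w x', IsCoreVec b R fun y => L.comp w (fib T φ x' y))
    {S : Set (Cfg N)} (hS : MeasurableSet S) {κ : ℝ} (hκ : 0 < κ) (hκS : ∀ y ∈ S, κ ≤ wt y) :
    ∫ x in {x | (T x).fst ∈ S}, ‖φ x - pproj T L ψ φ x‖ ^ 2 ≤
      (κ * c)⁻¹ * ((1 / 16 : ℝ) * ∑ α : Fin 16, ∫ x, ‖pcharge T b θ G g m α φ x‖ ^ 2) := by
  have hφ2 : MemLp φ 2 volume := hφ.continuous.memLp_of_hasCompactSupport hcs
  have hd : MemLp (fun x => φ x - pproj T L ψ φ x) 2 volume := hφ2.sub (memLp_pproj T L hψ hφ2)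
  have hI : Integrable fun x => ‖φ x - pproj T L ψ φ x‖ ^ 2 :=
    (memLp_two_iff_integrable_sq_norm hd.1).1 hd
  have hSm : MeasurableSet {x : E | (T x).fst ∈ S} := measurable_fst T hS
  have hwm : AEStronglyMeasurable (fun x => wt (T x).fst) volume := by
    have h1 : AEStronglyMeasurable (fun p : E' × Cfg N => wt p.2) (volume.prod volume) :=
      hwt.comp_snd
    exact h1.comp_measurePreserving (mp_symm T)
  have hIw : Integrable fun x => wt (T x).fst * ‖φ x - pproj T L ψ φ x‖ ^ 2 :=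
    hI.bdd_mul hwm (Eventually.of_forall fun x => hB _)
  have h1 := h.plift T L hψ hwt hB hφ hcs hcore
  have h2 : κ * ∫ x in {x | (T x).fst ∈ S}, ‖φ x - pproj T L ψ φ x‖ ^ 2 ≤
      ∫ x, wt (T x).fst * ‖φ x - pproj T L ψ φ x‖ ^ 2 := by
    rw [← integral_const_mul]
    calc ∫ x in {x | (T x).fst ∈ S}, κ * ‖φ x - pproj T L ψ φ x‖ ^ 2
        ≤ ∫ x in {x | (T x).fst ∈ S}, wt (T x).fst * ‖φ x - pproj T L ψ φ x‖ ^ 2 := by
          refine setIntegral_mono_on (hI.const_mul κ).integrableOn hIw.integrableOn hSm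
            fun x hx => mul_le_mul_of_nonneg_right (hκS _ hx) (sq_nonneg _)
      _ ≤ _ := setIntegral_le_integral hIw
          (Eventually.of_forall fun x => mul_nonneg (h0 _) (sq_nonneg _))
  have h3 : κ * c * ∫ x in {x | (T x).fst ∈ S}, ‖φ x - pproj T L ψ φ x‖ ^ 2 ≤
      (1 / 16 : ℝ) * ∑ α : Fin 16, ∫ x, ‖pcharge T b θ G g m α φ x‖ ^ 2 := by
    refine le_trans ?_ h1
    calc _ = c * (κ * ∫ x in {x | (T x).fst ∈ S}, ‖φ x - pproj T L ψ φ x‖ ^ 2) := by ring
      _ ≤ _ := mul_le_mul_of_nonneg_left h2 hc.le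
  have hκc : 0 < κ * c := mul_pos hκ hc
  rw [← div_eq_inv_mul, le_div_iff₀ hκc, mul_comm]
  exact h3

/-- **The block estimate on a ball.** -/
theorem Low.capture_ball {c s : ℝ} {ψ : Cfg N → F₁} (h : Low b M R G g m c (hws s) ψ)
    (hc : 0 < c) (hs : 0 < s) (T : E ≃ₗᵢ[ℝ] WithLp 2 (Cfg N × E')) (L : Mult M θ ι)
    (hψ : MemLp ψ 2 volume) {φ : E → F} (hφ : ContDiff ℝ 1 φ) (hcs : HasCompactSupport φ)
    (hcore : ∀ w x', IsCoreVec b R fun y => L.comp w (fib T φ x' y)) (δ : ℝ) :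
    ∫ x in {x | ‖(T x).fst‖ ≤ δ}, ‖φ x - pproj T L ψ φ x‖ ^ 2 ≤
      (s + δ ^ 2) / c * ((1 / 16 : ℝ) * ∑ α : Fin 16, ∫ x, ‖pcharge T b θ G g m α φ x‖ ^ 2) := by
  have hp : 0 < s + δ ^ 2 := by positivity
  have hb := h.capture_on hc T L hψ (continuous_hws hs).aestronglyMeasurable (hws_le hs)
    (fun y => (hws_pos hs y).le) hφ hcs hcore (S := {y | ‖y‖ ≤ δ})
    (measurableSet_le measurable_norm measurable_const) (κ := (s + δ ^ 2)⁻¹) (inv_pos.2 hp)
    (fun y hy => by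
      unfold hws
      refine inv_anti₀ (by positivity) ?_
      have hy' : ‖y‖ ≤ δ := hy
      have := pow_le_pow_left₀ (norm_nonneg y) hy' 2
      linarith)
  refine hb.trans (le_of_eq ?_)
  congr 1
  rw [mul_inv, inv_inv]
  rfl

end more

end Crest.Agent.R330.Prod494

end
end

-- ▼ part R330/Prod5_494
section

/-!
# Row 330 (helper494): charges of different blocks have no cross terms

* `cross_zero` : two first order operators `op e a w`, `op v β p` (924) with constant skew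
  coefficients, symmetric potentials, everything anticommuting, each potential constant along the
  directions of the other: `∫⟪A f, B h⟫ + ∫⟪B f, A h⟫ = 0`.
* `norm_sq_sum_of_cross` : then `∫ |∑ A_p f|² = ∑ ∫ |A_p f|²`.
* `pcharge_eq_op` : the block charges are such operators; `Blk` perpendicular blocks,
  `pcharge_cross`, `pcharge_cross_op`.
-/

set_option autoImplicit false
set_option linter.unusedSectionVars false

open MeasureTheory Filter Topology Crest.MathPhysics.MatrixQM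
open scoped ContDiff InnerProductSpace ENNReal

noncomputable section

namespace Crest.Agent.R330.Prod494

open Crest.Agent.R330.Defs478 Crest.Agent.R330.Decoup924

section gen

variable {E : Type*} [NormedAddCommGroup E] [NormedSpace ℝ E] [FiniteDimensional ℝ E]
  [MeasurableSpace E] [BorelSpace E] {μ : Measure E} [μ.IsAddHaarMeasure]
  {F : Type*} [NormedAddCommGroup F] [InnerProductSpace ℂ F]
  {κ ι : Type*} [Fintype κ] [Fintype ι]

/-- Anticommuting first order operators in independent variables: no cross terms. -/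
theorem cross_zero {e : κ → E} {a : κ → F →L[ℝ] F} {w : E → F →L[ℝ] F}
    {v : ι → E} {β : ι → F →L[ℝ] F} {p : E → F →L[ℝ] F}
    (hw : ContDiff ℝ 1 w) (hp : ContDiff ℝ 1 p)
    (has : ∀ k, Skew (a k)) (hws : ∀ x, Symm (w x))
    (hβs : ∀ i, Skew (β i)) (hps : ∀ x, Symm (p x))
    (hvw : ∀ i x, fderiv ℝ w x (v i) = 0) (hep : ∀ k x, fderiv ℝ p x (e k) = 0)
    (haβ : ∀ k i, Anti (a k) (β i)) (hap : ∀ k x, Anti (a k) (p x))
    (hwβ : ∀ i x, Anti (w x) (β i)) (hwp : ∀ x, Anti (w x) (p x))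
    {f h : E → F} (hf : ContDiff ℝ 2 f) (hh : ContDiff ℝ 2 h)
    (hcf : HasCompactSupport f) (hch : HasCompactSupport h) :
    ∫ x, ⟪op e (fun k _ => a k) w f x, op v (fun i _ => β i) p h x⟫_ℂ ∂μ +
      ∫ x, ⟪op v (fun i _ => β i) p f x, op e (fun k _ => a k) w h x⟫_ℂ ∂μ = 0 := by
  have h0 := cross_identity (μ := μ) (e := e) (a := a) (w := w) (v := v)
    (β := fun i _ => β i) (p := p) hw (fun i => contDiff_const) hp has hws (fun i _ => hβs i) hps
    (fun i x => by simp) hvw (fun k i _ => haβ k i) hap hwβ hwp hf hh hcf hch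
  rw [h0]
  have h1 : ∀ x, ⟪f x, ∑ k, a k (dop (e k) v (fun i _ => β i) p h x)⟫_ℂ = 0 := by
    intro x
    have h2 : ∀ k, dop (e k) v (fun i _ => β i) p h x = 0 := by
      intro k
      unfold dop
      simp [hep k x]
    simp [h2]
  simp [h1]

end gen

section sums

variable {X : Type*} [MeasurableSpace X] {μ : Measure X}
  {F : Type*} [NormedAddCommGroup F] [InnerProductSpace ℂ F]

theorem integrable_inner_of_memLp {u v : X → F} (hu : MemLp u 2 μ) (hv : MemLp v 2 μ) :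
    Integrable (fun x => ⟪u x, v x⟫_ℂ) μ := by
  refine (hu.norm.integrable_mul hv.norm).mono' (hu.1.inner hv.1)
    (Eventually.of_forall fun x => ?_)
  exact norm_inner_le_norm _ _

theorem integral_inner_self {u : X → F} :
    ∫ x, ⟪u x, u x⟫_ℂ ∂μ = ((∫ x, ‖u x‖ ^ 2 ∂μ : ℝ) : ℂ) := by
  rw [← integral_complex_ofReal]
  exact integral_congr_ae (Eventually.of_forall fun x => isc _)

theorem norm_sq_add_of_cross {u v : X → F} (hu : MemLp u 2 μ) (hv : MemLp v 2 μ)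
    (h : ∫ x, ⟪u x, v x⟫_ℂ ∂μ + ∫ x, ⟪v x, u x⟫_ℂ ∂μ = 0) :
    ∫ x, ‖u x + v x‖ ^ 2 ∂μ = ∫ x, ‖u x‖ ^ 2 ∂μ + ∫ x, ‖v x‖ ^ 2 ∂μ := by
  have h1 : ((∫ x, ‖u x + v x‖ ^ 2 ∂μ : ℝ) : ℂ) =
      ((∫ x, ‖u x‖ ^ 2 ∂μ + ∫ x, ‖v x‖ ^ 2 ∂μ : ℝ) : ℂ) := by
    rw [Complex.ofReal_add, ← integral_inner_self, ← integral_inner_self, ← integral_inner_self]
    have e1 : ∀ x, ⟪u x + v x, u x + v x⟫_ℂ =
        (⟪u x, u x⟫_ℂ + ⟪v x, v x⟫_ℂ) + (⟪u x, v x⟫_ℂ + ⟪v x, u x⟫_ℂ) := fun x => by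
      rw [inner_add_left, inner_add_right, inner_add_right]
      ring
    simp only [e1]
    rw [integral_add, integral_add, integral_add, h, add_zero]
    · exact integrable_inner_of_memLp hu hv
    · exact integrable_inner_of_memLp hv hu
    · exact integrable_inner_of_memLp hu hu
    · exact integrable_inner_of_memLp hv hv
    · exact (integrable_inner_of_memLp hu hu).add (integrable_inner_of_memLp hv hv)
    · exact (integrable_inner_of_memLp hu hv).add (integrable_inner_of_memLp hv hu)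
  exact_mod_cast h1

/-- a finite family without cross terms -/
theorem norm_sq_sum_of_cross {P : Type*} [DecidableEq P] (s : Finset P) {u : P → X → F}
    (hu : ∀ p ∈ s, MemLp (u p) 2 μ)
    (h : ∀ p ∈ s, ∀ q ∈ s, p ≠ q →
      ∫ x, ⟪u p x, u q x⟫_ℂ ∂μ + ∫ x, ⟪u q x, u p x⟫_ℂ ∂μ = 0) :
    ∫ x, ‖∑ p ∈ s, u p x‖ ^ 2 ∂μ = ∑ p ∈ s, ∫ x, ‖u p x‖ ^ 2 ∂μ := by
  classical
  induction s using Finset.induction_on with
  | empty => simp
  | insert a s ha ih =>
    have hs : ∀ p ∈ s, MemLp (u p) 2 μ := fun p hp => hu p (Finset.mem_insert_of_mem hp)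
    have ih' := ih hs fun p hp q hq hpq =>
      h p (Finset.mem_insert_of_mem hp) q (Finset.mem_insert_of_mem hq) hpq
    have hua : MemLp (u a) 2 μ := hu a (Finset.mem_insert_self a s)
    have hsum : MemLp (fun x => ∑ p ∈ s, u p x) 2 μ := memLp_finset_sum s hs
    rw [Finset.sum_insert ha, ← ih']
    simp only [Finset.sum_insert ha]
    refine norm_sq_add_of_cross hua hsum ?_
    simp only [inner_sum, sum_inner]
    rw [integral_finset_sum _ fun p hp => integrable_inner_of_memLp hua (hs p hp),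
      integral_finset_sum _ fun p hp => integrable_inner_of_memLp (hs p hp) hua,
      ← Finset.sum_add_distrib]
    refine Finset.sum_eq_zero fun p hp => ?_
    exact h a (Finset.mem_insert_self a s) p (Finset.mem_insert_of_mem hp)
      fun hap => ha (hap ▸ hp)

end sums

/-! ### The block charges -/

variable {N N' : ℕ} {F : Type*} [NormedAddCommGroup F] [InnerProductSpace ℂ F]
  [FiniteDimensional ℂ F]
  {E E' E'' : Type*} [NormedAddCommGroup E] [InnerProductSpace ℝ E] [FiniteDimensional ℝ E]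
  [MeasurableSpace E] [BorelSpace E]
  [NormedAddCommGroup E'] [InnerProductSpace ℝ E']
  [FiniteDimensional ℝ E'] [MeasurableSpace E'] [BorelSpace E']
  [NormedAddCommGroup E''] [InnerProductSpace ℝ E'']
  [FiniteDimensional ℝ E''] [MeasurableSpace E''] [BorelSpace E'']

/-- an endomorphism as a continuous real linear map -/
def rl (T : F →ₗ[ℂ] F) : F →L[ℝ] F := (LinearMap.toContinuousLinearMap T).restrictScalars ℝ

theorem rl_apply (T : F →ₗ[ℂ] F) (v : F) : rl T v = T v := rfl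

/-- derivative coefficients of the block charge -/
def aco (θ : Fin 16 → Fin (N ^ 2 - 1) → (F →ₗ[ℂ] F)) (G : GammaNine) (α : Fin 16)
    (k : Fin 9 × Fin (N ^ 2 - 1)) : F →L[ℝ] F :=
  rl (∑ β : Fin 16, (-Complex.I * (G.γ k.1 α β : ℂ)) • θ β k.2)

/-- the potential of the block charge as a function of the block variable -/
def wco (b : ColorBasis N) (θ : Fin 16 → Fin (N ^ 2 - 1) → (F →ₗ[ℂ] F)) (G : GammaNine)
    (g m : ℝ) (α : Fin 16) (y : Cfg N) : F →L[ℝ] F :=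
  ∑ A : Fin (N ^ 2 - 1), ∑ β : Fin 16, wpot b G g m α β A y • rl (θ β A)

/-- the block variable as a continuous linear map -/
def fstL (T : E ≃ₗᵢ[ℝ] WithLp 2 (Cfg N × E')) : E →L[ℝ] Cfg N :=
  (ContinuousLinearMap.fst ℝ (Cfg N) E').comp
    ((WithLp.prodContinuousLinearEquiv 2 ℝ (Cfg N) E' : WithLp 2 (Cfg N × E') →L[ℝ] _).comp
      (T.toContinuousLinearEquiv : E →L[ℝ] WithLp 2 (Cfg N × E')))

theorem fstL_apply (T : E ≃ₗᵢ[ℝ] WithLp 2 (Cfg N × E')) (x : E) : fstL T x = (T x).fst := rfl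

theorem pcharge_eq_op (T : E ≃ₗᵢ[ℝ] WithLp 2 (Cfg N × E')) (b : ColorBasis N)
    (θ : Fin 16 → Fin (N ^ 2 - 1) → (F →ₗ[ℂ] F)) (G : GammaNine) (g m : ℝ) (α : Fin 16)
    (φ : E → F) :
    pcharge T b θ G g m α φ =
      op (fun k : Fin 9 × Fin (N ^ 2 - 1) => emb T (EuclideanSpace.single k 1))
        (fun k _ => aco θ G α k) (fun x => wco b θ G g m α (fstL T x)) φ := by
  funext x
  unfold pcharge op
  congr 1
  · rw [Fintype.sum_prod_type]
    refine Finset.sum_congr rfl fun i _ => Finset.sum_congr rfl fun A _ => ?_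
    unfold aco
    rw [rl_apply, LinearMap.sum_apply]
    rfl
  · unfold wco
    rw [_root_.sum_apply]
    refine Finset.sum_congr rfl fun A _ => ?_
    rw [_root_.sum_apply]
    refine Finset.sum_congr rfl fun β _ => ?_
    rw [_root_.smul_apply, rl_apply, fstL_apply]
    exact Complex.coe_smul _ _

theorem contDiff_wpot {n : WithTop ℕ∞} (b : ColorBasis N) (G : GammaNine) (g m : ℝ)
    (α β : Fin 16) (A : Fin (N ^ 2 - 1)) : ContDiff ℝ n (wpot b G g m α β A) := by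
  have h1 : ∀ k : Fin 9 × Fin (N ^ 2 - 1), ContDiff ℝ n (fun x : Cfg N => x k) := fun k =>
    (EuclideanSpace.proj k : Cfg N →L[ℝ] ℝ).contDiff
  unfold wpot
  refine (contDiff_const.mul (ContDiff.sum fun B _ => ContDiff.sum fun C _ =>
    ContDiff.sum fun i _ => ContDiff.sum fun j _ => ?_)).sub
      (contDiff_const.mul (ContDiff.sum fun i _ => ?_))
  · exact ((contDiff_const.mul (h1 _)).mul (h1 _)).mul contDiff_const
  · exact (contDiff_const.mul (h1 _)).mul contDiff_const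

theorem contDiff_wco {n : WithTop ℕ∞} (b : ColorBasis N)
    (θ : Fin 16 → Fin (N ^ 2 - 1) → (F →ₗ[ℂ] F)) (G : GammaNine) (g m : ℝ) (α : Fin 16) :
    ContDiff ℝ n (wco b θ G g m α) := by
  unfold wco
  exact ContDiff.sum fun A _ => ContDiff.sum fun β _ =>
    (contDiff_wpot b G g m α β A).smul contDiff_const

theorem fderiv_wco_perp (b : ColorBasis N) (θ : Fin 16 → Fin (N ^ 2 - 1) → (F →ₗ[ℂ] F))
    (G : GammaNine) (g m : ℝ) (α : Fin 16) (T : E ≃ₗᵢ[ℝ] WithLp 2 (Cfg N × E')) (x v : E)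
    (hv : (T v).fst = 0) :
    fderiv ℝ (fun x => wco b θ G g m α (fstL T x)) x v = 0 := by
  have h1 : HasFDerivAt (wco b θ G g m α) (fderiv ℝ (wco b θ G g m α) (fstL T x)) (fstL T x) :=
    ((contDiff_wco (n := 1) b θ G g m α).differentiable (by norm_num) _).hasFDerivAt
  have h2 := h1.comp x (fstL T).hasFDerivAt
  have h3 : (fun x => wco b θ G g m α (fstL T x)) = wco b θ G g m α ∘ (fstL T) := rfl
  have h4 : fstL T v = 0 := hv
  rw [h3, h2.fderiv, ContinuousLinearMap.comp_apply, h4, map_zero]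

/-- the operators are symmetric -/
def SymT (θ : Fin 16 → Fin (N ^ 2 - 1) → (F →ₗ[ℂ] F)) : Prop :=
  ∀ β A v w, ⟪θ β A v, w⟫_ℂ = ⟪v, θ β A w⟫_ℂ

theorem Mult.symT {F₁ : Type*} [NormedAddCommGroup F₁] [InnerProductSpace ℂ F₁]
    [FiniteDimensional ℂ F₁] {ι : Type*} [Fintype ι] [DecidableEq ι] {M : FermionRep N F₁}
    {θ : Fin 16 → Fin (N ^ 2 - 1) → (F →ₗ[ℂ] F)} (L : Mult M θ ι) : SymT θ := by
  intro β A v w
  have e : ∀ u, θ β A u = ∑ i, L.J i (M.θ β A (L.comp i u)) := by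
    intro u
    conv_lhs => rw [← L.sum_J_comp u]
    rw [map_sum]
    exact Finset.sum_congr rfl fun i _ => L.inter i β A _
  rw [e v, e w, sum_inner, inner_sum]
  refine Finset.sum_congr rfl fun i _ => ?_
  rw [← L.inner_comp, ← inner_conj_symm, ← L.inner_comp, inner_conj_symm]
  exact M.selfAdjoint β A _ _

theorem skew_aco {θ : Fin 16 → Fin (N ^ 2 - 1) → (F →ₗ[ℂ] F)} (h : SymT θ) (G : GammaNine)
    (α : Fin 16) (k : Fin 9 × Fin (N ^ 2 - 1)) : Skew (aco θ G α k) := by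
  intro v w
  unfold aco
  rw [rl_apply, rl_apply, LinearMap.sum_apply, LinearMap.sum_apply, sum_inner, inner_sum,
    ← Finset.sum_neg_distrib]
  refine Finset.sum_congr rfl fun β _ => ?_
  rw [LinearMap.smul_apply, LinearMap.smul_apply, inner_smul_left, inner_smul_right, h β k.2]
  simp

theorem symm_wco {θ : Fin 16 → Fin (N ^ 2 - 1) → (F →ₗ[ℂ] F)} (h : SymT θ) (b : ColorBasis N)
    (G : GammaNine) (g m : ℝ) (α : Fin 16) (y : Cfg N) : Symm (wco b θ G g m α y) := by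
  intro v w
  unfold wco
  simp only [_root_.sum_apply, _root_.smul_apply, sum_inner, inner_sum,
    rl_apply]
  refine Finset.sum_congr rfl fun A _ => Finset.sum_congr rfl fun β _ => ?_
  rw [← Complex.coe_smul, ← Complex.coe_smul, inner_smul_left, inner_smul_right, h β A]
  simp

/-- the operators of the two blocks anticommute -/
def AntiT (θ : Fin 16 → Fin (N ^ 2 - 1) → (F →ₗ[ℂ] F))
    (θ' : Fin 16 → Fin (N' ^ 2 - 1) → (F →ₗ[ℂ] F)) : Prop :=
  ∀ β A β' A' v, θ β A (θ' β' A' v) = -θ' β' A' (θ β A v)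

/-- an operator which anticommutes with all `θ β A` -/
def AntiO (S : F →L[ℝ] F) (θ : Fin 16 → Fin (N ^ 2 - 1) → (F →ₗ[ℂ] F)) : Prop :=
  (∀ β A v, S (θ β A v) = -θ β A (S v))

theorem anti_sum_right {S : F →L[ℝ] F} {ι : Type*} (s : Finset ι) {T : ι → (F →L[ℝ] F)}
    (h : ∀ i ∈ s, Anti S (T i)) : Anti S (∑ i ∈ s, T i) := by
  intro v
  rw [_root_.sum_apply, _root_.sum_apply, map_sum,
    ← Finset.sum_neg_distrib]
  exact Finset.sum_congr rfl fun i hi => h i hi v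

theorem Anti.symm {S T : F →L[ℝ] F} (h : Anti S T) : Anti T S := fun v => by
  rw [h v, neg_neg]

theorem anti_smul_right {S T : F →L[ℝ] F} (h : Anti S T) (r : ℝ) : Anti S (r • T) := by
  intro v
  rw [_root_.smul_apply, _root_.smul_apply, map_smul, h v, smul_neg]

/-- an operator `S`, complex linear up to the constant `-i`: for `S` complex linear -/
theorem anti_aco {S : F →L[ℝ] F} (hS : ∀ (c : ℂ) v, S (c • v) = c • S v)
    {θ : Fin 16 → Fin (N ^ 2 - 1) → (F →ₗ[ℂ] F)} (h : AntiO S θ) (G : GammaNine)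
    (α : Fin 16) (k : Fin 9 × Fin (N ^ 2 - 1)) : Anti S (aco θ G α k) := by
  intro v
  unfold aco
  rw [rl_apply, rl_apply, LinearMap.sum_apply, LinearMap.sum_apply, map_sum,
    ← Finset.sum_neg_distrib]
  refine Finset.sum_congr rfl fun β _ => ?_
  rw [LinearMap.smul_apply, LinearMap.smul_apply, hS, h, smul_neg]

theorem anti_wco {S : F →L[ℝ] F} {θ : Fin 16 → Fin (N ^ 2 - 1) → (F →ₗ[ℂ] F)} (h : AntiO S θ)
    (b : ColorBasis N) (G : GammaNine) (g m : ℝ) (α : Fin 16) (y : Cfg N) :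
    Anti S (wco b θ G g m α y) := by
  unfold wco
  refine anti_sum_right _ fun A _ => anti_sum_right _ fun β _ => anti_smul_right ?_ _
  exact fun v => h β A v

theorem rl_smul (T : F →ₗ[ℂ] F) (c : ℂ) (v : F) : rl T (c • v) = c • rl T v := by
  rw [rl_apply, rl_apply, map_smul]

theorem aco_smul (θ : Fin 16 → Fin (N ^ 2 - 1) → (F →ₗ[ℂ] F)) (G : GammaNine) (α : Fin 16)
    (k : Fin 9 × Fin (N ^ 2 - 1)) (c : ℂ) (v : F) :
    aco θ G α k (c • v) = c • aco θ G α k v := rl_smul _ _ _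

theorem wco_smul (b : ColorBasis N) (θ : Fin 16 → Fin (N ^ 2 - 1) → (F →ₗ[ℂ] F)) (G : GammaNine)
    (g m : ℝ) (α : Fin 16) (y : Cfg N) (c : ℂ) (v : F) :
    wco b θ G g m α y (c • v) = c • wco b θ G g m α y v := by
  unfold wco
  simp only [_root_.sum_apply, _root_.smul_apply, rl_smul,
    Finset.smul_sum]
  refine Finset.sum_congr rfl fun A _ => Finset.sum_congr rfl fun β _ => ?_
  rw [smul_comm]

theorem AntiT.aco {θ : Fin 16 → Fin (N ^ 2 - 1) → (F →ₗ[ℂ] F)}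
    {θ' : Fin 16 → Fin (N' ^ 2 - 1) → (F →ₗ[ℂ] F)} (h : AntiT θ θ') (G : GammaNine)
    (α : Fin 16) (k : Fin 9 × Fin (N ^ 2 - 1)) : AntiO (aco θ G α k) θ' := by
  intro β' A' v
  unfold Prod494.aco
  rw [rl_apply, rl_apply, LinearMap.sum_apply, LinearMap.sum_apply, map_sum,
    ← Finset.sum_neg_distrib]
  refine Finset.sum_congr rfl fun β _ => ?_
  rw [LinearMap.smul_apply, LinearMap.smul_apply, map_smul, h, smul_neg]

theorem AntiT.wco {θ : Fin 16 → Fin (N ^ 2 - 1) → (F →ₗ[ℂ] F)}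
    {θ' : Fin 16 → Fin (N' ^ 2 - 1) → (F →ₗ[ℂ] F)} (h : AntiT θ θ') (b : ColorBasis N)
    (G : GammaNine) (g m : ℝ) (α : Fin 16) (y : Cfg N) : AntiO (wco b θ G g m α y) θ' := by
  intro β' A' v
  unfold Prod494.wco
  simp only [_root_.sum_apply, _root_.smul_apply, rl_apply]
  rw [map_sum, ← Finset.sum_neg_distrib]
  refine Finset.sum_congr rfl fun A _ => ?_
  rw [map_sum, ← Finset.sum_neg_distrib]
  refine Finset.sum_congr rfl fun β _ => ?_
  rw [h, ← Complex.coe_smul, ← Complex.coe_smul, map_smul, smul_neg]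

/-- perpendicular blocks -/
def Perp (T : E ≃ₗᵢ[ℝ] WithLp 2 (Cfg N × E')) (T' : E ≃ₗᵢ[ℝ] WithLp 2 (Cfg N' × E'')) : Prop :=
  (∀ v, (T (emb T' v)).fst = 0) ∧ ∀ v, (T' (emb T v)).fst = 0

theorem Perp.symm {T : E ≃ₗᵢ[ℝ] WithLp 2 (Cfg N × E')} {T' : E ≃ₗᵢ[ℝ] WithLp 2 (Cfg N' × E'')}
    (h : Perp T T') : Perp T' T := ⟨h.2, h.1⟩

/-- **No cross terms between the charges of perpendicular blocks.** -/
theorem pcharge_cross {T : E ≃ₗᵢ[ℝ] WithLp 2 (Cfg N × E')}
    {T' : E ≃ₗᵢ[ℝ] WithLp 2 (Cfg N' × E'')} (hT : Perp T T')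
    (b : ColorBasis N) (b' : ColorBasis N') {θ : Fin 16 → Fin (N ^ 2 - 1) → (F →ₗ[ℂ] F)}
    {θ' : Fin 16 → Fin (N' ^ 2 - 1) → (F →ₗ[ℂ] F)} (hs : SymT θ) (hs' : SymT θ')
    (ha : AntiT θ θ') (G : GammaNine) (g m : ℝ) (α : Fin 16)
    {f h : E → F} (hf : ContDiff ℝ 2 f) (hh : ContDiff ℝ 2 h)
    (hcf : HasCompactSupport f) (hch : HasCompactSupport h) :
    (∫ x, ⟪pcharge T b θ G g m α f x, pcharge T' b' θ' G g m α h x⟫_ℂ) +
      ∫ x, ⟪pcharge T' b' θ' G g m α f x, pcharge T b θ G g m α h x⟫_ℂ = 0 := by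
  simp only [pcharge_eq_op]
  refine cross_zero (μ := (volume : Measure E)) ?_ ?_ (skew_aco hs G α) (fun x => symm_wco hs b G g m α _) (skew_aco hs' G α)
    (fun x => symm_wco hs' b' G g m α _) ?_ ?_ ?_ ?_ ?_ ?_ hf hh hcf hch
  · exact (contDiff_wco b θ G g m α).comp (fstL T).contDiff
  · exact (contDiff_wco b' θ' G g m α).comp (fstL T').contDiff
  · exact fun i x => fderiv_wco_perp b θ G g m α T x _ (hT.1 _)
  · exact fun k x => fderiv_wco_perp b' θ' G g m α T' x _ (hT.2 _)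
  · exact fun k i => anti_aco (aco_smul θ G α k) (ha.aco G α k) G α i
  · exact fun k x => anti_wco (ha.aco G α k) b' G g m α _
  · exact fun i x => anti_aco (wco_smul b θ G g m α _) (ha.wco b G g m α _) G α i
  · exact fun x => anti_wco (ha.wco b G g m α _) b' G g m α _


end Crest.Agent.R330.Prod494

end
end

-- ▼ part R330/Prod6_494

/-!
# Row 330 (helper494): several blocks

* `IsPJ Pr` : a linear contraction of `L²(E; F)`; `ComS Pr S` : commutes with the indicator of `S`.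
* `isPJ_pproj`, `comS_pproj` : the block projections `pproj T L ψ`.
* `lprod Pr l` : the product of the projections over a list; `lprod_le`, `lprod_sq_le` :
  `∫_{⋂ S_p} |φ - Πφ|² ≤ |l| ∑ ∫_{S_p} |φ - P_p φ|²`.
* `Perp.fst_add`, `ofEmb` : the splitting of `E` along a linear isometric embedding of `Cfg N`.
-/

set_option autoImplicit false
set_option linter.unusedSectionVars false

open MeasureTheory Filter Topology Crest.MathPhysics.MatrixQM
open scoped ContDiff InnerProductSpace ENNReal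

noncomputable section

namespace Crest.Agent.R330.Prod494

open Crest.Agent.R330.Defs478

/-! ### The triangle inequality -/

section tri

variable {X : Type*} [MeasurableSpace X] {μ : Measure X}
  {F : Type*} [NormedAddCommGroup F] [InnerProductSpace ℂ F]

theorem sqrt_int_eq {u : X → F} (hu : MemLp u 2 μ) :
    √(∫ x, ‖u x‖ ^ 2 ∂μ) = ‖hu.toLp u‖ := by
  have h : ‖hu.toLp u‖ ^ 2 = ∫ x, ‖u x‖ ^ 2 ∂μ := by
    have h1 : (((‖hu.toLp u‖ ^ 2 : ℝ)) : ℂ) = ((∫ x, ‖u x‖ ^ 2 ∂μ : ℝ) : ℂ) := by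
      rw [← isc, L2.inner_def, ← integral_inner_self]
      refine integral_congr_ae ?_
      filter_upwards [hu.coeFn_toLp] with x hx
      rw [hx]
    exact_mod_cast h1
  rw [← h, Real.sqrt_sq (norm_nonneg _)]

theorem sqrt_int_add_le {u v : X → F} (hu : MemLp u 2 μ) (hv : MemLp v 2 μ) :
    √(∫ x, ‖u x + v x‖ ^ 2 ∂μ) ≤ √(∫ x, ‖u x‖ ^ 2 ∂μ) + √(∫ x, ‖v x‖ ^ 2 ∂μ) := by
  have h1 : √(∫ x, ‖u x + v x‖ ^ 2 ∂μ) = ‖(hu.add hv).toLp (u + v)‖ := sqrt_int_eq (hu.add hv)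
  rw [h1, sqrt_int_eq hu, sqrt_int_eq hv, MemLp.toLp_add]
  exact norm_add_le _ _

end tri

/-! ### Products of projections -/

section prod

variable {E : Type*} [MeasurableSpace E] {μ : Measure E}
  {F : Type*} [NormedAddCommGroup F] [InnerProductSpace ℂ F]

/-- a linear contraction of `L²` -/
structure IsPJ (μ : Measure E) (Pr : (E → F) → E → F) : Prop where
  memLp : ∀ φ, MemLp φ 2 μ → MemLp (Pr φ) 2 μ
  le : ∀ φ, MemLp φ 2 μ → ∫ x, ‖Pr φ x‖ ^ 2 ∂μ ≤ ∫ x, ‖φ x‖ ^ 2 ∂μ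
  sub : ∀ φ χ, MemLp φ 2 μ → MemLp χ 2 μ →
    Pr (fun x => φ x - χ x) =ᵐ[μ] fun x => Pr φ x - Pr χ x

/-- commutes with the indicator of `S` -/
def ComS (Pr : (E → F) → E → F) (S : Set E) : Prop :=
  ∀ φ, Pr (S.indicator φ) = S.indicator (Pr φ)

/-- the product of the projections over a list -/
def lprod {P : Type*} (Pr : P → (E → F) → E → F) (l : List P) (φ : E → F) : E → F :=
  l.foldr (fun p χ => Pr p χ) φ

/-- the intersection of the regions over a list -/
def lset {P : Type*} (S : P → Set E) (l : List P) : Set E := {x | ∀ p ∈ l, x ∈ S p}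

variable {P : Type*} {Pr : P → (E → F) → E → F} {S : P → Set E}

theorem lprod_nil (φ : E → F) : lprod Pr [] φ = φ := rfl

theorem lprod_cons (p : P) (l : List P) (φ : E → F) :
    lprod Pr (p :: l) φ = Pr p (lprod Pr l φ) := rfl

theorem lset_cons (p : P) (l : List P) : lset S (p :: l) = S p ∩ lset S l := by
  ext x
  simp [lset]

theorem measurableSet_lset (l : List P) (hS : ∀ p ∈ l, MeasurableSet (S p)) :
    MeasurableSet (lset S l) := by
  induction l with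
  | nil =>
    have : lset S ([] : List P) = Set.univ := by ext x; simp [lset]
    rw [this]
    exact MeasurableSet.univ
  | cons p l ih =>
    rw [lset_cons]
    exact (hS p List.mem_cons_self).inter (ih fun q hq => hS q (List.mem_cons_of_mem _ hq))

theorem ComS.inter {Pr : (E → F) → E → F} {S S' : Set E} (h : ComS Pr S) (h' : ComS Pr S') :
    ComS Pr (S ∩ S') := by
  intro φ
  rw [← Set.indicator_indicator, h, h', Set.indicator_indicator]

theorem ComS.lset {Pr : (E → F) → E → F} (l : List P) (h : ∀ p ∈ l, ComS Pr (S p)) :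
    ComS Pr (lset S l) := by
  induction l with
  | nil =>
    have : Prod494.lset S ([] : List P) = Set.univ := by ext x; simp [Prod494.lset]
    rw [this]
    intro φ
    simp
  | cons p l ih =>
    rw [lset_cons]
    exact (h p List.mem_cons_self).inter (ih fun q hq => h q (List.mem_cons_of_mem _ hq))

theorem lprod_memLp (l : List P) (hPJ : ∀ p ∈ l, IsPJ μ (Pr p)) {φ : E → F}
    (hφ : MemLp φ 2 μ) : MemLp (lprod Pr l φ) 2 μ := by
  induction l with
  | nil => exact hφ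
  | cons p l ih =>
    rw [lprod_cons]
    exact (hPJ p List.mem_cons_self).memLp _ (ih fun q hq => hPJ q (List.mem_cons_of_mem _ hq))


theorem setIntegral_indicator_norm {S : Set E} (hS : MeasurableSet S) (u : E → F) :
    ∫ x in S, ‖u x‖ ^ 2 ∂μ = ∫ x, ‖S.indicator u x‖ ^ 2 ∂μ := by
  rw [← integral_indicator hS]
  refine integral_congr_ae (Eventually.of_forall fun x => ?_)
  by_cases hx : x ∈ S
  · simp [hx]
  · simp [hx]

/-- restricted contraction: a contraction commuting with the indicator of `S` -/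
theorem IsPJ.le_on {Pr : (E → F) → E → F} (h : IsPJ μ Pr) {S : Set E} (hS : MeasurableSet S)
    (hc : ComS Pr S) {φ : E → F} (hφ : MemLp φ 2 μ) :
    ∫ x in S, ‖Pr φ x‖ ^ 2 ∂μ ≤ ∫ x in S, ‖φ x‖ ^ 2 ∂μ := by
  rw [setIntegral_indicator_norm hS, setIntegral_indicator_norm hS, ← hc]
  exact h.le _ (hφ.indicator hS)

/-- **Product of projections, norms.** -/
theorem lprod_le (l : List P) (hl : l.Nodup) (hPJ : ∀ p ∈ l, IsPJ μ (Pr p))
    (hS : ∀ p ∈ l, MeasurableSet (S p))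
    (hcom : ∀ p ∈ l, ∀ q ∈ l, p ≠ q → ComS (Pr p) (S q)) {φ : E → F} (hφ : MemLp φ 2 μ) :
    √(∫ x in lset S l, ‖φ x - lprod Pr l φ x‖ ^ 2 ∂μ) ≤
      (l.map fun p => √(∫ x in S p, ‖φ x - Pr p φ x‖ ^ 2 ∂μ)).sum := by
  induction l with
  | nil => simp [lprod_nil]
  | cons p l ih =>
    have hPJ' : ∀ q ∈ l, IsPJ μ (Pr q) := fun q hq => hPJ q (List.mem_cons_of_mem _ hq)
    have hS' : ∀ q ∈ l, MeasurableSet (S q) := fun q hq => hS q (List.mem_cons_of_mem _ hq)
    have hnd := List.nodup_cons.1 hl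
    have ih' := ih hnd.2 hPJ' hS' fun a ha q hq hne =>
      hcom a (List.mem_cons_of_mem _ ha) q (List.mem_cons_of_mem _ hq) hne
    have hp := hPJ p List.mem_cons_self
    have hm := lprod_memLp l hPJ' hφ
    have hSl := measurableSet_lset l hS'
    have hSp := hS p List.mem_cons_self
    have hcl : ComS (Pr p) (lset S l) := ComS.lset l fun q hq =>
      hcom p List.mem_cons_self q (List.mem_cons_of_mem _ hq) fun h => hnd.1 (h ▸ hq)
    rw [List.map_cons, List.sum_cons, lprod_cons]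
    have h1 : MemLp (fun x => φ x - Pr p φ x) 2 μ := hφ.sub (hp.memLp _ hφ)
    have h2 : MemLp (fun x => φ x - lprod Pr l φ x) 2 μ := hφ.sub hm
    have h3 : MemLp (Pr p (fun x => φ x - lprod Pr l φ x)) 2 μ := hp.memLp _ h2
    have e1 : ∫ x in lset S (p :: l), ‖φ x - Pr p (lprod Pr l φ) x‖ ^ 2 ∂μ =
        ∫ x in lset S (p :: l), ‖(φ x - Pr p φ x) +
          Pr p (fun x => φ x - lprod Pr l φ x) x‖ ^ 2 ∂μ := by
      refine integral_congr_ae (ae_restrict_of_ae ?_)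
      filter_upwards [hp.sub _ _ hφ hm] with x hx
      rw [hx]
      congr 2
      abel
    rw [e1]
    refine (sqrt_int_add_le (h1.restrict _) (h3.restrict _)).trans (add_le_add ?_ ?_)
    · refine Real.sqrt_le_sqrt ?_
      refine setIntegral_mono_set ?_ (Eventually.of_forall fun x => sq_nonneg _) ?_
      · exact ((memLp_two_iff_integrable_sq_norm h1.1).1 h1).integrableOn
      · rw [lset_cons]
        exact Eventually.of_forall (Set.inter_subset_left)
    · refine le_trans (Real.sqrt_le_sqrt ?_) ih'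
      refine le_trans ?_ (hp.le_on hSl hcl h2)
      refine setIntegral_mono_set ?_ (Eventually.of_forall fun x => sq_nonneg _) ?_
      · exact ((memLp_two_iff_integrable_sq_norm h3.1).1 h3).integrableOn
      · rw [lset_cons]
        exact Eventually.of_forall (Set.inter_subset_right)

/-- **Product of projections, squares.** -/
theorem lprod_sq_le (l : List P) (hl : l.Nodup) (hPJ : ∀ p ∈ l, IsPJ μ (Pr p))
    (hS : ∀ p ∈ l, MeasurableSet (S p))
    (hcom : ∀ p ∈ l, ∀ q ∈ l, p ≠ q → ComS (Pr p) (S q)) {φ : E → F} (hφ : MemLp φ 2 μ) :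
    ∫ x in lset S l, ‖φ x - lprod Pr l φ x‖ ^ 2 ∂μ ≤
      l.length * (l.map fun p => ∫ x in S p, ‖φ x - Pr p φ x‖ ^ 2 ∂μ).sum := by
  have h := lprod_le l hl hPJ hS hcom hφ
  have h0 : 0 ≤ ∫ x in lset S l, ‖φ x - lprod Pr l φ x‖ ^ 2 ∂μ :=
    integral_nonneg fun x => sq_nonneg _
  have h1 : ∫ x in lset S l, ‖φ x - lprod Pr l φ x‖ ^ 2 ∂μ ≤
      (l.map fun p => √(∫ x in S p, ‖φ x - Pr p φ x‖ ^ 2 ∂μ)).sum ^ 2 := by
    calc _ = √(∫ x in lset S l, ‖φ x - lprod Pr l φ x‖ ^ 2 ∂μ) ^ 2 := (Real.sq_sqrt h0).symm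
      _ ≤ _ := pow_le_pow_left₀ (Real.sqrt_nonneg _) h 2
  refine h1.trans ?_
  have h2 : ∀ (L : List P) (a : P → ℝ), (∀ p, 0 ≤ a p) →
      (L.map fun p => √(a p)).sum ^ 2 ≤ L.length * (L.map a).sum := by
    intro L a ha
    induction L with
    | nil => simp
    | cons p L ih =>
      simp only [List.map_cons, List.sum_cons, List.length_cons, Nat.cast_add, Nat.cast_one]
      set s := (L.map fun p => √(a p)).sum with hs
      set t := (L.map a).sum with ht
      have hs0 : 0 ≤ s := List.sum_nonneg fun x hx => by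
        obtain ⟨q, _, rfl⟩ := List.mem_map.1 hx
        exact Real.sqrt_nonneg _
      have ht0 : 0 ≤ t := List.sum_nonneg fun x hx => by
        obtain ⟨q, _, rfl⟩ := List.mem_map.1 hx
        exact ha q
      have hr : √(a p) ^ 2 = a p := Real.sq_sqrt (ha p)
      have hr0 : 0 ≤ √(a p) := Real.sqrt_nonneg _
      have hn0 : (0 : ℝ) ≤ L.length := Nat.cast_nonneg _
      rcases Nat.eq_zero_or_pos L.length with hz | hpos
      · have hL : L = [] := List.length_eq_zero_iff.1 hz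
        subst hL
        simp only [List.map_nil, List.sum_nil, List.length_nil] at hs ht
        rw [hs, ht]
        simp [hr]
      · have hn : (0 : ℝ) < L.length := by exact_mod_cast hpos
        have key : 2 * √(a p) * s ≤ L.length * a p + t := by
          have h5 : 0 ≤ (L.length * √(a p) - s) ^ 2 := sq_nonneg _
          have h7 : (L.length * √(a p) - s) ^ 2 =
              L.length * (L.length * √(a p) ^ 2) - L.length * (2 * √(a p) * s) + s ^ 2 := by ring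
          rw [h7, hr] at h5
          have h6 : L.length * (2 * √(a p) * s) ≤ L.length * (L.length * a p + t) := by
            rw [mul_add]
            linarith
          exact le_of_mul_le_mul_left h6 hn
        have h8 : (√(a p) + s) ^ 2 = √(a p) ^ 2 + 2 * √(a p) * s + s ^ 2 := by ring
        rw [h8, hr]
        nlinarith [key, ih]
  exact h2 l (fun p => ∫ x in S p, ‖φ x - Pr p φ x‖ ^ 2 ∂μ)
    fun p => integral_nonneg fun x => sq_nonneg _

end prod

/-! ### The block projections -/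

section blk

variable {N : ℕ} {F₁ F : Type*} [NormedAddCommGroup F₁] [InnerProductSpace ℂ F₁]
  [FiniteDimensional ℂ F₁] [NormedAddCommGroup F] [InnerProductSpace ℂ F] [FiniteDimensional ℂ F]
  {ι : Type*} [Fintype ι] [DecidableEq ι]
  {M : FermionRep N F₁} {θ : Fin 16 → Fin (N ^ 2 - 1) → (F →ₗ[ℂ] F)}
  {E E' : Type*} [NormedAddCommGroup E] [InnerProductSpace ℝ E] [FiniteDimensional ℝ E]
  [MeasurableSpace E] [BorelSpace E] [NormedAddCommGroup E'] [InnerProductSpace ℝ E']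
  [FiniteDimensional ℝ E'] [MeasurableSpace E'] [BorelSpace E']

theorem ae_fib_memLp (T : E ≃ₗᵢ[ℝ] WithLp 2 (Cfg N × E')) (L : Mult M θ ι) {φ : E → F}
    (hφ : MemLp φ 2 volume) :
    ∀ᵐ x' : E', ∀ w, MemLp (fun z => L.comp w (φ (pm T (x', z)))) 2 volume := by
  refine ae_all_iff.2 fun w => ?_
  have h2 : MemLp (fun p : E' × Cfg N => φ (pm T p)) 2 (volume.prod volume) :=
    hφ.comp_measurePreserving (mp_pm T)
  have h3 : MemLp (fun p : E' × Cfg N => L.comp w (φ (pm T p))) 2 (volume.prod volume) :=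
    (L.compL w).comp_memLp' h2
  filter_upwards [h3.1.prodMk_left, (integrable_comp_sq T L hφ w).prod_right_ae] with x' h4 h5
  exact (memLp_two_iff_integrable_sq_norm h4).2 h5

theorem cf_sub (T : E ≃ₗᵢ[ℝ] WithLp 2 (Cfg N × E')) (L : Mult M θ ι) {ψ : Cfg N → F₁}
    (hψ : MemLp ψ 2 volume) {φ χ : E → F} (hφ : MemLp φ 2 volume) (hχ : MemLp χ 2 volume) :
    ∀ᵐ x' : E', ∀ w, cf T L ψ (fun x => φ x - χ x) w x' = cf T L ψ φ w x' - cf T L ψ χ w x' := by
  filter_upwards [ae_fib_memLp T L hφ, ae_fib_memLp T L hχ] with x' h1 h2 w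
  unfold cf
  rw [← integral_sub]
  · refine integral_congr_ae (Eventually.of_forall fun z => ?_)
    simp only [fib]
    rw [map_sub, inner_sub_right]
  · exact integrable_inner_of_memLp hψ (h1 w)
  · exact integrable_inner_of_memLp hψ (h2 w)

theorem isPJ_pproj (T : E ≃ₗᵢ[ℝ] WithLp 2 (Cfg N × E')) (L : Mult M θ ι) {ψ : Cfg N → F₁}
    (hψ : MemLp ψ 2 volume) (hψ1 : ∫ y, ‖ψ y‖ ^ 2 = 1) :
    IsPJ (volume : Measure E) (pproj T L ψ : (E → F) → E → F) where
  memLp φ hφ := memLp_pproj T L hψ hφ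
  le φ hφ := integral_pproj_le T L hψ hψ1 hφ
  sub φ χ hφ hχ := by
    have h1 : ∀ᵐ p : E' × Cfg N ∂(volume.prod volume), ∀ w,
        cf T L ψ (fun x => φ x - χ x) w p.1 = cf T L ψ φ w p.1 - cf T L ψ χ w p.1 :=
      Measure.quasiMeasurePreserving_fst.ae (cf_sub T L hψ hφ hχ)
    have h2 : ∀ᵐ p : E' × Cfg N ∂(volume.prod volume),
        pproj T L ψ (fun x => φ x - χ x) (pm T p) =
          pproj T L ψ φ (pm T p) - pproj T L ψ χ (pm T p) := by
      filter_upwards [h1] with p hp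
      rw [pproj_pm, pproj_pm, pproj_pm, ← Finset.sum_sub_distrib]
      refine Finset.sum_congr rfl fun w _ => ?_
      rw [hp w, sub_smul, map_sub]
    have h3 := (mp_symm T).quasiMeasurePreserving.ae h2
    filter_upwards [h3] with x hx
    have e : pm T ((T x).snd, (T x).fst) = x := pt_T T x
    rw [e] at hx
    exact hx

/-- the projection commutes with the indicator of a set in the other variables -/
theorem comS_pproj (T : E ≃ₗᵢ[ℝ] WithLp 2 (Cfg N × E')) (L : Mult M θ ι) (ψ : Cfg N → F₁)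
    {S : Set E} (hS : ∀ y y' x', pt T y x' ∈ S ↔ pt T y' x' ∈ S) :
    ComS (pproj T L ψ : (E → F) → E → F) S := by
  intro φ
  funext x
  obtain ⟨y, x', rfl⟩ : ∃ y x', x = pt T y x' := ⟨_, _, (pt_T T x).symm⟩
  rw [pproj_pt]
  by_cases hx : pt T y x' ∈ S
  · rw [Set.indicator_of_mem hx, pproj_pt]
    have e : fib T (S.indicator φ) x' = fib T φ x' := by
      funext z
      exact Set.indicator_of_mem ((hS y z x').1 hx) _
    rw [e]
  · rw [Set.indicator_of_notMem hx]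
    have e : fib T (S.indicator φ) x' = fun _ => 0 := by
      funext z
      exact Set.indicator_of_notMem (fun h => hx ((hS y z x').2 h)) _
    rw [e]
    unfold proj1
    simp

end blk

/-! ### Perpendicular splittings and embeddings -/

section perp

variable {N N' : ℕ} {E E' E'' : Type*} [NormedAddCommGroup E] [InnerProductSpace ℝ E]
  [FiniteDimensional ℝ E] [MeasurableSpace E] [BorelSpace E]
  [NormedAddCommGroup E'] [InnerProductSpace ℝ E']
  [FiniteDimensional ℝ E'] [MeasurableSpace E'] [BorelSpace E']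
  [NormedAddCommGroup E''] [InnerProductSpace ℝ E'']
  [FiniteDimensional ℝ E''] [MeasurableSpace E''] [BorelSpace E'']

theorem Perp.fst_pt {T : E ≃ₗᵢ[ℝ] WithLp 2 (Cfg N × E')}
    {T' : E ≃ₗᵢ[ℝ] WithLp 2 (Cfg N' × E'')} (h : Perp T T') (y y' : Cfg N) (x' : E') :
    (T' (pt T y x')).fst = (T' (pt T y' x')).fst := by
  have h1 : pt T y x' = pt T y' x' + emb T (y - y') := by
    rw [← pt_add_emb]
    congr 1
    abel
  rw [h1, map_add]
  change (T' (pt T y' x')).fst + (T' (emb T (y - y'))).fst = _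
  rw [h.2, add_zero]

/-- the block variable of another block is a function of the other variables -/
theorem Perp.region {T : E ≃ₗᵢ[ℝ] WithLp 2 (Cfg N × E')}
    {T' : E ≃ₗᵢ[ℝ] WithLp 2 (Cfg N' × E'')} (h : Perp T T') (S : Set (Cfg N'))
    (y y' : Cfg N) (x' : E') :
    pt T y x' ∈ {x | (T' x).fst ∈ S} ↔ pt T y' x' ∈ {x | (T' x).fst ∈ S} := by
  simp only [Set.mem_setOf_eq]
  rw [h.fst_pt y y' x']

end perp

section ofEmb

variable {N N' : ℕ} {E : Type*} [NormedAddCommGroup E] [InnerProductSpace ℝ E]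
  [FiniteDimensional ℝ E]

/-- the splitting of `E` along a linear isometric embedding of `Cfg N` -/
def ofEmb (e : Cfg N →ₗᵢ[ℝ] E) :
    E ≃ₗᵢ[ℝ] WithLp 2 (Cfg N × (LinearMap.range e.toLinearMap)ᗮ) :=
  LinearIsometryEquiv.symm
  { toLinearEquiv := (WithLp.linearEquiv 2 ℝ (Cfg N × (LinearMap.range e.toLinearMap)ᗮ)).trans
      (((LinearEquiv.ofInjective e.toLinearMap e.injective).prodCongr
        (LinearEquiv.refl ℝ _)).trans
        (Submodule.prodEquivOfIsCompl (LinearMap.range e.toLinearMap)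
          (LinearMap.range e.toLinearMap)ᗮ (Submodule.isCompl_orthogonal _)))
    norm_map' := by
      intro x
      rw [← sq_eq_sq₀ (norm_nonneg _) (norm_nonneg _), WithLp.prod_norm_sq_eq_of_L2]
      have h1 : (((WithLp.linearEquiv 2 ℝ (Cfg N × (LinearMap.range e.toLinearMap)ᗮ)).trans
          (((LinearEquiv.ofInjective e.toLinearMap e.injective).prodCongr
            (LinearEquiv.refl ℝ _)).trans
            (Submodule.prodEquivOfIsCompl (LinearMap.range e.toLinearMap)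
              (LinearMap.range e.toLinearMap)ᗮ (Submodule.isCompl_orthogonal _)))) x) =
          e x.fst + (x.snd : E) := by
        simp
      rw [h1, norm_add_sq_real]
      have h2 : ⟪e x.fst, (x.snd : E)⟫_ℝ = 0 :=
        (Submodule.mem_orthogonal _ _).1 x.snd.2 _ ⟨x.fst, rfl⟩
      rw [h2, e.norm_map]
      simp }

theorem ofEmb_symm_apply (e : Cfg N →ₗᵢ[ℝ] E)
    (x : WithLp 2 (Cfg N × (LinearMap.range e.toLinearMap)ᗮ)) :
    (ofEmb e).symm x = e x.fst + (x.snd : E) := by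
  unfold ofEmb
  simp

theorem pt_ofEmb (e : Cfg N →ₗᵢ[ℝ] E) (y : Cfg N)
    (x' : ↥(LinearMap.range e.toLinearMap)ᗮ) : pt (ofEmb e) y x' = e y + (x' : E) :=
  ofEmb_symm_apply e _

theorem emb_ofEmb (e : Cfg N →ₗᵢ[ℝ] E) (y : Cfg N) : emb (ofEmb e) y = e y := by
  unfold emb
  rw [pt_ofEmb]
  simp

/-- the block variable is the adjoint of the embedding -/
theorem inner_fst_ofEmb (e : Cfg N →ₗᵢ[ℝ] E) (x : E) (v : Cfg N) :
    ⟪((ofEmb e) x).fst, v⟫_ℝ = ⟪x, e v⟫_ℝ := by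
  obtain ⟨p, rfl⟩ := (ofEmb e).symm.surjective x
  rw [LinearIsometryEquiv.apply_symm_apply, ofEmb_symm_apply, inner_add_left, e.inner_map_map]
  have h2 : ⟪(p.snd : E), e v⟫_ℝ = 0 := by
    rw [real_inner_comm]
    exact (Submodule.mem_orthogonal _ _).1 p.snd.2 _ ⟨v, rfl⟩
  rw [h2, add_zero]

theorem fst_ofEmb_eq (e : Cfg N →ₗᵢ[ℝ] E) {x : E} {y : Cfg N}
    (h : ∀ v, ⟪x, e v⟫_ℝ = ⟪y, v⟫_ℝ) : ((ofEmb e) x).fst = y :=
  ext_inner_right ℝ fun v => by rw [inner_fst_ofEmb, h]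

/-- perpendicular embeddings give perpendicular splittings -/
theorem perp_ofEmb {e : Cfg N →ₗᵢ[ℝ] E} {e' : Cfg N' →ₗᵢ[ℝ] E}
    (h : ∀ v v', ⟪e v, e' v'⟫_ℝ = 0) : Perp (ofEmb e) (ofEmb e') := by
  constructor
  · intro v'
    rw [emb_ofEmb]
    refine fst_ofEmb_eq e fun v => ?_
    rw [real_inner_comm, h, inner_zero_left]
  · intro v
    rw [emb_ofEmb]
    refine fst_ofEmb_eq e' fun v' => ?_
    rw [h, inner_zero_left]

end ofEmb

/-! ### Families of perpendicular blocks -/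

section family

variable {P : Type*} {k : P → ℕ} {F₁ : P → Type*} [∀ p, NormedAddCommGroup (F₁ p)]
  [∀ p, InnerProductSpace ℂ (F₁ p)] [∀ p, FiniteDimensional ℂ (F₁ p)]
  {F : Type*} [NormedAddCommGroup F] [InnerProductSpace ℂ F] [FiniteDimensional ℂ F]
  {ι : P → Type*} [∀ p, Fintype (ι p)] [∀ p, DecidableEq (ι p)]
  {E : Type*} [NormedAddCommGroup E] [InnerProductSpace ℝ E] [FiniteDimensional ℝ E]
  [MeasurableSpace E] [BorelSpace E] {E' : P → Type*} [∀ p, NormedAddCommGroup (E' p)]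
  [∀ p, InnerProductSpace ℝ (E' p)] [∀ p, FiniteDimensional ℝ (E' p)]
  [∀ p, MeasurableSpace (E' p)] [∀ p, BorelSpace (E' p)]
  {b : ∀ p, ColorBasis (k p)} {M : ∀ p, FermionRep (k p) (F₁ p)}
  {R : ∀ p, GaugeAction (b p) (M p)} {G : GammaNine} {g m : ℝ}
  {θ : ∀ p, Fin 16 → Fin (k p ^ 2 - 1) → (F →ₗ[ℂ] F)}

/-- the regions `‖y_p‖ ≤ δ` -/
def ballS (T : ∀ p, E ≃ₗᵢ[ℝ] WithLp 2 (Cfg (k p) × E' p)) (δ : ℝ) (p : P) : Set E :=
  {x | ‖(T p x).fst‖ ≤ δ}

theorem measurableSet_ballS (T : ∀ p, E ≃ₗᵢ[ℝ] WithLp 2 (Cfg (k p) × E' p)) (δ : ℝ) (p : P) :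
    MeasurableSet (ballS T δ p) :=
  measurableSet_le (measurable_fst (T p)).norm measurable_const

theorem comS_family (T : ∀ p, E ≃ₗᵢ[ℝ] WithLp 2 (Cfg (k p) × E' p))
    (hT : ∀ p q, p ≠ q → Perp (T p) (T q)) (L : ∀ p, Mult (M p) (θ p) (ι p))
    (ψ : ∀ p, Cfg (k p) → F₁ p) (δ : ℝ) {p q : P} (hpq : p ≠ q) :
    ComS (pproj (T p) (L p) (ψ p) : (E → F) → E → F) (ballS T δ q) :=
  comS_pproj (T p) (L p) (ψ p) fun y y' x' =>
    (hT p q hpq).region {y | ‖y‖ ≤ δ} y y' x'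

/-- **Capture for several blocks**: `∫_{∀ p, ‖y_p‖ ≤ δ} |φ - Πφ|²`. -/
theorem blocks_capture (T : ∀ p, E ≃ₗᵢ[ℝ] WithLp 2 (Cfg (k p) × E' p))
    (hT : ∀ p q, p ≠ q → Perp (T p) (T q)) (L : ∀ p, Mult (M p) (θ p) (ι p))
    {ψ : ∀ p, Cfg (k p) → F₁ p} (hψ : ∀ p, MemLp (ψ p) 2 volume)
    (hψ1 : ∀ p, ∫ y, ‖ψ p y‖ ^ 2 = 1) {c s : ℝ} (hc : 0 < c) (hs : 0 < s)
    (hlow : ∀ p, Low (b p) (M p) (R p) G g m c (hws s) (ψ p))
    {φ : E → F} (hφ : ContDiff ℝ 1 φ) (hcs : HasCompactSupport φ)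
    (hcore : ∀ p w x', IsCoreVec (b p) (R p) fun y => (L p).comp w (fib (T p) φ x' y))
    (l : List P) (hl : l.Nodup) (δ : ℝ) :
    ∫ x in {x | ∀ p ∈ l, ‖(T p x).fst‖ ≤ δ},
        ‖φ x - lprod (fun p => pproj (T p) (L p) (ψ p)) l φ x‖ ^ 2 ≤
      l.length * ((s + δ ^ 2) / c * ((1 / 16 : ℝ) * (l.map fun p =>
        ∑ α : Fin 16, ∫ x, ‖pcharge (T p) (b p) (θ p) G g m α φ x‖ ^ 2).sum)) := by
  have hφ2 : MemLp φ 2 volume := hφ.continuous.memLp_of_hasCompactSupport hcs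
  have h1 := lprod_sq_le (μ := (volume : Measure E)) (F := F)
    (Pr := fun p => pproj (T p) (L p) (ψ p)) (S := ballS T δ) l hl
    (fun p _ => isPJ_pproj (T p) (L p) (hψ p) (hψ1 p)) (fun p _ => measurableSet_ballS T δ p)
    (fun p _ q _ hpq => comS_family T hT L ψ δ hpq) hφ2
  refine h1.trans (mul_le_mul_of_nonneg_left ?_ (Nat.cast_nonneg _))
  have h2 : ∀ L' : List P, (L'.map fun p => ∫ x in ballS T δ p,
      ‖φ x - pproj (T p) (L p) (ψ p) φ x‖ ^ 2).sum ≤
      (s + δ ^ 2) / c * ((1 / 16 : ℝ) * (L'.map fun p =>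
        ∑ α : Fin 16, ∫ x, ‖pcharge (T p) (b p) (θ p) G g m α φ x‖ ^ 2).sum) := by
    intro L'
    induction L' with
    | nil => simp
    | cons p L' ih =>
      simp only [List.map_cons, List.sum_cons]
      have h3 := (hlow p).capture_ball hc hs (T p) (L p) (hψ p) hφ hcs (hcore p) δ
      have h4 : (s + δ ^ 2) / c * ((1 / 16 : ℝ) *
          ((∑ α : Fin 16, ∫ x, ‖pcharge (T p) (b p) (θ p) G g m α φ x‖ ^ 2) +
          (L'.map fun p => ∑ α : Fin 16, ∫ x, ‖pcharge (T p) (b p) (θ p) G g m α φ x‖ ^ 2).sum)) =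
          (s + δ ^ 2) / c * ((1 / 16 : ℝ) *
          ∑ α : Fin 16, ∫ x, ‖pcharge (T p) (b p) (θ p) G g m α φ x‖ ^ 2) +
          (s + δ ^ 2) / c * ((1 / 16 : ℝ) *
          (L'.map fun p => ∑ α : Fin 16, ∫ x, ‖pcharge (T p) (b p) (θ p) G g m α φ x‖ ^ 2).sum) := by
        ring
      rw [h4]
      exact add_le_add h3 ih
  exact h2 l

variable [Fintype P] [DecidableEq P]

/-- **No cross terms**: the total charge of the blocks and of an operator `D` without cross terms with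
them. -/
theorem blocks_charge (T : ∀ p, E ≃ₗᵢ[ℝ] WithLp 2 (Cfg (k p) × E' p))
    (hT : ∀ p q, p ≠ q → Perp (T p) (T q)) (hsym : ∀ p, SymT (θ p))
    (hanti : ∀ p q, p ≠ q → AntiT (θ p) (θ q)) (b : ∀ p, ColorBasis (k p)) (G : GammaNine)
    (g m : ℝ) {φ : E → F} (hφ : ContDiff ℝ 2 φ) (hcs : HasCompactSupport φ)
    {D : E → F} (hD : MemLp D 2 volume) (α : Fin 16)
    (hcr : ∀ p, (∫ x, ⟪D x, pcharge (T p) (b p) (θ p) G g m α φ x⟫_ℂ) +
      ∫ x, ⟪pcharge (T p) (b p) (θ p) G g m α φ x, D x⟫_ℂ = 0) :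
    (∑ p, ∫ x, ‖pcharge (T p) (b p) (θ p) G g m α φ x‖ ^ 2) + ∫ x, ‖D x‖ ^ 2 =
      ∫ x, ‖(∑ p, pcharge (T p) (b p) (θ p) G g m α φ x) + D x‖ ^ 2 := by
  have hm : ∀ p, MemLp (pcharge (T p) (b p) (θ p) G g m α φ) 2 volume := fun p =>
    (continuous_pcharge (T p) (hφ.of_le (by norm_num)) α).memLp_of_hasCompactSupport
      (hasCompactSupport_pcharge (T p) hcs α)
  have h1 := norm_sq_sum_of_cross (μ := (volume : Measure E)) (Finset.univ : Finset P)
    (u := fun p => pcharge (T p) (b p) (θ p) G g m α φ) (fun p _ => hm p)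
    (fun p _ q _ hpq => pcharge_cross (hT p q hpq) (b p) (b q) (hsym p) (hsym q)
      (hanti p q hpq) G g m α hφ hφ hcs hcs)
  have hsum : MemLp (fun x => ∑ p, pcharge (T p) (b p) (θ p) G g m α φ x) 2 volume :=
    memLp_finset_sum _ fun p _ => hm p
  rw [← h1, norm_sq_add_of_cross hsum hD]
  simp only [inner_sum, sum_inner]
  rw [integral_finset_sum _ fun p _ => integrable_inner_of_memLp (hm p) hD,
    integral_finset_sum _ fun p _ => integrable_inner_of_memLp hD (hm p),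
    ← Finset.sum_add_distrib]
  refine Finset.sum_eq_zero fun p _ => ?_
  rw [add_comm]
  exact hcr p

/-- **Capture for all blocks, in terms of the total charges** `A_α φ = ∑_p Q_α^{(p)} φ + D_α`. -/
theorem blocks_capture_total (T : ∀ p, E ≃ₗᵢ[ℝ] WithLp 2 (Cfg (k p) × E' p))
    (hT : ∀ p q, p ≠ q → Perp (T p) (T q)) (hanti : ∀ p q, p ≠ q → AntiT (θ p) (θ q))
    (L : ∀ p, Mult (M p) (θ p) (ι p))
    {ψ : ∀ p, Cfg (k p) → F₁ p} (hψ : ∀ p, MemLp (ψ p) 2 volume)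
    (hψ1 : ∀ p, ∫ y, ‖ψ p y‖ ^ 2 = 1) {c s : ℝ} (hc : 0 < c) (hs : 0 < s)
    (hlow : ∀ p, Low (b p) (M p) (R p) G g m c (hws s) (ψ p))
    {φ : E → F} (hφ : ContDiff ℝ 2 φ) (hcs : HasCompactSupport φ)
    (hcore : ∀ p w x', IsCoreVec (b p) (R p) fun y => (L p).comp w (fib (T p) φ x' y))
    {D : Fin 16 → E → F} (hD : ∀ α, MemLp (D α) 2 volume)
    (hcr : ∀ α p, (∫ x, ⟪D α x, pcharge (T p) (b p) (θ p) G g m α φ x⟫_ℂ) +
      ∫ x, ⟪pcharge (T p) (b p) (θ p) G g m α φ x, D α x⟫_ℂ = 0) (δ : ℝ) :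
    ∫ x in {x | ∀ p, ‖(T p x).fst‖ ≤ δ},
        ‖φ x - lprod (fun p => pproj (T p) (L p) (ψ p)) Finset.univ.toList φ x‖ ^ 2 ≤
      Fintype.card P * ((s + δ ^ 2) / c * ((1 / 16 : ℝ) * ∑ α : Fin 16,
        ∫ x, ‖(∑ p, pcharge (T p) (b p) (θ p) G g m α φ x) + D α x‖ ^ 2)) := by
  have h1 := blocks_capture T hT L hψ hψ1 hc hs hlow (hφ.of_le (by norm_num)) hcs hcore
    Finset.univ.toList (Finset.nodup_toList _) δ
  have e1 : {x : E | ∀ p ∈ (Finset.univ : Finset P).toList, ‖(T p x).fst‖ ≤ δ} =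
      {x | ∀ p, ‖(T p x).fst‖ ≤ δ} := by
    ext x
    simp
  have e2 : ((Finset.univ : Finset P).toList.length : ℝ) = Fintype.card P := by
    rw [Finset.length_toList, Finset.card_univ]
  rw [e1, e2] at h1
  refine h1.trans (mul_le_mul_of_nonneg_left (mul_le_mul_of_nonneg_left
    (mul_le_mul_of_nonneg_left ?_ (by norm_num)) ?_) (Nat.cast_nonneg _))
  · rw [Finset.sum_map_toList, Finset.sum_comm]
    refine Finset.sum_le_sum fun α _ => ?_
    rw [← blocks_charge T hT (fun p => (L p).symT) hanti b G g m hφ hcs (hD α) α (hcr α)]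
    exact le_add_of_nonneg_right (integral_nonneg fun x => sq_nonneg _)
  · positivity

end family

end Crest.Agent.R330.Prod494

end
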