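import Crest.Agent.R330.Fact2_161
import Crest.Agent.R330.HvDef_442
import Crest.Agent.R330.Fact_161
import Crest.Agent.R330.Char_973
import Crest.Agent.R330.FactG_161
import Crest.Agent.R330.TDef_414
import Crest.Agent.R330.Prod6_494

-- ▼ part R330/C9_370
section

/-!
# Row 330, S9-C9 (helper370), part 1: the gauge action of one block on the light module

Abstract form over 161's factorisation. `h : Pol M₁ u v s Ω`, `e : V₁ →ₗᵢ V` a block, `U₁` a lift of
`O` to `F₁` with `U₁ Ω = Ω`, `U` a lift of `O` on the block to `F`.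

* `tl h M e U₁` : the operator `U₁ ⊗ 1` on `F`: `tl_Op`, `tl_th`, `tl_perp`, `tl_fix`, `comp_tl`.
* `eq_tl` : if `U` fixes one nonzero vector of an irreducible submodule `W` (for `K`) in the vacuum
  space of the block and commutes with the `θ y`, `y ∈ K` orthogonal to the block, then `U = U₁ ⊗ 1`
  on `W`; hence `comp_U` : `(Op w)^* (U f) = U₁ ((Op w)^* f)` for `f ∈ W`.
* `pr_upd` : `U (pr l f w) = pr l (update f q (U₁ (f q))) w`.
-/

set_option autoImplicit false
set_option linter.unusedSectionVars false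

open scoped InnerProductSpace

noncomputable section

namespace Crest.Agent.R330.C9370

open Crest.Agent.R330.Cliff442 Crest.Agent.R330.Cliff442.CRep Crest.Agent.R330.Fact161

section one

variable {V V₁ F F₁ ι : Type*} [NormedAddCommGroup V] [InnerProductSpace ℝ V]
  [NormedAddCommGroup V₁] [InnerProductSpace ℝ V₁]
  [NormedAddCommGroup F] [InnerProductSpace ℂ F] [NormedAddCommGroup F₁] [InnerProductSpace ℂ F₁]
  [FiniteDimensional ℂ F] [FiniteDimensional ℂ F₁]
  {M₁ : CRep V₁ F₁} {u v : ι → V₁} {s : Finset ι} {Ω : F₁} (h : Pol M₁ u v s Ω)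
  (M : CRep V F) (e : V₁ →ₗᵢ[ℝ] V) {O : V₁ → V₁} {U : F →ₗ[ℂ] F} {U₁ : F₁ →ₗ[ℂ] F₁}

/-- Lifts which fix the vacuum commute with the parity. -/
theorem par_comm (h1 : ∀ x f, U₁ (M₁.θ x f) = M₁.θ (O x) (U₁ f)) (h0 : U₁ Ω = Ω) (f : F₁) :
    par h (U₁ f) = U₁ (par h f) := by
  have h3 : par h ∘ₗ U₁ = U₁ ∘ₗ par h := by
    refine h.ext (T := fun x => -M₁.θ (O x)) (fun x f => ?_) (fun x f => ?_) ?_
    · rw [LinearMap.comp_apply, LinearMap.comp_apply, h1, par_th]
      rfl
    · rw [LinearMap.comp_apply, LinearMap.comp_apply, par_th, map_neg, h1]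
      rfl
    · rw [LinearMap.comp_apply, LinearMap.comp_apply, h0, par_vac, h0]
  exact LinearMap.congr_fun h3 f

/-- `U₁ ⊗ 1`. -/
def tl (U₁ : F₁ →ₗ[ℂ] F₁) : F →ₗ[ℂ] F :=
  ∑ i, Op h M e (stdOrthonormalBasis ℂ (vacE M e u v s) i) ∘ₗ U₁ ∘ₗ
    (Op h M e (stdOrthonormalBasis ℂ (vacE M e u v s) i)).adjoint

theorem tl_Op (U₁ : F₁ →ₗ[ℂ] F₁) (w : vacE M e u v s) (f : F₁) :
    tl h M e U₁ (Op h M e w f) = Op h M e w (U₁ f) := by
  unfold tl
  rw [LinearMap.sum_apply]
  simp only [LinearMap.comp_apply, J_adj_apply, map_smul]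
  conv_rhs => rw [← (stdOrthonormalBasis ℂ (vacE M e u v s)).sum_repr' w]
  rw [map_sum, LinearMap.sum_apply]
  refine Finset.sum_congr rfl fun i _ => ?_
  rw [map_smul, LinearMap.smul_apply]
  rfl

/-- the components of `(U₁ ⊗ 1) f` -/
theorem comp_tl (U₁ : F₁ →ₗ[ℂ] F₁) (w : vacE M e u v s) (f : F) :
    (Op h M e w).adjoint (tl h M e U₁ f) = U₁ ((Op h M e w).adjoint f) := by
  have h3 : (Op h M e w).adjoint ∘ₗ tl h M e U₁ = U₁ ∘ₗ (Op h M e w).adjoint := by
    refine ext_Op h M e fun w' g => ?_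
    rw [LinearMap.comp_apply, LinearMap.comp_apply, tl_Op, J_adj_apply, J_adj_apply, map_smul]
  exact LinearMap.congr_fun h3 f

theorem tl_th (h1 : ∀ x f, U₁ (M₁.θ x f) = M₁.θ (O x) (U₁ f)) (x : V₁) (f : F) :
    tl h M e U₁ (M.θ (e x) f) = M.θ (e (O x)) (tl h M e U₁ f) := by
  have h3 : tl h M e U₁ ∘ₗ M.θ (e x) = M.θ (e (O x)) ∘ₗ tl h M e U₁ := by
    refine ext_Op h M e fun w' g => ?_
    rw [LinearMap.comp_apply, LinearMap.comp_apply, tl_Op, th_Op, th_Op, tl_Op, h1]
  exact LinearMap.congr_fun h3 f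

theorem tl_perp (h1 : ∀ x f, U₁ (M₁.θ x f) = M₁.θ (O x) (U₁ f)) (h0 : U₁ Ω = Ω) {y : V}
    (hy : ∀ z, ⟪y, e z⟫_ℝ = 0) (f : F) :
    tl h M e U₁ (M.θ y f) = M.θ y (tl h M e U₁ f) := by
  have h3 : tl h M e U₁ ∘ₗ M.θ y = M.θ y ∘ₗ tl h M e U₁ := by
    refine ext_Op h M e fun w' g => ?_
    rw [LinearMap.comp_apply, LinearMap.comp_apply, tl_Op, th_perp_Op h M hy,
      th_perp_Op h M hy, tl_Op, par_comm h h1 h0]
  exact LinearMap.congr_fun h3 f

theorem tl_fix (h0 : U₁ Ω = Ω) {w : F} (hw : w ∈ vacE M e u v s) : tl h M e U₁ w = w := by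
  have h3 := tl_Op h M e U₁ ⟨w, hw⟩ Ω
  rw [Op_vac, h0, Op_vac] at h3
  exact h3

/-- **`U = U₁ ⊗ 1` on the light module.** -/
theorem eq_tl (h1 : ∀ x f, U₁ (M₁.θ x f) = M₁.θ (O x) (U₁ f)) (h0 : U₁ Ω = Ω)
    (hU : ∀ x f, U (M.θ (e x) f) = M.θ (e (O x)) (U f)) {K : Submodule ℝ V} {W : Submodule ℂ F}
    (hI : M.IrrOn K W)
    (hK : ∀ x ∈ K, ∃ x₁ y, x = e x₁ + y ∧ (∀ z, ⟪y, e z⟫_ℝ = 0) ∧
      ∀ f, U (M.θ y f) = M.θ y (U f))
    {w : F} (hw : w ∈ W) (hw0 : w ≠ 0) (hwe : w ∈ vacE M e u v s) (hUw : U w = w) {f : F}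
    (hf : f ∈ W) : U f = tl h M e U₁ f := by
  have hS : W ⊓ LinearMap.eqLocus U (tl h M e U₁) = W := by
    refine (hI.2 _ inf_le_left ?_).resolve_left ?_
    · intro x hx g hg
      obtain ⟨hg1, hg2⟩ := Submodule.mem_inf.1 hg
      rw [LinearMap.mem_eqLocus] at hg2
      refine Submodule.mem_inf.2 ⟨hI.1 x hx g hg1, ?_⟩
      obtain ⟨x₁, y, rfl, hy, hUy⟩ := hK x hx
      rw [LinearMap.mem_eqLocus, M.add, LinearMap.add_apply, map_add, map_add, hU, hUy,
        tl_th h M e h1, tl_perp h M e h1 h0 hy, hg2]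
    · intro hb
      have h3 : w ∈ W ⊓ LinearMap.eqLocus U (tl h M e U₁) := by
        refine Submodule.mem_inf.2 ⟨hw, ?_⟩
        rw [LinearMap.mem_eqLocus, hUw, tl_fix h M e h0 hwe]
      rw [hb, Submodule.mem_bot] at h3
      exact hw0 h3
  have h4 : f ∈ W ⊓ LinearMap.eqLocus U (tl h M e U₁) := hS.symm ▸ hf
  exact (Submodule.mem_inf.1 h4).2

/-- **Components of `U f`.** -/
theorem comp_U (h1 : ∀ x f, U₁ (M₁.θ x f) = M₁.θ (O x) (U₁ f)) (h0 : U₁ Ω = Ω)
    (hU : ∀ x f, U (M.θ (e x) f) = M.θ (e (O x)) (U f)) {K : Submodule ℝ V} {W : Submodule ℂ F}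
    (hI : M.IrrOn K W)
    (hK : ∀ x ∈ K, ∃ x₁ y, x = e x₁ + y ∧ (∀ z, ⟪y, e z⟫_ℝ = 0) ∧
      ∀ f, U (M.θ y f) = M.θ y (U f))
    {w : F} (hw : w ∈ W) (hw0 : w ≠ 0) (hwe : w ∈ vacE M e u v s) (hUw : U w = w) {f : F}
    (hf : f ∈ W) (w' : vacE M e u v s) :
    (Op h M e w').adjoint (U f) = U₁ ((Op h M e w').adjoint f) := by
  rw [eq_tl h M e h1 h0 hU hI hK hw hw0 hwe hUw hf, comp_tl]

end one

section fam

variable {V F : Type*} [NormedAddCommGroup V] [InnerProductSpace ℝ V]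
  [NormedAddCommGroup F] [InnerProductSpace ℂ F]
  [FiniteDimensional ℂ F] {κ : Type*} [DecidableEq κ] {Vf Ff ιf : κ → Type*}
  [∀ p, NormedAddCommGroup (Vf p)] [∀ p, InnerProductSpace ℝ (Vf p)]
  [∀ p, NormedAddCommGroup (Ff p)] [∀ p, InnerProductSpace ℂ (Ff p)]
  {M₁ : ∀ p, CRep (Vf p) (Ff p)} {u v : ∀ p, ιf p → Vf p} {s : ∀ p, Finset (ιf p)}
  {Ω : ∀ p, Ff p} (h : ∀ p, Pol (M₁ p) (u p) (v p) (s p) (Ω p)) (M : CRep V F)
  {e : ∀ p, Vf p →ₗᵢ[ℝ] V}


end fam

end Crest.Agent.R330.C9370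

end
end

-- ▼ part R330/BlkNeut_735
section

/-!
# Row 330 (helper735): neutrality of the heavy vacua under a group of light rotations

Abstract over 442's Clifford modules.

* `pcs_add`, `vacJ_add`, `light_add` : two orthogonal partial complex structures.
* `scalar_family` : a group of operators which preserves `vacJ J`, commutes with the light
  generators and has no characters acts trivially on `vacJ J`.
* `KE e A` : the complex structure `A` of `V₁` transported by the isometry `e : V₁ → V`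
  (`0` on the complement).
* `neutral` : for `w ∈ vacJ J` killed by the annihilators of the block `e(V₁)`, the rotations of the
  block act trivially.
-/

set_option autoImplicit false
set_option linter.unusedSectionVars false

open scoped InnerProductSpace

noncomputable section

namespace Crest.Agent.R330.BlkNeut735

open Crest.Agent.R330.Cliff442 Crest.Agent.R330.Cliff442.CRep

variable {V V₁ F : Type*} [NormedAddCommGroup V] [InnerProductSpace ℝ V]
  [NormedAddCommGroup V₁] [InnerProductSpace ℝ V₁]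
  [NormedAddCommGroup F] [InnerProductSpace ℂ F]

/-! ### Sums of orthogonal structures -/

section add

variable {J K : V →ₗ[ℝ] V} (hJ : PCS J) (hK : PCS K) (h1 : ∀ x, J (K x) = 0)
  (h2 : ∀ x, K (J x) = 0)
include hJ hK h1 h2




end add

/-! ### Groups without characters -/

section fam

variable [FiniteDimensional ℝ V] [FiniteDimensional ℂ F] {M : CRep V F} {H : Type*} [Group H]


end fam

/-! ### The transported complex structure -/

section KE

variable [FiniteDimensional ℝ V] [FiniteDimensional ℝ V₁] (e : V₁ →ₗᵢ[ℝ] V)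

/-- The adjoint of the embedding. -/
def ad (x : V) : V₁ := LinearMap.adjoint e.toLinearMap x

theorem inner_ad (x : V) (y : V₁) : ⟪ad e x, y⟫_ℝ = ⟪x, e y⟫_ℝ := by
  unfold ad
  rw [LinearMap.adjoint_inner_left]
  rfl



/-- The structure `A` of `V₁` transported by `e`. -/
def KE (A : V₁ →ₗ[ℝ] V₁) : V →ₗ[ℝ] V :=
  e.toLinearMap ∘ₗ A ∘ₗ LinearMap.adjoint e.toLinearMap



variable {A : V₁ →ₗ[ℝ] V₁} (hS : Skew A) (hA : ∀ x, A (A x) = -x)
include hS hA




end KE

/-! ### Neutrality -/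

section neut

variable [FiniteDimensional ℝ V] [FiniteDimensional ℝ V₁] [FiniteDimensional ℂ F]
  {M : CRep V F} {H : Type*} [Group H]


variable (e : V₁ →ₗᵢ[ℝ] V) {A : V₁ →ₗ[ℝ] V₁} (hS : Skew A) (hA : ∀ x, A (A x) = -x)
include hS hA


end neut

/-! ### The components -/

section comp

open Crest.Agent.R330.Fact161

variable [FiniteDimensional ℝ V] [FiniteDimensional ℂ F] {F₁ : Type*} [NormedAddCommGroup F₁]
  [InnerProductSpace ℂ F₁] [FiniteDimensional ℂ F₁] {ι : Type*} {M₁ : CRep V₁ F₁}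
  {u v : ι → V₁} {s : Finset ι} {Ω : F₁} (hp : Pol M₁ u v s Ω) (M : CRep V F) (e : V₁ →ₗᵢ[ℝ] V)



end comp

end Crest.Agent.R330.BlkNeut735

end
end

-- ▼ part R330/BlkNeut2_735

/-!
# Row 330 (helper735): the core property of the block components

* `JK G K` : `Γ ⊗ P_{Kᗮ}`; `pcs_JK`, `JK_eq_zero_iff`, `vacJ_JK` (`= vacOf M G Kᗮ`), `irr_vacOf`.
* `comp_rho` : `(Op w)^* (ρ(g) f) = ρ₁(h) ((Op w)^* f)` for `f ∈ vacOf M G Kᗮ`.
* `core_comp` : the hypothesis `hcore` of 494's `blocks_capture`.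
* `mem_Fx_iff` : the amplitude space is the light Fock space cut by the block vacua.
-/

set_option autoImplicit false
set_option linter.unusedSectionVars false

open MeasureTheory Crest.MathPhysics.MatrixQM
open scoped BigOperators InnerProductSpace ContDiff

noncomputable section

namespace Crest.Agent.R330.BlkNeut735

open Crest.Agent.R330.Cliff442 Crest.Agent.R330.Cliff442.CRep Crest.Agent.R330.Fact161
open Crest.Agent.R330.LS839 Crest.Agent.R330.Bind6839 Crest.Agent.R330.Defs478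
open Crest.Agent.R330.SInd478 Crest.Agent.R330.FactI161 Crest.Agent.R330.TCore944
open Crest.Agent.R330.TDef414

/-! ### The structure `Γ ⊗ P` -/

section JK

variable {N : ℕ} (G : GammaNine) (K : Submodule ℝ (Colg N))

/-- The projection onto `Kᗮ`, as a linear map. -/
def PK' : Colg N →ₗ[ℝ] Colg N := (Kᗮ.starProjection : Colg N →L[ℝ] Colg N).toLinearMap

theorem PK'_apply (u : Colg N) : PK' K u = Kᗮ.starProjection u := rfl

theorem PK'_mem (u : Colg N) : PK' K u ∈ Kᗮ := Kᗮ.starProjection_apply_mem u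

theorem PK'_of_mem {u : Colg N} (hu : u ∈ Kᗮ) : PK' K u = u :=
  Submodule.starProjection_eq_self_iff.2 hu

theorem PK'_idem (u : Colg N) : PK' K (PK' K u) = PK' K u := PK'_of_mem K (PK'_mem K u)

theorem PK'_symm (u v : Colg N) : ⟪PK' K u, v⟫_ℝ = ⟪u, PK' K v⟫_ℝ :=
  Submodule.inner_starProjection_left_eq_right Kᗮ u v

theorem PK'_eq_zero {u : Colg N} : PK' K u = 0 ↔ u ∈ K := by
  rw [PK'_apply, Submodule.starProjection_apply_eq_zero_iff, Submodule.orthogonal_orthogonal]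

/-- `Γ ⊗ P_{Kᗮ}`. -/
def JK : W16 N →ₗ[ℝ] W16 N := GJ G N ∘ₗ teL (PK' K)

theorem JK_apply (x : W16 N) : JK G K x = GJ G N (teL (PK' K) x) := rfl

/-- `Γ ⊗ 1` commutes with `1 ⊗ τ`. -/
theorem GJ_teL {k : ℕ} (τ : Colg k →ₗ[ℝ] Colg N) (x : W16 k) :
    GJ G N (teL τ x) = teL τ (GJ G k x) := by
  refine ext_row fun β => ?_
  rw [row_GJ, row_teL, row_GJ, map_sum]
  refine Finset.sum_congr rfl fun β' _ => ?_
  rw [row_teL, map_smul]

theorem teL_PK'_idem (x : W16 N) : teL (PK' K) (teL (PK' K) x) = teL (PK' K) x := by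
  refine ext_row fun β => ?_
  rw [row_teL, row_teL, PK'_idem]

theorem teL_PK'_symm (x y : W16 N) : ⟪teL (PK' K) x, y⟫_ℝ = ⟪x, teL (PK' K) y⟫_ℝ := by
  rw [inner_row, inner_row]
  refine Finset.sum_congr rfl fun β _ => ?_
  rw [row_teL, row_teL, PK'_symm]

theorem JK_JK (x : W16 N) : JK G K (JK G K x) = -teL (PK' K) x := by
  rw [JK_apply, JK_apply, ← GJ_teL, GJ_GJ, teL_PK'_idem]

theorem pcs_JK : PCS (JK G K) := by
  refine ⟨fun x y => ?_, fun x => ?_⟩
  · rw [JK_apply, JK_apply, GJ_skew G N, teL_PK'_symm, ← GJ_teL]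
  · rw [JK_JK, JK_apply, GJ_teL, teL_PK'_idem]

theorem JK_eq_zero_iff {x : W16 N} : JK G K x = 0 ↔ ∀ β, row β x ∈ K := by
  have h1 : JK G K x = 0 ↔ teL (PK' K) x = 0 := by
    constructor
    · intro h
      have h2 := JK_JK G K x
      rw [h, map_zero] at h2
      exact neg_eq_zero.1 h2.symm
    · intro h
      rw [JK_apply, h, map_zero]
  rw [h1]
  constructor
  · intro h β
    have h2 := congrArg (row β) h
    rw [row_teL, map_zero] at h2
    exact (PK'_eq_zero K).1 h2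
  · intro h
    refine ext_row fun β => ?_
    rw [row_teL, map_zero, (PK'_eq_zero K).2 (h β)]

/-- The vectors all whose rows lie in `K`. -/
def rowsIn : Submodule ℝ (W16 N) := light (JK G K)

theorem mem_rowsIn {x : W16 N} : x ∈ rowsIn G K ↔ ∀ β, row β x ∈ K :=
  mem_light.trans (JK_eq_zero_iff G K)

variable {F : Type*} [NormedAddCommGroup F] [InnerProductSpace ℂ F] [FiniteDimensional ℂ F]
  (M : FermionRep N F)

theorem gan_eq (α : Fin 16) (u : Colg N) (f : F) : gan M G α u f =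
    (cr M).θ (ins α u) f - Complex.I • (cr M).θ (GJ G N (ins α u)) f := by
  have h1 : (cr M).θ (GJ G N (ins α u)) f = ∑ β, ((Gam G β α : ℝ) : ℂ) • thv M β u f := by
    rw [GJ_ins, CRep.sum, LinearMap.sum_apply]
    refine Finset.sum_congr rfl fun β _ => ?_
    rw [cr_ins, thv_smul]
  rw [h1, cr_ins]
  unfold gan
  rw [LinearMap.sub_apply, LinearMap.smul_apply, LinearMap.sum_apply]
  rfl

/-- The vacuum space in vector form. -/
theorem mem_vacOf_iff {L : Submodule ℝ (Colg N)} {f : F} : f ∈ vacOf M G L ↔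
    ∀ z : W16 N, (∀ β, row β z ∈ L) → (cr M).θ z f = Complex.I • (cr M).θ (GJ G N z) f := by
  rw [mem_vacOf]
  constructor
  · intro h z hz
    have h1 : ∀ β, (cr M).θ (ins β (row β z)) f =
        Complex.I • (cr M).θ (GJ G N (ins β (row β z))) f := fun β => by
      have h2 := h β _ (hz β)
      rw [gan_eq] at h2
      exact sub_eq_zero.1 h2
    conv_lhs => rw [← sum_ins_row z]
    conv_rhs => rw [← sum_ins_row z]
    rw [map_sum, CRep.sum, CRep.sum, LinearMap.sum_apply, LinearMap.sum_apply, Finset.smul_sum]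
    exact Finset.sum_congr rfl fun β _ => h1 β
  · intro h α u hu
    rw [gan_eq]
    refine sub_eq_zero.2 (h _ fun β => ?_)
    rw [row_ins]
    split_ifs
    · exact hu
    · exact L.zero_mem

/-- **The light Fock space is the vacuum space of `Γ ⊗ P_{Kᗮ}`.** -/
theorem vacJ_JK : (cr M).vacJ (JK G K) = vacOf M G Kᗮ := by
  ext f
  rw [mem_vacOf_iff, mem_vacJ]
  constructor
  · intro h z hz
    have hz1 : teL (PK' K) z = z := by
      refine ext_row fun β => ?_
      rw [row_teL, PK'_of_mem K (hz β)]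
    have h1 := h (-(GJ G N z))
    have e1 : JK G K (-(GJ G N z)) = z := by
      rw [map_neg, JK_apply, ← GJ_teL, GJ_GJ, neg_neg, hz1]
    rw [e1] at h1
    have e2 : JK G K z = GJ G N z := by rw [JK_apply, hz1]
    rw [e2] at h1
    exact h1
  · intro h x
    have h1 := h (JK G K x) fun β => by
      rw [JK_apply, GJ_teL, row_teL]
      exact PK'_mem K _
    have e2 : JK G K (JK G K x) = GJ G N (JK G K x) := by
      rw [JK_JK, JK_apply, GJ_GJ]
    rw [e2]
    exact h1

/-- **The light Fock space is irreducible for the light fermions.** -/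
theorem irr_vacOf : (cr M).IrrOn (rowsIn G K) (vacOf M G Kᗮ) := by
  rw [← vacJ_JK]
  exact Irr.vacJ (cr_irr M) (pcs_JK G K)

/-- Reference vacua lie in every light Fock space. -/
theorem gvac_mem_vacOf {Ω : F} (hΩ : IsGVac M G Ω) (L : Submodule ℝ (Colg N)) :
    Ω ∈ vacOf M G L :=
  (mem_vacOf_iff G M).2 fun z _ => (isGVac_iff M G Ω).1 hΩ z

end JK

/-! ### One block -/

section one

variable {N k : ℕ} {F F₁ : Type*} [NormedAddCommGroup F] [InnerProductSpace ℂ F]
  [FiniteDimensional ℂ F] [NormedAddCommGroup F₁] [InnerProductSpace ℂ F₁]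
  [FiniteDimensional ℂ F₁] {b : ColorBasis N} {b₁ : ColorBasis k} {M : FermionRep N F}
  {M₁ : FermionRep k F₁} (R : GaugeAction b M) (R₁ : GaugeAction b₁ M₁) {G : GammaNine}
  {Ω : F₁} (hΩ : IsGVac M₁ G Ω) (h1 : ‖Ω‖ = 1) (ε : Colg k →ₗᵢ[ℝ] Colg N)
  {K : Submodule ℝ (Colg N)}

/-- The splitting of a light vector along a block. -/
theorem split_block (hK : ∀ u, ε u ∈ K) {x : W16 N} (hx : ∀ β, row β x ∈ K) :
    ∃ x₁ y, x = te ε x₁ + y ∧ (∀ z, ⟪y, te ε z⟫_ℝ = 0) ∧ ∀ β, row β y ∈ K ∧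
      ∀ v, ⟪row β y, ε v⟫_ℝ = 0 := by
  refine ⟨ad (te ε) x, x - te ε (ad (te ε) x), by abel, fun z => ?_, fun β => ?_⟩
  · rw [inner_sub_left, (te ε).inner_map_map, inner_ad, sub_self]
  · refine ⟨?_, fun v => ?_⟩
    · rw [map_sub, row_te]
      exact K.sub_mem (hx β) (hK _)
    · have h2 : ⟪x - te ε (ad (te ε) x), te ε (ins β v)⟫_ℝ = 0 := by
        rw [inner_sub_left, (te ε).inner_map_map, inner_ad, sub_self]
      rw [te_ins, real_inner_comm, inner_ins, real_inner_comm] at h2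
      exact h2

variable {g : Matrix.specialUnitaryGroup (Fin N) ℂ} {h : Matrix.specialUnitaryGroup (Fin k) ℂ}

/-- **Components under block rotations.** -/
theorem comp_rho (hK : ∀ u, ε u ∈ K) (hg : ∀ u, adC b g (ε u) = ε (adC b₁ h u))
    (hfix : ∀ u ∈ K, (∀ v, ⟪u, ε v⟫_ℝ = 0) → adC b g u = u) (w : vacB M G ε) {f : F}
    (hf : f ∈ vacOf M G Kᗮ) :
    (Op (polG hΩ h1) (cr M) (te ε) w).adjoint (R.ρ g f) =
      R₁.ρ h ((Op (polG hΩ h1) (cr M) (te ε) w).adjoint f) := by
  rcases subsingleton_or_nontrivial F with hF | hF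
  · rw [Subsingleton.elim (R.ρ g f) 0, Subsingleton.elim f 0, map_zero, map_zero]
  obtain ⟨Ω', n1, hv⟩ := exists_gvac M G
  refine C9370.comp_U (polG hΩ h1) (cr M) (te ε) (O := teL (adC b₁ h)) (U := R.ρ g)
    (U₁ := R₁.ρ h) (cr_of_thv (fun β c f => rho_thv R₁ h β c f)) (rho_gvac R₁ hΩ h)
    (cr_te_of_thv (fun β c f => by rw [rho_thv, hg])) (irr_vacOf G K M) (fun x hx => ?_)
    (w := Ω') (gvac_mem_vacOf G M hv Kᗮ) (fun h0 => ?_) (gvac_mem_vacB M G ε hv)
    (rho_gvac R hv g) hf w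
  · obtain ⟨x₁, y, e1, e2, e3⟩ := split_block ε hK ((mem_rowsIn G K).1 hx)
    refine ⟨x₁, y, e1, e2, fun f => ?_⟩
    rw [rho_cr]
    congr 2
    refine ext_row fun β => ?_
    rw [row_teL, hfix _ (e3 β).1 (e3 β).2]
  · rw [h0, norm_zero] at n1
    exact zero_ne_one n1

variable {E E' : Type*} [NormedAddCommGroup E] [InnerProductSpace ℝ E] [FiniteDimensional ℝ E]
  [MeasurableSpace E] [BorelSpace E] [NormedAddCommGroup E'] [InnerProductSpace ℝ E']
  [FiniteDimensional ℝ E'] [MeasurableSpace E'] [BorelSpace E'] {κ : Type*} [Fintype κ]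
  [DecidableEq κ]

theorem contDiff_fib {n : WithTop ℕ∞} (T : E ≃ₗᵢ[ℝ] WithLp 2 (Cfg k × E')) {φ : E → F}
    (hφ : ContDiff ℝ n φ) (x' : E') : ContDiff ℝ n (Prod494.fib T φ x') := by
  have e : Prod494.fib T φ x' = fun y => φ (Prod494.emb T y + Prod494.pt T 0 x') := by
    funext y
    unfold Prod494.fib
    rw [add_comm, ← Prod494.pt_add_emb, zero_add]
  rw [e]
  have h2 : ContDiff ℝ n fun y : Cfg k => Prod494.emb T y := by
    obtain ⟨D, hD, -⟩ := Prod494.hasFDerivAt_pt T x' 0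
    have : (fun y : Cfg k => Prod494.emb T y) = D := by
      funext y
      exact (hD y).symm
    rw [this]
    exact D.contDiff
  exact hφ.comp (h2.add contDiff_const)

theorem hasCompactSupport_fib (T : E ≃ₗᵢ[ℝ] WithLp 2 (Cfg k × E')) {φ : E → F}
    (hφ : HasCompactSupport φ) (x' : E') : HasCompactSupport (Prod494.fib T φ x') := by
  have hcl : Topology.IsClosedEmbedding fun y : Cfg k => Prod494.pt T y x' := by
    have h2 : Isometry fun y : Cfg k => Prod494.pt T y x' := by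
      refine Isometry.of_dist_eq fun y y' => ?_
      unfold Prod494.pt
      rw [T.symm.dist_map, dist_eq_norm, dist_eq_norm]
      have h3 : (WithLp.toLp 2 (y, x') - WithLp.toLp 2 (y', x') : WithLp 2 (Cfg k × E')) =
          WithLp.toLp 2 (y - y', (0 : E')) := by
        change WithLp.toLp 2 ((y, x') - (y', x')) = _
        rw [Prod.mk_sub_mk, sub_self]
      have h4 : ‖(WithLp.toLp 2 (y - y', (0 : E')) : WithLp 2 (Cfg k × E'))‖ ^ 2 =
          ‖y - y'‖ ^ 2 := by
        rw [WithLp.prod_norm_sq_eq_of_L2]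
        simp
      rw [h3]
      exact (sq_eq_sq₀ (norm_nonneg _) (norm_nonneg _)).1 h4
    exact h2.isClosedEmbedding
  exact hφ.comp_isClosedEmbedding hcl

/-- **The core property of the components**: the hypothesis of the product Hardy inequality. -/
theorem core_comp (W : OrthonormalBasis κ ℂ (vacB M G ε)) (hK : ∀ u, ε u ∈ K)
    {io : Matrix.specialUnitaryGroup (Fin k) ℂ → Matrix.specialUnitaryGroup (Fin N) ℂ}
    (hg : ∀ h u, adC b (io h) (ε u) = ε (adC b₁ h u))
    (hfix : ∀ h, ∀ u ∈ K, (∀ v, ⟪u, ε v⟫_ℝ = 0) → adC b (io h) u = u)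
    (T : E ≃ₗᵢ[ℝ] WithLp 2 (Cfg k × E')) {φ : E → F} (hφ : ContDiff ℝ ∞ φ)
    (hcs : HasCompactSupport φ) (hv : ∀ x, φ x ∈ vacOf M G Kᗮ)
    (heq : ∀ h y x', φ (Prod494.pt T (b₁.act h y) x') = R.ρ (io h) (φ (Prod494.pt T y x')))
    (i : κ) (x' : E') :
    IsCoreVec b₁ R₁ fun y => (mult M hΩ h1 ε W).comp i (Prod494.fib T φ x' y) := by
  refine ⟨(mult M hΩ h1 ε W).contDiff_comp (contDiff_fib T hφ x') i, ?_, fun h y => ?_⟩
  · refine (hasCompactSupport_fib T hcs x').mono fun y hy => ?_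
    rw [Function.mem_support] at hy ⊢
    intro h0
    rw [h0, map_zero] at hy
    exact hy rfl
  · change (mult M hΩ h1 ε W).comp i (φ (Prod494.pt T (b₁.act h y) x')) = _
    rw [heq]
    exact comp_rho R R₁ hΩ h1 ε hK (hg h) (hfix h) (W i) (hv _)

end one

/-! ### The amplitude space -/

section fx

variable {N : ℕ} {F : Type*} [NormedAddCommGroup F] [InnerProductSpace ℂ F]
  [FiniteDimensional ℂ F] {κ : Type*} [Fintype κ] {k : κ → ℕ} (M : FermionRep N F) (G : GammaNine)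
  (ε : ∀ p, Colg (k p) →ₗᵢ[ℝ] Colg N)

theorem vacOf_sup {L L' : Submodule ℝ (Colg N)} {f : F} (h : f ∈ vacOf M G L)
    (h' : f ∈ vacOf M G L') : f ∈ vacOf M G (L ⊔ L') := by
  intro α u hu
  obtain ⟨v, hv, v', hv', rfl⟩ := Submodule.mem_sup.1 hu
  have h1 := h α v hv
  have h2 := h' α v' hv'
  rw [gan_eq] at h1 h2 ⊢
  rw [map_add, map_add, CRep.add, CRep.add, LinearMap.add_apply, LinearMap.add_apply, smul_add,
    add_sub_add_comm, h1, h2, add_zero]

theorem vacOf_range {k : ℕ} (ε : Colg k →ₗᵢ[ℝ] Colg N) :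
    vacOf M G (LinearMap.range ε.toLinearMap) = vacB M G ε := by
  ext f
  rw [mem_vacOf, mem_vacB_iff]
  constructor
  · intro h β c
    have h1 := h β _ (LinearMap.mem_range_self ε.toLinearMap c)
    unfold gan at h1
    rw [LinearMap.sub_apply, LinearMap.smul_apply, LinearMap.sum_apply] at h1
    exact sub_eq_zero.1 h1
  · rintro h α _ ⟨c, rfl⟩
    unfold gan
    rw [LinearMap.sub_apply, LinearMap.smul_apply, LinearMap.sum_apply]
    exact sub_eq_zero.2 (h α c)

/-- **The amplitude space** is the light Fock space cut by the block vacua. -/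
theorem mem_Fx_iff {p : ℕ} {b : ColorBasis N} {S : Type} [Group S] [Fintype S] (C : Chn b p S)
    (hmem : ∀ q u, ε q u ∈ C.kk) (hcen : ∀ q t u, ⟪C.cen t, ε q u⟫_ℝ = 0)
    (hspan : ∀ u ∈ C.kk, ∃ (t : EuclideanSpace ℝ (Fin p)) (v : ∀ q, Colg (k q)),
      u = C.cen t + ∑ q, ε q (v q)) {f : F} :
    f ∈ C.Fx M G ↔ f ∈ C.Fl M G ∧ f ∈ vacAll M G ε := by
  have hle : ∀ q, LinearMap.range (ε q).toLinearMap ≤
      (LinearMap.range C.cen.toLinearMap)ᗮ := by
    rintro q _ ⟨u, rfl⟩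
    rw [Submodule.mem_orthogonal]
    rintro _ ⟨t, rfl⟩
    exact hcen q t u
  have hall : f ∈ vacAll M G ε ↔ ∀ q, f ∈ vacB M G (ε q) := by
    rw [mem_vacAll]
    exact forall_congr' fun q => (mem_vacB_iff M G (ε q)).symm
  constructor
  · intro h
    refine ⟨C.Fx_le_Fl M G h, hall.2 fun q => ?_⟩
    rw [← vacOf_range]
    exact vacOf_mono (hle q) h
  · rintro ⟨h, h'⟩
    rw [hall] at h'
    have key : ∀ s : Finset κ, f ∈ vacOf M G
        (C.kkᗮ ⊔ ⨆ q ∈ s, LinearMap.range (ε q).toLinearMap) := by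
      classical
      intro s
      induction s using Finset.induction_on with
      | empty =>
        have h0 : f ∈ vacOf M G C.kkᗮ := h
        simpa using h0
      | insert q s hq ih =>
        rw [Finset.iSup_insert, ← sup_assoc, sup_comm (C.kkᗮ), sup_assoc]
        refine vacOf_sup M G ?_ ih
        rw [vacOf_range]
        exact h' q
    refine vacOf_mono ?_ (key Finset.univ)
    intro u hu
    have h2 : C.kk.starProjection u ∈ ⨆ q ∈ (Finset.univ : Finset κ),
        LinearMap.range (ε q).toLinearMap := by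
      obtain ⟨t, v, e⟩ := hspan _ (C.kk.starProjection_apply_mem u)
      have h3 : C.cen t = 0 := by
        have h4 : ⟪C.cen t, C.kk.starProjection u⟫_ℝ = 0 := by
          rw [← Submodule.inner_starProjection_left_eq_right,
            Submodule.starProjection_eq_self_iff.2 (C.cen_mem t)]
          exact (Submodule.mem_orthogonal _ _).1 hu _ (LinearMap.mem_range_self _ t)
        rw [e, inner_add_right, inner_sum] at h4
        simp only [hcen, Finset.sum_const_zero, add_zero] at h4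
        exact inner_self_eq_zero.1 h4
      rw [e, h3, zero_add]
      refine Submodule.sum_mem _ fun q _ => ?_
      exact Submodule.mem_iSup_of_mem q (Submodule.mem_iSup_of_mem (Finset.mem_univ q)
        (LinearMap.mem_range_self (ε q).toLinearMap (v q)))
    have h5 : u = (u - C.kk.starProjection u) + C.kk.starProjection u := by abel
    rw [h5]
    refine Submodule.add_mem_sup ?_ h2
    exact C.kk.sub_starProjection_mem_orthogonal u

end fx

end Crest.Agent.R330.BlkNeut735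

end
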