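import Crest.Agent.R330.Blk2_317
import Crest.Agent.R330.Bind6_839
import Crest.Agent.R330.Decoup_924
import Crest.Agent.R330.Prod_494

-- ▼ part R330/BlkSplit_837

/-!
# Row 330, doc 9.1 (f): the block split of the light charges (helper837)

* `parts_split` : a sum of first order operators ("parts") with mutually anticommuting coefficients,
  the potential of each part being constant in the directions of the others:
  `∫ ‖Σ_q P_q f‖² = Σ_q ∫ ‖P_q f‖²`.
* `EmbFam b K bs` : a family of orthogonal, commuting, bracket preserving embeddings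
  `eps q : Colg (k q) → Colg N` into `K`, the orthogonal complement in `K` being central in `K`.
* `emb`, `pr`, `cenS`, `cenp` : the corresponding decomposition of `R⁹ ⊗ K`.
* `thq` : the generators of the block.
* `wA_split`, `kin_split`, `light_split` : the light charges (`aA`, `wA` of `Bind6_839`) are the sum of
  the centre part and of the block charges (shape of `gcharge` of `Prod_494`).
-/

set_option autoImplicit false
set_option linter.unusedSectionVars false

noncomputable section

namespace Crest.Agent.R330.BlkSplit837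

open MeasureTheory Filter Topology Crest.MathPhysics.MatrixQM
open Crest.Agent.R330.IBP837 Crest.Agent.R330.Defs478 Crest.Agent.R330.Frame839
open Crest.Agent.R330.LS839 Crest.Agent.R330.Clus839 Crest.Agent.R330.Bind6839
open Crest.Agent.R330.Decoup924
open scoped ContDiff InnerProductSpace ENNReal

/-! ## Parts with anticommuting coefficients -/

section abs

variable {E : Type*} [NormedAddCommGroup E] [NormedSpace ℝ E] [FiniteDimensional ℝ E]
  [MeasurableSpace E] [BorelSpace E] {μ : Measure E} [μ.IsAddHaarMeasure]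
  {F : Type*} [NormedAddCommGroup F] [InnerProductSpace ℂ F] [FiniteDimensional ℂ F]
  {P : Type*} [Fintype P] [DecidableEq P] {κ : P → Type*} [∀ q, Fintype (κ q)]


theorem integral_norm_sq_eq (f : E → F) :
    ((∫ x, ‖f x‖ ^ 2 ∂μ : ℝ) : ℂ) = ∫ x, ⟪f x, f x⟫_ℂ ∂μ := by
  rw [← integral_complex_ofReal]
  refine integral_congr_ae (Eventually.of_forall fun x => ?_)
  simp only
  rw [inner_self_eq_norm_sq_to_K]
  simp


end abs

/-! ## Families of embedded blocks -/

variable {N : ℕ} {Q : Type*} [Fintype Q] [DecidableEq Q] {k : Q → ℕ}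

/-- Orthogonal commuting bracket preserving embeddings of colour algebras into `K`, the rest of `K`
being central in `K`. -/
structure EmbFam (b : ColorBasis N) (K : Submodule ℝ (Colg N)) (bs : ∀ q, ColorBasis (k q)) where
  /-- the embeddings -/
  eps : ∀ q, Colg (k q) →ₗᵢ[ℝ] Colg N
  mem : ∀ q u, eps q u ∈ K
  orth : ∀ q q', q ≠ q' → ∀ u v, ⟪eps q u, eps q' v⟫_ℝ = 0
  brk : ∀ q u v, (colAlg b).br (eps q u) (eps q v) = eps q ((colAlg (bs q)).br u v)
  brk0 : ∀ q q', q ≠ q' → ∀ u v, (colAlg b).br (eps q u) (eps q' v) = 0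
  cen : ∀ w ∈ K, (∀ q u, ⟪w, eps q u⟫_ℝ = 0) → ∀ v ∈ K, (colAlg b).br w v = 0

namespace EmbFam

variable {b : ColorBasis N} {K : Submodule ℝ (Colg N)} {bs : ∀ q, ColorBasis (k q)}
  (B : EmbFam b K bs)



/-- the adjoint of `eps q` -/
def epa (q : Q) : Colg N →ₗ[ℝ] Colg (k q) := LinearMap.adjoint (B.eps q).toLinearMap

theorem inner_epa (q : Q) (w : Colg N) (u : Colg (k q)) : ⟪B.epa q w, u⟫_ℝ = ⟪w, B.eps q u⟫_ℝ := by
  unfold epa
  rw [LinearMap.adjoint_inner_left]
  rfl








/-- the central part of `K` -/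
def cenS : Submodule ℝ (Colg N) where
  carrier := {w | w ∈ K ∧ ∀ q u, ⟪w, B.eps q u⟫_ℝ = 0}
  add_mem' h h' := ⟨K.add_mem h.1 h'.1, fun q u => by rw [inner_add_left, h.2, h'.2, add_zero]⟩
  zero_mem' := ⟨K.zero_mem, fun q u => inner_zero_left _⟩
  smul_mem' r w h := ⟨K.smul_mem r h.1, fun q u => by
    rw [inner_smul_left, h.2, mul_zero]⟩





theorem cen_mem {w : Colg N} (hw : w ∈ K) : w - ∑ q, B.eps q (B.epa q w) ∈ B.cenS := by
  refine ⟨K.sub_mem hw (K.sum_mem fun q _ => B.mem q _), fun q u => ?_⟩
  rw [inner_sub_left, sum_inner, Finset.sum_eq_single q]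
  · rw [LinearIsometry.inner_map_map, B.inner_epa, sub_self]
  · intro q' _ hq
    exact B.orth q' q hq _ _
  · simp









variable {F : Type*} [NormedAddCommGroup F] [InnerProductSpace ℂ F] [FiniteDimensional ℂ F]


theorem thv_add (M : FermionRep N F) (β : Fin 16) (u v : Colg N) :
    thv M β (u + v) = thv M β u + thv M β v := by
  unfold thv
  rw [← Finset.sum_add_distrib]
  refine Finset.sum_congr rfl fun A _ => ?_
  rw [PiLp.add_apply, Complex.ofReal_add, add_smul]

theorem thv_smul (M : FermionRep N F) (β : Fin 16) (r : ℝ) (u : Colg N) :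
    thv M β (r • u) = (r : ℂ) • thv M β u := by
  unfold thv
  rw [Finset.smul_sum]
  refine Finset.sum_congr rfl fun A _ => ?_
  rw [PiLp.smul_apply, smul_eq_mul, Complex.ofReal_mul, smul_smul]

/-- `thv` as a real linear map -/
def thvL (M : FermionRep N F) (β : Fin 16) : Colg N →ₗ[ℝ] (F →ₗ[ℂ] F) where
  toFun := thv M β
  map_add' := thv_add M β
  map_smul' r u := by rw [thv_smul, RingHom.id_apply, Complex.coe_smul]

theorem thvL_apply (M : FermionRep N F) (β : Fin 16) (u : Colg N) : thvL M β u = thv M β u := rfl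



/-! ### the potential -/

section pot

variable (M : FermionRep N F) (G : GammaNine) (g m : ℝ) (α : Fin 16)

/-- the colour vector of the potential -/
def wvec (b : ColorBasis N) (G : GammaNine) (g m : ℝ) (α β : Fin 16) (x : Cfg N) : Colg N :=
  WithLp.toLp 2 fun A => wpot b G g m α β A x

theorem wvec_eq (b : ColorBasis N) (G : GammaNine) (g m : ℝ) (α β : Fin 16) (x : Cfg N) :
    wvec b G g m α β x =
      g • (∑ i, ∑ j, (1 / 2 * G.γ2 i j α β) • (colAlg b).br (comp x i) (comp x j)) -
      m • ∑ j, (cc j * (Gam G * G.γ j) α β) • comp x j := by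
  rw [← wbv_eq, ← wlv_eq]
  unfold wvec
  ext A
  simp [wpot_wb]

theorem wA_eq_sum (x : Cfg N) (f : F) :
    wA b M G g m α x f = ∑ β, thv M β (wvec b G g m α β x) f := by
  have h : vco M (fun β A => wpot b G g m α β A x) =
      ∑ β, thv M β (wvec b G g m α β x) := by
    unfold vco thv wvec
    rw [Finset.sum_comm]
  unfold wA
  rw [h, LinearMap.sum_apply]






end pot

/-! ### the derivative part -/









section lit

variable (M : FermionRep N F) (G : GammaNine) (g m : ℝ) (α : Fin 16)

theorem Theta_eq_thv (e : Cfg N) :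
    Theta M G α e = ∑ β, thv M β (∑ i, G.γ i α β • comp e i) := by
  rw [Theta_eq]
  have h : ∀ w : Fin 16 → Fin (N ^ 2 - 1) → ℝ,
      vco M w = ∑ β, thv M β (WithLp.toLp 2 (w β)) := fun w => by
    unfold vco thv
    rw [Finset.sum_comm]
  rw [h]
  refine Finset.sum_congr rfl fun β _ => ?_
  congr 1






end lit

/-! ### the instance of `Blk_317` -/

section dec

open Crest.Agent.R330.Blk317 Crest.Agent.R330.SlA314 Crest.Agent.R330.SlB314



end dec

end EmbFam

end Crest.Agent.R330.BlkSplit837

end
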