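import Crest.Prelude.Def_MatrixModel

/-!
# Row 330, leaf S6A, part 1 (helper304): the matrices of a configuration

* `hm b u` : the Hermitian traceless matrix `Σ_A u_A T_A` of a colour vector; `cf b M` : colour
  coordinates of a matrix; `hm_cf` : completeness.
* `cbr b u v` : the colour bracket `Σ f_ABC u_B v_C`; `hm_cbr` : `= -i [U,V]`.
* `mat b x i`, `mk b X` : `Cfg N` = nine-tuples of Hermitian traceless matrices; norm, inner
  product, gauge action.
* `Vpot b x` : the quartic potential `(1/4) Σ_{ij} |[x_i,x_j]|²` `= (1/4) Σ_{ij} ‖[X_i,X_j]‖²_HS`.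
-/

set_option autoImplicit false
set_option linter.unusedSectionVars false

open MeasureTheory Crest.MathPhysics.MatrixQM
open scoped BigOperators Matrix InnerProductSpace

noncomputable section

namespace Crest.Agent.R330.Blk304

variable {N : ℕ} (b : ColorBasis N)

/-- The Hermitian traceless matrix of a colour vector. -/
def hm (u : Fin (N ^ 2 - 1) → ℝ) : Matrix (Fin N) (Fin N) ℂ := ∑ A, (u A : ℂ) • b.T A

/-- Colour coordinates of a matrix. -/
def cf (M : Matrix (Fin N) (Fin N) ℂ) (A : Fin (N ^ 2 - 1)) : ℝ := ((b.T A * M).trace).re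

/-- The squared Hilbert-Schmidt norm. -/
def hs (M : Matrix (Fin N) (Fin N) ℂ) : ℝ := ∑ i, ∑ j, ‖M i j‖ ^ 2


theorem hs_zero : hs (0 : Matrix (Fin N) (Fin N) ℂ) = 0 := by simp [hs]


theorem trace_T_mul_hm (u : Fin (N ^ 2 - 1) → ℝ) (A : Fin (N ^ 2 - 1)) :
    (b.T A * hm b u).trace = (u A : ℂ) := by
  unfold hm
  rw [Matrix.mul_sum, Matrix.trace_sum]
  simp [b.orthonormal]

theorem cf_hm (u : Fin (N ^ 2 - 1) → ℝ) : cf b (hm b u) = u := by
  funext A
  unfold cf
  rw [trace_T_mul_hm]
  simp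

theorem hm_herm (u : Fin (N ^ 2 - 1) → ℝ) : (hm b u).IsHermitian := by
  unfold hm Matrix.IsHermitian
  rw [Matrix.conjTranspose_sum]
  refine Finset.sum_congr rfl fun A _ => ?_
  rw [Matrix.conjTranspose_smul, b.herm A]
  simp

theorem hm_trace (u : Fin (N ^ 2 - 1) → ℝ) : (hm b u).trace = 0 := by
  unfold hm
  rw [Matrix.trace_sum]
  simp [b.traceless]

theorem hm_add (u v : Fin (N ^ 2 - 1) → ℝ) : hm b (u + v) = hm b u + hm b v := by
  simp [hm, add_smul, Finset.sum_add_distrib]

theorem hm_smul (r : ℝ) (u : Fin (N ^ 2 - 1) → ℝ) : hm b (r • u) = (r : ℂ) • hm b u := by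
  simp [hm, mul_smul, Finset.smul_sum]

theorem hm_zero : hm b 0 = 0 := by simp [hm]

theorem hm_neg (u : Fin (N ^ 2 - 1) → ℝ) : hm b (-u) = - hm b u := by
  simp [hm]

theorem hm_sub (u v : Fin (N ^ 2 - 1) → ℝ) : hm b (u - v) = hm b u - hm b v := by
  rw [sub_eq_add_neg, hm_add, hm_neg, ← sub_eq_add_neg]

theorem hm_inj {u v : Fin (N ^ 2 - 1) → ℝ} (h : hm b u = hm b v) : u = v := by
  rw [← cf_hm b u, h, cf_hm]

theorem cf_add (X Y : Matrix (Fin N) (Fin N) ℂ) : cf b (X + Y) = cf b X + cf b Y := by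
  funext A; simp [cf, Matrix.mul_add]

theorem cf_smul (r : ℝ) (X : Matrix (Fin N) (Fin N) ℂ) : cf b ((r : ℂ) • X) = r • cf b X := by
  funext A; simp [cf]


/-! ## Completeness -/

theorem li (hN : 0 < N) : LinearIndependent ℂ
    (fun o : Option (Fin (N ^ 2 - 1)) => (o.elim 1 b.T : Matrix (Fin N) (Fin N) ℂ)) := by
  rw [Fintype.linearIndependent_iff]
  intro g hg
  rw [Fintype.sum_option] at hg
  simp only [Option.elim_none, Option.elim_some] at hg
  have h1 : g none = 0 := by
    have := congrArg Matrix.trace hg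
    rw [Matrix.trace_add, Matrix.trace_sum] at this
    simp [b.traceless] at this
    rcases this with h | h
    · exact h
    · omega
  intro o
  cases o with
  | none => exact h1
  | some B =>
    have := congrArg (fun X => (b.T B * X).trace) hg
    simp only [Matrix.mul_add, Matrix.trace_add, Matrix.mul_sum, Matrix.trace_sum] at this
    simpa [b.traceless, b.orthonormal] using this

theorem span_top (hN : 0 < N) : Submodule.span ℂ (Set.range
    (fun o : Option (Fin (N ^ 2 - 1)) => (o.elim 1 b.T : Matrix (Fin N) (Fin N) ℂ))) = ⊤ := by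
  apply (li b hN).span_eq_top_of_card_eq_finrank'
  rw [Module.finrank_matrix]
  simp only [Fintype.card_option, Fintype.card_fin, Module.finrank_self, mul_one]
  have : 1 ≤ N ^ 2 := Nat.one_le_pow _ _ hN
  rw [Nat.sub_add_cancel this, sq]

/-- Completeness of the colour basis. -/
theorem hm_cf {M : Matrix (Fin N) (Fin N) ℂ} (hM : M.IsHermitian) (ht : M.trace = 0) :
    hm b (cf b M) = M := by
  rcases Nat.eq_zero_or_pos N with hN | hN
  · subst hN
    ext i
    exact i.elim0
  · have hmem : M ∈ Submodule.span ℂ (Set.range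
      (fun o : Option (Fin (N ^ 2 - 1)) => (o.elim 1 b.T : Matrix (Fin N) (Fin N) ℂ))) := by
      rw [span_top b hN]; trivial
    rw [Submodule.mem_span_range_iff_exists_fun] at hmem
    obtain ⟨g, hg⟩ := hmem
    rw [Fintype.sum_option] at hg
    simp only [Option.elim_none, Option.elim_some] at hg
    have h0 : g none = 0 := by
      have := congrArg Matrix.trace hg
      rw [Matrix.trace_add, Matrix.trace_sum, ht] at this
      simp [b.traceless] at this
      rcases this with h | h
      · exact h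
      · omega
    rw [h0, zero_smul, zero_add] at hg
    have h1 : ∀ B, (b.T B * M).trace = g (some B) := by
      intro B
      rw [← hg, Matrix.mul_sum, Matrix.trace_sum]
      simp [b.orthonormal]
    have h2 : ∀ B, ((cf b M B : ℝ) : ℂ) = g (some B) := by
      intro B
      rw [← h1 B]
      unfold cf
      apply Complex.conj_eq_iff_re.mp
      have : (starRingEnd ℂ) ((b.T B * M).trace) = ((b.T B * M)ᴴ).trace := by
        rw [Matrix.trace_conjTranspose]; rfl
      rw [this, Matrix.conjTranspose_mul, hM, b.herm B, Matrix.trace_mul_comm]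
    unfold hm
    simp only [h2]
    exact hg

/-! ## Traces, inner products -/

theorem trace_hm_mul_hm (u v : Fin (N ^ 2 - 1) → ℝ) :
    (hm b u * hm b v).trace = ((∑ A, u A * v A : ℝ) : ℂ) := by
  conv_lhs => rw [hm, Finset.sum_mul, Matrix.trace_sum]
  simp only [smul_mul_assoc, Matrix.trace_smul, trace_T_mul_hm, smul_eq_mul]
  push_cast
  rfl

theorem hs_eq_trace {M : Matrix (Fin N) (Fin N) ℂ} (hM : M.IsHermitian) :
    ((hs M : ℝ) : ℂ) = (M * M).trace := by
  rw [Matrix.trace]
  simp only [Matrix.diag_apply, Matrix.mul_apply]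
  unfold hs
  push_cast
  refine Finset.sum_congr rfl fun i _ => Finset.sum_congr rfl fun j _ => ?_
  have h : M j i = (starRingEnd ℂ) (M i j) := by
    conv_lhs => rw [← hM]
    rfl
  rw [h, Complex.mul_conj, Complex.normSq_eq_norm_sq]
  push_cast
  rfl

theorem hs_hm (u : Fin (N ^ 2 - 1) → ℝ) : hs (hm b u) = ∑ A, u A ^ 2 := by
  have h := hs_eq_trace (hm_herm b u)
  rw [trace_hm_mul_hm] at h
  have := Complex.ofReal_injective h
  rw [this]
  refine Finset.sum_congr rfl fun A _ => ?_
  ring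

/-- The inner product in matrix entries. -/
theorem sum_mul_eq (u v : Fin (N ^ 2 - 1) → ℝ) :
    ∑ A, u A * v A = ∑ i, ∑ j, (hm b u i j * (starRingEnd ℂ) (hm b v i j)).re := by
  have h := trace_hm_mul_hm b u v
  have h' := congrArg Complex.re h
  rw [Complex.ofReal_re] at h'
  rw [← h', Matrix.trace, Complex.re_sum]
  refine Finset.sum_congr rfl fun i _ => ?_
  rw [Matrix.diag_apply, Matrix.mul_apply, Complex.re_sum]
  refine Finset.sum_congr rfl fun j _ => ?_
  have h : hm b v j i = (starRingEnd ℂ) (hm b v i j) := by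
    conv_lhs => rw [← hm_herm b v]
    rfl
  rw [h]

/-! ## Brackets -/







/-! ## Configurations as nine-tuples of matrices -/

/-- The `i`-th matrix of a configuration. -/
def mat (x : Cfg N) (i : Fin 9) : Matrix (Fin N) (Fin N) ℂ := hm b (fun A => x (i, A))

/-- The configuration with given matrices. -/
def mk (X : Fin 9 → Matrix (Fin N) (Fin N) ℂ) : Cfg N :=
  WithLp.toLp 2 (fun iA : Fin 9 × Fin (N ^ 2 - 1) => cf b (X iA.1) iA.2)

theorem mk_apply (X : Fin 9 → Matrix (Fin N) (Fin N) ℂ) (i : Fin 9) (A : Fin (N ^ 2 - 1)) :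
    mk b X (i, A) = cf b (X i) A := rfl

theorem mat_herm (x : Cfg N) (i : Fin 9) : (mat b x i).IsHermitian := hm_herm b _

theorem mat_trace (x : Cfg N) (i : Fin 9) : (mat b x i).trace = 0 := hm_trace b _

theorem mat_add (x y : Cfg N) (i : Fin 9) : mat b (x + y) i = mat b x i + mat b y i :=
  hm_add b _ _

theorem mat_sub (x y : Cfg N) (i : Fin 9) : mat b (x - y) i = mat b x i - mat b y i :=
  hm_sub b _ _


theorem mat_smul (r : ℝ) (x : Cfg N) (i : Fin 9) : mat b (r • x) i = (r : ℂ) • mat b x i :=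
  hm_smul b _ _

theorem mat_zero (i : Fin 9) : mat b 0 i = 0 := hm_zero b

theorem mk_mat (x : Cfg N) : mk b (mat b x) = x := by
  ext ⟨i, A⟩
  rw [mk_apply]
  unfold mat
  rw [cf_hm]

theorem mat_mk {X : Fin 9 → Matrix (Fin N) (Fin N) ℂ} (hX : ∀ i, (X i).IsHermitian)
    (hX0 : ∀ i, (X i).trace = 0) (i : Fin 9) : mat b (mk b X) i = X i := by
  have h : (fun A => mk b X (i, A)) = cf b (X i) := funext fun A => mk_apply b X i A
  unfold mat
  rw [h, hm_cf b (hX i) (hX0 i)]

theorem mat_inj {x y : Cfg N} (h : ∀ i, mat b x i = mat b y i) : x = y := by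
  rw [← mk_mat b x, ← mk_mat b y]
  congr 1
  funext i
  exact h i

theorem norm_sq_eq (x : Cfg N) : ‖x‖ ^ 2 = ∑ i, hs (mat b x i) := by
  rw [EuclideanSpace.norm_sq_eq, Fintype.sum_prod_type]
  refine Finset.sum_congr rfl fun i _ => ?_
  unfold mat
  rw [hs_hm]
  refine Finset.sum_congr rfl fun A _ => ?_
  rw [Real.norm_eq_abs, sq_abs]

theorem inner_eq (x y : Cfg N) : ⟪x, y⟫_ℝ =
    ∑ i, ∑ a, ∑ a', (mat b x i a a' * (starRingEnd ℂ) (mat b y i a a')).re := by
  rw [PiLp.inner_apply, Fintype.sum_prod_type]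
  refine Finset.sum_congr rfl fun i _ => ?_
  unfold mat
  rw [← sum_mul_eq]
  refine Finset.sum_congr rfl fun A _ => ?_
  simp [mul_comm]



/-! ## The gauge action -/

theorem hm_conj (g : Matrix.specialUnitaryGroup (Fin N) ℂ) (u : Fin (N ^ 2 - 1) → ℝ) :
    hm b (fun A => ∑ B, b.adjMat g A B * u B) =
      (g : Matrix (Fin N) (Fin N) ℂ) * hm b u * star (g : Matrix (Fin N) (Fin N) ℂ) := by
  have hg : star (g : Matrix (Fin N) (Fin N) ℂ) * (g : Matrix (Fin N) (Fin N) ℂ) = 1 :=
    (Matrix.mem_unitaryGroup_iff').1 (Matrix.mem_specialUnitaryGroup_iff.1 g.2).1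
  have h1 : ((g : Matrix (Fin N) (Fin N) ℂ) * hm b u *
      star (g : Matrix (Fin N) (Fin N) ℂ)).IsHermitian := by
    unfold Matrix.IsHermitian
    rw [Matrix.conjTranspose_mul, Matrix.conjTranspose_mul, hm_herm b u,
      ← Matrix.star_eq_conjTranspose, star_star, ← Matrix.star_eq_conjTranspose, Matrix.mul_assoc]
  have h2 : ((g : Matrix (Fin N) (Fin N) ℂ) * hm b u *
      star (g : Matrix (Fin N) (Fin N) ℂ)).trace = 0 := by
    rw [Matrix.trace_mul_comm, ← Matrix.mul_assoc, hg, Matrix.one_mul, hm_trace]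
  rw [← hm_cf b h1 h2]
  congr 1
  funext A
  unfold cf ColorBasis.adjMat
  have h3 : b.T A * ((g : Matrix (Fin N) (Fin N) ℂ) * hm b u *
      star (g : Matrix (Fin N) (Fin N) ℂ)) =
      ∑ B, (u B : ℂ) • (b.T A * (g : Matrix (Fin N) (Fin N) ℂ) * b.T B *
        star (g : Matrix (Fin N) (Fin N) ℂ)) := by
    unfold hm
    rw [Finset.mul_sum, Finset.sum_mul, Finset.mul_sum]
    refine Finset.sum_congr rfl fun B _ => ?_
    rw [Matrix.mul_smul, Matrix.smul_mul, Matrix.mul_smul, ← Matrix.mul_assoc, ← Matrix.mul_assoc]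
  rw [h3, Matrix.trace_sum, Complex.re_sum]
  refine Finset.sum_congr rfl fun B _ => ?_
  rw [Matrix.trace_smul, smul_eq_mul, Complex.re_ofReal_mul, mul_comm]

theorem mat_act (g : Matrix.specialUnitaryGroup (Fin N) ℂ) (x : Cfg N) (i : Fin 9) :
    mat b (b.act g x) i =
      (g : Matrix (Fin N) (Fin N) ℂ) * mat b x i * star (g : Matrix (Fin N) (Fin N) ℂ) :=
  hm_conj b g (fun A => x (i, A))



theorem su_mul_star (g : Matrix.specialUnitaryGroup (Fin N) ℂ) :
    (g : Matrix (Fin N) (Fin N) ℂ) * star (g : Matrix (Fin N) (Fin N) ℂ) = 1 :=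
  (Matrix.mem_unitaryGroup_iff).1 (Matrix.mem_specialUnitaryGroup_iff.1 g.2).1


theorem act_add (g : Matrix.specialUnitaryGroup (Fin N) ℂ) (x y : Cfg N) :
    b.act g (x + y) = b.act g x + b.act g y := by
  apply mat_inj b
  intro i
  rw [mat_act, mat_add, mat_add, mat_act, mat_act, Matrix.mul_add, Matrix.add_mul]

theorem act_sub (g : Matrix.specialUnitaryGroup (Fin N) ℂ) (x y : Cfg N) :
    b.act g (x - y) = b.act g x - b.act g y := by
  apply mat_inj b
  intro i
  rw [mat_act, mat_sub, mat_sub, mat_act, mat_act, Matrix.mul_sub, Matrix.sub_mul]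



theorem act_mul (g h : Matrix.specialUnitaryGroup (Fin N) ℂ) (x : Cfg N) :
    b.act (g * h) x = b.act g (b.act h x) := by
  apply mat_inj b
  intro i
  rw [mat_act, mat_act, mat_act]
  simp only [Submonoid.coe_mul, star_mul, Matrix.mul_assoc]

/-! ## The quartic potential -/


theorem hs_neg_I_smul (X : Matrix (Fin N) (Fin N) ℂ) : hs ((-Complex.I) • X) = hs X := by
  unfold hs
  simp



end Crest.Agent.R330.Blk304
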