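import Crest.Agent.R330.SlInt_658
import Crest.Agent.R330.PairB_547

/-!
# Row 330, S8: from the trial states of `TDef_414` to the slice coordinates of `PairB_547`

* `kc_cf`, `Uk_eq`, `Zs_eq`, `dec_sl` : the spaces of a chart.
* `PK_add`, `PM_add`, `cfT_add`, `PY_add` : coordinates `u = q + z`.
* `A_low_chart` : the uniform lower bound of the Gaussian exponent on the whole chart.
* `aT`, `omT`, `tau_eq` : normal form of the trial function.
-/

set_option autoImplicit false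
set_option linter.unusedSectionVars false

open MeasureTheory Filter Topology Crest.MathPhysics.MatrixQM
open scoped ContDiff InnerProductSpace ENNReal

noncomputable section

namespace Crest.Agent.R330.BrT5658

open Crest.Agent.R330.TDef414 Crest.Agent.R330.SlG944 Crest.Agent.R330.Cov837
open Crest.Agent.R330.Defs478 Crest.Agent.R330.LS839 Crest.Agent.R330.Frame839
  Crest.Agent.R330.Clus839 Crest.Agent.R330.Bind6839 Crest.Agent.R330.PairB547
  Crest.Agent.R330.SlInt658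
open Crest.Agent.R330.SlB314 (Nor Tan brx)
open Crest.Agent.R330.SlD314 (tube)

variable {N p : ℕ} {b : ColorBasis N} {S : Type} [Group S] [Fintype S] {C : Chn b p S}

/-! ## the spaces of a chart -/

theorem cf_mem (X : Pos p) : C.cf X ∈ Tup C.kk := fun i => by
  rw [Chn.comp_cf]
  exact C.cen_mem _

theorem Uk_eq {X : Pos p} (h : C.Reg X) : Uk b (C.cf X) = Tup C.kk := by
  unfold Uk
  rw [h]

theorem Mm_eq {X : Pos p} (h : C.Reg X) : Mm b (C.cf X) = Tup C.kkᗮ := by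
  unfold Mm
  rw [h]

theorem Zs_eq {X : Pos p} (h : C.Reg X) : Zs b (C.cf X) = C.Zt X := by
  unfold Zs Chn.Zt
  rw [Mm_eq h, Nor_eq]

theorem reg0 (σ : Sl C) : C.Reg σ.X0 := σ.reg σ.X0 (by simpa using σ.pos)

theorem comc_cf (X : Pos p) : Comc b (C.cf X) := by
  intro i j
  rw [Chn.comp_cf, Chn.comp_cf]
  exact C.cen_comm _ _ (C.cen_mem _)

theorem tup_le_nor (σ : Sl C) : Tup C.kk ≤ (Tn (actB b) (C.cf σ.X0))ᗮ := by
  rw [← Uk_eq (reg0 σ)]
  exact Uk_le_Nor

/-- The decomposition of the slice. -/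
theorem dec_sl (σ : Sl C) : Dec (actB b) (C.cf σ.X0) (Tup C.kk) (C.Zt σ.X0) := by
  have h1 := Uk_eq (reg0 σ)
  have h2 := Zs_eq (reg0 σ)
  rw [← h1, ← h2]
  exact ⟨Uk_le_Nor, fun z hz => hz.2, fun x hx z hz => Zs_perp_Uk hx hz,
    fun x hx => nor_decomp hx⟩

theorem dec_of {σ : Sl C} {L Z : Submodule ℝ (Cfg N)} (hL : L = Tup C.kk)
    (hZ : Z = C.Zt σ.X0) : Dec (actB b) (C.cf σ.X0) L Z := by
  rw [hL, hZ]
  exact dec_sl σ

/-! ## coordinates -/

theorem PK_of_mem {q : Cfg N} (hq : q ∈ Tup C.kk) : C.PK q = q :=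
  Submodule.starProjection_eq_self_iff.2 hq

theorem PK_of_off {z : Cfg N} (hz : z ∈ Tup C.kkᗮ) : C.PK z = 0 := by
  unfold Chn.PK
  rw [Submodule.starProjection_apply_eq_zero_iff, Tup_orth]
  exact hz

theorem cfT_of_off {z : Cfg N} (hz : z ∈ Tup C.kkᗮ) : C.cfT z = 0 := by
  refine ext_inner_right ℝ fun Y => ?_
  unfold Chn.cfT
  rw [ContinuousLinearMap.adjoint_inner_left, inner_zero_left]
  have h1 : z ∈ (Tup C.kk)ᗮ := by rw [Tup_orth]; exact hz
  exact (Submodule.mem_orthogonal' _ _).1 h1 _ (cf_mem Y)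

theorem PK_add {q z : Cfg N} (hq : q ∈ Tup C.kk) (hz : z ∈ Tup C.kkᗮ) : C.PK (q + z) = q := by
  rw [map_add, PK_of_mem hq, PK_of_off hz, add_zero]

theorem PM_add {q z : Cfg N} (hq : q ∈ Tup C.kk) (hz : z ∈ Tup C.kkᗮ) : C.PM (q + z) = z := by
  unfold Chn.PM
  rw [PK_add hq hz, add_sub_cancel_left]

theorem cfT_add {q z : Cfg N} (hz : z ∈ Tup C.kkᗮ) : C.cfT (q + z) = C.cfT q := by
  rw [map_add, cfT_of_off hz, add_zero]

theorem PY_add {q z : Cfg N} (hq : q ∈ Tup C.kk) (hz : z ∈ Tup C.kkᗮ) :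
    C.PY (q + z) = C.PY q := by
  unfold Chn.PY
  rw [PK_add hq hz, cfT_add hz, PK_of_mem hq]

theorem PY_mem {q : Cfg N} (hq : q ∈ Tup C.kk) : C.PY q ∈ C.Blk := by
  refine ⟨?_, ?_⟩
  · unfold Chn.PY
    rw [PK_of_mem hq]
    exact Submodule.sub_mem _ hq (cf_mem _)
  · refine (Submodule.mem_orthogonal _ _).2 ?_
    rintro _ ⟨X, rfl⟩
    change ⟪C.cf X, C.PY q⟫_ℝ = 0
    unfold Chn.PY
    rw [PK_of_mem hq, inner_sub_right, C.cf.inner_map_map]
    unfold Chn.cfT
    rw [ContinuousLinearMap.adjoint_inner_right]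
    exact sub_self _

/-! ## the Gaussian exponent on the whole chart -/

variable {F : Type*} [NormedAddCommGroup F] [InnerProductSpace ℂ F] [FiniteDimensional ℂ F]
  {M : FermionRep N F} {R : GaugeAction b M} {G : GammaNine}

theorem A_pos (P : TPack C M R G) (σ : Sl C) {X : Pos p} (hX : ‖X - σ.X0‖ < σ.r) {z : Cfg N}
    (hz : z ∈ C.Zt σ.X0) (hz0 : z ≠ 0) : 0 < ⟪P.A X z, z⟫_ℝ := by
  have hB := σ.reg X hX
  have hR := hB
  refine lt_of_le_of_ne (P.A_nonneg X z) fun h0 => hz0 ?_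
  set T := Tn (actB b) (C.cf X) with hT
  set t := T.starProjection z with ht
  have htm : t ∈ T := Submodule.starProjection_apply_mem _ _
  have htM : t ∈ Tup C.kkᗮ := by
    rw [← Mm_eq hR]
    exact Tn_le_Mm htm
  have hz' : z - t ∈ C.Zt X := by
    refine ⟨Submodule.sub_mem _ hz.1 htM, ?_⟩
    rw [← Nor_eq]
    exact Submodule.sub_starProjection_mem_orthogonal z
  obtain ⟨w, hw⟩ := htm
  have hAt : P.A X t = 0 := by
    rw [← hw]
    exact P.A_gauge X hB w
  have h1 : ⟪P.A X (z - t), z - t⟫_ℝ = 0 := by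
    have h2 : P.A X (z - t) = P.A X z := by rw [map_sub, hAt, sub_zero]
    rw [h2, inner_sub_right, ← h0, P.A_symm X z t, hAt, inner_zero_right, sub_zero]
  obtain ⟨c', ε, hc', hε, hlow⟩ := P.A_low X hB
  have h2 := hlow X (by simpa using hε) (z - t) hz'
  rw [h1] at h2
  have h3 : z - t = 0 := by
    have : ‖z - t‖ ^ 2 ≤ 0 := by
      by_contra hne
      push Not at hne
      have := mul_pos hc' hne
      linarith
    have h4 : ‖z - t‖ = 0 := by nlinarith [norm_nonneg (z - t)]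
    exact norm_eq_zero.1 h4
  have h4 : z = actB b w (C.cf X) := by
    rw [sub_eq_zero.1 h3]
    exact hw.symm
  have h5 : C.cf X = C.cf σ.X0 + C.cf (X - σ.X0) := by
    rw [← map_add, add_sub_cancel]
  have h6 : brx b w.ofLp (C.cf σ.X0) = 0 := by
    refine σ.good.nondeg (C.cf (X - σ.X0)) w.ofLp ?_ ?_ ?_
    · rw [← Nor_eq]
      exact tup_le_nor σ (cf_mem _)
    · rw [C.cf.norm_map]
      exact hX
    · rw [← h5, ← actB_apply, ← h4]
      exact hz.2
  have h7 : w ∈ C.kk := by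
    rw [← reg0 σ]
    exact (mem_kc (A := actB b) (c := C.cf σ.X0)).2 h6
  have h8 : w ∈ kc (actB b) (C.cf X) := by
    rw [hR]
    exact h7
  rw [h4]
  exact h8


/-! ## normal form of the trial function -/

/-- scalar amplitude -/
def aT (P : TPack C M R G) (σ : Sl C) (g : ℝ) (X : Pos p) (z : Cfg N) : ℝ :=
  nrm P σ g X * kap σ.r (‖z‖ ^ 2) * Real.exp (-(g / 2 * ⟪P.A X z, z⟫_ℝ))

/-- light part -/
def omT (P : TPack C M R G) (σ : Sl C) (g : ℝ) (χ : Pos p → C.Fx M G) (q : Cfg N) : F :=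
  P.U (σ.X0 + C.cfT q) (P.Psi g (C.PY q) (χ (σ.X0 + C.cfT q) : F))

/-- **Normal form.** -/
theorem tau_eq (P : TPack C M R G) (σ : Sl C) (g : ℝ) (χ : Pos p → C.Fx M G) {q z : Cfg N}
    (hq : q ∈ Tup C.kk) (hz : z ∈ Tup C.kkᗮ) :
    tau P σ g χ (q + z) = ((aT P σ g (σ.X0 + C.cfT q) z : ℝ) : ℂ) • omT P σ g χ q := by
  unfold tau aT omT
  rw [cfT_add hz, PM_add hq hz, PY_add hq hz]

end Crest.Agent.R330.BrT5658

end
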