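import Crest.Agent.R330.SlD_314
import Crest.Agent.R330.RhoB_406
import Crest.Agent.R330.Cov_837

/-!
# Row 330, S5b: smoothness of the action and of `ρ` along `exp`, equivariant extension (b5)

* `contDiff_act : (om, x) ↦ act (gSU b om 1) x` is smooth;
* `contDiff_rho : (om, v) ↦ ρ (gSU b om 1) v` is smooth;
-/

set_option autoImplicit false
set_option linter.unusedSectionVars false
set_option linter.style.haveILetI false

open MeasureTheory Filter Topology Crest.MathPhysics.MatrixQM
open NormedSpace (exp)
open scoped InnerProductSpace ContDiff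

noncomputable section

namespace Crest.Agent.R330.SlE944

open Crest.Agent.R330.Lift406 Crest.Agent.R330.SlB314

variable {N : ℕ} {F : Type*} [NormedAddCommGroup F] [InnerProductSpace ℂ F] [FiniteDimensional ℂ F]

/-! ## the two brackets agree -/

theorem adL_eq_br (b : ColorBasis N) (om v : Fin (N ^ 2 - 1) → ℝ) :
    Lift406.adL b om v = br b om v := by
  funext C
  rw [Lift406.adL_apply]
  unfold br
  refine Finset.sum_congr rfl fun A _ => Finset.sum_congr rfl fun B _ => ?_
  rw [← SlB314.structConst_cyc b C A B]

theorem brC_eq_brx (b : ColorBasis N) (om : Fin (N ^ 2 - 1) → ℝ) (x : Cfg N) :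
    brC b om x = brx b om x := by
  unfold brC brx
  congr 1
  funext p
  rw [adL_eq_br]

/-! ## smoothness in the group parameter -/



theorem contDiff_exp_alg {A : Type*} [NormedRing A] [NormedAlgebra ℝ A] [CompleteSpace A]
    {n : WithTop ℕ∞} : ContDiff ℝ n (exp : A → A) :=
  contDiff_iff_contDiffAt.2 fun x =>
    (NormedSpace.exp_analytic (𝕂 := ℝ) x).contDiffAt


theorem gexp_eq (b : ColorBasis N) (om : Fin (N ^ 2 - 1) → ℝ) :
    SlD314.gexp b om = gSU b om 1 := by
  apply Subtype.ext
  rw [SlD314.gexp_val, gSU_coe, one_smul]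
  rfl




/-- `B(om)` as a real linear map in `om` -/
def BLin (b : ColorBasis N) (M : FermionRep N F) : (Fin (N ^ 2 - 1) → ℝ) →L[ℝ] (F →L[ℂ] F) :=
  LinearMap.toContinuousLinearMap
    { toFun := fun om => Bop b M om
      map_add' := by
        intro u v
        have h : gm b (u + v) = gm b u + gm b v := by
          ext p q
          simp only [gm, Matrix.add_apply, Pi.add_apply, mul_add, Finset.sum_add_distrib]
          split_ifs <;> simp
        simp only [Bop, h, spin, Matrix.add_apply, Complex.ofReal_add, add_smul,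
          Finset.sum_add_distrib, smul_add]
      map_smul' := by
        intro t v
        have h : ∀ p q, gm b (t • v) p q = t * gm b v p q := by
          intro p q
          simp only [gm, Pi.smul_apply, smul_eq_mul]
          split_ifs
          · rw [Finset.mul_sum]
            refine Finset.sum_congr rfl fun B _ => ?_
            ring
          · simp
        simp only [Bop, spin, h, Complex.ofReal_mul, mul_smul, RingHom.id_apply]
        rw [← Complex.coe_smul t, smul_comm (t : ℂ) (1 / 2 : ℂ), Finset.smul_sum]
        simp only [Finset.smul_sum] }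

theorem BLin_apply (b : ColorBasis N) (M : FermionRep N F) (om : Fin (N ^ 2 - 1) → ℝ) :
    BLin b M om = Bop b M om := rfl

theorem contDiff_exp_Bop (b : ColorBasis N) (M : FermionRep N F) :
    ContDiff ℝ ∞ (fun om : Fin (N ^ 2 - 1) → ℝ => exp (Bop b M om)) :=
  (contDiff_exp_alg (A := F →L[ℂ] F)).comp (BLin b M).contDiff

/-- **smoothness of `ρ` along `exp`** -/
theorem contDiff_rho [Nontrivial F] {b : ColorBasis N} {M : FermionRep N F} (R : GaugeAction b M) :
    ContDiff ℝ ∞ (fun p : (Fin (N ^ 2 - 1) → ℝ) × F => R.ρ (gSU b p.1 1) p.2) := by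
  have h : ∀ p : (Fin (N ^ 2 - 1) → ℝ) × F, R.ρ (gSU b p.1 1) p.2 = exp (Bop b M p.1) p.2 := by
    intro p
    rw [← rhoC_apply, rhoC_gSU R, one_smul]
  simp only [h]
  exact (((ContinuousLinearMap.restrictScalarsL ℂ F F ℝ ℝ).contDiff.comp
    ((contDiff_exp_Bop b M).comp contDiff_fst))).clm_apply contDiff_snd

/-- the same in terms of `gexp` -/
theorem contDiff_rho_gexp [Nontrivial F] {b : ColorBasis N} {M : FermionRep N F}
    (R : GaugeAction b M) :
    ContDiff ℝ ∞ (fun p : (Fin (N ^ 2 - 1) → ℝ) × F => R.ρ (SlD314.gexp b p.1) p.2) := by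
  simp only [gexp_eq]
  exact contDiff_rho R

/-- `ρ(exp(t om)) = exp(t B(om))` in terms of `gexp` -/
theorem rho_gexp [Nontrivial F] {b : ColorBasis N} {M : FermionRep N F} (R : GaugeAction b M)
    (om : Fin (N ^ 2 - 1) → ℝ) (v : F) : R.ρ (SlD314.gexp b om) v = exp (Bop b M om) v := by
  rw [gexp_eq, ← rhoC_apply, rhoC_gSU R, one_smul]

/-! ## the bracket as a bounded bilinear map, the frame -/

/-- `(om, x) ↦ [om, x]` -/
def brB (b : ColorBasis N) : (Fin (N ^ 2 - 1) → ℝ) →L[ℝ] Cfg N →L[ℝ] Cfg N :=
  LinearMap.toContinuousLinearMap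
    { toFun := fun om => LinearMap.toContinuousLinearMap
        { toFun := fun x => brx b om x
          map_add' := fun x y => brx_add_right b om x y
          map_smul' := fun t x => brx_smul_right b t om x }
      map_add' := by
        intro u v
        ext1 x
        exact brx_add_left b u v x
      map_smul' := by
        intro t v
        ext1 x
        exact brx_smul_left b t v x }

theorem brB_apply (b : ColorBasis N) (om : Fin (N ^ 2 - 1) → ℝ) (x : Cfg N) :
    brB b om x = brx b om x := rfl

theorem norm_brx_le (b : ColorBasis N) (om : Fin (N ^ 2 - 1) → ℝ) (x : Cfg N) :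
    ‖brx b om x‖ ≤ ‖brB b‖ * ‖om‖ * ‖x‖ := by
  rw [← brB_apply]
  exact (brB b).le_opNorm₂ om x

/-- a linear right inverse of `om ↦ [om, c]` on the tangent space, `0` on the normal space -/
theorem exists_frame (b : ColorBasis N) (c : Cfg N) :
    ∃ L : Cfg N →L[ℝ] (Fin (N ^ 2 - 1) → ℝ),
      (∀ v, brx b (L v) c = (Tan b c).starProjection v) ∧ ∀ v ∈ Nor b c, L v = 0 := by
  obtain ⟨s, hs⟩ := (SlB314.adL b c).rangeRestrict.exists_rightInverse_of_surjective
    (LinearMap.range_eq_top.2 (LinearMap.surjective_rangeRestrict _))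
  refine ⟨(LinearMap.toContinuousLinearMap s).comp (Tan b c).orthogonalProjection, ?_, ?_⟩
  · intro v
    have h := congrArg (fun f => f ((Tan b c).orthogonalProjection v)) hs
    have h2 := congrArg Subtype.val h
    exact h2
  · intro v hv
    have h : (Tan b c).orthogonalProjection v = 0 :=
      Submodule.orthogonalProjection_mem_subspace_orthogonalComplement_eq_zero hv
    exact (congrArg (fun w => s w) h).trans (map_zero s)

end Crest.Agent.R330.SlE944

end
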