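import Crest.Agent.R330.RhoB_406
import Crest.Agent.R330.PairE_547
import Crest.Agent.R330.Bind6b_839
import Crest.Agent.R330.SlE_944

-- ▼ part R330/ExpSU_406
section

/-!
# The exponential element `expSU b ω = exp(-i Σ ω_A T_A) ∈ SU(N)` and smoothness in `ω`
-/

set_option autoImplicit false
set_option linter.unusedSectionVars false
set_option linter.style.haveILetI false

open MeasureTheory Filter Topology Crest.MathPhysics.MatrixQM
open NormedSpace (exp)
open scoped InnerProductSpace ContDiff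

noncomputable section

namespace Crest.Agent.R330.Lift406

variable {N : ℕ} {F : Type*} [NormedAddCommGroup F] [InnerProductSpace ℂ F] [FiniteDimensional ℂ F]

/-- colour vectors (with the sup norm) -/
abbrev Col (N : ℕ) := Fin (N ^ 2 - 1) → ℝ












/-- `B(ω)` linear in `ω` -/
def BopL (b : ColorBasis N) (M : FermionRep N F) : Col N →ₗ[ℝ] (F →L[ℂ] F) where
  toFun om := Bop b M om
  map_add' u v := by
    have h : ∀ p q, gm b (u + v) p q = gm b u p q + gm b v p q := by
      intro p q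
      simp only [gm, Pi.add_apply]
      split_ifs
      · rw [← Finset.sum_add_distrib]
        exact Finset.sum_congr rfl fun B _ => by ring
      · simp
    simp only [Bop, spin, h, Complex.ofReal_add, add_smul, Finset.sum_add_distrib, smul_add]
  map_smul' r v := by
    have h : ∀ p q, gm b (r • v) p q = r * gm b v p q := by
      intro p q
      simp only [gm, Pi.smul_apply, smul_eq_mul]
      split_ifs
      · rw [Finset.mul_sum]
        exact Finset.sum_congr rfl fun B _ => by ring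
      · simp
    have h2 : ∀ (T : F →L[ℂ] F), r • T = (r : ℂ) • T := fun T => by ext w; simp
    simp only [Bop, spin, h, Complex.ofReal_mul, mul_smul, RingHom.id_apply]
    rw [h2, smul_comm (r : ℂ), Finset.smul_sum]
    simp only [Finset.smul_sum]


theorem Bop_smul (b : ColorBasis N) (M : FermionRep N F) (r : ℝ) (om : Col N) :
    Bop b M (r • om) = r • Bop b M om := (BopL b M).map_smul r om

theorem Bop_add (b : ColorBasis N) (M : FermionRep N F) (u v : Col N) :
    Bop b M (u + v) = Bop b M u + Bop b M v := (BopL b M).map_add u v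












end Crest.Agent.R330.Lift406
end
end

-- ▼ part R330/PairL_862

/-!
# Row 330, S8-PAIR: the literal instance of the data of `PairB_547` / `PairE_547` (helper862)

* `ThL M G α`, `WqL b M G α`, `WlL M G α`, `BfL b M` : `Θ`, `Wq`, `Wl`, `Bf` as linear maps.
* `Wp_lit` : `Wp Wq Wl g m x = vco (wpot x)`; symmetry, continuity; `Wq_symm`.
* `decL` : `Dec (actB b) c (Uk b c) (Zs b c)`.
* `exists_bounds` : one constant for `Θ`, `Wq`, `Wl`, `Bf`.
* `Par Γ` : the parities (`exists_par` of 839), `par_ThU`, `par_ThM`, `par_WqU`, `par_WqM`, ...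
* `chg_lit` : `chg Θ (Wp ..) e φ = dcharge`; `infEq` : `InfEq` for equivariant functions.
-/

set_option autoImplicit false
set_option linter.unusedSectionVars false

open MeasureTheory Filter Topology Crest.MathPhysics.MatrixQM
open Crest.Agent.R330.IBP837 Crest.Agent.R330.Defs478 Crest.Agent.R330.Frame839
open Crest.Agent.R330.LS839 Crest.Agent.R330.Clus839 Crest.Agent.R330.Bind6839
open Crest.Agent.R330.PairA547 Crest.Agent.R330.PairB547 Crest.Agent.R330.PairE547
open scoped ContDiff InnerProductSpace ENNReal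

noncomputable section

namespace Crest.Agent.R330.PairL_862

variable {N : ℕ} {F : Type*} [NormedAddCommGroup F] [InnerProductSpace ℂ F]
  [FiniteDimensional ℂ F]

theorem vco_ladd (M : FermionRep N F) (w w' : Fin 16 → Fin (N ^ 2 - 1) → ℝ) :
    vco M (fun β A => w β A + w' β A) = vco M w + vco M w' := by
  apply LinearMap.ext
  intro v
  rw [LinearMap.add_apply, LS839.vco_add]

theorem vco_rsmul (M : FermionRep N F) (r : ℝ) (w : Fin 16 → Fin (N ^ 2 - 1) → ℝ) :
    vco M (fun β A => r * w β A) = r • vco M w := by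
  apply LinearMap.ext
  intro v
  rw [LinearMap.smul_apply, vco_apply, vco_apply]
  simp only [Finset.smul_sum]
  refine Finset.sum_congr rfl fun A _ => Finset.sum_congr rfl fun β _ => ?_
  rw [Complex.ofReal_mul, mul_smul]
  exact Complex.coe_smul _ _

theorem wb_smul_left (b : ColorBasis N) (G : GammaNine) (α β : Fin 16) (A : Fin (N ^ 2 - 1))
    (r : ℝ) (x y : Cfg N) : wb b G α β A (r • x) y = r * wb b G α β A x y := by
  unfold wb
  simp only [Finset.mul_sum]
  refine Finset.sum_congr rfl fun B _ => Finset.sum_congr rfl fun C _ =>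
    Finset.sum_congr rfl fun i _ => Finset.sum_congr rfl fun j _ => ?_
  have : (r • x) (i, B) = r * x (i, B) := rfl
  rw [this]
  ring

theorem wb_smul_right (b : ColorBasis N) (G : GammaNine) (α β : Fin 16) (A : Fin (N ^ 2 - 1))
    (r : ℝ) (x y : Cfg N) : wb b G α β A x (r • y) = r * wb b G α β A x y := by
  rw [wb_symm, wb_smul_left, wb_symm]

theorem wl_smul (G : GammaNine) (α β : Fin 16) (A : Fin (N ^ 2 - 1)) (r : ℝ) (x : Cfg N) :
    wl G α β A (r • x) = r * wl G α β A x := by
  unfold wl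
  rw [Finset.mul_sum]
  refine Finset.sum_congr rfl fun j _ => ?_
  have : (r • x) (j, A) = r * x (j, A) := rfl
  rw [this]
  ring

/-! ## The linear maps -/

/-- `Θ_α` as a linear map. -/
def ThL (M : FermionRep N F) (G : GammaNine) (α : Fin 16) : Cfg N →ₗ[ℝ] (F →ₗ[ℂ] F) where
  toFun := Theta M G α
  map_add' := Theta_add M G α
  map_smul' r e := by
    rw [Theta_smul]
    apply LinearMap.ext
    intro f
    exact Complex.coe_smul _ _

theorem ThL_apply (M : FermionRep N F) (G : GammaNine) (α : Fin 16) (e : Cfg N) :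
    ThL M G α e = Theta M G α e := rfl

/-- polarised quadratic potential -/
def WqL (b : ColorBasis N) (M : FermionRep N F) (G : GammaNine) (α : Fin 16) :
    Cfg N →ₗ[ℝ] Cfg N →ₗ[ℝ] (F →ₗ[ℂ] F) :=
  LinearMap.mk₂ ℝ (fun x y => vco M (fun β A => wb b G α β A x y))
    (fun x x' y => by
      rw [← vco_ladd]
      congr 1
      funext β A
      exact wb_add_left b G α β A x x' y)
    (fun r x y => by
      rw [← vco_rsmul]
      congr 1
      funext β A
      exact wb_smul_left b G α β A r x y)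
    (fun x y y' => by
      rw [← vco_ladd]
      congr 1
      funext β A
      exact wb_add_right b G α β A x y y')
    (fun r x y => by
      rw [← vco_rsmul]
      congr 1
      funext β A
      exact wb_smul_right b G α β A r x y)

theorem WqL_apply (b : ColorBasis N) (M : FermionRep N F) (G : GammaNine) (α : Fin 16)
    (x y : Cfg N) : WqL b M G α x y = vco M (fun β A => wb b G α β A x y) := rfl

/-- mass potential -/
def WlL (M : FermionRep N F) (G : GammaNine) (α : Fin 16) : Cfg N →ₗ[ℝ] (F →ₗ[ℂ] F) where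
  toFun x := vco M (fun β A => wl G α β A x)
  map_add' x y := by
    rw [← vco_ladd]
    congr 1
    funext β A
    exact wl_add G α β A x y
  map_smul' r x := by
    rw [RingHom.id_apply, ← vco_rsmul]
    congr 1
    funext β A
    exact wl_smul G α β A r x


/-- `Bop` of 406 as a real linear map -/
def BfL (b : ColorBasis N) (M : FermionRep N F) : Colg N →ₗ[ℝ] (F →ₗ[ℝ] F) where
  toFun w := ((Lift406.Bop b M w.ofLp : F →L[ℂ] F) : F →ₗ[ℂ] F).restrictScalars ℝ
  map_add' u v := by
    apply LinearMap.ext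
    intro f
    have h := congrArg (fun T : F →L[ℂ] F => T f) (Lift406.Bop_add b M u.ofLp v.ofLp)
    exact h
  map_smul' r u := by
    apply LinearMap.ext
    intro f
    have h := congrArg (fun T : F →L[ℂ] F => T f) (Lift406.Bop_smul b M r u.ofLp)
    exact h


theorem BfL_skew (b : ColorBasis N) (M : FermionRep N F) (w : Colg N) (f f' : F) :
    ⟪BfL b M w f, f'⟫_ℂ = - ⟪f, BfL b M w f'⟫_ℂ := Lift406.Bop_skew b M w.ofLp f f'

/-! ## Symmetry, continuity -/

theorem ThL_symm (M : FermionRep N F) (G : GammaNine) (α : Fin 16) (e : Cfg N) :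
    (ThL M G α e).IsSymmetric := Theta_symm M G α e



/-- `Wq x y = Wq y x`. -/
theorem WqL_comm (b : ColorBasis N) (M : FermionRep N F) (G : GammaNine) (α : Fin 16)
    (x y : Cfg N) : WqL b M G α x y = WqL b M G α y x := by
  rw [WqL_apply, WqL_apply]
  congr 1
  funext β A
  exact wb_symm b G α β A x y

/-- **The potential.** -/
theorem Wp_lit (b : ColorBasis N) (M : FermionRep N F) (G : GammaNine) (g m : ℝ) (α : Fin 16)
    (x : Cfg N) : Wp (WqL b M G α) (WlL M G α) g m x =
      vco M (fun β A => wpot b G g m α β A x) := by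
  have h1 : (fun (β : Fin 16) (A : Fin (N ^ 2 - 1)) => wpot b G g m α β A x) =
      fun β A => g * wb b G α β A x x + (-m) * wl G α β A x := by
    funext β A
    rw [wpot_wb]
    ring
  rw [h1, vco_ladd M (fun β A => g * wb b G α β A x x) (fun β A => (-m) * wl G α β A x),
    vco_rsmul, vco_rsmul, neg_smul, ← sub_eq_add_neg]
  rfl

theorem Wp_isSymm (b : ColorBasis N) (M : FermionRep N F) (G : GammaNine) (g m : ℝ)
    (α : Fin 16) (x : Cfg N) : (Wp (WqL b M G α) (WlL M G α) g m x).IsSymmetric := by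
  rw [Wp_lit]
  exact vco_symm M _

theorem continuous_wb (b : ColorBasis N) (G : GammaNine) (α β : Fin 16) (A : Fin (N ^ 2 - 1)) :
    Continuous fun x : Cfg N × Cfg N => wb b G α β A x.1 x.2 := by
  unfold wb
  fun_prop

theorem continuous_wl (G : GammaNine) (α β : Fin 16) (A : Fin (N ^ 2 - 1)) :
    Continuous fun x : Cfg N => wl G α β A x := by
  unfold wl
  fun_prop

theorem continuous_vco {X : Type*} [TopologicalSpace X] (M : FermionRep N F)
    {w : X → Fin 16 → Fin (N ^ 2 - 1) → ℝ} (hw : ∀ β A, Continuous fun x => w x β A)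
    {f : X → F} (hf : Continuous f) : Continuous fun x => vco M (w x) (f x) := by
  simp only [vco_apply]
  refine continuous_finsetSum _ fun A _ => continuous_finsetSum _ fun β _ => ?_
  have h1 : Continuous fun x => ((w x β A : ℝ) : ℂ) := Complex.continuous_ofReal.comp (hw β A)
  exact h1.smul ((M.θ β A).continuous_of_finiteDimensional.comp hf)

theorem continuous_WqL {X : Type*} [TopologicalSpace X] (b : ColorBasis N) (M : FermionRep N F)
    (G : GammaNine) (α : Fin 16) {x y : X → Cfg N} {f : X → F} (hx : Continuous x)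
    (hy : Continuous y) (hf : Continuous f) :
    Continuous fun s => WqL b M G α (x s) (y s) (f s) :=
  continuous_vco M (fun β A => (continuous_wb b G α β A).comp (hx.prodMk hy)) hf

theorem continuous_WlL {X : Type*} [TopologicalSpace X] (M : FermionRep N F)
    (G : GammaNine) (α : Fin 16) {x : X → Cfg N} {f : X → F} (hx : Continuous x)
    (hf : Continuous f) : Continuous fun s => WlL M G α (x s) (f s) :=
  continuous_vco M (fun β A => (continuous_wl G α β A).comp hx) hf

/-- hypothesis `hWc` of `pairingP` -/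
theorem continuous_Wp (b : ColorBasis N) (M : FermionRep N F) (G : GammaNine) (g m : ℝ)
    (α : Fin 16) (v : F) : Continuous fun x : Cfg N => Wp (WqL b M G α) (WlL M G α) g m x v := by
  simp only [Wp_apply]
  exact ((continuous_WqL b M G α continuous_id continuous_id continuous_const).const_smul g).sub
    ((continuous_WlL M G α continuous_id continuous_const).const_smul m)


/-! ## The decomposition -/


/-! ## Bounds -/

theorem wl_bound_one (G : GammaNine) (α β : Fin 16) (A : Fin (N ^ 2 - 1)) :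
    ∃ C : ℝ, 0 ≤ C ∧ ∀ z : Cfg N, |wl G α β A z| ≤ C * ‖z‖ := by
  refine ⟨∑ j, |cc j * (Gam G * G.γ j) α β|, Finset.sum_nonneg fun j _ => abs_nonneg _,
    fun z => ?_⟩
  unfold wl
  rw [Finset.sum_mul]
  refine (Finset.abs_sum_le_sum_abs _ _).trans (Finset.sum_le_sum fun j _ => ?_)
  have e : cc j * z (j, A) * (Gam G * G.γ j) α β =
      (cc j * (Gam G * G.γ j) α β) * z (j, A) := by ring
  rw [e, abs_mul]
  exact mul_le_mul_of_nonneg_left (PiLp.norm_apply_le z (j, A)) (abs_nonneg _)

theorem exists_wl_bound (G : GammaNine) :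
    ∃ C : ℝ, 0 ≤ C ∧ ∀ (α β : Fin 16) (A : Fin (N ^ 2 - 1)) (z : Cfg N),
      |wl G α β A z| ≤ C * ‖z‖ := by
  choose C hC h using fun (q : Fin 16 × Fin 16 × Fin (N ^ 2 - 1)) =>
    wl_bound_one (N := N) G q.1 q.2.1 q.2.2
  refine ⟨∑ q, C q, Finset.sum_nonneg fun q _ => hC q, fun α β A z => ?_⟩
  refine (h (α, β, A) z).trans (mul_le_mul_of_nonneg_right ?_ (norm_nonneg _))
  exact Finset.single_le_sum (f := fun q => C q) (fun q _ => hC q)
    (Finset.mem_univ ((α, β, A) : Fin 16 × Fin 16 × Fin (N ^ 2 - 1)))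

theorem exists_BfL_bound (b : ColorBasis N) (M : FermionRep N F) :
    ∃ C : ℝ, 0 ≤ C ∧ ∀ (w : Colg N) (f : F), ‖BfL b M w f‖ ≤ C * ‖w‖ * ‖f‖ := by
  refine ⟨‖BfC (BfL b M)‖, ContinuousLinearMap.opNorm_nonneg _, fun w f => ?_⟩
  exact (BfC (BfL b M)).le_opNorm₂ w f

/-- **One constant for all data.** -/
theorem exists_bounds (b : ColorBasis N) (M : FermionRep N F) (G : GammaNine) :
    ∃ C : ℝ, 0 < C ∧ (∀ α e f, ‖ThL M G α e f‖ ≤ C * ‖e‖ * ‖f‖) ∧
      (∀ α x y f, ‖WqL b M G α x y f‖ ≤ C * ‖x‖ * ‖y‖ * ‖f‖) ∧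
      (∀ α x f, ‖WlL M G α x f‖ ≤ C * ‖x‖ * ‖f‖) ∧
      (∀ w f, ‖BfL b M w f‖ ≤ C * ‖w‖ * ‖f‖) := by
  obtain ⟨C1, h1, hT⟩ := exists_Theta_bound M G
  obtain ⟨C2, h2, hV⟩ := exists_vco_bound M
  obtain ⟨C3, h3, hW⟩ := exists_wb_bound b G
  obtain ⟨C4, h4, hL⟩ := exists_wl_bound (N := N) G
  obtain ⟨C5, h5, hB⟩ := exists_BfL_bound b M
  have k1 : C1 ≤ C1 + C2 * C3 + C2 * C4 + C5 + 1 := by
    have := mul_nonneg h2 h3
    have := mul_nonneg h2 h4
    linarith
  have k2 : C2 * C3 ≤ C1 + C2 * C3 + C2 * C4 + C5 + 1 := by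
    have := mul_nonneg h2 h4
    linarith
  have k3 : C2 * C4 ≤ C1 + C2 * C3 + C2 * C4 + C5 + 1 := by
    have := mul_nonneg h2 h3
    linarith
  have k4 : C5 ≤ C1 + C2 * C3 + C2 * C4 + C5 + 1 := by
    have := mul_nonneg h2 h3
    have := mul_nonneg h2 h4
    linarith
  refine ⟨C1 + C2 * C3 + C2 * C4 + C5 + 1, by positivity, fun α e f => ?_, fun α x y f => ?_,
    fun α x f => ?_, fun w f => ?_⟩
  · exact (hT α e f).trans (by gcongr)
  · refine (hV _ (C3 * ‖x‖ * ‖y‖) f fun β A => hW _ _ _ _ _).trans ?_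
    calc C2 * (C3 * ‖x‖ * ‖y‖) * ‖f‖ = (C2 * C3) * ‖x‖ * ‖y‖ * ‖f‖ := by ring
      _ ≤ _ := by gcongr
  · refine (hV _ (C4 * ‖x‖) f fun β A => hL _ _ _ _).trans ?_
    calc C2 * (C4 * ‖x‖) * ‖f‖ = (C2 * C4) * ‖x‖ * ‖f‖ := by ring
      _ ≤ _ := by gcongr
  · exact (hB w f).trans (by gcongr)

/-! ## Parities -/

/-- The parity of `kᗮ` (structure of `exists_par`). -/
structure Par (b : ColorBasis N) (M : FermionRep N F) (c : Cfg N) (Γ : F →ₗ[ℂ] F) : Prop where
  even : ∀ L ∈ Od M (kc (actB b) c), ∀ f, Γ (L f) = L (Γ f)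
  odd : ∀ L ∈ Od M (kc (actB b) c)ᗮ, ∀ f, Γ (L f) = - L (Γ f)
  inv : ∀ f, Γ (Γ f) = f
  unit : ∀ f f', ⟪Γ f, Γ f'⟫_ℂ = ⟪f, f'⟫_ℂ
  symm : ∀ f f', ⟪Γ f, f'⟫_ℂ = ⟪f, Γ f'⟫_ℂ
  norm : ∀ f, ‖Γ f‖ = ‖f‖


variable {b : ColorBasis N} {M : FermionRep N F} {c : Cfg N} {Γ : F →ₗ[ℂ] F}

theorem Par.ThU (h : Par b M c Γ) (G : GammaNine) (α : Fin 16) {e : Cfg N} (he : e ∈ Uk b c)
    (f : F) : Γ (ThL M G α e f) = ThL M G α e (Γ f) := h.even _ (Theta_mem M G α he) f

theorem Par.ThM (h : Par b M c Γ) (G : GammaNine) (α : Fin 16) {e : Cfg N} (he : e ∈ Mm b c)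
    (f : F) : Γ (ThL M G α e f) = - ThL M G α e (Γ f) := h.odd _ (Theta_mem M G α he) f

theorem Par.ThT (h : Par b M c Γ) (G : GammaNine) (α : Fin 16) (t : Tn (actB b) c)
    (f : F) : Γ (ThL M G α t f) = - ThL M G α t (Γ f) := h.ThM G α (Tn_le_Mm t.2) f

theorem Par.ThZ (h : Par b M c Γ) (G : GammaNine) (α : Fin 16) (z : Zs b c)
    (f : F) : Γ (ThL M G α z f) = - ThL M G α z (Γ f) := h.ThM G α z.2.1 f


theorem Par.WqM (h : Par b M c Γ) (G : GammaNine) (α : Fin 16) {x y : Cfg N} (hx : x ∈ Uk b c)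
    (hy : y ∈ Mm b c) (f : F) : Γ (WqL b M G α x y f) = - WqL b M G α x y (Γ f) :=
  h.odd _ (vco_mem M fun β => wbv_mem_m G α β hx hy) f


theorem Par.WlM (h : Par b M c Γ) (G : GammaNine) (α : Fin 16) {x : Cfg N} (hx : x ∈ Mm b c)
    (f : F) : Γ (WlL M G α x f) = - WlL M G α x (Γ f) :=
  h.odd _ (vco_mem M fun β => wlv_mem G α β hx) f

/-! ## The charge, infinitesimal equivariance -/

/-- `kin` in any orthonormal basis and the potential: `chg = dcharge`. -/
theorem chg_lit {σ : Type*} [Fintype σ] (b : ColorBasis N) (M : FermionRep N F) (G : GammaNine)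
    (g m : ℝ) (α : Fin 16) (e : OrthonormalBasis σ ℝ (Cfg N)) (φ : Cfg N → F) (x : Cfg N) :
    chg (ThL M G α) (Wp (WqL b M G α) (WlL M G α) g m) e φ x = dcharge b M G g m α φ x := by
  unfold chg dcharge
  rw [kin_basis e M G α φ x, Wp_lit, vco_apply, Finset.smul_sum]
  rfl

theorem actB_eq_brC (b : ColorBasis N) (w : Colg N) (x : Cfg N) :
    actB b w x = Lift406.brC b w.ofLp x := (SlE944.brC_eq_brx b w.ofLp x).symm

/-- **Infinitesimal equivariance.** -/
theorem infEq [Nontrivial F] (R : GaugeAction b M) {φ : Cfg N → F}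
    (hφ : ∀ g x, φ (b.act g x) = R.ρ g (φ x)) {x : Cfg N} (hd : DifferentiableAt ℝ φ x) :
    InfEq (actB b) (BfL b M) φ x := by
  intro w
  rw [actB_eq_brC]
  exact Lift406.fderiv_equivariant R φ hφ w.ofLp x hd

theorem infEq_core [Nontrivial F] (R : GaugeAction b M) {φ : Cfg N → F}
    (hφ : IsCoreVec b R φ) (x : Cfg N) : InfEq (actB b) (BfL b M) φ x :=
  infEq R hφ.2.2 ((core_differentiable hφ) x)

end Crest.Agent.R330.PairL_862

end
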