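import Mathlib

-- ▼ part R330/SqrtPD_984
section

/-!
Smooth dependence of positive square roots, polar signs and complex structures on parameters, for
operators of a finite-dimensional real inner product space.
-/

set_option autoImplicit false
set_option linter.unusedSectionVars false
set_option linter.deprecated false

namespace Crest.Agent.R330.SqrtPD984

open Topology Filter
open scoped InnerProductSpace ContDiff

variable {Z : Type*} [NormedAddCommGroup Z] [InnerProductSpace ℝ Z] [FiniteDimensional ℝ Z]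

/-- symmetric operator -/
def Sy (T : Z →L[ℝ] Z) : Prop := ∀ v w, ⟪T v, w⟫_ℝ = ⟪v, T w⟫_ℝ

/-- positive definite symmetric operator -/
def PD (T : Z →L[ℝ] Z) : Prop := Sy T ∧ ∀ v, v ≠ 0 → 0 < ⟪T v, v⟫_ℝ

/-- positive semidefinite symmetric operator -/
def PS (T : Z →L[ℝ] Z) : Prop := Sy T ∧ ∀ v, 0 ≤ ⟪T v, v⟫_ℝ

theorem PD.ps {T : Z →L[ℝ] Z} (h : PD T) : PS T := by
  refine ⟨h.1, fun v => ?_⟩
  by_cases hv : v = 0
  · simp [hv]
  · exact (h.2 v hv).le

theorem Sy.isSymm {T : Z →L[ℝ] Z} (h : Sy T) : (T : Z →ₗ[ℝ] Z).IsSymmetric := fun v w => h v w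

/-- the eigenvector expansion of a symmetric operator -/
theorem Sy.exists_basis {T : Z →L[ℝ] Z} (h : Sy T) :
    ∃ (n : ℕ) (e : OrthonormalBasis (Fin n) ℝ Z) (l : Fin n → ℝ), ∀ i, T (e i) = l i • e i := by
  refine ⟨Module.finrank ℝ Z, h.isSymm.eigenvectorBasis rfl, h.isSymm.eigenvalues rfl, fun i => ?_⟩
  exact h.isSymm.apply_eigenvectorBasis rfl i

/-- if `S` is positive definite and `T` is positive semidefinite then `S D + D T = 0` only for
`D = 0` -/
theorem sylvester_inj {S T : Z →L[ℝ] Z} (hS : PD S) (hT : PS T) {D : Z →L[ℝ] Z}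
    (h : ∀ v, S (D v) + D (T v) = 0) : D = 0 := by
  obtain ⟨n, e, l, hl⟩ := hT.1.exists_basis
  have h0 : ∀ i, D (e i) = 0 := by
    intro i
    by_contra hne
    have h1 := hS.2 (D (e i)) hne
    have h2 := h (e i)
    rw [hl i, map_smul] at h2
    have h3 : S (D (e i)) = -(l i • D (e i)) := eq_neg_of_add_eq_zero_left h2
    rw [h3, inner_neg_left, real_inner_smul_left] at h1
    have h4 : 0 ≤ l i := by
      have := hT.2 (e i)
      rw [hl i, real_inner_smul_left, real_inner_self_eq_norm_sq] at this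
      have h5 : ‖e i‖ = 1 := e.norm_eq_one i
      rw [h5] at this; linarith
    have h6 : 0 ≤ ⟪D (e i), D (e i)⟫_ℝ := real_inner_self_nonneg
    nlinarith
  have h1 : (D : Z →ₗ[ℝ] Z) = 0 := by
    apply e.toBasis.ext
    intro i
    simpa using h0 i
  ext v
  have := congrArg (fun f : Z →ₗ[ℝ] Z => f v) h1
  simpa using this

/-- uniqueness of positive square roots (one of them positive definite) -/
theorem sqrt_unique {S T : Z →L[ℝ] Z} (hS : PD S) (hT : PS T) (h : S * S = T * T) : S = T := by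
  have h1 : S - T = 0 := by
    apply sylvester_inj hS hT
    intro v
    have h2 : (S * S) v = (T * T) v := by rw [h]
    simp only [ContinuousLinearMap.mul_apply] at h2
    simp only [ContinuousLinearMap.sub_apply, map_sub]
    rw [h2]; abel
  exact sub_eq_zero.mp h1

open Classical in
/-- the positive square root of a positive semidefinite operator (junk `0` otherwise) -/
noncomputable def psq (T : Z →L[ℝ] Z) : Z →L[ℝ] Z :=
  if h : ∃ S : Z →L[ℝ] Z, PS S ∧ S * S = T then h.choose else 0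

theorem exists_sqrt {T : Z →L[ℝ] Z} (hT : PS T) : ∃ S : Z →L[ℝ] Z, PS S ∧ S * S = T := by
  obtain ⟨n, e, l, hl⟩ := hT.1.exists_basis
  have hl0 : ∀ i, 0 ≤ l i := by
    intro i
    have := hT.2 (e i)
    rw [hl i, real_inner_smul_left, real_inner_self_eq_norm_sq] at this
    have h5 : ‖e i‖ = 1 := e.norm_eq_one i
    rw [h5] at this; linarith
  set S : Z →L[ℝ] Z := ∑ i, (Real.sqrt (l i)) • (innerSL ℝ (e i)).smulRight (e i) with hSdef
  have hSv : ∀ v, S v = ∑ i, (Real.sqrt (l i) * ⟪e i, v⟫_ℝ) • e i := by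
    intro v
    simp [hSdef, ContinuousLinearMap.sum_apply, smul_smul]
  have hSe : ∀ i, S (e i) = Real.sqrt (l i) • e i := by
    intro i
    rw [hSv]
    rw [Finset.sum_eq_single i]
    · rw [real_inner_self_eq_norm_sq, e.norm_eq_one i]; simp
    · intro j _ hj
      have : ⟪e j, e i⟫_ℝ = 0 := e.orthonormal.2 hj
      rw [this]; simp
    · intro h; exact absurd (Finset.mem_univ i) h
  refine ⟨S, ⟨?_, ?_⟩, ?_⟩
  · intro v w
    rw [hSv v, hSv w, sum_inner, inner_sum]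
    refine Finset.sum_congr rfl fun i _ => ?_
    rw [real_inner_smul_left, real_inner_smul_right, real_inner_comm v (e i)]; ring
  · intro v
    rw [hSv v, sum_inner]
    refine Finset.sum_nonneg fun i _ => ?_
    rw [real_inner_smul_left]
    have := mul_nonneg (Real.sqrt_nonneg (l i)) (mul_self_nonneg ⟪e i, v⟫_ℝ)
    linarith [mul_assoc (Real.sqrt (l i)) ⟪e i, v⟫_ℝ ⟪e i, v⟫_ℝ]
  · have h1 : ((S * S : Z →L[ℝ] Z) : Z →ₗ[ℝ] Z) = (T : Z →ₗ[ℝ] Z) := by
      apply e.toBasis.ext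
      intro i
      simp only [OrthonormalBasis.coe_toBasis, ContinuousLinearMap.coe_coe,
        ContinuousLinearMap.mul_apply]
      rw [hSe i, map_smul, hSe i, smul_smul, Real.mul_self_sqrt (hl0 i), hl i]
    ext v
    have := congrArg (fun f : Z →ₗ[ℝ] Z => f v) h1
    simpa using this

theorem psq_ps {T : Z →L[ℝ] Z} (hT : PS T) : PS (psq T) := by
  have h := exists_sqrt hT
  rw [psq, dif_pos h]; exact h.choose_spec.1

theorem psq_mul_self {T : Z →L[ℝ] Z} (hT : PS T) : psq T * psq T = T := by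
  have h := exists_sqrt hT
  rw [psq, dif_pos h]; exact h.choose_spec.2

theorem psq_apply_apply {T : Z →L[ℝ] Z} (hT : PS T) (v : Z) : psq T (psq T v) = T v := by
  have := psq_mul_self hT
  calc psq T (psq T v) = (psq T * psq T) v := rfl
    _ = T v := by rw [this]

theorem norm_psq_sq {T : Z →L[ℝ] Z} (hT : PS T) (v : Z) : ‖psq T v‖ ^ 2 = ⟪T v, v⟫_ℝ := by
  rw [← real_inner_self_eq_norm_sq, (psq_ps hT).1, psq_apply_apply hT, real_inner_comm]

theorem psq_pd {T : Z →L[ℝ] Z} (hT : PD T) : PD (psq T) := by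
  refine ⟨(psq_ps hT.ps).1, fun v hv => ?_⟩
  -- the square root has trivial kernel and is positive semidefinite
  have hSps := psq_ps hT.ps
  generalize hS : psq T = S at hSps ⊢
  rcases (hSps.2 v).lt_or_eq with h | h
  · exact h
  · exfalso
    -- `⟪S v, v⟫ = 0` forces `S v = 0`
    obtain ⟨R, hR, hRR⟩ := exists_sqrt hSps
    have h1 : ‖R v‖ ^ 2 = 0 := by
      have : ⟪S v, v⟫_ℝ = ‖R v‖ ^ 2 := by
        rw [← real_inner_self_eq_norm_sq, ← hRR]
        show ⟪R (R v), v⟫_ℝ = ⟪R v, R v⟫_ℝ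
        rw [hR.1]
      rw [← this]; exact h.symm
    have h2 : R v = 0 := by
      have := pow_eq_zero_iff (n := 2) (by norm_num) |>.mp h1
      exact norm_eq_zero.mp this
    have h3 : S v = 0 := by
      rw [← hRR]; show R (R v) = 0; rw [h2, map_zero]
    have h4 : T v = 0 := by
      rw [← psq_apply_apply hT.ps v, hS, h3, map_zero]
    have h5 := hT.2 v hv
    rw [h4, inner_zero_left] at h5
    exact lt_irrefl _ h5

theorem psq_eq {S T : Z →L[ℝ] Z} (hS : PD S) (h : S * S = T) (hT : PS T) : psq T = S := by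
  symm
  apply sqrt_unique hS (psq_ps hT)
  rw [h, psq_mul_self hT]

/-! ### smoothness -/

/-- the Sylvester operator `X ↦ S X + X S` -/
noncomputable def syl (S : Z →L[ℝ] Z) : (Z →L[ℝ] Z) →L[ℝ] (Z →L[ℝ] Z) :=
  ContinuousLinearMap.mul ℝ (Z →L[ℝ] Z) S + (ContinuousLinearMap.mul ℝ (Z →L[ℝ] Z)).flip S

theorem syl_apply (S X : Z →L[ℝ] Z) : syl S X = S * X + X * S := rfl

theorem syl_injective {S : Z →L[ℝ] Z} (hS : PD S) : Function.Injective (syl S) := by
  rw [injective_iff_map_eq_zero]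
  intro X hX
  apply sylvester_inj hS hS.ps
  intro v
  have := congrArg (fun f : Z →L[ℝ] Z => f v) hX
  simpa [syl_apply] using this

/-- the Sylvester operator as an equivalence -/
noncomputable def sylE {S : Z →L[ℝ] Z} (hS : PD S) : (Z →L[ℝ] Z) ≃L[ℝ] (Z →L[ℝ] Z) :=
  (LinearEquiv.ofInjectiveEndo (syl S : (Z →L[ℝ] Z) →ₗ[ℝ] (Z →L[ℝ] Z))
    (syl_injective hS)).toContinuousLinearEquiv


theorem hasFDerivAt_sq (S : Z →L[ℝ] Z) : HasFDerivAt (fun X : Z →L[ℝ] Z => X * X) (syl S) S := by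
  have h := (hasFDerivAt_id (𝕜 := ℝ) S).mul' (hasFDerivAt_id (𝕜 := ℝ) S)
  refine h.congr_fderiv ?_
  ext X v
  simp [syl_apply]

/-- positivity is stable: near a positive definite symmetric operator, symmetric operators are
positive definite -/
theorem PD.eventually {S : Z →L[ℝ] Z} (hS : PD S) : ∀ᶠ X in 𝓝 S, Sy X → PD X := by
  obtain ⟨n, e, l, hl⟩ := hS.1.exists_basis
  have hlp : ∀ i, 0 < l i := by
    intro i
    have hne : e i ≠ 0 := by
      intro h; have := e.norm_eq_one i; rw [h] at this; simp at this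
    have := hS.2 (e i) hne
    rw [hl i, real_inner_smul_left, real_inner_self_eq_norm_sq, e.norm_eq_one i] at this
    linarith
  obtain ⟨c, hc, hcl⟩ : ∃ c : ℝ, 0 < c ∧ ∀ i, c ≤ l i := by
    rcases isEmpty_or_nonempty (Fin n) with hn | hn
    · exact ⟨1, one_pos, fun i => (hn.false i).elim⟩
    · obtain ⟨i0, hi0⟩ := Finite.exists_min l
      exact ⟨l i0, hlp i0, hi0⟩
  have hlow : ∀ v, c * ‖v‖ ^ 2 ≤ ⟪S v, v⟫_ℝ := by
    intro v
    have h1 : ⟪S v, v⟫_ℝ = ∑ i, l i * ⟪e i, v⟫_ℝ ^ 2 := by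
      rw [← e.sum_inner_mul_inner (S v) v]
      refine Finset.sum_congr rfl fun i _ => ?_
      rw [hS.1, hl i, real_inner_smul_right, real_inner_comm v (e i)]; ring
    rw [h1, ← e.sum_sq_norm_inner_right v, Finset.mul_sum]
    refine Finset.sum_le_sum fun i _ => ?_
    rw [Real.norm_eq_abs, sq_abs]
    exact mul_le_mul_of_nonneg_right (hcl i) (sq_nonneg _)
  filter_upwards [Metric.ball_mem_nhds S hc] with X hX hXs
  refine ⟨hXs, fun v hv => ?_⟩
  have h1 : ‖X - S‖ < c := by simpa [dist_eq_norm] using hX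
  have h2 : ⟪X v, v⟫_ℝ = ⟪S v, v⟫_ℝ + ⟪(X - S) v, v⟫_ℝ := by
    rw [ContinuousLinearMap.sub_apply, inner_sub_left]; ring
  have h3 : |⟪(X - S) v, v⟫_ℝ| ≤ ‖X - S‖ * ‖v‖ ^ 2 := by
    calc |⟪(X - S) v, v⟫_ℝ| ≤ ‖(X - S) v‖ * ‖v‖ := abs_real_inner_le_norm _ _
      _ ≤ (‖X - S‖ * ‖v‖) * ‖v‖ := by gcongr; exact (X - S).le_opNorm v
      _ = ‖X - S‖ * ‖v‖ ^ 2 := by ring
  have h4 : 0 < ‖v‖ ^ 2 := by positivity
  have h5 := abs_le.mp h3
  have h6 := hlow v
  nlinarith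

theorem adj_mul_self_eq {X : Z →L[ℝ] Z} :
    ContinuousLinearMap.adjoint (X * X) = ContinuousLinearMap.adjoint X * ContinuousLinearMap.adjoint X :=
  ContinuousLinearMap.adjoint_comp X X

theorem sy_iff {X : Z →L[ℝ] Z} : Sy X ↔ ContinuousLinearMap.adjoint X = X := by
  constructor
  · intro h
    refine (ContinuousLinearMap.eq_adjoint_iff X X).mpr ?_ |>.symm
    intro v w; exact h v w
  · intro h v w
    conv_rhs => rw [← h]
    rw [ContinuousLinearMap.adjoint_inner_right]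

/-- smooth local square root -/
theorem exists_local_sqrt {m : WithTop ℕ∞} (hm : m ≠ 0) {T : Z →L[ℝ] Z} (hT : PD T) :
    ∃ r : (Z →L[ℝ] Z) → (Z →L[ℝ] Z), ContDiffAt ℝ m r T ∧
      ∀ᶠ X in 𝓝 T, Sy X → PD X ∧ r X = psq X := by
  have hS := psq_pd hT
  set S := psq T with hSdef
  have hSS : S * S = T := psq_mul_self hT.ps
  set f : (Z →L[ℝ] Z) → (Z →L[ℝ] Z) := fun X => X * X with hf
  have hcd : ContDiffAt ℝ m f S := contDiffAt_id.mul contDiffAt_id
  have hder : HasFDerivAt f (sylE hS : (Z →L[ℝ] Z) →L[ℝ] (Z →L[ℝ] Z)) S := by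
    have := hasFDerivAt_sq S
    refine this.congr_fderiv ?_
    ext X v; rfl
  refine ⟨hcd.localInverse hder hm, ?_, ?_⟩
  · have := hcd.to_localInverse hder hm
    rwa [show f S = T from hSS] at this
  · have hst : HasStrictFDerivAt f (sylE hS : (Z →L[ℝ] Z) →L[ℝ] (Z →L[ℝ] Z)) S :=
      hcd.hasStrictFDerivAt' hder hm
    have hr0 : hcd.localInverse hder hm T = S := by
      have := hcd.localInverse_apply_image hder hm
      rwa [show f S = T from hSS] at this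
    have hrc : ContinuousAt (hcd.localInverse hder hm) T := by
      have := (hcd.to_localInverse hder hm).continuousAt
      rwa [show f S = T from hSS] at this
    have hright : ∀ᶠ X in 𝓝 T, f (hcd.localInverse hder hm X) = X := by
      have := hst.eventually_right_inverse
      rwa [show f S = T from hSS] at this
    have hleft : ∀ᶠ Y in 𝓝 S, hcd.localInverse hder hm (f Y) = Y :=
      hst.eventually_left_inverse
    -- adjoint of the root is near `S`
    have hadj : Tendsto (fun X => ContinuousLinearMap.adjoint (hcd.localInverse hder hm X))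
        (𝓝 T) (𝓝 S) := by
      have h1 : Tendsto (fun Y : Z →L[ℝ] Z => ContinuousLinearMap.adjoint Y) (𝓝 S)
          (𝓝 (ContinuousLinearMap.adjoint S)) :=
        (ContinuousLinearMap.adjoint (𝕜 := ℝ) (E := Z) (F := Z)).continuous.continuousAt
      rw [sy_iff.mp hS.1] at h1
      have h2 : Tendsto (hcd.localInverse hder hm) (𝓝 T) (𝓝 S) := by
        have := hrc.tendsto; rwa [hr0] at this
      exact h1.comp h2
    have hrT : Tendsto (hcd.localInverse hder hm) (𝓝 T) (𝓝 S) := by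
      have := hrc.tendsto; rwa [hr0] at this
    filter_upwards [hT.eventually, hright, hadj.eventually hleft, hrT.eventually hleft,
      hrT.eventually hS.eventually] with X h1 h2 h3 h4 h5 hX
    have hPD := h1 hX
    refine ⟨hPD, ?_⟩
    have h6 : f (ContinuousLinearMap.adjoint (hcd.localInverse hder hm X)) = X := by
      show _ * _ = X
      rw [← adj_mul_self_eq]
      have : hcd.localInverse hder hm X * hcd.localInverse hder hm X = X := h2
      rw [this, sy_iff.mp hX]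
    have h7 : ContinuousLinearMap.adjoint (hcd.localInverse hder hm X) =
        hcd.localInverse hder hm X := by
      rw [← h3, h6]
    have h8 : PD (hcd.localInverse hder hm X) := h5 (sy_iff.mpr h7)
    exact (psq_eq h8 h2 hPD.ps).symm

/-- the positive square root depends smoothly on parameters -/
theorem contDiffAt_psq {P : Type*} [NormedAddCommGroup P] [NormedSpace ℝ P] {m : WithTop ℕ∞}
    (hm : m ≠ 0) {K : P → (Z →L[ℝ] Z)} {b : P} (hK : ContDiffAt ℝ m K b)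
    (hs : ∀ᶠ b' in 𝓝 b, Sy (K b')) (hp : PD (K b)) : ContDiffAt ℝ m (fun b' => psq (K b')) b := by
  obtain ⟨r, hr, hr2⟩ := exists_local_sqrt hm hp
  have h1 : ContDiffAt ℝ m (fun b' => r (K b')) b := hr.comp b hK
  refine h1.congr_of_eventuallyEq ?_
  filter_upwards [hK.continuousAt.eventually hr2, hs] with b' h2 h3
  exact (h2 h3).2.symm

end Crest.Agent.R330.SqrtPD984
end

-- ▼ part R330/GPar_984

/-!
Parameter dependent Gaussian `G g A z = (g/π)^(d/4) |det A^(1/2)|^(1/2) exp(-(g/2)⟨A z, z⟩)` on a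
finite-dimensional real inner product space `Z` (the bosonic factor of the heavy vacuum): it is
normalised in `L²(dz)`, smooth in the parameter, with moments, tails and derivative bounds.
-/

set_option autoImplicit false
set_option linter.unusedSectionVars false
set_option linter.deprecated false

namespace Crest.Agent.R330.GPar984

open Topology Filter MeasureTheory
open scoped InnerProductSpace ContDiff Real
open Crest.Agent.R330.SqrtPD984

section basic

variable {Z : Type*} [NormedAddCommGroup Z] [InnerProductSpace ℝ Z] [FiniteDimensional ℝ Z]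

/-- determinant of an operator -/
noncomputable def dt (T : Z →L[ℝ] Z) : ℝ := LinearMap.det (T : Z →ₗ[ℝ] Z)

theorem contDiff_dt {m : WithTop ℕ∞} : ContDiff ℝ m (dt : (Z →L[ℝ] Z) → ℝ) := by
  classical
  set e := (stdOrthonormalBasis ℝ Z).toBasis with he
  have h1 : (dt : (Z →L[ℝ] Z) → ℝ) = fun T =>
      ∑ σ : Equiv.Perm (Fin (Module.finrank ℝ Z)), ((Equiv.Perm.sign σ : ℤ) : ℝ) *
        ∏ i, e.repr (T (e i)) (σ i) := by
    funext T
    rw [dt, ← LinearMap.det_toMatrix e, Matrix.det_apply]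
    refine Finset.sum_congr rfl fun σ _ => ?_
    rw [Units.smul_def, zsmul_eq_mul]
    congr 1
    refine Finset.prod_congr rfl fun i _ => ?_
    rw [LinearMap.toMatrix_apply]
    rfl
  rw [h1]
  refine ContDiff.sum fun σ _ => contDiff_const.mul (contDiff_prod fun i _ => ?_)
  have h2 : (fun T : Z →L[ℝ] Z => e.repr (T (e i)) (σ i)) =
      ((LinearMap.toContinuousLinearMap
        ({ toFun := fun T : Z →L[ℝ] Z => e.repr (T (e i)) (σ i)
           map_add' := by intro a b; simp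
           map_smul' := by intro a b; simp } : (Z →L[ℝ] Z) →ₗ[ℝ] ℝ) : (Z →L[ℝ] Z) →L[ℝ] ℝ) :
          (Z →L[ℝ] Z) → ℝ) := rfl
  rw [h2]
  exact ContinuousLinearMap.contDiff _

theorem dt_ne_zero {S : Z →L[ℝ] Z} (hS : PD S) : dt S ≠ 0 := by
  have hinj : Function.Injective (S : Z →ₗ[ℝ] Z) := by
    rw [injective_iff_map_eq_zero]
    intro v hv
    by_contra hne
    have h1 := hS.2 v hne
    have h2 : S v = 0 := hv
    rw [h2, inner_zero_left] at h1
    exact lt_irrefl _ h1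
  have h2 : IsUnit (S : Z →ₗ[ℝ] Z) := by
    rw [Module.End.isUnit_iff]
    exact ⟨hinj, (LinearMap.injective_iff_surjective).mp hinj⟩
  exact (h2.map LinearMap.det).ne_zero

/-- uniform lower bound of a positive definite operator -/
theorem PD.exists_low {A : Z →L[ℝ] Z} (hA : PD A) :
    ∃ a : ℝ, 0 < a ∧ ∀ v, a * ‖v‖ ^ 2 ≤ ⟪A v, v⟫_ℝ := by
  obtain ⟨n, e, l, hl⟩ := hA.1.exists_basis
  have hlp : ∀ i, 0 < l i := by
    intro i
    have hne : e i ≠ 0 := by
      intro h; have := e.norm_eq_one i; rw [h] at this; simp at this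
    have := hA.2 (e i) hne
    rw [hl i, real_inner_smul_left, real_inner_self_eq_norm_sq, e.norm_eq_one i] at this
    linarith
  obtain ⟨c, hc, hcl⟩ : ∃ c : ℝ, 0 < c ∧ ∀ i, c ≤ l i := by
    rcases isEmpty_or_nonempty (Fin n) with hn | hn
    · exact ⟨1, one_pos, fun i => (hn.false i).elim⟩
    · obtain ⟨i0, hi0⟩ := Finite.exists_min l
      exact ⟨l i0, hlp i0, hi0⟩
  refine ⟨c, hc, fun v => ?_⟩
  have h1 : ⟪A v, v⟫_ℝ = ∑ i, l i * ⟪e i, v⟫_ℝ ^ 2 := by
    rw [← e.sum_inner_mul_inner (A v) v]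
    refine Finset.sum_congr rfl fun i _ => ?_
    rw [hA.1, hl i, real_inner_smul_right, real_inner_comm v (e i)]; ring
  rw [h1, ← e.sum_sq_norm_inner_right v, Finset.mul_sum]
  refine Finset.sum_le_sum fun i _ => ?_
  rw [Real.norm_eq_abs, sq_abs]
  exact mul_le_mul_of_nonneg_right (hcl i) (sq_nonneg _)

theorem quad_sub_le (A B : Z →L[ℝ] Z) (v : Z) :
    |⟪A v, v⟫_ℝ - ⟪B v, v⟫_ℝ| ≤ ‖A - B‖ * ‖v‖ ^ 2 := by
  have h2 : ⟪A v, v⟫_ℝ - ⟪B v, v⟫_ℝ = ⟪(A - B) v, v⟫_ℝ := by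
    rw [ContinuousLinearMap.sub_apply, inner_sub_left]
  rw [h2]
  calc |⟪(A - B) v, v⟫_ℝ| ≤ ‖(A - B) v‖ * ‖v‖ := abs_real_inner_le_norm _ _
    _ ≤ (‖A - B‖ * ‖v‖) * ‖v‖ := by gcongr; exact (A - B).le_opNorm v
    _ = ‖A - B‖ * ‖v‖ ^ 2 := by ring

/-- the lower bound is locally uniform -/
theorem PD.eventually_low {A : Z →L[ℝ] Z} (hA : PD A) :
    ∃ a : ℝ, 0 < a ∧ ∀ᶠ B in 𝓝 A, ∀ v, a * ‖v‖ ^ 2 ≤ ⟪B v, v⟫_ℝ := by
  obtain ⟨a, ha, h⟩ := PD.exists_low hA
  refine ⟨a / 2, by positivity, ?_⟩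
  filter_upwards [Metric.ball_mem_nhds A (half_pos ha)] with B hB v
  have h1 : ‖B - A‖ < a / 2 := by simpa [dist_eq_norm] using hB
  have h2 := abs_le.mp (quad_sub_le B A v)
  have h3 := h v
  have h4 : ‖B - A‖ * ‖v‖ ^ 2 ≤ a / 2 * ‖v‖ ^ 2 := by gcongr
  nlinarith [h2.1]


end basic

section gauss

variable {Z : Type*} [NormedAddCommGroup Z] [InnerProductSpace ℝ Z] [FiniteDimensional ℝ Z]
  [MeasurableSpace Z] [BorelSpace Z]

theorem integrable_gauss {c : ℝ} (hc : 0 < c) : Integrable (fun z : Z => Real.exp (-c * ‖z‖ ^ 2)) := by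
  have h := (GaussianFourier.integrable_cexp_neg_mul_sq_norm_add (V := Z) (b := (c : ℂ))
    (by simpa using hc) 0 (0 : Z)).norm
  refine h.congr (ae_of_all _ fun z => ?_)
  show ‖Complex.exp _‖ = _
  rw [Complex.norm_exp]
  congr 1
  simp [← Complex.ofReal_pow]

theorem pow_mul_exp_le (k : ℕ) {c : ℝ} (hc : 0 < c) :
    ∃ C : ℝ, 0 ≤ C ∧ ∀ t : ℝ, 0 ≤ t → t ^ k * Real.exp (-c * t) ≤ C := by
  refine ⟨(k.factorial : ℝ) / c ^ k, by positivity, fun t ht => ?_⟩
  have h1 : (c * t) ^ k / (k.factorial : ℝ) ≤ Real.exp (c * t) :=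
    Real.pow_div_factorial_le_exp (c * t) (by positivity) k
  have h2 : t ^ k ≤ (k.factorial : ℝ) / c ^ k * Real.exp (c * t) := by
    have h3 : 0 < c ^ k := by positivity
    have h4 : 0 < (k.factorial : ℝ) := by positivity
    rw [mul_pow] at h1
    rw [div_le_iff₀ h4] at h1
    rw [div_mul_eq_mul_div, le_div_iff₀ h3]
    nlinarith
  calc t ^ k * Real.exp (-c * t) ≤ ((k.factorial : ℝ) / c ^ k * Real.exp (c * t)) *
        Real.exp (-c * t) := by gcongr
    _ = (k.factorial : ℝ) / c ^ k := by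
        rw [mul_assoc, ← Real.exp_add]; simp

/-- a function with polynomial growth is integrable against a Gaussian -/
theorem integrable_poly_gauss (k : ℕ) {c : ℝ} (hc : 0 < c) :
    Integrable (fun z : Z => ‖z‖ ^ k * Real.exp (-c * ‖z‖ ^ 2)) := by
  obtain ⟨C, hC0, hC⟩ := pow_mul_exp_le k (c := c / 2) (by positivity)
  have hb : ∀ z : Z, ‖z‖ ^ k * Real.exp (-c * ‖z‖ ^ 2) ≤ (C + 1) * Real.exp (-(c / 2) * ‖z‖ ^ 2) := by
    intro z
    have h1 : Real.exp (-c * ‖z‖ ^ 2) =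
        Real.exp (-(c / 2) * ‖z‖ ^ 2) * Real.exp (-(c / 2) * ‖z‖ ^ 2) := by
      rw [← Real.exp_add]; ring_nf
    rw [h1, ← mul_assoc]
    refine mul_le_mul_of_nonneg_right ?_ (Real.exp_pos _).le
    by_cases hz : ‖z‖ ≤ 1
    · have h2 : ‖z‖ ^ k ≤ 1 := pow_le_one₀ (norm_nonneg _) hz
      have h3 : Real.exp (-(c / 2) * ‖z‖ ^ 2) ≤ 1 := by
        rw [Real.exp_le_one_iff]
        have : 0 ≤ c / 2 * ‖z‖ ^ 2 := by positivity
        linarith
      have : ‖z‖ ^ k * Real.exp (-(c / 2) * ‖z‖ ^ 2) ≤ 1 * 1 :=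
        mul_le_mul h2 h3 (Real.exp_pos _).le zero_le_one
      linarith
    · push Not at hz
      have h2 : ‖z‖ ^ k ≤ (‖z‖ ^ 2) ^ k := by
        rw [← pow_mul]
        exact pow_le_pow_right₀ hz.le (by omega)
      have h3 := hC (‖z‖ ^ 2) (by positivity)
      calc ‖z‖ ^ k * Real.exp (-(c / 2) * ‖z‖ ^ 2) ≤ (‖z‖ ^ 2) ^ k *
            Real.exp (-(c / 2) * ‖z‖ ^ 2) := by gcongr
        _ ≤ C := h3
        _ ≤ C + 1 := by linarith
  refine Integrable.mono' ((integrable_gauss (Z := Z) (c := c / 2) (by positivity)).const_mul (C + 1))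
    ?_ (ae_of_all _ fun z => ?_)
  · exact (by fun_prop : Continuous fun z : Z => ‖z‖ ^ k * Real.exp (-c * ‖z‖ ^ 2)).aestronglyMeasurable
  · rw [Real.norm_of_nonneg (by positivity)]
    exact hb z

/-- the Gaussian integral of a quadratic form -/
theorem integral_exp_quad {A : Z →L[ℝ] Z} (hA : PD A) {c : ℝ} (hc : 0 < c) :
    ∫ z : Z, Real.exp (-c * ⟪A z, z⟫_ℝ) =
      (π / c) ^ (Module.finrank ℝ Z / 2 : ℝ) / |dt (psq A)| := by
  have hS := psq_pd hA
  have hdet : LinearMap.det ((psq A : Z →L[ℝ] Z) : Z →ₗ[ℝ] Z) ≠ 0 := dt_ne_zero hS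
  have h1 : (fun z : Z => Real.exp (-c * ⟪A z, z⟫_ℝ)) =
      fun z => Real.exp (-c * ‖((psq A : Z →L[ℝ] Z) : Z →ₗ[ℝ] Z) z‖ ^ 2) := by
    funext z
    show _ = Real.exp (-c * ‖psq A z‖ ^ 2)
    rw [norm_psq_sq hA.ps]
  rw [h1]
  have h2 : ∫ z : Z, Real.exp (-c * ‖((psq A : Z →L[ℝ] Z) : Z →ₗ[ℝ] Z) z‖ ^ 2) =
      ∫ y, Real.exp (-c * ‖y‖ ^ 2)
        ∂(Measure.map ((psq A : Z →L[ℝ] Z) : Z →ₗ[ℝ] Z) (volume : Measure Z)) := by
    rw [integral_map]
    · exact (psq A).continuous.measurable.aemeasurable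
    · exact (by fun_prop : Continuous fun y : Z => Real.exp (-c * ‖y‖ ^ 2)).aestronglyMeasurable
  rw [h2, Measure.map_linearMap_addHaar_eq_smul_addHaar _ hdet, integral_smul_measure,
    GaussianFourier.integral_rexp_neg_mul_sq_norm hc, ENNReal.toReal_ofReal (abs_nonneg _), abs_inv,
    smul_eq_mul, inv_mul_eq_div]
  rfl

/-- the parameter dependent Gaussian -/
noncomputable def G (g : ℝ) (A : Z →L[ℝ] Z) (z : Z) : ℝ :=
  (g / π) ^ (Module.finrank ℝ Z / 4 : ℝ) * Real.sqrt |dt (psq A)| *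
    Real.exp (-(g / 2) * ⟪A z, z⟫_ℝ)

theorem G_pos {g : ℝ} (hg : 0 < g) {A : Z →L[ℝ] Z} (hA : PD A) (z : Z) : 0 < G g A z := by
  have h1 : 0 < |dt (psq A)| := abs_pos.mpr (dt_ne_zero (psq_pd hA))
  unfold G
  positivity

theorem G_sq {g : ℝ} (hg : 0 < g) (A : Z →L[ℝ] Z) (z : Z) :
    G g A z ^ 2 = (g / π) ^ (Module.finrank ℝ Z / 2 : ℝ) * |dt (psq A)| *
      Real.exp (-g * ⟪A z, z⟫_ℝ) := by
  have hgp : 0 < g / π := by positivity
  unfold G
  rw [mul_pow, mul_pow, Real.sq_sqrt (abs_nonneg _), ← Real.exp_nat_mul, ← Real.rpow_natCast,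
    ← Real.rpow_mul hgp.le]
  congr 2
  · congr 1
    push_cast; ring
  · push_cast; ring

theorem continuous_G (g : ℝ) (A : Z →L[ℝ] Z) : Continuous (G g A) := by
  unfold G
  fun_prop

/-- normalisation -/
theorem integral_G_sq {g : ℝ} (hg : 0 < g) {A : Z →L[ℝ] Z} (hA : PD A) :
    ∫ z : Z, G g A z ^ 2 = 1 := by
  have hd : |dt (psq A)| ≠ 0 := (abs_pos.mpr (dt_ne_zero (psq_pd hA))).ne'
  simp_rw [G_sq hg]
  rw [integral_const_mul, integral_exp_quad hA hg]
  have h1 : (g / π) ^ (Module.finrank ℝ Z / 2 : ℝ) * (π / g) ^ (Module.finrank ℝ Z / 2 : ℝ) = 1 := by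
    rw [← Real.mul_rpow (by positivity) (by positivity)]
    have : g / π * (π / g) = 1 := by field_simp
    rw [this, Real.one_rpow]
  calc _ = ((g / π) ^ (Module.finrank ℝ Z / 2 : ℝ) * (π / g) ^ (Module.finrank ℝ Z / 2 : ℝ)) *
        (|dt (psq A)| / |dt (psq A)|) := by ring
    _ = 1 := by rw [h1, div_self hd, one_mul]

/-! ### uniform bounds: `a ‖z‖² ≤ ⟪A z, z⟫`, `|dt (psq A)| ≤ K` -/

/-- uniform bound class -/
def UB (a K : ℝ) (A : Z →L[ℝ] Z) : Prop :=
  PD A ∧ (∀ v, a * ‖v‖ ^ 2 ≤ ⟪A v, v⟫_ℝ) ∧ |dt (psq A)| ≤ K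

theorem UB.sq_le {a K g : ℝ} (hg : 0 < g) {A : Z →L[ℝ] Z} (h : UB a K A) (z : Z) :
    G g A z ^ 2 ≤ (g / π) ^ (Module.finrank ℝ Z / 2 : ℝ) * K * Real.exp (-(g * a) * ‖z‖ ^ 2) := by
  rw [G_sq hg]
  have h1 : Real.exp (-g * ⟪A z, z⟫_ℝ) ≤ Real.exp (-(g * a) * ‖z‖ ^ 2) := by
    apply Real.exp_le_exp.mpr
    have := mul_le_mul_of_nonneg_left (h.2.1 z) hg.le
    linarith
  have h2 : 0 ≤ (g / π) ^ (Module.finrank ℝ Z / 2 : ℝ) := by positivity
  calc _ ≤ (g / π) ^ (Module.finrank ℝ Z / 2 : ℝ) * K * Real.exp (-g * ⟪A z, z⟫_ℝ) := by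
        have := mul_le_mul_of_nonneg_left h.2.2 h2
        exact mul_le_mul_of_nonneg_right this (Real.exp_pos _).le
    _ ≤ _ := by
        have hK : 0 ≤ K := (abs_nonneg _).trans h.2.2
        exact mul_le_mul_of_nonneg_left h1 (mul_nonneg h2 hK)

theorem integrable_mul_G_sq {a K g : ℝ} (ha : 0 < a) (hg : 0 < g) {A : Z →L[ℝ] Z} (h : UB a K A)
    (k : ℕ) : Integrable (fun z : Z => (g * ‖z‖ ^ 2) ^ k * G g A z ^ 2) := by
  have h1 := (integrable_poly_gauss (Z := Z) (2 * k) (c := g * a) (by positivity)).const_mul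
    (g ^ k * ((g / π) ^ (Module.finrank ℝ Z / 2 : ℝ) * K))
  refine Integrable.mono' h1 ?_ (ae_of_all _ fun z => ?_)
  · have := continuous_G g A
    exact (by fun_prop : Continuous fun z : Z => (g * ‖z‖ ^ 2) ^ k * G g A z ^ 2).aestronglyMeasurable
  · rw [Real.norm_of_nonneg (by positivity)]
    have h2 := h.sq_le hg z
    have h3 : 0 ≤ (g * ‖z‖ ^ 2) ^ k := by positivity
    calc (g * ‖z‖ ^ 2) ^ k * G g A z ^ 2 ≤ (g * ‖z‖ ^ 2) ^ k *
          ((g / π) ^ (Module.finrank ℝ Z / 2 : ℝ) * K * Real.exp (-(g * a) * ‖z‖ ^ 2)) :=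
          mul_le_mul_of_nonneg_left h2 h3
      _ = _ := by rw [mul_pow, ← pow_mul]; ring

/-- all moments are bounded, uniformly in `g > 0` and in the class `UB a K` -/
theorem moment_le (a K : ℝ) (ha : 0 < a) (k : ℕ) :
    ∃ C : ℝ, 0 ≤ C ∧ ∀ g : ℝ, 0 < g → ∀ A : Z →L[ℝ] Z, UB a K A →
      ∫ z : Z, (g * ‖z‖ ^ 2) ^ k * G g A z ^ 2 ≤ C := by
  set I : ℝ := ∫ w : Z, (‖w‖ ^ 2) ^ k * Real.exp (-a * ‖w‖ ^ 2) with hI
  have hI0 : 0 ≤ I := integral_nonneg fun w => by positivity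
  refine ⟨(1 / π) ^ (Module.finrank ℝ Z / 2 : ℝ) * |K| * I, by positivity, fun g hg A hA => ?_⟩
  set R : ℝ := Real.sqrt g with hR
  have hRR : R ^ 2 = g := Real.sq_sqrt hg.le
  have hRp : 0 < R := Real.sqrt_pos.mpr hg
  have hsc : ∫ z : Z, (‖R • z‖ ^ 2) ^ k * Real.exp (-a * ‖R • z‖ ^ 2) =
      |(R ^ Module.finrank ℝ Z)⁻¹| • I :=
    Measure.integral_comp_smul (volume : Measure Z)
      (fun w : Z => (‖w‖ ^ 2) ^ k * Real.exp (-a * ‖w‖ ^ 2)) R
  have hnorm : ∀ z : Z, ‖R • z‖ ^ 2 = g * ‖z‖ ^ 2 := by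
    intro z
    rw [norm_smul, mul_pow, Real.norm_eq_abs, sq_abs, hRR]
  simp_rw [hnorm] at hsc
  have hK : 0 ≤ K := (abs_nonneg _).trans hA.2.2
  have hR2 : R ^ Module.finrank ℝ Z = g ^ (Module.finrank ℝ Z / 2 : ℝ) := by
    rw [← Real.rpow_natCast, hR, Real.sqrt_eq_rpow, ← Real.rpow_mul hg.le]
    congr 1; ring
  have hint : Integrable (fun z : Z => (g / π) ^ (Module.finrank ℝ Z / 2 : ℝ) * K *
      ((g * ‖z‖ ^ 2) ^ k * Real.exp (-a * (g * ‖z‖ ^ 2)))) := by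
    have h1 := (integrable_poly_gauss (Z := Z) (2 * k) (c := g * a) (by positivity)).const_mul
      (g ^ k)
    refine (h1.const_mul ((g / π) ^ (Module.finrank ℝ Z / 2 : ℝ) * K)).congr
      (ae_of_all _ fun z => ?_)
    simp only
    rw [mul_pow, ← pow_mul]
    ring_nf
  calc ∫ z : Z, (g * ‖z‖ ^ 2) ^ k * G g A z ^ 2
      ≤ ∫ z : Z, (g / π) ^ (Module.finrank ℝ Z / 2 : ℝ) * K *
          ((g * ‖z‖ ^ 2) ^ k * Real.exp (-a * (g * ‖z‖ ^ 2))) := by
        refine integral_mono (integrable_mul_G_sq ha hg hA k) hint fun z => ?_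
        have h2 := hA.sq_le hg z
        have h3 : 0 ≤ (g * ‖z‖ ^ 2) ^ k := by positivity
        have h4 : Real.exp (-(g * a) * ‖z‖ ^ 2) = Real.exp (-a * (g * ‖z‖ ^ 2)) := by ring_nf
        rw [h4] at h2
        calc (g * ‖z‖ ^ 2) ^ k * G g A z ^ 2 ≤ (g * ‖z‖ ^ 2) ^ k *
              ((g / π) ^ (Module.finrank ℝ Z / 2 : ℝ) * K * Real.exp (-a * (g * ‖z‖ ^ 2))) :=
              mul_le_mul_of_nonneg_left h2 h3
          _ = _ := by ring
    _ = (g / π) ^ (Module.finrank ℝ Z / 2 : ℝ) * K * (|(R ^ Module.finrank ℝ Z)⁻¹| * I) := by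
        rw [integral_const_mul, hsc, smul_eq_mul]
    _ = (1 / π) ^ (Module.finrank ℝ Z / 2 : ℝ) * K * I := by
        rw [hR2, abs_of_pos (by positivity)]
        have h5 : (g / π) ^ (Module.finrank ℝ Z / 2 : ℝ) =
            g ^ (Module.finrank ℝ Z / 2 : ℝ) * (1 / π) ^ (Module.finrank ℝ Z / 2 : ℝ) := by
          rw [← Real.mul_rpow (by positivity) (by positivity)]
          congr 1; ring
        rw [h5]
        have h6 : 0 < g ^ (Module.finrank ℝ Z / 2 : ℝ) := by positivity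
        field_simp
    _ ≤ _ := by
        rw [abs_of_nonneg hK]

/-- tails: arbitrary powers of `1/(g δ²)` -/
theorem tail_le (a K : ℝ) (ha : 0 < a) (k l : ℕ) :
    ∃ C : ℝ, 0 ≤ C ∧ ∀ g : ℝ, 0 < g → ∀ δ : ℝ, 0 < δ → ∀ A : Z →L[ℝ] Z, UB a K A →
      ∫ z in {z : Z | δ ≤ ‖z‖}, (g * ‖z‖ ^ 2) ^ k * G g A z ^ 2 ≤ C * (g * δ ^ 2)⁻¹ ^ l := by
  obtain ⟨C, hC0, hC⟩ := moment_le (Z := Z) a K ha (k + l)
  refine ⟨C, hC0, fun g hg δ hδ A hA => ?_⟩
  have hmeas : MeasurableSet {z : Z | δ ≤ ‖z‖} := measurableSet_le measurable_const measurable_norm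
  have hi := integrable_mul_G_sq ha hg hA (k + l)
  calc ∫ z in {z : Z | δ ≤ ‖z‖}, (g * ‖z‖ ^ 2) ^ k * G g A z ^ 2
      ≤ ∫ z in {z : Z | δ ≤ ‖z‖}, ((g * ‖z‖ ^ 2) ^ (k + l) * G g A z ^ 2) * (g * δ ^ 2)⁻¹ ^ l := by
        refine setIntegral_mono_on (integrable_mul_G_sq ha hg hA k).integrableOn
          (hi.mul_const _).integrableOn hmeas fun z hz => ?_
        have hz' : δ ≤ ‖z‖ := hz
        have h1 : 1 ≤ (g * ‖z‖ ^ 2) * (g * δ ^ 2)⁻¹ := by
          rw [← div_eq_mul_inv, le_div_iff₀ (by positivity), one_mul]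
          gcongr
        have h2 : 1 ≤ ((g * ‖z‖ ^ 2) * (g * δ ^ 2)⁻¹) ^ l := one_le_pow₀ h1
        have h3 : 0 ≤ (g * ‖z‖ ^ 2) ^ k * G g A z ^ 2 := by positivity
        calc (g * ‖z‖ ^ 2) ^ k * G g A z ^ 2
            ≤ ((g * ‖z‖ ^ 2) ^ k * G g A z ^ 2) * ((g * ‖z‖ ^ 2) * (g * δ ^ 2)⁻¹) ^ l :=
              le_mul_of_one_le_right h3 h2
          _ = _ := by rw [mul_pow, pow_add]; ring
    _ ≤ ∫ z : Z, ((g * ‖z‖ ^ 2) ^ (k + l) * G g A z ^ 2) * (g * δ ^ 2)⁻¹ ^ l := by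
        refine setIntegral_le_integral (hi.mul_const _) (ae_of_all _ fun z => ?_)
        show (0 : ℝ) ≤ _
        positivity
    _ = (∫ z : Z, (g * ‖z‖ ^ 2) ^ (k + l) * G g A z ^ 2) * (g * δ ^ 2)⁻¹ ^ l := by
        rw [integral_mul_const]
    _ ≤ C * (g * δ ^ 2)⁻¹ ^ l := by
        have := hC g hg A hA
        gcongr

/-! ### derivatives in `z` -/

theorem hasFDerivAt_quad {A : Z →L[ℝ] Z} (hA : Sy A) (z : Z) :
    HasFDerivAt (fun z : Z => ⟪A z, z⟫_ℝ) ((2 : ℝ) • innerSL ℝ (A z)) z := by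
  have h := (A.hasFDerivAt (x := z)).inner ℝ (hasFDerivAt_id z)
  refine h.congr_fderiv ?_
  ext v
  simp only [ContinuousLinearMap.smul_apply, innerSL_apply_apply, smul_eq_mul]
  show ⟪A z, v⟫_ℝ + ⟪A v, z⟫_ℝ = 2 * ⟪A z, v⟫_ℝ
  rw [hA v z, real_inner_comm (A z) v]; ring

theorem hasFDerivAt_G (g : ℝ) {A : Z →L[ℝ] Z} (hA : Sy A) (z : Z) :
    HasFDerivAt (G g A) ((-(g * G g A z)) • innerSL ℝ (A z)) z := by
  have h := ((hasFDerivAt_quad hA z).const_mul (-(g / 2))).exp.const_mul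
    ((g / π) ^ (Module.finrank ℝ Z / 4 : ℝ) * Real.sqrt |dt (psq A)|)
  refine h.congr_fderiv ?_
  ext v
  simp only [ContinuousLinearMap.smul_apply, innerSL_apply_apply, smul_eq_mul, G]
  ring



/-! ### the parameter -/

section param

variable {P : Type*} [NormedAddCommGroup P] [NormedSpace ℝ P]

/-- smoothness of the normalisation constant -/
theorem contDiffAt_nrm {m : WithTop ℕ∞} (hm : m ≠ 0) {A : P → (Z →L[ℝ] Z)} {b : P}
    (hA : ContDiffAt ℝ m A b) (hs : ∀ᶠ b' in 𝓝 b, Sy (A b')) (hp : PD (A b)) :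
    ContDiffAt ℝ m (fun b' => Real.sqrt |dt (psq (A b'))|) b := by
  have h1 : ContDiffAt ℝ m (fun b' => dt (psq (A b'))) b :=
    (contDiff_dt.contDiffAt).comp b (contDiffAt_psq hm hA hs hp)
  have h2 : dt (psq (A b)) ≠ 0 := dt_ne_zero (psq_pd hp)
  have h3 : ContDiffAt ℝ m (fun b' => |dt (psq (A b'))|) b := by
    rcases lt_or_gt_of_ne h2 with h | h
    · refine h1.neg.congr_of_eventuallyEq ?_
      filter_upwards [h1.continuousAt.eventually (gt_mem_nhds h)] with b' hb'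
      exact abs_of_neg hb'
    · refine h1.congr_of_eventuallyEq ?_
      filter_upwards [h1.continuousAt.eventually (lt_mem_nhds h)] with b' hb'
      exact abs_of_pos hb'
  exact (Real.contDiffAt_sqrt (abs_pos.mpr h2).ne').comp b h3

/-- joint smoothness in the parameter and in the variable -/
theorem contDiffAt_G {m : WithTop ℕ∞} (hm : m ≠ 0) (g : ℝ) {A : P → (Z →L[ℝ] Z)} {b : P} {z : Z}
    (hA : ContDiffAt ℝ m A b) (hs : ∀ᶠ b' in 𝓝 b, Sy (A b')) (hp : PD (A b)) :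
    ContDiffAt ℝ m (fun q : P × Z => G g (A q.1) q.2) (b, z) := by
  have h1 : ContDiffAt ℝ m (fun q : P × Z => Real.sqrt |dt (psq (A q.1))|) (b, z) :=
    ContDiffAt.comp (b, z) (g := fun b' => Real.sqrt |dt (psq (A b'))|) (f := Prod.fst)
      (contDiffAt_nrm hm hA hs hp) contDiffAt_fst
  have h2 : ContDiffAt ℝ m (fun q : P × Z => A q.1) (b, z) :=
    ContDiffAt.comp (b, z) (g := A) (f := Prod.fst) hA contDiffAt_fst
  have h3 : ContDiffAt ℝ m (fun q : P × Z => ⟪A q.1 q.2, q.2⟫_ℝ) (b, z) :=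
    (h2.clm_apply contDiffAt_snd).inner ℝ contDiffAt_snd
  have h4 : ContDiffAt ℝ m (fun q : P × Z => Real.exp (-(g / 2) * ⟪A q.1 q.2, q.2⟫_ℝ)) (b, z) :=
    (contDiffAt_const.mul h3).exp
  exact (contDiffAt_const.mul h1).mul h4

/-- derivative in the parameter -/
theorem hasFDerivAt_G_param (g : ℝ) {A : P → (Z →L[ℝ] Z)} {A' : P →L[ℝ] (Z →L[ℝ] Z)} {b : P}
    (hA : HasFDerivAt A A' b) {n' : P →L[ℝ] ℝ}
    (hn : HasFDerivAt (fun b' => Real.sqrt |dt (psq (A b'))|) n' b)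
    (hp : PD (A b)) (z : Z) :
    HasFDerivAt (fun b' => G g (A b') z)
      ((G g (A b) z) • ((Real.sqrt |dt (psq (A b))|)⁻¹ • n' -
        (g / 2) • ((innerSL ℝ z).comp ((ContinuousLinearMap.apply ℝ Z z).comp A')))) b := by
  have h1 : HasFDerivAt (fun b' => ⟪z, A b' z⟫_ℝ)
      ((innerSL ℝ z).comp ((ContinuousLinearMap.apply ℝ Z z).comp A')) b :=
    (innerSL ℝ z).hasFDerivAt.comp b
      ((ContinuousLinearMap.apply ℝ Z z).hasFDerivAt.comp b hA)
  have h1' : HasFDerivAt (fun b' => ⟪A b' z, z⟫_ℝ)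
      ((innerSL ℝ z).comp ((ContinuousLinearMap.apply ℝ Z z).comp A')) b := by
    refine h1.congr_of_eventuallyEq (Eventually.of_forall fun b' => ?_)
    exact real_inner_comm _ _
  have h2 := (h1'.const_mul (-(g / 2))).exp
  have h3 := (hn.const_mul ((g / π) ^ (Module.finrank ℝ Z / 4 : ℝ))).mul h2
  have hd : Real.sqrt |dt (psq (A b))| ≠ 0 :=
    (Real.sqrt_pos.mpr (abs_pos.mpr (dt_ne_zero (psq_pd hp)))).ne'
  refine h3.congr_fderiv ?_
  ext v
  simp only [ContinuousLinearMap.add_apply, ContinuousLinearMap.sub_apply,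
    ContinuousLinearMap.smul_apply, smul_eq_mul, G]
  field_simp
  ring

/-- the class of parameter families near `b`: smooth, symmetric, positive definite; output:
uniform bounds on a neighbourhood for `A`, its derivative and the logarithmic derivative of the
normalisation, and the formula for the derivative of `G`, with the orthogonality
`∫ G ∂_b G = 0`. -/
theorem exists_param_bounds {A : P → (Z →L[ℝ] Z)} {b : P} {m : WithTop ℕ∞} (hm : m ≠ 0)
    (hA : ContDiffAt ℝ m A b) (hs : ∀ᶠ b' in 𝓝 b, Sy (A b')) (hp : PD (A b)) :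
    ∃ (a K M : ℝ) (l : P → (P →L[ℝ] ℝ)), 0 < a ∧ 0 ≤ M ∧ ∀ᶠ b' in 𝓝 b,
      UB a K (A b') ∧ ‖fderiv ℝ A b'‖ ≤ M ∧ ‖l b'‖ ≤ M ∧
      (∀ (g : ℝ) (z : Z), HasFDerivAt (fun c => G g (A c) z) ((G g (A b') z) • (l b' -
        (g / 2) • ((innerSL ℝ z).comp ((ContinuousLinearMap.apply ℝ Z z).comp
          (fderiv ℝ A b'))))) b') := by
  have h1m : (1 : WithTop ℕ∞) ≤ m := by
    exact ENat.one_le_iff_ne_zero_withTop.mpr hm
  set nf : P → ℝ := fun b' => Real.sqrt |dt (psq (A b'))| with hnf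
  have hn : ContDiffAt ℝ m nf b := contDiffAt_nrm hm hA hs hp
  have hn1 : ContDiffAt ℝ 1 nf b := hn.of_le h1m
  have hA1 : ContDiffAt ℝ 1 A b := hA.of_le h1m
  obtain ⟨a, ha, hlow⟩ := PD.eventually_low hp
  have hdA : ContinuousAt (fderiv ℝ A) b :=
    (hA1.fderiv_right (m := 0) (by norm_num)).continuousAt
  have hdA' : Tendsto (fun b' => ‖fderiv ℝ A b'‖) (𝓝 b) (𝓝 ‖fderiv ℝ A b‖) :=
    (continuous_norm (E := P →L[ℝ] (Z →L[ℝ] Z))).continuousAt.tendsto.comp hdA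
  have hdn : ContinuousAt (fderiv ℝ nf) b :=
    (hn1.fderiv_right (m := 0) (by norm_num)).continuousAt
  have hnc : ContinuousAt nf b := hn1.continuousAt
  have hn0 : 0 < nf b := Real.sqrt_pos.mpr (abs_pos.mpr (dt_ne_zero (psq_pd hp)))
  set l : P → (P →L[ℝ] ℝ) := fun b' => (nf b')⁻¹ • fderiv ℝ nf b' with hl
  have hlc : ContinuousAt l b := (hnc.inv₀ hn0.ne').smul hdn
  set K : ℝ := nf b ^ 2 + 1 with hK
  set M : ℝ := ‖fderiv ℝ A b‖ + ‖l b‖ + 1 with hM
  have e1 : ∀ᶠ b' in 𝓝 b, nf b' ^ 2 < K :=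
    (hnc.pow 2).eventually (gt_mem_nhds (by show nf b ^ 2 < K; rw [hK]; linarith))
  have e2 : ∀ᶠ b' in 𝓝 b, ‖fderiv ℝ A b'‖ < M :=
    Filter.Tendsto.eventually_lt_const (v := ‖fderiv ℝ A b‖)
      (by rw [hM]; linarith [norm_nonneg (l b)]) hdA'
  have e3 : ∀ᶠ b' in 𝓝 b, ‖l b'‖ < M :=
    Filter.Tendsto.eventually_lt_const (v := ‖l b‖)
      (by rw [hM]; linarith [norm_nonneg (fderiv ℝ A b)]) hlc.norm
  have e4 : ∀ᶠ b' in 𝓝 b, Sy (A b') → PD (A b') := hA.continuousAt.eventually hp.eventually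
  have e5 : ∀ᶠ b' in 𝓝 b, ∀ v, a * ‖v‖ ^ 2 ≤ ⟪A b' v, v⟫_ℝ := hA.continuousAt.eventually hlow
  have e6 : ∀ᶠ b' in 𝓝 b, DifferentiableAt ℝ A b' :=
    (hA1.eventually (by simp)).mono fun b' h => h.differentiableAt (by norm_num)
  have e7 : ∀ᶠ b' in 𝓝 b, DifferentiableAt ℝ nf b' :=
    (hn1.eventually (by simp)).mono fun b' h => h.differentiableAt (by norm_num)
  refine ⟨a, K, M, l, ha, by positivity, ?_⟩
  filter_upwards [e1, e2, e3, e4, e5, e6, e7, hs] with b' h1 h2 h3 h4 h5 h6 h7 h8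
  have hPD := h4 h8
  refine ⟨⟨hPD, h5, ?_⟩, h2.le, h3.le, fun g z => ?_⟩
  · have h9 : nf b' ^ 2 = |dt (psq (A b'))| := Real.sq_sqrt (abs_nonneg _)
    rw [← h9]; exact h1.le
  · exact hasFDerivAt_G_param g h6.hasFDerivAt h7.hasFDerivAt hPD z

theorem norm_L_le (g : ℝ) (hg : 0 < g) {M : ℝ} (hM : 0 ≤ M) {l : P →L[ℝ] ℝ} (hl : ‖l‖ ≤ M)
    {A' : P →L[ℝ] (Z →L[ℝ] Z)} (hA' : ‖A'‖ ≤ M) (z : Z) :
    ‖l - (g / 2) • ((innerSL ℝ z).comp ((ContinuousLinearMap.apply ℝ Z z).comp A'))‖ ≤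
      M * (1 + g * ‖z‖ ^ 2) := by
  have h1 : ‖(innerSL ℝ z).comp ((ContinuousLinearMap.apply ℝ Z z).comp A')‖ ≤ M * ‖z‖ ^ 2 := by
    refine ContinuousLinearMap.opNorm_le_bound _ (by positivity) fun v => ?_
    simp only [ContinuousLinearMap.comp_apply, ContinuousLinearMap.apply_apply,
      innerSL_apply_apply]
    have h2 : ‖(A' v) z‖ ≤ M * ‖v‖ * ‖z‖ := by
      calc ‖(A' v) z‖ ≤ ‖A' v‖ * ‖z‖ := (A' v).le_opNorm z
        _ ≤ (‖A'‖ * ‖v‖) * ‖z‖ := by gcongr; exact A'.le_opNorm v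
        _ ≤ M * ‖v‖ * ‖z‖ := by gcongr
    calc ‖⟪z, (A' v) z⟫_ℝ‖ ≤ ‖z‖ * ‖(A' v) z‖ := norm_inner_le_norm _ _
      _ ≤ ‖z‖ * (M * ‖v‖ * ‖z‖) := by gcongr
      _ = M * ‖z‖ ^ 2 * ‖v‖ := by ring
  calc _ ≤ ‖l‖ + ‖(g / 2) • ((innerSL ℝ z).comp ((ContinuousLinearMap.apply ℝ Z z).comp A'))‖ :=
        norm_sub_le _ _
    _ ≤ M + (g / 2) * (M * ‖z‖ ^ 2) := by
        rw [norm_smul, Real.norm_of_nonneg (by positivity)]
        gcongr
    _ ≤ M * (1 + g * ‖z‖ ^ 2) := by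
        have : 0 ≤ g * (M * ‖z‖ ^ 2) := by positivity
        nlinarith

/-- orthogonality `∫ G ∂_b G = 0` -/
theorem param_orth {A : P → (Z →L[ℝ] Z)} {b : P} {a K M : ℝ} {l : P → (P →L[ℝ] ℝ)}
    (ha : 0 < a) (hM : 0 ≤ M)
    (h : ∀ᶠ b' in 𝓝 b, UB a K (A b') ∧ ‖fderiv ℝ A b'‖ ≤ M ∧ ‖l b'‖ ≤ M ∧
      (∀ (g : ℝ) (z : Z), HasFDerivAt (fun c => G g (A c) z) ((G g (A b') z) • (l b' -
        (g / 2) • ((innerSL ℝ z).comp ((ContinuousLinearMap.apply ℝ Z z).comp
          (fderiv ℝ A b'))))) b'))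
    (g : ℝ) (hg : 0 < g) (v : P) :
    ∫ z : Z, G g (A b) z ^ 2 * (l b v - (g / 2) * ⟪z, (fderiv ℝ A b v) z⟫_ℝ) = 0 := by
  obtain ⟨s, hs, hsP⟩ := h.exists_mem
  have hb := h.self_of_nhds
  have : ProperSpace Z := FiniteDimensional.proper ℝ Z
  have : SecondCountableTopology Z := inferInstance
  have : SecondCountableTopologyEither Z (P →L[ℝ] ℝ) := secondCountableTopologyEither_of_left _ _
  set L : P → Z → (P →L[ℝ] ℝ) := fun b' z => l b' - (g / 2) •
    ((innerSL ℝ z).comp ((ContinuousLinearMap.apply ℝ Z z).comp (fderiv ℝ A b'))) with hL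
  set F' : P → Z → (P →L[ℝ] ℝ) := fun b' z => (2 * G g (A b') z ^ 2) • L b' z with hF'
  set bd : Z → ℝ := fun z => 2 * ((g / π) ^ (Module.finrank ℝ Z / 2 : ℝ) * K *
    Real.exp (-(g * a) * ‖z‖ ^ 2)) * (M * (1 + g * ‖z‖ ^ 2)) with hbd
  have hLn : ∀ b' ∈ s, ∀ z, ‖L b' z‖ ≤ M * (1 + g * ‖z‖ ^ 2) := fun b' hb' z =>
    norm_L_le g hg hM (hsP b' hb').2.2.1 (hsP b' hb').2.1 z
  have hLcont : ∀ b', Continuous (L b') := by
    intro b'
    rw [hL]
    have h1 : Continuous fun z : Z => innerSL ℝ z := (innerSL ℝ).continuous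
    have h2 : Continuous fun z : Z => (ContinuousLinearMap.apply ℝ Z z : (Z →L[ℝ] Z) →L[ℝ] Z) :=
      (ContinuousLinearMap.apply ℝ Z : Z →L[ℝ] (Z →L[ℝ] Z) →L[ℝ] Z).continuous
    fun_prop
  have hbdi : Integrable bd := by
    have h0 := integrable_poly_gauss (Z := Z) 0 (c := g * a) (by positivity)
    have h2 := integrable_poly_gauss (Z := Z) 2 (c := g * a) (by positivity)
    refine ((h0.const_mul (2 * ((g / π) ^ (Module.finrank ℝ Z / 2 : ℝ) * K) * M)).add
      (h2.const_mul (2 * ((g / π) ^ (Module.finrank ℝ Z / 2 : ℝ) * K) * M * g))).congr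
      (ae_of_all _ fun z => ?_)
    simp only [Pi.add_apply, hbd]
    ring
  have hder : HasFDerivAt (fun b' => ∫ z : Z, G g (A b') z ^ 2) (∫ z, F' b z) b := by
    refine hasFDerivAt_integral_of_dominated_of_fderiv_le (bound := bd) hs ?_ ?_ ?_ ?_ hbdi ?_
    · exact Eventually.of_forall fun b' => ((continuous_G g (A b')).pow 2).aestronglyMeasurable
    · have := integrable_mul_G_sq ha hg hb.1 0
      simpa using this
    · refine Continuous.aestronglyMeasurable ?_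
      rw [hF']
      exact (continuous_const.mul ((continuous_G g (A b)).pow 2)).smul (hLcont b)
    · refine ae_of_all _ fun z b' hb' => ?_
      simp only [hF', hbd]
      rw [norm_smul, Real.norm_of_nonneg (by positivity)]
      have h1 := (hsP b' hb').1.sq_le hg z
      have h2 := hLn b' hb' z
      have h3 : 0 ≤ G g (A b') z ^ 2 := sq_nonneg _
      have h4 : 0 ≤ (g / π) ^ (Module.finrank ℝ Z / 2 : ℝ) * K * Real.exp (-(g * a) * ‖z‖ ^ 2) :=
        h3.trans h1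
      gcongr
    · refine ae_of_all _ fun z b' hb' => ?_
      have h1 := ((hsP b' hb').2.2.2 g z).pow 2
      refine h1.congr_fderiv ?_
      simp only [hF', hL]
      rw [smul_smul]
      congr 1
      push_cast
      ring
  have hconst : (fun b' => ∫ z : Z, G g (A b') z ^ 2) =ᶠ[𝓝 b] fun _ => (1 : ℝ) := by
    filter_upwards [hs] with b' hb'
    exact integral_G_sq hg (hsP b' hb').1.1
  have h0 : (∫ z, F' b z) = 0 := by
    have h1 := hder.congr_of_eventuallyEq hconst.symm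
    exact h1.unique (hasFDerivAt_const (1 : ℝ) b)
  have hFi : Integrable (F' b) := by
    refine hbdi.mono' ?_ (ae_of_all _ fun z => ?_)
    · refine Continuous.aestronglyMeasurable ?_
      rw [hF']
      exact (continuous_const.mul ((continuous_G g (A b)).pow 2)).smul (hLcont b)
    · simp only [hF', hbd]
      rw [norm_smul, Real.norm_of_nonneg (by positivity)]
      have hbs : b ∈ s := mem_of_mem_nhds hs
      have h1 := (hsP b hbs).1.sq_le hg z
      have h2 := hLn b hbs z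
      have h3 : 0 ≤ G g (A b) z ^ 2 := sq_nonneg _
      have h4 : 0 ≤ (g / π) ^ (Module.finrank ℝ Z / 2 : ℝ) * K * Real.exp (-(g * a) * ‖z‖ ^ 2) :=
        h3.trans h1
      gcongr
  have h1 : (∫ z, F' b z) v = ∫ z, (F' b z) v := by
    exact ContinuousLinearMap.integral_apply hFi v
  rw [h0] at h1
  have h2 : ∫ z, (F' b z) v = 2 * ∫ z : Z, G g (A b) z ^ 2 *
      (l b v - (g / 2) * ⟪z, (fderiv ℝ A b v) z⟫_ℝ) := by
    rw [← integral_const_mul]
    congr 1; funext z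
    simp only [hF', hL, ContinuousLinearMap.smul_apply, ContinuousLinearMap.sub_apply,
      ContinuousLinearMap.comp_apply, ContinuousLinearMap.apply_apply, innerSL_apply_apply,
      smul_eq_mul]
    ring
  rw [h2] at h1
  simpa using h1.symm

end param

end gauss

end Crest.Agent.R330.GPar984
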