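import Crest.Agent.R330.TDef_414
import Crest.Agent.R330.TCore_944
import Crest.Agent.R330.GPar_984

/-!
# Row 330, S8 (T1): the trial states are core vectors (helper383)

* geometry of a chart: `act_cf`, `cfT_act`, `PK_act`, `PY_act`, `PM_act`, `PY_mem`, `PM_mem`,
  `cf_mem_Nor`, `norm_decomp`.
* the Gaussian exponent: `A_pos` (positive on `Zt X0` for all `X` of the ball), `Ac` (compression),
  `Ac_pd`, `nI_eq`, `nI_pos`, `contDiffAt_nI`, `contDiffAt_nrm`.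
* the slice function: `contDiffAt_tau`, `sliceFun`, `tau_zero`.
* `core` : `∀ᶠ g in atTop, IsCoreVec b R (Tgen P σ g χ.fn)`, `supp`.
-/

set_option autoImplicit false
set_option linter.unusedSectionVars false

open MeasureTheory Filter Topology Crest.MathPhysics.MatrixQM
open scoped ContDiff InnerProductSpace ENNReal Real

noncomputable section

namespace Crest.Agent.R330.TCore383

open Crest.Agent.R330.Defs478 Crest.Agent.R330.LS839 Crest.Agent.R330.Frame839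
  Crest.Agent.R330.Clus839
  Crest.Agent.R330.Bind6839 Crest.Agent.R330.SlG944 Crest.Agent.R330.SlF944
  Crest.Agent.R330.IBP837 Crest.Agent.R330.FreeC122 Crest.Agent.R330.TDef414
open Crest.Agent.R330.SlB314 (Nor Tan br brx)
open Crest.Agent.R330.SlD314 (tube)
open Crest.Agent.R330.SlA314 (act_inner act_norm act_add act_sub)

variable {N p : ℕ} {b : ColorBasis N} {S : Type} [Group S] [Fintype S] {C : Chn b p S}

local notation "SU" => Matrix.specialUnitaryGroup (Fin N) ℂ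

/-! ## geometry of a chart -/

theorem cf_mem (X : Pos p) : C.cf X ∈ Tup C.kk := fun i => by
  rw [Chn.comp_cf]
  exact C.cen_mem _

theorem Tup_eq {X : Pos p} (hX : C.Reg X) : Tup C.kk = Uk b (C.cf X) := by
  unfold Uk
  rw [hX]

theorem cf_mem_Nor {X : Pos p} (hX : C.Reg X) {y : Cfg N} (hy : y ∈ Tup C.kk) :
    y ∈ Nor b (C.cf X) := by
  rw [← Nor_eq]
  apply Uk_le_Nor
  rwa [← Tup_eq hX]

theorem cf_mem_cenk {X0 : Pos p} (h0 : C.Reg X0) (X : Pos p) :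
    C.cf X ∈ Tup (TCore944.cenk b (C.cf X0)) := by
  intro i
  rw [Chn.comp_cf]
  refine ⟨?_, fun v hv => ?_⟩
  · have h1 : C.cen (pcomp X i) ∈ C.kk := C.cen_mem _
    rwa [← h0] at h1
  · have hv' : v ∈ C.kk := by
      rw [← h0]
      exact hv
    have h1 := C.cen_comm (pcomp X i) v hv'
    have h2 : SlA314.cm b ((colAlg b).br (C.cen (pcomp X i)) v).ofLp = 0 := by
      rw [h1]
      have := SlA314.cm_smul b 0 (0 : Fin (N ^ 2 - 1) → ℝ)
      simpa using this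
    change SlA314.cm b (SlB314.br b (C.cen (pcomp X i)).ofLp v.ofLp) = 0 at h2
    rw [SlB314.cm_br, smul_eq_zero] at h2
    rcases h2 with h2 | h2
    · simp at h2
    · exact (sub_eq_zero.1 h2).symm

/-- the stabiliser of one centre fixes all positions -/
theorem act_cf {X0 : Pos p} (h0 : C.Reg X0) {k : SU} (hk : b.act k (C.cf X0) = C.cf X0)
    (X : Pos p) : b.act k (C.cf X) = C.cf X := TCore944.cen_fixed hk (cf_mem_cenk h0 X)

theorem inner_cfT (u : Cfg N) (X : Pos p) : ⟪C.cfT u, X⟫_ℝ = ⟪u, C.cf X⟫_ℝ := by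
  unfold Chn.cfT
  rw [ContinuousLinearMap.adjoint_inner_left]
  rfl

theorem cfT_act {X0 : Pos p} (h0 : C.Reg X0) {k : SU} (hk : b.act k (C.cf X0) = C.cf X0)
    (u : Cfg N) : C.cfT (b.act k u) = C.cfT u := by
  refine ext_inner_right ℝ fun X => ?_
  rw [inner_cfT, inner_cfT]
  conv_lhs => rw [← act_cf h0 hk X]
  exact act_inner b k u (C.cf X)

theorem PK_act {X0 : Pos p} (h0 : C.Reg X0) {k : SU} (hk : b.act k (C.cf X0) = C.cf X0)
    (u : Cfg N) : C.PK (b.act k u) = b.act k (C.PK u) := by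
  unfold Chn.PK
  have h : TCore944.StabInv b (C.cf X0) (Tup C.kk) := by
    rw [Tup_eq h0]
    exact TCore944.stabInv_uk _
  exact TCore944.proj_act h hk u

theorem PY_act {X0 : Pos p} (h0 : C.Reg X0) {k : SU} (hk : b.act k (C.cf X0) = C.cf X0)
    (u : Cfg N) : C.PY (b.act k u) = b.act k (C.PY u) := by
  unfold Chn.PY
  rw [PK_act h0 hk, cfT_act h0 hk, act_sub, act_cf h0 hk]

theorem PM_act {X0 : Pos p} (h0 : C.Reg X0) {k : SU} (hk : b.act k (C.cf X0) = C.cf X0)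
    (u : Cfg N) : C.PM (b.act k u) = b.act k (C.PM u) := by
  unfold Chn.PM
  rw [PK_act h0 hk, act_sub]

theorem PK_mem (u : Cfg N) : C.PK u ∈ Tup C.kk := Submodule.starProjection_apply_mem _ _

theorem PK_inner (u : Cfg N) {v : Cfg N} (hv : v ∈ Tup C.kk) : ⟪C.PK u, v⟫_ℝ = ⟪u, v⟫_ℝ := by
  have h1 := Submodule.sub_starProjection_mem_orthogonal (K := Tup C.kk) u
  have h2 := (Submodule.mem_orthogonal' _ _).1 h1 v hv
  rw [inner_sub_left] at h2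
  unfold Chn.PK
  linarith

theorem PM_mem_Tup (u : Cfg N) : C.PM u ∈ Tup C.kkᗮ := by
  rw [← Tup_orth]
  exact Submodule.sub_starProjection_mem_orthogonal (K := Tup C.kk) u


theorem PY_mem (u : Cfg N) : C.PY u ∈ C.Blk := by
  refine ⟨Submodule.sub_mem _ (PK_mem u) (cf_mem _), (Submodule.mem_orthogonal' _ _).2 ?_⟩
  rintro _ ⟨X, rfl⟩
  show ⟪C.PY u, C.cf X⟫_ℝ = 0
  unfold Chn.PY
  rw [inner_sub_left, PK_inner u (cf_mem X), C.cf.inner_map_map, inner_cfT, sub_self]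

theorem norm_decomp (u : Cfg N) : ‖u‖ ^ 2 = ‖C.cfT u‖ ^ 2 + ‖C.PY u‖ ^ 2 + ‖C.PM u‖ ^ 2 := by
  have h1 : ⟪C.cf (C.cfT u), C.PY u⟫_ℝ = 0 :=
    (Submodule.mem_orthogonal _ _).1 (PY_mem u).2 _ ⟨C.cfT u, rfl⟩
  have h2 : ⟪C.PK u, C.PM u⟫_ℝ = 0 := by
    have h3 := PM_mem_Tup (C := C) u
    rw [← Tup_orth] at h3
    exact (Submodule.mem_orthogonal _ _).1 h3 _ (PK_mem u)
  have e1 : u = C.PK u + C.PM u := by unfold Chn.PM; abel
  have e2 : C.PK u = C.cf (C.cfT u) + C.PY u := by unfold Chn.PY; abel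
  have h4 : ‖u‖ ^ 2 = ‖C.PK u‖ ^ 2 + ‖C.PM u‖ ^ 2 := by
    conv_lhs => rw [e1]
    rw [@norm_add_sq_real, h2]
    ring
  have h5 : ‖C.PK u‖ ^ 2 = ‖C.cfT u‖ ^ 2 + ‖C.PY u‖ ^ 2 := by
    conv_lhs => rw [e2]
    rw [@norm_add_sq_real, h1, C.cf.norm_map]
    ring
  rw [h4, h5]

theorem norm_cfT_le (u : Cfg N) : ‖C.cfT u‖ ≤ ‖u‖ := by
  have h := norm_decomp (C := C) u
  nlinarith [sq_nonneg ‖C.PY u‖, sq_nonneg ‖C.PM u‖, norm_nonneg u, norm_nonneg (C.cfT u)]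



theorem norm_le_sum (u : Cfg N) : ‖u‖ ≤ ‖C.cfT u‖ + ‖C.PY u‖ + ‖C.PM u‖ := by
  have h := norm_decomp (C := C) u
  nlinarith [norm_nonneg (C.cfT u), norm_nonneg (C.PY u), norm_nonneg (C.PM u), norm_nonneg u,
    mul_nonneg (norm_nonneg (C.cfT u)) (norm_nonneg (C.PY u)),
    mul_nonneg (norm_nonneg (C.cfT u)) (norm_nonneg (C.PM u)),
    mul_nonneg (norm_nonneg (C.PY u)) (norm_nonneg (C.PM u))]

/-- Projections on the sum of the three parts. -/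
theorem cfT_add {X : Pos p} {Y z : Cfg N} (hY : Y ∈ C.Blk) (hz : z ∈ Tup C.kkᗮ) :
    C.cfT (C.cf X + Y + z) = X := by
  refine ext_inner_right ℝ fun X' => ?_
  rw [inner_cfT, inner_add_left, inner_add_left, C.cf.inner_map_map]
  have h1 : ⟪Y, C.cf X'⟫_ℝ = 0 := (Submodule.mem_orthogonal' _ _).1 hY.2 _ ⟨X', rfl⟩
  have h2 : ⟪z, C.cf X'⟫_ℝ = 0 := by
    rw [← Tup_orth] at hz
    exact (Submodule.mem_orthogonal' _ _).1 hz _ (cf_mem X')
  rw [h1, h2, add_zero, add_zero]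




/-! ## the Gaussian exponent -/

variable {F : Type*} [NormedAddCommGroup F] [InnerProductSpace ℂ F] [FiniteDimensional ℂ F]
  {M : FermionRep N F} {R : GaugeAction b M} {G : GammaNine}

theorem Zt_gap {X0 X : Pos p} {r : ℝ} (hg : Good b (C.cf X0) r) (h0 : C.Reg X0) (hX : C.Reg X)
    (hr : ‖X - X0‖ < r) {om : Colg N} (h : actB b om (C.cf X) ∈ Nor b (C.cf X0)) :
    actB b om (C.cf X) = 0 := by
  have hy : C.cf (X - X0) ∈ Nor b (C.cf X0) := cf_mem_Nor h0 (cf_mem _)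
  have hn : ‖C.cf (X - X0)‖ < r := by rwa [C.cf.norm_map]
  have e : C.cf X0 + C.cf (X - X0) = C.cf X := by rw [map_sub]; abel
  have h1 := hg.nondeg (C.cf (X - X0)) om.ofLp hy hn (by rw [e]; exact h)
  have h2 : om ∈ kc (actB b) (C.cf X0) := by
    rw [mem_kc]
    exact h1
  have h3 : om ∈ kc (actB b) (C.cf X) := by rwa [hX, ← h0]
  exact h3

/-- The Gaussian exponent at `X` is positive on the transverse space at `X0`. -/
theorem A_pos (P : TPack C M R G) (σ : Sl C) {X : Pos p} (hr : ‖X - σ.X0‖ < σ.r) {z : Cfg N}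
    (hz : z ∈ C.Zt σ.X0) (hne : z ≠ 0) : 0 < ⟪P.A X z, z⟫_ℝ := by
  have hB : C.Reg X := σ.reg X hr
  have hB0 : C.Reg σ.X0 := σ.reg σ.X0 (by simpa using σ.pos)
  rcases (P.A_nonneg X z).lt_or_eq with h | h
  · exact h
  exfalso
  apply hne
  -- decomposition at `X`
  set T := Tan b (C.cf X) with hT
  set t := T.starProjection z with ht
  have htT : t ∈ T := Submodule.starProjection_apply_mem _ _
  obtain ⟨om, hom⟩ := htT
  have hom' : actB b (WithLp.toLp 2 om) (C.cf X) = t := hom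
  have hz' : z - t ∈ Nor b (C.cf X) := Submodule.sub_starProjection_mem_orthogonal (K := T) z
  have htk : t ∈ Tup C.kkᗮ := by
    have h1 : t ∈ Tn (actB b) (C.cf X) := ⟨WithLp.toLp 2 om, hom'⟩
    have h2 := Tn_le_Mm h1
    unfold Mm at h2
    rwa [hB] at h2
  have hzt : z - t ∈ C.Zt X := ⟨Submodule.sub_mem _ hz.1 htk, hz'⟩
  have hAt : P.A X t = 0 := by
    rw [← hom']
    exact P.A_gauge X hB _
  obtain ⟨c, ε, hc, hε, hlow⟩ := P.A_low X hB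
  have h1 := hlow X (by simpa using hε) (z - t) hzt
  have h2 : ⟪P.A X (z - t), z - t⟫_ℝ = 0 := by
    rw [map_sub, hAt, sub_zero, inner_sub_right, ← h, P.A_symm X z t, hAt, inner_zero_right,
      sub_zero]
  rw [h2] at h1
  have h3 : ‖z - t‖ ^ 2 = 0 := by
    have := sq_nonneg ‖z - t‖
    nlinarith
  have h4 : z - t = 0 := norm_eq_zero.1 (pow_eq_zero_iff (two_ne_zero) |>.1 h3)
  have h5 : z = t := sub_eq_zero.1 h4
  have h6 : actB b (WithLp.toLp 2 om) (C.cf X) = 0 := by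
    refine Zt_gap σ.good hB0 hB hr ?_
    rw [hom', ← h5]
    exact hz.2
  rw [h5, ← hom', h6]

/-- The compression of the exponent to the transverse space at the centre. -/
def Ac (P : TPack C M R G) (σ : Sl C) (X : Pos p) : C.Zt σ.X0 →L[ℝ] C.Zt σ.X0 :=
  (C.Zt σ.X0).orthogonalProjectionOnto ∘L (P.A X) ∘L (C.Zt σ.X0).subtypeL

theorem inner_Ac (P : TPack C M R G) (σ : Sl C) (X : Pos p) (z z' : C.Zt σ.X0) :
    ⟪Ac P σ X z, z'⟫_ℝ = ⟪P.A X z, z'⟫_ℝ := by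
  have h : ((Ac P σ X z : C.Zt σ.X0) : Cfg N) = (C.Zt σ.X0).starProjection (P.A X z) := rfl
  change ⟪((Ac P σ X z : C.Zt σ.X0) : Cfg N), (z' : Cfg N)⟫_ℝ = _
  rw [h]
  have h1 := Submodule.sub_starProjection_mem_orthogonal (K := C.Zt σ.X0) (P.A X z)
  have h2 := (Submodule.mem_orthogonal' _ _).1 h1 z' z'.2
  rw [inner_sub_left] at h2
  linarith

theorem Ac_sy (P : TPack C M R G) (σ : Sl C) (X : Pos p) : SqrtPD984.Sy (Ac P σ X) := by
  intro z z'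
  rw [inner_Ac, P.A_symm, real_inner_comm, ← inner_Ac, real_inner_comm]

theorem Ac_pd (P : TPack C M R G) (σ : Sl C) {X : Pos p} (hr : ‖X - σ.X0‖ < σ.r) :
    SqrtPD984.PD (Ac P σ X) := by
  refine ⟨Ac_sy P σ X, fun z hz => ?_⟩
  rw [inner_Ac]
  exact A_pos P σ hr z.2 fun h => hz (Subtype.ext h)

theorem contDiffAt_Ac (P : TPack C M R G) (σ : Sl C) {X : Pos p} (hr : ‖X - σ.X0‖ < σ.r) :
    ContDiffAt ℝ ∞ (Ac P σ) X := by
  have h1 := P.A_smooth X (σ.reg X hr)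
  exact contDiffAt_const.clm_comp (h1.clm_comp contDiffAt_const)

theorem nI_eq (P : TPack C M R G) (σ : Sl C) {g : ℝ} (hg : 0 < g) {X : Pos p}
    (hr : ‖X - σ.X0‖ < σ.r) : nI P σ g X =
      (π / g) ^ (Module.finrank ℝ (C.Zt σ.X0) / 2 : ℝ) / |GPar984.dt (SqrtPD984.psq (Ac P σ X))| := by
  unfold nI
  rw [← GPar984.integral_exp_quad (Ac_pd P σ hr) hg]
  refine integral_congr_ae (ae_of_all _ fun z => ?_)
  simp only
  rw [inner_Ac, neg_mul]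

theorem dt_pos (P : TPack C M R G) (σ : Sl C) {X : Pos p} (hr : ‖X - σ.X0‖ < σ.r) :
    0 < |GPar984.dt (SqrtPD984.psq (Ac P σ X))| :=
  abs_pos.mpr (GPar984.dt_ne_zero (SqrtPD984.psq_pd (Ac_pd P σ hr)))

theorem nI_pos (P : TPack C M R G) (σ : Sl C) {g : ℝ} (hg : 0 < g) {X : Pos p}
    (hr : ‖X - σ.X0‖ < σ.r) : 0 < nI P σ g X := by
  rw [nI_eq P σ hg hr]
  have := dt_pos P σ hr
  positivity

theorem ball_eventually (σ : Sl C) {X : Pos p} (hr : ‖X - σ.X0‖ < σ.r) :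
    ∀ᶠ X' in 𝓝 X, ‖X' - σ.X0‖ < σ.r := by
  have h : Continuous fun X' : Pos p => ‖X' - σ.X0‖ := by fun_prop
  exact h.continuousAt.eventually (isOpen_Iio.mem_nhds hr)

theorem contDiffAt_dt (P : TPack C M R G) (σ : Sl C) {X : Pos p} (hr : ‖X - σ.X0‖ < σ.r) :
    ContDiffAt ℝ ∞ (fun X => |GPar984.dt (SqrtPD984.psq (Ac P σ X))|) X := by
  have h1 := GPar984.contDiffAt_nrm (m := ∞) (by simp) (contDiffAt_Ac P σ hr)
    (Eventually.of_forall fun X' => Ac_sy P σ X') (Ac_pd P σ hr)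
  have h2 := h1.pow 2
  refine h2.congr_of_eventuallyEq (Eventually.of_forall fun X' => ?_)
  exact (Real.sq_sqrt (abs_nonneg _)).symm

theorem contDiffAt_nI (P : TPack C M R G) (σ : Sl C) {g : ℝ} (hg : 0 < g) {X : Pos p}
    (hr : ‖X - σ.X0‖ < σ.r) : ContDiffAt ℝ ∞ (nI P σ g) X := by
  refine (contDiffAt_const.div (contDiffAt_dt P σ hr) (dt_pos P σ hr).ne').congr_of_eventuallyEq
    (f := fun X => (π / g) ^ (Module.finrank ℝ (C.Zt σ.X0) / 2 : ℝ) /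
      |GPar984.dt (SqrtPD984.psq (Ac P σ X))|) ?_
  filter_upwards [ball_eventually σ hr] with X' hX'
  exact nI_eq P σ hg hX'

theorem cf_ball (σ : Sl C) {X : Pos p} (hr : ‖X - σ.X0‖ < σ.r) :
    C.cf (X - σ.X0) ∈ Nor b (C.cf σ.X0) ∧ ‖C.cf (X - σ.X0)‖ < σ.r :=
  ⟨cf_mem_Nor (σ.reg σ.X0 (by simpa using σ.pos)) (cf_mem _), by rwa [C.cf.norm_map]⟩

theorem nrm_pos (P : TPack C M R G) (σ : Sl C) {g : ℝ} (hg : 0 < g) {X : Pos p}
    (hr : ‖X - σ.X0‖ < σ.r) : 0 < nrm P σ g X := by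
  obtain ⟨h1, h2⟩ := cf_ball σ hr
  exact Real.sqrt_pos.2 (div_pos (σ.jpos _ h1 h2) (nI_pos P σ hg hr))

theorem nrm_sq (P : TPack C M R G) (σ : Sl C) {g : ℝ} (hg : 0 < g) {X : Pos p}
    (hr : ‖X - σ.X0‖ < σ.r) : nrm P σ g X ^ 2 = σ.j (C.cf (X - σ.X0)) / nI P σ g X := by
  obtain ⟨h1, h2⟩ := cf_ball σ hr
  exact Real.sq_sqrt (div_pos (σ.jpos _ h1 h2) (nI_pos P σ hg hr)).le

theorem contDiffAt_nrm (P : TPack C M R G) (σ : Sl C) {g : ℝ} (hg : 0 < g) {X : Pos p}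
    (hr : ‖X - σ.X0‖ < σ.r) : ContDiffAt ℝ ∞ (nrm P σ g) X := by
  obtain ⟨h1, h2⟩ := cf_ball σ hr
  have h3 : ContDiffAt ℝ ∞ (fun X : Pos p => C.cf (X - σ.X0)) X :=
    C.cf.toContinuousLinearMap.contDiff.contDiffAt.comp X (contDiffAt_id.sub contDiffAt_const)
  have h4 : ContDiffAt ℝ ∞ (fun X : Pos p => σ.j (C.cf (X - σ.X0))) X :=
    (σ.smooth _ h1 h2).comp X h3
  have h5 := nI_pos P σ hg hr
  exact (Real.contDiffAt_sqrt (div_pos (σ.jpos _ h1 h2) h5).ne').comp X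
    (h4.div (contDiffAt_nI P σ hg hr) h5.ne')

/-! ## the slice function -/

theorem cfT_ball (σ : Sl C) {y : Cfg N} (hy : ‖y‖ < σ.r) :
    ‖σ.X0 + C.cfT y - σ.X0‖ < σ.r := by
  rw [add_sub_cancel_left]
  exact (norm_cfT_le y).trans_lt hy

theorem contDiff_cfT : ContDiff ℝ ∞ (C.cfT) := C.cfT.contDiff

theorem contDiff_PK : ContDiff ℝ ∞ (C.PK) := C.PK.contDiff

theorem contDiff_PM : ContDiff ℝ ∞ (C.PM) := contDiff_id.sub contDiff_PK

theorem contDiff_PY : ContDiff ℝ ∞ (C.PY) :=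
  contDiff_PK.sub (C.cf.toContinuousLinearMap.contDiff.comp contDiff_cfT)

/-- The scalar factor of the trial function. -/
def aT (P : TPack C M R G) (σ : Sl C) (g : ℝ) (u : Cfg N) : ℝ :=
  nrm P σ g (σ.X0 + C.cfT u) * kap σ.r (‖C.PM u‖ ^ 2) *
    Real.exp (-(g / 2 * ⟪P.A (σ.X0 + C.cfT u) (C.PM u), C.PM u⟫_ℝ))

/-- The vector factor of the trial function. -/
def wT (P : TPack C M R G) (σ : Sl C) (g : ℝ) (χ : Pos p → C.Fx M G) (u : Cfg N) : F :=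
  P.U (σ.X0 + C.cfT u) (P.Psi g (C.PY u) (χ (σ.X0 + C.cfT u) : F))

theorem tau_eq (P : TPack C M R G) (σ : Sl C) (g : ℝ) (χ : Pos p → C.Fx M G) (u : Cfg N) :
    tau P σ g χ u = ((aT P σ g u : ℝ) : ℂ) • wT P σ g χ u := rfl

theorem contDiffAt_pos (σ : Sl C) (y : Cfg N) :
    ContDiffAt ℝ ∞ (fun u : Cfg N => σ.X0 + C.cfT u) y :=
  contDiffAt_const.add contDiff_cfT.contDiffAt

theorem contDiffAt_aT (P : TPack C M R G) (σ : Sl C) {g : ℝ} (hg : 0 < g) {y : Cfg N}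
    (hy : ‖σ.X0 + C.cfT y - σ.X0‖ < σ.r) : ContDiffAt ℝ ∞ (aT P σ g) y := by
  have hX := contDiffAt_pos (C := C) σ y
  have h1 : ContDiffAt ℝ ∞ (fun u : Cfg N => nrm P σ g (σ.X0 + C.cfT u)) y :=
    ContDiffAt.comp (g := nrm P σ g) (f := fun u : Cfg N => σ.X0 + C.cfT u) y
      (contDiffAt_nrm P σ hg hy) hX
  have h2 : ContDiffAt ℝ ∞ (fun u : Cfg N => kap σ.r (‖C.PM u‖ ^ 2)) y :=
    ((contDiff_kap σ.r).comp ((contDiff_norm_sq ℝ).comp contDiff_PM)).contDiffAt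
  have hA : ContDiffAt ℝ ∞ (fun u : Cfg N => P.A (σ.X0 + C.cfT u)) y :=
    (P.A_smooth _ (σ.reg _ hy)).comp y hX
  have h3 : ContDiffAt ℝ ∞ (fun u : Cfg N => ⟪P.A (σ.X0 + C.cfT u) (C.PM u), C.PM u⟫_ℝ) y :=
    (hA.clm_apply contDiff_PM.contDiffAt).inner ℝ contDiff_PM.contDiffAt
  exact (h1.mul h2).mul (contDiffAt_const.mul h3).neg.exp

theorem contDiffAt_wT' (P : TPack C M R G) (σ : Sl C) {g : ℝ} (hΨ : ContDiff ℝ ∞ (P.Psi g))
    {χ : Pos p → C.Fx M G} (hχ : ContDiff ℝ ∞ χ) {y : Cfg N}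
    (hy : C.BReg (σ.X0 + C.cfT y)) : ContDiffAt ℝ ∞ (wT P σ g χ) y := by
  have hX := contDiffAt_pos (C := C) σ y
  have hχ' : ContDiff ℝ ∞ (fun X : Pos p => ((χ X : C.Fx M G) : F)) :=
    (((C.Fx M G).subtypeL).restrictScalars ℝ).contDiff.comp hχ
  have h1 : ContDiffAt ℝ ∞ (fun u : Cfg N => ((χ (σ.X0 + C.cfT u) : C.Fx M G) : F)) y :=
    hχ'.contDiffAt.comp y hX
  have hR : ContDiff ℝ ∞ (fun L : F →L[ℂ] F => L.restrictScalars ℝ) :=
    (ContinuousLinearMap.restrictScalarsL ℂ F F ℝ ℝ).contDiff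
  have h2 : ContDiffAt ℝ ∞ (fun u : Cfg N => (P.Psi g (C.PY u)).restrictScalars ℝ) y :=
    hR.contDiffAt.comp y (hΨ.comp contDiff_PY).contDiffAt
  have h3 : ContDiffAt ℝ ∞ (fun u : Cfg N => (P.U (σ.X0 + C.cfT u)).restrictScalars ℝ) y :=
    hR.contDiffAt.comp y ((P.U_smooth _ hy).comp y hX)
  exact h3.clm_apply (h2.clm_apply h1)

theorem wT_eventually (P : TPack C M R G) (σ : Sl C) (g : ℝ) (χ : Pos p → C.Fx M G) {y : Cfg N}
    (hy : σ.X0 + C.cfT y ∉ tsupport χ) : wT P σ g χ =ᶠ[𝓝 y] fun _ => 0 := by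
  have h1 : ∀ᶠ u in 𝓝 y, σ.X0 + C.cfT u ∉ tsupport χ :=
    (contDiffAt_pos (C := C) σ y).continuousAt.eventually
      ((isClosed_tsupport χ).isOpen_compl.mem_nhds hy)
  filter_upwards [h1] with u hu
  unfold wT
  rw [image_eq_zero_of_notMem_tsupport hu]
  simp

theorem contDiffAt_wT (P : TPack C M R G) (σ : Sl C) {g : ℝ} (hΨ : ContDiff ℝ ∞ (P.Psi g))
    (χ : Amp M G σ) (y : Cfg N) : ContDiffAt ℝ ∞ (wT P σ g χ.fn) y := by
  by_cases h : σ.X0 + C.cfT y ∈ tsupport χ.fn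
  · exact contDiffAt_wT' P σ hΨ χ.smooth (χ.off _ h)
  · exact contDiffAt_const.congr_of_eventuallyEq (wT_eventually P σ g χ.fn h)

theorem contDiffAt_tau (P : TPack C M R G) (σ : Sl C) {g : ℝ} (hg : 0 < g)
    (hΨ : ContDiff ℝ ∞ (P.Psi g)) (χ : Amp M G σ) {y : Cfg N}
    (hy : ‖σ.X0 + C.cfT y - σ.X0‖ < σ.r) : ContDiffAt ℝ ∞ (tau P σ g χ.fn) y :=
  (Complex.ofRealCLM.contDiff.contDiffAt.comp y (contDiffAt_aT P σ hg hy)).smul
    (contDiffAt_wT P σ hΨ χ y)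

theorem aT_act (P : TPack C M R G) (σ : Sl C) (g : ℝ) {k : SU}
    (hk : b.act k (C.cf σ.X0) = C.cf σ.X0) {y : Cfg N} (hy : ‖σ.X0 + C.cfT y - σ.X0‖ < σ.r) :
    aT P σ g (b.act k y) = aT P σ g y := by
  have h0 : C.Reg σ.X0 := σ.reg σ.X0 (by simpa using σ.pos)
  have hB : C.Reg (σ.X0 + C.cfT y) := σ.reg _ hy
  unfold aT
  rw [cfT_act h0 hk, PM_act h0 hk, act_norm,
    P.A_cov k _ _ hB hB (act_cf h0 hk _), act_inner]

theorem wT_act (P : TPack C M R G) (σ : Sl C) (g : ℝ) (χ : Pos p → C.Fx M G) {k : SU}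
    (hk : b.act k (C.cf σ.X0) = C.cf σ.X0) {y : Cfg N}
    (hy : χ (σ.X0 + C.cfT y) ≠ 0 → C.BReg (σ.X0 + C.cfT y)) :
    wT P σ g χ (b.act k y) = R.ρ k (wT P σ g χ y) := by
  have h0 : C.Reg σ.X0 := σ.reg σ.X0 (by simpa using σ.pos)
  by_cases hχ : χ (σ.X0 + C.cfT y) = 0
  · unfold wT
    rw [cfT_act h0 hk, hχ]
    simp
  have hB : C.BReg (σ.X0 + C.cfT y) := hy hχ
  have hX := act_cf h0 hk (σ.X0 + C.cfT y)
  unfold wT
  rw [cfT_act h0 hk, PY_act h0 hk]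
  set f : F := (χ (σ.X0 + C.cfT y) : F) with hf
  have hfm : f ∈ C.Fx M G := (χ (σ.X0 + C.cfT y)).2
  have h1 := (P.Psi_cov k _ _ hB.reg hB.reg hX g (C.PY y) (PY_mem y) f hfm).2
  rw [P.stab_fix k _ hB.reg hX f hfm] at h1
  rw [← h1]
  exact ((P.U_cov k _ _ hB hB hX _ (P.Psi_mem g _ (PY_mem y) f hfm)).2).symm

theorem tau_act (P : TPack C M R G) (σ : Sl C) (g : ℝ) (χ : Amp M G σ) {k : SU}
    (hk : b.act k (C.cf σ.X0) = C.cf σ.X0) {y : Cfg N} (hy : ‖σ.X0 + C.cfT y - σ.X0‖ < σ.r) :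
    tau P σ g χ.fn (b.act k y) = R.ρ k (tau P σ g χ.fn y) := by
  rw [tau_eq, tau_eq, aT_act P σ g hk hy,
    wT_act P σ g χ.fn hk fun h => χ.off _ (subset_tsupport _ h), map_smul]

/-- the slice function of the trial state -/
def ft (P : TPack C M R G) (σ : Sl C) (g : ℝ) (χ : Pos p → C.Fx M G) (u : Cfg N) : F :=
  (((σ.j u)⁻¹ : ℝ) : ℂ) • tau P σ g χ u

theorem Tgen_eq (P : TPack C M R G) (σ : Sl C) (g : ℝ) (χ : Pos p → C.Fx M G) :
    Tgen P σ g χ = ext R (C.cf σ.X0) σ.r (ft P σ g χ) := rfl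

theorem sliceFun (P : TPack C M R G) (σ : Sl C) (g : ℝ) (χ : Amp M G σ) :
    IsSliceFun R (C.cf σ.X0) σ.r (ft P σ g χ.fn) := by
  intro k y hk hy hr
  unfold ft
  rw [σ.inv k hk y hy hr, tau_act P σ g χ hk (cfT_ball σ hr), map_smul]

/-- values of the trial state on the tube -/
theorem Tgen_apply (P : TPack C M R G) (σ : Sl C) (g : ℝ) (χ : Amp M G σ) (h : SU)
    {y : Cfg N} (hy : y ∈ Nor b (C.cf σ.X0)) (hr : ‖y‖ < σ.r) :
    Tgen P σ g χ.fn (b.act h (C.cf σ.X0 + y)) =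
      R.ρ h ((((σ.j y)⁻¹ : ℝ) : ℂ) • tau P σ g χ.fn y) :=
  ext_apply R σ.good (sliceFun P σ g χ) h hy hr

theorem Tgen_slice (P : TPack C M R G) (σ : Sl C) (g : ℝ) (χ : Amp M G σ)
    {y : Cfg N} (hy : y ∈ Nor b (C.cf σ.X0)) (hr : ‖y‖ < σ.r) :
    Tgen P σ g χ.fn (C.cf σ.X0 + y) = (((σ.j y)⁻¹ : ℝ) : ℂ) • tau P σ g χ.fn y :=
  ext_slice R σ.good (sliceFun P σ g χ) hy hr

theorem Tgen_off (P : TPack C M R G) (σ : Sl C) (g : ℝ) (χ : Pos p → C.Fx M G) {x : Cfg N}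
    (hx : x ∉ tube b (C.cf σ.X0) σ.r) : Tgen P σ g χ x = 0 := ext_off R _ hx

theorem Tgen_act (P : TPack C M R G) (σ : Sl C) (g : ℝ) (χ : Amp M G σ) (h : SU)
    (x : Cfg N) : Tgen P σ g χ.fn (b.act h x) = R.ρ h (Tgen P σ g χ.fn x) :=
  ext_equivariant R σ.good (sliceFun P σ g χ) h x

/-- the trial function is supported in small balls -/
theorem tau_ne (P : TPack C M R G) (σ : Sl C) (g : ℝ) (χ : Amp M G σ) {y : Cfg N}
    (h : tau P σ g χ.fn y ≠ 0) : σ.X0 + C.cfT y ∈ tsupport χ.fn ∧ ‖C.cfT y‖ < σ.r / 4 ∧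
      ‖C.PY y‖ < P.s g ∧ ‖C.PM y‖ < σ.r / 4 := by
  have h1 : χ.fn (σ.X0 + C.cfT y) ≠ 0 := by
    intro h0
    apply h
    rw [tau_eq]
    unfold wT
    rw [h0]
    simp
  have h2 := subset_tsupport _ h1
  refine ⟨h2, ?_, ?_, ?_⟩
  · have h3 := χ.supp h2
    rw [Metric.mem_ball, dist_eq_norm, add_sub_cancel_left] at h3
    exact h3
  · by_contra h3
    apply h
    rw [tau_eq]
    unfold wT
    rw [P.Psi_supp g _ (PY_mem y) (not_lt.1 h3)]
    simp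
  · by_contra h3
    apply h
    rw [tau_eq]
    unfold aT
    rw [kap_zero σ.pos (by
      have h4 := not_lt.1 h3
      have h5 := σ.pos
      nlinarith [norm_nonneg (C.PM y)])]
    simp

/-- **(T1)** the trial states are core vectors -/
theorem core [Nontrivial F] (P : TPack C M R G) (σ : Sl C) (χ : Amp M G σ) :
    ∀ᶠ g in atTop, IsCoreVec b R (Tgen P σ g χ.fn) := by
  have hs : ∀ᶠ g in atTop, P.s g < σ.r / 4 :=
    P.s_lim.eventually (isOpen_Iio.mem_nhds (by have := σ.pos; simp only [Set.mem_Iio]; linarith))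
  filter_upwards [P.Psi_smooth, hs, eventually_gt_atTop 0] with g hΨ hsg hg
  rw [Tgen_eq]
  have hr' : 3 * σ.r / 4 < σ.r := by have := σ.pos; linarith
  refine ext_core' R σ.good (sliceFun P σ g χ) (fun y hy hr => ?_) hr' fun y hy h1 h2 => ?_
  · have h3 := contDiffAt_tau P σ hg hΨ χ (cfT_ball σ hr)
    have h4 := (σ.smooth y hy hr).inv (σ.jpos y hy hr).ne'
    exact (Complex.ofRealCLM.contDiff.contDiffAt.comp y h4).smul h3
  · by_contra h3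
    have h4 : tau P σ g χ.fn y ≠ 0 := by
      intro h5
      apply h3
      unfold ft
      rw [h5, smul_zero]
    obtain ⟨-, h5, h6, h7⟩ := tau_ne P σ g χ h4
    have h8 := norm_le_sum (C := C) y
    linarith

/-- **(T1)** supports: away from the origin and bounded -/
theorem supp (h0 : ¬ C.BReg 0) (P : TPack C M R G) (σ : Sl C) (χ : Amp M G σ) :
    ∃ δ ρ : ℝ, 0 < δ ∧ 0 < ρ ∧ ∀ g, ∀ x, Tgen P σ g χ.fn x ≠ 0 → δ ≤ ‖x‖ ∧ ‖x‖ ≤ ρ := by
  have hK : IsCompact (tsupport χ.fn) := χ.compact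
  have h1 : (0 : Pos p) ∉ tsupport χ.fn := by
    exact fun h => h0 (χ.off _ h)
  obtain ⟨δ, hδ, hδ'⟩ : ∃ δ > 0, ∀ X ∈ tsupport χ.fn, δ ≤ ‖X‖ := by
    have h2 : (tsupport χ.fn)ᶜ ∈ 𝓝 (0 : Pos p) :=
      (isClosed_tsupport _).isOpen_compl.mem_nhds h1
    obtain ⟨δ, hδ, h3⟩ := Metric.mem_nhds_iff.1 h2
    refine ⟨δ, hδ, fun X hX => ?_⟩
    by_contra h4
    exact h3 (by simpa using not_le.1 h4) hX
  refine ⟨δ, ‖C.cf σ.X0‖ + σ.r, hδ, by have := σ.pos; positivity, fun g x hx => ?_⟩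
  have hx' : x ∈ tube b (C.cf σ.X0) σ.r := by
    by_contra h
    exact hx (Tgen_off P σ g χ.fn h)
  obtain ⟨h, y, hy, hr, rfl⟩ := (SlD314.mem_tube_iff b _ _ x).1 hx'
  rw [Tgen_apply P σ g χ h hy hr] at hx
  have h2 : tau P σ g χ.fn y ≠ 0 := by
    intro h3
    apply hx
    rw [h3, smul_zero, map_zero]
  obtain ⟨h3, -, -, -⟩ := tau_ne P σ g χ h2
  rw [act_norm]
  constructor
  · have h4 : C.cfT (C.cf σ.X0 + y) = σ.X0 + C.cfT y := by rw [map_add, Chn.cfT_cf]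
    have h5 := norm_cfT_le (C := C) (C.cf σ.X0 + y)
    rw [h4] at h5
    exact (hδ' _ h3).trans h5
  · exact (norm_add_le _ _).trans (by gcongr)

end Crest.Agent.R330.TCore383

end
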