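import Crest.Agent.R330.BrT5_658
import Crest.Agent.R330.SlInt_658
import Crest.Agent.R330.PairL_862
import Crest.Agent.R330.Brid_837
import Crest.Agent.R330.Split_149
import Crest.Agent.R330.TCore_383

-- ▼ part R330/BrT5b_658
section

/-!
# Row 330, S8-T5: the bridge to the pairing in product coordinates (helper658)

`c = C.cf σ.X0`, `L ⊕ Z = Nor b c` a decomposition `h : Dec (actB b) c L Z`.

* `integral_LZ`   : the integral over the slice in the coordinates `L × Z`.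
* `continuous_QdP`, `hcs_QdP` : regularity of the adjoint slice charge.
* `bridge`        : `∫ ⟪φ, dcharge T - T'⟫ = ∫_{L × Z} ⟪φ (c + p + z), QdP τ - τ'⟫` for
  `T = ext (j⁻¹ t)`, `T' = ext (j⁻¹ t')`, `τ x = t (x.1 + x.2)`.
* `bridge_gen`    : the same for `T = Tgen P σ g χ`, `T' = Tgen P σ g χ'`.
-/

set_option autoImplicit false
set_option linter.unusedSectionVars false

open MeasureTheory Filter Topology Crest.MathPhysics.MatrixQM
open scoped ContDiff InnerProductSpace ENNReal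

noncomputable section

namespace Crest.Agent.R330.BrT5b658

open Crest.Agent.R330.Defs478 Crest.Agent.R330.LS839 Crest.Agent.R330.Frame839
  Crest.Agent.R330.Clus839 Crest.Agent.R330.Bind6839 Crest.Agent.R330.TDef414
  Crest.Agent.R330.SlG944 Crest.Agent.R330.IBP837 Crest.Agent.R330.PairA547
  Crest.Agent.R330.PairB547 Crest.Agent.R330.PairE547 Crest.Agent.R330.PairL_862
  Crest.Agent.R330.SlInt658 Crest.Agent.R330.BrT5658 Crest.Agent.R330.Split149
open Crest.Agent.R330.SlB314 (Nor Tan)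
open Crest.Agent.R330.SlD314 (tube)

/-! ## Regularity of `QdP` -/

section generic

variable {V E : Type*} [NormedAddCommGroup V] [InnerProductSpace ℝ V] [FiniteDimensional ℝ V]
  [NormedAddCommGroup E] [InnerProductSpace ℝ E] [FiniteDimensional ℝ E]
  {F : Type*} [NormedAddCommGroup F] [InnerProductSpace ℂ F] [FiniteDimensional ℂ F]
  {ι κ η : Type*} [Fintype ι] [Fintype κ] [Fintype η]
  {A : V →L[ℝ] E →L[ℝ] E} {c : E} {L Z : Submodule ℝ E} {r B : ℝ}

theorem QdP_zero (h : Dec A c L Z) (Θ : E →ₗ[ℝ] (F →ₗ[ℂ] F)) (W : E → (F →ₗ[ℂ] F))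
    (Bf : V →ₗ[ℝ] (F →ₗ[ℝ] F)) (eT : OrthonormalBasis η ℝ (Tn A c))
    (u : OrthonormalBasis ι ℝ L) (v : OrthonormalBasis κ ℝ Z) {τ : L × Z → F} {x : L × Z}
    (h0 : τ =ᶠ[𝓝 x] 0) : QdP h Θ W Bf eT u v τ x = 0 := by
  have h3 : fderiv ℝ τ x = 0 := by
    rw [h0.fderiv_eq]
    simp
  have h4 : τ x = 0 := h0.self_of_nhds
  unfold QdP
  rw [h3, h4]
  simp

theorem hcs_QdP (h : Dec A c L Z) (Θ : E →ₗ[ℝ] (F →ₗ[ℂ] F)) (W : E → (F →ₗ[ℂ] F))
    (Bf : V →ₗ[ℝ] (F →ₗ[ℝ] F)) (eT : OrthonormalBasis η ℝ (Tn A c))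
    (u : OrthonormalBasis ι ℝ L) (v : OrthonormalBasis κ ℝ Z) {τ : L × Z → F}
    (hc : HasCompactSupport τ) : HasCompactSupport (QdP h Θ W Bf eT u v τ) := by
  refine HasCompactSupport.intro hc fun x hx => ?_
  exact QdP_zero h Θ W Bf eT u v (notMem_tsupport_iff_eventuallyEq.mp hx)

theorem continuous_QdP (h : Dec A c L Z) (hr0 : 0 < r) (hr : GapAt A c r) (hB : ActBound A B)
    (Θ : E →ₗ[ℝ] (F →ₗ[ℂ] F)) {W : E → (F →ₗ[ℂ] F)} (hWc : ∀ v, Continuous fun x => W x v)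
    (Bf : V →ₗ[ℝ] (F →ₗ[ℝ] F)) (eT : OrthonormalBasis η ℝ (Tn A c))
    (u : OrthonormalBasis ι ℝ L) (v : OrthonormalBasis κ ℝ Z) {τ : L × Z → F}
    (hτ : ContDiff ℝ 1 τ) (hs : ∀ x ∈ tsupport τ, B * ‖(x.1 : E) + x.2‖ ≤ r / 2) :
    Continuous (QdP h Θ W Bf eT u v τ) := by
  have hWL : Continuous fun x => LinearMap.toContinuousLinearMap (W x) := by
    rw [continuous_clm_apply]
    exact hWc
  have : FiniteDimensional ℝ F := FiniteDimensional.complexToReal F
  set eN := norB h u v with heN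
  set τN : (Tn A c)ᗮ → F := fun w => τ ((eLZ h).symm w) with hτN
  have hτN1 : ContDiff ℝ 1 τN := hτ.comp (eLZ h).symm.contDiff
  have hts : ∀ w ∈ tsupport τN, (eLZ h).symm w ∈ tsupport τ := by
    intro w hw
    have h1 : tsupport τN = (eLZ h).symm ⁻¹' tsupport τ :=
      tsupport_comp_eq_preimage τ (eLZ h).symm.toHomeomorph
    rw [h1] at hw
    exact hw
  have hsN : ∀ w ∈ tsupport τN, B * ‖w‖ ≤ r / 2 := by
    intro w hw
    have h2 := hs _ (hts w hw)
    have h3 : ((((eLZ h).symm w).1 : E) + (((eLZ h).symm w).2 : E)) = w := by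
      rw [← eLZ_coe h, ContinuousLinearEquiv.apply_symm_apply]
    rw [h3] at h2
    exact h2
  -- continuity of `Qd`
  have hlin : ContDiff ℝ 1 (fun v : (Tn A c)ᗮ => c + (v : E)) :=
    contDiff_const.add ((Tn A c)ᗮ.subtypeL).contDiff
  have hQ : Continuous (Qd A c Θ W Bf eT eN τN) := by
    unfold Qd
    refine ((Continuous.add ?_ ?_).add ?_).add ?_
    · refine continuous_finsetSum _ fun n _ => Continuous.const_smul ?_ _
      exact ((LinearMap.toContinuousLinearMap ((Θ (eN n)).restrictScalars ℝ)).continuous).comp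
        (fderiv_apply_continuous hτN1 _)
    · exact (hWL.comp hlin.continuous).clm_apply hτN1.continuous
    · refine continuous_finsetSum _ fun t _ => ?_
      exact (contDiff_Bom (m := 1) hr0 hr hB Bf (eT t) hτN1 hsN (Θ (eT t))).continuous.const_smul _
    · refine continuous_finsetSum _ fun n _ => continuous_finsetSum _ fun t _ =>
        Continuous.const_smul ?_ _
      exact ((LinearMap.toContinuousLinearMap ((Θ (eT t)).restrictScalars ℝ)).continuous).comp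
        (fderiv_apply_continuous
          (contDiff_cf_smul (m := 1) hr0 hr hB eT eN n t hτN1 hsN) _)
  have hQ2 : QdP h Θ W Bf eT u v τ = fun x => Qd A c Θ W Bf eT eN τN (eLZ h x) := by
    funext x
    by_cases hx : x ∈ tsupport τ
    · exact (Qd_eq h hr0 hr hB Θ W Bf eT u v (hτ.differentiable one_ne_zero x) (hs x hx)).symm
    · have h0 : τ =ᶠ[𝓝 x] 0 := notMem_tsupport_iff_eventuallyEq.mp hx
      have h6 : τN =ᶠ[𝓝 (eLZ h x)] 0 := by
        have h7 : Tendsto (eLZ h).symm (𝓝 (eLZ h x)) (𝓝 x) := by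
          have := (eLZ h).symm.continuous.tendsto (eLZ h x)
          rwa [(eLZ h).symm_apply_apply] at this
        exact h7.eventually h0
      have h8 : fderiv ℝ τN (eLZ h x) = 0 := by
        rw [h6.fderiv_eq]
        simp
      have h9 : τN (eLZ h x) = 0 := h6.self_of_nhds
      have h10 : ∀ n t, fderiv ℝ (fun w => cf A c eT eN n t w • τN w) (eLZ h x) = 0 := by
        intro n t
        have h11 : (fun w => cf A c eT eN n t w • τN w) =ᶠ[𝓝 (eLZ h x)] 0 := by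
          filter_upwards [h6] with w hw
          rw [hw]
          simp
        rw [h11.fderiv_eq]
        simp
      rw [QdP_zero h Θ W Bf eT u v h0]
      unfold Qd
      rw [h8, h9]
      simp [h10]
  rw [hQ2]
  exact hQ.comp (eLZ h).continuous

end generic

variable {N p : ℕ} {b : ColorBasis N} {S : Type} [Group S] [Fintype S] {C : Chn b p S}

/-! ## The integral over the slice in product coordinates -/

section split

variable {c : Cfg N} {L Z : Submodule ℝ (Cfg N)}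


/-- `L → Nor`. -/
def iL (h : Dec (actB b) c L Z) : L →ₗᵢ[ℝ] Nor b c where
  toFun x := ⟨x, by rw [← Nor_eq]; exact h.L_le x.2⟩
  map_add' _ _ := rfl
  map_smul' _ _ := rfl
  norm_map' _ := rfl

/-- `Z → Nor`. -/
def iZ (h : Dec (actB b) c L Z) : Z →ₗᵢ[ℝ] Nor b c where
  toFun x := ⟨x, by rw [← Nor_eq]; exact h.Z_le x.2⟩
  map_add' _ _ := rfl
  map_smul' _ _ := rfl
  norm_map' _ := rfl

theorem splitD (h : Dec (actB b) c L Z) : OSplit (iL h) (iZ h) where
  orth u z := h.inner_zero u z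
  span u := by
    obtain ⟨y, hy, z, hz, hu⟩ := h.dec u (by rw [Nor_eq]; exact u.2)
    exact ⟨⟨y, hy⟩, ⟨z, hz⟩, Subtype.ext hu⟩

/-- **The integral over the slice in product coordinates.** -/
theorem integral_LZ (h : Dec (actB b) c L Z) {G' : Type*} [NormedAddCommGroup G']
    [NormedSpace ℝ G'] (f : Cfg N → G') :
    ∫ y : Nor b c, f y = ∫ x : L × Z, f ((x.1 : Cfg N) + x.2) :=
  ((splitD h).mp.integral_comp (splitD h).me (fun y : Nor b c => f y)).symm



/-- over the ball, for a function supported in the ball -/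
theorem setIntegral_LZ (h : Dec (actB b) c L Z) {G' : Type*} [NormedAddCommGroup G']
    [NormedSpace ℝ G'] {r : ℝ} {f : Cfg N → G'}
    (hf : ∀ x : L × Z, f ((x.1 : Cfg N) + x.2) ≠ 0 → ‖(x.1 : Cfg N) + x.2‖ < r) :
    ∫ y in Metric.ball (0 : Nor b c) r, f y = ∫ x : L × Z, f ((x.1 : Cfg N) + x.2) := by
  rw [← integral_LZ h]
  refine setIntegral_eq_integral_of_forall_compl_eq_zero fun y hy => ?_
  by_contra h0
  obtain ⟨a, ha, z, hz, hu⟩ := h.dec y (by rw [Nor_eq]; exact y.2)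
  have h1 := hf (⟨a, ha⟩, ⟨z, hz⟩) (by rw [← hu]; exact h0)
  rw [← hu] at h1
  exact hy (by simpa using h1)

end split

/-! ## The bridge -/

variable {F : Type*} [NormedAddCommGroup F] [InnerProductSpace ℂ F] [FiniteDimensional ℂ F]
  {M : FermionRep N F} {R : GaugeAction b M} {G : GammaNine}

/-- pairing with an extension in product coordinates -/
theorem pair_LZ (σ : Sl C) {L Z : Submodule ℝ (Cfg N)} (h : Dec (actB b) (C.cf σ.X0) L Z)
    {t : Cfg N → F} (ht : IsSliceFun R (C.cf σ.X0) σ.r t)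
    (hT : IsCoreVec b R (ext R (C.cf σ.X0) σ.r fun u => (((σ.j u)⁻¹ : ℝ) : ℂ) • t u))
    (hs : ∀ x : L × Z, t ((x.1 : Cfg N) + x.2) ≠ 0 → ‖(x.1 : Cfg N) + x.2‖ < σ.r)
    {φ : Cfg N → F} (hφ : IsCoreVec b R φ) :
    ∫ x, ⟪φ x, ext R (C.cf σ.X0) σ.r (fun u => (((σ.j u)⁻¹ : ℝ) : ℂ) • t u) x⟫_ℂ =
      ∫ x : L × Z, ⟪φ (C.cf σ.X0 + x.1 + x.2), t ((x.1 : Cfg N) + x.2)⟫_ℂ := by
  rw [integral_pair σ R hφ.2.2 hφ.1.continuous.stronglyMeasurable ht
    hT.1.continuous.stronglyMeasurable]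
  rw [setIntegral_LZ h (f := fun y : Cfg N => ⟪φ (C.cf σ.X0 + y), t y⟫_ℂ) (r := σ.r)]
  · refine integral_congr_ae (Eventually.of_forall fun x => ?_)
    simp only [add_assoc]
  · intro x hx
    refine hs x fun h0 => hx ?_
    rw [h0, inner_zero_right]

/-- **The bridge.** -/
theorem bridge [Nontrivial F] (σ : Sl C) {L Z : Submodule ℝ (Cfg N)}
    (h : Dec (actB b) (C.cf σ.X0) L Z)
    {r₀ B : ℝ} (hr0 : 0 < r₀) (hgap : GapAt (actB b) (C.cf σ.X0) r₀) (hB : ActBound (actB b) B)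
    {ι κ η : Type*} [Fintype ι] [Fintype κ] [Fintype η]
    (eT : OrthonormalBasis η ℝ (Tn (actB b) (C.cf σ.X0))) (u : OrthonormalBasis ι ℝ L)
    (v : OrthonormalBasis κ ℝ Z)
    {t t' : Cfg N → F} (ht : IsSliceFun R (C.cf σ.X0) σ.r t)
    (ht' : IsSliceFun R (C.cf σ.X0) σ.r t')
    (hT : IsCoreVec b R (ext R (C.cf σ.X0) σ.r fun u => (((σ.j u)⁻¹ : ℝ) : ℂ) • t u))
    (hT' : IsCoreVec b R (ext R (C.cf σ.X0) σ.r fun u => (((σ.j u)⁻¹ : ℝ) : ℂ) • t' u))
    (hτ : ContDiff ℝ 1 fun x : L × Z => t ((x.1 : Cfg N) + x.2))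
    (hτc : HasCompactSupport fun x : L × Z => t ((x.1 : Cfg N) + x.2))
    (hs : ∀ x ∈ tsupport (fun x : L × Z => t ((x.1 : Cfg N) + x.2)),
      ‖(x.1 : Cfg N) + x.2‖ < σ.r ∧ B * ‖(x.1 : Cfg N) + x.2‖ ≤ r₀ / 2)
    (hτ' : Continuous fun x : L × Z => t' ((x.1 : Cfg N) + x.2))
    (hτc' : HasCompactSupport fun x : L × Z => t' ((x.1 : Cfg N) + x.2))
    (hs' : ∀ x : L × Z, t' ((x.1 : Cfg N) + x.2) ≠ 0 → ‖(x.1 : Cfg N) + x.2‖ < σ.r)
    (g m : ℝ) (α : Fin 16) {φ : Cfg N → F} (hφ : IsCoreVec b R φ) :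
    ∫ x, ⟪φ x, dcharge b M G g m α
        (ext R (C.cf σ.X0) σ.r fun u => (((σ.j u)⁻¹ : ℝ) : ℂ) • t u) x -
        ext R (C.cf σ.X0) σ.r (fun u => (((σ.j u)⁻¹ : ℝ) : ℂ) • t' u) x⟫_ℂ =
      ∫ x : L × Z, ⟪φ (C.cf σ.X0 + x.1 + x.2),
        QdP h (ThL M G α) (Wp (WqL b M G α) (WlL M G α) g m) (BfL b M) eT u v
          (fun x : L × Z => t ((x.1 : Cfg N) + x.2)) x - t' ((x.1 : Cfg N) + x.2)⟫_ℂ := by
  classical
  set T := ext R (C.cf σ.X0) σ.r fun u => (((σ.j u)⁻¹ : ℝ) : ℂ) • t u with hTd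
  set T' := ext R (C.cf σ.X0) σ.r fun u => (((σ.j u)⁻¹ : ℝ) : ℂ) • t' u with hTd'
  have hW := Wp_isSymm b M G g m α
  have hWc := continuous_Wp b M G g m α
  have hDφ : IsCoreVec b R (dcharge b M G g m α φ) := Brid837.core_dcharge hφ
  have hDT : IsCoreVec b R (dcharge b M G g m α T) := Brid837.core_dcharge hT
  have i1 : Integrable (fun x => ⟪φ x, dcharge b M G g m α T x⟫_ℂ) :=
    integrable_inner_of_cont hφ.1.continuous hDT.1.continuous (Or.inr hDT.2.1)
  have i2 : Integrable (fun x => ⟪φ x, T' x⟫_ℂ) :=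
    integrable_inner_of_cont hφ.1.continuous hT'.1.continuous (Or.inr hT'.2.1)
  simp only [inner_sub_right]
  rw [integral_sub i1 i2]
  have hpc : Continuous fun x : L × Z => φ (C.cf σ.X0 + x.1 + x.2) :=
    hφ.1.continuous.comp ((continuous_const.add (continuous_subtype_val.comp continuous_fst)).add
      (continuous_subtype_val.comp continuous_snd))
  have hQc : Continuous (QdP h (ThL M G α) (Wp (WqL b M G α) (WlL M G α) g m) (BfL b M) eT u v
      (fun x : L × Z => t ((x.1 : Cfg N) + x.2))) :=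
    continuous_QdP h hr0 hgap hB (ThL M G α) hWc (BfL b M) eT u v hτ fun x hx => (hs x hx).2
  have hQs := hcs_QdP h (ThL M G α) (Wp (WqL b M G α) (WlL M G α) g m) (BfL b M) eT u v hτc
  have j1 : Integrable (fun x : L × Z => ⟪φ (C.cf σ.X0 + x.1 + x.2),
      QdP h (ThL M G α) (Wp (WqL b M G α) (WlL M G α) g m) (BfL b M) eT u v
          (fun x : L × Z => t ((x.1 : Cfg N) + x.2)) x⟫_ℂ) :=
    integrable_inner_of_cont hpc hQc (Or.inr hQs)
  have j2 : Integrable (fun x : L × Z => ⟪φ (C.cf σ.X0 + x.1 + x.2),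
      t' ((x.1 : Cfg N) + x.2)⟫_ℂ) :=
    integrable_inner_of_cont hpc hτ' (Or.inr hτc')
  rw [integral_sub j1 j2]
  congr 1
  · rw [← Brid837.dcharge_symm (hφ.1.of_le (by norm_num)) (hT.1.of_le (by norm_num))
      (Or.inl hφ.2.1)]
    rw [hTd, pair_LZ σ h ht hT (fun x hx => (hs x (subset_tsupport _ hx)).1) hDφ]
    rw [← pairingP h hr0 hgap hB (ThL_symm M G α) hW hWc (BfL_skew b M)
      (stdOrthonormalBasis ℝ (Cfg N)) eT u v (hφ.1.of_le (by norm_num)) hτ hτc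
      (fun x hx => (hs x hx).2) (fun x _ => infEq_core R hφ _)]
    simp only [chg_lit]
  · rw [hTd', pair_LZ σ h ht' hT' hs' hφ]

end Crest.Agent.R330.BrT5b658

end
end

-- ▼ part R330/BrT5c_658

/-!
# Row 330, S8-T5: the bridge for the trial states (helper658)

* `contDiff_tau`, `hcs_tau`, `tau_small` : `tau` is smooth on all of `Cfg N`; as a function on
  `Tup kk × Zt X0` it has compact support in `‖x.1 + x.2‖ ≤ 3 r / 4`.
* `isSlice_tau`   : `tau` is a slice function.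
* `bridge_gen`    : for `g` large, for every core vector `φ`, every `m`, `α`:
  `∫ ⟪φ, dcharge (Tgen P σ g χ) - Tgen P σ g χ'⟫ =
   ∫ x : Tup kk × Zt X0, ⟪φ (c + x.1 + x.2), QdP τ x - τ' x⟫`.
-/

set_option autoImplicit false
set_option linter.unusedSectionVars false

open MeasureTheory Filter Topology Crest.MathPhysics.MatrixQM
open scoped ContDiff InnerProductSpace ENNReal

noncomputable section

namespace Crest.Agent.R330.BrT5c658

open Crest.Agent.R330.Defs478 Crest.Agent.R330.LS839 Crest.Agent.R330.Frame839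
  Crest.Agent.R330.Clus839 Crest.Agent.R330.Bind6839 Crest.Agent.R330.TDef414
  Crest.Agent.R330.SlG944 Crest.Agent.R330.IBP837 Crest.Agent.R330.PairA547
  Crest.Agent.R330.PairB547 Crest.Agent.R330.PairE547 Crest.Agent.R330.PairL_862
  Crest.Agent.R330.BrT5658 Crest.Agent.R330.BrT5b658
open Crest.Agent.R330.SlB314 (Nor Tan)
open Crest.Agent.R330.SlD314 (tube)

variable {N p : ℕ} {b : ColorBasis N} {S : Type} [Group S] [Fintype S] {C : Chn b p S}
  {F : Type*} [NormedAddCommGroup F] [InnerProductSpace ℂ F] [FiniteDimensional ℂ F]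
  {M : FermionRep N F} {R : GaugeAction b M} {G : GammaNine}

theorem contDiff_tau (P : TPack C M R G) (σ : Sl C) {g : ℝ} (hg : 0 < g)
    (hΨ : ContDiff ℝ ∞ (P.Psi g)) (χ : Amp M G σ) : ContDiff ℝ ∞ (tau P σ g χ.fn) := by
  rw [contDiff_iff_contDiffAt]
  intro y
  by_cases hy : ‖σ.X0 + C.cfT y - σ.X0‖ < σ.r
  · exact TCore383.contDiffAt_tau P σ hg hΨ χ hy
  · have h1 : σ.X0 + C.cfT y ∉ tsupport χ.fn := by
      intro h
      have h2 := χ.supp h
      rw [Metric.mem_ball, dist_eq_norm] at h2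
      have := σ.pos
      linarith
    have h2 : tau P σ g χ.fn =ᶠ[𝓝 y] fun _ => 0 := by
      filter_upwards [TCore383.wT_eventually P σ g χ.fn h1] with u hu
      rw [TCore383.tau_eq, hu, smul_zero]
    exact contDiffAt_const.congr_of_eventuallyEq h2

theorem tau_norm (P : TPack C M R G) (σ : Sl C) {g : ℝ} (hs : P.s g < σ.r / 4)
    (χ : Amp M G σ) {y : Cfg N} (h : tau P σ g χ.fn y ≠ 0) : ‖y‖ < 3 * σ.r / 4 := by
  obtain ⟨-, h5, h6, h7⟩ := TCore383.tau_ne P σ g χ h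
  have h8 := TCore383.norm_le_sum (C := C) y
  linarith

theorem isSlice_tau (P : TPack C M R G) (σ : Sl C) (g : ℝ) (χ : Amp M G σ) :
    IsSliceFun R (C.cf σ.X0) σ.r (tau P σ g χ.fn) := by
  intro k y hk hy hr
  exact TCore383.tau_act P σ g χ hk (TCore383.cfT_ball σ hr)

theorem tsupport_tau (P : TPack C M R G) (σ : Sl C) {g : ℝ} (hs : P.s g < σ.r / 4)
    (χ : Amp M G σ) {L Z : Submodule ℝ (Cfg N)} :
    tsupport (fun x : L × Z => tau P σ g χ.fn ((x.1 : Cfg N) + x.2)) ⊆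
      {x | ‖(x.1 : Cfg N) + x.2‖ ≤ 3 * σ.r / 4} := by
  refine closure_minimal (fun x hx => (tau_norm P σ hs χ hx).le) ?_
  exact isClosed_le ((continuous_subtype_val.comp continuous_fst).add
    (continuous_subtype_val.comp continuous_snd)).norm continuous_const

theorem hcs_tau (P : TPack C M R G) (σ : Sl C) {g : ℝ} (hs : P.s g < σ.r / 4)
    (χ : Amp M G σ) {L Z : Submodule ℝ (Cfg N)} (h : Dec (actB b) (C.cf σ.X0) L Z) :
    HasCompactSupport (fun x : L × Z => tau P σ g χ.fn ((x.1 : Cfg N) + x.2)) := by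
  refine (isCompact_closedBall (0 : L × Z) σ.r).of_isClosed_subset (isClosed_tsupport _) ?_
  intro x hx
  have h1 : ‖(x.1 : Cfg N) + x.2‖ ≤ 3 * σ.r / 4 := tsupport_tau P σ hs χ hx
  have h2 := norm_sq_sum h x.1 x.2
  have h3 := σ.pos
  have h4 : ‖(x.1 : Cfg N) + x.2‖ ^ 2 ≤ σ.r ^ 2 :=
    pow_le_pow_left₀ (norm_nonneg _) (by linarith) 2
  rw [mem_closedBall_zero_iff, Prod.norm_def, max_le_iff]
  constructor
  · exact (abs_le_of_sq_le_sq' (by nlinarith [sq_nonneg ‖x.2‖]) h3.le).2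
  · exact (abs_le_of_sq_le_sq' (by nlinarith [sq_nonneg ‖x.1‖]) h3.le).2

/-- **The bridge for the trial states.** -/
theorem bridge_gen [Nontrivial F] (P : TPack C M R G) (σ : Sl C) (χ χ' : Amp M G σ)
    {L Z : Submodule ℝ (Cfg N)} (h : Dec (actB b) (C.cf σ.X0) L Z)
    {ι κ η : Type*} [Fintype ι] [Fintype κ] [Fintype η]
    (eT : OrthonormalBasis η ℝ (Tn (actB b) (C.cf σ.X0))) (u : OrthonormalBasis ι ℝ L)
    (v : OrthonormalBasis κ ℝ Z) :
    ∀ᶠ g in atTop, ∀ (m : ℝ) (α : Fin 16) (φ : Cfg N → F), IsCoreVec b R φ →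
      ∫ x, ⟪φ x, dcharge b M G g m α (Tgen P σ g χ.fn) x - Tgen P σ g χ'.fn x⟫_ℂ =
        ∫ x : L × Z, ⟪φ (C.cf σ.X0 + x.1 + x.2),
          QdP h (ThL M G α) (Wp (WqL b M G α) (WlL M G α) g m) (BfL b M) eT u v
            (fun x : L × Z => tau P σ g χ.fn ((x.1 : Cfg N) + x.2)) x -
          tau P σ g χ'.fn ((x.1 : Cfg N) + x.2)⟫_ℂ := by
  obtain ⟨r₀, B, hr0, hB0, hB, hgap, hBr⟩ := σ.gap
  have hs : ∀ᶠ g in atTop, P.s g < σ.r / 4 :=
    P.s_lim.eventually (isOpen_Iio.mem_nhds (by have := σ.pos; simp only [Set.mem_Iio]; linarith))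
  filter_upwards [P.Psi_smooth, hs, eventually_gt_atTop 0, TCore383.core P σ χ,
    TCore383.core P σ χ'] with g hΨ hsg hg hT hT' m α φ hφ
  have hadd : ContDiff ℝ ∞ fun x : L × Z => (x.1 : Cfg N) + x.2 :=
    (L.subtypeL.contDiff.comp contDiff_fst).add (Z.subtypeL.contDiff.comp contDiff_snd)
  have hτ : ContDiff ℝ ∞ fun x : L × Z => tau P σ g χ.fn ((x.1 : Cfg N) + x.2) :=
    (contDiff_tau P σ hg hΨ χ).comp hadd
  have hτ' : ContDiff ℝ ∞ fun x : L × Z => tau P σ g χ'.fn ((x.1 : Cfg N) + x.2) :=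
    (contDiff_tau P σ hg hΨ χ').comp hadd
  have hpos := σ.pos
  refine bridge σ h hr0 hgap hB eT u v (isSlice_tau P σ g χ) (isSlice_tau P σ g χ') hT hT'
    (hτ.of_le (by norm_num)) (hcs_tau P σ hsg χ h) (fun x hx => ?_) hτ'.continuous
    (hcs_tau P σ hsg χ' h) (fun x hx => ?_) g m α hφ
  · have h1 : ‖(x.1 : Cfg N) + x.2‖ ≤ 3 * σ.r / 4 := tsupport_tau P σ hsg χ hx
    refine ⟨by linarith, le_trans ?_ hBr⟩
    exact mul_le_mul_of_nonneg_left (by linarith) hB0
  · have h1 := tau_norm P σ hsg χ' hx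
    linarith

end Crest.Agent.R330.BrT5c658

end
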