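import Crest.Agent.R330.VId_87
import Crest.Agent.R330.AcomV_302

/-!
R330, S9-OFF (helper302): the commuting variety `Cm`, distance to it controlled by the quartic
potential, and comparison of `Vsq g m` with `Vq`.
-/

set_option autoImplicit false
set_option linter.unusedSectionVars false
open MeasureTheory Crest.MathPhysics.MatrixQM

namespace Crest.Agent.R330.OffCm302

open Crest.Agent.R330.CoerCfg87 Crest.Agent.R330.VId87 Crest.Agent.R330.AcomV302
open Crest.Agent.R330.Defs478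

noncomputable section

variable {N : ℕ}

/-- the commuting variety -/
def Cm (b : ColorBasis N) : Set (Cfg N) := {x | Vq b x = 0}

theorem comp_act_inv (b : ColorBasis N) (g : Matrix.specialUnitaryGroup (Fin N) ℂ) (x : Cfg N) :
    b.act g⁻¹ (b.act g x) = x := by
  rw [← Col962.act_mul, inv_mul_cancel, Col962.act_one]


theorem act_sub (b : ColorBasis N) (g : Matrix.specialUnitaryGroup (Fin N) ℂ) (x y : Cfg N) :
    b.act g (x - y) = b.act g x - b.act g y := by
  have h := Col962.act_add b g x ((-1 : ℝ) • y)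
  rw [Col962.act_smul] at h
  have e1 : x - y = x + (-1 : ℝ) • y := by rw [neg_one_smul, sub_eq_add_neg]
  rw [e1, h, neg_one_smul, sub_eq_add_neg]

/-- `Vq` is gauge invariant -/
theorem Vq_act (hN : 0 < N) (b : ColorBasis N) (g : Matrix.specialUnitaryGroup (Fin N) ℂ)
    (x : Cfg N) : Vq b (b.act g x) = Vq b x := by
  unfold Vq
  refine Finset.sum_congr rfl fun i _ => Finset.sum_congr rfl fun j _ => ?_
  rw [← hs_comm_cmat hN, ← hs_comm_cmat hN, cmat_act, cmat_act]
  have h1 := Col962.star_mul_self' g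
  have h2 : ∀ P Q : Matrix (Fin N) (Fin N) ℂ,
      ((g : Matrix (Fin N) (Fin N) ℂ) * P * star (g : Matrix (Fin N) (Fin N) ℂ)) *
        ((g : Matrix (Fin N) (Fin N) ℂ) * Q * star (g : Matrix (Fin N) (Fin N) ℂ)) =
      (g : Matrix (Fin N) (Fin N) ℂ) * (P * Q) * star (g : Matrix (Fin N) (Fin N) ℂ) := by
    intro P Q
    calc _ = (g : Matrix (Fin N) (Fin N) ℂ) * P * (star (g : Matrix (Fin N) (Fin N) ℂ) *
          (g : Matrix (Fin N) (Fin N) ℂ)) * (Q * star (g : Matrix (Fin N) (Fin N) ℂ)) := by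
          simp only [mul_assoc]
      _ = _ := by rw [h1, mul_one]; simp only [mul_assoc]
  rw [h2, h2, ← sub_mul, ← mul_sub, hs_conj]

theorem Cm_act (hN : 0 < N) (b : ColorBasis N) (g : Matrix.specialUnitaryGroup (Fin N) ℂ)
    (x : Cfg N) : b.act g x ∈ Cm b ↔ x ∈ Cm b := by
  unfold Cm
  rw [Set.mem_ofPred_eq, Set.mem_ofPred_eq, Vq_act hN]

/-- structure of the commuting variety: it consists of the conjugates of the diagonal
configurations -/
theorem mem_Cm_iff (hN : 0 < N) (b : ColorBasis N) (x : Cfg N) :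
    x ∈ Cm b ↔ ∃ g : Matrix.specialUnitaryGroup (Fin N) ℂ, ∃ p : Fin 9 → Fin N → ℝ,
      (∀ i, ∑ a, p i a = 0) ∧ b.act g x = diagCfg b p := by
  constructor
  · intro hx
    obtain ⟨C, hC, h⟩ := near_commuting N hN
    obtain ⟨g, p, hp, h1⟩ := h b x
    refine ⟨g, p, hp, ?_⟩
    have hx' : Vq b x = 0 := hx
    rw [hx', mul_zero] at h1
    have h2 : ‖b.act g x - diagCfg b p‖ ^ 4 = 0 := le_antisymm h1 (by positivity)
    have h3 : ‖b.act g x - diagCfg b p‖ = 0 := by
      rcases pow_eq_zero_iff (n := 4) (by norm_num) |>.1 h2 with h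
      exact h
    exact sub_eq_zero.1 (norm_eq_zero.1 h3)
  · rintro ⟨g, p, hp, h1⟩
    rw [← Cm_act hN b g x, h1]
    exact Vq_diagCfg hN b p hp



theorem continuous_Vq (b : ColorBasis N) : Continuous (Vq b) := by
  unfold Vq br CoerCfg87.comp
  fun_prop


/-- splitting of `Vq` into the cyclic part of the first three directions and the rest -/
theorem Vq_split (b : ColorBasis N) (x : Cfg N) :
    Vq b x = 4 * Voth b x + 2 * ∑ i : Fin 3, ∑ A,
      (br b (CoerCfg87.comp x (lo (i + 1))) (CoerCfg87.comp x (lo (i + 2))) A) ^ 2 := by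
  have h0 : Vq b x = ∑ A, ∑ i : Fin 9, ∑ j : Fin 9,
      (br b (CoerCfg87.comp x i) (CoerCfg87.comp x j) A) ^ 2 := by
    unfold Vq
    rw [Finset.sum_congr rfl fun i _ => Finset.sum_comm, Finset.sum_comm]
  have h1 : ∀ A : Fin (N ^ 2 - 1), ∑ i : Fin 9, ∑ j : Fin 9,
      (br b (CoerCfg87.comp x i) (CoerCfg87.comp x j) A) ^ 2 =
      2 * (∑ i : Fin 3, (br b (CoerCfg87.comp x (lo (i + 1))) (CoerCfg87.comp x (lo (i + 2))) A) ^ 2)
      + ∑ i : Fin 9, ∑ j : Fin 9, (if (i : ℕ) < 3 ∧ (j : ℕ) < 3 then 0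
          else (br b (CoerCfg87.comp x i) (CoerCfg87.comp x j) A) ^ 2) := by
    intro A
    rw [sum_pairs (fun i j => (br b (CoerCfg87.comp x i) (CoerCfg87.comp x j) A) ^ 2)
      (fun i j => by rw [br_swap]; ring)
      (fun i => by
        have := br_swap b (CoerCfg87.comp x i) (CoerCfg87.comp x i) A
        have h0 : br b (CoerCfg87.comp x i) (CoerCfg87.comp x i) A = 0 := by linarith
        rw [h0]; norm_num)]
    congr 1
    simp only [Fin.sum_univ_three]
    have e0 : lo 0 = (0 : Fin 9) := rfl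
    have e1 : lo 1 = (1 : Fin 9) := rfl
    have e2 : lo 2 = (2 : Fin 9) := rfl
    have a1 : (0 : Fin 3) + 1 = 1 := rfl
    have a2 : (0 : Fin 3) + 2 = 2 := rfl
    have a3 : (1 : Fin 3) + 1 = 2 := rfl
    have a4 : (1 : Fin 3) + 2 = 0 := rfl
    have a5 : (2 : Fin 3) + 1 = 0 := rfl
    have a6 : (2 : Fin 3) + 2 = 1 := rfl
    simp only [a1, a2, a3, a4, a5, a6, e0, e1, e2]
  rw [h0]
  simp only [h1, Finset.sum_add_distrib, ← Finset.mul_sum]
  unfold Voth
  rw [Finset.sum_comm (s := (Finset.univ : Finset (Fin 3)))]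
  ring


/-- with mass: `V_{g,m} ≥ (g²/8) Σ_{j,k} |[x_j,x_k]|² - (m²/18) |x|²` -/
theorem Vsq_ge (G : GammaNine) (b : ColorBasis N) (g m : ℝ) (x : Cfg N) :
    g ^ 2 / 8 * Vq b x - m ^ 2 / 18 * ‖x‖ ^ 2 ≤ Vsq G b g m x := by
  rw [Vsq_eq, Vq_split, norm_sq_eq]
  have hV := Voth_nonneg b x
  have hH : 0 ≤ Vhi x := Finset.sum_nonneg fun _ _ => Finset.sum_nonneg fun _ _ => sq_nonneg _
  have h1 : g ^ 2 / 2 * (∑ i : Fin 3, ∑ A,
      (br b (CoerCfg87.comp x (lo (i + 1))) (CoerCfg87.comp x (lo (i + 2))) A) ^ 2)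
      - m ^ 2 / 9 * (∑ i : Fin 3, ∑ A, (CoerCfg87.comp x (lo i) A) ^ 2) ≤ Vcyc b g m x := by
    unfold Vcyc
    rw [Finset.mul_sum, Finset.mul_sum, ← Finset.sum_sub_distrib]
    refine Finset.sum_le_sum fun i _ => ?_
    rw [Finset.mul_sum, Finset.mul_sum, ← Finset.sum_sub_distrib]
    refine Finset.sum_le_sum fun A _ => ?_
    nlinarith [sq_nonneg (2 * (m * CoerCfg87.comp x (lo i) A / 3) -
      g * br b (CoerCfg87.comp x (lo (i + 1))) (CoerCfg87.comp x (lo (i + 2))) A)]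
  have hg : 0 ≤ g ^ 2 := sq_nonneg g
  have hm : 0 ≤ m ^ 2 := sq_nonneg m
  nlinarith [mul_nonneg hg hV, mul_nonneg hm hH]

end

end Crest.Agent.R330.OffCm302
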