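import Mathlib
import Crest.Agent.R330.OffCm_302
import Crest.Agent.R330.Ims_714
import Crest.Agent.R330.Brid_837
import Crest.Agent.R330.WeitzY_726
import Crest.Agent.R330.StrataB_737
import Crest.Agent.R330.Chan_441

-- ▼ part R330/CapTop_924
section

/-!
# Row 330, S9 capture: topological reduction (helper924)

`cap_top` : masses `m j S` (monotone and finitely subadditive in the set `S`), a compact set `A`,
closed sets `C 0, …, C n` (configurations with few clusters).  If near every point of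
`C (k+1) \ C k` the mass near `C (k+1)` is small (`hloc`) and the mass of compact sets off `C n` is
small (`haway`), then the mass of `A` tends to zero.
-/

set_option autoImplicit false
set_option linter.unusedSectionVars false

open Set Filter Topology
open scoped ENNReal

namespace Crest.Agent.R330.CapTop924

variable {X ι : Type*} [TopologicalSpace X]

/-- finite unions are small if all members are small -/
theorem ev_biUnion {l : Filter ι} {m : ι → Set X → ℝ≥0∞}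
    (hun : ∀ j S T, m j (S ∪ T) ≤ m j S + m j T) (hemp : ∀ j, m j ∅ = 0)
    {κ : Type*} (s : Finset κ) (S : κ → Set X) {ε : ℝ≥0∞}
    (h : ∀ k ∈ s, ∀ᶠ j in l, m j (S k) ≤ ε) :
    ∀ᶠ j in l, m j (⋃ k ∈ s, S k) ≤ s.card * ε := by
  classical
  induction s using Finset.induction_on with
  | empty => simp [hemp]
  | insert a s ha ih =>
    have h1 := h a (Finset.mem_insert_self a s)
    have h2 := ih fun k hk => h k (Finset.mem_insert_of_mem hk)
    filter_upwards [h1, h2] with j hj1 hj2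
    rw [Finset.set_biUnion_insert, Finset.card_insert_of_notMem ha]
    refine (hun j _ _).trans ?_
    push_cast
    rw [add_mul, one_mul, add_comm]
    exact add_le_add hj2 hj1

/-- **Topological reduction of the capture lemma.** -/
theorem cap_top {l : Filter ι} {A : Set X} (hA : IsCompact A) (n : ℕ) (C : ℕ → Set X)
    (hC : ∀ k, IsClosed (C k)) (h0 : A ∩ C 0 = ∅) {m : ι → Set X → ℝ≥0∞}
    (hmono : ∀ j S T, S ⊆ T → m j S ≤ m j T)
    (hun : ∀ j S T, m j (S ∪ T) ≤ m j S + m j T) (hemp : ∀ j, m j ∅ = 0)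
    (hloc : ∀ k < n, ∀ c ∈ A, c ∈ C (k + 1) → c ∉ C k → ∃ U, IsOpen U ∧ c ∈ U ∧
      ∀ ε : ℝ≥0∞, 0 < ε → ∃ V, IsOpen V ∧ A ∩ U ∩ C (k + 1) ⊆ V ∧
        ∀ᶠ j in l, m j (A ∩ U ∩ V) ≤ ε)
    (haway : ∀ K, IsCompact K → K ⊆ A → Disjoint K (C n) →
      ∀ ε : ℝ≥0∞, 0 < ε → ∀ᶠ j in l, m j K ≤ ε) :
    ∀ ε : ℝ≥0∞, 0 < ε → ∀ᶠ j in l, m j A ≤ ε := by
  classical
  have key : ∀ k ≤ n, ∀ ε : ℝ≥0∞, 0 < ε → ∃ O, IsOpen O ∧ A ∩ C k ⊆ O ∧
      ∀ᶠ j in l, m j (A ∩ O) ≤ ε := by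
    intro k
    induction k with
    | zero =>
      intro _ ε _
      exact ⟨∅, isOpen_empty, by rw [h0], by simp [hemp]⟩
    | succ k ih =>
      intro hk ε hε
      have hε2 : 0 < ε / 2 := ENNReal.half_pos hε.ne'
      obtain ⟨O, hO, hCO, hmO⟩ := ih (by omega) (ε / 2) hε2
      have hK : IsCompact ((A ∩ C (k + 1)) \ O) :=
        (hA.inter_right (hC (k + 1))).diff hO
      have hpt : ∀ c : ((A ∩ C (k + 1)) \ O : Set X), ∃ U, IsOpen U ∧ (c : X) ∈ U ∧
          ∀ ε : ℝ≥0∞, 0 < ε → ∃ V, IsOpen V ∧ A ∩ U ∩ C (k + 1) ⊆ V ∧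
            ∀ᶠ j in l, m j (A ∩ U ∩ V) ≤ ε := by
        rintro ⟨c, ⟨hcA, hcC⟩, hcO⟩
        exact hloc k (by omega) c hcA hcC fun h => hcO (hCO ⟨hcA, h⟩)
      choose U hU hcU hUV using hpt
      obtain ⟨t, ht⟩ := hK.elim_finite_subcover U hU
        (fun x hx => mem_iUnion.2 ⟨⟨x, hx⟩, hcU ⟨x, hx⟩⟩)
      have hδ : 0 < ε / 2 / (t.card + 1) :=
        ENNReal.div_pos hε2.ne' (by simp)
      choose V hV hVs hVm using fun c => hUV c (ε / 2 / (t.card + 1)) hδ
      refine ⟨O ∪ ⋃ c ∈ t, (U c ∩ V c), hO.union (isOpen_biUnion fun c _ => (hU c).inter (hV c)),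
        ?_, ?_⟩
      · intro x hx
        by_cases hxO : x ∈ O
        · exact Or.inl hxO
        · right
          obtain ⟨c, hc, hxU⟩ := mem_iUnion₂.1 (ht ⟨hx, hxO⟩)
          exact mem_iUnion₂.2 ⟨c, hc, hxU, hVs c ⟨⟨hx.1, hxU⟩, hx.2⟩⟩
      · have h2 := ev_biUnion (l := l) (m := m) hun hemp t (fun c => A ∩ U c ∩ V c)
          (ε := ε / 2 / (t.card + 1)) fun c _ => hVm c
        filter_upwards [hmO, h2] with j hj1 hj2
        have e : A ∩ (O ∪ ⋃ c ∈ t, (U c ∩ V c)) = (A ∩ O) ∪ ⋃ c ∈ t, (A ∩ U c ∩ V c) := by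
          ext x
          simp only [mem_inter_iff, mem_union, mem_iUnion]
          constructor
          · rintro ⟨hxA, hx | ⟨c, hc, hxU, hxV⟩⟩
            · exact Or.inl ⟨hxA, hx⟩
            · exact Or.inr ⟨c, hc, ⟨hxA, hxU⟩, hxV⟩
          · rintro (⟨hxA, hx⟩ | ⟨c, hc, ⟨hxA, hxU⟩, hxV⟩)
            · exact ⟨hxA, Or.inl hx⟩
            · exact ⟨hxA, Or.inr ⟨c, hc, hxU, hxV⟩⟩
        rw [e]
        refine (hun j _ _).trans ?_
        have h3 : (t.card : ℝ≥0∞) * (ε / 2 / (t.card + 1)) ≤ ε / 2 := by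
          rcases eq_or_ne ε ⊤ with h | h
          · subst h
            simp [ENNReal.top_div]
          · calc (t.card : ℝ≥0∞) * (ε / 2 / (t.card + 1))
                ≤ (t.card + 1 : ℝ≥0∞) * (ε / 2 / (t.card + 1)) := by gcongr; exact le_self_add
              _ = ε / 2 := ENNReal.mul_div_cancel (by simp) (by simp)
        calc m j (A ∩ O) + m j (⋃ c ∈ t, (A ∩ U c ∩ V c)) ≤ ε / 2 + ε / 2 :=
              add_le_add hj1 (hj2.trans h3)
          _ = ε := ENNReal.add_halves ε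
  intro ε hε
  have hε2 : 0 < ε / 2 := ENNReal.half_pos hε.ne'
  obtain ⟨O, hO, hCO, hmO⟩ := key n le_rfl (ε / 2) hε2
  have hK : IsCompact (A \ O) := hA.diff hO
  have hd : Disjoint (A \ O) (C n) := by
    rw [Set.disjoint_left]
    rintro x ⟨hxA, hxO⟩ hxC
    exact hxO (hCO ⟨hxA, hxC⟩)
  filter_upwards [hmO, haway _ hK sdiff_subset hd (ε / 2) hε2] with j hj1 hj2
  calc m j A ≤ m j ((A ∩ O) ∪ (A \ O)) := hmono j _ _ (by rw [inter_union_sdiff])
    _ ≤ m j (A ∩ O) + m j (A \ O) := hun j _ _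
    _ ≤ ε / 2 + ε / 2 := add_le_add hj1 hj2
    _ = ε := ENNReal.add_halves ε

end Crest.Agent.R330.CapTop924
end

-- ▼ part R330/Off2_302
section

/-!
R330, S9-OFF (helper302): mass away from the commuting variety is `O(g⁻²)` times the energy.

* `EnLow b M G C` : the lower energy bound `q ≥ ½‖∇φ‖² + ∫ V|φ|² - C ∫ (g|x|+m)|φ|²` (726's (1.1)).
* `qf_mul_le` : `q(χφ) ≤ 2 q(φ) + L² ‖φ‖²`.
* `off_mass` : `g² ∫_S |φ|² ≤ C' (q_{g,m}(φ) + ‖φ‖²)` for `S ⊆ {|x| ≤ ρ, V₁ ≥ v₀}`, `m² ≤ K g`.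
* `off_weight` : `g² ∫_{|x| ≤ ρ} V₁ |φ|² ≤ C' (q + g ‖φ‖²)`.
-/

set_option autoImplicit false
set_option linter.unusedSectionVars false
open MeasureTheory Filter Topology Crest.MathPhysics.MatrixQM
open scoped ContDiff InnerProductSpace

namespace Crest.Agent.R330.Off2302

open Crest.Agent.R330.CoerCfg87 Crest.Agent.R330.VId87 Crest.Agent.R330.AcomV302
open Crest.Agent.R330.Defs478 Crest.Agent.R330.OffCm302 Crest.Agent.R330.Ims714

noncomputable section

variable {N : ℕ} {F : Type*} [NormedAddCommGroup F] [InnerProductSpace ℂ F]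

/-- the potential part of the charges as an endomorphism field -/
def wop (b : ColorBasis N) (M : FermionRep N F) (G : GammaNine) (g m : ℝ) (α : Fin 16)
    (x : Cfg N) : F →ₗ[ℂ] F :=
  ∑ A : Fin (N ^ 2 - 1), ∑ β : Fin 16, ((wpot b G g m α β A x : ℝ) : ℂ) • M.θ β A

theorem dcharge_eq_dop (b : ColorBasis N) (M : FermionRep N F) (G : GammaNine) (g m : ℝ)
    (α : Fin 16) (φ : Cfg N → F) : dcharge b M G g m α φ = dop G M α (wop b M G g m α) φ := by
  funext x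
  simp only [dcharge, Defs478.kin, dop, wop, LinearMap.sum_apply, LinearMap.smul_apply]

variable [FiniteDimensional ℂ F]

theorem integrable_dcharge_sq (b : ColorBasis N) (M : FermionRep N F) (G : GammaNine)
    (g m : ℝ) (α : Fin 16) {φ : Cfg N → F} (hφ : ContDiff ℝ 1 φ) (hc : HasCompactSupport φ) :
    Integrable fun x => ‖dcharge b M G g m α φ x‖ ^ 2 := by
  refine ((continuous_dcharge b M G g m α hφ).norm.pow 2).integrable_of_hasCompactSupport ?_
  have h1 := Brid837.hasCompactSupport_dcharge (b := b) (M := M) (G := G) (g := g) (m := m)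
    (α := α) hc
  exact HasCompactSupport.intro h1 fun x hx => by
    simp only [Pi.pow_apply, image_eq_zero_of_notMem_tsupport hx]; simp

theorem integrable_sq {φ : Cfg N → F} (hφ : Continuous φ) (hc : HasCompactSupport φ) :
    Integrable fun x => ‖φ x‖ ^ 2 := by
  refine (hφ.norm.pow 2).integrable_of_hasCompactSupport ?_
  exact HasCompactSupport.intro hc fun x hx => by
    simp only [Pi.pow_apply, image_eq_zero_of_notMem_tsupport hx]; simp

theorem integrable_mul_sq {φ : Cfg N → F} (hφ : Continuous φ) (hc : HasCompactSupport φ)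
    {w : Cfg N → ℝ} (hw : Continuous w) : Integrable fun x => w x * ‖φ x‖ ^ 2 := by
  refine (hw.mul (hφ.norm.pow 2)).integrable_of_hasCompactSupport ?_
  exact HasCompactSupport.intro hc fun x hx => by
    simp only [Pi.mul_apply, Pi.pow_apply, image_eq_zero_of_notMem_tsupport hx]; simp

/-- `q(χφ) ≤ 2 q(φ) + L² ‖φ‖²` for `|χ| ≤ 1`, `|∇χ| ≤ L` -/
theorem qf_mul_le (b : ColorBasis N) (M : FermionRep N F) (G : GammaNine) (g m : ℝ)
    {χ : Cfg N → ℝ} (hχ : ContDiff ℝ 1 χ) (h1 : ∀ x, |χ x| ≤ 1) {L : ℝ}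
    (hL : ∀ x, ‖grad χ x‖ ≤ L) {φ : Cfg N → F} (hφ : ContDiff ℝ 1 φ)
    (hc : HasCompactSupport φ) :
    qf b M G g m (fun x => χ x • φ x) ≤ 2 * qf b M G g m φ + L ^ 2 * ∫ x, ‖φ x‖ ^ 2 := by
  have hχφ : ContDiff ℝ 1 (fun x => χ x • φ x) := hχ.smul hφ
  have hcc : HasCompactSupport (fun x => χ x • φ x) := hc.smul_left
  have key : ∀ α, ∫ x, ‖dcharge b M G g m α (fun x => χ x • φ x) x‖ ^ 2 ≤
      2 * (∫ x, ‖dcharge b M G g m α φ x‖ ^ 2) + L ^ 2 * ∫ x, ‖φ x‖ ^ 2 := by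
    intro α
    rw [← integral_const_mul, ← integral_const_mul, ← integral_add
      ((integrable_dcharge_sq b M G g m α hφ hc).const_mul _)
      ((integrable_sq hφ.continuous hc).const_mul _)]
    refine integral_mono (integrable_dcharge_sq b M G g m α hχφ hcc)
      (((integrable_dcharge_sq b M G g m α hφ hc).const_mul _).add
        ((integrable_sq hφ.continuous hc).const_mul _)) fun x => ?_
    have h2 := normSq_dop_mul_le G M α (wop b M G g m α) (χ := χ) (φ := φ) (x := x)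
      (hχ.differentiable (by simp) x) (hφ.differentiable (by simp) x) (t := 1) one_pos
    rw [← dcharge_eq_dop, ← dcharge_eq_dop] at h2
    refine h2.trans ?_
    have h3 : χ x ^ 2 ≤ 1 := by
      rw [← sq_abs]
      exact pow_le_one₀ (abs_nonneg _) (h1 x)
    have h4 : ‖grad χ x‖ ^ 2 ≤ L ^ 2 := pow_le_pow_left₀ (norm_nonneg _) (hL x) 2
    have h5 : 0 ≤ ‖dcharge b M G g m α φ x‖ ^ 2 := by positivity
    have h6 : 0 ≤ ‖φ x‖ ^ 2 := by positivity
    nlinarith [mul_le_mul_of_nonneg_right h3 h5, mul_le_mul_of_nonneg_right h4 h6]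
  unfold qf
  have h7 := Finset.sum_le_sum fun α (_ : α ∈ (Finset.univ : Finset (Fin 16))) => key α
  rw [Finset.sum_add_distrib, ← Finset.mul_sum, Finset.sum_const, Finset.card_univ,
    Fintype.card_fin, nsmul_eq_mul] at h7
  push_cast at h7
  linarith

/-- the lower energy bound (the inequality half of (1.1)) -/
def EnLow (b : ColorBasis N) (M : FermionRep N F) (G : GammaNine) (C : ℝ) : Prop :=
  ∀ g m : ℝ, 0 ≤ g → 0 ≤ m → ∀ φ : Cfg N → F, ContDiff ℝ ∞ φ → HasCompactSupport φ →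
    1 / 2 * (∑ k : Fin 9 × Fin (N ^ 2 - 1),
        ∫ x, ‖fderiv ℝ φ x (EuclideanSpace.single k 1)‖ ^ 2) +
      (∫ x, Vsq G b g m x * ‖φ x‖ ^ 2) ≤
      qf b M G g m φ + C * ∫ x, (g * ‖x‖ + m) * ‖φ x‖ ^ 2

theorem continuous_Vsq (G : GammaNine) (b : ColorBasis N) (g m : ℝ) :
    Continuous (Vsq G b g m) := by
  unfold Vsq
  exact continuous_const.mul (continuous_finsetSum _ fun α _ => continuous_finsetSum _ fun β _ =>
    continuous_finsetSum _ fun A _ => (continuous_wpot b G g m α β A).pow 2)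

theorem contDiff_Vq (b : ColorBasis N) : ContDiff ℝ ∞ (Vq b) := by
  unfold Vq br CoerCfg87.comp
  fun_prop

theorem continuous_grad {χ : Cfg N → ℝ} (hχ : ContDiff ℝ 1 χ) : Continuous (grad χ) := by
  have h : Continuous fun x : Cfg N => fun iA : Fin 9 × Fin (N ^ 2 - 1) =>
      fderiv ℝ χ x (EuclideanSpace.single iA 1) :=
    continuous_pi fun iA => (hχ.continuous_fderiv one_ne_zero).clm_apply continuous_const
  exact (PiLp.continuous_toLp 2 (fun _ : Fin 9 × Fin (N ^ 2 - 1) => ℝ)).comp h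

/-- smooth compactly supported functions have bounded gradient -/
theorem exists_grad_bound {χ : Cfg N → ℝ} (hχ : ContDiff ℝ 1 χ) (hc : HasCompactSupport χ) :
    ∃ L : ℝ, 0 ≤ L ∧ ∀ x, ‖grad χ x‖ ≤ L := by
  have h1 : HasCompactSupport (grad χ) := by
    refine HasCompactSupport.intro hc fun x hx => ?_
    have h2 : fderiv ℝ χ x = 0 := by
      rw [(notMem_tsupport_iff_eventuallyEq.1 hx).fderiv_eq]
      exact fderiv_const_apply (0 : ℝ)
    ext iA
    rw [grad_apply, h2]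
    simp
  obtain ⟨C, hC⟩ := h1.exists_bound_of_continuous (continuous_grad hχ)
  exact ⟨max C 0, le_max_right _ _, fun x => (hC x).trans (le_max_left _ _)⟩

/-- the cut-off function: `1` on `{|x| ≤ ρ, V₁ ≥ v₀}`, supported in `{|x|² ≤ 2ρ², V₁ ≥ v₀/2}` -/
def chi (b : ColorBasis N) (ρ v₀ : ℝ) (x : Cfg N) : ℝ :=
  Real.smoothTransition (2 * Vq b x / v₀ - 1) * Real.smoothTransition (2 - ‖x‖ ^ 2 / ρ ^ 2)

theorem contDiff_chi (b : ColorBasis N) (ρ v₀ : ℝ) : ContDiff ℝ ∞ (chi b ρ v₀) := by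
  unfold chi
  have h1 := contDiff_Vq b
  refine ContDiff.mul (Real.smoothTransition.contDiff.comp ?_)
    (Real.smoothTransition.contDiff.comp ?_)
  · exact ((contDiff_const.mul h1).div_const _).sub contDiff_const
  · exact contDiff_const.sub ((contDiff_norm_sq ℝ).div_const _)

theorem chi_nonneg (b : ColorBasis N) (ρ v₀ : ℝ) (x : Cfg N) : 0 ≤ chi b ρ v₀ x :=
  mul_nonneg (Real.smoothTransition.nonneg _) (Real.smoothTransition.nonneg _)

theorem chi_le_one (b : ColorBasis N) (ρ v₀ : ℝ) (x : Cfg N) : chi b ρ v₀ x ≤ 1 :=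
  mul_le_one₀ (Real.smoothTransition.le_one _) (Real.smoothTransition.nonneg _)
    (Real.smoothTransition.le_one _)

theorem chi_eq_one (b : ColorBasis N) {ρ v₀ : ℝ} (hρ : 0 < ρ) (hv : 0 < v₀) {x : Cfg N}
    (hx : ‖x‖ ≤ ρ) (hV : v₀ ≤ Vq b x) : chi b ρ v₀ x = 1 := by
  unfold chi
  rw [Real.smoothTransition.one_of_one_le, Real.smoothTransition.one_of_one_le, one_mul]
  · have : ‖x‖ ^ 2 / ρ ^ 2 ≤ 1 := by
      rw [div_le_one (by positivity)]
      exact pow_le_pow_left₀ (norm_nonneg _) hx 2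
    linarith
  · have : 1 ≤ Vq b x / v₀ := by rwa [one_le_div hv]
    have h2 : 2 * Vq b x / v₀ = 2 * (Vq b x / v₀) := by ring
    rw [h2]
    linarith

theorem chi_supp (b : ColorBasis N) {ρ v₀ : ℝ} (hρ : 0 < ρ) (hv : 0 < v₀) {x : Cfg N}
    (hx : chi b ρ v₀ x ≠ 0) : ‖x‖ ≤ 2 * ρ ∧ v₀ / 2 ≤ Vq b x := by
  unfold chi at hx
  have h1 : Real.smoothTransition (2 * Vq b x / v₀ - 1) ≠ 0 := left_ne_zero_of_mul hx
  have h2 : Real.smoothTransition (2 - ‖x‖ ^ 2 / ρ ^ 2) ≠ 0 := right_ne_zero_of_mul hx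
  constructor
  · by_contra hcon
    push Not at hcon
    apply h2
    refine Real.smoothTransition.zero_of_nonpos ?_
    have h3 : (2 * ρ) ^ 2 ≤ ‖x‖ ^ 2 := pow_le_pow_left₀ (by positivity) hcon.le 2
    have h4 : 4 ≤ ‖x‖ ^ 2 / ρ ^ 2 := by
      rw [le_div_iff₀ (by positivity)]
      nlinarith
    linarith
  · by_contra hcon
    push Not at hcon
    apply h1
    refine Real.smoothTransition.zero_of_nonpos ?_
    have h3 : 2 * Vq b x / v₀ ≤ 1 := by
      rw [div_le_one hv]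
      linarith
    linarith

theorem chi_compact (b : ColorBasis N) {ρ v₀ : ℝ} (hρ : 0 < ρ) (hv : 0 < v₀) :
    HasCompactSupport (chi b ρ v₀) := by
  refine HasCompactSupport.intro (isCompact_closedBall (0 : Cfg N) (2 * ρ)) fun x hx => ?_
  by_contra h
  exact hx (mem_closedBall_zero_iff.2 (chi_supp b hρ hv h).1)

/-- **Mass off the commuting variety.** -/
theorem off_mass (b : ColorBasis N) (M : FermionRep N F) (G : GammaNine) {C : ℝ}
    (hEn : EnLow b M G C) (K ρ v₀ : ℝ) (hv : 0 < v₀) :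
    ∃ C' : ℝ, 0 ≤ C' ∧ ∀ g m : ℝ, 1 ≤ g → 0 ≤ m → m ^ 2 ≤ K * g → ∀ φ : Cfg N → F,
      ContDiff ℝ ∞ φ → HasCompactSupport φ → ∀ S : Set (Cfg N), MeasurableSet S →
      (∀ x ∈ S, ‖x‖ ≤ ρ ∧ v₀ ≤ Vq b x) →
      g ^ 2 * ∫ x in S, ‖φ x‖ ^ 2 ≤ C' * (qf b M G g m φ + ∫ x, ‖φ x‖ ^ 2) := by
  set ρ' : ℝ := max ρ 1 with hρ'
  have hρ0 : 0 < ρ' := lt_of_lt_of_le one_pos (le_max_right _ _)
  obtain ⟨L, hL0, hL⟩ := exists_grad_bound ((contDiff_chi b ρ' v₀).of_le (by simp))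
    (chi_compact b hρ0 hv)
  set Cp : ℝ := |C| with hCp
  have hCp0 : 0 ≤ Cp := abs_nonneg C
  set C₂ : ℝ := |K| * (2 * ρ') ^ 2 / 18 + Cp * (2 * ρ' + (1 + |K|)) with hC₂
  have hC₂0 : 0 ≤ C₂ := by positivity
  refine ⟨32 / v₀ * (2 + L ^ 2) + (32 * C₂ / v₀) ^ 2, by positivity,
    fun g m hg hm hmK φ hφ hc S hS hSx => ?_⟩
  have hg0 : 0 < g := lt_of_lt_of_le one_pos hg
  set ψ : Cfg N → F := fun x => chi b ρ' v₀ x • φ x with hψ
  have hψc : ContDiff ℝ ∞ ψ := (contDiff_chi b ρ' v₀).smul hφ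
  have hψs : HasCompactSupport ψ := hc.smul_left
  have hφ1 : ContDiff ℝ 1 φ := hφ.of_le (by simp)
  have hI : 0 ≤ ∫ x, ‖φ x‖ ^ 2 := integral_nonneg fun x => by positivity
  have hIψ : 0 ≤ ∫ x, ‖ψ x‖ ^ 2 := integral_nonneg fun x => by positivity
  have hq : 0 ≤ qf b M G g m φ := by
    unfold qf
    have : 0 ≤ ∑ α : Fin 16, ∫ x, ‖dcharge b M G g m α φ x‖ ^ 2 :=
      Finset.sum_nonneg fun α _ => integral_nonneg fun x => by positivity
    positivity
  have hSψ : ∫ x in S, ‖φ x‖ ^ 2 ≤ ∫ x, ‖ψ x‖ ^ 2 := by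
    have h1 : ∫ x in S, ‖φ x‖ ^ 2 = ∫ x in S, ‖ψ x‖ ^ 2 := by
      refine setIntegral_congr_fun hS fun x hx => ?_
      obtain ⟨hx1, hx2⟩ := hSx x hx
      simp only [hψ]
      rw [chi_eq_one b hρ0 hv (hx1.trans (le_max_left _ _)) hx2, one_smul]
    rw [h1]
    exact setIntegral_le_integral (integrable_sq hψc.continuous hψs)
      (Eventually.of_forall fun x => by positivity)
  have hψφ : ∫ x, ‖ψ x‖ ^ 2 ≤ ∫ x, ‖φ x‖ ^ 2 := by
    refine integral_mono (integrable_sq hψc.continuous hψs) (integrable_sq hφ.continuous hc)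
      fun x => ?_
    simp only [hψ]
    rw [norm_smul, Real.norm_eq_abs, abs_of_nonneg (chi_nonneg b ρ' v₀ x), mul_pow]
    have h1 : chi b ρ' v₀ x ^ 2 ≤ 1 := pow_le_one₀ (chi_nonneg b ρ' v₀ x) (chi_le_one b ρ' v₀ x)
    exact mul_le_of_le_one_left (by positivity) h1
  have hE := hEn g m hg0.le hm ψ hψc hψs
  have hgrad : 0 ≤ 1 / 2 * (∑ k : Fin 9 × Fin (N ^ 2 - 1),
      ∫ x, ‖fderiv ℝ ψ x (EuclideanSpace.single k 1)‖ ^ 2) := by
    have : 0 ≤ ∑ k : Fin 9 × Fin (N ^ 2 - 1),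
        ∫ x, ‖fderiv ℝ ψ x (EuclideanSpace.single k 1)‖ ^ 2 :=
      Finset.sum_nonneg fun k _ => integral_nonneg fun x => by positivity
    positivity
  have hm1 : m ≤ (1 + |K|) * g := by
    have h1 : m ≤ 1 + m ^ 2 := by nlinarith [sq_nonneg (m - 1)]
    have h2 : K * g ≤ |K| * g := mul_le_mul_of_nonneg_right (le_abs_self K) hg0.le
    nlinarith [abs_nonneg K]
  have hmK' : m ^ 2 ≤ |K| * g := hmK.trans (mul_le_mul_of_nonneg_right (le_abs_self K) hg0.le)
  -- pointwise lower bound of the potential on the support of ψ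
  have hVl : (g ^ 2 * v₀ / 16) * (∫ x, ‖ψ x‖ ^ 2) ≤
      (∫ x, Vsq G b g m x * ‖ψ x‖ ^ 2) + |K| * g * (2 * ρ') ^ 2 / 18 * ∫ x, ‖ψ x‖ ^ 2 := by
    rw [← integral_const_mul, ← integral_const_mul, ← integral_add
      (integrable_mul_sq hψc.continuous hψs (continuous_Vsq G b g m))
      ((integrable_sq hψc.continuous hψs).const_mul _)]
    refine integral_mono ((integrable_sq hψc.continuous hψs).const_mul _)
      ((integrable_mul_sq hψc.continuous hψs (continuous_Vsq G b g m)).add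
        ((integrable_sq hψc.continuous hψs).const_mul _)) fun x => ?_
    simp only
    by_cases hx : chi b ρ' v₀ x = 0
    · simp [hψ, hx]
    · obtain ⟨h1, h2⟩ := chi_supp b hρ0 hv hx
      have h3 := Vsq_ge G b g m x
      have h4 : ‖x‖ ^ 2 ≤ (2 * ρ') ^ 2 := pow_le_pow_left₀ (norm_nonneg _) h1 2
      have h5 : g ^ 2 / 8 * (v₀ / 2) ≤ g ^ 2 / 8 * Vq b x :=
        mul_le_mul_of_nonneg_left h2 (by positivity)
      have h6 : m ^ 2 / 18 * ‖x‖ ^ 2 ≤ |K| * g * (2 * ρ') ^ 2 / 18 := by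
        have := mul_le_mul hmK' h4 (by positivity) (by positivity)
        linarith
      have h7 : g ^ 2 * v₀ / 16 ≤ Vsq G b g m x + |K| * g * (2 * ρ') ^ 2 / 18 := by linarith
      have h8 := mul_le_mul_of_nonneg_right h7 (show 0 ≤ ‖ψ x‖ ^ 2 by positivity)
      linarith
  have hY : C * ∫ x, (g * ‖x‖ + m) * ‖ψ x‖ ^ 2 ≤
      Cp * (2 * ρ' + (1 + |K|)) * g * ∫ x, ‖ψ x‖ ^ 2 := by
    have h1 : ∫ x, (g * ‖x‖ + m) * ‖ψ x‖ ^ 2 ≤
        ((2 * ρ' + (1 + |K|)) * g) * ∫ x, ‖ψ x‖ ^ 2 := by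
      rw [← integral_const_mul]
      refine integral_mono (integrable_mul_sq hψc.continuous hψs
        ((continuous_const.mul continuous_norm).add continuous_const))
        ((integrable_sq hψc.continuous hψs).const_mul _) fun x => ?_
      simp only
      by_cases hx : chi b ρ' v₀ x = 0
      · simp [hψ, hx]
      · obtain ⟨h1, h2⟩ := chi_supp b hρ0 hv hx
        refine mul_le_mul_of_nonneg_right ?_ (by positivity)
        have := mul_le_mul_of_nonneg_left h1 hg0.le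
        linarith
    have h2 : 0 ≤ ∫ x, (g * ‖x‖ + m) * ‖ψ x‖ ^ 2 :=
      integral_nonneg fun x => by positivity
    calc C * ∫ x, (g * ‖x‖ + m) * ‖ψ x‖ ^ 2 ≤ Cp * ∫ x, (g * ‖x‖ + m) * ‖ψ x‖ ^ 2 :=
          mul_le_mul_of_nonneg_right (le_abs_self C) h2
      _ ≤ Cp * (((2 * ρ' + (1 + |K|)) * g) * ∫ x, ‖ψ x‖ ^ 2) :=
          mul_le_mul_of_nonneg_left h1 hCp0
      _ = _ := by ring
  have hqψ := qf_mul_le b M G g m (χ := chi b ρ' v₀) ((contDiff_chi b ρ' v₀).of_le (by simp))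
    (fun x => by rw [abs_of_nonneg (chi_nonneg b ρ' v₀ x)]; exact chi_le_one b ρ' v₀ x) hL hφ1 hc
  have hmain : g ^ 2 * v₀ / 16 * (∫ x, ‖ψ x‖ ^ 2) ≤
      2 * qf b M G g m φ + L ^ 2 * (∫ x, ‖φ x‖ ^ 2) + C₂ * g * ∫ x, ‖ψ x‖ ^ 2 := by
    have e1 : C₂ * g * ∫ x, ‖ψ x‖ ^ 2 = |K| * g * (2 * ρ') ^ 2 / 18 * (∫ x, ‖ψ x‖ ^ 2) +
        Cp * (2 * ρ' + (1 + |K|)) * g * ∫ x, ‖ψ x‖ ^ 2 := by
      rw [hC₂]; ring
    rw [e1]
    linarith
  have hL2 : 0 ≤ L ^ 2 := sq_nonneg L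
  rcases le_or_gt (32 * C₂ / v₀) g with hgl | hgl
  · have h1 : 32 * C₂ ≤ g * v₀ := by rwa [div_le_iff₀ hv] at hgl
    have h2 : C₂ * g * (∫ x, ‖ψ x‖ ^ 2) ≤ g ^ 2 * v₀ / 32 * ∫ x, ‖ψ x‖ ^ 2 := by
      refine mul_le_mul_of_nonneg_right ?_ hIψ
      nlinarith
    have h3 : g ^ 2 * v₀ / 32 * (∫ x, ‖ψ x‖ ^ 2) ≤
        2 * qf b M G g m φ + L ^ 2 * ∫ x, ‖φ x‖ ^ 2 := by linarith
    have h4 : g ^ 2 * (∫ x, ‖ψ x‖ ^ 2) ≤
        32 / v₀ * (2 * qf b M G g m φ + L ^ 2 * ∫ x, ‖φ x‖ ^ 2) := by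
      rw [div_mul_eq_mul_div, le_div_iff₀ hv]
      linarith
    have h5 : 32 / v₀ * (2 * qf b M G g m φ + L ^ 2 * ∫ x, ‖φ x‖ ^ 2) ≤
        32 / v₀ * (2 + L ^ 2) * (qf b M G g m φ + ∫ x, ‖φ x‖ ^ 2) := by
      rw [mul_assoc]
      refine mul_le_mul_of_nonneg_left ?_ (by positivity)
      nlinarith [mul_nonneg hL2 hq]
    have h6 : 0 ≤ (32 * C₂ / v₀) ^ 2 * (qf b M G g m φ + ∫ x, ‖φ x‖ ^ 2) := by positivity
    calc g ^ 2 * ∫ x in S, ‖φ x‖ ^ 2 ≤ g ^ 2 * ∫ x, ‖ψ x‖ ^ 2 :=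
          mul_le_mul_of_nonneg_left hSψ (by positivity)
      _ ≤ _ := by linarith
  · have h1 : g ^ 2 ≤ (32 * C₂ / v₀) ^ 2 := pow_le_pow_left₀ hg0.le hgl.le 2
    have h2 : 0 ≤ 32 / v₀ * (2 + L ^ 2) * (qf b M G g m φ + ∫ x, ‖φ x‖ ^ 2) := by positivity
    calc g ^ 2 * ∫ x in S, ‖φ x‖ ^ 2 ≤ (32 * C₂ / v₀) ^ 2 * ∫ x, ‖φ x‖ ^ 2 :=
          mul_le_mul h1 (hSψ.trans hψφ) (integral_nonneg fun x => by positivity) (by positivity)
      _ ≤ (32 * C₂ / v₀) ^ 2 * (qf b M G g m φ + ∫ x, ‖φ x‖ ^ 2) :=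
          mul_le_mul_of_nonneg_left (by linarith) (by positivity)
      _ ≤ _ := by linarith

/-- compact sets off the commuting variety are in the range of `off_mass` -/
theorem exists_sep (b : ColorBasis N) {K : Set (Cfg N)} (hK : IsCompact K)
    (hd : Disjoint K (Cm b)) : ∃ ρ v₀ : ℝ, 0 < v₀ ∧ ∀ x ∈ K, ‖x‖ ≤ ρ ∧ v₀ ≤ Vq b x := by
  obtain ⟨ρ, hρ⟩ := hK.isBounded.exists_norm_le
  rcases K.eq_empty_or_nonempty with rfl | hne
  · exact ⟨0, 1, one_pos, fun x hx => hx.elim⟩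
  · obtain ⟨x₀, hx₀, hmin⟩ := hK.exists_isMinOn hne (continuous_Vq b).continuousOn
    have hpos : 0 < Vq b x₀ := by
      refine lt_of_le_of_ne (Vq_nonneg b x₀) fun h => ?_
      exact Set.disjoint_left.1 hd hx₀ h.symm
    exact ⟨ρ, Vq b x₀, hpos, fun x hx => ⟨hρ x hx, hmin hx⟩⟩


/-- `S9-OFF`, sequence form: bounded energy sequences with coupling `→ ∞` lose their mass off
the commuting variety. -/
theorem off_seq (b : ColorBasis N) (M : FermionRep N F) (G : GammaNine) {C : ℝ}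
    (hEn : EnLow b M G C) (ρ v₀ : ℝ) (hv : 0 < v₀) {m : ℝ} (hm : 0 ≤ m) {g : ℕ → ℝ}
    (hg : Tendsto g atTop atTop) {φ : ℕ → Cfg N → F} (hφ : ∀ j, ContDiff ℝ ∞ (φ j))
    (hc : ∀ j, HasCompactSupport (φ j)) {E : ℝ}
    (hE : ∀ j, qf b M G (g j) m (φ j) + ∫ x, ‖φ j x‖ ^ 2 ≤ E) {S : Set (Cfg N)}
    (hS : MeasurableSet S) (hSx : ∀ x ∈ S, ‖x‖ ≤ ρ ∧ v₀ ≤ Vq b x) :
    Tendsto (fun j => ∫ x in S, ‖φ j x‖ ^ 2) atTop (𝓝 0) := by
  obtain ⟨C', hC', h⟩ := off_mass b M G hEn (m ^ 2) ρ v₀ hv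
  have hlim : Tendsto (fun j => C' * E / (g j) ^ 2) atTop (𝓝 0) :=
    Tendsto.div_atTop tendsto_const_nhds ((tendsto_pow_atTop two_ne_zero).comp hg)
  refine squeeze_zero' (Eventually.of_forall fun j => integral_nonneg fun x => by positivity)
    ?_ hlim
  filter_upwards [hg.eventually_ge_atTop 1] with j hj
  have h1 := h (g j) m hj hm (by nlinarith [sq_nonneg m]) (φ j) (hφ j) (hc j) S hS hSx
  rw [le_div_iff₀ (by positivity), mul_comm]
  exact h1.trans (mul_le_mul_of_nonneg_left (hE j) hC')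

/-- compact `K` disjoint from the commuting variety -/
theorem off_compact (b : ColorBasis N) (M : FermionRep N F) (G : GammaNine) {C : ℝ}
    (hEn : EnLow b M G C) (K₀ : ℝ) {K : Set (Cfg N)} (hK : IsCompact K)
    (hd : Disjoint K (Cm b)) :
    ∃ C' : ℝ, 0 ≤ C' ∧ ∀ g m : ℝ, 1 ≤ g → 0 ≤ m → m ^ 2 ≤ K₀ * g → ∀ φ : Cfg N → F,
      ContDiff ℝ ∞ φ → HasCompactSupport φ →
      g ^ 2 * ∫ x in K, ‖φ x‖ ^ 2 ≤ C' * (qf b M G g m φ + ∫ x, ‖φ x‖ ^ 2) := by
  obtain ⟨ρ, v₀, hv, hx⟩ := exists_sep b hK hd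
  obtain ⟨C', hC', h⟩ := off_mass b M G hEn K₀ ρ v₀ hv
  exact ⟨C', hC', fun g m hg hm hmK φ hφ hc => h g m hg hm hmK φ hφ hc K hK.measurableSet hx⟩

/-- compact `K` disjoint from the commuting variety, sequences -/
theorem off_compact_seq (b : ColorBasis N) (M : FermionRep N F) (G : GammaNine) {C : ℝ}
    (hEn : EnLow b M G C) {K : Set (Cfg N)} (hK : IsCompact K) (hd : Disjoint K (Cm b))
    {m : ℝ} (hm : 0 ≤ m) {g : ℕ → ℝ} (hg : Tendsto g atTop atTop) {φ : ℕ → Cfg N → F}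
    (hφ : ∀ j, ContDiff ℝ ∞ (φ j)) (hc : ∀ j, HasCompactSupport (φ j)) {E : ℝ}
    (hE : ∀ j, qf b M G (g j) m (φ j) + ∫ x, ‖φ j x‖ ^ 2 ≤ E) :
    Tendsto (fun j => ∫ x in K, ‖φ j x‖ ^ 2) atTop (𝓝 0) := by
  obtain ⟨ρ, v₀, hv, hx⟩ := exists_sep b hK hd
  exact off_seq b M G hEn ρ v₀ hv hm hg hφ hc hE hK.measurableSet hx


end

end Crest.Agent.R330.Off2302
end

-- ▼ part R330/EnLow_302
section

/-!
R330 (helper302): the lower energy bound `∃ C ≥ 0, EnLow b M G C` from 726's energy identity.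
-/

set_option autoImplicit false
set_option linter.unusedSectionVars false
open MeasureTheory Filter Topology Crest.MathPhysics.MatrixQM
open scoped ContDiff InnerProductSpace

namespace Crest.Agent.R330.EnLow302

open Crest.Agent.R330.CoerCfg87 Crest.Agent.R330.VId87
open Crest.Agent.R330.Defs478 Crest.Agent.R330.Off2302 Crest.Agent.R330.Weitz726

noncomputable section

variable {N : ℕ} {F : Type*} [NormedAddCommGroup F] [InnerProductSpace ℂ F]
  [FiniteDimensional ℂ F]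

/-- the energy identity in the shape `qf = ½ ∑ ∫ |∂φ|² + ∫ Vsq |φ|² + ∫ Re ⟨φ, Y φ⟩` -/
theorem qf_eq (b : ColorBasis N) (M : FermionRep N F) (G : GammaNine) (g m : ℝ)
    {φ : Cfg N → F} (hφ : ContDiff ℝ 2 φ) (hc : HasCompactSupport φ) :
    qf b M G g m φ = 1 / 2 * (∑ k : Fin 9 × Fin (N ^ 2 - 1),
        ∫ x, ‖fderiv ℝ φ x (EuclideanSpace.single k 1)‖ ^ 2) +
      (∫ x, Vsq G b g m x * ‖φ x‖ ^ 2) +
      ∫ x, (⟪φ x, ((g : ℂ) • Yop b M G x + ((m / 8 : ℝ) : ℂ) • IG M G) (φ x)⟫_ℂ).re := by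
  have h := energy b M G g m hφ hc
  unfold qf
  simp only [Brid837.dcharge_eq]
  rw [h]
  congr 2
  refine integral_congr_ae (Eventually.of_forall fun x => ?_)
  simp only [Wsq, Vsq, dp, ← pow_two]
  ring

theorem enLow (b : ColorBasis N) (M : FermionRep N F) (G : GammaNine) :
    ∃ C : ℝ, 0 ≤ C ∧ EnLow b M G C := by
  obtain ⟨CY, hCY, hY⟩ := Yop_bound b M G
  set CI : ℝ := ‖LinearMap.toContinuousLinearMap (IG M G)‖ with hCI
  have hI : ∀ v : F, ‖IG M G v‖ ≤ CI * ‖v‖ := fun v =>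
    (LinearMap.toContinuousLinearMap (IG M G)).le_opNorm v
  have hCI0 : 0 ≤ CI := norm_nonneg _
  refine ⟨CY + CI, by positivity, fun g m hg hm φ hφ hc => ?_⟩
  have h2 : ContDiff ℝ 2 φ := hφ.of_le (WithTop.coe_le_coe.2 le_top)
  rw [qf_eq b M G g m h2 hc]
  have hcont : Continuous φ := hφ.continuous
  have key : -(∫ x, (⟪φ x, ((g : ℂ) • Yop b M G x + ((m / 8 : ℝ) : ℂ) • IG M G) (φ x)⟫_ℂ).re) ≤
      (CY + CI) * ∫ x, (g * ‖x‖ + m) * ‖φ x‖ ^ 2 := by
    rw [← integral_neg, ← integral_const_mul]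
    have hpt : ∀ x, ‖(⟪φ x, ((g : ℂ) • Yop b M G x + ((m / 8 : ℝ) : ℂ) • IG M G) (φ x)⟫_ℂ).re‖ ≤
        (CY + CI) * ((g * ‖x‖ + m) * ‖φ x‖ ^ 2) := by
      intro x
      have e1 : ‖((g : ℂ) • Yop b M G x + ((m / 8 : ℝ) : ℂ) • IG M G) (φ x)‖ ≤
          g * (CY * ‖x‖ * ‖φ x‖) + m / 8 * (CI * ‖φ x‖) := by
        rw [LinearMap.add_apply, LinearMap.smul_apply, LinearMap.smul_apply]
        refine (norm_add_le _ _).trans ?_
        rw [norm_smul, norm_smul, Complex.norm_real, Complex.norm_real, Real.norm_eq_abs,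
          Real.norm_eq_abs, abs_of_nonneg hg, abs_of_nonneg (by positivity : 0 ≤ m / 8)]
        gcongr
        · exact hY x (φ x)
        · exact hI (φ x)
      have e2 := (Complex.abs_re_le_norm _).trans
        (norm_inner_le_norm (𝕜 := ℂ) (φ x)
          (((g : ℂ) • Yop b M G x + ((m / 8 : ℝ) : ℂ) • IG M G) (φ x)))
      rw [Real.norm_eq_abs]
      refine e2.trans ((mul_le_mul_of_nonneg_left e1 (norm_nonneg _)).trans ?_)
      have n1 : 0 ≤ ‖φ x‖ := norm_nonneg _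
      have n2 : 0 ≤ ‖x‖ := norm_nonneg _
      have : (CY + CI) * ((g * ‖x‖ + m) * ‖φ x‖ ^ 2) - ‖φ x‖ * (g * (CY * ‖x‖ * ‖φ x‖) +
          m / 8 * (CI * ‖φ x‖)) = ‖φ x‖ ^ 2 * (CY * m + CI * (g * ‖x‖) + 7 / 8 * (CI * m)) := by
        ring
      have h3 : 0 ≤ ‖φ x‖ ^ 2 * (CY * m + CI * (g * ‖x‖) + 7 / 8 * (CI * m)) := by positivity
      linarith
    have hint : Integrable fun x => (CY + CI) * ((g * ‖x‖ + m) * ‖φ x‖ ^ 2) :=
      (integrable_mul_sq hcont hc (w := fun x => g * ‖x‖ + m)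
        ((continuous_const.mul continuous_norm).add continuous_const)).const_mul _
    have h4 := norm_integral_le_of_norm_le hint (Eventually.of_forall hpt)
    have h5 := neg_le_abs (∫ x, (⟪φ x, ((g : ℂ) • Yop b M G x +
      ((m / 8 : ℝ) : ℂ) • IG M G) (φ x)⟫_ℂ).re)
    rw [integral_neg]
    exact h5.trans h4
  linarith

/-- **Mass off the commuting variety**, no hypothesis left, `0 ≤ m ≤ 1`. -/
theorem off_compact (b : ColorBasis N) (M : FermionRep N F) (G : GammaNine)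
    {K : Set (Cfg N)} (hK : IsCompact K) (hd : Disjoint K (OffCm302.Cm b)) :
    ∃ C' : ℝ, 0 ≤ C' ∧ ∀ g m : ℝ, 1 ≤ g → 0 ≤ m → m ≤ 1 → ∀ φ : Cfg N → F,
      ContDiff ℝ ∞ φ → HasCompactSupport φ →
      g ^ 2 * ∫ x in K, ‖φ x‖ ^ 2 ≤ C' * (qf b M G g m φ + ∫ x, ‖φ x‖ ^ 2) := by
  obtain ⟨C, -, hC⟩ := enLow b M G
  obtain ⟨C', hC', h⟩ := Off2302.off_compact b M G hC 1 hK hd
  exact ⟨C', hC', fun g m hg hm hm1 φ hφ hc => h g m hg hm (by nlinarith) φ hφ hc⟩

/-- bounded energy sequences, coupling `→ ∞`, masses `0 ≤ m_j ≤ 1`: no mass on compact sets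
disjoint from the commuting variety -/
theorem off_compact_seq (b : ColorBasis N) (M : FermionRep N F) (G : GammaNine)
    {K : Set (Cfg N)} (hK : IsCompact K) (hd : Disjoint K (OffCm302.Cm b))
    {g m : ℕ → ℝ} (hm : ∀ j, 0 ≤ m j) (hm1 : ∀ j, m j ≤ 1) (hg : Tendsto g atTop atTop)
    {φ : ℕ → Cfg N → F} (hφ : ∀ j, ContDiff ℝ ∞ (φ j)) (hc : ∀ j, HasCompactSupport (φ j))
    {E : ℝ} (hE : ∀ j, qf b M G (g j) (m j) (φ j) + ∫ x, ‖φ j x‖ ^ 2 ≤ E) :
    Tendsto (fun j => ∫ x in K, ‖φ j x‖ ^ 2) atTop (𝓝 0) := by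
  obtain ⟨C', hC', h⟩ := off_compact b M G hK hd
  have hlim : Tendsto (fun j => C' * E / (g j) ^ 2) atTop (𝓝 0) :=
    Tendsto.div_atTop tendsto_const_nhds ((tendsto_pow_atTop two_ne_zero).comp hg)
  refine squeeze_zero' (Eventually.of_forall fun j => integral_nonneg fun x => by positivity)
    ?_ hlim
  filter_upwards [hg.eventually_ge_atTop 1] with j hj
  have h1 := h (g j) (m j) hj (hm j) (hm1 j) (φ j) (hφ j) (hc j)
  rw [le_div_iff₀ (by positivity), mul_comm]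
  exact h1.trans (mul_le_mul_of_nonneg_left (hE j) hC')


end

end Crest.Agent.R330.EnLow302
end

-- ▼ part R330/CapBind_737

/-!
# Row 330, S9-CAPBIND (helper737): capture on annuli from the slice estimate

* `Null b M R G m T g φ` : `g → ∞`, core vectors of bounded energy, all amplitudes tend to zero.
* `SliceEst b M R G m T` : the slice estimate at the diagonal configurations with at least two
  clusters.  It is enough to have it FREQUENTLY in `j` (all hypotheses pass to subsequences).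
* `capAnn_of : SliceEst → CapAnn`, `capFam_of` : the same for a family of channels.
-/

set_option autoImplicit false
set_option linter.unusedSectionVars false

open MeasureTheory Filter Topology Set Crest.MathPhysics.MatrixQM
open scoped ContDiff InnerProductSpace ENNReal

noncomputable section

namespace Crest.Agent.R330.CapBind737

open Crest.Agent.R330.Defs478 Crest.Agent.R330.Top478 Crest.Agent.R330.Sec478
  Crest.Agent.R330.TrialSys796 Crest.Agent.R330.Chan441 Crest.Agent.R330.OffCm302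
  Crest.Agent.R330.AcomV302 Crest.Agent.R330.Strata737 Crest.Agent.R330.SlP314

variable {N : ℕ} {F : Type*} [NormedAddCommGroup F] [InnerProductSpace ℂ F]
  [FiniteDimensional ℂ F]

/-- a sequence of bounded energy with null amplitudes -/
structure Null (b : ColorBasis N) (M : FermionRep N F) (R : GaugeAction b M) (G : GammaNine)
    (m : ℝ) {X : Type*} (T : ℝ → X → Cfg N → F) (g : ℕ → ℝ) (φ : ℕ → Cfg N → F) : Prop where
  g_top : Tendsto g atTop atTop
  core : ∀ j, IsCoreVec b R (φ j)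
  en : ∃ C, ∀ j, En b M G (g j) m (φ j) ≤ C
  pair : ∀ χ, Tendsto (fun j => ∫ x, ⟪T (g j) χ x, φ j x⟫_ℂ) atTop (𝓝 0)

theorem Null.comp {b : ColorBasis N} {M : FermionRep N F} {R : GaugeAction b M} {G : GammaNine}
    {m : ℝ} {X : Type*} {T : ℝ → X → Cfg N → F} {g : ℕ → ℝ} {φ : ℕ → Cfg N → F}
    (h : Null b M R G m T g φ) {s : ℕ → ℕ} (hs : Tendsto s atTop atTop) :
    Null b M R G m T (fun j => g (s j)) (fun j => φ (s j)) where
  g_top := h.g_top.comp hs
  core j := h.core (s j)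
  en := h.en.imp fun _ hC j => hC (s j)
  pair χ := (h.pair χ).comp hs

/-- **The slice estimate** at the diagonal configuration `diag(p)`: for a good radius `η`
(depending only on `p`), for every null sequence and every `ε > 0` there is `δ > 0` such that the
mass of `tubeS b c η δ = {h(c+y) : y ∈ Nor c, ‖y‖ < η, ‖y - P_F y‖ < δ}` is at most `ε` for
infinitely many `j`. -/
def SliceEstAt (b : ColorBasis N) (M : FermionRep N F) (R : GaugeAction b M) (G : GammaNine)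
    (m : ℝ) {X : Type*} (T : ℝ → X → Cfg N → F) (p : Fin 9 → Fin N → ℝ) : Prop :=
  ∃ η : ℝ, GoodRad b (diagCfg b p) η ∧
    ∀ (g : ℕ → ℝ) (φ : ℕ → Cfg N → F), Null b M R G m T g φ → ∀ ε : ℝ, 0 < ε →
      ∃ δ : ℝ, 0 < δ ∧ ∃ᶠ j in atTop, ∫ x in tubeS b (diagCfg b p) η δ, ‖φ j x‖ ^ 2 ≤ ε

/-- the slice estimate at all diagonal configurations with at least two clusters -/
def SliceEst (b : ColorBasis N) (M : FermionRep N F) (R : GaugeAction b M) (G : GammaNine)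
    (m : ℝ) {X : Type*} (T : ℝ → X → Cfg N → F) : Prop :=
  ∀ p : Fin 9 → Fin N → ℝ, (∀ i, ∑ a, p i a = 0) → 2 ≤ nv p → SliceEstAt b M R G m T p

section mass

theorem integrableOn_sq {φ : Cfg N → F} (hφ : Continuous φ) (hc : HasCompactSupport φ)
    (S : Set (Cfg N)) : IntegrableOn (fun x => ‖φ x‖ ^ 2) S := by
  have h : Integrable (fun x => ‖φ x‖ ^ 2) := by
    refine (hφ.norm.pow 2).integrable_of_hasCompactSupport ?_
    exact HasCompactSupport.intro hc fun x hx => by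
      simp only [Pi.pow_apply, image_eq_zero_of_notMem_tsupport hx]; simp
  exact h.integrableOn

theorem mass_eq {φ : Cfg N → F} (hφ : Continuous φ) (hc : HasCompactSupport φ)
    (S : Set (Cfg N)) :
    ∫⁻ x in S, ‖φ x‖ₑ ^ 2 = ENNReal.ofReal (∫ x in S, ‖φ x‖ ^ 2) := by
  rw [ofReal_integral_eq_lintegral_ofReal (integrableOn_sq hφ hc S)
    (ae_of_all _ fun x => by positivity)]
  refine lintegral_congr fun x => ?_
  rw [ENNReal.ofReal_pow (norm_nonneg _), ofReal_norm]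

theorem tubeS_mono (b : ColorBasis N) (c : Cfg N) (η : ℝ) {δ δ' : ℝ} (h : δ ≤ δ') :
    tubeS b c η δ ⊆ tubeS b c η δ' := by
  rintro x ⟨g, y, hy, hn, hd, he⟩
  exact ⟨g, y, hy, hn, hd.trans_le h, he⟩

theorem act_mem_tubeS (b : ColorBasis N) {c : Cfg N} {η δ : ℝ} {x : Cfg N}
    (g : Matrix.specialUnitaryGroup (Fin N) ℂ) (h : x ∈ tubeS b c η δ) :
    b.act g x ∈ tubeS b c η δ := by
  obtain ⟨k, y, hy, hn, hd, he⟩ := h
  exact ⟨g * k, y, hy, hn, hd, by rw [Col962.act_mul, he]⟩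

theorem mem_tubeS_act (b : ColorBasis N) {c : Cfg N} {η δ : ℝ} {x : Cfg N}
    (g : Matrix.specialUnitaryGroup (Fin N) ℂ) :
    b.act g x ∈ tubeS b c η δ ↔ x ∈ tubeS b c η δ := by
  constructor
  · intro h
    have h1 := act_mem_tubeS b g⁻¹ h
    rwa [comp_act_inv] at h1
  · exact act_mem_tubeS b g

theorem continuous_actq (b : ColorBasis N) (q : Matrix.specialUnitaryGroup (Fin N) ℂ) :
    Continuous fun x : Cfg N => b.act q x := by
  have h1 := SlD314.continuous_act b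
  have h2 : Continuous fun x : Cfg N => ((q, x) : Matrix.specialUnitaryGroup (Fin N) ℂ × Cfg N) :=
    continuous_const.prodMk continuous_id
  have h3 := Continuous.comp (g := fun p : Matrix.specialUnitaryGroup (Fin N) ℂ × Cfg N =>
    b.act p.1 p.2) h1 h2
  exact h3

end mass

variable {b : ColorBasis N} {M : FermionRep N F} {R : GaugeAction b M} {G : GammaNine}
  {m : ℝ} {X : Type*} {T : ℝ → X → Cfg N → F}

/-- frequently = eventually, because null sequences are stable under subsequences -/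
theorem SliceEstAt.eventually {p : Fin 9 → Fin N → ℝ} (h : SliceEstAt b M R G m T p) :
    ∃ η : ℝ, GoodRad b (diagCfg b p) η ∧
      ∀ (g : ℕ → ℝ) (φ : ℕ → Cfg N → F), Null b M R G m T g φ → ∀ ε : ℝ, 0 < ε →
        ∃ δ : ℝ, 0 < δ ∧ ∀ᶠ j in atTop, ∫ x in tubeS b (diagCfg b p) η δ, ‖φ j x‖ ^ 2 ≤ ε := by
  obtain ⟨η, hη, h⟩ := h
  refine ⟨η, hη, fun g φ hn ε hε => ?_⟩
  by_contra hcon
  push Not at hcon
  have h1 : ∀ n : ℕ, ∃ᶠ j in atTop,
      ε < ∫ x in tubeS b (diagCfg b p) η (1 / ((n : ℝ) + 1)), ‖φ j x‖ ^ 2 := by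
    intro n
    exact hcon (1 / ((n : ℝ) + 1)) (by positivity)
  obtain ⟨s, hs, h3⟩ := extraction_forall_of_frequently h1
  obtain ⟨δ, hδ, h4⟩ := h _ _ (hn.comp hs.tendsto_atTop) ε hε
  obtain ⟨n₀, hn₀⟩ := exists_nat_one_div_lt hδ
  refine h4 ?_
  filter_upwards [eventually_ge_atTop n₀] with n hn1
  rw [not_le]
  refine (h3 n).trans_le ?_
  have hc := hn.core (s n)
  refine setIntegral_mono_set (integrableOn_sq hc.1.continuous hc.2.1 _)
    (ae_of_all _ fun x => by positivity) ?_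
  refine LE.le.eventuallyLE (tubeS_mono b _ η ?_)
  have h5 : 1 / ((n : ℝ) + 1) ≤ 1 / ((n₀ : ℝ) + 1) := by
    apply one_div_le_one_div_of_le (by positivity)
    have : (n₀ : ℝ) ≤ n := by exact_mod_cast hn1
    linarith
  linarith

/-- **Capture on annuli from the slice estimate.** -/
theorem capAnn_of (hN : 0 < N) (hm : 0 ≤ m) (hm1 : m ≤ 1) (h : SliceEst b M R G m T) :
    CapAnn b M R G m T := by
  intro g φ C hg hφ hE hp r ρ hr
  have hnull : Null b M R G m T g φ := ⟨hg, hφ, ⟨C, hE⟩, hp⟩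
  have hφc : ∀ j, Continuous (φ j) := fun j => (hφ j).1.continuous
  set A : Set (Cfg N) := {x : Cfg N | r ≤ ‖x‖ ∧ ‖x‖ ≤ ρ} with hAdef
  have hA : IsCompact A := by
    have h1 : IsCompact (Metric.closedBall (0 : Cfg N) ρ) := isCompact_closedBall _ _
    refine h1.of_isClosed_subset ?_ ?_
    · exact (isClosed_le continuous_const continuous_norm).inter
        (isClosed_le continuous_norm continuous_const)
    · intro x hx
      rw [mem_closedBall_zero_iff]
      exact hx.2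
  have hA0 : (0 : Cfg N) ∉ A := fun h0 => by
    have := h0.1
    rw [norm_zero] at this
    linarith
  have key := CapTop924.cap_top (l := (atTop : Filter ℕ)) hA N (Str b) (isClosed_Str b)
    (by rw [Str_zero b hN, Set.inter_empty])
    (m := fun (j : ℕ) (S : Set (Cfg N)) => ∫⁻ x in S, ‖φ j x‖ₑ ^ 2)
    (fun j S S' hSS => lintegral_mono_set hSS)
    (fun j S S' => lintegral_union_le _ _ _)
    (fun j => by simp) ?_ ?_
  · rw [tendsto_order]
    constructor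
    · intro a ha
      exact Eventually.of_forall fun j => lt_of_lt_of_le ha
        (integral_nonneg fun x => by positivity)
    · intro a ha
      have h1 := key (ENNReal.ofReal (a / 2)) (by rw [ENNReal.ofReal_pos]; linarith)
      filter_upwards [h1] with j hj
      rw [mass_eq (hφc j) (hφ j).2.1] at hj
      have h2 := (ENNReal.ofReal_le_ofReal_iff (by linarith)).1 hj
      linarith
  · -- the local estimate
    intro k hk c hcA hc1 hck
    obtain ⟨q, p, hps, hpn, hpe⟩ := hc1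
    have hc0 : c ≠ 0 := fun h0 => hA0 (h0 ▸ hcA)
    have hnv : 2 ≤ nv p := by
      by_contra hlt
      have h1 : c ∈ Str b 1 := ⟨q, p, hps, by omega, hpe⟩
      rw [Str_one b hN] at h1
      exact hc0 h1
    obtain ⟨η, hη, hest⟩ := (h p hps hnv).eventually
    have hd1 : diagCfg b p ∈ Str b (k + 1) := by
      rw [← hpe]
      exact act_mem_Str b ⟨q, p, hps, hpn, hpe⟩ q
    have hd2 : diagCfg b p ∉ Str b k := by
      intro h1
      rw [← hpe] at h1
      have h2 := act_mem_Str b h1 q⁻¹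
      rw [comp_act_inv] at h2
      exact hck h2
    obtain ⟨U, hU, hdU, hUs⟩ := stratum_subset_tubeS b hN hd1 hd2 hη.pos
    have hcont : Continuous fun x : Cfg N => b.act q x := continuous_actq b q
    refine ⟨(fun x => b.act q x) ⁻¹' U, hU.preimage hcont, ?_, fun ε hε => ?_⟩
    · show b.act q c ∈ U
      rwa [hpe]
    · have hε' : ∃ ε' : ℝ, 0 < ε' ∧ ENNReal.ofReal ε' ≤ ε := by
        rcases eq_or_ne ε ⊤ with h1 | h1
        · exact ⟨1, one_pos, h1 ▸ le_top⟩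
        · exact ⟨ε.toReal, ENNReal.toReal_pos hε.ne' h1, (ENNReal.ofReal_toReal h1).le⟩
      obtain ⟨ε', hε1, hε2⟩ := hε'
      obtain ⟨δ, hδ, hev⟩ := hest g φ hnull ε' hε1
      refine ⟨tubeS b (diagCfg b p) η δ, isOpen_tubeS b hη δ, ?_, ?_⟩
      · rintro x ⟨⟨-, hxU⟩, hxS⟩
        have hxU' : b.act q x ∈ U := hxU
        have hxV : b.act q x ∈ tubeS b (diagCfg b p) η δ :=
          hUs δ hδ ⟨hxU', act_mem_Str b hxS q⟩
        exact (mem_tubeS_act b q).1 hxV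
      · filter_upwards [hev] with j hj
        refine (lintegral_mono_set Set.inter_subset_right).trans ?_
        rw [mass_eq (hφc j) (hφ j).2.1]
        exact (ENNReal.ofReal_le_ofReal hj).trans hε2
  · -- off the commuting variety
    intro K hK hKA hd ε hε
    rw [Str_top b hN] at hd
    have h1 := EnLow302.off_compact_seq b M G hK hd (g := g) (m := fun _ => m)
      (fun _ => hm) (fun _ => hm1) hg (fun j => (hφ j).1) (fun j => (hφ j).2.1) (E := C)
      (fun j => by have := hE j; unfold En at this; linarith)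
    have hε' : ∃ ε' : ℝ, 0 < ε' ∧ ENNReal.ofReal ε' ≤ ε := by
      rcases eq_or_ne ε ⊤ with h1 | h1
      · exact ⟨1, one_pos, h1 ▸ le_top⟩
      · exact ⟨ε.toReal, ENNReal.toReal_pos hε.ne' h1, (ENNReal.ofReal_toReal h1).le⟩
    obtain ⟨ε', hε1, hε2⟩ := hε'
    filter_upwards [h1.eventually_le_const hε1] with j hj
    rw [mass_eq (hφc j) (hφ j).2.1]
    exact (ENNReal.ofReal_le_ofReal hj).trans hε2

/-- the same for a family of channels -/
theorem capFam_of (hN : 0 < N) (hm : 0 ≤ m) (hm1 : m ≤ 1) {ι : Type*} {X : ι → Type*}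
    {T : ∀ i, ℝ → X i → Cfg N → F}
    (h : SliceEst b M R G m (X := Σ i, X i) (fun g s => T s.1 g s.2)) :
    CapFam b M R G m T := by
  intro g φ C hg hφ hE hp r ρ hr
  exact capAnn_of hN hm hm1 h g φ C hg hφ hE (fun s => hp s.1 s.2) r ρ hr

end Crest.Agent.R330.CapBind737

end
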