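import Crest.Agent.R330.IBP_837
import Crest.Agent.R330.Ims_714

/-!
Row 330 (helper837), leaf A0-DIRG: first order operators with variable coefficients along an
arbitrary finite family of directions on any finite dimensional real normed space:
`D φ (x) = Σ_k (-i) a_k(x) (∂_{e_k} φ)(x) + V(x) φ(x)`.
Symmetry up to the divergence of the coefficients, Leibniz, weak limits, closability.
The charges `chargeW` written in an arbitrary orthonormal basis of `Cfg N`.
-/

set_option autoImplicit false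
set_option linter.unusedSectionVars false
set_option linter.deprecated false

noncomputable section

namespace Crest.Agent.R330.DirG837

open MeasureTheory Filter Topology Crest.MathPhysics.MatrixQM
open scoped ContDiff InnerProductSpace ENNReal
open Crest.Agent.R330.IBP837

/-! ### 1. Operators -/

section Op

variable {E : Type*} [NormedAddCommGroup E] [NormedSpace ℝ E] {ι : Type*} [Fintype ι]
  {F : Type*} [NormedAddCommGroup F] [InnerProductSpace ℂ F]

/-- `D φ (x) = Σ_k (-i) a_k(x) (∂_{e_k} φ)(x) + V(x) φ(x)` -/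
def dirG (e : ι → E) (a : ι → E → F →ₗ[ℂ] F) (V : E → F →ₗ[ℂ] F) (φ : E → F) (x : E) : F :=
  (∑ k, (-Complex.I) • a k x (fderiv ℝ φ x (e k))) + V x (φ x)

variable {e : ι → E} {a : ι → E → F →ₗ[ℂ] F} {V : E → F →ₗ[ℂ] F} {φ ψ : E → F}











/-! coefficients -/

section Coef

variable [FiniteDimensional ℂ F]

theorem contDiff_lin {n : WithTop ℕ∞} {B : E → F →ₗ[ℂ] F} (hB : ∀ v, ContDiff ℝ n (fun x => B x v))
    (hφ : ContDiff ℝ n φ) : ContDiff ℝ n (fun x => B x (φ x)) := by
  have h1 : ContDiff ℝ n (fun x => ((LinearMap.toContinuousLinearMap (B x)).restrictScalars ℝ :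
      F →L[ℝ] F)) := by
    rw [contDiff_clm_apply_iff]
    intro v
    exact hB v
  exact h1.clm_apply hφ

/-- product rule for `x ↦ B(x) ψ(x)` -/
theorem fderiv_lin {B : E → F →ₗ[ℂ] F} (hB : ∀ v, ContDiff ℝ 1 (fun x => B x v))
    (hψ : ContDiff ℝ 1 ψ) (x v : E) :
    fderiv ℝ (fun y => B y (ψ y)) x v =
      B x (fderiv ℝ ψ x v) + fderiv ℝ (fun y => B y (ψ x)) x v := by
  have h1 : ContDiff ℝ 1 (fun x => ((LinearMap.toContinuousLinearMap (B x)).restrictScalars ℝ :
      F →L[ℝ] F)) := by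
    rw [contDiff_clm_apply_iff]
    intro v
    exact hB v
  have hA := (h1.differentiable (by norm_num) x).hasFDerivAt
  have hp := (hψ.differentiable (by norm_num) x).hasFDerivAt
  have h2 := (hA.clm_apply hp).fderiv
  have h3 := (hA.clm_apply (hasFDerivAt_const (ψ x) x)).fderiv
  have e2 : fderiv ℝ (fun y => B y (ψ y)) x = _ := h2
  have e3 : fderiv ℝ (fun y => B y (ψ x)) x = _ := h3
  rw [e2, e3]
  simp only [ContinuousLinearMap.add_apply, ContinuousLinearMap.comp_apply,
    ContinuousLinearMap.flip_apply, ContinuousLinearMap.zero_apply, map_zero, zero_add]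
  rfl

theorem contDiff_dirG {n m : WithTop ℕ∞} (hmn : m + 1 ≤ n)
    (ha : ∀ k v, ContDiff ℝ m (fun x => a k x v)) (hV : ∀ v, ContDiff ℝ m (fun x => V x v))
    (hφ : ContDiff ℝ n φ) : ContDiff ℝ m (dirG e a V φ) := by
  unfold dirG
  have hm : ContDiff ℝ m φ := hφ.of_le (le_trans (by exact le_self_add) hmn)
  apply ContDiff.add
  · apply ContDiff.sum
    intro k _
    exact (contDiff_lin (ha k) ((hφ.fderiv_right hmn).clm_apply contDiff_const)).const_smul _
  · exact contDiff_lin hV hm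


variable [MeasurableSpace E] [BorelSpace E] {μ : Measure E}


theorem hcs_lin {B : E → F →ₗ[ℂ] F} (h : HasCompactSupport φ) :
    HasCompactSupport (fun x => B x (φ x)) :=
  h.mono' (fun x hx => subset_tsupport _ (by intro h0; apply hx; simp [h0]))

/-- symmetry up to the divergence of the coefficients:
`∫⟪Dφ, ψ⟫ = ∫⟪φ, Dψ⟫ + Σ_k ∫⟪φ, -i (∂_{e_k} a_k) ψ⟫` -/
theorem dirG_symm_defect [FiniteDimensional ℝ E] [μ.IsAddHaarMeasure]
    (has : ∀ k x, (a k x).IsSymmetric) (hVs : ∀ x, (V x).IsSymmetric)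
    (ha : ∀ k v, ContDiff ℝ 1 (fun x => a k x v)) (hV : ∀ v, Continuous (fun x => V x v))
    (hφ : ContDiff ℝ 1 φ) (hψ : ContDiff ℝ 1 ψ)
    (hc : HasCompactSupport φ ∨ HasCompactSupport ψ) :
    ∫ x, ⟪dirG e a V φ x, ψ x⟫_ℂ ∂μ = ∫ x, ⟪φ x, dirG e a V ψ x⟫_ℂ ∂μ +
      ∑ k, ∫ x, ⟪φ x, (-Complex.I) • fderiv ℝ (fun y => a k y (ψ x)) x (e k)⟫_ℂ ∂μ := by
  have hVc : ∀ {f : E → F}, ContDiff ℝ 1 f → Continuous fun x => V x (f x) := by
    intro f hf
    exact (contDiff_lin (n := 0) (fun v => contDiff_zero.mpr (hV v))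
      (hf.of_le (by norm_num))).continuous
  have hda : ∀ (k : ι) {f : E → F}, ContDiff ℝ 1 f →
      Continuous fun x => a k x (fderiv ℝ f x (e k)) := by
    intro k f hf
    exact (contDiff_lin (n := 0) (fun v => (ha k v).of_le (by norm_num))
      (contDiff_zero.mpr (fderiv_apply_continuous hf _))).continuous
  have haf : ∀ (k : ι) {f : E → F}, ContDiff ℝ 1 f → ContDiff ℝ 1 fun x => a k x (f x) :=
    fun k f hf => contDiff_lin (ha k) hf
  have hdiv : ∀ k, Continuous fun x => fderiv ℝ (fun y => a k y (ψ x)) x (e k) := by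
    intro k
    have h1 : (fun x => fderiv ℝ (fun y => a k y (ψ x)) x (e k)) =
        fun x => fderiv ℝ (fun y => a k y (ψ y)) x (e k) - a k x (fderiv ℝ ψ x (e k)) := by
      funext x
      rw [fderiv_lin (ha k) hψ x (e k)]
      abel
    rw [h1]
    exact (fderiv_apply_continuous (haf k hψ) _).sub (hda k hψ)
  have hI1 : ∀ k, Integrable (fun x => ⟪(-Complex.I) • a k x (fderiv ℝ φ x (e k)), ψ x⟫_ℂ) μ := by
    intro k
    apply integrable_inner_of_cont ((hda k hφ).const_smul _) hψ.continuous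
    refine hc.imp (fun h => ?_) id
    exact (hasCompactSupport_fderiv_apply h (e k)).mono'
      (fun x hx => subset_tsupport _ (by intro h0; apply hx; simp [h0]))
  have hI2 : ∀ k, Integrable (fun x => ⟪φ x, (-Complex.I) • a k x (fderiv ℝ ψ x (e k))⟫_ℂ) μ := by
    intro k
    apply integrable_inner_of_cont hφ.continuous ((hda k hψ).const_smul _)
    refine hc.imp id (fun h => ?_)
    exact (hasCompactSupport_fderiv_apply h (e k)).mono'
      (fun x hx => subset_tsupport _ (by intro h0; apply hx; simp [h0]))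
  have hdivz : HasCompactSupport ψ → ∀ k,
      HasCompactSupport fun x => (-Complex.I) • fderiv ℝ (fun y => a k y (ψ x)) x (e k) := by
    intro h k
    refine h.mono' (fun x hx => subset_tsupport _ ?_)
    intro h0
    apply hx
    have h00 : ψ x = 0 := h0
    simp [h00]
  have hI3 : ∀ k, Integrable
      (fun x => ⟪φ x, (-Complex.I) • fderiv ℝ (fun y => a k y (ψ x)) x (e k)⟫_ℂ) μ := by
    intro k
    apply integrable_inner_of_cont hφ.continuous ((hdiv k).const_smul _)
    exact hc.imp id (fun h => hdivz h k)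
  have hJ1 : Integrable (fun x => ⟪V x (φ x), ψ x⟫_ℂ) μ :=
    integrable_inner_of_cont (hVc hφ) hψ.continuous (hc.imp hcs_lin id)
  have hJ2 : Integrable (fun x => ⟪φ x, V x (ψ x)⟫_ℂ) μ :=
    integrable_inner_of_cont hφ.continuous (hVc hψ) (hc.imp id hcs_lin)
  have hL : ∫ x, ⟪dirG e a V φ x, ψ x⟫_ℂ ∂μ =
      (∑ k, ∫ x, ⟪(-Complex.I) • a k x (fderiv ℝ φ x (e k)), ψ x⟫_ℂ ∂μ) +
        ∫ x, ⟪V x (φ x), ψ x⟫_ℂ ∂μ := by
    rw [← integral_finset_sum _ (fun k _ => hI1 k),
      ← integral_add (integrable_finset_sum _ (fun k _ => hI1 k)) hJ1]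
    refine integral_congr_ae (Eventually.of_forall fun x => ?_)
    simp only [dirG, inner_add_left, sum_inner]
  have hR : ∫ x, ⟪φ x, dirG e a V ψ x⟫_ℂ ∂μ =
      (∑ k, ∫ x, ⟪φ x, (-Complex.I) • a k x (fderiv ℝ ψ x (e k))⟫_ℂ ∂μ) +
        ∫ x, ⟪φ x, V x (ψ x)⟫_ℂ ∂μ := by
    rw [← integral_finset_sum _ (fun k _ => hI2 k),
      ← integral_add (integrable_finset_sum _ (fun k _ => hI2 k)) hJ2]
    refine integral_congr_ae (Eventually.of_forall fun x => ?_)
    simp only [dirG, inner_add_right, inner_sum]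
  rw [hL, hR, add_right_comm, ← Finset.sum_add_distrib]
  congr 1
  · refine Finset.sum_congr rfl fun k _ => ?_
    have e1 : ∀ x, ⟪(-Complex.I) • a k x (fderiv ℝ φ x (e k)), ψ x⟫_ℂ =
        Complex.I * ⟪fderiv ℝ φ x (e k), a k x (ψ x)⟫_ℂ := by
      intro x
      rw [inner_smul_left, has k x]
      simp
    rw [← integral_add (hI2 k) (hI3 k)]
    have e2 : ∀ x, ⟪φ x, (-Complex.I) • a k x (fderiv ℝ ψ x (e k))⟫_ℂ +
        ⟪φ x, (-Complex.I) • fderiv ℝ (fun y => a k y (ψ x)) x (e k)⟫_ℂ =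
        (-Complex.I) * ⟪φ x, fderiv ℝ (fun y => a k y (ψ y)) x (e k)⟫_ℂ := by
      intro x
      rw [← inner_add_right, ← smul_add, ← fderiv_lin (ha k) hψ x (e k), inner_smul_right]
    simp only [e1, e2]
    rw [integral_const_mul, integral_const_mul, ibp hφ (haf k hψ) ?_]
    · ring
    · exact hc.imp id hcs_lin
  · refine integral_congr_ae (Eventually.of_forall fun x => ?_)
    exact hVs x _ _

/-- symmetry for divergence free coefficients -/
theorem dirG_symm [FiniteDimensional ℝ E] [μ.IsAddHaarMeasure]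
    (has : ∀ k x, (a k x).IsSymmetric) (hVs : ∀ x, (V x).IsSymmetric)
    (ha : ∀ k v, ContDiff ℝ 1 (fun x => a k x v)) (hV : ∀ v, Continuous (fun x => V x v))
    (hdiv : ∀ x v, ∑ k, fderiv ℝ (fun y => a k y v) x (e k) = 0)
    (hφ : ContDiff ℝ 1 φ) (hψ : ContDiff ℝ 1 ψ)
    (hc : HasCompactSupport φ ∨ HasCompactSupport ψ) :
    ∫ x, ⟪dirG e a V φ x, ψ x⟫_ℂ ∂μ = ∫ x, ⟪φ x, dirG e a V ψ x⟫_ℂ ∂μ := by
  rw [dirG_symm_defect has hVs ha hV hφ hψ hc]
  have hI3 : ∀ k, Integrable
      (fun x => ⟪φ x, (-Complex.I) • fderiv ℝ (fun y => a k y (ψ x)) x (e k)⟫_ℂ) μ := by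
    intro k
    have h1 : (fun x => fderiv ℝ (fun y => a k y (ψ x)) x (e k)) =
        fun x => fderiv ℝ (fun y => a k y (ψ y)) x (e k) - a k x (fderiv ℝ ψ x (e k)) := by
      funext x
      rw [fderiv_lin (ha k) hψ x (e k)]
      abel
    have hcont : Continuous fun x => fderiv ℝ (fun y => a k y (ψ x)) x (e k) := by
      rw [h1]
      exact (fderiv_apply_continuous (contDiff_lin (ha k) hψ) _).sub
        (contDiff_lin (n := 0) (fun v => (ha k v).of_le (by norm_num))
          (contDiff_zero.mpr (fderiv_apply_continuous hψ _))).continuous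
    apply integrable_inner_of_cont hφ.continuous (hcont.const_smul _)
    refine hc.imp id (fun h => ?_)
    refine h.mono' (fun x hx => subset_tsupport _ ?_)
    intro h0
    apply hx
    have h00 : ψ x = 0 := h0
    simp [h00]
  rw [← integral_finset_sum _ (fun k _ => hI3 k)]
  have hz : ∀ x, ∑ k, ⟪φ x, (-Complex.I) • fderiv ℝ (fun y => a k y (ψ x)) x (e k)⟫_ℂ = 0 := by
    intro x
    rw [← inner_sum, ← Finset.smul_sum, hdiv x (ψ x), smul_zero, inner_zero_right]
  simp only [hz]
  simp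


end Coef

end Op

/-! ### 2. The charges in an arbitrary orthonormal basis -/

section Onb

variable {N : ℕ} {F : Type*} [NormedAddCommGroup F] [InnerProductSpace ℂ F]
  [FiniteDimensional ℂ F]











end Onb

end Crest.Agent.R330.DirG837
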