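import Crest.Agent.R330.Amp_837
import Crest.Agent.R330.DirG_837

/-!
Row 330 (helper837), S9-FIBPROJ: fibre projections `w(u) = p(u) ∫ gs(u,z) Φ(u,z) dz` over a base `U`
with fibre `Z`: smoothness, compact support, `L²` contraction localised on subsets of the base,
Pythagoras, intertwining with first order operators on the base, equivariance.
-/

set_option autoImplicit false
set_option linter.unusedSectionVars false
set_option linter.deprecated false
set_option linter.unusedVariables false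

noncomputable section

namespace Crest.Agent.R330.FibProj837

open MeasureTheory Filter Topology Set
open scoped ContDiff InnerProductSpace ENNReal
open Crest.Agent.R330.IBP837 Crest.Agent.R330.Fib837 Crest.Agent.R330.Amp837
open Crest.Agent.R330.DirG837

variable {U Z : Type*} [NormedAddCommGroup U] [NormedSpace ℝ U] [FiniteDimensional ℝ U]
  [MeasurableSpace U] [BorelSpace U]
  [NormedAddCommGroup Z] [NormedSpace ℝ Z] [FiniteDimensional ℝ Z] [MeasurableSpace Z]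
  [BorelSpace Z] {ν : Measure U} [ν.IsAddHaarMeasure] {μ : Measure Z} [μ.IsAddHaarMeasure]
  {F : Type*} [NormedAddCommGroup F] [InnerProductSpace ℂ F] [FiniteDimensional ℂ F]

/-- `w(u) = p(u) ∫ gs(u,z) Φ(u,z) dz` -/
def fpr (μ : Measure Z) (gs : U × Z → ℝ) (p : U → F →ₗ[ℂ] F) (Φ : U × Z → F) (u : U) : F :=
  p u (∫ z, gs (u, z) • Φ (u, z) ∂μ)

/-- the embedded projection `(PΦ)(u,z) = gs(u,z) w(u)` -/
def fpj (μ : Measure Z) (gs : U × Z → ℝ) (p : U → F →ₗ[ℂ] F) (Φ : U × Z → F) (q : U × Z) : F :=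
  gs q • fpr μ gs p Φ q.1

variable {gs : U × Z → ℝ} {p : U → F →ₗ[ℂ] F} {Φ : U × Z → F}

theorem fpr_eq (u : U) : fpr μ gs p Φ u = p u (fib μ (fun q => gs q • Φ q) u) := rfl

theorem hcs_smul (hc : HasCompactSupport Φ) : HasCompactSupport (fun q => gs q • Φ q) :=
  hc.mono' fun x hx => subset_tsupport _ (by intro h0; apply hx; simp [h0])

theorem contDiff_fpr {n : ℕ∞} (hgs : ContDiff ℝ n gs) (hp : ∀ v, ContDiff ℝ n (fun u => p u v))
    (hΦ : ContDiff ℝ n Φ) (hc : HasCompactSupport Φ) : ContDiff ℝ n (fpr μ gs p Φ) := by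
  obtain ⟨K, k, hK, hk, h1, h2⟩ := exists_fibre_supports (hcs_smul (gs := gs) hc)
  have h3 : ContDiff ℝ n (fib μ (fun q => gs q • Φ q)) := contDiff_fib (hgs.smul hΦ) hk h2
  exact contDiff_lin hp h3

theorem hasCompactSupport_fpr (hc : HasCompactSupport Φ) :
    HasCompactSupport (fpr μ gs p Φ) := by
  obtain ⟨K, k, hK, hk, h1, h2⟩ := exists_fibre_supports (hcs_smul (gs := gs) hc)
  have h3 : HasCompactSupport (fib μ (fun q => gs q • Φ q)) := hasCompactSupport_fib hK h1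
  exact h3.mono' fun x hx => subset_tsupport _ (by
    intro h0; apply hx; rw [fpr_eq, h0, map_zero])

theorem fpr_eq_zero {u : U} (h : ∀ z, Φ (u, z) = 0) : fpr μ gs p Φ u = 0 := by
  unfold fpr
  simp [h]

/-- pointwise bound -/
theorem norm_fpr_sq_le (hgs : Continuous gs) (hΦ : Continuous Φ) (hc : HasCompactSupport Φ)
    (u : U) (hg2 : MemLp (fun z => gs (u, z)) 2 μ) {C : ℝ}
    (hg1 : ∫ z, gs (u, z) ^ 2 ∂μ ≤ C) (hpn : ∀ v, ‖p u v‖ ≤ ‖v‖) :
    ‖fpr μ gs p Φ u‖ ^ 2 ≤ C * ∫ z, ‖Φ (u, z)‖ ^ 2 ∂μ := by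
  have hΦ2 : MemLp (fun z => Φ (u, z)) 2 μ := fibre_memLp hΦ hc u
  have hA : 0 ≤ ∫ z, gs (u, z) ^ 2 ∂μ := integral_nonneg fun _ => by positivity
  have hB : 0 ≤ ∫ z, ‖Φ (u, z)‖ ^ 2 ∂μ := integral_nonneg fun _ => by positivity
  have h1 : ‖fpr μ gs p Φ u‖ ≤ ∫ z, ‖gs (u, z)‖ * ‖Φ (u, z)‖ ∂μ := by
    unfold fpr
    refine (hpn _).trans ((norm_integral_le_integral_norm _).trans ?_)
    exact le_of_eq (integral_congr_ae (Eventually.of_forall fun z => norm_smul _ _))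
  have h2 := integral_mul_le_Lp_mul_Lq_of_nonneg (μ := μ) (p := 2) (q := 2)
    (f := fun z => ‖gs (u, z)‖) (g := fun z => ‖Φ (u, z)‖) Real.HolderConjugate.two_two
    (Eventually.of_forall fun _ => norm_nonneg _) (Eventually.of_forall fun _ => norm_nonneg _)
    (by simpa using hg2.norm) (by simpa using hΦ2.norm)
  simp only [Real.rpow_two, Real.norm_eq_abs, sq_abs] at h2
  have h3 : ‖fpr μ gs p Φ u‖ ≤ (∫ z, gs (u, z) ^ 2 ∂μ) ^ (1 / 2 : ℝ) *
      (∫ z, ‖Φ (u, z)‖ ^ 2 ∂μ) ^ (1 / 2 : ℝ) := h1.trans h2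
  rw [← Real.sqrt_eq_rpow, ← Real.sqrt_eq_rpow] at h3
  calc ‖fpr μ gs p Φ u‖ ^ 2 ≤ (Real.sqrt (∫ z, gs (u, z) ^ 2 ∂μ) *
        Real.sqrt (∫ z, ‖Φ (u, z)‖ ^ 2 ∂μ)) ^ 2 := by gcongr
    _ = (∫ z, gs (u, z) ^ 2 ∂μ) * ∫ z, ‖Φ (u, z)‖ ^ 2 ∂μ := by
        rw [mul_pow, Real.sq_sqrt hA, Real.sq_sqrt hB]
    _ ≤ _ := mul_le_mul_of_nonneg_right hg1 hB

/-- localised `L²` contraction -/
theorem setIntegral_fpr_sq_le (hgs : Continuous gs) (hΦ : Continuous Φ)
    (hc : HasCompactSupport Φ) {C : ℝ} (hC : 0 ≤ C)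
    (hg : ∀ u, (∃ z, Φ (u, z) ≠ 0) → MemLp (fun z => gs (u, z)) 2 μ ∧ ∫ z, gs (u, z) ^ 2 ∂μ ≤ C)
    (hpn : ∀ u v, ‖p u v‖ ≤ ‖v‖) {S : Set U} (hS : MeasurableSet S) :
    ∫ u in S, ‖fpr μ gs p Φ u‖ ^ 2 ∂ν ≤ C * ∫ q in S ×ˢ univ, ‖Φ q‖ ^ 2 ∂(ν.prod μ) := by
  have hpt : ∀ u, ‖fpr μ gs p Φ u‖ ^ 2 ≤ C * ∫ z, ‖Φ (u, z)‖ ^ 2 ∂μ := by
    intro u
    by_cases h : ∃ z, Φ (u, z) ≠ 0
    · exact norm_fpr_sq_le hgs hΦ hc u (hg u h).1 (hg u h).2 (hpn u)
    · push Not at h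
      rw [fpr_eq_zero h]
      simp [h]
  have hi : Integrable (fun q => ‖Φ q‖ ^ 2) (ν.prod μ) := integrable_normSq hΦ hc
  have e1 : ∫ q in S ×ˢ univ, ‖Φ q‖ ^ 2 ∂(ν.prod μ) = ∫ u in S, ∫ z, ‖Φ (u, z)‖ ^ 2 ∂μ ∂ν := by
    rw [setIntegral_prod (fun q => ‖Φ q‖ ^ 2) hi.integrableOn]
    simp
  rw [e1, ← integral_const_mul]
  refine integral_mono_of_nonneg (Eventually.of_forall fun _ => by positivity) ?_
    (Eventually.of_forall hpt)
  exact (hi.integral_prod_left.const_mul C).integrableOn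

theorem integral_fpr_sq_le (hgs : Continuous gs) (hΦ : Continuous Φ)
    (hc : HasCompactSupport Φ) {C : ℝ} (hC : 0 ≤ C)
    (hg : ∀ u, (∃ z, Φ (u, z) ≠ 0) → MemLp (fun z => gs (u, z)) 2 μ ∧ ∫ z, gs (u, z) ^ 2 ∂μ ≤ C)
    (hpn : ∀ u v, ‖p u v‖ ≤ ‖v‖) :
    ∫ u, ‖fpr μ gs p Φ u‖ ^ 2 ∂ν ≤ C * ∫ q, ‖Φ q‖ ^ 2 ∂(ν.prod μ) := by
  have h := setIntegral_fpr_sq_le (ν := ν) hgs hΦ hc hC hg hpn MeasurableSet.univ
  simpa using h

/-! ### intertwining -/

/-- coefficients on the base which commute with `p` pass through the projection -/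
theorem lin_fpr {L : F →ₗ[ℂ] F} {u : U} (hL : ∀ v, L (p u v) = p u (L v))
    (hgs : Continuous gs) (hΦ : Continuous Φ) (hc : HasCompactSupport Φ) :
    L (fpr μ gs p Φ u) = p u (∫ z, gs (u, z) • L (Φ (u, z)) ∂μ) := by
  have hint : Integrable (fun z => gs (u, z) • Φ (u, z)) μ := by
    obtain ⟨K, k, hK, hk, h1, h2⟩ := exists_fibre_supports (hcs_smul (gs := gs) hc)
    have hcont : Continuous fun z => gs (u, z) • Φ (u, z) :=
      (hgs.smul hΦ).comp (by fun_prop : Continuous fun z : Z => (u, z))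
    exact hcont.integrable_of_hasCompactSupport (HasCompactSupport.intro hk fun z hz => h2 u z hz)
  unfold fpr
  rw [hL]
  congr 1
  have h1 := ((LinearMap.toContinuousLinearMap L).restrictScalars ℝ).integral_comp_comm hint
  have h2 : ∀ z, ((LinearMap.toContinuousLinearMap L).restrictScalars ℝ)
      (gs (u, z) • Φ (u, z)) = gs (u, z) • L (Φ (u, z)) := by
    intro z
    rw [map_smul]; rfl
  simp only [h2] at h1
  exact h1.symm

/-- derivative of `w` in a base direction along which `gs` and `p` are constant -/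
theorem fderiv_fpr (hgs : ContDiff ℝ 1 gs) (hp : ∀ v, ContDiff ℝ 1 (fun u => p u v))
    (hΦ : ContDiff ℝ 1 Φ) (hc : HasCompactSupport Φ) {u e : U}
    (hge : ∀ z, fderiv ℝ gs (u, z) (e, 0) = 0) (hpe : ∀ v, fderiv ℝ (fun u => p u v) u e = 0) :
    fderiv ℝ (fpr μ gs p Φ) u e = p u (∫ z, gs (u, z) • fderiv ℝ Φ (u, z) (e, 0) ∂μ) := by
  obtain ⟨K, k, hK, hk, h1, h2⟩ := exists_fibre_supports (hcs_smul (gs := gs) hc)
  have hf : ContDiff ℝ 1 (fib μ (fun q => gs q • Φ q)) := contDiff_fib (hgs.smul hΦ) hk h2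
  have e1 : fpr μ gs p Φ = fun u => p u (fib μ (fun q => gs q • Φ q) u) := rfl
  rw [e1, fderiv_lin hp hf u e, hpe, add_zero]
  congr 1
  rw [fderiv_fib_apply (H := fun q => gs q • Φ q) (hgs.smul hΦ) hk h2]
  refine integral_congr_ae (Eventually.of_forall fun z => ?_)
  show fderiv ℝ (fun q => gs q • Φ q) (u, z) (e, 0) = _
  have hd : fderiv ℝ (fun q => gs q • Φ q) (u, z) =
      gs (u, z) • fderiv ℝ Φ (u, z) + (fderiv ℝ gs (u, z)).smulRight (Φ (u, z)) :=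
    fderiv_fun_smul ((hgs.differentiable (by norm_num)) _) ((hΦ.differentiable (by norm_num)) _)
  rw [hd]
  simp only [ContinuousLinearMap.add_apply, ContinuousLinearMap.smul_apply,
    ContinuousLinearMap.smulRight_apply, hge z, zero_smul, add_zero]

/-- first order operator on the base, acting on functions on `U × Z` -/
def opB {ι : Type*} [Fintype ι] (e : ι → U) (a : ι → U → F →ₗ[ℂ] F) (V : U → F →ₗ[ℂ] F)
    (Φ : U × Z → F) (q : U × Z) : F :=
  (∑ k, (-Complex.I) • a k q.1 (fderiv ℝ Φ q (e k, 0))) + V q.1 (Φ q)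

/-- **intertwining**: `D w = p ∫ gs (D Φ)` for first order operators on the base along directions in
which `gs`, `p` are constant and whose coefficients commute with `p` -/
theorem dirG_fpr {ι : Type*} [Fintype ι] {e : ι → U} {a : ι → U → F →ₗ[ℂ] F}
    {V : U → F →ₗ[ℂ] F} (hgs : ContDiff ℝ 1 gs) (hp : ∀ v, ContDiff ℝ 1 (fun u => p u v))
    (hΦ : ContDiff ℝ 1 Φ) (hc : HasCompactSupport Φ)
    (hge : ∀ k u z, fderiv ℝ gs (u, z) (e k, 0) = 0)
    (hpe : ∀ k u v, fderiv ℝ (fun u => p u v) u (e k) = 0)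
    (ha : ∀ k u v, a k u (p u v) = p u (a k u v)) (hV : ∀ u v, V u (p u v) = p u (V u v)) (u : U) :
    dirG e a V (fpr μ gs p Φ) u = fpr μ gs p (opB e a V Φ) u := by
  have hpr : Continuous fun z : Z => (u, z) := by fun_prop
  obtain ⟨K, k', hK, hk, h1, h2⟩ := exists_fibre_supports hc
  have hdz : ∀ k, HasCompactSupport fun q => fderiv ℝ Φ q (e k, (0 : Z)) := fun k =>
    hasCompactSupport_fderiv_apply hc _
  have hint : ∀ (Ψ : U × Z → F), Continuous Ψ → HasCompactSupport Ψ →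
      Integrable (fun z => gs (u, z) • Ψ (u, z)) μ := by
    intro Ψ hΨ hΨc
    obtain ⟨K, k, hK, hk, h1, h2⟩ := exists_fibre_supports (hcs_smul (gs := gs) hΨc)
    have hcont : Continuous fun z => gs (u, z) • Ψ (u, z) := (hgs.continuous.smul hΨ).comp hpr
    exact hcont.integrable_of_hasCompactSupport (HasCompactSupport.intro hk fun z hz => h2 u z hz)
  have hlinc : ∀ (L : F →ₗ[ℂ] F) {Ψ : U × Z → F}, Continuous Ψ → Continuous fun q => L (Ψ q) :=
    fun L Ψ hΨ => (LinearMap.continuous_of_finiteDimensional L).comp hΨ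
  have hlinz : ∀ (L : F →ₗ[ℂ] F) {Ψ : U × Z → F}, HasCompactSupport Ψ →
      HasCompactSupport fun q => L (Ψ q) := fun L Ψ hΨ =>
    hΨ.mono' fun x hx => subset_tsupport _ (by intro h0; apply hx; simp [h0])
  unfold dirG
  -- each derivative term
  have e1 : ∀ k, a k u (fderiv ℝ (fpr μ gs p Φ) u (e k)) =
      p u (∫ z, gs (u, z) • a k u (fderiv ℝ Φ (u, z) (e k, 0)) ∂μ) := by
    intro k
    rw [fderiv_fpr hgs hp hΦ hc (hge k u) (hpe k u)]
    exact lin_fpr (Φ := fun q => fderiv ℝ Φ q (e k, 0)) (ha k u) hgs.continuous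
      (fderiv_apply_continuous hΦ _) (hdz k)
  have e2 : V u (fpr μ gs p Φ u) = p u (∫ z, gs (u, z) • V u (Φ (u, z)) ∂μ) :=
    lin_fpr (hV u) hgs.continuous hΦ.continuous hc
  simp only [e1, e2]
  rw [show fpr μ gs p (opB e a V Φ) u = p u (∫ z, gs (u, z) • opB e a V Φ (u, z) ∂μ) from rfl]
  have e3 : ∫ z, gs (u, z) • opB e a V Φ (u, z) ∂μ =
      (∑ k, (-Complex.I) • ∫ z, gs (u, z) • a k u (fderiv ℝ Φ (u, z) (e k, 0)) ∂μ) +
        ∫ z, gs (u, z) • V u (Φ (u, z)) ∂μ := by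
    have i1 : ∀ k, Integrable
        (fun z => gs (u, z) • a k u (fderiv ℝ Φ (u, z) (e k, 0))) μ := fun k =>
      hint (fun q => a k u (fderiv ℝ Φ q (e k, 0)))
        (hlinc _ (fderiv_apply_continuous hΦ _)) (hlinz _ (hdz k))
    have i2 : Integrable (fun z => gs (u, z) • V u (Φ (u, z))) μ :=
      hint (fun q => V u (Φ q)) (hlinc _ hΦ.continuous) (hlinz _ hc)
    have i3 : ∀ k, (-Complex.I) • ∫ z, gs (u, z) • a k u (fderiv ℝ Φ (u, z) (e k, 0)) ∂μ =
        ∫ z, (-Complex.I) • gs (u, z) • a k u (fderiv ℝ Φ (u, z) (e k, 0)) ∂μ := fun k =>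
      (integral_smul _ _).symm
    simp only [i3]
    have i1' : ∀ k ∈ (Finset.univ : Finset ι), Integrable (fun z => (-Complex.I) • gs (u, z) •
        a k u (fderiv ℝ Φ (u, z) (e k, 0))) μ := fun k _ => (i1 k).smul (-Complex.I)
    rw [← integral_finset_sum _ i1', ← integral_add (integrable_finset_sum _ i1') i2]
    refine integral_congr_ae (Eventually.of_forall fun z => ?_)
    simp only [opB, smul_add, Finset.smul_sum]
    congr 1
    refine Finset.sum_congr rfl fun k _ => ?_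
    rw [smul_comm]
  rw [e3, map_add, map_sum]
  simp only [map_smul]

/-! ### Pythagoras -/

/-- fibrewise Pythagoras: if `p u` is an orthogonal projection and `∫ gs² = 1` then
`∫‖Φ‖² = ∫‖Φ - gs w‖² + ‖w‖²` on the fibre -/
theorem fibre_pythagoras (hgs : Continuous gs) (hΦ : Continuous Φ) (hc : HasCompactSupport Φ)
    (u : U) (hg2 : MemLp (fun z => gs (u, z)) 2 μ) (hg1 : ∫ z, gs (u, z) ^ 2 ∂μ = 1)
    (hps : (p u).IsSymmetric) (hpi : ∀ v, p u (p u v) = p u v) :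
    ∫ z, ‖Φ (u, z)‖ ^ 2 ∂μ =
      ∫ z, ‖Φ (u, z) - fpj μ gs p Φ (u, z)‖ ^ 2 ∂μ + ‖fpr μ gs p Φ u‖ ^ 2 := by
  set w := fpr μ gs p Φ u with hw
  have hΦ2 : MemLp (fun z => Φ (u, z)) 2 μ := fibre_memLp hΦ hc u
  have hgw : MemLp (fun z => gs (u, z) • w) 2 μ := by
    have : (fun z => gs (u, z) • w) = fun z => (ContinuousLinearMap.toSpanSingleton ℝ w)
        (gs (u, z)) := rfl
    rw [this]
    exact (ContinuousLinearMap.toSpanSingleton ℝ w).comp_memLp' hg2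
  have hint : Integrable (fun z => gs (u, z) • Φ (u, z)) μ := by
    obtain ⟨K, k, hK, hk, h1, h2⟩ := exists_fibre_supports (hcs_smul (gs := gs) hc)
    have hcont : Continuous fun z => gs (u, z) • Φ (u, z) :=
      (hgs.smul hΦ).comp (by fun_prop : Continuous fun z : Z => (u, z))
    exact hcont.integrable_of_hasCompactSupport (HasCompactSupport.intro hk fun z hz => h2 u z hz)
  have hpw : p u w = w := by rw [hw]; exact hpi _
  -- cross term
  have hcr : ∫ z, (⟪Φ (u, z), gs (u, z) • w⟫_ℂ).re ∂μ = ‖w‖ ^ 2 := by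
    have c1 : ∀ z, ⟪Φ (u, z), gs (u, z) • w⟫_ℂ = starRingEnd ℂ ⟪w, gs (u, z) • Φ (u, z)⟫_ℂ := by
      intro z
      rw [inner_conj_symm, ← Complex.coe_smul, ← Complex.coe_smul, inner_smul_right,
        inner_smul_left, Complex.conj_ofReal]
    have c2 : ∀ z, (⟪Φ (u, z), gs (u, z) • w⟫_ℂ).re = (⟪w, gs (u, z) • Φ (u, z)⟫_ℂ).re := by
      intro z
      rw [c1 z, Complex.conj_re]
    simp only [c2]
    have hI : Integrable (fun z => ⟪w, gs (u, z) • Φ (u, z)⟫_ℂ) μ := hint.const_inner w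
    have c3 : ∫ z, (⟪w, gs (u, z) • Φ (u, z)⟫_ℂ).re ∂μ =
        (∫ z, ⟪w, gs (u, z) • Φ (u, z)⟫_ℂ ∂μ).re := integral_re hI
    rw [c3, integral_inner hint w]
    have c4 : ⟪w, ∫ z, gs (u, z) • Φ (u, z) ∂μ⟫_ℂ = ⟪w, w⟫_ℂ := by
      conv_lhs => rw [← hpw]
      rw [hps]
      rfl
    rw [c4, inner_self_eq_norm_sq_to_K]
    norm_cast
  have hnn : ∀ z, ‖Φ (u, z) - fpj μ gs p Φ (u, z)‖ ^ 2 =
      ‖Φ (u, z)‖ ^ 2 - 2 * (⟪Φ (u, z), gs (u, z) • w⟫_ℂ).re + gs (u, z) ^ 2 * ‖w‖ ^ 2 := by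
    intro z
    have e : fpj μ gs p Φ (u, z) = gs (u, z) • w := rfl
    rw [e, @norm_sub_sq ℂ, norm_smul, mul_pow, Real.norm_eq_abs, sq_abs]
    rfl
  simp only [hnn]
  have i1 : Integrable (fun z => ‖Φ (u, z)‖ ^ 2) μ := Rel893.integrable_norm_sq_of_memLp hΦ2
  have i2 : Integrable (fun z => 2 * (⟪Φ (u, z), gs (u, z) • w⟫_ℂ).re) μ :=
    ((integrable_inner_of_memLp hΦ2 hgw).re).const_mul 2
  have i3 : Integrable (fun z => gs (u, z) ^ 2 * ‖w‖ ^ 2) μ := (hg2.integrable_sq).mul_const _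
  have i12 : Integrable (fun z => ‖Φ (u, z)‖ ^ 2 - 2 * (⟪Φ (u, z), gs (u, z) • w⟫_ℂ).re) μ :=
    i1.sub i2
  rw [integral_add i12 i3, integral_sub i1 i2, integral_const_mul, hcr,
    integral_mul_const, hg1]
  ring


/-! ### equivariance -/

/-- **equivariance** of `w` under one symmetry: `a : U → U` on the base, `c` a measure preserving
map of the fibre, `ρ` on `F` -/
theorem fpr_equivariant {a : U → U} {c : Z → Z} (hcm : MeasurePreserving c μ μ)
    (hce : MeasurableEmbedding c) {ρ : F →ₗ[ℂ] F}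
    (hΦe : ∀ u z, Φ (a u, c z) = ρ (Φ (u, z))) (hge : ∀ u z, gs (a u, c z) = gs (u, z))
    (hpe : ∀ u v, p (a u) (ρ v) = ρ (p u v))
    (hgs : Continuous gs) (hΦ : Continuous Φ) (hc : HasCompactSupport Φ) (u : U) :
    fpr μ gs p Φ (a u) = ρ (fpr μ gs p Φ u) := by
  have hint : Integrable (fun z => gs (u, z) • Φ (u, z)) μ := by
    obtain ⟨K, k, hK, hk, h1, h2⟩ := exists_fibre_supports (hcs_smul (gs := gs) hc)
    have hcont : Continuous fun z => gs (u, z) • Φ (u, z) :=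
      (hgs.smul hΦ).comp (by fun_prop : Continuous fun z : Z => (u, z))
    exact hcont.integrable_of_hasCompactSupport (HasCompactSupport.intro hk fun z hz => h2 u z hz)
  unfold fpr
  have h1 : ∫ z, gs (a u, z) • Φ (a u, z) ∂μ = ∫ z, gs (a u, c z) • Φ (a u, c z) ∂μ :=
    (hcm.integral_comp hce (fun z => gs (a u, z) • Φ (a u, z))).symm
  have h2 : ∀ z, gs (a u, c z) • Φ (a u, c z) =
      ((LinearMap.toContinuousLinearMap ρ).restrictScalars ℝ) (gs (u, z) • Φ (u, z)) := by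
    intro z
    rw [hΦe, hge, map_smul]; rfl
  rw [h1]
  simp only [h2]
  rw [((LinearMap.toContinuousLinearMap ρ).restrictScalars ℝ).integral_comp_comm hint]
  exact hpe u _

end Crest.Agent.R330.FibProj837
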