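import Crest.Agent.R330.SlI_712
import Crest.Agent.R330.SlJ_712

-- ▼ part R330/SlK_712
section

/-!
# Row 330, S5b-B4: consequences of the abstract slice integration formula (helper712)

* `exists_const`: the formula with one positive constant `C`;
* `structure SliceInt`: density `j` on the slice ball with the `lintegral` formula;
* `SliceInt.mp`: `(g,u) ↦ act g (c + ι u)` is measure preserving from `μ × j du` to the tube;
* for functions constant on the orbits: `lintegral_inv`, `integrableOn_iff`, `setIntegral_inv`,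
  and `integral_inv` for functions vanishing off the tube.
-/

set_option autoImplicit false
set_option linter.unusedSectionVars false

open MeasureTheory Metric Set
open scoped ENNReal NNReal InnerProductSpace

noncomputable section

namespace Crest.Agent.R330.SlK712

open Crest.Agent.R330.Dbl798 Crest.Agent.R330.SlI712

section

variable {G E T V : Type*}
  [Group G] [TopologicalSpace G] [IsTopologicalGroup G] [SecondCountableTopology G]
  [MeasurableSpace G] [BorelSpace G]
  [NormedAddCommGroup E] [InnerProductSpace ℝ E] [FiniteDimensional ℝ E] [MeasurableSpace E]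
  [BorelSpace E]
  [NormedAddCommGroup T] [InnerProductSpace ℝ T] [FiniteDimensional ℝ T] [MeasurableSpace T]
  [BorelSpace T]
  [NormedAddCommGroup V] [InnerProductSpace ℝ V] [FiniteDimensional ℝ V] [MeasurableSpace V]
  [BorelSpace V]

variable {act : G → E → E} {c : E} {τ : T →ₗᵢ[ℝ] E} {ι : V →ₗᵢ[ℝ] E} {e : T → G}
  {d r0 : ℝ} {a : T → ℝ} {J : V → ℝ}

theorem setLIntegral_ofReal_ne_zero {W : Type*} [NormedAddCommGroup W] [InnerProductSpace ℝ W]
    [FiniteDimensional ℝ W] [MeasurableSpace W] [BorelSpace W] {f : W → ℝ} (hf : Measurable f)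
    {d : ℝ} (hd : 0 < d) (h : ∀ t ∈ ball (0 : W) d, 0 < f t) :
    ∫⁻ t in ball (0 : W) d, ENNReal.ofReal (f t) ≠ 0 := by
  intro h0
  have h1 := (setLIntegral_eq_zero_iff measurableSet_ball hf.ennreal_ofReal).1 h0
  have h2 : volume (ball (0 : W) d) = 0 := by
    rw [← nonpos_iff_eq_zero]
    have h3 : ∀ᵐ x ∂(volume : Measure W), x ∉ ball (0 : W) d := by
      filter_upwards [h1] with x hx hx'
      have := hx hx'
      have h4 := h x hx'
      rw [ENNReal.ofReal_eq_zero] at this
      linarith
    have h5 := (ae_iff.1 h3)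
    simp only [not_not] at h5
    exact h5.le
  exact (measure_ball_pos volume (0 : W) hd).ne' h2

theorem exists_const (H : Chart act c τ ι e d r0 a J) (μ : Measure G)
    [IsProbabilityMeasure μ] [μ.IsMulLeftInvariant] [μ.IsMulRightInvariant]
    (hd : 0 < d) (hr0 : 0 < r0) (ha : ∀ t ∈ ball (0 : T) d, 0 < a t)
    (haI : ∫⁻ t in ball (0 : T) d, ENNReal.ofReal (a t) ≠ ∞)
    (hJ : ∀ u ∈ ball (0 : V) r0, 0 < J u)
    (hU : ∀ r, MeasurableSet (tube act c ι r)) :
    ∃ C : ℝ, 0 < C ∧ ∀ r ≤ r0, ∀ f : E → ℝ≥0∞, Measurable f →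
      ∫⁻ x in tube act c ι r, f x = ENNReal.ofReal C *
        ∫⁻ g, (∫⁻ u in ball (0 : V) r, ENNReal.ofReal (J u) * f (act g (c + ι u))) ∂μ := by
  set κ : ℝ≥0∞ := μ {g | act g⁻¹ c ∈ Chart.patch act c e d} with hκ
  set A : ℝ≥0∞ := ∫⁻ t in ball (0 : T) d, ENNReal.ofReal (a t) with hA
  have hA0 : A ≠ 0 := setLIntegral_ofReal_ne_zero H.a_meas hd ha
  have hκ1 : κ ≤ 1 := prob_le_one
  have hκt : κ ≠ ∞ := ne_top_of_le_ne_top ENNReal.one_ne_top hκ1
  have hκ0 : κ ≠ 0 := by
    intro h0
    have h1 := H.slice_lintegral μ le_rfl (hU r0) (fun _ => 1) measurable_const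
    rw [← hκ, h0, zero_mul, ← hA] at h1
    simp only [mul_one, lintegral_const, measure_univ] at h1
    have h2 := setLIntegral_ofReal_ne_zero H.J_meas hr0 hJ
    exact (mul_ne_zero hA0 h2) h1.symm
  refine ⟨(A / κ).toReal, ?_, ?_⟩
  · refine ENNReal.toReal_pos ?_ ?_
    · exact ENNReal.div_ne_zero.2 ⟨hA0, hκt⟩
    · exact ENNReal.div_ne_top haI hκ0
  · intro r hr f hf
    rw [ENNReal.ofReal_toReal (ENNReal.div_ne_top haI hκ0)]
    have h1 := H.slice_lintegral μ hr (hU r) f hf
    rw [← hκ, ← hA] at h1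
    rw [ENNReal.div_eq_inv_mul, mul_assoc, ← h1, ← mul_assoc, ENNReal.inv_mul_cancel hκ0 hκt,
      one_mul]

/-- The slice integration formula with density `j` on the ball of radius `r0` of `V`. -/
structure SliceInt (act : G → E → E) (c : E) (ι : V →ₗᵢ[ℝ] E) (μ : Measure G) (j : V → ℝ)
    (r0 : ℝ) : Prop where
  iso : IsoAct act
  meas : Measurable j
  pos : ∀ u, ‖u‖ < r0 → 0 < j u
  tube_meas : ∀ r, MeasurableSet (tube act c ι r)
  lint : ∀ r ≤ r0, ∀ f : E → ℝ≥0∞, Measurable f →
    ∫⁻ x in tube act c ι r, f x =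
      ∫⁻ g, (∫⁻ u in ball (0 : V) r, ENNReal.ofReal (j u) * f (act g (c + ι u))) ∂μ

theorem exists_sliceInt (H : Chart act c τ ι e d r0 a J) (μ : Measure G)
    [IsProbabilityMeasure μ] [μ.IsMulLeftInvariant] [μ.IsMulRightInvariant]
    (hd : 0 < d) (hr0 : 0 < r0) (ha : ∀ t ∈ ball (0 : T) d, 0 < a t)
    (haI : ∫⁻ t in ball (0 : T) d, ENNReal.ofReal (a t) ≠ ∞)
    (hJ : ∀ u ∈ ball (0 : V) r0, 0 < J u)
    (hU : ∀ r, MeasurableSet (tube act c ι r)) :
    ∃ C : ℝ, 0 < C ∧ SliceInt act c ι μ (fun u => C * J u) r0 := by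
  obtain ⟨C, hC, h⟩ := exists_const H μ hd hr0 ha haI hJ hU
  refine ⟨C, hC, H.iso, H.J_meas.const_mul C, ?_, hU, ?_⟩
  · intro u hu
    exact mul_pos hC (hJ u (by simpa using hu))
  · intro r hr f hf
    rw [h r hr f hf]
    have hm : Measurable fun q : G × V => ENNReal.ofReal (J q.2) * f (act q.1 (c + ι q.2)) := by
      refine (H.J_meas.comp measurable_snd).ennreal_ofReal.mul (hf.comp ?_)
      exact H.iso.cont.measurable.comp
        (measurable_fst.prodMk ((ι.continuous.measurable.comp measurable_snd).const_add c))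
    rw [← lintegral_const_mul]
    · refine lintegral_congr fun g => ?_
      rw [← lintegral_const_mul' _ _ ENNReal.ofReal_ne_top]
      refine lintegral_congr fun u => ?_
      rw [ENNReal.ofReal_mul hC.le, mul_assoc]
    · exact hm.lintegral_prod_right'

namespace SliceInt

variable {μ : Measure G} [IsProbabilityMeasure μ] {j : V → ℝ}

theorem mono (H : SliceInt act c ι μ j r0) {r1 : ℝ} (h : r1 ≤ r0) :
    SliceInt act c ι μ j r1 where
  iso := H.iso
  meas := H.meas
  pos u hu := H.pos u (hu.trans_le h)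
  tube_meas := H.tube_meas
  lint r hr := H.lint r (hr.trans h)

/-- the weighted Lebesgue measure `j(u) du` on the slice ball -/
def nu (j : V → ℝ) (r : ℝ) : Measure V :=
  (volume.restrict (ball (0 : V) r)).withDensity fun u => ENNReal.ofReal (j u)

theorem measurable_map (H : SliceInt act c ι μ j r0) :
    Measurable fun p : G × V => act p.1 (c + ι p.2) :=
  H.iso.cont.measurable.comp
    (measurable_fst.prodMk ((ι.continuous.measurable.comp measurable_snd).const_add c))



instance (j : V → ℝ) (r : ℝ) : SFinite (nu j r) := by unfold nu; infer_instance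

/-- **measure preserving parametrisation of the tube** -/
theorem mp (H : SliceInt act c ι μ j r0) {r : ℝ} (hr : r ≤ r0) :
    MeasurePreserving (fun p : G × V => act p.1 (c + ι p.2)) (μ.prod (nu j r))
      (volume.restrict (tube act c ι r)) := by
  refine ⟨H.measurable_map, ?_⟩
  ext s hs
  have hm := H.measurable_map
  rw [Measure.map_apply hm hs, Measure.prod_apply (hm hs)]
  have h1 := H.lint r hr (s.indicator 1) (measurable_one.indicator hs)
  rw [lintegral_indicator_one hs] at h1
  rw [h1]
  refine lintegral_congr fun g => ?_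
  have hsec : MeasurableSet (Prod.mk g ⁻¹' ((fun p : G × V => act p.1 (c + ι p.2)) ⁻¹' s)) :=
    measurable_prodMk_left (hm hs)
  unfold nu
  rw [withDensity_apply _ hsec, ← lintegral_indicator hsec]
  refine lintegral_congr fun u => ?_
  by_cases hu : act g (c + ι u) ∈ s
  · rw [indicator_of_mem (by exact hu), indicator_of_mem hu]
    simp
  · rw [indicator_of_notMem (by exact hu), indicator_of_notMem hu]
    simp

/-- nonnegative functions constant on the orbits in the tube -/
theorem lintegral_inv (H : SliceInt act c ι μ j r0) {r : ℝ} (hr : r ≤ r0) {f : E → ℝ≥0∞}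
    (hf : Measurable f) (hinv : ∀ g u, ‖u‖ < r → f (act g (c + ι u)) = f (c + ι u)) :
    ∫⁻ x in tube act c ι r, f x = ∫⁻ u in ball (0 : V) r, ENNReal.ofReal (j u) * f (c + ι u) := by
  rw [H.lint r hr f hf]
  have h1 : ∀ g, ∫⁻ u in ball (0 : V) r, ENNReal.ofReal (j u) * f (act g (c + ι u)) =
      ∫⁻ u in ball (0 : V) r, ENNReal.ofReal (j u) * f (c + ι u) := by
    intro g
    refine setLIntegral_congr_fun measurableSet_ball fun u hu => ?_
    rw [hinv g u (by simpa using hu)]
  simp only [h1, lintegral_const, measure_univ, mul_one]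

section Bochner

variable {X : Type*} [NormedAddCommGroup X] {h : E → X}




variable [NormedSpace ℝ X]






end Bochner

end SliceInt

end

end Crest.Agent.R330.SlK712
end
end

-- ▼ part R330/SlM_712
section

/-!
# Row 330, S5b-B4: the slice integration formula for the gauge action (helper712)

For `c : Cfg N` there are `r0, C > 0` such that, with the polynomial Jacobian factor
`jac b c` of `SlJ_712`, for every isometric parametrisation `ι : V →ₗᵢ Cfg N` of `Nor b c`
`∫_{tube b c r} h = ∫_{|u| < r} C * jac b c (ι u) • h (c + ι u) du` for every `r ≤ r0` and every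
`h` constant on orbits.
-/

set_option autoImplicit false
noncomputable section

open MeasureTheory Metric Set Matrix
open Crest.MathPhysics.MatrixQM
open Crest.Agent.R330.SlA314 Crest.Agent.R330.SlB314
open Crest.Agent.R330.SlD314 Crest.Agent.R330.SlP314
open Crest.Agent.R330.Dbl798 Crest.Agent.R330.SlI712 Crest.Agent.R330.SlK712
open Crest.Agent.R330.SlJ712 Crest.Agent.R330.SUgrp596
open scoped ContDiff Topology ENNReal NNReal InnerProductSpace

namespace Crest.Agent.R330.SlM712

variable {N : ℕ} (b : ColorBasis N)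

theorem isoAct : IsoAct (G := SU N) b.act where
  one := act_one b
  mul := act_mul b
  dist_eq g x y := by rw [dist_eq_norm, dist_eq_norm, ← act_sub, act_norm]
  cont := continuous_act b

/-- the action as a linear isometry -/
def actI (g : Matrix.specialUnitaryGroup (Fin N) ℂ) : Cfg N ≃ₗᵢ[ℝ] Cfg N where
  toLinearEquiv := actE b g
  norm_map' := act_norm b g

theorem act_mp (g : Matrix.specialUnitaryGroup (Fin N) ℂ) :
    MeasurePreserving (b.act g) (volume : Measure (Cfg N)) volume :=
  (actI b g).measurePreserving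

/-- isometric parametrisation of a subspace by a Euclidean space -/
def par (W : Submodule ℝ (Cfg N)) :
    EuclideanSpace ℝ (Fin (Module.finrank ℝ W)) →ₗᵢ[ℝ] Cfg N :=
  W.subtypeₗᵢ.comp (stdOrthonormalBasis ℝ W).repr.symm.toLinearIsometry

theorem par_mem (W : Submodule ℝ (Cfg N)) (u : EuclideanSpace ℝ (Fin (Module.finrank ℝ W))) :
    par W u ∈ W := ((stdOrthonormalBasis ℝ W).repr.symm u).2

theorem exists_par {W : Submodule ℝ (Cfg N)} {x : Cfg N} (hx : x ∈ W) : ∃ u, par W u = x := by
  refine ⟨(stdOrthonormalBasis ℝ W).repr ⟨x, hx⟩, ?_⟩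
  change (((stdOrthonormalBasis ℝ W).repr.symm ((stdOrthonormalBasis ℝ W).repr ⟨x, hx⟩) : W) :
    Cfg N) = x
  rw [LinearIsometryEquiv.symm_apply_apply]

theorem range_par (W : Submodule ℝ (Cfg N)) : LinearMap.range (par W).toLinearMap = W := by
  ext x
  constructor
  · rintro ⟨u, rfl⟩
    exact par_mem W u
  · intro hx
    obtain ⟨u, hu⟩ := exists_par hx
    exact ⟨u, hu⟩

/-- the canonical parametrisation of the normal space -/
abbrev iota (c : Cfg N) : EuclideanSpace ℝ (Fin (Module.finrank ℝ (Nor b c))) →ₗᵢ[ℝ] Cfg N :=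
  par (Nor b c)

open scoped Matrix.Norms.Operator in
theorem continuous_gexp : Continuous (gexp b) := by
  refine Continuous.subtype_mk ?_ _
  exact (contDiff_gen_exp b).continuous

/-- the tangential density -/
def aT (c : Cfg N) (t : EuclideanSpace ℝ (Fin (Module.finrank ℝ (Tan b c)))) : ℝ :=
  |(fderiv ℝ (Psi b c) (par (Tan b c) t)).det|

theorem continuous_aT (c : Cfg N) : Continuous (aT b c) := by
  unfold aT
  have h1 : Continuous (fun v => fderiv ℝ (Psi b c) v) :=
    (contDiff_Psi b c).continuous_fderiv (by simp)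
  exact (ContinuousLinearMap.continuous_det.comp (h1.comp (par (Tan b c)).continuous)).abs

theorem chart (c : Cfg N) {δ : ℝ} (hδ : GoodRad b c δ) :
    Chart (G := SU N) b.act c (par (Tan b c)) (iota b c)
      (fun t => gexp b (omL b c (par (Tan b c) t))) δ δ (aT b c)
      (fun u => |jac b c (iota b c u)|) where
  iso := isoAct b
  mp := act_mp b
  orth t u := by
    have h1 : iota b c u ∈ (Tan b c)ᗮ := par_mem (Nor b c) u
    exact (Submodule.mem_orthogonal _ _).1 h1 _ (par_mem _ t)
  span x := by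
    obtain ⟨t, ht⟩ := exists_par (PT_mem b c x)
    obtain ⟨u, hu⟩ := exists_par (PN_mem b c x)
    exact ⟨t, u, by rw [ht, hu, PT_add_PN]⟩
  star g u u' hu hu' he :=
    hδ.star g _ _ (par_mem _ u) (par_mem _ u') (by rwa [LinearIsometry.norm_map])
      (by rwa [LinearIsometry.norm_map]) he
  stab g hg u _ := by
    obtain ⟨u', hu'⟩ := exists_par (act_mem_Nor b hg (par_mem (Nor b c) u))
    refine ⟨u', ?_, ?_⟩
    · have h1 := congrArg norm hu'
      rw [act_norm, LinearIsometry.norm_map, LinearIsometry.norm_map] at h1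
      exact h1
    · change _ = c + par (Nor b c) u'
      rw [act_add, hg, hu']
  inj t ht t' ht' he := by
    have h1 : ∀ t, b.act (gexp b (omL b c (par (Tan b c) t))) c = Psi b c (par (Tan b c) t) := by
      intro t
      have := Psi_add b (par_mem (Tan b c) t) (Submodule.zero_mem (Nor b c))
      rw [add_zero, add_zero] at this
      exact this.symm
    simp only [h1] at he
    have hbox : ∀ t ∈ ball (0 : EuclideanSpace ℝ (Fin (Module.finrank ℝ (Tan b c)))) δ,
        par (Tan b c) t ∈ SlP314.box b c δ := by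
      intro t ht
      have := add_mem_box b (par_mem (Tan b c) t) (Submodule.zero_mem (Nor b c))
        (δ := δ) (by rw [LinearIsometry.norm_map]; simpa using ht) (by simpa using hδ.pos)
      simpa using this
    exact (par (Tan b c)).injective (hδ.injOn (hbox t ht) (hbox t' ht') he)
  der t ht u hu := by
    have horth : ∀ (t : EuclideanSpace ℝ (Fin (Module.finrank ℝ (Tan b c))))
        (u : EuclideanSpace ℝ (Fin (Module.finrank ℝ (Nor b c)))),
        ⟪par (Tan b c) t, iota b c u⟫_ℝ = 0 := fun t u => by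
      have h1 : iota b c u ∈ (Tan b c)ᗮ := par_mem (Nor b c) u
      exact (Submodule.mem_orthogonal _ _).1 h1 _ (par_mem _ t)
    have hspan : ∀ x : Cfg N, ∃ t u, x = par (Tan b c) t + iota b c u := fun x => by
      obtain ⟨t, ht⟩ := exists_par (PT_mem b c x)
      obtain ⟨u, hu⟩ := exists_par (PN_mem b c x)
      exact ⟨t, u, by rw [ht, hu, PT_add_PN]⟩
    set S := splitL (par (Tan b c)) (iota b c) horth hspan with hS
    have h1 : HasFDerivAt (Psi b c) (fderiv ℝ (Psi b c) (S (t, u))) (S (t, u)) :=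
      ((contDiff_Psi b c).differentiable (by simp)).differentiableAt.hasFDerivAt
    have h2 : HasFDerivAt (fun p => S p) (S : _ →L[ℝ] Cfg N) (t, u) := S.hasFDerivAt
    have h3 := h1.comp (t, u) h2
    have e1 : (fun p : EuclideanSpace ℝ (Fin (Module.finrank ℝ (Tan b c))) ×
        EuclideanSpace ℝ (Fin (Module.finrank ℝ (Nor b c))) =>
        b.act (gexp b (omL b c (par (Tan b c) p.1))) (c + iota b c p.2)) =
        Psi b c ∘ fun p => S p := by
      funext p
      exact (Psi_add b (par_mem (Tan b c) p.1) (par_mem (Nor b c) p.2)).symm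
    refine ⟨(fderiv ℝ (Psi b c) (S (t, u))).comp (S : _ →L[ℝ] Cfg N), ?_, ?_⟩
    · rw [e1]; exact h3
    · have e2 : ((fderiv ℝ (Psi b c) (S (t, u))).comp
          (S : (EuclideanSpace ℝ (Fin (Module.finrank ℝ (Tan b c))) ×
            EuclideanSpace ℝ (Fin (Module.finrank ℝ (Nor b c)))) →L[ℝ] Cfg N)).comp
          (S.symm : Cfg N →L[ℝ] (EuclideanSpace ℝ (Fin (Module.finrank ℝ (Tan b c))) ×
            EuclideanSpace ℝ (Fin (Module.finrank ℝ (Nor b c))))) =
          fderiv ℝ (Psi b c) (S (t, u)) := by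
        ext1 x
        simp
      rw [e2]
      have e3 : S (t, u) = par (Tan b c) t + iota b c u := rfl
      rw [e3, det_fderiv_Psi b c (par_mem _ t) (par_mem _ u), abs_mul]
      rfl
  a_nonneg t := abs_nonneg _
  J_nonneg u := abs_nonneg _
  a_meas := (continuous_aT b c).measurable
  J_meas := (((continuous_jac b c).comp (iota b c).continuous).abs).measurable
  e_meas := ((continuous_gexp b).comp
    ((omL b c).continuous.comp (par (Tan b c)).continuous)).measurable

/-! ### tubes -/

theorem mem_Nor_iff_range {c : Cfg N} {V : Type*} [NormedAddCommGroup V] [InnerProductSpace ℝ V]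
    {ι : V →ₗᵢ[ℝ] Cfg N} (hι : LinearMap.range ι.toLinearMap = Nor b c) {y : Cfg N} :
    y ∈ Nor b c ↔ ∃ u, ι u = y := by
  rw [← hι]
  rfl

theorem tube_eq (c : Cfg N) {V : Type*} [NormedAddCommGroup V] [InnerProductSpace ℝ V]
    {ι : V →ₗᵢ[ℝ] Cfg N} (hι : LinearMap.range ι.toLinearMap = Nor b c) (r : ℝ) :
    SlI712.tube (G := SU N) b.act c ι r = SlD314.tube b c r := by
  ext x
  rw [mem_tube_iff]
  constructor
  · rintro ⟨g, u, hu, rfl⟩
    exact ⟨g, ι u, (mem_Nor_iff_range b hι).2 ⟨u, rfl⟩, by rwa [ι.norm_map], rfl⟩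
  · rintro ⟨g, y, hy, hn, rfl⟩
    obtain ⟨u, rfl⟩ := (mem_Nor_iff_range b hι).1 hy
    exact ⟨g, u, by rwa [ι.norm_map] at hn, rfl⟩

/-! ### the final statement -/

/-- Radius `r0` and constant `C` for which the slice integration formula at `c` holds. -/
structure SRad (c : Cfg N) (r0 C : ℝ) : Prop where
  pos : 0 < r0
  Cpos : 0 < C
  good : GoodRad b c r0
  jac_lb : ∀ u, ‖u‖ < r0 → 1 / 2 < jac b c u
  jac_ub : ∀ u, ‖u‖ < r0 → jac b c u < 2
  slice : SliceInt (G := SU N) b.act c (iota b c) (haarSU N)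
    (fun u => C * jac b c (iota b c u)) r0

theorem lintegral_aT_ne_top (c : Cfg N) (δ : ℝ) :
    ∫⁻ t in ball (0 : EuclideanSpace ℝ (Fin (Module.finrank ℝ (Tan b c)))) δ,
      ENNReal.ofReal (aT b c t) ≠ ⊤ := by
  obtain ⟨M, hM⟩ := (isCompact_closedBall
    (0 : EuclideanSpace ℝ (Fin (Module.finrank ℝ (Tan b c)))) δ).exists_bound_of_continuousOn
    (continuous_aT b c).continuousOn
  have h1 : ∫⁻ t in ball (0 : EuclideanSpace ℝ (Fin (Module.finrank ℝ (Tan b c)))) δ,
      ENNReal.ofReal (aT b c t) ≤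
      ∫⁻ t in ball (0 : EuclideanSpace ℝ (Fin (Module.finrank ℝ (Tan b c)))) δ,
      ENNReal.ofReal M := by
    refine setLIntegral_mono measurable_const fun t ht => ?_
    refine ENNReal.ofReal_le_ofReal ?_
    have := hM t (ball_subset_closedBall ht)
    rw [Real.norm_eq_abs] at this
    exact (le_abs_self _).trans this
  refine ne_top_of_le_ne_top ?_ h1
  rw [setLIntegral_const]
  exact ENNReal.mul_ne_top ENNReal.ofReal_ne_top measure_ball_lt_top.ne

theorem exists_SRad (c : Cfg N) : ∃ r0 C : ℝ, SRad b c r0 C := by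
  obtain ⟨δ, hδ⟩ := exists_goodRad b c
  obtain ⟨ρ, hρ, hj⟩ := exists_jac_bounds b c
  set r0 := min δ ρ with hr0
  have hr0p : 0 < r0 := lt_min hδ.pos hρ
  have hg : GoodRad b c r0 := hδ.mono hr0p (min_le_left _ _)
  have hj' : ∀ u, ‖u‖ < r0 → 1 / 2 < jac b c u ∧ jac b c u < 2 := fun u hu =>
    hj u (hu.trans_le (min_le_right _ _))
  obtain ⟨C, hC, hS⟩ := exists_sliceInt (chart b c hg) (haarSU N) hr0p hr0p
    (fun t ht => by
      unfold aT
      rw [abs_pos]
      refine hg.det_ne_zero ?_
      rw [mem_ball_zero_iff, LinearIsometry.norm_map]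
      have : ‖t‖ < r0 := by simpa using ht
      linarith)
    (lintegral_aT_ne_top b c r0)
    (fun u hu => by
      rw [abs_pos]
      have := (hj' (iota b c u) (by rw [LinearIsometry.norm_map]; simpa using hu)).1
      exact (lt_trans (by norm_num) this).ne')
    (fun r => by
      rw [tube_eq b c (range_par (Nor b c))]
      exact (isOpen_tube b c r).measurableSet)
  refine ⟨r0, C, hr0p, hC, hg, fun u hu => (hj' u hu).1, fun u hu => (hj' u hu).2, ?_⟩
  refine ⟨hS.iso, ?_, ?_, hS.tube_meas, ?_⟩
  · exact (continuous_const.mul ((continuous_jac b c).comp (iota b c).continuous)).measurable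
  · intro u hu
    have := (hj' (iota b c u) (by rwa [LinearIsometry.norm_map])).1
    exact mul_pos hC (by linarith)
  · intro r hr f hf
    rw [hS.lint r hr f hf]
    refine lintegral_congr fun g => setLIntegral_congr_fun measurableSet_ball fun u hu => ?_
    have := (hj' (iota b c u) (by
      rw [LinearIsometry.norm_map]
      exact (by simpa using hu : ‖u‖ < r).trans_le hr)).1
    have h2 : |jac b c (iota b c u)| = jac b c (iota b c u) := abs_of_pos (by linarith)
    simp only [h2]

end Crest.Agent.R330.SlM712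
end
end

-- ▼ part R330/SlN_712

/-!
# Row 330, S5b-B4: user forms of the slice integration formula (helper712)

Everything for an arbitrary isometric parametrisation `ι : V →ₗᵢ Cfg N` of `Nor b c`.
-/

set_option autoImplicit false
set_option linter.unusedSectionVars false
noncomputable section

open MeasureTheory Metric Set Matrix
open Crest.MathPhysics.MatrixQM
open Crest.Agent.R330.SlA314 Crest.Agent.R330.SlB314
open Crest.Agent.R330.SlD314 Crest.Agent.R330.SlP314
open Crest.Agent.R330.Dbl798 Crest.Agent.R330.SlI712 Crest.Agent.R330.SlK712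
open Crest.Agent.R330.SlJ712 Crest.Agent.R330.SUgrp596 Crest.Agent.R330.SlM712
open scoped ContDiff Topology NNReal InnerProductSpace

namespace Crest.Agent.R330.SlN712

/-! ### change of parametrisation -/

section

variable {E V V' : Type*}
  [NormedAddCommGroup E] [InnerProductSpace ℝ E]
  [NormedAddCommGroup V] [InnerProductSpace ℝ V] [FiniteDimensional ℝ V] [MeasurableSpace V]
  [BorelSpace V]
  [NormedAddCommGroup V'] [InnerProductSpace ℝ V'] [FiniteDimensional ℝ V'] [MeasurableSpace V']
  [BorelSpace V']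

/-- two isometric parametrisations of one subspace differ by an isometry -/
theorem exists_equiv (ι : V →ₗᵢ[ℝ] E) (ι' : V' →ₗᵢ[ℝ] E)
    (h : LinearMap.range ι'.toLinearMap = LinearMap.range ι.toLinearMap) :
    ∃ e : V' ≃ₗᵢ[ℝ] V, ∀ u, ι (e u) = ι' u := by
  refine ⟨ι'.equivRange.trans ((LinearIsometryEquiv.ofEq _ _ h).trans ι.equivRange.symm), ?_⟩
  intro u
  have h1 : ∀ y : LinearMap.range ι.toLinearMap, ι (ι.equivRange.symm y) = (y : E) := by
    intro y
    obtain ⟨v, rfl⟩ := ι.equivRange.surjective y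
    rw [LinearIsometryEquiv.symm_apply_apply]
    rfl
  change ι (ι.equivRange.symm (LinearIsometryEquiv.ofEq _ _ h (ι'.equivRange u))) = ι' u
  rw [h1]
  rfl

variable {G : Type*} [Group G] [TopologicalSpace G] [IsTopologicalGroup G]
  [SecondCountableTopology G] [MeasurableSpace G] [BorelSpace G]
  [FiniteDimensional ℝ E] [MeasurableSpace E] [BorelSpace E]

theorem SliceInt.transfer {act : G → E → E} {c : E} {ι : V →ₗᵢ[ℝ] E} {μ : Measure G} {j : V → ℝ}
    {r0 : ℝ} (H : SliceInt act c ι μ j r0) (ι' : V' →ₗᵢ[ℝ] E) (e : V' ≃ₗᵢ[ℝ] V)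
    (he : ∀ u, ι (e u) = ι' u) : SliceInt act c ι' μ (fun u => j (e u)) r0 where
  iso := H.iso
  meas := H.meas.comp e.continuous.measurable
  pos u hu := H.pos _ (by rwa [e.norm_map])
  tube_meas r := by
    have h1 : SlI712.tube act c ι' r = SlI712.tube act c ι r := by
      ext x
      constructor
      · rintro ⟨g, u, hu, rfl⟩
        exact ⟨g, e u, by rwa [e.norm_map], by rw [he]⟩
      · rintro ⟨g, u, hu, rfl⟩
        refine ⟨g, e.symm u, by rwa [e.symm.norm_map], ?_⟩
        rw [← he, e.apply_symm_apply]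
    rw [h1]
    exact H.tube_meas r
  lint r hr f hf := by
    have h1 : SlI712.tube act c ι' r = SlI712.tube act c ι r := by
      ext x
      constructor
      · rintro ⟨g, u, hu, rfl⟩
        exact ⟨g, e u, by rwa [e.norm_map], by rw [he]⟩
      · rintro ⟨g, u, hu, rfl⟩
        refine ⟨g, e.symm u, by rwa [e.symm.norm_map], ?_⟩
        rw [← he, e.apply_symm_apply]
    rw [h1, H.lint r hr f hf]
    refine lintegral_congr fun g => ?_
    have hmp := e.measurePreserving
    have h2 := hmp.setLIntegral_comp_preimage_emb e.toHomeomorph.measurableEmbedding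
      (fun u => ENNReal.ofReal (j u) * f (act g (c + ι u))) (ball (0 : V) r)
    rw [← h2]
    have h3 : e ⁻¹' ball (0 : V) r = ball (0 : V') r := by
      ext u
      simp
    rw [h3]
    refine lintegral_congr fun u => ?_
    rw [he]

end

/-! ### the gauge action -/

variable {N : ℕ} {b : ColorBasis N} {c : Cfg N} {r0 C : ℝ}

/-- the density of the slice formula -/
def jd (b : ColorBasis N) (c : Cfg N) (C : ℝ) (y : Cfg N) : ℝ := C * jac b c y


theorem continuous_jd : Continuous (jd b c C) := continuous_const.mul (continuous_jac b c)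


end Crest.Agent.R330.SlN712

namespace Crest.Agent.R330.SlM712

open Crest.Agent.R330.SlN712

variable {N : ℕ} {b : ColorBasis N} {c : Cfg N} {r0 C : ℝ}

theorem SRad.mono (H : SRad b c r0 C) {r1 : ℝ} (h0 : 0 < r1) (h : r1 ≤ r0) :
    SRad b c r1 C where
  pos := h0
  Cpos := H.Cpos
  good := H.good.mono h0 h
  jac_lb u hu := H.jac_lb u (hu.trans_le h)
  jac_ub u hu := H.jac_ub u (hu.trans_le h)
  slice := H.slice.mono h

theorem SRad.jd_lb (H : SRad b c r0 C) {y : Cfg N} (hy : ‖y‖ < r0) : C / 2 < jd b c C y := by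
  have h1 := H.jac_lb y hy
  have h2 := H.Cpos
  unfold jd
  nlinarith


theorem SRad.jd_pos (H : SRad b c r0 C) {y : Cfg N} (hy : ‖y‖ < r0) : 0 < jd b c C y :=
  lt_trans (half_pos H.Cpos) (H.jd_lb hy)

variable {V : Type*} [NormedAddCommGroup V] [InnerProductSpace ℝ V] [FiniteDimensional ℝ V]
  [MeasurableSpace V] [BorelSpace V] {ι : V →ₗᵢ[ℝ] Cfg N}

/-- the slice formula for every isometric parametrisation of the normal space -/
theorem SRad.sliceInt (H : SRad b c r0 C) (hι : LinearMap.range ι.toLinearMap = Nor b c) :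
    SliceInt (G := SU N) b.act c ι (haarSU N) (fun u => jd b c C (ι u)) r0 := by
  obtain ⟨e, he⟩ := exists_equiv (iota b c) ι (by rw [hι, range_par])
  have h1 := SliceInt.transfer H.slice ι e he
  have h2 : (fun u => C * jac b c (iota b c (e u))) = fun u => jd b c C (ι u) := by
    funext u
    rw [he]
    rfl
  rw [h2] at h1
  exact h1


/-- nonnegative functions constant on orbits -/
theorem SRad.lintegral_inv (H : SRad b c r0 C)
    (hι : LinearMap.range ι.toLinearMap = Nor b c) {r : ℝ} (hr : r ≤ r0)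
    {f : Cfg N → ENNReal} (hf : Measurable f) (hinv : ∀ g x, f (b.act g x) = f x) :
    ∫⁻ x in SlD314.tube b c r, f x =
      ∫⁻ u in ball (0 : V) r, ENNReal.ofReal (jd b c C (ι u)) * f (c + ι u) := by
  have h := (H.sliceInt hι).lintegral_inv hr hf (fun g u _ => hinv g _)
  rwa [tube_eq b c hι] at h

section Bochner

variable {X : Type*} [NormedAddCommGroup X] [NormedSpace ℝ X] {h : Cfg N → X}






end Bochner

/-! ### equivariant functions -/

section Equivariant

variable {F : Type*} [NormedAddCommGroup F] [InnerProductSpace ℂ F] [FiniteDimensional ℂ F]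
  {M : FermionRep N F} {R : GaugeAction b M} {φ ψ : Cfg N → F}

theorem inner_inv (hφ : ∀ g x, φ (b.act g x) = R.ρ g (φ x))
    (hψ : ∀ g x, ψ (b.act g x) = R.ρ g (ψ x)) (g : Matrix.specialUnitaryGroup (Fin N) ℂ)
    (x : Cfg N) : ⟪φ (b.act g x), ψ (b.act g x)⟫_ℂ = ⟪φ x, ψ x⟫_ℂ := by
  rw [hφ, hψ, R.unitary]

theorem norm_inv (hφ : ∀ g x, φ (b.act g x) = R.ρ g (φ x))
    (g : Matrix.specialUnitaryGroup (Fin N) ℂ) (x : Cfg N) : ‖φ (b.act g x)‖ = ‖φ x‖ := by
  have h := inner_inv hφ hφ g x
  rw [inner_self_eq_norm_sq_to_K, inner_self_eq_norm_sq_to_K] at h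
  have h2 : ‖φ (b.act g x)‖ ^ 2 = ‖φ x‖ ^ 2 := by exact_mod_cast h
  exact (sq_eq_sq₀ (norm_nonneg _) (norm_nonneg _)).1 h2



/-- mass of an equivariant function in the tube, `lintegral` form -/
theorem SRad.lintegral_norm_sq (H : SRad b c r0 C)
    (hι : LinearMap.range ι.toLinearMap = Nor b c) {r : ℝ} (hr : r ≤ r0)
    (hφm : Measurable fun x => ‖φ x‖ₑ) (hφ : ∀ g x, φ (b.act g x) = R.ρ g (φ x))
    {S : Set (Cfg N)} (hS : MeasurableSet S) (hSi : ∀ g x, b.act g x ∈ S ↔ x ∈ S) :
    ∫⁻ x in SlD314.tube b c r ∩ S, ‖φ x‖ₑ ^ 2 =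
      ∫⁻ u in ball (0 : V) r ∩ (fun u => c + ι u) ⁻¹' S,
        ENNReal.ofReal (jd b c C (ι u)) * ‖φ (c + ι u)‖ₑ ^ 2 := by
  classical
  have hm : Measurable fun x => S.indicator (fun x => ‖φ x‖ₑ ^ 2) x :=
    (hφm.pow_const 2).indicator hS
  have h1 := H.lintegral_inv hι hr hm (fun g x => by
    by_cases hx : x ∈ S
    · rw [indicator_of_mem hx, indicator_of_mem ((hSi g x).2 hx)]
      simp only [enorm, nnnorm, norm_inv hφ g x]
    · rw [indicator_of_notMem hx, indicator_of_notMem (fun h => hx ((hSi g x).1 h))])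
  have hS' : MeasurableSet ((fun u : V => c + ι u) ⁻¹' S) :=
    (ι.continuous.measurable.const_add c) hS
  rw [setLIntegral_indicator hS, inter_comm] at h1
  rw [h1, inter_comm, ← setLIntegral_indicator hS']
  refine lintegral_congr fun u => ?_
  by_cases hu : c + ι u ∈ S
  · rw [indicator_of_mem hu, indicator_of_mem (by exact hu)]
  · rw [indicator_of_notMem hu, indicator_of_notMem (by exact hu), mul_zero]

end Equivariant

end Crest.Agent.R330.SlM712
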