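import Crest.Agent.R330.DiagB_304
import Crest.Agent.R330.StrataB_737
import Crest.Agent.R330.Bind6_839
import Crest.Agent.R330.Blk2_317
import Crest.Agent.R330.CapBind_737
import Crest.Agent.R330.SlN_712
import Crest.Agent.R330.KEq_823

-- ▼ part R330/SlStr_302
section

/-!
R330, S9-CAPBIND (helper302): the strata of the commuting variety in the slice.

`slStr` : `c = dg b p`, `x = c + y + z` in the slice (`y` block diagonal, `z ∈ Z_c`) close to `c`.  If
`x` is conjugate to a diagonal configuration with at most as many distinct positions as `p`, then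
`z = 0` and `y = dg b s` with `s` constant on the clusters of `p` (i.e. `y' = 0`).
-/
namespace Crest.Agent.R330.SlStr302
end Crest.Agent.R330.SlStr302
end

-- ▼ part R330/DiagRed_302
section

/-!
R330, S9-CAPBIND (helper302): reduction of the slice neighbourhoods `tubeS b c η δ` of 737 to
diagonal `c = dg b p` (304's names).

* `tubeS_act` : `tubeS b (act g c) η δ = tubeS b c η δ`; `tubeS_mono`.
* `exists_dg_Str` : `c ∈ Str b (k+1) \ Str b k` is conjugate to `dg b p` with `k+1` distinct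
  positions.
* `Cen b p` : central directions; `ctrS_dg : ctrS b (dg b p) = Cen b p`; `mem_Cen_iff`.
* `Uk_dg`, `Zs_dg` : 839's `Uk`, `Zs` are 304's `BlkC`, `Zt`.
* `split_dg` : `y ∈ Nor b (dg b p)` splits orthogonally as `PF y + (prB y - PF y) + (y - prB y)`.
-/

set_option autoImplicit false
set_option linter.unusedSectionVars false

open MeasureTheory Crest.MathPhysics.MatrixQM
open scoped BigOperators Matrix InnerProductSpace

noncomputable section

namespace Crest.Agent.R330.DiagRed302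

open Crest.Agent.R330.Strata737
open Crest.Agent.R330.SlB314 (br brx Tan Nor mem_Nor)
open Crest.Agent.R330.SlA314 (act_inv_act act_act_inv act_norm act_inner act_mul act_sub act_add)
open Crest.Agent.R330.Diag304 (dg BlkC Zt prB mat_dg Sep)
open Crest.Agent.R330.SlStr302

variable {N : ℕ} (b : ColorBasis N)

local notation "V9" => EuclideanSpace ℝ (Fin 9)
local notation "SU" => Matrix.specialUnitaryGroup (Fin N) ℂ

/-! ## Equivariance -/

theorem act_mem_Nor {c y : Cfg N} (g : SU) (hy : y ∈ Nor b c) :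
    b.act g y ∈ Nor b (b.act g c) := by
  rw [mem_Nor] at hy ⊢
  intro om
  have h := brx_act b g⁻¹ om (b.act g c)
  rw [act_inv_act] at h
  have h1 := hy (fun A => ∑ B, b.adjMat g⁻¹ A B * om B)
  rw [h] at h1
  have h2 := act_inner b g⁻¹ (brx b om (b.act g c)) (b.act g y)
  rw [act_inv_act] at h2
  rw [← h2]
  exact h1

theorem PF_act (g : SU) (c y : Cfg N) :
    PF b (b.act g c) (b.act g y) = b.act g (PF b c y) := by
  refine (Submodule.eq_starProjection_of_mem_of_inner_eq_zero
    (act_mem_ctrS b g (PF_mem b c y)) fun w hw => ?_)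
  have h1 : b.act g⁻¹ w ∈ ctrS b c := by
    have := act_mem_ctrS b g⁻¹ hw
    rwa [act_inv_act] at this
  have h2 : inner ℝ (y - PF b c y) (b.act g⁻¹ w) = 0 := by
    have := Submodule.starProjection_inner_eq_zero (K := ctrS b c) y _ h1
    exact this
  rw [← act_sub, ← act_inner b g⁻¹, act_inv_act]
  exact h2

theorem tubeS_act_subset (g : SU) (c : Cfg N) (η δ : ℝ) :
    tubeS b c η δ ⊆ tubeS b (b.act g c) η δ := by
  rintro x ⟨h, y, hy, hn, hd, rfl⟩
  refine ⟨h * g⁻¹, b.act g y, act_mem_Nor b g hy, by rw [act_norm]; exact hn, ?_, ?_⟩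
  · rw [PF_act, ← act_sub, act_norm]
    exact hd
  · rw [← act_add, act_mul, act_inv_act]

/-- the slice neighbourhoods only depend on the orbit of `c` -/
theorem tubeS_act (g : SU) (c : Cfg N) (η δ : ℝ) :
    tubeS b (b.act g c) η δ = tubeS b c η δ := by
  refine Set.Subset.antisymm ?_ (tubeS_act_subset b g c η δ)
  have h := tubeS_act_subset b g⁻¹ (b.act g c) η δ
  rwa [act_inv_act] at h

theorem tubeS_mono {c : Cfg N} {η η' δ δ' : ℝ} (h : η ≤ η') (h' : δ ≤ δ') :
    tubeS b c η δ ⊆ tubeS b c η' δ' := by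
  rintro x ⟨k, y, hy, hn, hd, rfl⟩
  exact ⟨k, y, hy, lt_of_lt_of_le hn h, lt_of_lt_of_le hd h', rfl⟩


/-! ## Diagonal form of a point of a stratum -/






/-! ## Central directions -/

/-- `R⁹ ⊗ centre(k)` at `dg b p` -/
def Cen (p : Fin N → V9) : Submodule ℝ (Cfg N) where
  carrier := {y | ∀ i a a', (a ≠ a' → Blk304.mat b y i a a' = 0) ∧
    (p a = p a' → Blk304.mat b y i a a = Blk304.mat b y i a' a')}
  add_mem' h1 h2 i a a' := by
    refine ⟨fun h => ?_, fun h => ?_⟩
    · rw [Blk304.mat_add, Matrix.add_apply, (h1 i a a').1 h, (h2 i a a').1 h, add_zero]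
    · rw [Blk304.mat_add, Matrix.add_apply, Matrix.add_apply, (h1 i a a').2 h, (h2 i a a').2 h]
  zero_mem' i a a' := by rw [Blk304.mat_zero]; exact ⟨fun _ => rfl, fun _ => rfl⟩
  smul_mem' t y h1 i a a' := by
    refine ⟨fun h => ?_, fun h => ?_⟩
    · rw [Blk304.mat_smul, Matrix.smul_apply, (h1 i a a').1 h, smul_zero]
    · rw [Blk304.mat_smul, Matrix.smul_apply, Matrix.smul_apply, (h1 i a a').2 h]


theorem dg_mem_Cen {p s : Fin N → V9} (hs : ∑ a, s a = 0)
    (h : ∀ a a', p a = p a' → s a = s a') : dg b s ∈ Cen b p := by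
  intro i a a'
  rw [mat_dg b hs]
  refine ⟨fun hne => Matrix.diagonal_apply_ne _ hne, fun heq => ?_⟩
  rw [Matrix.diagonal_apply_eq, Matrix.diagonal_apply_eq, h a a' heq]

theorem mem_Cen_iff {p : Fin N → V9} {y : Cfg N} : y ∈ Cen b p ↔
    ∃ s : Fin N → V9, (∀ a a', p a = p a' → s a = s a') ∧ ∑ a, s a = 0 ∧ y = dg b s := by
  constructor
  · intro h
    have hre : ∀ i a, Blk304.mat b y i a a = ((Blk304.mat b y i a a).re : ℂ) := by
      intro i a
      have h1 : (starRingEnd ℂ) (Blk304.mat b y i a a) = Blk304.mat b y i a a :=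
        congrFun (congrFun (Blk304.mat_herm b y i) a) a
      exact (Complex.conj_eq_iff_re.1 h1).symm
    refine ⟨fun a => WithLp.toLp 2 fun i => (Blk304.mat b y i a a).re, ?_, ?_, ?_⟩
    · intro a a' hpa
      ext i
      simp only
      rw [(h i a a').2 hpa]
    · ext i
      have h1 : (Blk304.mat b y i).trace = ((∑ a, (Blk304.mat b y i a a).re : ℝ) : ℂ) := by
        unfold Matrix.trace
        rw [Complex.ofReal_sum]
        exact Finset.sum_congr rfl fun a _ => hre i a
      rw [Blk304.mat_trace] at h1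
      have h2 := Complex.ofReal_eq_zero.1 h1.symm
      simpa using h2
    · apply Blk304.mat_inj b
      intro i
      have hs : ∑ a, (WithLp.toLp 2 fun i => (Blk304.mat b y i a a).re : V9) = 0 := by
        ext i
        have h1 : (Blk304.mat b y i).trace = ((∑ a, (Blk304.mat b y i a a).re : ℝ) : ℂ) := by
          unfold Matrix.trace
          rw [Complex.ofReal_sum]
          exact Finset.sum_congr rfl fun a _ => hre i a
        rw [Blk304.mat_trace] at h1
        have h2 := Complex.ofReal_eq_zero.1 h1.symm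
        simpa using h2
      rw [mat_dg b hs]
      ext a a'
      by_cases haa : a = a'
      · subst haa
        rw [Matrix.diagonal_apply_eq]
        exact hre i a
      · rw [Matrix.diagonal_apply_ne _ haa, (h i a a').1 haa]
  · rintro ⟨s, hs, hs0, rfl⟩
    exact dg_mem_Cen b hs0 hs

theorem Cen_le_BlkC (p : Fin N → V9) : Cen b p ≤ BlkC b p := by
  intro y hy i a a' h
  exact (hy i a a').1 fun haa => h (by rw [haa])

/-- Hermitian traceless matrix units -/
theorem exists_om {M : Matrix (Fin N) (Fin N) ℂ} (hM : M.IsHermitian) (ht : M.trace = 0) :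
    ∃ om : Fin (N ^ 2 - 1) → ℝ, SlA314.cm b om = M :=
  ⟨Blk304.cf b M, Blk304.hm_cf b hM ht⟩

theorem ctrS_dg {p : Fin N → V9} (hp : ∑ a, p a = 0) : ctrS b (dg b p) = Cen b p := by
  classical
  apply le_antisymm
  · intro y hy i a a'
    have key : ∀ M : Matrix (Fin N) (Fin N) ℂ, M.IsHermitian → M.trace = 0 →
        (∀ c c', p c ≠ p c' → M c c' = 0) → M * Blk304.mat b y i = Blk304.mat b y i * M := by
      intro M hM ht hblk
      obtain ⟨om, hom⟩ := exists_om b hM ht
      have h1 : brx b om (dg b p) = 0 := by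
        rw [Diag304.brx_dg_eq_zero b hp]
        intro c c' hne
        have : Blk304.hm b om = M := hom
        rw [this]
        exact hblk c c' hne
      have h2 := (brx_eq_zero_iff b om y).1 (hy om h1) i
      rw [hom] at h2
      exact h2
    constructor
    · intro haa
      have h1 := key (Matrix.single a a 1 - Matrix.single a' a' 1)
        (by
          unfold Matrix.IsHermitian
          rw [Matrix.conjTranspose_sub, Matrix.conjTranspose_single, Matrix.conjTranspose_single]
          simp)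
        (by rw [Matrix.trace_sub, Matrix.trace_single_eq_same, Matrix.trace_single_eq_same,
              sub_self])
        (by
          intro c c' hne
          have hcc : c ≠ c' := fun h => hne (by rw [h])
          rw [Matrix.sub_apply, Matrix.single_apply, Matrix.single_apply, if_neg, if_neg, sub_zero]
          · rintro ⟨h1, h2⟩; exact hcc (h1.symm.trans h2)
          · rintro ⟨h1, h2⟩; exact hcc (h1.symm.trans h2))
      have h2 := congrFun (congrFun h1 a) a'
      rw [Matrix.sub_mul, Matrix.mul_sub, Matrix.sub_apply, Matrix.sub_apply,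
        Matrix.single_mul_apply_same, Matrix.single_mul_apply_of_ne _ _ _ _ _ haa,
        Matrix.mul_single_apply_same, Matrix.mul_single_apply_of_ne _ _ _ _ _ haa.symm] at h2
      have h3 : 2 * Blk304.mat b y i a a' = 0 := by linear_combination h2
      rcases mul_eq_zero.1 h3 with h4 | h4
      · norm_num at h4
      · exact h4
    · intro hpa
      by_cases haa : a = a'
      · rw [haa]
      have h1 := key (Matrix.single a a' 1 + Matrix.single a' a 1)
        (by
          unfold Matrix.IsHermitian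
          rw [Matrix.conjTranspose_add, Matrix.conjTranspose_single, Matrix.conjTranspose_single,
            add_comm]
          simp)
        (by rw [Matrix.trace_add, Matrix.trace_single_eq_of_ne _ _ _ haa,
              Matrix.trace_single_eq_of_ne _ _ _ (Ne.symm haa), add_zero])
        (by
          intro c c' hne
          rw [Matrix.add_apply, Matrix.single_apply, Matrix.single_apply, if_neg, if_neg, add_zero]
          · rintro ⟨rfl, rfl⟩; exact hne hpa.symm
          · rintro ⟨rfl, rfl⟩; exact hne hpa)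
      have h2 := congrFun (congrFun h1 a) a'
      rw [Matrix.add_mul, Matrix.mul_add, Matrix.add_apply, Matrix.add_apply,
        Matrix.single_mul_apply_same, Matrix.single_mul_apply_of_ne _ _ _ _ _ haa,
        Matrix.mul_single_apply_same, Matrix.mul_single_apply_of_ne _ _ _ _ _ (Ne.symm haa)] at h2
      simpa using h2.symm
  · intro y hy
    obtain ⟨s, hs, hs0, rfl⟩ := (mem_Cen_iff b).1 hy
    intro om hom
    rw [Diag304.brx_dg_eq_zero b hp] at hom
    rw [Diag304.brx_dg_eq_zero b hs0]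
    exact fun a a' hne => hom a a' fun h => hne (hs a a' h)

/-! ## The spaces of 839 -/

theorem comp_eq_row (x : Cfg N) (i : Fin 9) : Bind6839.comp x i = Diag304.row x i := rfl

theorem mem_kc_dg {p : Fin N → V9} (hp : ∑ a, p a = 0) (w : LS839.Colg N) :
    w ∈ Frame839.kc (LS839.actB b) (dg b p) ↔ Diag304.pk b p w.ofLp = w.ofLp := by
  rw [Frame839.mem_kc, LS839.actB_apply, Diag304.brx_dg_eq_zero b hp, ← Diag304.pk_eq_self_iff]

theorem kc_dg {p : Fin N → V9} (hp : ∑ a, p a = 0) :
    Frame839.kc (LS839.actB b) (dg b p) = (Diag304.colAlg b).kk (Diag304.row (dg b p)) := by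
  ext w
  rw [mem_kc_dg b hp, Diag304.mem_kk_row b hp]

/-- `R⁹ ⊗ k` -/
theorem Uk_dg {p : Fin N → V9} (hp : ∑ a, p a = 0) :
    Bind6839.Uk b (dg b p) = BlkC b p := by
  ext y
  rw [Diag304.BlkC_row b hp]
  change (∀ i, Bind6839.comp y i ∈ Frame839.kc (LS839.actB b) (dg b p)) ↔ _
  rw [kc_dg b hp]
  rfl

/-- the transverse directions -/
theorem Zs_dg {p : Fin N → V9} (hp : ∑ a, p a = 0) :
    Bind6839.Zs b (dg b p) = Zt b p := by
  ext z
  have h1 : z ∈ Bind6839.Zs b (dg b p) ↔
      (∀ i, Bind6839.comp z i ∈ (Frame839.kc (LS839.actB b) (dg b p))ᗮ) ∧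
        z ∈ Nor b (dg b p) := by
    unfold Bind6839.Zs
    rw [Submodule.mem_inf, LS839.Nor_eq]
    rfl
  rw [h1, kc_dg b hp, Diag304.mem_Nor_dg b hp, Diag304.mem_Zt]
  refine and_congr (forall_congr' fun i => ?_) Iff.rfl
  rw [comp_eq_row, Diag304.mem_perp_row b hp, Diag304.pk_eq_zero_iff]
  rfl

/-! ## The orthogonal splitting of the slice -/

/-- the projection on the centre only sees the block part -/
theorem PF_dg {p : Fin N → V9} (hp : ∑ a, p a = 0) {y z : Cfg N} (hz : z ∈ Zt b p) : PF b (dg b p) (y + z) = PF b (dg b p) y := by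
  have h1 : PF b (dg b p) z = 0 := by
    unfold PF
    rw [Submodule.starProjection_apply_eq_zero_iff, Submodule.mem_orthogonal]
    intro u hu
    rw [ctrS_dg b hp] at hu
    exact Diag304.inner_BlkC_Zt b (Cen_le_BlkC b p hu) hz
  rw [map_add, h1, add_zero]

/-- block traceless configurations -/
def Tl (p : Fin N → V9) : Submodule ℝ (Cfg N) := BlkC b p ⊓ (Cen b p)ᗮ

theorem sub_PF_mem_Tl {p : Fin N → V9} (hp : ∑ a, p a = 0) {y : Cfg N} (hy : y ∈ BlkC b p) :
    y - PF b (dg b p) y ∈ Tl b p := by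
  refine ⟨Submodule.sub_mem _ hy ?_, ?_⟩
  · have := PF_mem b (dg b p) y
    rw [ctrS_dg b hp] at this
    exact Cen_le_BlkC b p this
  · rw [← ctrS_dg b hp]
    exact Submodule.sub_starProjection_mem_orthogonal y




end Crest.Agent.R330.DiagRed302
end
end

-- ▼ part R330/SlIso_741
section

/-!
# Row 330, S9-CAPBIND (helper741): the slice at `dg b p` in block coordinates

`e : (Σ q, Fin (k q)) ≃ Fin N`, `D = Dec.ofEquiv e` (317), `p (e ⟨q, i⟩) = R q`, `R` injective.

* `cut_apply`, `embM_same`, `embM_left`, `embM_right`, `eq_sum_embM` : entries, block-diagonal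
  matrices.
* `cenM_eq`, `cenCfg_eq_dg` : 317's centre configurations are 304's `dg`.
* `tl` : `(Y_q) ↦ Σ_q embCfg q (Y_q)`; `tlE : PiLp 2 (fun q => Cfg (k q)) ≃ₗᵢ Tl b p`.
* `blkE : WithLp 2 (Cen b p × PiLp 2 ..) ≃ₗᵢ BlkC b p`; `ukE` : the same for 839's `Uk b (dg b p)`;
  `norE : WithLp 2 (WithLp 2 (Cen b p × PiLp 2 ..) × Zt b p) ≃ₗᵢ Nor b (dg b p)`.
* `act_tl`, `act_Cen`, `act_iota_dg` : equivariance under the block groups.
* `PF_norE`, `norm_sub_PF_norE`, `norm_norE` : 737's centre projection in block coordinates.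
* `measurePreserving_ukE`, `measurePreserving_norE` : product measures.
-/

set_option autoImplicit false
set_option linter.unusedSectionVars false

open MeasureTheory Crest.MathPhysics.MatrixQM
open scoped BigOperators Matrix InnerProductSpace

noncomputable section

namespace Crest.Agent.R330.SlIso741

open Matrix
open Crest.Agent.R330.Blk317
open Crest.Agent.R330.SlB314 (Nor)
open Crest.Agent.R330.Diag304 (dg BlkC Zt)
open Crest.Agent.R330.DiagRed302 (Cen Tl)

local notation "V9" => EuclideanSpace ℝ (Fin 9)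

variable {N : ℕ} {ι : Type*} [Fintype ι] {k : ι → ℕ}

/-! ### 1. Entries -/

section entries

variable (e : (Σ q, Fin (k q)) ≃ Fin N)










end entries

/-! ### 2. Centre configurations -/

section centre

variable (b : ColorBasis N) (e : (Σ q, Fin (k q)) ≃ Fin N)



end centre

/-! ### 3. Block traceless configurations -/

section blocks

variable (b : ColorBasis N) (bp : ∀ q, ColorBasis (k q)) (e : (Σ q, Fin (k q)) ≃ Fin N)

/-- `(Y_q) ↦ Σ_q embCfg q (Y_q)` -/
def tl : PiLp 2 (fun q => Cfg (k q)) →ₗ[ℝ] Cfg N where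
  toFun Y := ∑ q, (Dec.ofEquiv e).embCfg b bp q (Y q)
  map_add' X Y := by
    rw [← Finset.sum_add_distrib]
    exact Finset.sum_congr rfl fun q _ => by rw [PiLp.add_apply, map_add]
  map_smul' t Y := by
    rw [RingHom.id_apply, Finset.smul_sum]
    exact Finset.sum_congr rfl fun q _ => by rw [PiLp.smul_apply, map_smul]






variable {p : Fin N → V9} {R : ι → V9}









/-! ### 4. Equivariance -/






/-! ### 5. The splitting as an isometry -/

/-- an orthogonal sum as an isometry onto a subspace -/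
def supE {E : Type*} [NormedAddCommGroup E] [InnerProductSpace ℝ E] {A B C : Submodule ℝ E}
    (hAB : ∀ x ∈ A, ∀ y ∈ B, ⟪x, y⟫_ℝ = 0) (hA : A ≤ C) (hB : B ≤ C)
    (hC : ∀ z ∈ C, ∃ x ∈ A, ∃ y ∈ B, x + y = z) : WithLp 2 (A × B) ≃ₗᵢ[ℝ] C :=
  LinearIsometryEquiv.ofSurjective
    { toFun := fun x => ⟨(x.fst : E) + x.snd, C.add_mem (hA x.fst.2) (hB x.snd.2)⟩
      map_add' := fun x y => by
        apply Subtype.ext
        simp only [WithLp.add_fst, WithLp.add_snd, Submodule.coe_add]
        abel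
      map_smul' := fun t x => by
        apply Subtype.ext
        simp [WithLp.smul_fst, WithLp.smul_snd, smul_add]
      norm_map' := fun x => by
        have h : ‖(x.fst : E) + x.snd‖ ^ 2 = ‖x‖ ^ 2 := by
          rw [norm_add_sq_real, hAB _ x.fst.2 _ x.snd.2, WithLp.prod_norm_sq_eq_of_L2]
          simp
        exact (pow_left_inj₀ (norm_nonneg _) (norm_nonneg _) two_ne_zero).1 h }
    (fun z => by
      obtain ⟨x, hx, y, hy, h⟩ := hC z z.2
      exact ⟨WithLp.toLp 2 (⟨x, hx⟩, ⟨y, hy⟩), Subtype.ext h⟩)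














/-! ### 6. The centre projection in block coordinates -/





end blocks

end Crest.Agent.R330.SlIso741
end
end

-- ▼ part R330/CapInt_737
section

/-!
# Row 330, S9-CAPBIND (helper737): from the slice coordinates to the tube

`c = dg b p` diagonal.

* `slE` : `Uk b c ⊕ Zs b c = Nor b c` as an isometry, `slι` the parametrisation of the normal
  space, `measurePreserving_slE`.
* `lintegral_tubeS_le` : the mass of `tubeS b c η δ` is bounded by the mass of the slice function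
  over `{u ∈ Uk : ‖u‖ < η, ‖u - P_F u‖ < δ} × Zs`.
* `sliceEstAt_of` : the slice estimate in slice coordinates gives `SliceEstAt`.
-/

set_option autoImplicit false
set_option linter.unusedSectionVars false

open MeasureTheory Filter Topology Set Crest.MathPhysics.MatrixQM
open scoped ContDiff InnerProductSpace ENNReal

noncomputable section

namespace Crest.Agent.R330.CapInt737

open Crest.Agent.R330.Defs478 Crest.Agent.R330.TrialSys796 Crest.Agent.R330.Strata737
  Crest.Agent.R330.SlP314 Crest.Agent.R330.CapBind737 Crest.Agent.R330.SlM712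
  Crest.Agent.R330.SlN712 Crest.Agent.R330.Bind6839 Crest.Agent.R330.Diag304
  Crest.Agent.R330.DiagRed302
open Crest.Agent.R330.SlB314 (Nor Tan)

local notation "V9" => EuclideanSpace ℝ (Fin 9)

variable {N : ℕ} {b : ColorBasis N} {p : Fin N → V9}

/-! ### the slice coordinates -/

variable (b) in
/-- `Uk ⊕ Zs = Nor` -/
def slE (hp : ∑ a, p a = 0) :
    WithLp 2 (Uk b (dg b p) × Zs b (dg b p)) ≃ₗᵢ[ℝ] Nor b (dg b p) :=
  SlIso741.supE
    (fun x hx y hy => by
      rw [Uk_dg b hp] at hx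
      rw [Zs_dg b hp] at hy
      exact Diag304.inner_BlkC_Zt b hx hy)
    (by rw [Uk_dg b hp]; exact Diag304.BlkC_le_Nor b hp)
    (by rw [Zs_dg b hp]; exact Diag304.Zt_le_Nor b hp)
    (fun z hz => ⟨Diag304.prB b p z, by rw [Uk_dg b hp]; exact Diag304.prB_mem b p z,
      z - Diag304.prB b p z, by rw [Zs_dg b hp]; exact Diag304.sub_prB_mem b hp hz, by abel⟩)


variable (b) in
/-- the parametrisation of the normal space -/
def slι (hp : ∑ a, p a = 0) : WithLp 2 (Uk b (dg b p) × Zs b (dg b p)) →ₗᵢ[ℝ] Cfg N :=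
  (Nor b (dg b p)).subtypeₗᵢ.comp (slE b hp).toLinearIsometry

theorem slι_apply (hp : ∑ a, p a = 0) (x : WithLp 2 (Uk b (dg b p) × Zs b (dg b p))) :
    slι b hp x = (x.fst : Cfg N) + x.snd := rfl

theorem range_slι (hp : ∑ a, p a = 0) :
    LinearMap.range (slι b hp).toLinearMap = Nor b (dg b p) := by
  ext y
  constructor
  · rintro ⟨x, rfl⟩
    exact (slE b hp x).2
  · intro hy
    refine ⟨(slE b hp).symm ⟨y, hy⟩, ?_⟩
    show ((slE b hp ((slE b hp).symm ⟨y, hy⟩) : Nor b (dg b p)) : Cfg N) = y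
    rw [LinearIsometryEquiv.apply_symm_apply]

/-- `‖u - P_F u‖ ≤ ‖(u + z) - P_F (u + z)‖` -/
theorem sub_PF_le (hp : ∑ a, p a = 0) (u : Uk b (dg b p)) (z : Zs b (dg b p)) :
    ‖(u : Cfg N) - PF b (dg b p) u‖ ≤ ‖((u : Cfg N) + z) - PF b (dg b p) ((u : Cfg N) + z)‖ := by
  have hu : (u : Cfg N) ∈ BlkC b p := by rw [← Uk_dg b hp]; exact u.2
  have hz : (z : Cfg N) ∈ Zt b p := by rw [← Zs_dg b hp]; exact z.2
  rw [PF_dg b hp hz]
  have hT := (sub_PF_mem_Tl b hp hu).1
  have h1 : ⟪(u : Cfg N) - PF b (dg b p) u, (z : Cfg N)⟫_ℝ = 0 :=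
    Diag304.inner_BlkC_Zt b hT hz
  have h2 : ((u : Cfg N) + z) - PF b (dg b p) u = ((u : Cfg N) - PF b (dg b p) u) + z := by abel
  rw [h2]
  refine (pow_le_pow_iff_left₀ (norm_nonneg _) (norm_nonneg _) two_ne_zero).1 ?_
  rw [norm_add_sq_real, h1]
  nlinarith [sq_nonneg ‖(z : Cfg N)‖]

theorem norm_u_le (hp : ∑ a, p a = 0) (u : Uk b (dg b p)) (z : Zs b (dg b p)) :
    ‖(u : Cfg N)‖ ≤ ‖(u : Cfg N) + z‖ := by
  have hu : (u : Cfg N) ∈ BlkC b p := by rw [← Uk_dg b hp]; exact u.2
  have hz : (z : Cfg N) ∈ Zt b p := by rw [← Zs_dg b hp]; exact z.2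
  refine (pow_le_pow_iff_left₀ (norm_nonneg _) (norm_nonneg _) two_ne_zero).1 ?_
  rw [norm_add_sq_real, Diag304.inner_BlkC_Zt b hu hz]
  nlinarith [sq_nonneg ‖(z : Cfg N)‖]

/-- slice points of `tubeS` -/
theorem mem_tubeS_slice {c : Cfg N} {η δ : ℝ} (hg : GoodRad b c η) {y : Cfg N}
    (hy : y ∈ Nor b c) (hn : ‖y‖ < η) (h : c + y ∈ tubeS b c η δ) : ‖y - PF b c y‖ < δ := by
  obtain ⟨k, y', hy', hn', hd, he⟩ := h
  have hk : b.act k c = c := hg.star k y' y hy' hy hn' hn he
  have h1 : b.act k y' = y := by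
    rw [SlA314.act_add, hk] at he
    exact add_left_cancel he
  have h2 : PF b c y = b.act k (PF b c y') := by
    rw [← h1]
    have := DiagRed302.PF_act b k c y'
    rwa [hk] at this
  rw [h2, ← h1, ← SlA314.act_sub, SlA314.act_norm]
  exact hd

variable (b p) in
/-- block displacements with small internal part -/
def Su (η δ : ℝ) : Set (Uk b (dg b p)) :=
  {u | ‖(u : Cfg N)‖ < η ∧ ‖(u : Cfg N) - PF b (dg b p) u‖ < δ}

theorem isOpen_Su (η δ : ℝ) : IsOpen (Su b p η δ) := by
  refine IsOpen.inter ?_ ?_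
  · exact isOpen_lt (continuous_subtype_val.norm) continuous_const
  · refine isOpen_lt (Continuous.norm ?_) continuous_const
    exact continuous_subtype_val.sub ((PF b (dg b p)).continuous.comp continuous_subtype_val)

variable {F : Type*} [NormedAddCommGroup F] [InnerProductSpace ℂ F] [FiniteDimensional ℂ F]
  {M : FermionRep N F} {R : GaugeAction b M}

/-- **From the tube to the slice.** -/
theorem lintegral_tubeS_le (hp : ∑ a, p a = 0) {r0 C η δ K : ℝ} (hK : 0 ≤ K)
    (H : SRad b (dg b p) r0 C) (hη0 : 0 < η) (hη : η ≤ r0) {φ : Cfg N → F}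
    (hφ : IsCoreVec b R φ) {Φ : Uk b (dg b p) × Zs b (dg b p) → F} (hΦ : Continuous Φ)
    (hle : ∀ (u : Uk b (dg b p)) (z : Zs b (dg b p)), ‖(u : Cfg N) + z‖ < η →
      jd b (dg b p) C ((u : Cfg N) + z) * ‖φ (dg b p + ((u : Cfg N) + z))‖ ^ 2 ≤
        K * ‖Φ (u, z)‖ ^ 2) :
    ∫⁻ x in tubeS b (dg b p) η δ, ‖φ x‖ₑ ^ 2 ≤
      ENNReal.ofReal K * ∫⁻ u in Su b p η δ, ∫⁻ z, ‖Φ (u, z)‖ₑ ^ 2 := by
  classical
  have hgood : GoodRad b (dg b p) η := H.good.mono hη0 hη
  have hopen : IsOpen (tubeS b (dg b p) η δ) := isOpen_tubeS b hgood δ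
  have hinter : tubeS b (dg b p) η δ = SlD314.tube b (dg b p) η ∩ tubeS b (dg b p) η δ :=
    (Set.inter_eq_right.2 (tubeS_subset_tube b (dg b p) η δ)).symm
  have hm : Measurable fun x => ‖φ x‖ₑ := hφ.1.continuous.enorm.measurable
  have h1 := H.lintegral_norm_sq (ι := slι b hp) (range_slι hp) hη hm hφ.2.2
    hopen.measurableSet (fun g x => mem_tubeS_act b g)
  rw [← hinter] at h1
  rw [h1]
  set W : Set (WithLp 2 (Uk b (dg b p) × Zs b (dg b p))) :=
    Metric.ball 0 η ∩ (fun v => dg b p + slι b hp v) ⁻¹' tubeS b (dg b p) η δ with hW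
  have hWm : MeasurableSet W := by
    refine Metric.isOpen_ball.measurableSet.inter ?_
    refine (hopen.preimage ?_).measurableSet
    exact continuous_const.add (slι b hp).continuous
  -- pointwise bound by a product indicator
  set f : Uk b (dg b p) × Zs b (dg b p) → ℝ≥0∞ := fun q =>
    (Su b p η δ).indicator (fun _ => ENNReal.ofReal K * ‖Φ q‖ₑ ^ 2) q.1 with hf
  have hfm : Measurable f := by
    have h2 : Measurable fun q : Uk b (dg b p) × Zs b (dg b p) => ENNReal.ofReal K * ‖Φ q‖ₑ ^ 2 :=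
      (hΦ.enorm.measurable.pow_const 2).const_mul _
    have h3 : f = ((Prod.fst : Uk b (dg b p) × Zs b (dg b p) → Uk b (dg b p)) ⁻¹' Su b p η δ).indicator
        (fun q => ENNReal.ofReal K * ‖Φ q‖ₑ ^ 2) := by
      funext q
      simp only [hf]
      by_cases hq : q.1 ∈ Su b p η δ
      · rw [indicator_of_mem hq, indicator_of_mem (by exact hq)]
      · rw [indicator_of_notMem hq, indicator_of_notMem (by exact hq)]
    rw [h3]
    exact h2.indicator (measurable_fst (isOpen_Su η δ).measurableSet)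
  have h2 : ∫⁻ v in W, ENNReal.ofReal (jd b (dg b p) C (slι b hp v)) * ‖φ (dg b p + slι b hp v)‖ₑ ^ 2 ≤
      ∫⁻ v : WithLp 2 (Uk b (dg b p) × Zs b (dg b p)), f (WithLp.ofLp v) := by
    rw [← lintegral_indicator hWm]
    refine lintegral_mono fun v => ?_
    by_cases hv : v ∈ W
    · rw [indicator_of_mem hv]
      have hv1 : ‖(v.fst : Cfg N) + v.snd‖ < η := by
        have h3 := hv.1
        rw [mem_ball_zero_iff] at h3
        have h4 := (slι b hp).norm_map v
        rw [slι_apply] at h4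
        rw [h4]
        exact h3
      have hyN : ((v.fst : Cfg N) + v.snd) ∈ Nor b (dg b p) := (slE b hp v).2
      have hv2 := mem_tubeS_slice hgood hyN hv1 (by exact hv.2)
      have hS : v.fst ∈ Su b p η δ := by
        refine ⟨(norm_u_le hp _ _).trans_lt hv1, (sub_PF_le hp v.fst v.snd).trans_lt hv2⟩
      have h5 : f (WithLp.ofLp v) = ENNReal.ofReal K * ‖Φ (v.fst, v.snd)‖ₑ ^ 2 := by
        simp only [hf]
        exact indicator_of_mem (by exact hS) _
      rw [h5, slι_apply]
      have h6 := hle v.fst v.snd hv1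
      have h7 : ∀ w : F, ‖w‖ₑ ^ 2 = ENNReal.ofReal (‖w‖ ^ 2) := fun w => by
        rw [ENNReal.ofReal_pow (norm_nonneg _), ofReal_norm]
      rw [h7, h7, ← ENNReal.ofReal_mul hK, ← ENNReal.ofReal_mul (H.jd_pos (hv1.trans_le hη)).le]
      exact ENNReal.ofReal_le_ofReal h6
    · rw [indicator_of_notMem hv]
      exact bot_le
  refine h2.trans ?_
  have h3 : ∫⁻ v : WithLp 2 (Uk b (dg b p) × Zs b (dg b p)), f (WithLp.ofLp v) = ∫⁻ q, f q := by
    have hmp := WithLp.volume_preserving_toLp (Uk b (dg b p)) (Zs b (dg b p))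
    have h4 : Measurable fun v : WithLp 2 (Uk b (dg b p) × Zs b (dg b p)) => f (WithLp.ofLp v) :=
      hfm.comp (WithLp.prod_continuous_ofLp _ _ _).measurable
    rw [← hmp.lintegral_comp h4]
  rw [h3, Measure.volume_eq_prod, lintegral_prod _ hfm.aemeasurable]
  have h4 : ∀ u, ∫⁻ z, f (u, z) = (Su b p η δ).indicator
      (fun u => ENNReal.ofReal K * ∫⁻ z, ‖Φ (u, z)‖ₑ ^ 2) u := by
    intro u
    by_cases hu : u ∈ Su b p η δ
    · rw [indicator_of_mem hu, ← lintegral_const_mul' _ _ ENNReal.ofReal_ne_top]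
      refine lintegral_congr fun z => ?_
      simp only [hf]
      rw [indicator_of_mem (by exact hu)]
    · rw [indicator_of_notMem hu, ← lintegral_zero]
      refine lintegral_congr fun z => ?_
      simp only [hf]
      rw [indicator_of_notMem (by exact hu)]
  simp only [h4]
  rw [lintegral_indicator (isOpen_Su η δ).measurableSet, lintegral_const_mul' _ _
    ENNReal.ofReal_ne_top]


end Crest.Agent.R330.CapInt737

end
end

-- ▼ part R330/CapIntC_737

/-!
# Row 330, S9-CAPBIND (helper737): tube and slice at an arbitrary commuting configuration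

`c` any commuting configuration (839's `Comc b c`), e.g. `C.cf X0` of `TDef_414`.

* `ctrS_le_Uk`, `PF_Zs` : the centre directions lie in `Uk`.
* `slE`, `slι`, `range_slι` : `Uk b c ⊕ Zs b c = Nor b c` (every `c`).
* `lintegral_tubeS_le`, `sliceEstC_of` : from the slice coordinates to the tube.
* `SliceEstC b M R G m T c`, `sliceEstAt_of_rep`, `capAnn_of_rep`, `capFam_of_rep` : it is enough to
  have the slice estimate at one representative of each orbit.
-/

set_option autoImplicit false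
set_option linter.unusedSectionVars false

open MeasureTheory Filter Topology Set Crest.MathPhysics.MatrixQM
open scoped ContDiff InnerProductSpace ENNReal

noncomputable section

namespace Crest.Agent.R330.CapIntC737

open Crest.Agent.R330.Defs478 Crest.Agent.R330.TrialSys796 Crest.Agent.R330.Strata737
  Crest.Agent.R330.SlP314 Crest.Agent.R330.CapBind737 Crest.Agent.R330.SlM712
  Crest.Agent.R330.SlN712 Crest.Agent.R330.Bind6839 Crest.Agent.R330.Frame839
  Crest.Agent.R330.LS839 Crest.Agent.R330.Clus839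
open Crest.Agent.R330.SlB314 (Nor Tan brx)

variable {N : ℕ} {b : ColorBasis N} {c : Cfg N}

/-! ### the slice coordinates -/

theorem ctrS_le_Uk (hc : Comc b c) : ctrS b c ≤ Uk b c := by
  intro r hr i
  rw [kc_eq, ColAlg.mem_kk]
  intro j
  have h1 : actB b (Bind6839.comp c j) c = 0 := by
    refine ext_comp fun i => ?_
    rw [comp_act, Bind6839.comp_zero]
    exact hc j i
  have h2 : actB b (Bind6839.comp c j) r = 0 := by
    have h3 := hr (Bind6839.comp c j).ofLp (by rw [← LS839.actB_apply]; exact h1)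
    rw [LS839.actB_apply]
    exact h3
  have h3 := congrArg (fun x => Bind6839.comp x i) h2
  simp only [comp_act, Bind6839.comp_zero] at h3
  exact h3

theorem PF_mem_Uk (hc : Comc b c) (y : Cfg N) : PF b c y ∈ Uk b c :=
  ctrS_le_Uk hc (PF_mem b c y)

theorem PF_Zs (hc : Comc b c) {z : Cfg N} (hz : z ∈ Zs b c) : PF b c z = 0 := by
  unfold PF
  rw [Submodule.starProjection_apply_eq_zero_iff, Submodule.mem_orthogonal]
  intro u hu
  exact Zs_perp_Uk (ctrS_le_Uk hc hu) hz

variable (b c) in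
/-- `Uk ⊕ Zs = Nor` -/
def slE : WithLp 2 (Uk b c × Zs b c) ≃ₗᵢ[ℝ] Nor b c :=
  SlIso741.supE (fun x hx y hy => Zs_perp_Uk hx hy)
    (by rw [← LS839.Nor_eq]; exact Uk_le_Nor)
    (by rw [← LS839.Nor_eq]; exact fun z hz => hz.2)
    (fun z hz => by
      rw [← LS839.Nor_eq] at hz
      obtain ⟨x, hx, y, hy, h⟩ := nor_decomp hz
      exact ⟨x, hx, y, hy, h.symm⟩)


variable (b c) in
/-- the parametrisation of the normal space -/
def slι : WithLp 2 (Uk b c × Zs b c) →ₗᵢ[ℝ] Cfg N :=
  (Nor b c).subtypeₗᵢ.comp (slE b c).toLinearIsometry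

theorem slι_apply (x : WithLp 2 (Uk b c × Zs b c)) : slι b c x = (x.fst : Cfg N) + x.snd := rfl

theorem range_slι : LinearMap.range (slι b c).toLinearMap = Nor b c := by
  ext y
  constructor
  · rintro ⟨x, rfl⟩
    exact (slE b c x).2
  · intro hy
    refine ⟨(slE b c).symm ⟨y, hy⟩, ?_⟩
    show ((slE b c ((slE b c).symm ⟨y, hy⟩) : Nor b c) : Cfg N) = y
    rw [LinearIsometryEquiv.apply_symm_apply]

/-- `‖(u + z) - P_F (u + z)‖² = ‖u - P_F u‖² + ‖z‖²` -/
theorem norm_sub_PF_sq (hc : Comc b c) (u : Uk b c) (z : Zs b c) :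
    ‖((u : Cfg N) + z) - PF b c ((u : Cfg N) + z)‖ ^ 2 =
      ‖(u : Cfg N) - PF b c u‖ ^ 2 + ‖(z : Cfg N)‖ ^ 2 := by
  rw [map_add, PF_Zs hc z.2, add_zero]
  have h1 : ⟪(u : Cfg N) - PF b c u, (z : Cfg N)⟫_ℝ = 0 :=
    Zs_perp_Uk (Submodule.sub_mem _ u.2 (PF_mem_Uk hc _)) z.2
  have h2 : ((u : Cfg N) + z) - PF b c u = ((u : Cfg N) - PF b c u) + z := by abel
  rw [h2, norm_add_sq_real, h1]
  ring

theorem norm_sq (u : Uk b c) (z : Zs b c) :
    ‖(u : Cfg N) + z‖ ^ 2 = ‖(u : Cfg N)‖ ^ 2 + ‖(z : Cfg N)‖ ^ 2 := by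
  rw [norm_add_sq_real, Zs_perp_Uk u.2 z.2]
  ring

theorem sub_PF_le (hc : Comc b c) (u : Uk b c) (z : Zs b c) :
    ‖(u : Cfg N) - PF b c u‖ ≤ ‖((u : Cfg N) + z) - PF b c ((u : Cfg N) + z)‖ := by
  refine (pow_le_pow_iff_left₀ (norm_nonneg _) (norm_nonneg _) two_ne_zero).1 ?_
  rw [norm_sub_PF_sq hc]
  nlinarith [sq_nonneg ‖(z : Cfg N)‖]

theorem norm_u_le (u : Uk b c) (z : Zs b c) : ‖(u : Cfg N)‖ ≤ ‖(u : Cfg N) + z‖ := by
  refine (pow_le_pow_iff_left₀ (norm_nonneg _) (norm_nonneg _) two_ne_zero).1 ?_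
  rw [norm_sq]
  nlinarith [sq_nonneg ‖(z : Cfg N)‖]

variable (b c) in
/-- block displacements with small internal part -/
def Su (η δ : ℝ) : Set (Uk b c) :=
  {u | ‖(u : Cfg N)‖ < η ∧ ‖(u : Cfg N) - PF b c u‖ < δ}

theorem isOpen_Su (η δ : ℝ) : IsOpen (Su b c η δ) := by
  refine IsOpen.inter ?_ ?_
  · exact isOpen_lt (continuous_subtype_val.norm) continuous_const
  · refine isOpen_lt (Continuous.norm ?_) continuous_const
    exact continuous_subtype_val.sub ((PF b c).continuous.comp continuous_subtype_val)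

variable {F : Type*} [NormedAddCommGroup F] [InnerProductSpace ℂ F] [FiniteDimensional ℂ F]
  {M : FermionRep N F} {R : GaugeAction b M}

/-- **From the tube to the slice.** -/
theorem lintegral_tubeS_le (hc : Comc b c) {r0 C η δ K : ℝ} (hK : 0 ≤ K)
    (H : SRad b c r0 C) (hη0 : 0 < η) (hη : η ≤ r0) {φ : Cfg N → F}
    (hφ : IsCoreVec b R φ) {Φ : Uk b c × Zs b c → F} (hΦ : Continuous Φ)
    (hle : ∀ (u : Uk b c) (z : Zs b c), ‖(u : Cfg N) + z‖ < η →
      jd b c C ((u : Cfg N) + z) * ‖φ (c + ((u : Cfg N) + z))‖ ^ 2 ≤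
        K * ‖Φ (u, z)‖ ^ 2) :
    ∫⁻ x in tubeS b c η δ, ‖φ x‖ₑ ^ 2 ≤
      ENNReal.ofReal K * ∫⁻ u in Su b c η δ, ∫⁻ z, ‖Φ (u, z)‖ₑ ^ 2 := by
  classical
  have hgood : GoodRad b c η := H.good.mono hη0 hη
  have hopen : IsOpen (tubeS b c η δ) := isOpen_tubeS b hgood δ
  have hinter : tubeS b c η δ = SlD314.tube b c η ∩ tubeS b c η δ :=
    (Set.inter_eq_right.2 (tubeS_subset_tube b c η δ)).symm
  have hm : Measurable fun x => ‖φ x‖ₑ := hφ.1.continuous.enorm.measurable
  have h1 := H.lintegral_norm_sq (ι := slι b c) range_slι hη hm hφ.2.2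
    hopen.measurableSet (fun g x => mem_tubeS_act b g)
  rw [← hinter] at h1
  rw [h1]
  set W : Set (WithLp 2 (Uk b c × Zs b c)) :=
    Metric.ball 0 η ∩ (fun v => c + slι b c v) ⁻¹' tubeS b c η δ with hW
  have hWm : MeasurableSet W := by
    refine Metric.isOpen_ball.measurableSet.inter ?_
    refine (hopen.preimage ?_).measurableSet
    exact continuous_const.add (slι b c).continuous
  -- pointwise bound by a product indicator
  set f : Uk b c × Zs b c → ℝ≥0∞ := fun q =>
    (Su b c η δ).indicator (fun _ => ENNReal.ofReal K * ‖Φ q‖ₑ ^ 2) q.1 with hf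
  have hfm : Measurable f := by
    have h2 : Measurable fun q : Uk b c × Zs b c => ENNReal.ofReal K * ‖Φ q‖ₑ ^ 2 :=
      (hΦ.enorm.measurable.pow_const 2).const_mul _
    have h3 : f = ((Prod.fst : Uk b c × Zs b c → Uk b c) ⁻¹' Su b c η δ).indicator
        (fun q => ENNReal.ofReal K * ‖Φ q‖ₑ ^ 2) := by
      funext q
      simp only [hf]
      by_cases hq : q.1 ∈ Su b c η δ
      · rw [indicator_of_mem hq, indicator_of_mem (by exact hq)]
      · rw [indicator_of_notMem hq, indicator_of_notMem (by exact hq)]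
    rw [h3]
    exact h2.indicator (measurable_fst (isOpen_Su η δ).measurableSet)
  have h2 : ∫⁻ v in W, ENNReal.ofReal (jd b c C (slι b c v)) * ‖φ (c + slι b c v)‖ₑ ^ 2 ≤
      ∫⁻ v : WithLp 2 (Uk b c × Zs b c), f (WithLp.ofLp v) := by
    rw [← lintegral_indicator hWm]
    refine lintegral_mono fun v => ?_
    by_cases hv : v ∈ W
    · rw [indicator_of_mem hv]
      have hv1 : ‖(v.fst : Cfg N) + v.snd‖ < η := by
        have h3 := hv.1
        rw [mem_ball_zero_iff] at h3
        have h4 := (slι b c).norm_map v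
        rw [slι_apply] at h4
        rw [h4]
        exact h3
      have hyN : ((v.fst : Cfg N) + v.snd) ∈ Nor b c := (slE b c v).2
      have hv2 := CapInt737.mem_tubeS_slice hgood hyN hv1 (by exact hv.2)
      have hS : v.fst ∈ Su b c η δ := by
        refine ⟨(norm_u_le _ _).trans_lt hv1, (sub_PF_le hc v.fst v.snd).trans_lt hv2⟩
      have h5 : f (WithLp.ofLp v) = ENNReal.ofReal K * ‖Φ (v.fst, v.snd)‖ₑ ^ 2 := by
        simp only [hf]
        exact indicator_of_mem (by exact hS) _
      rw [h5, slι_apply]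
      have h6 := hle v.fst v.snd hv1
      have h7 : ∀ w : F, ‖w‖ₑ ^ 2 = ENNReal.ofReal (‖w‖ ^ 2) := fun w => by
        rw [ENNReal.ofReal_pow (norm_nonneg _), ofReal_norm]
      rw [h7, h7, ← ENNReal.ofReal_mul hK, ← ENNReal.ofReal_mul (H.jd_pos (hv1.trans_le hη)).le]
      exact ENNReal.ofReal_le_ofReal h6
    · rw [indicator_of_notMem hv]
      exact bot_le
  refine h2.trans ?_
  have h3 : ∫⁻ v : WithLp 2 (Uk b c × Zs b c), f (WithLp.ofLp v) = ∫⁻ q, f q := by
    have hmp := WithLp.volume_preserving_toLp (Uk b c) (Zs b c)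
    have h4 : Measurable fun v : WithLp 2 (Uk b c × Zs b c) => f (WithLp.ofLp v) :=
      hfm.comp (WithLp.prod_continuous_ofLp _ _ _).measurable
    rw [← hmp.lintegral_comp h4]
  rw [h3, Measure.volume_eq_prod, lintegral_prod _ hfm.aemeasurable]
  have h4 : ∀ u, ∫⁻ z, f (u, z) = (Su b c η δ).indicator
      (fun u => ENNReal.ofReal K * ∫⁻ z, ‖Φ (u, z)‖ₑ ^ 2) u := by
    intro u
    by_cases hu : u ∈ Su b c η δ
    · rw [indicator_of_mem hu, ← lintegral_const_mul' _ _ ENNReal.ofReal_ne_top]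
      refine lintegral_congr fun z => ?_
      simp only [hf]
      rw [indicator_of_mem (by exact hu)]
    · rw [indicator_of_notMem hu, ← lintegral_zero]
      refine lintegral_congr fun z => ?_
      simp only [hf]
      rw [indicator_of_notMem (by exact hu)]
  simp only [h4]
  rw [lintegral_indicator (isOpen_Su η δ).measurableSet, lintegral_const_mul' _ _
    ENNReal.ofReal_ne_top]

/-- **The slice estimate at `c`** (frequently in `j`). -/
def SliceEstC (b : ColorBasis N) (M : FermionRep N F) (R : GaugeAction b M) (G : GammaNine)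
    (m : ℝ) {X : Type*} (T : ℝ → X → Cfg N → F) (c : Cfg N) : Prop :=
  ∃ η : ℝ, 0 < η ∧
    ∀ (g : ℕ → ℝ) (φ : ℕ → Cfg N → F), Null b M R G m T g φ → ∀ ε : ℝ, 0 < ε →
      ∃ δ : ℝ, 0 < δ ∧ ∃ᶠ j in atTop, ∫ x in tubeS b c η δ, ‖φ j x‖ ^ 2 ≤ ε

variable {G : GammaNine} {m : ℝ} {X : Type*} {T : ℝ → X → Cfg N → F}

/-- the slice estimate at one point of the orbit -/
theorem sliceEstAt_of_rep {q : Fin 9 → Fin N → ℝ} {k : Matrix.specialUnitaryGroup (Fin N) ℂ}
    (h : SliceEstC b M R G m T (b.act k (AcomV302.diagCfg b q))) :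
    SliceEstAt b M R G m T q := by
  obtain ⟨η, hη, h⟩ := h
  obtain ⟨η', hη'⟩ := exists_goodRad b (AcomV302.diagCfg b q)
  refine ⟨min η η', hη'.mono (lt_min hη hη'.pos) (min_le_right _ _), fun g φ hn ε hε => ?_⟩
  obtain ⟨δ, hδ, hfr⟩ := h g φ hn ε hε
  refine ⟨δ, hδ, hfr.mono fun j hj => le_trans ?_ hj⟩
  rw [DiagRed302.tubeS_act]
  have hc := hn.core j
  refine setIntegral_mono_set (integrableOn_sq hc.1.continuous hc.2.1 _)
    (ae_of_all _ fun x => by positivity) ?_
  exact LE.le.eventuallyLE (DiagRed302.tubeS_mono b (min_le_left _ _) le_rfl)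


theorem capFam_of_rep (hN : 0 < N) (hm : 0 ≤ m) (hm1 : m ≤ 1) {ι : Type*} {X : ι → Type*}
    {T : ∀ i, ℝ → X i → Cfg N → F}
    (h : ∀ q : Fin 9 → Fin N → ℝ, (∀ i, ∑ a, q i a = 0) → 2 ≤ nv q →
      ∃ k, SliceEstC b M R G m (X := Σ i, X i) (fun g s => T s.1 g s.2)
        (b.act k (AcomV302.diagCfg b q))) :
    Chan441.CapFam b M R G m T :=
  capFam_of hN hm hm1 fun q hq hn => by
    obtain ⟨k, hk⟩ := h q hq hn
    exact sliceEstAt_of_rep hk

/-- **The slice estimate from its form in slice coordinates.** -/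
theorem sliceEstC_of (hc : Comc b c) {r0 C η : ℝ} (H : SRad b c r0 C) (hη0 : 0 < η)
    (hη : η ≤ r0)
    (hest : ∀ (g : ℕ → ℝ) (φ : ℕ → Cfg N → F), Null b M R G m T g φ →
      ∃ (K : ℝ) (Φ : ℕ → Uk b c × Zs b c → F), 0 ≤ K ∧ (∀ j, Continuous (Φ j)) ∧
        (∀ j (u : Uk b c) (z : Zs b c), ‖(u : Cfg N) + z‖ < η →
          jd b c C ((u : Cfg N) + z) * ‖φ j (c + ((u : Cfg N) + z))‖ ^ 2 ≤
            K * ‖Φ j (u, z)‖ ^ 2) ∧
        ∀ ε : ℝ≥0∞, 0 < ε → ∃ δ : ℝ, 0 < δ ∧ ∃ᶠ j in atTop,
          ∫⁻ u in Su b c η δ, ∫⁻ z, ‖Φ j (u, z)‖ₑ ^ 2 ≤ ε) :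
    SliceEstC b M R G m T c := by
  refine ⟨η, hη0, fun g φ hn ε hε => ?_⟩
  obtain ⟨K, Φ, hK, hΦ, hle, h⟩ := hest g φ hn
  have hε' : 0 < ENNReal.ofReal (ε / (K + 1)) := by
    rw [ENNReal.ofReal_pos]; positivity
  obtain ⟨δ, hδ, hfr⟩ := h _ hε'
  refine ⟨δ, hδ, hfr.mono fun j hj => ?_⟩
  have h1 := lintegral_tubeS_le (δ := δ) hc hK H hη0 hη (hn.core j) (hΦ j) (hle j)
  have h2 : ∫⁻ x in tubeS b c η δ, ‖φ j x‖ₑ ^ 2 ≤ ENNReal.ofReal ε := by
    refine h1.trans ((mul_le_mul_right hj _).trans ?_)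
    rw [← ENNReal.ofReal_mul hK]
    refine ENNReal.ofReal_le_ofReal ?_
    rw [mul_div_assoc', div_le_iff₀ (by positivity)]
    nlinarith
  rw [mass_eq (hn.core j).1.continuous (hn.core j).2.1] at h2
  exact (ENNReal.ofReal_le_ofReal_iff hε.le).1 h2

end Crest.Agent.R330.CapIntC737

end
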