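import Crest.Agent.R330.Decoup2_924
import Mathlib
import Crest.Agent.R330.FibProj_837
import Crest.Agent.R330.Amp_406

-- ▼ part R330/Fib_924
section

/-!
# Row 330, S7 (CC) / S9 capture: fibre estimates and their integration (helper924)

`U × Z` : block variables times heavy variables.  The heavy charges `B_α` differentiate only in the
directions of `Z`, their coefficients at `u` are compared with reference coefficients (the abelian
configuration) at distance `s`.

* `fib_real`, `fib_real_odd` : the real inequalities behind the fibre estimate;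
* `fibre` , `fibre_odd` : fibrewise form;
* `op_prod` : the operator on `U × Z` is fibrewise;
* `integral_fib_mono` : integration of fibrewise inequalities.
-/

set_option autoImplicit false
set_option linter.unusedSectionVars false

noncomputable section

namespace Crest.Agent.R330.Decoup924

open MeasureTheory Filter Topology
open scoped ContDiff InnerProductSpace ENNReal
open Crest.Agent.R330.IBP837

/-! ### real inequalities -/



/-! ### fibrewise estimates -/

section fib

variable {F : Type*} [NormedAddCommGroup F] [InnerProductSpace ℂ F]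
  {Z : Type*} [NormedAddCommGroup Z] [NormedSpace ℝ Z] [FiniteDimensional ℝ Z]
  [MeasurableSpace Z] [BorelSpace Z] {ν : Measure Z} [ν.IsAddHaarMeasure]
  {ι A : Type*} [Fintype ι] [Fintype A]


end fib

/-! ### operators on the product -/

section prod

variable {F : Type*} [NormedAddCommGroup F] [InnerProductSpace ℂ F]
  {U Z : Type*} [NormedAddCommGroup U] [NormedSpace ℝ U]
  [NormedAddCommGroup Z] [NormedSpace ℝ Z]
  {ι : Type*} [Fintype ι]




variable [FiniteDimensional ℝ U] [MeasurableSpace U] [BorelSpace U]
  [FiniteDimensional ℝ Z] [MeasurableSpace Z] [BorelSpace Z]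
  {μU : Measure U} {ν : Measure Z} [μU.IsAddHaarMeasure] [ν.IsAddHaarMeasure]





/-- the fibre integral of a continuous compactly supported function is integrable -/
theorem integrable_fib {q : U × Z → ℝ} (hq : Continuous q) (hc : HasCompactSupport q) :
    Integrable (fun u => ∫ z, q (u, z) ∂ν) μU :=
  (hq.integrable_of_hasCompactSupport (μ := μU.prod ν) hc).integral_prod_left


end prod

end Crest.Agent.R330.Decoup924
end
end

-- ▼ part R330/CapSl_924

/-!
# Row 330, S9 capture, step (h): the slice estimate (helper924)

* `slice_est` : fibre distance to the vacuum (I1), block Hardy inequality (HB), amplitudes → 0 ⟹ for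
  every `ε` there is `δ` with the mass of `Φ_j` over `S δ` eventually `≤ ε`.
* `slice_est_amp` : the same with amplitudes bounded in `H¹` and weakly null on a conull open set.
-/

set_option autoImplicit false
set_option linter.unusedSectionVars false

noncomputable section

namespace Crest.Agent.R330.CapSl924

open MeasureTheory Filter Topology Set
open scoped ContDiff InnerProductSpace ENNReal
open Crest.Agent.R330.FibProj837 Crest.Agent.R330.Decoup924

/-! ### the triangle -/

section main

variable {F : Type*} [NormedAddCommGroup F] [InnerProductSpace ℂ F] [FiniteDimensional ℂ F]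
  {U Z : Type*} [NormedAddCommGroup U] [NormedSpace ℝ U] [FiniteDimensional ℝ U]
  [MeasurableSpace U] [BorelSpace U]
  [NormedAddCommGroup Z] [NormedSpace ℝ Z] [FiniteDimensional ℝ Z] [MeasurableSpace Z]
  [BorelSpace Z] {μ : Measure U} [μ.IsAddHaarMeasure] {ν : Measure Z} [ν.IsAddHaarMeasure]

theorem ofReal_integral_sq {X : Type*} [MeasurableSpace X] {m : Measure X} {f : X → F}
    (hf : Integrable (fun x => ‖f x‖ ^ 2) m) :
    ∫⁻ x, ‖f x‖ₑ ^ 2 ∂m = ENNReal.ofReal (∫ x, ‖f x‖ ^ 2 ∂m) := by
  rw [ofReal_integral_eq_lintegral_ofReal hf (Eventually.of_forall fun x => by positivity)]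
  refine lintegral_congr fun x => ?_
  rw [ENNReal.ofReal_pow (norm_nonneg _), ofReal_norm]

/-- mass over `S` as an iterated integral -/
theorem mass_eq {Φ : U × Z → F} (hΦ : Continuous Φ) (hc : HasCompactSupport Φ) {S : Set U} :
    ∫⁻ u in S, ∫⁻ z, ‖Φ (u, z)‖ₑ ^ 2 ∂ν ∂μ =
      ENNReal.ofReal (∫ u in S, ∫ z, ‖Φ (u, z)‖ ^ 2 ∂ν ∂μ) := by
  have c2 : Continuous fun q => ‖Φ q‖ ^ 2 := hΦ.norm.pow 2
  have s2 : HasCompactSupport fun q => ‖Φ q‖ ^ 2 :=
    hc.norm.comp_left (g := fun t : ℝ => t ^ 2) (by norm_num)
  have iT : Integrable (fun u => ∫ z, ‖Φ (u, z)‖ ^ 2 ∂ν) μ := integrable_fib c2 s2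
  rw [ofReal_integral_eq_lintegral_ofReal iT.integrableOn
    (Eventually.of_forall fun u => integral_nonneg fun z => by positivity)]
  refine lintegral_congr fun u => ?_
  refine ofReal_integral_sq ?_
  have : Continuous fun z => ‖Φ (u, z)‖ ^ 2 := c2.comp (by fun_prop : Continuous fun z : Z => (u, z))
  refine this.integrable_of_hasCompactSupport ?_
  exact HasCompactSupport.of_support_subset_isCompact (hc.image continuous_snd) fun z hz => by
    refine ⟨(u, z), subset_tsupport _ fun h0 => hz ?_, rfl⟩
    simp [h0]




end main

end Crest.Agent.R330.CapSl924
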