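import Mathlib
import Crest.Prelude.Def_MatrixModel
import Crest.Agent.R330.Defs_478
import Crest.Agent.R330.Ims_714
import Crest.Agent.R330.HIAnn_245
import Crest.Agent.R330.ScaleD_423
import Crest.Agent.R330.Dict_416
import Crest.Agent.R330.Lit_416

/-!
Row 330 (helper363), leaf S11.1-QM0: quasi-modes of `q_{g,1}` (`g → ∞`) from the kernel of the
massless charges.  For `Ψ ∈ zset b M R G 1 0` the functions `U_{g^{1/3}} Ψ`, cut off at
`‖x‖ ≤ ρ`, are core vectors with small `q_{g,1}`.  No decay of `Ψ` is used.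
-/

set_option autoImplicit false
set_option linter.unusedSectionVars false
set_option linter.deprecated false

noncomputable section

namespace Crest.Agent.R330.QM0363

open MeasureTheory Filter Topology Crest.MathPhysics.MatrixQM
open Crest.Agent.R330.IBP837 Crest.Agent.R330.Defs478 Crest.Agent.R330.Scale423
open Crest.Agent.R330.ScaleD423
open scoped ContDiff InnerProductSpace ENNReal

variable {N : ℕ} {F : Type*} [NormedAddCommGroup F] [InnerProductSpace ℂ F]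
  [FiniteDimensional ℂ F]

/-! ### 1. The mass term -/

/-- the mass part of the charge -/
def massT (M : FermionRep N F) (G : GammaNine) (α : Fin 16) (x : Cfg N) (v : F) : F :=
  ∑ A : Fin (N ^ 2 - 1), ∑ β : Fin 16,
    ((∑ j : Fin 9, cc j * x (j, A) * (Gam G * G.γ j) α β : ℝ) : ℂ) • M.θ β A v

theorem dcharge_sub_mass (b : ColorBasis N) (M : FermionRep N F) (G : GammaNine) (g m : ℝ)
    (α : Fin 16) (φ : Cfg N → F) (x : Cfg N) :
    dcharge b M G g m α φ x = dcharge b M G g 0 α φ x - (m : ℂ) • massT M G α x (φ x) := by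
  unfold dcharge massT
  rw [add_sub_assoc]
  congr 1
  rw [Finset.smul_sum, ← Finset.sum_sub_distrib]
  refine Finset.sum_congr rfl fun A _ => ?_
  rw [Finset.smul_sum, ← Finset.sum_sub_distrib]
  refine Finset.sum_congr rfl fun β _ => ?_
  rw [smul_smul, ← sub_smul]
  congr 1
  unfold wpot
  push_cast
  ring

theorem exists_mass_bound (M : FermionRep N F) (G : GammaNine) :
    ∃ C : ℝ, 0 < C ∧ ∀ (α : Fin 16) (x : Cfg N) (v : F), ‖massT M G α x v‖ ≤ C * ‖x‖ * ‖v‖ := by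
  have hθ : ∀ (β : Fin 16) (A : Fin (N ^ 2 - 1)), ∃ c : ℝ, 0 ≤ c ∧ ∀ v, ‖M.θ β A v‖ ≤ c * ‖v‖ :=
    fun β A => ⟨‖(M.θ β A).toContinuousLinearMap‖, norm_nonneg _, fun v =>
      (M.θ β A).toContinuousLinearMap.le_opNorm v⟩
  choose c hc0 hc using hθ
  have h40 : ∀ α' : Fin 16, 0 ≤ ∑ A : Fin (N ^ 2 - 1), ∑ β : Fin 16,
      (∑ j : Fin 9, |cc j| * |(Gam G * G.γ j) α' β|) * c β A := fun α' =>
    Finset.sum_nonneg fun A _ => Finset.sum_nonneg fun β _ =>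
      mul_nonneg (Finset.sum_nonneg fun j _ => by positivity) (hc0 β A)
  refine ⟨1 + ∑ α : Fin 16, ∑ A : Fin (N ^ 2 - 1), ∑ β : Fin 16,
    (∑ j : Fin 9, |cc j| * |(Gam G * G.γ j) α β|) * c β A, ?_, fun α x v => ?_⟩
  · exact add_pos_of_pos_of_nonneg one_pos (Finset.sum_nonneg fun α' _ => h40 α')
  have h1 : ∀ (A : Fin (N ^ 2 - 1)) (β : Fin 16),
      ‖((∑ j : Fin 9, cc j * x (j, A) * (Gam G * G.γ j) α β : ℝ) : ℂ) • M.θ β A v‖ ≤
      (∑ j : Fin 9, |cc j| * |(Gam G * G.γ j) α β|) * c β A * (‖x‖ * ‖v‖) := by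
    intro A β
    rw [norm_smul, Complex.norm_real, Real.norm_eq_abs]
    have h2 : |∑ j : Fin 9, cc j * x (j, A) * (Gam G * G.γ j) α β| ≤
        (∑ j : Fin 9, |cc j| * |(Gam G * G.γ j) α β|) * ‖x‖ := by
      refine (Finset.abs_sum_le_sum_abs _ _).trans ?_
      rw [Finset.sum_mul]
      refine Finset.sum_le_sum fun j _ => ?_
      rw [abs_mul, abs_mul]
      have h3 : |x (j, A)| ≤ ‖x‖ := by
        have := PiLp.norm_apply_le x (j, A)
        rwa [Real.norm_eq_abs] at this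
      calc |cc j| * |x (j, A)| * |(Gam G * G.γ j) α β|
          ≤ |cc j| * ‖x‖ * |(Gam G * G.γ j) α β| := by gcongr
        _ = _ := by ring
    calc _ ≤ (∑ j : Fin 9, |cc j| * |(Gam G * G.γ j) α β|) * ‖x‖ * (c β A * ‖v‖) := by
          refine mul_le_mul h2 (hc β A v) (norm_nonneg _) (by positivity)
      _ = _ := by ring
  unfold massT
  calc ‖∑ A : Fin (N ^ 2 - 1), ∑ β : Fin 16,
      ((∑ j : Fin 9, cc j * x (j, A) * (Gam G * G.γ j) α β : ℝ) : ℂ) • M.θ β A v‖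
      ≤ ∑ A : Fin (N ^ 2 - 1), ∑ β : Fin 16,
        (∑ j : Fin 9, |cc j| * |(Gam G * G.γ j) α β|) * c β A * (‖x‖ * ‖v‖) :=
        (norm_sum_le _ _).trans (Finset.sum_le_sum fun A _ =>
          (norm_sum_le _ _).trans (Finset.sum_le_sum fun β _ => h1 A β))
    _ = (∑ A : Fin (N ^ 2 - 1), ∑ β : Fin 16,
        (∑ j : Fin 9, |cc j| * |(Gam G * G.γ j) α β|) * c β A) * (‖x‖ * ‖v‖) := by
        simp only [Finset.sum_mul]
    _ ≤ (∑ α : Fin 16, ∑ A : Fin (N ^ 2 - 1), ∑ β : Fin 16,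
        (∑ j : Fin 9, |cc j| * |(Gam G * G.γ j) α β|) * c β A) * (‖x‖ * ‖v‖) := by
        refine mul_le_mul_of_nonneg_right ?_ (by positivity)
        exact Finset.single_le_sum (f := fun α' => ∑ A : Fin (N ^ 2 - 1), ∑ β : Fin 16,
          (∑ j : Fin 9, |cc j| * |(Gam G * G.γ j) α' β|) * c β A)
          (fun α' _ => h40 α') (Finset.mem_univ α)
    _ ≤ _ := by
        rw [mul_assoc]
        refine mul_le_mul_of_nonneg_right (by linarith) (by positivity)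

/-! ### 2. The radial cut-off -/

/-- `1` for `‖x‖ ≤ L/2`, `0` for `‖x‖ ≥ L` -/
def cut (L : ℝ) (x : Cfg N) : ℝ := Real.smoothTransition (4 / 3 * (1 - ‖x‖ ^ 2 / L ^ 2))

theorem cut_nonneg (L : ℝ) (x : Cfg N) : 0 ≤ cut L x := Real.smoothTransition.nonneg _

theorem cut_le_one (L : ℝ) (x : Cfg N) : cut L x ≤ 1 := Real.smoothTransition.le_one _

theorem cut_zero {L : ℝ} (hL : 0 < L) {x : Cfg N} (h : L ≤ ‖x‖) : cut L x = 0 := by
  apply Real.smoothTransition.zero_of_nonpos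
  have h1 : 1 ≤ ‖x‖ ^ 2 / L ^ 2 := by
    rw [le_div_iff₀ (by positivity), one_mul]
    gcongr
  linarith

theorem cut_one {L : ℝ} (hL : 0 < L) {x : Cfg N} (h : ‖x‖ ≤ L / 2) : cut L x = 1 := by
  apply Real.smoothTransition.one_of_one_le
  have h1 : ‖x‖ ^ 2 / L ^ 2 ≤ 1 / 4 := by
    rw [div_le_iff₀ (by positivity)]
    have : ‖x‖ ^ 2 ≤ (L / 2) ^ 2 := by gcongr
    linarith
  linarith

theorem contDiff_cut (L : ℝ) : ContDiff ℝ ∞ (cut (N := N) L) := by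
  unfold cut
  refine Real.smoothTransition.contDiff.comp (contDiff_const.mul (contDiff_const.sub ?_))
  exact (contDiff_norm_sq ℝ).div_const _

theorem cut_act (b : ColorBasis N) (L : ℝ) (g : Matrix.specialUnitaryGroup (Fin N) ℂ)
    (x : Cfg N) : cut L (b.act g x) = cut L x := by
  unfold cut
  rw [Col962.norm_act]

theorem norm_grad_cut {L : ℝ} (hL : 0 < L) {C : ℝ} (hC0 : 0 ≤ C)
    (hC : ∀ t, |deriv Real.smoothTransition t| ≤ C) (x : Cfg N) :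
    ‖Ims714.grad (cut L) x‖ ≤ 8 / 3 * C / L := by
  have hd : HasFDerivAt (cut (N := N) L)
      ((deriv Real.smoothTransition (4 / 3 * (1 - ‖x‖ ^ 2 / L ^ 2)) * (-(8 / 3) / L ^ 2)) •
        (innerSL ℝ x)) x := by
    have h1 : HasFDerivAt (fun y : Cfg N => ‖y‖ ^ 2) (2 • innerSL ℝ x) x :=
      (hasStrictFDerivAt_norm_sq x).hasFDerivAt
    have h2 : HasFDerivAt (fun y : Cfg N => 4 / 3 * (1 - ‖y‖ ^ 2 / L ^ 2))
        ((-(8 / 3) / L ^ 2) • innerSL ℝ x) x := by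
      have h3 := ((h1.const_mul ((L ^ 2)⁻¹)).const_sub 1).const_mul (4 / 3)
      refine (h3.congr_fderiv ?_).congr_of_eventuallyEq (Eventually.of_forall fun y => ?_)
      · ext y
        simp only [smul_apply, neg_apply, smul_eq_mul, nsmul_eq_mul]
        field_simp
        norm_num
        ring
      · simp only
        ring
    have h4 : HasDerivAt Real.smoothTransition
        (deriv Real.smoothTransition (4 / 3 * (1 - ‖x‖ ^ 2 / L ^ 2)))
        (4 / 3 * (1 - ‖x‖ ^ 2 / L ^ 2)) :=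
      ((Real.smoothTransition.contDiff (n := 1)).differentiable one_ne_zero _).hasDerivAt
    have h5 := h4.comp_hasFDerivAt x h2
    rw [smul_smul] at h5
    exact h5
  have hg : Ims714.grad (cut L) x =
      (deriv Real.smoothTransition (4 / 3 * (1 - ‖x‖ ^ 2 / L ^ 2)) * (-(8 / 3) / L ^ 2)) • x := by
    refine HIAnn245.grad_eq_of_hasFDerivAt ?_
    refine hd.congr_fderiv ?_
    ext y
    simp
  rw [hg, norm_smul, Real.norm_eq_abs, abs_mul]
  by_cases hx : L ≤ ‖x‖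
  · have h6 : deriv Real.smoothTransition (4 / 3 * (1 - ‖x‖ ^ 2 / L ^ 2)) = 0 := by
      refine HIAnn245.sT_deriv_zero (Or.inl ?_)
      have h1 : 1 ≤ ‖x‖ ^ 2 / L ^ 2 := by
        rw [le_div_iff₀ (by positivity), one_mul]
        gcongr
      linarith
    rw [h6, abs_zero, zero_mul, zero_mul]
    positivity
  · push Not at hx
    have h7 : |(-(8 / 3) / L ^ 2 : ℝ)| = 8 / 3 / L ^ 2 := by
      rw [abs_div, abs_neg, abs_of_pos (by norm_num : (0 : ℝ) < 8 / 3),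
        abs_of_pos (by positivity : (0 : ℝ) < L ^ 2)]
    rw [h7]
    calc |deriv Real.smoothTransition (4 / 3 * (1 - ‖x‖ ^ 2 / L ^ 2))| * (8 / 3 / L ^ 2) * ‖x‖
        ≤ C * (8 / 3 / L ^ 2) * L := by
          gcongr
          exact hC _
      _ = 8 / 3 * C / L := by
          field_simp

theorem grad_cut_zero {L : ℝ} (hL : 0 < L) {x : Cfg N} (hx : ‖x‖ < L / 2) :
    Ims714.grad (cut L) x = 0 := by
  have h1 : cut (N := N) L =ᶠ[𝓝 x] fun _ => (1 : ℝ) := by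
    have h2 : ∀ᶠ y in 𝓝 x, ‖y‖ < L / 2 := (continuous_norm.tendsto x).eventually_lt_const hx
    filter_upwards [h2] with y hy
    exact cut_one hL hy.le
  have h2 : HasFDerivAt (cut (N := N) L) (0 : Cfg N →L[ℝ] ℝ) x :=
    (hasFDerivAt_const (1 : ℝ) x).congr_of_eventuallyEq h1
  have h3 := HIAnn245.grad_eq_of_hasFDerivAt (χ := cut (N := N) L) (x := x) (v := 0)
    (h2.congr_fderiv (by ext y; simp))
  exact h3

/-! ### 3. Pointwise and integrated estimate -/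

theorem dop_zero (G : GammaNine) (M : FermionRep N F) (b : ColorBasis N) (α : Fin 16)
    {χ : Cfg N → ℝ} {φ : Cfg N → F} {x : Cfg N} (hχ : DifferentiableAt ℝ χ x)
    (hφ : DifferentiableAt ℝ φ x) :
    dcharge b M G 1 0 α (fun y => χ y • φ y) x =
      χ x • dcharge b M G 1 0 α φ x + Ims714.kin G M α (Ims714.grad χ x) (φ x) := by
  simp only [dcharge_one_zero, Ims714.supercharge_eq_dop]
  exact Ims714.dop_mul G M α _ hχ hφ

theorem sq_add3_le (a c d : ℝ) : (a + c + d) ^ 2 ≤ 3 * (a ^ 2 + c ^ 2 + d ^ 2) := by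
  nlinarith [sq_nonneg (a - c), sq_nonneg (a - d), sq_nonneg (c - d)]

theorem pointwise_cut (b : ColorBasis N) (M : FermionRep N F) (G : GammaNine) {CM : ℝ}
    (hCM0 : 0 < CM)
    (hCM : ∀ (α : Fin 16) (x : Cfg N) (v : F), ‖massT M G α x v‖ ≤ CM * ‖x‖ * ‖v‖)
    {C : ℝ} (hC0 : 0 ≤ C) (hC : ∀ t, |deriv Real.smoothTransition t| ≤ C) {L m : ℝ}
    (hL : 0 < L) (hm : 0 ≤ m) (α : Fin 16) {φ : Cfg N → F} (hφ : Differentiable ℝ φ)
    (x : Cfg N) :
    ‖dcharge b M G 1 m α (fun y => cut L y • φ y) x‖ ^ 2 ≤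
      3 * (‖dcharge b M G 1 0 α φ x‖ ^ 2 +
        (8 / 3 * C / L) ^ 2 * ({y : Cfg N | L / 2 ≤ ‖y‖}.indicator (fun y => ‖φ y‖ ^ 2) x) +
        (m * (CM * L)) ^ 2 * ‖φ x‖ ^ 2) := by
  have hcd : DifferentiableAt ℝ (cut (N := N) L) x :=
    (contDiff_cut L).differentiable (by simp) x
  have e1 : dcharge b M G 1 m α (fun y => cut L y • φ y) x =
      cut L x • dcharge b M G 1 0 α φ x + Ims714.kin G M α (Ims714.grad (cut L) x) (φ x) -
        (m : ℂ) • massT M G α x (cut L x • φ x) := by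
    rw [dcharge_sub_mass, dop_zero G M b α hcd (hφ x)]
  have n1 : ‖cut L x • dcharge b M G 1 0 α φ x‖ ≤ ‖dcharge b M G 1 0 α φ x‖ := by
    rw [norm_smul, Real.norm_eq_abs, abs_of_nonneg (cut_nonneg L x)]
    exact mul_le_of_le_one_left (norm_nonneg _) (cut_le_one L x)
  have n2 : ‖Ims714.kin G M α (Ims714.grad (cut L) x) (φ x)‖ ^ 2 ≤
      (8 / 3 * C / L) ^ 2 * ({y : Cfg N | L / 2 ≤ ‖y‖}.indicator (fun y => ‖φ y‖ ^ 2) x) := by
    by_cases hx : L / 2 ≤ ‖x‖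
    · rw [Set.indicator_of_mem (show x ∈ {y : Cfg N | L / 2 ≤ ‖y‖} from hx), ← mul_pow]
      have h1 := Ims714.norm_kin_le G M α (Ims714.grad (cut L) x) (φ x)
      have h2 := norm_grad_cut hL hC0 hC x
      gcongr
      exact h1.trans (mul_le_mul_of_nonneg_right h2 (norm_nonneg _))
    · push Not at hx
      rw [grad_cut_zero hL hx]
      have h0 : Ims714.kin G M α (0 : Cfg N) = 0 := by
        have := Ims714.kin_smul G M α 0 (0 : Cfg N)
        simpa using this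
      rw [h0]
      simp only [LinearMap.zero_apply, norm_zero]
      rw [zero_pow two_ne_zero]
      refine mul_nonneg (sq_nonneg _) (Set.indicator_nonneg (fun y _ => sq_nonneg _) x)
  have n3 : ‖(m : ℂ) • massT M G α x (cut L x • φ x)‖ ≤ m * (CM * L) * ‖φ x‖ := by
    rw [norm_smul, Complex.norm_real, Real.norm_of_nonneg hm, mul_assoc m]
    refine mul_le_mul_of_nonneg_left ?_ hm
    by_cases hx : L ≤ ‖x‖
    · have h1 := hCM α x (cut L x • φ x)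
      rw [cut_zero hL hx, zero_smul, norm_zero, mul_zero] at h1
      rw [cut_zero hL hx, zero_smul]
      exact h1.trans (by positivity)
    · push Not at hx
      refine (hCM α x _).trans ?_
      have h2 : ‖cut L x • φ x‖ ≤ ‖φ x‖ := by
        rw [norm_smul, Real.norm_eq_abs, abs_of_nonneg (cut_nonneg L x)]
        exact mul_le_of_le_one_left (norm_nonneg _) (cut_le_one L x)
      gcongr
  have h5 : ‖dcharge b M G 1 m α (fun y => cut L y • φ y) x‖ ≤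
      ‖dcharge b M G 1 0 α φ x‖ + ‖Ims714.kin G M α (Ims714.grad (cut L) x) (φ x)‖ +
        m * (CM * L) * ‖φ x‖ := by
    rw [e1]
    refine (norm_sub_le _ _).trans (add_le_add ?_ n3)
    exact (norm_add_le _ _).trans (add_le_add n1 le_rfl)
  calc ‖dcharge b M G 1 m α (fun y => cut L y • φ y) x‖ ^ 2
      ≤ (‖dcharge b M G 1 0 α φ x‖ + ‖Ims714.kin G M α (Ims714.grad (cut L) x) (φ x)‖ +
        m * (CM * L) * ‖φ x‖) ^ 2 := by gcongr
    _ ≤ 3 * (‖dcharge b M G 1 0 α φ x‖ ^ 2 +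
        ‖Ims714.kin G M α (Ims714.grad (cut L) x) (φ x)‖ ^ 2 +
        (m * (CM * L) * ‖φ x‖) ^ 2) := sq_add3_le _ _ _
    _ ≤ _ := by
        rw [mul_pow (m * (CM * L))]
        gcongr

theorem core_cut {b : ColorBasis N} {M : FermionRep N F} {R : GaugeAction b M} (L : ℝ)
    {φ : Cfg N → F} (hφ : IsCoreVec b R φ) : IsCoreVec b R (fun y => cut L y • φ y) :=
  Ims714.isCoreVec_mul (contDiff_cut L) (fun g x => cut_act b L g x) hφ

theorem int_sq_dcharge {b : ColorBasis N} {M : FermionRep N F} {R : GaugeAction b M}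
    (G : GammaNine) (g m : ℝ) (α : Fin 16) {φ : Cfg N → F} (hφ : IsCoreVec b R φ) :
    Integrable fun x => ‖dcharge b M G g m α φ x‖ ^ 2 :=
  (memLp_two_iff_integrable_sq_norm (cv_aesm_dcharge hφ G g m α)).1
    (Dict416.cv_memLp_dcharge G g m α hφ)

theorem int_sq {b : ColorBasis N} {M : FermionRep N F} {R : GaugeAction b M}
    {φ : Cfg N → F} (hφ : IsCoreVec b R φ) : Integrable fun x => ‖φ x‖ ^ 2 :=
  (memLp_two_iff_integrable_sq_norm (cv_aesm hφ)).1 (Dict416.cv_memLp hφ)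

theorem int_sq_memLp {Ψ : Cfg N → F} (h : MemLp Ψ 2 volume) : Integrable fun x => ‖Ψ x‖ ^ 2 :=
  (memLp_two_iff_integrable_sq_norm h.1).1 h

theorem measurableSet_far (r : ℝ) : MeasurableSet {y : Cfg N | r ≤ ‖y‖} :=
  (isClosed_le continuous_const continuous_norm).measurableSet

theorem qf_cut_le (b : ColorBasis N) (M : FermionRep N F) {R : GaugeAction b M} (G : GammaNine)
    {CM : ℝ} (hCM0 : 0 < CM)
    (hCM : ∀ (α : Fin 16) (x : Cfg N) (v : F), ‖massT M G α x v‖ ≤ CM * ‖x‖ * ‖v‖)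
    {C : ℝ} (hC0 : 0 ≤ C) (hC : ∀ t, |deriv Real.smoothTransition t| ≤ C) {L m : ℝ}
    (hL : 0 < L) (hm : 0 ≤ m) {φ : Cfg N → F} (hφ : IsCoreVec b R φ) :
    qf b M G 1 m (fun y => cut L y • φ y) ≤
      3 * (qf b M G 1 0 φ + (8 / 3 * C / L) ^ 2 * (∫ x in {y : Cfg N | L / 2 ≤ ‖y‖}, ‖φ x‖ ^ 2) +
        (m * (CM * L)) ^ 2 * ∫ x, ‖φ x‖ ^ 2) := by
  have hi1 : Integrable ({y : Cfg N | L / 2 ≤ ‖y‖}.indicator (fun y => ‖φ y‖ ^ 2)) :=
    (int_sq hφ).indicator (measurableSet_far _)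
  have h1 : ∀ α : Fin 16, ∫ x, ‖dcharge b M G 1 m α (fun y => cut L y • φ y) x‖ ^ 2 ≤
      3 * ((∫ x, ‖dcharge b M G 1 0 α φ x‖ ^ 2) +
        (8 / 3 * C / L) ^ 2 * (∫ x in {y : Cfg N | L / 2 ≤ ‖y‖}, ‖φ x‖ ^ 2) +
        (m * (CM * L)) ^ 2 * ∫ x, ‖φ x‖ ^ 2) := by
    intro α
    have hI1 := int_sq_dcharge G 1 0 α hφ
    have hI2 : Integrable fun x => (8 / 3 * C / L) ^ 2 *
        ({y : Cfg N | L / 2 ≤ ‖y‖}.indicator (fun y => ‖φ y‖ ^ 2) x) := hi1.const_mul _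
    have hI3 : Integrable fun x => (m * (CM * L)) ^ 2 * ‖φ x‖ ^ 2 := (int_sq hφ).const_mul _
    calc ∫ x, ‖dcharge b M G 1 m α (fun y => cut L y • φ y) x‖ ^ 2
        ≤ ∫ x, 3 * (‖dcharge b M G 1 0 α φ x‖ ^ 2 +
        (8 / 3 * C / L) ^ 2 * ({y : Cfg N | L / 2 ≤ ‖y‖}.indicator (fun y => ‖φ y‖ ^ 2) x) +
        (m * (CM * L)) ^ 2 * ‖φ x‖ ^ 2) :=
          integral_mono (int_sq_dcharge G 1 m α (core_cut L hφ))
            (((hI1.add hI2).add hI3).const_mul 3)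
            fun x => pointwise_cut b M G hCM0 hCM hC0 hC hL hm α (cv_diff hφ) x
      _ = _ := by
          have hI12 : Integrable fun x => ‖dcharge b M G 1 0 α φ x‖ ^ 2 +
              (8 / 3 * C / L) ^ 2 *
                ({y : Cfg N | L / 2 ≤ ‖y‖}.indicator (fun y => ‖φ y‖ ^ 2) x) := hI1.add hI2
          rw [integral_const_mul, integral_add hI12 hI3, integral_add hI1 hI2,
            integral_const_mul, integral_const_mul, integral_indicator (measurableSet_far _)]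
  unfold qf
  calc (1 / 16 : ℝ) * ∑ α : Fin 16, ∫ x, ‖dcharge b M G 1 m α (fun y => cut L y • φ y) x‖ ^ 2
      ≤ (1 / 16 : ℝ) * ∑ α : Fin 16, 3 * ((∫ x, ‖dcharge b M G 1 0 α φ x‖ ^ 2) +
        (8 / 3 * C / L) ^ 2 * (∫ x in {y : Cfg N | L / 2 ≤ ‖y‖}, ‖φ x‖ ^ 2) +
        (m * (CM * L)) ^ 2 * ∫ x, ‖φ x‖ ^ 2) := by
        refine mul_le_mul_of_nonneg_left (Finset.sum_le_sum fun α _ => h1 α) (by norm_num)
    _ = _ := by
        rw [← Finset.mul_sum, Finset.sum_add_distrib, Finset.sum_add_distrib,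
          Finset.sum_const, Finset.sum_const, Finset.card_univ, Fintype.card_fin]
        simp only [nsmul_eq_mul]
        push_cast
        ring

/-! ### 4. Approximation of zero states -/

theorem int_sq_sub_le {f h : Cfg N → F} {s : Set (Cfg N)} (hf : MemLp f 2 volume)
    (hh : MemLp h 2 volume) :
    ∫ x in s, ‖f x‖ ^ 2 ≤ 2 * (∫ x, ‖f x - h x‖ ^ 2) + 2 * ∫ x in s, ‖h x‖ ^ 2 := by
  have hd : Integrable fun x => ‖f x - h x‖ ^ 2 := int_sq_memLp (hf.sub hh)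
  have i1 := (int_sq_memLp hf).integrableOn (s := s)
  have i2 := (int_sq_memLp hh).integrableOn (s := s)
  have i3 : IntegrableOn (fun x => ‖f x - h x‖ ^ 2) s := hd.integrableOn
  have h1 : ∫ x in s, ‖f x‖ ^ 2 ≤ ∫ x in s, (2 * ‖f x - h x‖ ^ 2 + 2 * ‖h x‖ ^ 2) := by
    refine integral_mono i1 ((i3.const_mul 2).add (i2.const_mul 2)) fun x => ?_
    have h2 : ‖f x‖ ≤ ‖f x - h x‖ + ‖h x‖ := by
      simpa using norm_add_le (f x - h x) (h x)
    have h3 : ‖f x‖ ^ 2 ≤ (‖f x - h x‖ + ‖h x‖) ^ 2 := by gcongr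
    simp only
    nlinarith [sq_nonneg (‖f x - h x‖ - ‖h x‖)]
  have h4 : ∫ x in s, ‖f x - h x‖ ^ 2 ≤ ∫ x, ‖f x - h x‖ ^ 2 :=
    setIntegral_le_integral hd (Eventually.of_forall fun x => sq_nonneg _)
  rw [integral_add (i3.const_mul 2) (i2.const_mul 2), integral_const_mul,
    integral_const_mul] at h1
  linarith

/-- tails of an `L²` function -/
theorem tail_tendsto {Ψ : Cfg N → F} (h : MemLp Ψ 2 volume) {ε : ℝ} (hε : 0 < ε) :
    ∃ r0 : ℝ, 0 < r0 ∧ ∀ r, r0 ≤ r → ∫ x in {y : Cfg N | r ≤ ‖y‖}, ‖Ψ x‖ ^ 2 ≤ ε := by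
  have hi := int_sq_memLp h
  have h1 : Tendsto (fun n : ℕ => ∫ x in {y : Cfg N | (n : ℝ) ≤ ‖y‖}, ‖Ψ x‖ ^ 2) atTop
      (𝓝 (∫ x in ⋂ n : ℕ, {y : Cfg N | (n : ℝ) ≤ ‖y‖}, ‖Ψ x‖ ^ 2)) := by
    refine tendsto_setIntegral_of_antitone (fun n => measurableSet_far _) ?_ ⟨0, hi.integrableOn⟩
    intro n m hnm y hy
    have : (n : ℝ) ≤ m := by exact_mod_cast hnm
    exact this.trans hy
  have h2 : (⋂ n : ℕ, {y : Cfg N | (n : ℝ) ≤ ‖y‖}) = ∅ := by
    ext y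
    simp only [Set.mem_iInter, Set.mem_setOf_eq, Set.mem_empty_iff_false, iff_false, not_forall,
      not_le]
    exact exists_nat_gt _
  rw [h2, setIntegral_empty] at h1
  obtain ⟨n, hn⟩ := ((h1.eventually_lt_const hε).and (eventually_ge_atTop 1)).exists
  refine ⟨n, by exact_mod_cast hn.2, fun r hr => ?_⟩
  refine le_trans ?_ hn.1.le
  refine setIntegral_mono_set hi.integrableOn (Eventually.of_forall fun x => sq_nonneg _) ?_
  exact Eventually.of_forall fun y hy => hr.trans hy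

/-- an `ε`-approximation of a zero state by core vectors -/
theorem zset_approx {b : ColorBasis N} {M : FermionRep N F} {R : GaugeAction b M}
    {G : GammaNine} {g m : ℝ} {Ψ : Cfg N → F} (hΨ : Ψ ∈ zset b M R G g m) {ε : ℝ} (hε : 0 < ε) :
    ∃ φ, IsCoreVec b R φ ∧ ∫ x, ‖φ x - Ψ x‖ ^ 2 ≤ ε ∧ qf b M G g m φ ≤ ε := by
  obtain ⟨hm, φ, hφ, h1, h2⟩ := hΨ
  have t1 : Tendsto (fun n => ∫ x, ‖φ n x - Ψ x‖ ^ 2) atTop (𝓝 0) := by
    have e1 : ∀ n, ∫ x, ‖φ n x - Ψ x‖ ^ 2 = (eLpNorm (φ n - Ψ) 2 volume).toReal ^ 2 := by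
      intro n
      have hmem : MemLp (φ n - Ψ) 2 volume := (Dict416.cv_memLp (hφ n)).sub hm
      rw [← Lp.norm_toLp _ hmem, Dict416.norm_toLp_sq hmem]
      rfl
    simp only [e1]
    have h3 : Tendsto (fun n => (eLpNorm (φ n - Ψ) 2 volume).toReal) atTop (𝓝 0) := by
      have := (ENNReal.tendsto_toReal ENNReal.zero_ne_top).comp h1
      simpa [Function.comp_def] using this
    simpa using h3.pow 2
  have t2 : Tendsto (fun n => qf b M G g m (φ n)) atTop (𝓝 0) := by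
    have e2 : ∀ n, qf b M G g m (φ n) = (1 / 16 : ℝ) * ∑ α : Fin 16,
        (eLpNorm (dcharge b M G g m α (φ n)) 2 volume).toReal ^ 2 := by
      intro n
      unfold qf
      congr 1
      refine Finset.sum_congr rfl fun α _ => ?_
      have hmem := Dict416.cv_memLp_dcharge G g m α (hφ n)
      rw [← Lp.norm_toLp _ hmem, Dict416.norm_toLp_sq hmem]
    simp only [e2]
    have h3 : ∀ α, Tendsto (fun n => (eLpNorm (dcharge b M G g m α (φ n)) 2 volume).toReal ^ 2)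
        atTop (𝓝 0) := by
      intro α
      have := (ENNReal.tendsto_toReal ENNReal.zero_ne_top).comp (h2 α)
      have h4 : Tendsto (fun n => (eLpNorm (dcharge b M G g m α (φ n)) 2 volume).toReal)
        atTop (𝓝 0) := by simpa [Function.comp_def] using this
      simpa using h4.pow 2
    have h5 := (tendsto_finset_sum Finset.univ fun α _ => h3 α).const_mul (1 / 16 : ℝ)
    simpa using h5
  obtain ⟨n, hn1, hn2⟩ := ((t1.eventually_le_const hε).and (t2.eventually_le_const hε)).exists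
  exact ⟨φ n, hφ n, hn1, hn2⟩

theorem qf_nonneg (b : ColorBasis N) (M : FermionRep N F) (G : GammaNine) (g m : ℝ)
    (φ : Cfg N → F) : 0 ≤ qf b M G g m φ := by
  unfold qf
  exact mul_nonneg (by norm_num) (Finset.sum_nonneg fun α _ =>
    integral_nonneg fun x => sq_nonneg _)

/-- cut-off of an approximant against the state -/
theorem norm_cut_sub {Ψ φ : Cfg N → F} (hΨ : MemLp Ψ 2 volume) (hφ : MemLp φ 2 volume)
    (hφc : Continuous φ) {L : ℝ} (hL : 0 < L) :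
    ∫ x, ‖cut L x • φ x - Ψ x‖ ^ 2 ≤ 2 * (∫ x, ‖φ x - Ψ x‖ ^ 2) +
      2 * ∫ x in {y : Cfg N | L / 2 ≤ ‖y‖}, ‖Ψ x‖ ^ 2 := by
  have i1 : Integrable fun x => ‖φ x - Ψ x‖ ^ 2 := int_sq_memLp (hφ.sub hΨ)
  have i2 : Integrable ({y : Cfg N | L / 2 ≤ ‖y‖}.indicator (fun y => ‖Ψ y‖ ^ 2)) :=
    (int_sq_memLp hΨ).indicator (measurableSet_far _)
  have h1 : ∀ x, ‖cut L x • φ x - Ψ x‖ ^ 2 ≤ 2 * ‖φ x - Ψ x‖ ^ 2 +
      2 * ({y : Cfg N | L / 2 ≤ ‖y‖}.indicator (fun y => ‖Ψ y‖ ^ 2) x) := by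
    intro x
    have e : cut L x • φ x - Ψ x = cut L x • (φ x - Ψ x) - (1 - cut L x) • Ψ x := by
      rw [smul_sub, sub_smul, one_smul]; abel
    have n1 : ‖cut L x • (φ x - Ψ x)‖ ≤ ‖φ x - Ψ x‖ := by
      rw [norm_smul, Real.norm_eq_abs, abs_of_nonneg (cut_nonneg L x)]
      exact mul_le_of_le_one_left (norm_nonneg _) (cut_le_one L x)
    have n2 : ‖(1 - cut L x) • Ψ x‖ ^ 2 ≤
        {y : Cfg N | L / 2 ≤ ‖y‖}.indicator (fun y => ‖Ψ y‖ ^ 2) x := by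
      by_cases hx : L / 2 ≤ ‖x‖
      · rw [Set.indicator_of_mem (show x ∈ {y : Cfg N | L / 2 ≤ ‖y‖} from hx)]
        rw [norm_smul, Real.norm_eq_abs, abs_of_nonneg (by linarith [cut_le_one L x]), mul_pow]
        have : (1 - cut L x) ^ 2 ≤ 1 := by
          have h0 := cut_nonneg L x
          have h1 := cut_le_one L x
          nlinarith
        exact mul_le_of_le_one_left (sq_nonneg _) this
      · push Not at hx
        rw [cut_one hL hx.le, sub_self, zero_smul, norm_zero, zero_pow two_ne_zero]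
        exact Set.indicator_nonneg (fun y _ => sq_nonneg _) x
    have n3 : ‖cut L x • φ x - Ψ x‖ ≤ ‖φ x - Ψ x‖ + ‖(1 - cut L x) • Ψ x‖ := by
      rw [e]
      exact (norm_sub_le _ _).trans (add_le_add n1 le_rfl)
    calc ‖cut L x • φ x - Ψ x‖ ^ 2 ≤ (‖φ x - Ψ x‖ + ‖(1 - cut L x) • Ψ x‖) ^ 2 := by gcongr
      _ ≤ 2 * ‖φ x - Ψ x‖ ^ 2 + 2 * ‖(1 - cut L x) • Ψ x‖ ^ 2 := by
        nlinarith [sq_nonneg (‖φ x - Ψ x‖ - ‖(1 - cut L x) • Ψ x‖)]
      _ ≤ _ := by linarith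
  have hcφ : MemLp (fun x => cut L x • φ x) 2 volume := by
    refine hφ.mono (((contDiff_cut L).continuous.smul hφc).aestronglyMeasurable)
      (Eventually.of_forall fun x => ?_)
    rw [norm_smul, Real.norm_eq_abs, abs_of_nonneg (cut_nonneg L x)]
    exact mul_le_of_le_one_left (norm_nonneg _) (cut_le_one L x)
  calc ∫ x, ‖cut L x • φ x - Ψ x‖ ^ 2 ≤ ∫ x, (2 * ‖φ x - Ψ x‖ ^ 2 +
      2 * ({y : Cfg N | L / 2 ≤ ‖y‖}.indicator (fun y => ‖Ψ y‖ ^ 2) x)) :=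
        integral_mono (int_sq_memLp (hcφ.sub hΨ)) ((i1.const_mul 2).add (i2.const_mul 2)) h1
    _ = _ := by
        rw [integral_add (i1.const_mul 2) (i2.const_mul 2), integral_const_mul,
          integral_const_mul, integral_indicator (measurableSet_far _)]

/-! ### 5. Quasi-modes -/

/-- **Quasi-modes of `q_{l³,1}` from zero states of `Q^{1,0}`**, in terms of the scale `l`. -/
theorem quasi_l {b : ColorBasis N} {M : FermionRep N F} {R : GaugeAction b M} {G : GammaNine}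
    {Ψ : Cfg N → F} (hΨ : Ψ ∈ zset b M R G 1 0) {ε : ℝ} (hε : 0 < ε) :
    ∃ ρ0 : ℝ, 0 < ρ0 ∧ ∀ ρ : ℝ, 0 < ρ → ρ ≤ ρ0 → ∃ l1 : ℝ, 0 < l1 ∧ ∀ l : ℝ, l1 ≤ l →
      ∃ φ, IsCoreVec b R φ ∧ (∀ x, ρ ≤ ‖x‖ → φ x = 0) ∧
        ∫ x, ‖φ x - Us l Ψ x‖ ^ 2 ≤ ε ∧ qf b M G (l ^ 3) 1 φ ≤ ε := by
  obtain ⟨CM, hCM0, hCM⟩ := exists_mass_bound (N := N) M G
  obtain ⟨C, hC0, hC⟩ := HIAnn245.exists_sT_bound
  have hm : MemLp Ψ 2 volume := hΨ.1
  set P : ℝ := ∫ x, ‖Ψ x‖ ^ 2 with hP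
  have hP0 : 0 ≤ P := integral_nonneg fun x => sq_nonneg _
  set K : ℝ := 18 * CM ^ 2 * (P + 1) with hK
  have hK0 : 0 < K := by positivity
  refine ⟨min 1 (ε / K), by positivity, fun ρ hρ hρ0 => ?_⟩
  have hρK : K * ρ ^ 2 ≤ ε := by
    have h1 : ρ ≤ 1 := hρ0.trans (min_le_left _ _)
    have h2 : ρ ≤ ε / K := hρ0.trans (min_le_right _ _)
    rw [le_div_iff₀ hK0] at h2
    have h3 : K * ρ ^ 2 ≤ K * ρ := by
      refine mul_le_mul_of_nonneg_left ?_ hK0.le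
      nlinarith
    linarith
  set B : ℝ := (8 / 3 * C / ρ) ^ 2 with hB
  have hB0 : 0 ≤ B := sq_nonneg _
  set δ : ℝ := min 1 (ε / (36 * (B + 1))) with hδ
  have hδ0 : 0 < δ := by positivity
  have hδ1 : δ ≤ 1 := min_le_left _ _
  have hδ2 : 36 * (B + 1) * δ ≤ ε := by
    have : δ ≤ ε / (36 * (B + 1)) := min_le_right _ _
    rw [le_div_iff₀ (by positivity)] at this
    linarith
  obtain ⟨r0, hr0, htail⟩ := tail_tendsto hm hδ0
  refine ⟨2 * r0 / ρ, by positivity, fun l hl => ?_⟩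
  have hl0 : 0 < l := lt_of_lt_of_le (by positivity) hl
  set L : ℝ := ρ * l with hL
  have hL0 : 0 < L := by positivity
  have hLr : r0 ≤ L / 2 := by
    rw [div_le_iff₀ hρ] at hl
    rw [hL]; linarith
  have hδl : 0 < min δ (δ / l ^ 2) := by positivity
  obtain ⟨φ, hφ, h1, h2⟩ := zset_approx hΨ hδl
  have h1' : ∫ x, ‖φ x - Ψ x‖ ^ 2 ≤ δ := h1.trans (min_le_left _ _)
  have h2' : qf b M G 1 0 φ ≤ δ / l ^ 2 := h2.trans (min_le_right _ _)
  have hcore := core_cut (R := R) L hφ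
  have htΨ : ∫ x in {y : Cfg N | L / 2 ≤ ‖y‖}, ‖Ψ x‖ ^ 2 ≤ δ := htail _ hLr
  refine ⟨Us l (fun y => cut L y • φ y), core_Us hl0 hcore, fun x hx => ?_, ?_, ?_⟩
  · have : L ≤ ‖l • x‖ := by
      rw [norm_smul, Real.norm_of_nonneg hl0.le, hL, mul_comm]
      gcongr
    show ((nrm N l : ℝ) : ℂ) • (cut L (l • x) • φ (l • x)) = 0
    rw [cut_zero hL0 this, zero_smul, smul_zero]
  · have e : ∀ x, ‖Us l (fun y => cut L y • φ y) x - Us l Ψ x‖ ^ 2 =
        ‖Us l ((fun y => cut L y • φ y) - Ψ) x‖ ^ 2 := fun x => by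
      rw [Us_sub]; rfl
    simp only [e]
    rw [integral_norm_sq_Us hl0]
    have h3 := norm_cut_sub hm (Dict416.cv_memLp hφ) hφ.1.continuous hL0
    simp only [Pi.sub_apply]
    have h4 : 4 * δ ≤ ε := by nlinarith
    linarith
  · rw [qf_Us b M G (l ^ 3) 1 hl0 (cv_diff hcore), div_self (pow_ne_zero 3 hl0.ne')]
    have h3 := qf_cut_le b M (R := R) G hCM0 hCM hC0.le hC hL0
      (show (0 : ℝ) ≤ 1 / l ^ 2 by positivity) hφ
    have h4 : ∫ x in {y : Cfg N | L / 2 ≤ ‖y‖}, ‖φ x‖ ^ 2 ≤ 4 * δ := by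
      have := int_sq_sub_le (s := {y : Cfg N | L / 2 ≤ ‖y‖}) (Dict416.cv_memLp hφ) hm
      linarith
    have h5 : ∫ x, ‖φ x‖ ^ 2 ≤ 2 * (P + 1) := by
      have := int_sq_sub_le (s := Set.univ) (Dict416.cv_memLp hφ) hm
      simp only [setIntegral_univ] at this
      linarith
    have h6 : l ^ 2 * qf b M G 1 (1 / l ^ 2) (fun y => cut L y • φ y) ≤
        l ^ 2 * (3 * (δ / l ^ 2 + (8 / 3 * C / L) ^ 2 * (4 * δ) +
          (1 / l ^ 2 * (CM * L)) ^ 2 * (2 * (P + 1)))) := by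
      refine mul_le_mul_of_nonneg_left (h3.trans ?_) (by positivity)
      gcongr
    have h7 : l ^ 2 * (3 * (δ / l ^ 2 + (8 / 3 * C / L) ^ 2 * (4 * δ) +
          (1 / l ^ 2 * (CM * L)) ^ 2 * (2 * (P + 1)))) =
        3 * δ + 12 * B * δ + 6 * CM ^ 2 * (P + 1) * ρ ^ 2 := by
      rw [hL, hB]
      field_simp
      ring
    rw [h7] at h6
    have h8 : 3 * δ + 12 * B * δ + 6 * CM ^ 2 * (P + 1) * ρ ^ 2 ≤ ε := by
      have h9 : 18 * CM ^ 2 * (P + 1) * ρ ^ 2 ≤ ε := hρK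
      nlinarith
    exact h6.trans h8

theorem cbrt_pow {g : ℝ} (hg : 0 < g) : (g ^ ((1 : ℝ) / 3)) ^ 3 = g := by
  rw [← Real.rpow_natCast, ← Real.rpow_mul hg.le]
  norm_num

theorem le_cbrt {l1 g : ℝ} (hl : 0 < l1) (h : l1 ^ 3 ≤ g) : l1 ≤ g ^ ((1 : ℝ) / 3) := by
  have hg : 0 < g := lt_of_lt_of_le (by positivity) h
  have h1 : l1 ^ 3 ≤ (g ^ ((1 : ℝ) / 3)) ^ 3 := by rwa [cbrt_pow hg]
  exact le_of_pow_le_pow_left₀ (by norm_num) (by positivity) h1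

/-- **Quasi-modes of `q_{g,1}`, `g → ∞`, from zero states of `Q^{1,0}`.** -/
theorem quasi_g {b : ColorBasis N} {M : FermionRep N F} {R : GaugeAction b M} {G : GammaNine}
    {Ψ : Cfg N → F} (hΨ : Ψ ∈ zset b M R G 1 0) {ε : ℝ} (hε : 0 < ε) :
    ∃ ρ0 : ℝ, 0 < ρ0 ∧ ∀ ρ : ℝ, 0 < ρ → ρ ≤ ρ0 → ∃ g1 : ℝ, 0 < g1 ∧ ∀ g : ℝ, g1 ≤ g →
      ∃ φ, IsCoreVec b R φ ∧ (∀ x, ρ ≤ ‖x‖ → φ x = 0) ∧
        ∫ x, ‖φ x - Us (g ^ ((1 : ℝ) / 3)) Ψ x‖ ^ 2 ≤ ε ∧ qf b M G g 1 φ ≤ ε := by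
  obtain ⟨ρ0, hρ0, h⟩ := quasi_l hΨ hε
  refine ⟨ρ0, hρ0, fun ρ h1 h2 => ?_⟩
  obtain ⟨l1, hl1, h3⟩ := h ρ h1 h2
  refine ⟨l1 ^ 3, by positivity, fun g hg => ?_⟩
  have hg0 : 0 < g := lt_of_lt_of_le (by positivity) hg
  obtain ⟨φ, a1, a2, a3, a4⟩ := h3 _ (le_cbrt hl1 hg)
  rw [cbrt_pow hg0] at a4
  exact ⟨φ, a1, a2, a3, a4⟩

theorem exists_lower {κ : Type*} [Finite κ] (r : κ → ℝ) (h : ∀ i, 0 < r i) :
    ∃ r0 : ℝ, 0 < r0 ∧ ∀ i, r0 ≤ r i := by
  cases nonempty_fintype κ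
  by_cases hne : Nonempty κ
  · refine ⟨Finset.univ.inf' Finset.univ_nonempty r, ?_, fun i =>
      Finset.inf'_le r (Finset.mem_univ i)⟩
    exact (Finset.lt_inf'_iff _).2 fun i _ => h i
  · exact ⟨1, one_pos, fun i => (hne ⟨i⟩).elim⟩

theorem exists_upper {κ : Type*} [Finite κ] (r : κ → ℝ) :
    ∃ r1 : ℝ, 0 < r1 ∧ ∀ i, r i ≤ r1 := by
  cases nonempty_fintype κ
  refine ⟨1 + ∑ i, |r i|, by positivity, fun i => ?_⟩
  have h1 : |r i| ≤ ∑ i, |r i| :=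
    Finset.single_le_sum (f := fun i => |r i|) (fun _ _ => abs_nonneg _) (Finset.mem_univ i)
  linarith [le_abs_self (r i)]

/-- the Gram matrix of good approximations of an orthonormal family -/
theorem gram_close {H : Type*} [NormedAddCommGroup H] [InnerProductSpace ℂ H] {κ : Type*}
    [DecidableEq κ] {e w : κ → H} (he : Orthonormal ℂ e) {s : ℝ} (hs0 : 0 ≤ s) (hs1 : s ≤ 1)
    (h : ∀ i, ‖w i - e i‖ ≤ s) (i j : κ) :
    ‖⟪w i, w j⟫_ℂ - (if i = j then 1 else 0)‖ ≤ 3 * s := by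
  have h0 : ⟪e i, e j⟫_ℂ = (if i = j then 1 else 0) := orthonormal_iff_ite.1 he i j
  rw [← h0]
  have e1 : ⟪w i, w j⟫_ℂ - ⟪e i, e j⟫_ℂ = ⟪w i - e i, w j⟫_ℂ + ⟪e i, w j - e j⟫_ℂ := by
    rw [inner_sub_left, inner_sub_right]; ring
  rw [e1]
  have n1 : ‖w j‖ ≤ 1 + s := by
    have : w j = (w j - e j) + e j := by abel
    rw [this]
    refine (norm_add_le _ _).trans ?_
    rw [he.norm_eq_one j]
    linarith [h j]
  have n2 : ‖⟪w i - e i, w j⟫_ℂ‖ ≤ s * (1 + s) :=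
    (norm_inner_le_norm _ _).trans (mul_le_mul (h i) n1 (norm_nonneg _) hs0)
  have n3 : ‖⟪e i, w j - e j⟫_ℂ‖ ≤ 1 * s := by
    refine (norm_inner_le_norm _ _).trans ?_
    rw [he.norm_eq_one i]
    exact mul_le_mul_of_nonneg_left (h j) zero_le_one
  refine (norm_add_le _ _).trans ?_
  nlinarith

/-- **The `b_N` half of D-low**: from `dim ker Q^{1,0} ≥ k`, for large `g`, `k` core vectors
supported in `‖x‖ < ρ` (any small `ρ`), almost orthonormal, with `q_{g,1} ≤ ε`. -/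
theorem quasi_family {b : ColorBasis N} {M : FermionRep N F} {R : GaugeAction b M}
    {G : GammaNine} {k : ℕ} (h : Sec478.DimGe b M R G 1 0 k) {ε : ℝ} (hε : 0 < ε) :
    ∃ ρ0 : ℝ, 0 < ρ0 ∧ ∀ ρ : ℝ, 0 < ρ → ρ ≤ ρ0 → ∃ g1 : ℝ, 0 < g1 ∧ ∀ g : ℝ, g1 ≤ g →
      ∃ w : Fin k → Cfg N → F, (∀ i, IsCoreVec b R (w i)) ∧ (∀ i x, ρ ≤ ‖x‖ → w i x = 0) ∧
        (∀ i j, ‖(∫ x, ⟪w i x, w j x⟫_ℂ) - (if i = j then 1 else 0)‖ ≤ ε) ∧
        ∀ i, qf b M G g 1 (w i) ≤ ε := by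
  obtain ⟨e, he, hek⟩ := Lit416.dimGe_iff.1 h
  have hez : ∀ i, (e i : Cfg N → F) ∈ zset b M R G 1 0 := by
    intro i
    have h1 := hek i
    rw [← Dict416.zker_eq] at h1
    exact mem_zker.1 h1
  set s : ℝ := min 1 (ε / 3) with hs
  have hs0 : 0 < s := by positivity
  have hs1 : s ≤ 1 := min_le_left _ _
  have hs3 : 3 * s ≤ ε := by
    have : s ≤ ε / 3 := min_le_right _ _
    linarith
  have hε' : 0 < min ε (s ^ 2) := by positivity
  choose r hr0 hr using fun i => quasi_g (hez i) hε'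
  obtain ⟨ρ0, hρ0, hρr⟩ := exists_lower r hr0
  refine ⟨ρ0, hρ0, fun ρ h1 h2 => ?_⟩
  choose gg hgg hg using fun i => hr i ρ h1 (h2.trans (hρr i))
  obtain ⟨g1, hg1, hgg1⟩ := exists_upper gg
  refine ⟨g1, hg1, fun g hgg' => ?_⟩
  choose w hw1 hw2 hw3 hw4 using fun i => hg i g ((hgg1 i).trans hgg')
  have hg0 : 0 < g := lt_of_lt_of_le hg1 hgg'
  have hl0 : 0 < g ^ ((1 : ℝ) / 3) := Real.rpow_pos_of_pos hg0 _
  refine ⟨w, hw1, hw2, fun i j => ?_, fun i => (hw4 i).trans (min_le_left _ _)⟩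
  have hE : Orthonormal ℂ fun i => UsLp N F _ hl0 (e i) :=
    he.comp_linearIsometry (UsLp N F _ hl0).toLinearIsometry
  have hclose : ∀ i, ‖(Dict416.cv_memLp (hw1 i)).toLp (w i) - UsLp N F _ hl0 (e i)‖ ≤ s := by
    intro i
    have hmm : MemLp (w i - Us (g ^ ((1 : ℝ) / 3)) (e i : Cfg N → F)) 2 volume :=
      (Dict416.cv_memLp (hw1 i)).sub (Us_memLp hl0 (Lp.memLp (e i)))
    have e1 : (Dict416.cv_memLp (hw1 i)).toLp (w i) - UsLp N F _ hl0 (e i) =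
        hmm.toLp _ := by
      rw [MemLp.toLp_sub (Dict416.cv_memLp (hw1 i)) (Us_memLp hl0 (Lp.memLp (e i)))]
      rfl
    have e2 : ‖(Dict416.cv_memLp (hw1 i)).toLp (w i) - UsLp N F _ hl0 (e i)‖ ^ 2 ≤ s ^ 2 := by
      rw [e1, Dict416.norm_toLp_sq hmm]
      exact (hw3 i).trans (min_le_right _ _)
    exact le_of_sq_le_sq e2 hs0.le |>.trans le_rfl
  have h5 := gram_close hE hs0.le hs1 hclose i j
  rw [Dict416.inner_toLp] at h5
  exact h5.trans hs3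


/-! ### 6. `U_l Ψ` concentrates at the origin -/




end Crest.Agent.R330.QM0363
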