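import Mathlib
import Crest.Agent.R330.TrialSys_796
import Crest.Agent.R330.QM0_363
import Crest.Agent.R330.Rellich_893
import Crest.Agent.R330.WSLit_596
import Crest.Agent.R330.WeitzY_726
import Crest.Agent.R330.Brid_837

-- ▼ part R330/Lsc_441
section

/-! Row 330, section 9/11 (helper441): abstract Hilbert space lemmas.

* `exists_limit`, `lsc` : lower semicontinuity by duality along an ultrafilter
  (uses only: trial operators asymptotically contractive, weak decoupling).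
* `resolvent_trick` : a vector whose supercharges are `small + weakly decoupled` is close to a
  core vector of small energy (no corrected quasi-modes). -/

set_option autoImplicit false

open Filter Topology
open scoped InnerProductSpace

namespace Crest.Agent.R330.Lsc441

section LSC

variable {ι : Type*} {H H' V : Type*} [NormedAddCommGroup H] [InnerProductSpace ℂ H]
  [NormedAddCommGroup H'] [InnerProductSpace ℂ H'] [CompleteSpace H']
  [AddCommGroup V] [Module ℂ V]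

/-- Bounded families of complex numbers converge along an ultrafilter. -/
theorem exists_lim_of_bdd (U : Ultrafilter ι) (z : ι → ℂ) (C : ℝ)
    (h : ∀ᶠ j in (U : Filter ι), ‖z j‖ ≤ C) :
    ∃ L : ℂ, ‖L‖ ≤ C ∧ Tendsto z (U : Filter ι) (𝓝 L) := by
  have hc : IsCompact (Metric.closedBall (0 : ℂ) C) := isCompact_closedBall 0 C
  have hle : ((U.map z : Ultrafilter ℂ) : Filter ℂ) ≤ 𝓟 (Metric.closedBall (0 : ℂ) C) := by
    rw [Ultrafilter.coe_map, le_principal_iff]
    exact mem_map.2 (h.mono fun j hj => by simpa [dist_zero_right] using hj)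
  obtain ⟨L, hL, hL'⟩ := hc.ultrafilter_le_nhds (U.map z) hle
  exact ⟨L, by simpa [dist_zero_right] using hL, hL'⟩

theorem exists_lim_of_bdd_real (U : Ultrafilter ι) (z : ι → ℝ) (C : ℝ)
    (h : ∀ᶠ j in (U : Filter ι), |z j| ≤ C) :
    ∃ L : ℝ, Tendsto z (U : Filter ι) (𝓝 L) := by
  have hc : IsCompact (Metric.closedBall (0 : ℝ) C) := isCompact_closedBall 0 C
  have hle : ((U.map z : Ultrafilter ℝ) : Filter ℝ) ≤ 𝓟 (Metric.closedBall (0 : ℝ) C) := by
    rw [Ultrafilter.coe_map, le_principal_iff]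
    exact mem_map.2 (h.mono fun j hj => by simpa [dist_zero_right] using hj)
  obtain ⟨L, hL, hL'⟩ := hc.ultrafilter_le_nhds (U.map z) hle
  exact ⟨L, hL'⟩

/-- Weak limit amplitude along an ultrafilter. `J` embeds test vectors in the limit space, `T j`
are asymptotically contractive trial operators. -/
theorem exists_limit (U : Ultrafilter ι) (J : V →ₗ[ℂ] H') (T : ι → V →ₗ[ℂ] H)
    (hT : ∀ χ : V, ∀ ε : ℝ, 0 < ε → ∀ᶠ j in (U : Filter ι), ‖T j χ‖ ≤ ‖J χ‖ + ε)
    (φ : ι → H) (C : ℝ) (hφ : ∀ᶠ j in (U : Filter ι), ‖φ j‖ ≤ C) :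
    ∃ f : H', f ∈ (LinearMap.range J).topologicalClosure ∧
      (∀ χ, Tendsto (fun j => ⟪φ j, T j χ⟫_ℂ) (U : Filter ι) (𝓝 ⟪f, J χ⟫_ℂ)) ∧
      ∀ ℓ : ℝ, Tendsto (fun j => ‖φ j‖) (U : Filter ι) (𝓝 ℓ) → ‖f‖ ≤ ℓ := by
  classical
  have hNB : (U : Filter ι).NeBot := U.neBot
  -- the limit of norms
  obtain ⟨ℓ₀, hℓ₀⟩ := exists_lim_of_bdd_real U (fun j => ‖φ j‖) C
    (hφ.mono fun j hj => by simpa [abs_of_nonneg (norm_nonneg _)] using hj)
  have hℓ₀0 : 0 ≤ ℓ₀ := ge_of_tendsto' hℓ₀ fun j => norm_nonneg _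
  -- the functional
  have hC0 : ∀ χ, ∃ L : ℂ, ‖L‖ ≤ ℓ₀ * ‖J χ‖ ∧
      Tendsto (fun j => ⟪φ j, T j χ⟫_ℂ) (U : Filter ι) (𝓝 L) := by
    intro χ
    have hb : ∀ᶠ j in (U : Filter ι), ‖⟪φ j, T j χ⟫_ℂ‖ ≤ C * (‖J χ‖ + 1) := by
      filter_upwards [hφ, hT χ 1 one_pos] with j h1 h2
      calc ‖⟪φ j, T j χ⟫_ℂ‖ ≤ ‖φ j‖ * ‖T j χ‖ := norm_inner_le_norm _ _
        _ ≤ C * (‖J χ‖ + 1) := by
          apply mul_le_mul h1 h2 (norm_nonneg _) (le_trans (norm_nonneg _) h1)
    obtain ⟨L, -, hL⟩ := exists_lim_of_bdd U _ _ hb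
    refine ⟨L, ?_, hL⟩
    have hstep : ∀ ε : ℝ, 0 < ε → ‖L‖ ≤ ℓ₀ * (‖J χ‖ + ε) := by
      intro ε hε
      have h1 : Tendsto (fun j => ‖⟪φ j, T j χ⟫_ℂ‖) (U : Filter ι) (𝓝 ‖L‖) := hL.norm
      have h2 : Tendsto (fun j => ‖φ j‖ * (‖J χ‖ + ε)) (U : Filter ι) (𝓝 (ℓ₀ * (‖J χ‖ + ε))) :=
        hℓ₀.mul_const _
      refine le_of_tendsto_of_tendsto h1 h2 ?_
      filter_upwards [hT χ ε hε] with j hj
      exact (norm_inner_le_norm _ _).trans (mul_le_mul_of_nonneg_left hj (norm_nonneg _))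
    have h3 : Tendsto (fun ε : ℝ => ℓ₀ * (‖J χ‖ + ε)) (𝓝[>] 0) (𝓝 (ℓ₀ * (‖J χ‖ + 0))) := by
      apply Tendsto.mono_left _ nhdsWithin_le_nhds
      exact (continuous_const.mul (continuous_const.add continuous_id)).tendsto 0
    have h4 := ge_of_tendsto h3 (eventually_mem_nhdsWithin.mono fun ε hε => hstep ε hε)
    simpa using h4
  choose L hLn hLt using hC0
  have hLadd : ∀ χ ψ, L (χ + ψ) = L χ + L ψ := by
    intro χ ψ
    refine tendsto_nhds_unique (hLt (χ + ψ)) ?_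
    have := (hLt χ).add (hLt ψ)
    refine this.congr fun j => ?_
    rw [map_add, inner_add_right]
  have hLsmul : ∀ (c : ℂ) χ, L (c • χ) = c * L χ := by
    intro c χ
    refine tendsto_nhds_unique (hLt (c • χ)) ?_
    have := (hLt χ).const_mul c
    refine this.congr fun j => ?_
    rw [map_smul, inner_smul_right]
  let Lv : V →ₗ[ℂ] ℂ :=
    { toFun := L
      map_add' := hLadd
      map_smul' := fun c χ => by simpa using hLsmul c χ }
  have hker : LinearMap.ker J ≤ LinearMap.ker Lv := by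
    intro χ hχ
    rw [LinearMap.mem_ker] at hχ ⊢
    have : ‖L χ‖ ≤ 0 := by simpa [hχ] using hLn χ
    exact norm_le_zero_iff.1 this
  -- functional on the range
  let p : Submodule ℂ H' := LinearMap.range J
  have hex : ∀ y : p, ∃ χ, J χ = y := fun y => y.2
  choose s hs using hex
  have hLs : ∀ χ χ', J χ = J χ' → L χ = L χ' := by
    intro χ χ' h
    have h1 : χ - χ' ∈ LinearMap.ker J := by
      rw [LinearMap.mem_ker, map_sub, h, sub_self]
    have h2 := hker h1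
    rw [LinearMap.mem_ker] at h2
    have h3 : Lv χ - Lv χ' = 0 := by rw [← map_sub]; exact h2
    exact sub_eq_zero.1 h3
  let g₀ : p →ₗ[ℂ] ℂ :=
    { toFun := fun y => L (s y)
      map_add' := fun y z => by
        rw [← hLadd]
        apply hLs
        rw [hs, map_add, hs, hs]; rfl
      map_smul' := fun c y => by
        rw [RingHom.id_apply, smul_eq_mul, ← hLsmul]
        apply hLs
        rw [hs, map_smul, hs]; rfl }
  let g : p →L[ℂ] ℂ := LinearMap.mkContinuous g₀ ℓ₀ (fun y => by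
    have := hLn (s y)
    rw [hs] at this
    exact this)
  obtain ⟨G, hG, hGn⟩ := exists_extension_norm_eq p g
  have hGn' : ‖G‖ ≤ ℓ₀ := by
    rw [hGn]; exact LinearMap.mkContinuous_norm_le _ hℓ₀0 _
  let f₀ : H' := (InnerProductSpace.toDual ℂ H').symm G
  have hf₀ : ∀ y : H', ⟪f₀, y⟫_ℂ = G y := fun y => InnerProductSpace.toDual_symm_apply
  let K : Submodule ℂ H' := p.topologicalClosure
  have hKc : IsClosed (K : Set H') := p.isClosed_topologicalClosure
  haveI : CompleteSpace K := hKc.completeSpace_coe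
  let f : H' := K.starProjection f₀
  have hfK : f ∈ K := Submodule.starProjection_apply_mem K f₀
  have hfin : ∀ y ∈ K, ⟪f, y⟫_ℂ = ⟪f₀, y⟫_ℂ := by
    intro y hy
    have h := Submodule.starProjection_inner_eq_zero (K := K) f₀ y hy
    rw [inner_sub_left, sub_eq_zero] at h
    exact h.symm
  have hfn : ‖f‖ ≤ ℓ₀ := by
    calc ‖f‖ ≤ ‖f₀‖ := by
          exact Submodule.norm_starProjection_apply_le K f₀
      _ = ‖G‖ := by simp [f₀]
      _ ≤ ℓ₀ := hGn'
  refine ⟨f, hfK, ?_, ?_⟩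
  · intro χ
    have hmem : J χ ∈ p := ⟨χ, rfl⟩
    have h1 : ⟪f, J χ⟫_ℂ = L χ := by
      rw [hfin _ (p.le_topologicalClosure hmem), hf₀]
      have := hG ⟨J χ, hmem⟩
      rw [this]
      exact hLs _ _ (hs ⟨J χ, hmem⟩)
    rw [h1]; exact hLt χ
  · intro ℓ hℓ
    have : ℓ = ℓ₀ := tendsto_nhds_unique hℓ hℓ₀
    rw [this]; exact hfn


end LSC

section Resolvent

variable {H : Type*} [NormedAddCommGroup H] [InnerProductSpace ℂ H]
  {D : Type*} [AddCommGroup D] [Module ℂ D] {κ : Type*} [Fintype κ]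

/-- the form `q(φ) = (1/n) Σ ‖Q_a φ‖²` -/
noncomputable def qf (n : ℝ) (j : D →ₗ[ℂ] H) (Q : κ → D →ₗ[ℂ] D) (φ : D) : ℝ :=
  (1 / n) * ∑ a, ‖j (Q a φ)‖ ^ 2



end Resolvent

end Crest.Agent.R330.Lsc441
end

-- ▼ part R330/CapZA_818

/-!
# Row 330, leaf S9-CAPZ, part A (helper818): no mass at the scale of the bound state

* `grad_le` : gradient bound from the energy identity.
* `qf_cut0` : `q_{1,0}(cut L v) ≤ 2 q_{1,m}(v) + K ‖v‖²`.
* `local_zero` : `v_j` core, `q_{1,m_j}(v_j) → 0`, `m_j → 0`, `⟨ψ, v_j⟩ → 0` for all zero states `ψ`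
  of `Q^{1,0}` ⟹ `∫_{‖x‖ ≤ r} ‖v_j‖² → 0`.
-/

set_option autoImplicit false
set_option linter.unusedSectionVars false

open MeasureTheory Filter Topology Crest.MathPhysics.MatrixQM
open scoped ContDiff InnerProductSpace ENNReal

noncomputable section

namespace Crest.Agent.R330.CapZA818

open Crest.Agent.R330.Defs478 Crest.Agent.R330.QM0363 Crest.Agent.R330.Dict416

variable {N : ℕ} {F : Type*} [NormedAddCommGroup F] [InnerProductSpace ℂ F]
  [FiniteDimensional ℂ F] {b : ColorBasis N} {M : FermionRep N F} {R : GaugeAction b M}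
  {G : GammaNine}

theorem qf_nonneg' (b : ColorBasis N) (M : FermionRep N F) (G : GammaNine) (g m : ℝ)
    (φ : Cfg N → F) : 0 ≤ qf b M G g m φ :=
  mul_nonneg (by norm_num) (Finset.sum_nonneg fun _ _ => integral_nonneg fun _ => sq_nonneg _)

/-- gradient bound -/
theorem grad_le (b : ColorBasis N) (M : FermionRep N F) (G : GammaNine) :
    ∃ C : ℝ, 0 ≤ C ∧ ∀ L : ℝ, 0 < L → ∀ φ : Cfg N → F, ContDiff ℝ ∞ φ → HasCompactSupport φ →
      (∀ x, L ≤ ‖x‖ → φ x = 0) →
      ∫ x, ∑ k : Fin 9 × Fin (N ^ 2 - 1), ‖fderiv ℝ φ x (EuclideanSpace.single k 1)‖ ^ 2 ≤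
        2 * qf b M G 1 0 φ + C * L * ∫ x, ‖φ x‖ ^ 2 := by
  obtain ⟨C, hC0, hC⟩ := Weitz726.Yop_bound b M G
  refine ⟨2 * C, by positivity, fun L hL φ hs hc hz => ?_⟩
  have hE := Weitz726.energy_super b M G (hs.of_le (by norm_cast)) hc
  have hi : ∀ k : Fin 9 × Fin (N ^ 2 - 1), Integrable fun x =>
      ‖fderiv ℝ φ x (EuclideanSpace.single k 1)‖ ^ 2 := by
    intro k
    have h1 : Continuous fun x => fderiv ℝ φ x (EuclideanSpace.single k (1 : ℝ)) :=
      IBP837.fderiv_apply_continuous (hs.of_le (by norm_cast)) _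
    have h2 : Continuous fun x => ‖fderiv ℝ φ x (EuclideanSpace.single k (1 : ℝ))‖ ^ 2 :=
      h1.norm.pow 2
    have h3 : HasCompactSupport fun x => fderiv ℝ φ x (EuclideanSpace.single k (1 : ℝ)) :=
      IBP837.hasCompactSupport_fderiv_apply hc _
    exact h2.integrable_of_hasCompactSupport
      (h3.comp_left (g := fun v : F => ‖v‖ ^ 2) (by simp))
  rw [integral_finsetSum _ fun k _ => hi k]
  have hq : qf b M G 1 0 φ = (1 / 16 : ℝ) * ∑ α, ∫ x, ‖supercharge b M G α φ x‖ ^ 2 := by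
    unfold qf
    congr 1
    refine Finset.sum_congr rfl fun α _ => ?_
    refine integral_congr_ae (Eventually.of_forall fun x => ?_)
    simp only
    rw [dcharge_one_zero]
  have hpot : 0 ≤ ∫ x : Cfg N, Bar186.pot b x * ‖φ x‖ ^ 2 := by
    refine integral_nonneg fun x => mul_nonneg ?_ (sq_nonneg _)
    unfold Bar186.pot
    positivity
  have hY : |∫ x, (⟪φ x, Weitz726.Yop b M G x (φ x)⟫_ℂ).re| ≤ C * L * ∫ x, ‖φ x‖ ^ 2 := by
    rw [← integral_const_mul, ← Real.norm_eq_abs]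
    have hI : Integrable fun x => ‖φ x‖ ^ 2 := by
      have h2 : Continuous fun x => ‖φ x‖ ^ 2 := hs.continuous.norm.pow 2
      exact h2.integrable_of_hasCompactSupport
        (hc.comp_left (g := fun v : F => ‖v‖ ^ 2) (by simp))
    refine norm_integral_le_of_norm_le (hI.const_mul _) ?_
    refine Eventually.of_forall fun x => ?_
    rw [Real.norm_eq_abs]
    refine (Complex.abs_re_le_norm _).trans ((norm_inner_le_norm _ _).trans ?_)
    by_cases hx : L ≤ ‖x‖
    · rw [hz x hx, norm_zero, zero_mul]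
      positivity
    · push Not at hx
      have h1 := hC x (φ x)
      have h2 : C * ‖x‖ * ‖φ x‖ ≤ C * L * ‖φ x‖ := by gcongr
      calc ‖φ x‖ * ‖Weitz726.Yop b M G x (φ x)‖ ≤ ‖φ x‖ * (C * L * ‖φ x‖) :=
            mul_le_mul_of_nonneg_left (h1.trans h2) (norm_nonneg _)
        _ = C * L * ‖φ x‖ ^ 2 := by ring
  have hY' := (abs_le.1 hY).1
  rw [hq]
  linarith

/-- the cut-off, from `q_{1,m}` to `q_{1,0}` -/
theorem qf_cut0 (b : ColorBasis N) (M : FermionRep N F) {R : GaugeAction b M} (G : GammaNine)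
    {CM : ℝ} (hCM0 : 0 < CM)
    (hCM : ∀ (α : Fin 16) (x : Cfg N) (v : F), ‖massT M G α x v‖ ≤ CM * ‖x‖ * ‖v‖)
    {C : ℝ} (hC0 : 0 ≤ C) (hC : ∀ t, |deriv Real.smoothTransition t| ≤ C) {L m : ℝ}
    (hL : 0 < L) (hm : 0 ≤ m) (hm1 : m ≤ 1) {v : Cfg N → F} (hv : IsCoreVec b R v) :
    qf b M G 1 0 (fun y => cut L y • v y) ≤
      2 * qf b M G 1 m v + 2 * (CM * L + 8 / 3 * C / L) ^ 2 * ∫ x, ‖v x‖ ^ 2 := by
  set K : ℝ := CM * L + 8 / 3 * C / L with hK
  have hK0 : 0 ≤ K := by positivity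
  have hp : ∀ (α : Fin 16) (x : Cfg N), ‖dcharge b M G 1 0 α (fun y => cut L y • v y) x‖ ^ 2 ≤
      2 * ‖dcharge b M G 1 m α v x‖ ^ 2 + 2 * K ^ 2 * ‖v x‖ ^ 2 := by
    intro α x
    have hcd : DifferentiableAt ℝ (cut (N := N) L) x :=
      (contDiff_cut L).differentiable (by simp) x
    have e1 : dcharge b M G 1 0 α (fun y => cut L y • v y) x =
        cut L x • dcharge b M G 1 m α v x + (cut L x • ((m : ℂ) • massT M G α x (v x)) +
          Ims714.kin G M α (Ims714.grad (cut L) x) (v x)) := by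
      rw [dop_zero G M b α hcd (cv_diff hv x), dcharge_sub_mass b M G 1 m α v x, smul_sub]
      abel
    have n1 : ‖cut L x • dcharge b M G 1 m α v x‖ ≤ ‖dcharge b M G 1 m α v x‖ := by
      rw [norm_smul, Real.norm_eq_abs, abs_of_nonneg (cut_nonneg L x)]
      exact mul_le_of_le_one_left (norm_nonneg _) (cut_le_one L x)
    have n2 : ‖cut L x • ((m : ℂ) • massT M G α x (v x))‖ ≤ CM * L * ‖v x‖ := by
      by_cases hx : L ≤ ‖x‖
      · rw [cut_zero hL hx, zero_smul, norm_zero]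
        positivity
      · push Not at hx
        rw [norm_smul, Real.norm_eq_abs, abs_of_nonneg (cut_nonneg L x), norm_smul,
          Complex.norm_real, Real.norm_of_nonneg hm]
        have h1 := hCM α x (v x)
        have h2 : CM * ‖x‖ * ‖v x‖ ≤ CM * L * ‖v x‖ := by gcongr
        calc cut L x * (m * ‖massT M G α x (v x)‖) ≤ 1 * (1 * (CM * L * ‖v x‖)) := by
              gcongr
              · exact cut_le_one L x
              · exact h1.trans h2
          _ = CM * L * ‖v x‖ := by ring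
    have n3 : ‖Ims714.kin G M α (Ims714.grad (cut L) x) (v x)‖ ≤ 8 / 3 * C / L * ‖v x‖ :=
      (Ims714.norm_kin_le G M α (Ims714.grad (cut L) x) (v x)).trans
        (mul_le_mul_of_nonneg_right (norm_grad_cut hL hC0 hC x) (norm_nonneg _))
    have h5 : ‖dcharge b M G 1 0 α (fun y => cut L y • v y) x‖ ≤
        ‖dcharge b M G 1 m α v x‖ + K * ‖v x‖ := by
      rw [e1]
      refine (norm_add_le _ _).trans (add_le_add n1 ((norm_add_le _ _).trans ?_))
      rw [hK, add_mul]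
      exact add_le_add n2 n3
    calc ‖dcharge b M G 1 0 α (fun y => cut L y • v y) x‖ ^ 2
        ≤ (‖dcharge b M G 1 m α v x‖ + K * ‖v x‖) ^ 2 := by gcongr
      _ ≤ 2 * ‖dcharge b M G 1 m α v x‖ ^ 2 + 2 * K ^ 2 * ‖v x‖ ^ 2 := by
          nlinarith [sq_nonneg (‖dcharge b M G 1 m α v x‖ - K * ‖v x‖)]
  have h1 : ∀ α : Fin 16, ∫ x, ‖dcharge b M G 1 0 α (fun y => cut L y • v y) x‖ ^ 2 ≤
      2 * (∫ x, ‖dcharge b M G 1 m α v x‖ ^ 2) + 2 * K ^ 2 * ∫ x, ‖v x‖ ^ 2 := by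
    intro α
    have hI1 : Integrable fun x => 2 * ‖dcharge b M G 1 m α v x‖ ^ 2 :=
      (int_sq_dcharge G 1 m α hv).const_mul _
    have hI2 : Integrable fun x => 2 * K ^ 2 * ‖v x‖ ^ 2 := (int_sq hv).const_mul _
    rw [← integral_const_mul, ← integral_const_mul, ← integral_add hI1 hI2]
    exact integral_mono (int_sq_dcharge G 1 0 α (core_cut L hv)) (hI1.add hI2) (hp α)
  unfold qf
  calc (1 / 16 : ℝ) * ∑ α : Fin 16, ∫ x, ‖dcharge b M G 1 0 α (fun y => cut L y • v y) x‖ ^ 2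
      ≤ (1 / 16 : ℝ) * ∑ α : Fin 16, (2 * (∫ x, ‖dcharge b M G 1 m α v x‖ ^ 2) +
        2 * K ^ 2 * ∫ x, ‖v x‖ ^ 2) :=
        mul_le_mul_of_nonneg_left (Finset.sum_le_sum fun α _ => h1 α) (by norm_num)
    _ = _ := by
        rw [Finset.sum_add_distrib, ← Finset.mul_sum]
        simp only [Finset.sum_const, Finset.card_univ, Fintype.card_fin, nsmul_eq_mul]
        push_cast
        ring

/-- one subsequence -/
theorem local_sub {u : ℕ → Cfg N → F} {m : ℕ → ℝ} {C : ℝ} (hv : ∀ j, IsCoreVec b R (u j))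
    (hm0 : ∀ j, 0 ≤ m j) (hm1 : ∀ j, m j ≤ 1) (hm : Tendsto m atTop (𝓝 0))
    (hC : ∀ j, ∫ x, ‖u j x‖ ^ 2 ≤ C)
    (hq : Tendsto (fun j => qf b M G 1 (m j) (u j)) atTop (𝓝 0))
    (ho : ∀ ψ ∈ zset b M R G 1 0, Tendsto (fun j => ∫ x, ⟪ψ x, u j x⟫_ℂ) atTop (𝓝 0)) (r : ℝ) :
    ∃ ms : ℕ → ℕ, Tendsto (fun j => ∫ x in {x : Cfg N | ‖x‖ ≤ r}, ‖u (ms j) x‖ ^ 2) atTop
      (𝓝 0) := by
  classical
  obtain ⟨CM, hCM0, hCM⟩ := exists_mass_bound M G
  obtain ⟨C1, hC1p, hC1'⟩ := HIAnn245.exists_sT_bound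
  have hC1 : 0 ≤ C1 := hC1p.le
  obtain ⟨CY, hCY0, hCY⟩ := grad_le b M G
  have hCnn : 0 ≤ C := (integral_nonneg fun x => sq_nonneg _).trans (hC 0)
  obtain ⟨Q, hQ⟩ := hq.bddAbove_range
  have hQ' : ∀ j, qf b M G 1 (m j) (u j) ≤ Q := fun j => hQ ⟨j, rfl⟩
  have hQ0 : 0 ≤ Q := (qf_nonneg' b M G _ _ _).trans (hQ' 0)
  set L : ℝ := 2 * (|r| + 1) with hL
  have hL0 : 0 < L := by positivity
  set w : ℕ → Cfg N → F := fun n x => cut L x • u n x with hw
  have hwc : ∀ n, IsCoreVec b R (w n) := fun n => core_cut L (hv n)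
  have hw2 : ∀ n, ∫ x, ‖w n x‖ ^ 2 ≤ C := by
    intro n
    refine le_trans (integral_mono (int_sq (hwc n)) (int_sq (hv n)) fun x => ?_) (hC n)
    show ‖cut L x • u n x‖ ^ 2 ≤ ‖u n x‖ ^ 2
    rw [norm_smul, Real.norm_eq_abs, abs_of_nonneg (cut_nonneg L x)]
    have h1 : cut L x * ‖u n x‖ ≤ ‖u n x‖ :=
      mul_le_of_le_one_left (norm_nonneg _) (cut_le_one L x)
    have h2 : 0 ≤ cut L x * ‖u n x‖ := mul_nonneg (cut_nonneg L x) (norm_nonneg _)
    gcongr
  set K : ℝ := 2 * (CM * L + 8 / 3 * C1 / L) ^ 2 with hK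
  have hK0 : 0 ≤ K := by positivity
  set D : ℝ := max C (2 * (2 * Q + K * C) + CY * L * C) with hD
  obtain ⟨Ψ, k, hΨ, hk, hloc⟩ := Rel893.rellich_local (φ := w) (C := D)
    (fun n => (hwc n).1) (fun n => (hwc n).2.1) (fun n => (hw2 n).trans (le_max_left _ _))
    (fun n => by
      refine le_trans ?_ (le_max_right _ _)
      refine (hCY L hL0 (w n) (hwc n).1 (hwc n).2.1 (fun x hx => by
        show cut L x • u n x = 0
        rw [cut_zero hL0 hx, zero_smul])).trans ?_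
      have h1 := qf_cut0 b M (R := R) G hCM0 hCM hC1 hC1' hL0 (hm0 n) (hm1 n) (hv n)
      have h2 := hw2 n
      have h3 := hQ' n
      have h4 := hC n
      have h5 : K * ∫ x, ‖u n x‖ ^ 2 ≤ K * C := mul_le_mul_of_nonneg_left h4 hK0
      have h6 : CY * L * ∫ x, ‖w n x‖ ^ 2 ≤ CY * L * C :=
        mul_le_mul_of_nonneg_left h2 (by positivity)
      have h7 : qf b M G 1 0 (w n) ≤ 2 * qf b M G 1 (m n) (u n) + K * ∫ x, ‖u n x‖ ^ 2 := h1
      linarith)
  refine ⟨k, ?_⟩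
  -- the weak limit
  set U : Ultrafilter ℕ := hyperfilter ℕ with hU
  have hUa : (U : Filter ℕ) ≤ atTop := Nat.hyperfilter_le_atTop
  have hNB : (U : Filter ℕ).NeBot := U.neBot
  set φ : ℕ → L2 N F := fun n => (cv_memLp (hv (k n))).toLp (u (k n)) with hφ
  have hφn : ∀ n, ‖φ n‖ ^ 2 ≤ C := fun n => by
    rw [norm_toLp_sq]
    exact hC _
  have hφs : ∀ n, ‖φ n‖ ≤ Real.sqrt C := fun n => Real.le_sqrt_of_sq_le (hφn n)
  obtain ⟨f, -, hf, -⟩ := Lsc441.exists_limit U (LinearMap.id : L2 N F →ₗ[ℂ] L2 N F)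
    (fun _ => LinearMap.id) (fun χ ε hε => Eventually.of_forall fun j => by
      simp only [LinearMap.id_apply]
      linarith) φ (Real.sqrt C) (Eventually.of_forall hφs)
  simp only [LinearMap.id_apply] at hf
  -- `f` is in the closure of the core
  have hfK : f ∈ (LinearMap.range (ιC R)).topologicalClosure := by
    rw [← Submodule.orthogonal_orthogonal_eq_closure, Submodule.mem_orthogonal']
    intro χ hχ
    have h1 : ∀ n, ⟪φ n, χ⟫_ℂ = 0 := fun n => by
      have h2 : φ n ∈ LinearMap.range (ιC R) := ⟨⟨u (k n), hv (k n)⟩, rfl⟩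
      exact (Submodule.mem_orthogonal _ _).1 hχ _ h2
    have h3 := hf χ
    simp only [h1] at h3
    exact tendsto_nhds_unique h3 tendsto_const_nhds
  obtain ⟨s, hs1, hs2⟩ := mem_closure_iff_seq_limit.1 (by
    rwa [← Submodule.topologicalClosure_coe, SetLike.mem_coe] :
      f ∈ closure ((LinearMap.range (ιC R) : Submodule ℂ (L2 N F)) : Set (L2 N F)))
  choose p hp using hs1
  have hfinv : WSLit596.InvAE R (f : Cfg N → F) := by
    refine WSLit596.InvAE.of_tendsto (φ := fun n => (p n).1)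
      (fun n => cv_aesm (p n).2) (fun n => WSLit596.InvAE.of_core (p n).2) (Lp.aestronglyMeasurable f) ?_
    refine (tendsto_toLp_iff (fun n => cv_memLp (p n).2) (Lp.memLp f)).1 ?_
    rw [Lp.toLp_coeFn]
    refine hs2.congr fun n => ?_
    rw [← hp n]
    rfl
  -- the weak equation
  have hfw : ∀ α, ∀ ψ, IsCoreVec b R ψ →
      ∫ x, ⟪(f : Cfg N → F) x, dcharge b M G 1 0 α ψ x⟫_ℂ = 0 := by
    intro α ψ hψ
    set q0 : L2 N F := (cv_memLp_dcharge G 1 0 α hψ).toLp _ with hq0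
    have hint : ∫ x, ⟪(f : Cfg N → F) x, dcharge b M G 1 0 α ψ x⟫_ℂ = ⟪f, q0⟫_ℂ := by
      rw [hq0, ← inner_toLp (Lp.memLp f) (cv_memLp_dcharge G 1 0 α hψ), Lp.toLp_coeFn]
    rw [hint]
    refine tendsto_nhds_unique (hf q0) ?_
    refine Tendsto.mono_left ?_ hUa
    -- bound of the pairing
    set B : ℝ := Real.sqrt (∫ x, ‖massT M G α x (ψ x)‖ ^ 2) with hB
    set A : ℝ := ‖((cv_memLp hψ).toLp ψ : L2 N F)‖ with hA
    have hbd : ∀ n, ‖⟪φ n, q0⟫_ℂ‖ ≤
        Real.sqrt (16 * qf b M G 1 (m (k n)) (u (k n))) * A + Real.sqrt C * (m (k n) * B) := by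
      intro n
      set mm : ℝ := m (k n) with hmm
      set qm : L2 N F := (cv_memLp_dcharge G 1 mm α hψ).toLp _ with hqm
      set du : L2 N F := (cv_memLp_dcharge G 1 mm α (hv (k n))).toLp _ with hdu
      have e1 : ⟪φ n, qm⟫_ℂ = ⟪du, ((cv_memLp hψ).toLp ψ : L2 N F)⟫_ℂ := by
        rw [hφ, hqm, hdu, inner_toLp, inner_toLp]
        exact (Brid837.dcharge_symm ((hv (k n)).1.of_le (by norm_cast)) (hψ.1.of_le (by norm_cast))
          (Or.inr hψ.2.1)).symm
      have e2 : ‖du‖ ≤ Real.sqrt (16 * qf b M G 1 mm (u (k n))) := by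
        refine Real.le_sqrt_of_sq_le ?_
        rw [hdu, norm_toLp_sq]
        unfold qf
        have h1 := Finset.single_le_sum (s := Finset.univ)
          (f := fun α : Fin 16 => ∫ x, ‖dcharge b M G 1 mm α (u (k n)) x‖ ^ 2)
          (fun α _ => integral_nonneg fun x => sq_nonneg _) (Finset.mem_univ α)
        linarith
      have e3 : ‖q0 - qm‖ = mm * B := by
        have h1 : ‖q0 - qm‖ ^ 2 = (mm * B) ^ 2 := by
          rw [hq0, hqm, ← MemLp.toLp_sub, norm_toLp_sq, mul_pow, hB,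
            Real.sq_sqrt (integral_nonneg fun x => sq_nonneg _), ← integral_const_mul]
          refine integral_congr_ae (Eventually.of_forall fun x => ?_)
          simp only [Pi.sub_apply]
          rw [dcharge_sub_mass b M G 1 mm α ψ x, sub_sub_cancel, norm_smul, mul_pow,
            Complex.norm_real, Real.norm_of_nonneg (hm0 _)]
        exact (sq_eq_sq₀ (norm_nonneg _) (mul_nonneg (hm0 _) (Real.sqrt_nonneg _))).1 h1
      have e4 : ⟪φ n, q0⟫_ℂ = ⟪φ n, qm⟫_ℂ + ⟪φ n, q0 - qm⟫_ℂ := by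
        rw [← inner_add_right, add_sub_cancel]
      rw [e4, e1]
      refine (norm_add_le _ _).trans (add_le_add ?_ ?_)
      · exact (norm_inner_le_norm _ _).trans (mul_le_mul_of_nonneg_right e2 (norm_nonneg _))
      · refine (norm_inner_le_norm _ _).trans ?_
        rw [e3]
        exact mul_le_mul_of_nonneg_right (hφs n) (mul_nonneg (hm0 _) (Real.sqrt_nonneg _))
    refine squeeze_zero_norm hbd ?_
    have t1 : Tendsto (fun n => Real.sqrt (16 * qf b M G 1 (m (k n)) (u (k n))) * A) atTop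
        (𝓝 (Real.sqrt (16 * 0) * A)) :=
      ((Real.continuous_sqrt.tendsto _).comp
        ((hq.comp hk.tendsto_atTop).const_mul 16)).mul_const A
    have t2 : Tendsto (fun n => Real.sqrt C * (m (k n) * B)) atTop (𝓝 (Real.sqrt C * (0 * B))) :=
      ((hm.comp hk.tendsto_atTop).mul_const B).const_mul _
    have t3 := t1.add t2
    simpa using t3
  have hfz : (f : Cfg N → F) ∈ zset b M R G 1 0 :=
    WSLit596.mem_zset_iff_weak.2 ⟨Lp.memLp f, hfinv, hfw⟩
  have hf0 : f = 0 := by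
    have h1 := (ho _ hfz).comp hk.tendsto_atTop
    have h2 : ∀ n, ∫ x, ⟪(f : Cfg N → F) x, u (k n) x⟫_ℂ = ⟪f, φ n⟫_ℂ := fun n => by
      rw [hφ, ← inner_toLp (Lp.memLp f) (cv_memLp (hv (k n))), Lp.toLp_coeFn]
    have h3 : Tendsto (fun n => ⟪f, φ n⟫_ℂ) (U : Filter ℕ) (𝓝 0) := by
      refine (h1.mono_left hUa).congr fun n => ?_
      exact h2 n
    have h4 : Tendsto (fun n => ⟪φ n, f⟫_ℂ) (U : Filter ℕ) (𝓝 0) := by
      have h5 := (Complex.continuous_conj.tendsto 0).comp h3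
      rw [map_zero] at h5
      refine h5.congr fun n => ?_
      exact inner_conj_symm _ _
    have h6 : ⟪f, f⟫_ℂ = 0 := tendsto_nhds_unique (hf f) h4
    exact inner_self_eq_zero.1 h6
  -- the local limit
  set S : Set (Cfg N) := {x : Cfg N | ‖x‖ ≤ r} with hS
  have hSm : MeasurableSet S := Rel893.measurableSet_ball r
  have hSc : ∀ x ∈ S, ∀ n, w n x = u n x := by
    intro x hx n
    show cut L x • u n x = u n x
    have hx' : ‖x‖ ≤ L / 2 := by
      have h1 : ‖x‖ ≤ r := hx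
      have h2 := le_abs_self r
      rw [hL]
      linarith
    rw [cut_one hL0 hx', one_smul]
  have hum : ∀ n, MemLp (S.indicator (u (k n))) 2 volume := fun n => (cv_memLp (hv (k n))).indicator hSm
  have hΨm : MemLp (S.indicator Ψ) 2 volume := hΨ.indicator hSm
  set a : ℕ → L2 N F := fun n => (hum n).toLp _ with ha
  set c : L2 N F := hΨm.toLp _ with hc
  have hac : Tendsto a atTop (𝓝 c) := by
    rw [tendsto_iff_norm_sub_tendsto_zero]
    have h1 : Tendsto (fun n => ‖a n - c‖ ^ 2) atTop (𝓝 0) := by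
      refine (hloc r).congr fun n => ?_
      rw [ha, hc]
      simp only
      rw [← MemLp.toLp_sub, norm_toLp_sq, ← integral_indicator hSm]
      refine integral_congr_ae (Eventually.of_forall fun x => ?_)
      simp only
      by_cases hx : x ∈ S
      · rw [Set.indicator_of_mem hx, Pi.sub_apply, Set.indicator_of_mem hx,
          Set.indicator_of_mem hx, hSc x hx]
      · rw [Set.indicator_of_notMem hx, Pi.sub_apply, Set.indicator_of_notMem hx,
          Set.indicator_of_notMem hx]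
        simp
    have h2 := (Real.continuous_sqrt.tendsto 0).comp h1
    rw [Real.sqrt_zero] at h2
    refine h2.congr fun n => ?_
    exact Real.sqrt_sq (norm_nonneg _)
  have hc0 : c = 0 := by
    have h1 : Tendsto (fun n => ⟪a n, c⟫_ℂ) (U : Filter ℕ) (𝓝 ⟪c, c⟫_ℂ) :=
      (hac.mono_left hUa).inner tendsto_const_nhds
    have h2 : ∀ n, ⟪a n, c⟫_ℂ = ⟪φ n, c⟫_ℂ := by
      intro n
      rw [ha, hc, hφ, inner_toLp, inner_toLp]
      refine integral_congr_ae (Eventually.of_forall fun x => ?_)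
      simp only
      by_cases hx : x ∈ S
      · rw [Set.indicator_of_mem hx]
      · rw [Set.indicator_of_notMem hx, Set.indicator_of_notMem hx, inner_zero_left,
          inner_zero_right]
    have h3 : Tendsto (fun n => ⟪a n, c⟫_ℂ) (U : Filter ℕ) (𝓝 0) := by
      have h4 := hf c
      rw [hf0, inner_zero_left] at h4
      exact h4.congr fun n => (h2 n).symm
    exact inner_self_eq_zero.1 (tendsto_nhds_unique h1 h3)
  rw [hc0] at hac
  have h1 : Tendsto (fun n => ‖a n‖ ^ 2) atTop (𝓝 0) := by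
    have h2 := (hac.norm).pow 2
    simpa using h2
  refine h1.congr fun n => ?_
  rw [ha]
  simp only
  rw [norm_toLp_sq, ← integral_indicator hSm]
  refine integral_congr_ae (Eventually.of_forall fun x => ?_)
  simp only
  by_cases hx : x ∈ S
  · rw [Set.indicator_of_mem hx, Set.indicator_of_mem hx]
  · rw [Set.indicator_of_notMem hx, Set.indicator_of_notMem hx]
    simp

/-- **No mass at the scale of the bound state.** -/
theorem local_zero {v : ℕ → Cfg N → F} {m : ℕ → ℝ} {C : ℝ} (hv : ∀ j, IsCoreVec b R (v j))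
    (hm0 : ∀ j, 0 ≤ m j) (hm1 : ∀ j, m j ≤ 1) (hm : Tendsto m atTop (𝓝 0))
    (hC : ∀ j, ∫ x, ‖v j x‖ ^ 2 ≤ C)
    (hq : Tendsto (fun j => qf b M G 1 (m j) (v j)) atTop (𝓝 0))
    (ho : ∀ ψ ∈ zset b M R G 1 0, Tendsto (fun j => ∫ x, ⟪ψ x, v j x⟫_ℂ) atTop (𝓝 0)) (r : ℝ) :
    Tendsto (fun j => ∫ x in {x : Cfg N | ‖x‖ ≤ r}, ‖v j x‖ ^ 2) atTop (𝓝 0) := by
  refine tendsto_of_subseq_tendsto fun ns hns => ?_
  exact local_sub (u := fun j => v (ns j)) (m := fun j => m (ns j)) (fun j => hv _)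
    (fun j => hm0 _) (fun j => hm1 _) (hm.comp hns) (fun j => hC _) (hq.comp hns)
    (fun ψ hψ => (ho ψ hψ).comp hns) r

end Crest.Agent.R330.CapZA818

end
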