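import Crest.Agent.R330.Cliff3_442

/-!
# Row 330 (helper442): factorisation of modules

* `stepM`, `exists_T` : the intertwiner depends linearly on the vacuum vector.
* `CRep.pull` : pull back along a linear isometry.
* `exists_parity` : the parity operator of an irreducible module with vacuum vector.
* `exists_factor` : `T : F →ₗ F₂ →ₗ F`, `T h Ω₂ = h`, `θ (ι y) (T h g) = T h (θ₂ y g)`,
  `θ x (T h g) = T (θ x h) (Γ₂ g)` for `x` orthogonal to the range of `ι`, isometric.
-/

set_option autoImplicit false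
set_option linter.unusedSectionVars false

open scoped InnerProductSpace

noncomputable section

namespace Crest.Agent.R330.Cliff442

variable {V V₂ F F' F₂ : Type*} [NormedAddCommGroup V] [InnerProductSpace ℝ V]
  [NormedAddCommGroup V₂] [InnerProductSpace ℝ V₂]
  [NormedAddCommGroup F] [InnerProductSpace ℂ F] [NormedAddCommGroup F'] [InnerProductSpace ℂ F']
  [NormedAddCommGroup F₂] [InnerProductSpace ℂ F₂] {ι : Type*}

namespace CRep


variable (M : CRep V F) (M' : CRep V F')


variable {M M'}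




/-! ### Pull back -/







/-- A vacuum vector of a module: unit, killed by the annihilation operators of pairs which span. -/
structure Vac (M : CRep V F) (u v : ι → V) (s : Finset ι) (Ω : F) : Prop where
  prs : Prs u v s
  span : ∀ x : V, (∀ k ∈ s, ⟪x, u k⟫_ℝ = 0 ∧ ⟪x, v k⟫_ℝ = 0) → x = 0
  kill : ∀ k ∈ s, M.ann (u k) (v k) Ω = 0
  norm : ‖Ω‖ = 1

/-- Irreducible modules. -/
def Irr (M : CRep V F) : Prop := M.IrrOn ⊤ ⊤


section vac

variable {u v : ι → V} {s : Finset ι} {Ω : F}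

theorem Vac.perpS_top (h : M.Vac u v s Ω) : perpS ⊤ u v s = (⊥ : Submodule ℝ V) := by
  rw [eq_bot_iff]
  intro x hx
  rw [Submodule.mem_bot]
  exact h.span x hx.2

theorem Vac.mem (h : M.Vac u v s Ω) : Ω ∈ M.vacS ⊤ u v s := ⟨trivial, h.kill⟩


theorem Vac.line (h : M.Vac u v s Ω) (hI : M.Irr) {f : F}
    (hf : ∀ k ∈ s, M.ann (u k) (v k) f = 0) : f = ⟪Ω, f⟫_ℂ • Ω :=
  vac_line hI h.prs (fun _ _ => ⟨trivial, trivial⟩) h.perpS_top h.mem h.norm ⟨trivial, hf⟩


/-- Uniqueness. -/
theorem Irr.ext (hI : M.Irr) {J J' : F →ₗ[ℂ] F'} (h1 : ∀ x f, J (M.θ x f) = M'.θ x (J f))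
    (h2 : ∀ x f, J' (M.θ x f) = M'.θ x (J' f)) {Ω : F} (h0 : Ω ≠ 0) (h : J Ω = J' Ω) : J = J' := by
  ext f
  exact inter_unique (M := M) (M' := M') hI (fun x _ f _ => h1 x f) (fun x _ f _ => h2 x f)
    (Ω := Ω) trivial h0 h f trivial



end vac

end CRep

end Crest.Agent.R330.Cliff442

end
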