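import Mathlib
import Crest.Agent.R330.IBP_837
import Crest.Agent.R330.FreeC_122
import Crest.Agent.R330.Rem_365
import Crest.Agent.R330.Defs_478
import Crest.Agent.R330.VId_87
import Crest.Agent.R330.Cliff4_442

-- ▼ part R330/FreeD_122
section

/-!
Row 330 (helper122): part D.  Main theorem for oscillator systems: the weak `L²` zero modes
(tested off a removable set) are exactly `gs • e`, `C_αk e = 0`.
-/

set_option autoImplicit false
set_option linter.unusedSectionVars false

noncomputable section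

namespace Crest.Agent.R330.FreeD122

open MeasureTheory Filter Topology Crest.Agent.R330.IBP837 Crest.Agent.R330.FreeA122
  Crest.Agent.R330.FreeB122 Crest.Agent.R330.FreeC122
open scoped ContDiff InnerProductSpace ENNReal

section Main

variable {ι κ : Type*} [Fintype ι] [Fintype κ] [DecidableEq κ]
  {F : Type*} [NormedAddCommGroup F] [InnerProductSpace ℂ F] [FiniteDimensional ℂ F]
  (S : OscSys ι κ F)

theorem lin_symm (α : ι) (x : EuclideanSpace ℝ κ) : (lin (S.v α) x).IsSymmetric := by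
  intro u w
  simp only [lin_apply, sum_inner, inner_sum, inner_smul_left, inner_smul_right,
    Complex.conj_ofReal]
  exact Finset.sum_congr rfl fun l _ => by rw [S.v_symm α l u w]

theorem gauss_eq_tf (e : F) : (fun x => (S.gs x : ℂ) • e) = S.tf 0 e 0 := by
  funext x
  unfold OscSys.tf
  rw [OscSys.G_eq]
  simp [pw, ph]

theorem gauss_memLp (e : F) : MemLp (fun x => (S.gs x : ℂ) • e) 2 volume := by
  rw [gauss_eq_tf]; exact S.memLp_tf 0 e 0

theorem gauss_smooth (e : F) : ContDiff ℝ ∞ (fun x => (S.gs x : ℂ) • e) := by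
  rw [gauss_eq_tf]; exact S.tf_smooth 0 e 0

/-- the Gaussian state over the kernel of the annihilators is killed by every charge -/
theorem D_gauss {e : F} (he : ∀ α k, S.C α k e = 0) (α : ι) (x : EuclideanSpace ℝ κ) :
    S.D α (fun x => (S.gs x : ℂ) • e) x = 0 := by
  rw [gauss_eq_tf, OscSys.D_G]
  unfold OscSys.tf
  simp [he]

theorem weak_gauss {e : F} (he : ∀ α k, S.C α k e = 0) (α : ι) :
    WeakZ ∅ (S.a α) (lin (S.v α)) (fun x => (S.gs x : ℂ) • e) := by
  intro ψ hψ hc _
  rw [← dirac_symm (S.a_symm α) (lin_symm S α) (fun w => (lin_smooth (S.v α) w).continuous)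
    ((gauss_smooth S e).of_le (by simp)) (hψ.of_le (by simp)) (Or.inr hc)]
  have h0 : ∀ x, ⟪dirac (S.a α) (lin (S.v α)) (fun x => (S.gs x : ℂ) • e) x, ψ x⟫_ℂ = 0 := by
    intro x
    have h1 : dirac (S.a α) (lin (S.v α)) (fun x => (S.gs x : ℂ) • e) x = 0 := D_gauss S he α x
    rw [h1, inner_zero_left]
  rw [integral_congr_ae (Eventually.of_forall h0), integral_zero]

/-- the integrated second order equation -/
theorem second_order {f : EuclideanSpace ℝ κ → F} (hf : MemLp f 2 volume)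
    (h : ∀ α, WeakZ ∅ (S.a α) (lin (S.v α)) f) (k : EuclideanSpace ℝ κ) (e : F) :
    ∫ x, ⟪f x, S.G k x •
      ((((S.c : ℂ) * (∑ j, (k j : ℂ) ^ 2 + 2 * Complex.I * ∑ j, (S.om j : ℂ) * k j * x j)) • e) +
        S.M e)⟫_ℂ = 0 := by
  have h1 : ∀ α, ∫ x, ⟪f x, S.D α (S.D α (S.tf k e 0)) x⟫_ℂ = 0 := by
    intro α
    rw [OscSys.D_G]
    refine weak_extend (h α) (S.tf_smooth k _ _) ?_ ?_
    · exact integrable_inner_of_memLp hf (S.memLp_D_tf α k _ _)
    · intro l
      refine integrable_inner_of_memLp hf ?_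
      have : (fun x => S.a α l (S.tf k (∑ j, (k j : ℂ) • S.a α j e) (fun j => S.C α j e) x)) =
          S.tf k (S.a α l (∑ j, (k j : ℂ) • S.a α j e)) (fun j => S.a α l (S.C α j e)) := by
        funext x
        unfold OscSys.tf
        simp only [map_smul, map_add, map_sum]
      rw [this]
      exact S.memLp_tf k _ _
  have h2 : ∀ x, ⟪f x, S.G k x •
      ((((S.c : ℂ) * (∑ j, (k j : ℂ) ^ 2 + 2 * Complex.I * ∑ j, (S.om j : ℂ) * k j * x j)) • e) +
        S.M e)⟫_ℂ = ∑ α, ⟪f x, S.D α (S.D α (S.tf k e 0)) x⟫_ℂ := by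
    intro x
    rw [← S.DD_G k e x, inner_sum]
  simp only [h2]
  rw [integral_finsetSum]
  · exact Finset.sum_eq_zero fun α _ => h1 α
  · intro α _
    rw [OscSys.D_G]
    exact integrable_inner_of_memLp hf (S.memLp_D_tf α k _ _)

theorem M_symm : (S.M).IsSymmetric := by
  rw [LinearMap.isSymmetric_iff_inner_map_self_real]
  intro w
  have h := S.inner_M w
  have h2 : ⟪S.M w, w⟫_ℂ = (starRingEnd ℂ) ⟪w, S.M w⟫_ℂ := (inner_conj_symm _ _).symm
  rw [h2, h, Complex.conj_ofReal, Complex.conj_ofReal]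

theorem M_zero_iff (w : F) : S.M w = 0 ↔ ∀ α k, S.C α k w = 0 := by
  constructor
  · intro h0 α k
    have h := S.inner_M w
    rw [h0, inner_zero_right] at h
    have h1 : (∑ k, ∑ α, (1 / (2 * S.om k)) * ‖S.C α k w‖ ^ 2 : ℝ) = 0 := by
      exact_mod_cast h.symm
    have h2 : ∀ k, 0 ≤ ∑ α, (1 / (2 * S.om k)) * ‖S.C α k w‖ ^ 2 := fun k =>
      Finset.sum_nonneg fun α _ => by have := S.om_pos k; positivity
    have h3 := (Finset.sum_eq_zero_iff_of_nonneg (fun k _ => h2 k)).mp h1 k (Finset.mem_univ k)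
    have h4 := (Finset.sum_eq_zero_iff_of_nonneg
      (fun α _ => by have := S.om_pos k; positivity)).mp h3 α (Finset.mem_univ α)
    have h5 : (1 / (2 * S.om k)) ≠ 0 := by have := S.om_pos k; positivity
    have h6 : ‖S.C α k w‖ ^ 2 = 0 := by
      rcases mul_eq_zero.mp h4 with h7 | h7
      · exact absurd h7 h5
      · exact h7
    simpa using h6
  · intro h
    have h1 : ∀ w, 0 ≤ (⟪S.M w, w⟫_ℂ).re := by
      intro w
      have h2 : ⟪S.M w, w⟫_ℂ = (starRingEnd ℂ) ⟪w, S.M w⟫_ℂ := (inner_conj_symm _ _).symm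
      rw [h2, S.inner_M w, Complex.conj_ofReal, Complex.ofReal_re]
      exact Finset.sum_nonneg fun k _ => Finset.sum_nonneg fun α _ => by
        have := S.om_pos k; positivity
    -- Cauchy-Schwarz for the positive form
    have h3 : ∑ α, ∑ k, S.a α k (S.C α k w) = 0 := by simp [h]
    have h4 : ∑ α, ∑ k, S.a α k (S.C α k w) =
        Complex.I • (∑ α, ∑ j, (S.om j : ℂ) • S.a α j (S.a α j w)) +
          ∑ α, ∑ j, S.a α j (S.v α j w) := by
      rw [Finset.smul_sum, ← Finset.sum_add_distrib]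
      refine Finset.sum_congr rfl fun α _ => ?_
      rw [Finset.smul_sum, ← Finset.sum_add_distrib]
      refine Finset.sum_congr rfl fun j _ => ?_
      simp only [OscSys.C, LinearMap.add_apply, LinearMap.smul_apply, map_add, map_smul, smul_smul]
    rw [h4, S.sum_aa w] at h3
    rw [S.M_apply]
    have h5 : ∑ α, ∑ j, S.a α j (S.v α j w) =
        -(Complex.I • ((S.c * ∑ j, S.om j : ℝ) : ℂ) • w) := by
      rw [eq_neg_iff_add_eq_zero, add_comm]; exact h3
    rw [h5, smul_neg, smul_smul, Complex.I_mul_I, neg_one_smul]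
    simp

theorem eigen_nonneg {lam : ℝ} {e : F} (he : S.M e = (lam : ℂ) • e) (hne : e ≠ 0) : 0 ≤ lam := by
  have h := S.inner_M e
  rw [he, inner_smul_right, inner_self_eq_norm_sq_to_K] at h
  have h1 : lam * ‖e‖ ^ 2 = ∑ k, ∑ α, (1 / (2 * S.om k)) * ‖S.C α k e‖ ^ 2 := by
    apply Complex.ofReal_injective
    rw [← h, Complex.ofReal_mul, Complex.ofReal_pow]
    rfl
  have h2 : 0 ≤ ∑ k, ∑ α, (1 / (2 * S.om k)) * ‖S.C α k e‖ ^ 2 :=
    Finset.sum_nonneg fun k _ => Finset.sum_nonneg fun α _ => by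
      have := S.om_pos k; positivity
  rw [← h1] at h2
  have h3 : 0 < ‖e‖ ^ 2 := by have := norm_pos_iff.mpr hne; positivity
  exact nonneg_of_mul_nonneg_left h2 h3

/-- projection of a square integrable zero mode on one eigenvector of `M` -/
theorem char_eq {f : EuclideanSpace ℝ κ → F} (hf : MemLp f 2 volume)
    (h : ∀ α, WeakZ ∅ (S.a α) (lin (S.v α)) f) {lam : ℝ} {e : F}
    (he : S.M e = (lam : ℂ) • e) (k : EuclideanSpace ℝ κ) :
    ∫ x, (((S.gs x : ℝ) : ℂ) * ⟪f x, e⟫_ℂ) *
      ((((1 / 2) * ∑ l, k l ^ 2 + lam / (2 * S.c) : ℝ) : ℂ) +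
        Complex.I * ∑ l, ((S.om l * k l : ℝ) : ℂ) * x l) * pw k x = 0 := by
  have h1 := second_order S hf h k e
  have h2 : ∀ x, ⟪f x, S.G k x •
      ((((S.c : ℂ) * (∑ j, (k j : ℂ) ^ 2 + 2 * Complex.I * ∑ j, (S.om j : ℂ) * k j * x j)) • e) +
        S.M e)⟫_ℂ = (2 * S.c : ℂ) * ((((S.gs x : ℝ) : ℂ) * ⟪f x, e⟫_ℂ) *
      ((((1 / 2) * ∑ l, k l ^ 2 + lam / (2 * S.c) : ℝ) : ℂ) +
        Complex.I * ∑ l, ((S.om l * k l : ℝ) : ℂ) * x l) * pw k x) := by
    intro x
    rw [he, ← add_smul, smul_smul, inner_smul_right, S.G_eq]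
    have hc : (S.c : ℂ) ≠ 0 := by exact_mod_cast S.c_pos.ne'
    have e1 : ∑ j, (S.om j : ℂ) * k j * x j = ∑ l, ((S.om l * k l : ℝ) : ℂ) * x l := by
      refine Finset.sum_congr rfl fun j _ => ?_
      push_cast; rfl
    rw [e1]
    push_cast
    field_simp
    ring
  simp only [h2] at h1
  rw [integral_const_mul] at h1
  have hc : (2 * S.c : ℂ) ≠ 0 := by
    have : (S.c : ℂ) ≠ 0 := by exact_mod_cast S.c_pos.ne'
    exact mul_ne_zero two_ne_zero this
  exact (mul_eq_zero.mp h1).resolve_left hc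

theorem integrable_gf {f : EuclideanSpace ℝ κ → F} (hf : MemLp f 2 volume) (e : F) :
    Integrable (fun x => ((S.gs x : ℝ) : ℂ) * ⟪f x, e⟫_ℂ) := by
  have h := integrable_inner_of_memLp hf (gauss_memLp S e)
  refine h.congr (Eventually.of_forall fun x => ?_)
  simp only [inner_smul_right]

theorem integrable_xgf {f : EuclideanSpace ℝ κ → F} (hf : MemLp f 2 volume) (e : F) (l : κ) :
    Integrable (fun x : EuclideanSpace ℝ κ => (x l : ℂ) * (((S.gs x : ℝ) : ℂ) * ⟪f x, e⟫_ℂ)) := by
  have h := integrable_inner_of_memLp hf (S.memLp_tf 0 0 (fun j => if j = l then e else 0))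
  refine h.congr (Eventually.of_forall fun x => ?_)
  have : S.tf 0 0 (fun j => if j = l then e else 0) x = ((S.gs x : ℂ) * (x l : ℂ)) • e := by
    unfold OscSys.tf
    rw [OscSys.G_eq]
    have h1 : (0 : F) + ∑ j, (x j : ℂ) • (if j = l then e else 0) = (x l : ℂ) • e := by
      simp only [smul_ite, smul_zero, Finset.sum_ite_eq', Finset.mem_univ, if_true, zero_add]
    have h2 : pw 0 x = 1 := by simp [pw, ph]
    rw [h1, h2, mul_one, smul_smul]
  simp only [this, inner_smul_right]
  ring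

/-- **Main theorem.**  Square integrable weak zero modes tested off a removable set. -/
theorem zero_mode {Z : Set (EuclideanSpace ℝ κ)} (hZ : Cuts Z)
    {f : EuclideanSpace ℝ κ → F} (hf : MemLp f 2 volume)
    (h : ∀ α, WeakZ Z (S.a α) (lin (S.v α)) f) :
    ∃ e : F, (∀ α k, S.C α k e = 0) ∧ f =ᵐ[volume] fun x => (S.gs x : ℂ) • e := by
  have h0 : ∀ α, WeakZ ∅ (S.a α) (lin (S.v α)) f := fun α =>
    weakZ_remove hZ (fun w => lin_smooth (S.v α) w) hf (h α)
  have hM := M_symm S
  set b := hM.eigenvectorBasis (rfl : Module.finrank ℂ F = Module.finrank ℂ F) with hb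
  set ev := hM.eigenvalues (rfl : Module.finrank ℂ F = Module.finrank ℂ F) with hev
  have hbe : ∀ i, S.M (b i) = ((ev i : ℝ) : ℂ) • b i := fun i =>
    hM.apply_eigenvectorBasis rfl i
  have hbn : ∀ i, b i ≠ 0 := fun i => by
    have := b.norm_eq_one i
    intro h1; rw [h1, norm_zero] at this; exact zero_ne_one this
  -- the gaussian integral
  have hgi : ∀ i, Integrable (fun x => ((S.gs x : ℝ) : ℂ) * ⟪(S.gs x : ℂ) • b i, b i⟫_ℂ) :=
    fun i => integrable_gf S (gauss_memLp S (b i)) (b i)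
  have hginn : ∀ i x, ((S.gs x : ℝ) : ℂ) * ⟪(S.gs x : ℂ) • b i, b i⟫_ℂ = ((S.gs x ^ 2 : ℝ) : ℂ) := by
    intro i x
    rw [inner_smul_left, inner_self_eq_norm_sq_to_K, b.norm_eq_one i]
    simp [pow_two]
  -- coefficients
  have key : ∀ i, ∃ c : ℂ, (ev i ≠ 0 → c = 0) ∧
      ∀ᵐ x ∂(volume : Measure (EuclideanSpace ℝ κ)), ⟪f x, b i⟫_ℂ = c * ((S.gs x : ℝ) : ℂ) := by
    intro i
    by_cases hi : ev i = 0
    · have hgint : Integrable (fun x => ((S.gs x ^ 2 : ℝ) : ℂ)) :=
        (hgi i).congr (Eventually.of_forall fun x => hginn i x)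
      have hpos : (0 : ℝ) < ∫ x, S.gs x ^ 2 := by
        have h1 : Integrable (fun x => S.gs x ^ 2) := by
          have := hgint.re
          refine this.congr (Eventually.of_forall fun x => ?_)
          exact Complex.ofReal_re _
        rw [integral_pos_iff_support_of_nonneg (fun x => sq_nonneg _) h1]
        have h2 : Function.support (fun x => S.gs x ^ 2) = Set.univ := by
          ext x
          simp [(S.gs_pos x).ne']
        rw [h2]
        exact Measure.measure_univ_pos.mpr (NeZero.ne _)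
      set J : ℝ := ∫ x, S.gs x ^ 2 with hJ
      set c : ℂ := (∫ x, ((S.gs x : ℝ) : ℂ) * ⟪f x, b i⟫_ℂ) / (J : ℂ) with hcdef
      have hJne : (J : ℂ) ≠ 0 := by exact_mod_cast hpos.ne'
      have hCi : ∀ α k, S.C α k (b i) = 0 := by
        apply (M_zero_iff S (b i)).mp
        rw [hbe i, hi]; simp
      have hG := char_eq S (gauss_memLp S (b i)) (weak_gauss S hCi) (hbe i)
      have hF := char_eq S hf h0 (hbe i)
      simp only [hginn] at hG
      have hgi1 := integrable_gf S hf (b i)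
      have hgi2 := integrable_xgf S hf (b i)
      have hgi3 : ∀ l, Integrable (fun x : EuclideanSpace ℝ κ =>
          (x l : ℂ) * ((S.gs x ^ 2 : ℝ) : ℂ)) := by
        intro l
        refine (integrable_xgf S (gauss_memLp S (b i)) (b i) l).congr
          (Eventually.of_forall fun x => ?_)
        simp only [hginn]
      refine ⟨c, fun h1 => absurd hi h1, ?_⟩
      have h1 := transport (lam := ev i / (2 * S.c)) S.om_pos
        (g := fun x => ((S.gs x : ℝ) : ℂ) * ⟪f x, b i⟫_ℂ - c * ((S.gs x ^ 2 : ℝ) : ℂ))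
        (hgi1.sub (hgint.const_mul c)) ?_ (Or.inr ⟨by rw [hi, zero_div], ?_⟩) ?_
      · filter_upwards [h1] with x hx
        have h2 : ((S.gs x : ℝ) : ℂ) ≠ 0 := by exact_mod_cast (S.gs_pos x).ne'
        have h3 : ((S.gs x : ℝ) : ℂ) * ⟪f x, b i⟫_ℂ - c * ((S.gs x ^ 2 : ℝ) : ℂ) = 0 := hx
        apply mul_left_cancel₀ h2
        rw [sub_eq_zero.mp h3]
        push_cast; ring
      · intro l
        refine ((hgi2 l).sub ((hgi3 l).const_mul c)).congr (Eventually.of_forall fun x => ?_)
        simp only [Pi.sub_apply]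
        ring
      · have hJc : ∫ x, ((S.gs x ^ 2 : ℝ) : ℂ) = (J : ℂ) := integral_complex_ofReal
        rw [integral_sub hgi1 (hgint.const_mul c), integral_const_mul, hJc,
          hcdef, div_mul_cancel₀ _ hJne, sub_self]
      · intro k
        have hpwi : ∀ (g : EuclideanSpace ℝ κ → ℂ), Integrable g →
            (∀ l, Integrable (fun x : EuclideanSpace ℝ κ => (x l : ℂ) * g x)) →
            Integrable (fun x => g x * ((((1 / 2) * ∑ l, k l ^ 2 + ev i / (2 * S.c) : ℝ) : ℂ) +
              Complex.I * ∑ l, ((S.om l * k l : ℝ) : ℂ) * x l) * pw k x) := by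
          intro g hg hxg
          have h4 : Integrable (fun x => g x *
              ((((1 / 2) * ∑ l, k l ^ 2 + ev i / (2 * S.c) : ℝ) : ℂ) +
              Complex.I * ∑ l, ((S.om l * k l : ℝ) : ℂ) * x l)) := by
            have h5 : Integrable (fun x => ((((1 / 2) * ∑ l, k l ^ 2 + ev i / (2 * S.c) : ℝ) : ℂ)) *
                g x + ∑ l, (Complex.I * ((S.om l * k l : ℝ) : ℂ)) * ((x l : ℂ) * g x)) :=
              (hg.const_mul _).add (integrable_finsetSum _ fun l _ => (hxg l).const_mul _)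
            refine h5.congr (Eventually.of_forall fun x => ?_)
            simp only []
            rw [mul_add, mul_comm (g x)]
            congr 1
            rw [Finset.mul_sum, Finset.mul_sum]
            refine Finset.sum_congr rfl fun l _ => ?_
            ring
          have h6 := h4.bdd_mul (c := 1) (continuous_pw k).aestronglyMeasurable
            (Eventually.of_forall fun x => (norm_pw k x).le)
          refine h6.congr (Eventually.of_forall fun x => ?_)
          simp only []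
          ring
        have h5 := hpwi _ hgi1 hgi2
        have h6 := hpwi _ hgint hgi3
        have h7 : ∀ x, (((S.gs x : ℝ) : ℂ) * ⟪f x, b i⟫_ℂ - c * ((S.gs x ^ 2 : ℝ) : ℂ)) *
            ((((1 / 2) * ∑ l, k l ^ 2 + ev i / (2 * S.c) : ℝ) : ℂ) +
              Complex.I * ∑ l, ((S.om l * k l : ℝ) : ℂ) * x l) * pw k x =
            (((S.gs x : ℝ) : ℂ) * ⟪f x, b i⟫_ℂ) *
            ((((1 / 2) * ∑ l, k l ^ 2 + ev i / (2 * S.c) : ℝ) : ℂ) +
              Complex.I * ∑ l, ((S.om l * k l : ℝ) : ℂ) * x l) * pw k x -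
            c * (((S.gs x ^ 2 : ℝ) : ℂ) *
            ((((1 / 2) * ∑ l, k l ^ 2 + ev i / (2 * S.c) : ℝ) : ℂ) +
              Complex.I * ∑ l, ((S.om l * k l : ℝ) : ℂ) * x l) * pw k x) := by
          intro x; ring
        simp only [h7]
        rw [integral_sub h5 (h6.const_mul c), integral_const_mul, hF, hG, mul_zero, sub_zero]
    · refine ⟨0, fun _ => rfl, ?_⟩
      have hpos : 0 < ev i / (2 * S.c) := by
        have h1 := eigen_nonneg S (hbe i) (hbn i)
        have h2 := S.c_pos
        have h3 : 0 < ev i := lt_of_le_of_ne h1 (Ne.symm hi)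
        positivity
      have h1 := transport S.om_pos (integrable_gf S hf (b i)) (integrable_xgf S hf (b i))
        (Or.inl hpos) (char_eq S hf h0 (hbe i))
      filter_upwards [h1] with x hx
      have h2 : ((S.gs x : ℝ) : ℂ) ≠ 0 := by exact_mod_cast (S.gs_pos x).ne'
      have h3 : ((S.gs x : ℝ) : ℂ) * ⟪f x, b i⟫_ℂ = 0 := hx
      rw [(mul_eq_zero.mp h3).resolve_left h2, zero_mul]
  choose c hc0 hc using key
  refine ⟨∑ i, (starRingEnd ℂ) (c i) • b i, ?_, ?_⟩
  · intro α k
    rw [map_sum]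
    refine Finset.sum_eq_zero fun i _ => ?_
    by_cases hi : ev i = 0
    · have hCi : ∀ α k, S.C α k (b i) = 0 := by
        apply (M_zero_iff S (b i)).mp
        rw [hbe i, hi]; simp
      rw [map_smul, hCi α k, smul_zero]
    · rw [hc0 i hi, map_zero, zero_smul, map_zero]
  · have hall : ∀ᵐ x ∂(volume : Measure (EuclideanSpace ℝ κ)),
        ∀ i, ⟪f x, b i⟫_ℂ = c i * ((S.gs x : ℝ) : ℂ) := ae_all_iff.mpr hc
    filter_upwards [hall] with x hx
    rw [← b.sum_repr' (f x), Finset.smul_sum]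
    refine Finset.sum_congr rfl fun i _ => ?_
    rw [smul_smul]
    congr 1
    rw [← inner_conj_symm, hx i, map_mul, Complex.conj_ofReal, mul_comm]


end Main

end Crest.Agent.R330.FreeD122
end
end

-- ▼ part R330/FreeE_122
section

/-!
Row 330 (helper122): part E.  Cut-offs near finite unions of flats of codimension `≥ 3`
(`Cuts`), and approximation of the Gaussian zero mode by test functions off the removed set.
-/

set_option autoImplicit false
set_option linter.unusedSectionVars false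

noncomputable section

namespace Crest.Agent.R330.FreeE122

open MeasureTheory Filter Topology Set Crest.Agent.R330.IBP837 Crest.Agent.R330.FreeA122
  Crest.Agent.R330.FreeB122 Crest.Agent.R330.FreeC122 Crest.Agent.R330.FreeD122
open scoped ContDiff InnerProductSpace ENNReal NNReal

section cuts

variable {κ : Type*} [Fintype κ] [DecidableEq κ]

/-- nothing removed -/
def cutsEmpty : Cuts (∅ : Set (EuclideanSpace ℝ κ)) where
  ζ _ _ := 1
  smooth _ := contDiff_const
  nonneg _ _ := zero_le_one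
  le_one _ _ := le_rfl
  disj _ := disjoint_empty _
  lim := Eventually.of_forall fun _ => tendsto_const_nhds
  grad R l := by
    have h : eLpNorm (fun x : EuclideanSpace ℝ κ =>
      (Metric.closedBall (0 : EuclideanSpace ℝ κ) R).indicator
      (fun x => fderiv ℝ (fun _ : EuclideanSpace ℝ κ => (1 : ℝ)) x
        (EuclideanSpace.single l 1)) x) 2 volume = 0 := by
      have : (fun x : EuclideanSpace ℝ κ =>
        (Metric.closedBall (0 : EuclideanSpace ℝ κ) R).indicator
        (fun x => fderiv ℝ (fun _ : EuclideanSpace ℝ κ => (1 : ℝ)) x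
        (EuclideanSpace.single l 1)) x) = fun _ => 0 := by
        funext x
        by_cases hx : x ∈ Metric.closedBall (0 : EuclideanSpace ℝ κ) R
        · rw [indicator_of_mem hx]; simp
        · rw [indicator_of_notMem hx]
      rw [this]; simp
    exact tendsto_const_nhds.congr fun n => h.symm

/-- smaller sets -/
def cutsMono {Z Z' : Set (EuclideanSpace ℝ κ)} (C : Cuts Z') (h : Z ⊆ Z') : Cuts Z where
  ζ := C.ζ
  smooth := C.smooth
  nonneg := C.nonneg
  le_one := C.le_one
  disj n := (C.disj n).mono_right h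
  lim := C.lim
  grad := C.grad

/-- unions -/
def cutsUnion {Z Z' : Set (EuclideanSpace ℝ κ)} (C : Cuts Z) (C' : Cuts Z') : Cuts (Z ∪ Z') where
  ζ n x := C.ζ n x * C'.ζ n x
  smooth n := (C.smooth n).mul (C'.smooth n)
  nonneg n x := mul_nonneg (C.nonneg n x) (C'.nonneg n x)
  le_one n x := mul_le_one₀ (C.le_one n x) (C'.nonneg n x) (C'.le_one n x)
  disj n := by
    refine disjoint_union_right.2 ⟨(C.disj n).mono_left ?_, (C'.disj n).mono_left ?_⟩
    · exact tsupport_mul_subset_left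
    · exact tsupport_mul_subset_right
  lim := by
    filter_upwards [C.lim, C'.lim] with x h h'
    simpa using h.mul h'
  grad R l := by
    have hb : ∀ n, eLpNorm (fun x => (Metric.closedBall (0 : EuclideanSpace ℝ κ) R).indicator
        (fun x => fderiv ℝ (fun y => C.ζ n y * C'.ζ n y) x (EuclideanSpace.single l 1)) x) 2 volume ≤
        eLpNorm (fun x => (Metric.closedBall (0 : EuclideanSpace ℝ κ) R).indicator
        (fun x => fderiv ℝ (C'.ζ n) x (EuclideanSpace.single l 1)) x) 2 volume +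
        eLpNorm (fun x => (Metric.closedBall (0 : EuclideanSpace ℝ κ) R).indicator
        (fun x => fderiv ℝ (C.ζ n) x (EuclideanSpace.single l 1)) x) 2 volume := by
      intro n
      have hm : ∀ (ζ : EuclideanSpace ℝ κ → ℝ), ContDiff ℝ ∞ ζ → AEStronglyMeasurable
          (fun x => (Metric.closedBall (0 : EuclideanSpace ℝ κ) R).indicator
          (fun x => ‖fderiv ℝ ζ x (EuclideanSpace.single l 1)‖) x) volume := by
        intro ζ hζ
        have h1 : Continuous fun x => fderiv ℝ ζ x (EuclideanSpace.single l 1) :=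
          (hζ.continuous_fderiv (by simp)).clm_apply continuous_const
        exact h1.norm.aestronglyMeasurable.indicator Metric.isClosed_closedBall.measurableSet
      have e : ∀ (ζ : EuclideanSpace ℝ κ → ℝ),
          eLpNorm (fun x => (Metric.closedBall (0 : EuclideanSpace ℝ κ) R).indicator
          (fun x => fderiv ℝ ζ x (EuclideanSpace.single l 1)) x) 2 volume =
          eLpNorm (fun x => (Metric.closedBall (0 : EuclideanSpace ℝ κ) R).indicator
          (fun x => ‖fderiv ℝ ζ x (EuclideanSpace.single l 1)‖) x) 2 volume := by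
        intro ζ
        refine eLpNorm_congr_norm_ae (Eventually.of_forall fun x => ?_)
        by_cases hx : x ∈ Metric.closedBall (0 : EuclideanSpace ℝ κ) R
        · rw [indicator_of_mem hx, indicator_of_mem hx, norm_norm]
        · rw [indicator_of_notMem hx, indicator_of_notMem hx]
      rw [e (C'.ζ n), e (C.ζ n)]
      refine le_trans ?_ (eLpNorm_add_le (hm _ (C'.smooth n)) (hm _ (C.smooth n)) (by norm_num))
      refine eLpNorm_mono_real fun x => ?_
      simp only [Pi.add_apply]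
      by_cases hx : x ∈ Metric.closedBall (0 : EuclideanSpace ℝ κ) R
      · rw [indicator_of_mem hx, indicator_of_mem hx, indicator_of_mem hx]
        have h1 : fderiv ℝ (fun y => C.ζ n y * C'.ζ n y) x =
            C.ζ n x • fderiv ℝ (C'.ζ n) x + C'.ζ n x • fderiv ℝ (C.ζ n) x :=
          fderiv_fun_mul ((C.smooth n).differentiable (by simp) x)
            ((C'.smooth n).differentiable (by simp) x)
        rw [h1]
        simp only [add_apply, FunLike.coe_smul, Pi.smul_apply, smul_eq_mul]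
        refine (norm_add_le _ _).trans ?_
        rw [norm_mul, norm_mul, Real.norm_of_nonneg (C.nonneg n x),
          Real.norm_of_nonneg (C'.nonneg n x)]
        exact add_le_add (mul_le_of_le_one_left (norm_nonneg _) (C.le_one n x))
          (mul_le_of_le_one_left (norm_nonneg _) (C'.le_one n x))
      · rw [indicator_of_notMem hx, indicator_of_notMem hx, indicator_of_notMem hx]
        simp
    refine tendsto_of_tendsto_of_tendsto_of_le_of_le tendsto_const_nhds
      (by simpa using (C'.grad R l).add (C.grad R l)) (fun _ => bot_le) hb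

/-- **one flat of codimension `≥ 3`** -/
def cutsFlat {V : Type*} [NormedAddCommGroup V] [InnerProductSpace ℝ V] [FiniteDimensional ℝ V]
    [MeasurableSpace V] [BorelSpace V]
    (L : EuclideanSpace ℝ κ →L[ℝ] V) (hL : Function.Surjective L)
    (hV : 3 ≤ Module.finrank ℝ V) (c : V) : Cuts {x : EuclideanSpace ℝ κ | L x = c} where
  ζ n := Rem365.fcut L c (1 / ((n : ℝ) + 1))
  smooth n := Rem365.fcut_smooth L c _
  nonneg n x := Rem365.fcut_nonneg L c _ x
  le_one n x := Rem365.fcut_le_one L c _ x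
  disj n := by
    have hn : (0 : ℝ) < 1 / ((n : ℝ) + 1) := by positivity
    rw [Set.disjoint_left]
    intro x hx hxc
    have hopen : IsOpen {y : EuclideanSpace ℝ κ | ‖L y - c‖ < 1 / ((n : ℝ) + 1)} :=
      isOpen_lt (by fun_prop) continuous_const
    have h1 : Rem365.fcut L c (1 / ((n : ℝ) + 1)) =ᶠ[𝓝 x] 0 := by
      filter_upwards [hopen.mem_nhds (show ‖L x - c‖ < 1 / ((n : ℝ) + 1) by
        rw [show L x = c from hxc, sub_self, norm_zero]; exact hn)] with y hy
      exact Rem365.fcut_zero hn (le_of_lt hy)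
    exact (notMem_tsupport_iff_eventuallyEq.mpr h1) hx
  lim := by
    have h0 := Rem365.flat_null L hL (by omega) c
    have h1 : ∀ᵐ x ∂(volume : Measure (EuclideanSpace ℝ κ)), L x ≠ c := by
      rw [ae_iff]
      simpa using h0
    filter_upwards [h1] with x hx
    have hpos : 0 < ‖L x - c‖ := norm_pos_iff.mpr (sub_ne_zero.mpr hx)
    have h2 : Tendsto (fun n : ℕ => 2 * (1 / ((n : ℝ) + 1))) atTop (𝓝 0) := by
      simpa using (tendsto_one_div_add_atTop_nhds_zero_nat (𝕜 := ℝ)).const_mul 2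
    apply tendsto_const_nhds.congr'
    filter_upwards [h2.eventually (gt_mem_nhds hpos)] with n hn
    exact (Rem365.fcut_one (by positivity) hn.le).symm
  grad R l := by
    obtain ⟨C, hC0, hC⟩ := Rem365.fcut_fderiv L
    obtain ⟨K, hK0, hK⟩ := Rem365.tube_vol L hL R
    set d := Module.finrank ℝ V with hd
    -- pointwise bound by an indicator
    have hb : ∀ n : ℕ, eLpNorm (fun x => (Metric.closedBall (0 : EuclideanSpace ℝ κ) R).indicator
        (fun x => fderiv ℝ (Rem365.fcut L c (1 / ((n : ℝ) + 1))) x (EuclideanSpace.single l 1)) x)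
        2 volume ≤ ENNReal.ofReal (C / (1 / ((n : ℝ) + 1))) *
          (ENNReal.ofReal (K * (2 * (1 / ((n : ℝ) + 1))) ^ d)) ^ (1 / 2 : ℝ) := by
      intro n
      have hn : (0 : ℝ) < 1 / ((n : ℝ) + 1) := by positivity
      set A : Set (EuclideanSpace ℝ κ) := {x | ‖x‖ ≤ R ∧ ‖L x - c‖ ≤ 2 * (1 / ((n : ℝ) + 1))}
        with hA
      have hAm : MeasurableSet A := by
        apply MeasurableSet.inter
        · exact (isClosed_le continuous_norm continuous_const).measurableSet
        · exact (isClosed_le (L.continuous.sub continuous_const).norm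
            continuous_const).measurableSet
      have h1 : eLpNorm (fun x => (Metric.closedBall (0 : EuclideanSpace ℝ κ) R).indicator
        (fun x => fderiv ℝ (Rem365.fcut L c (1 / ((n : ℝ) + 1))) x (EuclideanSpace.single l 1)) x)
        2 volume ≤ eLpNorm (A.indicator fun _ => C / (1 / ((n : ℝ) + 1))) 2 volume := by
        refine eLpNorm_mono_real fun x => ?_
        by_cases hx : x ∈ Metric.closedBall (0 : EuclideanSpace ℝ κ) R
        · rw [indicator_of_mem hx]
          have h2 := (fderiv ℝ (Rem365.fcut L c (1 / ((n : ℝ) + 1))) x).le_opNorm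
            (EuclideanSpace.single l 1)
          rw [EuclideanSpace.norm_single, norm_one, mul_one] at h2
          refine h2.trans ((hC c _ hn x).trans ?_)
          by_cases hx2 : ‖L x - c‖ ≤ 2 * (1 / ((n : ℝ) + 1))
          · have hxA : x ∈ A := ⟨by simpa using hx, hx2⟩
            rw [indicator_of_mem hxA, indicator_of_mem (show x ∈ {x | ‖L x - c‖ ≤ _} from hx2)]
          · rw [indicator_of_notMem (show x ∉ {x | ‖L x - c‖ ≤ _} from hx2)]
            exact indicator_nonneg (fun _ _ => by positivity) x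
        · rw [indicator_of_notMem hx, norm_zero]
          exact indicator_nonneg (fun _ _ => by positivity) x
      refine h1.trans ?_
      rw [eLpNorm_indicator_const hAm (by norm_num) (by norm_num)]
      refine mul_le_mul' ?_ ?_
      · rw [Real.enorm_eq_ofReal_abs, abs_of_nonneg (by positivity)]
      · have h3 := hK c (2 * (1 / ((n : ℝ) + 1))) (by positivity)
        have h4 : (1 / (2 : ℝ≥0∞).toReal) = (1 / 2 : ℝ) := by norm_num
        rw [h4]
        exact ENNReal.rpow_le_rpow h3 (by norm_num)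
    refine tendsto_of_tendsto_of_tendsto_of_le_of_le tendsto_const_nhds ?_ (fun _ => bot_le) hb
    -- the bound tends to zero
    have h5 : ∀ n : ℕ, ENNReal.ofReal (C / (1 / ((n : ℝ) + 1))) *
          (ENNReal.ofReal (K * (2 * (1 / ((n : ℝ) + 1))) ^ d)) ^ (1 / 2 : ℝ) ≤
        ENNReal.ofReal (C * Real.sqrt (K * 2 ^ d) * Real.sqrt (1 / ((n : ℝ) + 1))) := by
      intro n
      have hn : (0 : ℝ) < 1 / ((n : ℝ) + 1) := by positivity
      have hn1 : 1 / ((n : ℝ) + 1) ≤ 1 := by
        rw [div_le_one (by positivity)]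
        have : (0 : ℝ) ≤ n := Nat.cast_nonneg n
        linarith
      rw [ENNReal.ofReal_rpow_of_nonneg (by positivity) (by norm_num), ← ENNReal.ofReal_mul
        (by positivity)]
      apply ENNReal.ofReal_le_ofReal
      rw [← Real.sqrt_eq_rpow, mul_pow]
      have h6 : Real.sqrt (K * (2 ^ d * (1 / ((n : ℝ) + 1)) ^ d)) ≤
          Real.sqrt (K * 2 ^ d) * (Real.sqrt (1 / ((n : ℝ) + 1)) * (1 / ((n : ℝ) + 1))) := by
        rw [← mul_assoc K, Real.sqrt_mul (by positivity)]
        apply mul_le_mul_of_nonneg_left _ (Real.sqrt_nonneg _)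
        have h7 : (1 / ((n : ℝ) + 1)) ^ d ≤ (1 / ((n : ℝ) + 1)) ^ 3 :=
          pow_le_pow_of_le_one hn.le hn1 hV
        calc Real.sqrt ((1 / ((n : ℝ) + 1)) ^ d) ≤ Real.sqrt ((1 / ((n : ℝ) + 1)) ^ 3) :=
              Real.sqrt_le_sqrt h7
          _ = Real.sqrt (1 / ((n : ℝ) + 1)) * (1 / ((n : ℝ) + 1)) := by
              rw [show (1 / ((n : ℝ) + 1)) ^ 3 = (1 / ((n : ℝ) + 1)) * (1 / ((n : ℝ) + 1)) ^ 2
                by ring, Real.sqrt_mul hn.le, Real.sqrt_sq hn.le]
      calc C / (1 / ((n : ℝ) + 1)) * Real.sqrt (K * (2 ^ d * (1 / ((n : ℝ) + 1)) ^ d))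
          ≤ C / (1 / ((n : ℝ) + 1)) *
            (Real.sqrt (K * 2 ^ d) * (Real.sqrt (1 / ((n : ℝ) + 1)) * (1 / ((n : ℝ) + 1)))) :=
            mul_le_mul_of_nonneg_left h6 (by positivity)
        _ = C * Real.sqrt (K * 2 ^ d) * Real.sqrt (1 / ((n : ℝ) + 1)) := by
            field_simp
    refine tendsto_of_tendsto_of_tendsto_of_le_of_le tendsto_const_nhds ?_ (fun _ => bot_le) h5
    have h8 : Tendsto (fun n : ℕ => C * Real.sqrt (K * 2 ^ d) * Real.sqrt (1 / ((n : ℝ) + 1)))
        atTop (𝓝 0) := by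
      have h9 := ((Real.continuous_sqrt.tendsto 0).comp
        (tendsto_one_div_add_atTop_nhds_zero_nat (𝕜 := ℝ))).const_mul (C * Real.sqrt (K * 2 ^ d))
      simpa [Function.comp_def] using h9
    have h10 := ENNReal.tendsto_ofReal h8
    simpa using h10

/-- **finite unions of flats of codimension `≥ 3`** -/
theorem exists_cuts {α : Type*} {V : Type*} [NormedAddCommGroup V] [InnerProductSpace ℝ V]
    [FiniteDimensional ℝ V] [MeasurableSpace V] [BorelSpace V] (hV : 3 ≤ Module.finrank ℝ V)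
    (L : α → EuclideanSpace ℝ κ →L[ℝ] V) (c : α → V) (A : Finset α)
    (hL : ∀ a ∈ A, Function.Surjective (L a)) :
    Nonempty (Cuts (⋃ a ∈ A, {x : EuclideanSpace ℝ κ | L a x = c a})) := by
  classical
  induction A using Finset.induction_on with
  | empty => exact ⟨cutsMono cutsEmpty (by simp)⟩
  | insert a A _ ih =>
    obtain ⟨C⟩ := ih fun b hb => hL b (Finset.mem_insert_of_mem hb)
    refine ⟨cutsMono (cutsUnion (cutsFlat (L a) (hL a (Finset.mem_insert_self _ _)) hV (c a)) C)
      ?_⟩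
    intro x hx
    simp only [mem_iUnion, Finset.mem_insert, mem_ofPred_eq, exists_prop, mem_union] at hx ⊢
    obtain ⟨b, hb | hb, h⟩ := hx
    · subst hb; exact Or.inl h
    · exact Or.inr ⟨b, hb, h⟩

end cuts

section approx

variable {ι κ : Type*} [Fintype ι] [Fintype κ] [DecidableEq κ]
  {F : Type*} [NormedAddCommGroup F] [InnerProductSpace ℂ F] [FiniteDimensional ℂ F]
  (S : OscSys ι κ F)

theorem D_cut {χ : EuclideanSpace ℝ κ → ℝ} (hχ : ContDiff ℝ ∞ χ) {e : F}
    (he : ∀ α k, S.C α k e = 0) (α : ι) (x : EuclideanSpace ℝ κ) :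
    S.D α (fun y => χ y • ((S.gs y : ℂ) • e)) x =
      ∑ l, (-Complex.I) • ((fderiv ℝ χ x (EuclideanSpace.single l 1)) •
        S.a α l ((S.gs x : ℂ) • e)) := by
  unfold OscSys.D
  rw [dirac_leibniz ((hχ.differentiable (by simp)) x)
    (((gauss_smooth S e).differentiable (by simp)) x)]
  have h1 : dirac (S.a α) (lin (S.v α)) (fun x => (S.gs x : ℂ) • e) x = 0 := D_gauss S he α x
  rw [h1, smul_zero, zero_add]

theorem gs_le_one (x : EuclideanSpace ℝ κ) : S.gs x ≤ 1 := by
  unfold OscSys.gs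
  rw [Real.exp_le_one_iff]
  have h : 0 ≤ ∑ k, S.om k * x k ^ 2 :=
    Finset.sum_nonneg fun k _ => mul_nonneg (S.om_pos k).le (sq_nonneg _)
  linarith

/-- **Approximation.** The Gaussian zero mode is a limit of real cut-offs of itself, supported off
the removed set, with small charges. -/
theorem approx {Z : Set (EuclideanSpace ℝ κ)} (C : Cuts Z) :
    ∃ χ : ℕ → EuclideanSpace ℝ κ → ℝ, (∀ n, ContDiff ℝ ∞ (χ n)) ∧
      (∀ n, HasCompactSupport (χ n)) ∧ (∀ n, Disjoint (tsupport (χ n)) Z) ∧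
      (∀ n x, 0 ≤ χ n x ∧ χ n x ≤ 1) ∧
      ∀ e : F, (∀ α k, S.C α k e = 0) →
        Tendsto (fun n => eLpNorm (fun x => χ n x • ((S.gs x : ℂ) • e) - (S.gs x : ℂ) • e) 2
          volume) atTop (𝓝 0) ∧
        ∀ α, Tendsto (fun n => eLpNorm (S.D α (fun x => χ n x • ((S.gs x : ℂ) • e))) 2 volume)
          atTop (𝓝 0) := by
  obtain ⟨K, hK⟩ := cutInf_grad (κ := κ)
  -- choose the index of the cut-off near `Z`
  have hm : ∀ n : ℕ, ∃ m : ℕ, n ≤ m ∧ ∀ l : κ, eLpNorm (fun x =>
      (Metric.closedBall (0 : EuclideanSpace ℝ κ) (2 * ((n : ℝ) + 1))).indicator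
      (fun x => fderiv ℝ (C.ζ m) x (EuclideanSpace.single l 1)) x) 2 volume ≤
        ENNReal.ofReal (1 / ((n : ℝ) + 1)) := by
    intro n
    have h1 : ∀ l : κ, ∀ᶠ m in atTop, eLpNorm (fun x =>
      (Metric.closedBall (0 : EuclideanSpace ℝ κ) (2 * ((n : ℝ) + 1))).indicator
      (fun x => fderiv ℝ (C.ζ m) x (EuclideanSpace.single l 1)) x) 2 volume ≤
        ENNReal.ofReal (1 / ((n : ℝ) + 1)) := by
      intro l
      have hpos : (0 : ℝ≥0∞) < ENNReal.ofReal (1 / ((n : ℝ) + 1)) :=
        ENNReal.ofReal_pos.mpr (by positivity)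
      exact ((C.grad _ l).eventually (gt_mem_nhds hpos)).mono fun _ h => h.le
    have h2 := (eventually_all.mpr h1).and (eventually_ge_atTop n)
    obtain ⟨m, hm1, hm2⟩ := h2.exists
    exact ⟨m, hm2, hm1⟩
  choose M hMn hM using hm
  have hMt : Tendsto M atTop atTop := tendsto_atTop_mono hMn tendsto_id
  set χ : ℕ → EuclideanSpace ℝ κ → ℝ := fun n x => cutInf κ n x * C.ζ (M n) x with hχ
  have hsm : ∀ n, ContDiff ℝ ∞ (χ n) := fun n => (cutInf_smooth n).mul (C.smooth _)
  have hbd : ∀ n x, 0 ≤ χ n x ∧ χ n x ≤ 1 := fun n x =>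
    ⟨mul_nonneg (cutInf_nonneg n x) (C.nonneg _ x),
      mul_le_one₀ (cutInf_le_one n x) (C.nonneg _ x) (C.le_one _ x)⟩
  refine ⟨χ, hsm, fun n => (cutInf_compact n).mul_right, fun n => ?_, hbd, fun e he => ⟨?_, ?_⟩⟩
  · exact (C.disj (M n)).mono_left tsupport_mul_subset_right
  · -- L² convergence
    have hmem := gauss_memLp S e
    have hlim : ∀ᵐ x ∂(volume : Measure (EuclideanSpace ℝ κ)), Tendsto (fun n => χ n x) atTop
        (𝓝 1) := by
      filter_upwards [C.lim] with x hx
      have h1 : Tendsto (fun n => cutInf κ n x) atTop (𝓝 1) := by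
        apply tendsto_const_nhds.congr'
        obtain ⟨n0, hn0⟩ := exists_nat_ge ‖x‖
        filter_upwards [eventually_ge_atTop n0] with n hn
        have : (n0 : ℝ) ≤ n := by exact_mod_cast hn
        rw [cutInf_eq_one (by linarith)]
      simpa using h1.mul (hx.comp hMt)
    have h3 : Tendsto (fun n => ∫⁻ x, ‖χ n x • ((S.gs x : ℂ) • e) - (S.gs x : ℂ) • e‖ₑ ^ (2 : ℝ))
        atTop (𝓝 0) := by
      have h4 : Tendsto (fun n => ∫⁻ x, ‖χ n x • ((S.gs x : ℂ) • e) - (S.gs x : ℂ) • e‖ₑ ^ (2 : ℝ))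
          atTop (𝓝 (∫⁻ _x : EuclideanSpace ℝ κ, 0)) := by
        refine tendsto_lintegral_of_dominated_convergence'
          (fun x => ‖(S.gs x : ℂ) • e‖ₑ ^ (2 : ℝ)) (fun n => ?_) (fun n => ?_) ?_ ?_
        · have hc : Continuous fun x => χ n x • ((S.gs x : ℂ) • e) - (S.gs x : ℂ) • e :=
            (((hsm n).continuous).smul (gauss_smooth S e).continuous).sub
              (gauss_smooth S e).continuous
          exact (hc.enorm.measurable.pow_const _).aemeasurable
        · refine Eventually.of_forall fun x => ?_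
          refine ENNReal.rpow_le_rpow ?_ (by norm_num)
          have h5 : χ n x • ((S.gs x : ℂ) • e) - (S.gs x : ℂ) • e =
              (χ n x - 1) • ((S.gs x : ℂ) • e) := by rw [sub_smul, one_smul]
          rw [h5, enorm_smul]
          have h6 : ‖χ n x - 1‖ₑ ≤ 1 := by
            rw [Real.enorm_eq_ofReal_abs]
            rw [show (1 : ℝ≥0∞) = ENNReal.ofReal 1 by simp]
            apply ENNReal.ofReal_le_ofReal
            rw [abs_le]; constructor <;> linarith [(hbd n x).1, (hbd n x).2]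
          calc ‖χ n x - 1‖ₑ * ‖(S.gs x : ℂ) • e‖ₑ ≤ 1 * ‖(S.gs x : ℂ) • e‖ₑ :=
                mul_le_mul' h6 le_rfl
            _ = _ := one_mul _
        · have := (eLpNorm_lt_top_iff_lintegral_rpow_enorm_lt_top (by norm_num) (by norm_num)).mp
            hmem.2
          simpa using this.ne
        · filter_upwards [hlim] with x hx
          have h5 : Tendsto (fun n => χ n x • ((S.gs x : ℂ) • e) - (S.gs x : ℂ) • e) atTop
              (𝓝 0) := by
            have h6 := (hx.smul_const ((S.gs x : ℂ) • e)).sub_const ((S.gs x : ℂ) • e)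
            simpa using h6
          have h7 := (continuous_enorm.tendsto (0 : F)).comp h5
          have h8 := ((ENNReal.continuous_rpow_const (y := (2 : ℝ))).tendsto _).comp h7
          simpa [Function.comp_def] using h8
      simpa using h4
    have h9 : ∀ n, eLpNorm (fun x => χ n x • ((S.gs x : ℂ) • e) - (S.gs x : ℂ) • e) 2 volume =
        (∫⁻ x, ‖χ n x • ((S.gs x : ℂ) • e) - (S.gs x : ℂ) • e‖ₑ ^ (2 : ℝ)) ^ (1 / 2 : ℝ) := by
      intro n
      rw [eLpNorm_eq_lintegral_rpow_enorm_toReal (by norm_num) (by norm_num)]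
      norm_num
    simp only [h9]
    have h10 := ((ENNReal.continuous_rpow_const (y := (1 / 2 : ℝ))).tendsto _).comp h3
    simpa [Function.comp_def] using h10
  · intro α
    have hball : ∀ (n : ℕ) (x : EuclideanSpace ℝ κ),
        x ∉ Metric.closedBall (0 : EuclideanSpace ℝ κ) (2 * ((n : ℝ) + 1)) → cutInf κ n x = 0 := by
      intro n x hx
      have hn : (0 : ℝ) < (n : ℝ) + 1 := by positivity
      unfold cutInf
      have h2 : (2 : ℝ) ≤ dist ((1 / ((n : ℝ) + 1)) • x) 0 := by
        rw [dist_zero_right, norm_smul, Real.norm_eq_abs, abs_of_pos (by positivity)]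
        rw [mem_closedBall_zero_iff, not_le] at hx
        rw [one_div, le_inv_mul_iff₀ hn]
        linarith
      exact (bump κ).zero_of_le_dist h2
    have hK0 : ∀ (n : ℕ), 0 ≤ |K| / ((n : ℝ) + 1) := fun n => by positivity
    have hKle : ∀ (n : ℕ), K / ((n : ℝ) + 1) ≤ |K| / ((n : ℝ) + 1) := fun n =>
      div_le_div_of_nonneg_right (le_abs_self K) (by positivity)
    have hagl : ∀ l x, S.a α l ((S.gs x : ℂ) • e) = (S.gs x : ℂ) • S.a α l e := fun l x => by
      rw [map_smul]
    have hb : ∀ n : ℕ, eLpNorm (S.D α (fun x => χ n x • ((S.gs x : ℂ) • e))) 2 volume ≤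
        ∑ l, (ENNReal.ofReal (1 / ((n : ℝ) + 1)) * ENNReal.ofReal ‖S.a α l e‖ +
          ENNReal.ofReal (|K| / ((n : ℝ) + 1)) *
            eLpNorm (fun x => (S.gs x : ℂ) • S.a α l e) 2 volume) := by
      intro n
      set B := Metric.closedBall (0 : EuclideanSpace ℝ κ) (2 * ((n : ℝ) + 1)) with hB
      set p : κ → EuclideanSpace ℝ κ → ℝ := fun l x =>
        B.indicator (fun x => ‖fderiv ℝ (C.ζ (M n)) x (EuclideanSpace.single l 1)‖) x *
          ‖S.a α l e‖ with hp
      set q : κ → EuclideanSpace ℝ κ → ℝ := fun l x =>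
        (|K| / ((n : ℝ) + 1)) * ‖(S.gs x : ℂ) • S.a α l e‖ with hq
      have hpt : ∀ x, ‖S.D α (fun x => χ n x • ((S.gs x : ℂ) • e)) x‖ ≤ ∑ l, (p l x + q l x) := by
        intro x
        rw [D_cut S (hsm n) he α x]
        refine (norm_sum_le _ _).trans (Finset.sum_le_sum fun l _ => ?_)
        rw [norm_smul, norm_neg, Complex.norm_I, one_mul, norm_smul, hagl]
        have h1 : fderiv ℝ (χ n) x = cutInf κ n x • fderiv ℝ (C.ζ (M n)) x +
            C.ζ (M n) x • fderiv ℝ (cutInf κ n) x :=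
          fderiv_fun_mul ((cutInf_smooth n).differentiable (by simp) x)
            ((C.smooth (M n)).differentiable (by simp) x)
        have h2 : ‖fderiv ℝ (χ n) x (EuclideanSpace.single l 1)‖ ≤
            B.indicator (fun x => ‖fderiv ℝ (C.ζ (M n)) x (EuclideanSpace.single l 1)‖) x +
              |K| / ((n : ℝ) + 1) := by
          rw [h1]
          simp only [add_apply, FunLike.coe_smul, Pi.smul_apply, smul_eq_mul]
          refine (norm_add_le _ _).trans (add_le_add ?_ ?_)
          · rw [norm_mul, Real.norm_of_nonneg (cutInf_nonneg n x)]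
            by_cases hx : x ∈ B
            · rw [indicator_of_mem hx]
              exact mul_le_of_le_one_left (norm_nonneg _) (cutInf_le_one n x)
            · rw [indicator_of_notMem hx, hball n x hx, zero_mul]
          · rw [norm_mul, Real.norm_of_nonneg (C.nonneg _ x)]
            refine (mul_le_of_le_one_left (norm_nonneg _) (C.le_one _ x)).trans ?_
            rw [Real.norm_eq_abs]
            exact (hK n x l).trans (hKle n)
        refine (mul_le_mul_of_nonneg_right h2 (norm_nonneg _)).trans ?_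
        rw [add_mul]
        refine add_le_add ?_ le_rfl
        simp only [hp]
        apply mul_le_mul_of_nonneg_left _ (indicator_nonneg (fun _ _ => norm_nonneg _) x)
        rw [norm_smul, Complex.norm_real, Real.norm_of_nonneg (S.gs_pos x).le]
        exact mul_le_of_le_one_left (norm_nonneg _) (gs_le_one S x)
      have hζc : ∀ l, Continuous fun x =>
          fderiv ℝ (C.ζ (M n)) x (EuclideanSpace.single l 1) := fun l =>
        ((C.smooth (M n)).continuous_fderiv (by simp)).clm_apply continuous_const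
      have hpm : ∀ l, AEStronglyMeasurable (p l) volume := fun l =>
        ((hζc l).norm.aestronglyMeasurable.indicator
          Metric.isClosed_closedBall.measurableSet).mul_const _
      have hqm : ∀ l, AEStronglyMeasurable (q l) volume := fun l =>
        (continuous_const.mul (gauss_smooth S (S.a α l e)).continuous.norm).aestronglyMeasurable
      refine (eLpNorm_mono_real hpt).trans ?_
      have h3 : (fun x => ∑ l, (p l x + q l x)) = ∑ l, (p l + q l) := by
        funext x; simp [Finset.sum_apply]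
      rw [h3]
      refine (eLpNorm_sum_le (fun l _ => (hpm l).add (hqm l)) (by norm_num)).trans ?_
      refine Finset.sum_le_sum fun l _ => ?_
      refine (eLpNorm_add_le (hpm l) (hqm l) (by norm_num)).trans (add_le_add ?_ ?_)
      · have h4 : p l = ‖S.a α l e‖ • (fun x => B.indicator
            (fun x => ‖fderiv ℝ (C.ζ (M n)) x (EuclideanSpace.single l 1)‖) x) := by
          funext x
          simp only [hp, Pi.smul_apply, smul_eq_mul]
          ring
        rw [h4, eLpNorm_const_smul, mul_comm, Real.enorm_eq_ofReal_abs,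
          abs_of_nonneg (norm_nonneg _)]
        refine mul_le_mul' ?_ le_rfl
        refine le_trans (le_of_eq ?_) (hM n l)
        refine eLpNorm_congr_norm_ae (Eventually.of_forall fun x => ?_)
        by_cases hx : x ∈ B
        · rw [indicator_of_mem hx, indicator_of_mem hx, norm_norm]
        · rw [indicator_of_notMem hx, indicator_of_notMem hx]
      · have h4 : q l = (|K| / ((n : ℝ) + 1)) • (fun x => ‖(S.gs x : ℂ) • S.a α l e‖) := rfl
        rw [h4, eLpNorm_const_smul, eLpNorm_norm, Real.enorm_eq_ofReal_abs,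
          abs_of_nonneg (hK0 n)]
    refine tendsto_of_tendsto_of_tendsto_of_le_of_le tendsto_const_nhds ?_ (fun _ => bot_le) hb
    have h5 : Tendsto (fun n : ℕ => ENNReal.ofReal (1 / ((n : ℝ) + 1))) atTop (𝓝 0) := by
      have := ENNReal.tendsto_ofReal (tendsto_one_div_add_atTop_nhds_zero_nat (𝕜 := ℝ))
      simpa using this
    have h6 : Tendsto (fun n : ℕ => ENNReal.ofReal (|K| / ((n : ℝ) + 1))) atTop (𝓝 0) := by
      have h7 : Tendsto (fun n : ℕ => |K| / ((n : ℝ) + 1)) atTop (𝓝 0) := by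
        have h1 := (tendsto_one_div_add_atTop_nhds_zero_nat (𝕜 := ℝ)).const_mul |K|
        simpa [div_eq_mul_inv] using h1
      have := ENNReal.tendsto_ofReal h7
      simpa using this
    have h8 : Tendsto (fun n : ℕ => ∑ l, (ENNReal.ofReal (1 / ((n : ℝ) + 1)) *
        ENNReal.ofReal ‖S.a α l e‖ + ENNReal.ofReal (|K| / ((n : ℝ) + 1)) *
            eLpNorm (fun x => (S.gs x : ℂ) • S.a α l e) 2 volume)) atTop
        (𝓝 (∑ l : κ, (0 * ENNReal.ofReal ‖S.a α l e‖ +
          0 * eLpNorm (fun x => (S.gs x : ℂ) • S.a α l e) 2 volume))) := by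
      refine tendsto_finsetSum _ fun l _ => ?_
      refine Tendsto.add ?_ ?_
      · exact ENNReal.Tendsto.mul_const h5 (Or.inr ENNReal.ofReal_ne_top)
      · exact ENNReal.Tendsto.mul_const h6 (Or.inr (gauss_memLp S _).2.ne)
    simpa using h8

end approx

end Crest.Agent.R330.FreeE122
end
end

-- ▼ part R330/Free_122

/-!
Row 330 (helper122): the free massive model of `p` relative positions.

* `Light p F` : fermions `θ_α^a`, `α : Fin 16`, `a : Fin p`, irreducible on `F`.
* `freeD L G m α φ x` : the free charges on `EuclideanSpace ℝ (Fin 9 × Fin p)`, literally the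
  charges `dcharge` of 478 with the quartic part dropped.
* `LVac L G e` : `e` is a vacuum of the complex structure `Γ ⊗ 1` (as `IsGVac` of 478).
* `gs p m x = exp(-(m/2) Σ |c_j| (x_j^a)²)`.
* `exists_xi`, `xi_line` : the vacuum line.
* `freeD_gauss` : `gs • ξ` is killed by all charges.
* `free_unique` : **the square integrable weak zero modes, tested off a removable set, are the
  multiples of `gs • ξ`.**
* `free_approx` : approximation of `gs • ξ` by real cut-offs of itself off the removed set.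
-/

set_option autoImplicit false
set_option linter.unusedSectionVars false

noncomputable section

namespace Crest.Agent.R330.Free122

open MeasureTheory Filter Topology Crest.MathPhysics.MatrixQM Crest.Agent.R330.IBP837
  Crest.Agent.R330.FreeB122 Crest.Agent.R330.FreeC122 Crest.Agent.R330.FreeD122
  Crest.Agent.R330.FreeE122 Crest.Agent.R330.Defs478
open scoped ContDiff InnerProductSpace ENNReal

/-- irreducible fermions of `p` relative positions -/
structure Light (p : ℕ) (F : Type*) [NormedAddCommGroup F] [InnerProductSpace ℂ F] where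
  θ : Fin 16 → Fin p → (F →ₗ[ℂ] F)
  symm : ∀ α a, (θ α a).IsSymmetric
  anti : ∀ α a β b, θ α a ∘ₗ θ β b + θ β b ∘ₗ θ α a =
    if α = β ∧ a = b then (LinearMap.id : F →ₗ[ℂ] F) else 0
  irr : ∀ W : Submodule ℂ F, (∀ α a, ∀ v ∈ W, θ α a v ∈ W) → W = ⊥ ∨ W = ⊤

variable {p : ℕ} {F : Type*} [NormedAddCommGroup F] [InnerProductSpace ℂ F]
  [FiniteDimensional ℂ F] (L : Light p F) (G : GammaNine)

/-- The free charges of mass `m`. -/
def freeD (L : Light p F) (G : GammaNine) (m : ℝ) (α : Fin 16)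
    (φ : EuclideanSpace ℝ (Fin 9 × Fin p) → F) (x : EuclideanSpace ℝ (Fin 9 × Fin p)) : F :=
  (∑ i : Fin 9, ∑ A : Fin p, ∑ β : Fin 16,
    (-Complex.I * (G.γ i α β : ℂ)) • L.θ β A (fderiv ℝ φ x (EuclideanSpace.single (i, A) 1))) +
  ∑ A : Fin p, ∑ β : Fin 16,
    ((-(m * ∑ j : Fin 9, cc j * x (j, A) * (Gam G * G.γ j) α β) : ℝ) : ℂ) • L.θ β A (φ x)

/-- `e` is a vacuum of the complex structure `Γ ⊗ 1`. -/
def LVac (L : Light p F) (G : GammaNine) (e : F) : Prop :=
  ∀ (α : Fin 16) (A : Fin p),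
    L.θ α A e = Complex.I • ∑ β : Fin 16, ((Gam G β α : ℝ) : ℂ) • L.θ β A e

/-- the Gaussian -/
def gs (p : ℕ) (m : ℝ) (x : EuclideanSpace ℝ (Fin 9 × Fin p)) : ℝ :=
  Real.exp (-(1 / 2) * ∑ k : Fin 9 × Fin p, m * |cc k.1| * x k ^ 2)

theorem cc_ne (j : Fin 9) : cc j ≠ 0 := by
  unfold cc; split_ifs <;> norm_num

/-- quadratic identity: `Σ_α {P θ^b, Q θ^b'}_α = δ tr(Pᵀ Q)` -/
theorem quad_id (P Q : Matrix (Fin 16) (Fin 16) ℝ) (b b' : Fin p) (w : F) :
    ∑ α, ((∑ β, ((P α β : ℝ) : ℂ) • L.θ β b (∑ γ, ((Q α γ : ℝ) : ℂ) • L.θ γ b' w)) +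
      (∑ γ, ((Q α γ : ℝ) : ℂ) • L.θ γ b' (∑ β, ((P α β : ℝ) : ℂ) • L.θ β b w))) =
    if b = b' then (((P.transpose * Q).trace : ℝ) : ℂ) • w else 0 := by
  have h1 : ∀ α, ((∑ β, ((P α β : ℝ) : ℂ) • L.θ β b (∑ γ, ((Q α γ : ℝ) : ℂ) • L.θ γ b' w)) +
      (∑ γ, ((Q α γ : ℝ) : ℂ) • L.θ γ b' (∑ β, ((P α β : ℝ) : ℂ) • L.θ β b w))) =
      ∑ β, ∑ γ, ((P α β : ℂ) * (Q α γ : ℂ)) • (if β = γ ∧ b = b' then w else 0) := by
    intro α
    have e1 : ∑ γ, ((Q α γ : ℝ) : ℂ) • L.θ γ b' (∑ β, ((P α β : ℝ) : ℂ) • L.θ β b w) =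
        ∑ β, ∑ γ, ((P α β : ℂ) * (Q α γ : ℂ)) • L.θ γ b' (L.θ β b w) := by
      rw [Finset.sum_comm]
      refine Finset.sum_congr rfl fun γ _ => ?_
      rw [map_sum, Finset.smul_sum]
      refine Finset.sum_congr rfl fun β _ => ?_
      rw [map_smul, smul_smul, mul_comm]
    have e2 : ∑ β, ((P α β : ℝ) : ℂ) • L.θ β b (∑ γ, ((Q α γ : ℝ) : ℂ) • L.θ γ b' w) =
        ∑ β, ∑ γ, ((P α β : ℂ) * (Q α γ : ℂ)) • L.θ β b (L.θ γ b' w) := by
      refine Finset.sum_congr rfl fun β _ => ?_
      rw [map_sum, Finset.smul_sum]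
      refine Finset.sum_congr rfl fun γ _ => ?_
      rw [map_smul, smul_smul]
    rw [e1, e2, ← Finset.sum_add_distrib]
    refine Finset.sum_congr rfl fun β _ => ?_
    rw [← Finset.sum_add_distrib]
    refine Finset.sum_congr rfl fun γ _ => ?_
    rw [← smul_add]
    congr 1
    have := congrArg (fun T : F →ₗ[ℂ] F => T w) (L.anti β b γ b')
    simp only [LinearMap.add_apply, LinearMap.comp_apply] at this
    rw [this]
    split_ifs <;> rfl
  simp only [h1]
  by_cases hb : b = b'
  · simp only [hb, and_true, if_true, smul_ite, smul_zero, Finset.sum_ite_eq, Finset.mem_univ]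
    rw [Matrix.trace]
    simp only [Matrix.diag_apply, Matrix.mul_apply, Matrix.transpose_apply]
    rw [Finset.sum_comm]
    push_cast
    simp only [Finset.sum_smul]
  · simp [hb]

/-- trace of five gamma matrices -/
theorem tr_five (j l : Fin 9) : ((G.γ j).transpose * (Gam G * G.γ l)).trace = 0 := by
  obtain ⟨a, h0, h1, h2, hj, hl⟩ : ∃ a : Fin 9, a ≠ 0 ∧ a ≠ 1 ∧ a ≠ 2 ∧ a ≠ j ∧ a ≠ l := by
    revert j l; decide
  have hsq : G.γ a * G.γ a = 1 := Gam962.sq_one G a
  have hX : G.γ a * (G.γ j * (Gam G * G.γ l)) = -((G.γ j * (Gam G * G.γ l)) * G.γ a) := by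
    have e0 := Gam962.anti G h0
    have e1 := Gam962.anti G h1
    have e2 := Gam962.anti G h2
    have ej := Gam962.anti G hj
    have el := Gam962.anti G hl
    unfold Gam
    calc G.γ a * (G.γ j * (G.γ 0 * G.γ 1 * G.γ 2 * G.γ l))
        = (G.γ a * G.γ j) * (G.γ 0 * G.γ 1 * G.γ 2 * G.γ l) := by noncomm_ring
      _ = -(G.γ j * (G.γ a * G.γ 0) * (G.γ 1 * G.γ 2 * G.γ l)) := by rw [ej]; noncomm_ring
      _ = G.γ j * G.γ 0 * (G.γ a * G.γ 1) * (G.γ 2 * G.γ l) := by rw [e0]; noncomm_ring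
      _ = -(G.γ j * G.γ 0 * G.γ 1 * (G.γ a * G.γ 2) * G.γ l) := by rw [e1]; noncomm_ring
      _ = G.γ j * G.γ 0 * G.γ 1 * G.γ 2 * (G.γ a * G.γ l) := by rw [e2]; noncomm_ring
      _ = -(G.γ j * (G.γ 0 * G.γ 1 * G.γ 2 * G.γ l) * G.γ a) := by rw [el]; noncomm_ring
  rw [G.symm]
  have h : (G.γ j * (Gam G * G.γ l)).trace = -(G.γ j * (Gam G * G.γ l)).trace := by
    calc (G.γ j * (Gam G * G.γ l)).trace
        = (G.γ a * (G.γ a * (G.γ j * (Gam G * G.γ l)))).trace := by
          rw [← Matrix.mul_assoc (G.γ a) (G.γ a), hsq, Matrix.one_mul]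
      _ = -(G.γ a * ((G.γ j * (Gam G * G.γ l)) * G.γ a)).trace := by
          rw [hX, Matrix.mul_neg, Matrix.trace_neg]
      _ = -(G.γ j * (Gam G * G.γ l)).trace := by
          rw [Matrix.trace_mul_comm, Matrix.mul_assoc, hsq, Matrix.mul_one]
  linarith

/-- the oscillator system of the free model -/
def sys (L : Light p F) (G : GammaNine) {m : ℝ} (hm : 0 < m) :
    OscSys (Fin 16) (Fin 9 × Fin p) F where
  a α k := ∑ β, ((G.γ k.1 α β : ℝ) : ℂ) • L.θ β k.2
  v α k := ∑ β, ((-(m * cc k.1 * (Gam G * G.γ k.1) α β) : ℝ) : ℂ) • L.θ β k.2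
  om k := m * |cc k.1|
  c := 8
  om_pos k := mul_pos hm (abs_pos.mpr (cc_ne _))
  c_pos := by norm_num
  a_symm α k := by
    intro x y
    simp only [LinearMap.sum_apply, LinearMap.smul_apply, sum_inner, inner_sum, inner_smul_left,
      inner_smul_right, Complex.conj_ofReal]
    exact Finset.sum_congr rfl fun β _ => by rw [L.symm β k.2 x y]
  v_symm α k := by
    intro x y
    simp only [LinearMap.sum_apply, LinearMap.smul_apply, sum_inner, inner_sum, inner_smul_left,
      inner_smul_right, Complex.conj_ofReal]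
    exact Finset.sum_congr rfl fun β _ => by rw [L.symm β k.2 x y]
  aa k l w := by
    have h := quad_id L (G.γ k.1) (G.γ l.1) k.2 l.2 w
    simp only [LinearMap.sum_apply, LinearMap.smul_apply]
    rw [h, G.symm, VId87.tr2]
    unfold VId87.dl
    by_cases h2 : k.2 = l.2
    · by_cases h1 : k.1 = l.1
      · have : k = l := Prod.ext h1 h2
        simp only [this, if_true]
        norm_num
      · have : k ≠ l := fun h => h1 (by rw [h])
        simp [h1, h2, this]
    · have : k ≠ l := fun h => h2 (by rw [h])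
      simp [h2, this]
  av k l w := by
    have h := quad_id L (G.γ k.1) (-((m * cc l.1) • (Gam G * G.γ l.1))) k.2 l.2 w
    simp only [LinearMap.sum_apply, LinearMap.smul_apply]
    have e : ∀ α β, (-((m * cc l.1) • (Gam G * G.γ l.1))) α β =
        -(m * cc l.1 * (Gam G * G.γ l.1) α β) := fun α β => by
      simp [Matrix.neg_apply, Matrix.smul_apply]
    simp only [e] at h
    rw [h, Matrix.mul_neg, Matrix.trace_neg, Matrix.mul_smul, Matrix.trace_smul, tr_five]
    simp
  vv k l w := by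
    have h := quad_id L (-((m * cc k.1) • (Gam G * G.γ k.1)))
      (-((m * cc l.1) • (Gam G * G.γ l.1))) k.2 l.2 w
    simp only [LinearMap.sum_apply, LinearMap.smul_apply]
    have e : ∀ (l : Fin 9 × Fin p) (α β), (-((m * cc l.1) • (Gam G * G.γ l.1))) α β =
        -(m * cc l.1 * (Gam G * G.γ l.1) α β) := fun l α β => by
      simp [Matrix.neg_apply, Matrix.smul_apply]
    simp only [e] at h
    rw [h, Matrix.transpose_neg, Matrix.neg_mul, Matrix.mul_neg, neg_neg, Matrix.transpose_smul,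
      Matrix.smul_mul, Matrix.mul_smul, Matrix.trace_smul, Matrix.trace_smul, VId87.tr_Gam_Gam]
    unfold VId87.dl
    by_cases h2 : k.2 = l.2
    · by_cases h1 : k.1 = l.1
      · have : k = l := Prod.ext h1 h2
        subst this
        simp only [if_true, smul_eq_mul, mul_one]
        congr 2
        rw [mul_pow, sq_abs]
        ring
      · have : k ≠ l := fun h => h1 (by rw [h])
        simp [h1, h2, this]
    · have : k ≠ l := fun h => h2 (by rw [h])
      simp [h2, this]


theorem freeD_eq {m : ℝ} (hm : 0 < m) (α : Fin 16) (φ : EuclideanSpace ℝ (Fin 9 × Fin p) → F)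
    (x : EuclideanSpace ℝ (Fin 9 × Fin p)) :
    freeD L G m α φ x = (sys L G hm).D α φ x := by
  unfold freeD OscSys.D dirac lin sys
  simp only [LinearMap.sum_apply, LinearMap.smul_apply]
  congr 1
  · rw [Fintype.sum_prod_type]
    refine Finset.sum_congr rfl fun i _ => Finset.sum_congr rfl fun A _ => ?_
    rw [Finset.smul_sum]
    refine Finset.sum_congr rfl fun β _ => ?_
    rw [smul_smul]
  · rw [Fintype.sum_prod_type_right]
    refine Finset.sum_congr rfl fun A _ => ?_
    simp only [Finset.smul_sum, smul_smul]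
    rw [Finset.sum_comm]
    refine Finset.sum_congr rfl fun β _ => ?_
    rw [← Finset.sum_smul]
    congr 1
    rw [Finset.mul_sum, ← Finset.sum_neg_distrib]
    push_cast
    refine Finset.sum_congr rfl fun j _ => ?_
    ring

/-! ### the vacuum condition -/

theorem Gam_transpose : (Gam G).transpose = -Gam G := by
  have e01 := Gam962.anti G (show (0 : Fin 9) ≠ 1 by decide)
  have e02 := Gam962.anti G (show (0 : Fin 9) ≠ 2 by decide)
  have e12 := Gam962.anti G (show (1 : Fin 9) ≠ 2 by decide)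
  unfold Gam
  rw [Matrix.transpose_mul, Matrix.transpose_mul, G.symm, G.symm, G.symm]
  calc G.γ 2 * (G.γ 1 * G.γ 0) = -(G.γ 2 * (G.γ 0 * G.γ 1)) := by rw [e01]; noncomm_ring
    _ = -((G.γ 2 * G.γ 0) * G.γ 1) := by noncomm_ring
    _ = (G.γ 0 * G.γ 2) * G.γ 1 := by rw [e02]; noncomm_ring
    _ = G.γ 0 * (G.γ 2 * G.γ 1) := by noncomm_ring
    _ = -(G.γ 0 * G.γ 1 * G.γ 2) := by
        have : G.γ 2 * G.γ 1 = -(G.γ 1 * G.γ 2) := by rw [e12, neg_neg]
        rw [this]; noncomm_ring

theorem Gam_sq : Gam G * Gam G = -1 := by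
  have h : (Gam G).transpose * Gam G = 1 := by
    unfold Gam
    rw [Matrix.transpose_mul, Matrix.transpose_mul, G.symm, G.symm, G.symm]
    have h0 := Gam962.sq_one G 0
    have h1 := Gam962.sq_one G 1
    have h2 := Gam962.sq_one G 2
    calc G.γ 2 * (G.γ 1 * G.γ 0) * (G.γ 0 * G.γ 1 * G.γ 2)
        = G.γ 2 * (G.γ 1 * (G.γ 0 * G.γ 0) * G.γ 1) * G.γ 2 := by noncomm_ring
      _ = 1 := by rw [h0, Matrix.mul_one, h1, Matrix.mul_one, h2]
  rw [Gam_transpose, Matrix.neg_mul] at h
  rw [← h, neg_neg]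

/-- the sign of `c_j` -/
def sg (j : Fin 9) : ℝ := if (j : ℕ) < 3 then 1 else -1

theorem cc_sg (j : Fin 9) : cc j = |cc j| * sg j := by
  unfold cc sg
  split_ifs
  · norm_num
  · rw [abs_neg, abs_of_pos (by norm_num)]; ring

theorem gam_Gam (j : Fin 9) : G.γ j * Gam G = sg j • (Gam G * G.γ j) := by
  have e01 := Gam962.anti G (show (0 : Fin 9) ≠ 1 by decide)
  have e02 := Gam962.anti G (show (0 : Fin 9) ≠ 2 by decide)
  have e12 := Gam962.anti G (show (1 : Fin 9) ≠ 2 by decide)
  have h0 := Gam962.sq_one G 0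
  have h1 := Gam962.sq_one G 1
  have h2 := Gam962.sq_one G 2
  by_cases hj : (j : ℕ) < 3
  · have hs : sg j = 1 := by unfold sg; rw [if_pos hj]
    rw [hs, one_smul]
    have hall : ∀ j : Fin 9, (j : ℕ) < 3 → j = 0 ∨ j = 1 ∨ j = 2 := by decide
    have hj' := hall j hj
    unfold Gam
    rcases hj' with rfl | rfl | rfl
    · calc G.γ 0 * (G.γ 0 * G.γ 1 * G.γ 2) = -(G.γ 0 * (G.γ 1 * G.γ 0) * G.γ 2) := by
            rw [e01]; noncomm_ring
        _ = -(G.γ 0 * G.γ 1 * (G.γ 0 * G.γ 2)) := by noncomm_ring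
        _ = G.γ 0 * G.γ 1 * G.γ 2 * G.γ 0 := by rw [e02]; noncomm_ring
    · have e10 : G.γ 1 * G.γ 0 = -(G.γ 0 * G.γ 1) := by rw [e01, neg_neg]
      calc G.γ 1 * (G.γ 0 * G.γ 1 * G.γ 2) = (G.γ 1 * G.γ 0) * (G.γ 1 * G.γ 2) := by noncomm_ring
        _ = G.γ 0 * G.γ 1 * G.γ 2 * G.γ 1 := by rw [e10, e12]; noncomm_ring
    · have e20 : G.γ 2 * G.γ 0 = -(G.γ 0 * G.γ 2) := by rw [e02, neg_neg]
      have e21 : G.γ 2 * G.γ 1 = -(G.γ 1 * G.γ 2) := by rw [e12, neg_neg]
      calc G.γ 2 * (G.γ 0 * G.γ 1 * G.γ 2) = (G.γ 2 * G.γ 0) * (G.γ 1 * G.γ 2) := by noncomm_ring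
        _ = -(G.γ 0 * (G.γ 2 * G.γ 1) * G.γ 2) := by rw [e20]; noncomm_ring
        _ = G.γ 0 * G.γ 1 * G.γ 2 * G.γ 2 := by rw [e21]; noncomm_ring
  · have hs : sg j = -1 := by unfold sg; rw [if_neg hj]
    rw [hs, neg_one_smul]
    have hj0 : j ≠ 0 := by rintro rfl; exact hj (by decide)
    have hj1 : j ≠ 1 := by rintro rfl; exact hj (by decide)
    have hj2 : j ≠ 2 := by rintro rfl; exact hj (by decide)
    have e0 := Gam962.anti G hj0
    have e1 := Gam962.anti G hj1
    have e2 := Gam962.anti G hj2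
    unfold Gam
    calc G.γ j * (G.γ 0 * G.γ 1 * G.γ 2) = (G.γ j * G.γ 0) * (G.γ 1 * G.γ 2) := by noncomm_ring
      _ = -(G.γ 0 * (G.γ j * G.γ 1) * G.γ 2) := by rw [e0]; noncomm_ring
      _ = G.γ 0 * G.γ 1 * (G.γ j * G.γ 2) := by rw [e1]; noncomm_ring
      _ = -(G.γ 0 * G.γ 1 * G.γ 2 * G.γ j) := by rw [e2]; noncomm_ring

/-- the annihilators `θ_β - i Σ Γ_γβ θ_γ` -/
def B (L : Light p F) (G : GammaNine) (β : Fin 16) (b : Fin p) : F →ₗ[ℂ] F :=
  L.θ β b - Complex.I • ∑ γ, ((Gam G γ β : ℝ) : ℂ) • L.θ γ b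

theorem B_apply (β : Fin 16) (b : Fin p) (w : F) :
    B L G β b w = L.θ β b w - Complex.I • ∑ γ, ((Gam G γ β : ℝ) : ℂ) • L.θ γ b w := by
  simp [B, LinearMap.sum_apply]

theorem LVac_iff_B (e : F) : LVac L G e ↔ ∀ β b, B L G β b e = 0 := by
  unfold LVac
  simp only [B_apply, sub_eq_zero]

theorem C_eq {m : ℝ} (hm : 0 < m) (α : Fin 16) (k : Fin 9 × Fin p) (w : F) :
    (sys L G hm).C α k w = (Complex.I * ((m * |cc k.1| : ℝ) : ℂ)) •
      ∑ β, ((G.γ k.1 α β : ℝ) : ℂ) • B L G β k.2 w := by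
  have h1 : ∑ β, ((G.γ k.1 α β : ℝ) : ℂ) • B L G β k.2 w =
      (∑ β, ((G.γ k.1 α β : ℝ) : ℂ) • L.θ β k.2 w) +
      (Complex.I * (sg k.1 : ℂ)) • ∑ β, (((Gam G * G.γ k.1) α β : ℝ) : ℂ) • L.θ β k.2 w := by
    simp only [B_apply, smul_sub, Finset.sum_sub_distrib]
    rw [sub_eq_add_neg]
    congr 1
    have h2 : ∀ γ, ∑ β, G.γ k.1 α β * Gam G γ β = -(sg k.1 * (Gam G * G.γ k.1) α γ) := by
      intro γ
      have h3 : (G.γ k.1 * (Gam G).transpose) α γ = ∑ β, G.γ k.1 α β * Gam G γ β := by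
        simp [Matrix.mul_apply, Matrix.transpose_apply]
      rw [← h3, Gam_transpose, Matrix.mul_neg, gam_Gam]
      simp [Matrix.neg_apply, Matrix.smul_apply]
    have h4 : ∑ β, ((G.γ k.1 α β : ℝ) : ℂ) •
        (Complex.I • ∑ γ, ((Gam G γ β : ℝ) : ℂ) • L.θ γ k.2 w) =
        Complex.I • ∑ γ, ((∑ β, G.γ k.1 α β * Gam G γ β : ℝ) : ℂ) • L.θ γ k.2 w := by
      simp only [Finset.smul_sum, smul_smul]
      rw [Finset.sum_comm]
      refine Finset.sum_congr rfl fun γ _ => ?_
      rw [← Finset.sum_smul]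
      congr 1
      push_cast
      rw [Finset.mul_sum]
      refine Finset.sum_congr rfl fun β _ => ?_
      ring
    rw [h4]
    simp only [h2]
    simp only [Finset.smul_sum, smul_smul, ← Finset.sum_neg_distrib]
    refine Finset.sum_congr rfl fun γ _ => ?_
    rw [← neg_smul]
    congr 1
    push_cast
    ring
  rw [h1, smul_add, smul_smul]
  have h5 : (sys L G hm).C α k w = (Complex.I * ((m * |cc k.1| : ℝ) : ℂ)) •
      (∑ β, ((G.γ k.1 α β : ℝ) : ℂ) • L.θ β k.2 w) +
      ∑ β, ((-(m * cc k.1 * (Gam G * G.γ k.1) α β) : ℝ) : ℂ) • L.θ β k.2 w := by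
    unfold OscSys.C sys
    simp only [LinearMap.add_apply, LinearMap.smul_apply, LinearMap.sum_apply]
  rw [h5]
  congr 1
  rw [Finset.smul_sum]
  refine Finset.sum_congr rfl fun β _ => ?_
  rw [smul_smul]
  congr 1
  conv_lhs => rw [cc_sg k.1]
  push_cast
  have hI : Complex.I * (((m : ℝ) : ℂ) * ((|cc k.1| : ℝ) : ℂ)) * (Complex.I * ((sg k.1 : ℝ) : ℂ)) =
      -(((m : ℝ) : ℂ) * ((|cc k.1| : ℝ) : ℂ) * ((sg k.1 : ℝ) : ℂ)) := by
    linear_combination (((m : ℝ) : ℂ) * ((|cc k.1| : ℝ) : ℂ) * ((sg k.1 : ℝ) : ℂ)) * Complex.I_mul_I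
  rw [hI]
  ring

theorem LVac_iff_C {m : ℝ} (hm : 0 < m) (e : F) :
    LVac L G e ↔ ∀ α k, (sys L G hm).C α k e = 0 := by
  rw [LVac_iff_B]
  constructor
  · intro h α k
    rw [C_eq]
    simp [h]
  · intro h β b
    have h1 : ∀ α, ∑ β, ((G.γ 0 α β : ℝ) : ℂ) • B L G β b e = 0 := by
      intro α
      have h2 := h α (0, b)
      rw [C_eq] at h2
      have h3 : (Complex.I * ((m * |cc (0 : Fin 9)| : ℝ) : ℂ)) ≠ 0 := by
        apply mul_ne_zero Complex.I_ne_zero
        exact_mod_cast (mul_pos hm (abs_pos.mpr (cc_ne 0))).ne'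
      exact (smul_eq_zero.mp h2).resolve_left h3
    have h4 : ∑ α, ((G.γ 0 β α : ℝ) : ℂ) • ∑ γ, ((G.γ 0 α γ : ℝ) : ℂ) • B L G γ b e = 0 :=
      Finset.sum_eq_zero fun α _ => by rw [h1 α, smul_zero]
    have h5 : ∑ α, ((G.γ 0 β α : ℝ) : ℂ) • ∑ γ, ((G.γ 0 α γ : ℝ) : ℂ) • B L G γ b e =
        ∑ γ, (((G.γ 0 * G.γ 0) β γ : ℝ) : ℂ) • B L G γ b e := by
      simp only [Finset.smul_sum, smul_smul]
      rw [Finset.sum_comm]
      refine Finset.sum_congr rfl fun γ _ => ?_
      rw [← Finset.sum_smul, Matrix.mul_apply]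
      push_cast
      rfl
    rw [h5, Gam962.sq_one] at h4
    simpa [Matrix.one_apply, Finset.sum_ite_eq] using h4

/-! ### the vacuum line -/

/-- the Clifford representation of 442 -/
def rep (L : Light p F) : Cliff442.CRep (EuclideanSpace ℝ (Fin 16 × Fin p)) F where
  θ u := ∑ q : Fin 16 × Fin p, ((u q : ℝ) : ℂ) • L.θ q.1 q.2
  add u v := by
    rw [← Finset.sum_add_distrib]
    refine Finset.sum_congr rfl fun q _ => ?_
    rw [← add_smul]; simp
  smul r u := by
    rw [Finset.smul_sum]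
    refine Finset.sum_congr rfl fun q _ => ?_
    rw [smul_smul]; simp
  symm u f g := by
    simp only [LinearMap.sum_apply, LinearMap.smul_apply, sum_inner, inner_sum, inner_smul_left,
      inner_smul_right, Complex.conj_ofReal]
    exact Finset.sum_congr rfl fun q _ => by rw [L.symm q.1 q.2 f g]
  anti u v := by
    ext f
    simp only [LinearMap.add_apply, Module.End.mul_apply, LinearMap.smul_apply,
      Module.End.one_apply, LinearMap.sum_apply, map_sum, map_smul, Finset.smul_sum, smul_smul]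
    have e1 : ∑ x : Fin 16 × Fin p, ∑ y : Fin 16 × Fin p,
        (((v x : ℝ) : ℂ) * ((u y : ℝ) : ℂ)) • L.θ y.1 y.2 (L.θ x.1 x.2 f) =
        ∑ x : Fin 16 × Fin p, ∑ y : Fin 16 × Fin p,
        (((u x : ℝ) : ℂ) * ((v y : ℝ) : ℂ)) • L.θ x.1 x.2 (L.θ y.1 y.2 f) := by
      rw [Finset.sum_comm]
      refine Finset.sum_congr rfl fun x _ => Finset.sum_congr rfl fun y _ => ?_
      rw [mul_comm]
    rw [e1, ← Finset.sum_add_distrib]
    have e2 : ∀ x : Fin 16 × Fin p, (∑ y : Fin 16 × Fin p,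
        (((u x : ℝ) : ℂ) * ((v y : ℝ) : ℂ)) • L.θ x.1 x.2 (L.θ y.1 y.2 f)) +
        (∑ y : Fin 16 × Fin p,
        (((u x : ℝ) : ℂ) * ((v y : ℝ) : ℂ)) • L.θ y.1 y.2 (L.θ x.1 x.2 f)) =
        (((u x : ℝ) : ℂ) * ((v x : ℝ) : ℂ)) • f := by
      intro x
      rw [← Finset.sum_add_distrib]
      have e3 : ∀ y : Fin 16 × Fin p,
          (((u x : ℝ) : ℂ) * ((v y : ℝ) : ℂ)) • L.θ x.1 x.2 (L.θ y.1 y.2 f) +
          (((u x : ℝ) : ℂ) * ((v y : ℝ) : ℂ)) • L.θ y.1 y.2 (L.θ x.1 x.2 f) =
          if x = y then (((u x : ℝ) : ℂ) * ((v y : ℝ) : ℂ)) • f else 0 := by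
        intro y
        rw [← smul_add]
        have := congrArg (fun T : F →ₗ[ℂ] F => T f) (L.anti x.1 x.2 y.1 y.2)
        simp only [LinearMap.add_apply, LinearMap.comp_apply] at this
        rw [this]
        by_cases h : x = y
        · subst h; simp
        · have h' : ¬ (x.1 = y.1 ∧ x.2 = y.2) := fun h2 => h (Prod.ext h2.1 h2.2)
          simp [h, h']
      simp only [e3, Finset.sum_ite_eq, Finset.mem_univ, if_true]
    simp only [e2]
    rw [← Finset.sum_smul]
    congr 1
    rw [PiLp.inner_apply]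
    push_cast
    refine Finset.sum_congr rfl fun x _ => ?_
    simp [mul_comm]

theorem rep_single (q : Fin 16 × Fin p) (f : F) :
    (rep L).θ (EuclideanSpace.single q 1) f = L.θ q.1 q.2 f := by
  simp only [rep, LinearMap.sum_apply, LinearMap.smul_apply]
  rw [Finset.sum_eq_single q]
  · simp
  · intro b _ hb
    simp [hb]
  · simp

/-- `Γ ⊗ 1` -/
def GA (p : ℕ) (G : GammaNine) :
    EuclideanSpace ℝ (Fin 16 × Fin p) →ₗ[ℝ] EuclideanSpace ℝ (Fin 16 × Fin p) where
  toFun x := WithLp.toLp 2 fun q => ∑ α, Gam G q.1 α * x (α, q.2)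
  map_add' x y := by
    ext q
    simp [mul_add, Finset.sum_add_distrib]
  map_smul' r x := by
    ext q
    simp only [PiLp.smul_apply, smul_eq_mul, RingHom.id_apply, Finset.mul_sum]
    exact Finset.sum_congr rfl fun α _ => by ring

theorem GA_apply (x : EuclideanSpace ℝ (Fin 16 × Fin p)) (q : Fin 16 × Fin p) :
    GA p G x q = ∑ α, Gam G q.1 α * x (α, q.2) := rfl

theorem GA_skew : Cliff442.Skew (GA p G) := by
  intro x y
  rw [PiLp.inner_apply, PiLp.inner_apply, Fintype.sum_prod_type_right,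
    Fintype.sum_prod_type_right, ← Finset.sum_neg_distrib]
  refine Finset.sum_congr rfl fun A _ => ?_
  simp only [GA_apply, RCLike.inner_apply, conj_trivial, Finset.mul_sum, Finset.sum_mul]
  rw [Finset.sum_comm, ← Finset.sum_neg_distrib]
  refine Finset.sum_congr rfl fun α _ => ?_
  rw [← Finset.sum_neg_distrib]
  refine Finset.sum_congr rfl fun β _ => ?_
  have h : Gam G β α = -Gam G α β := by
    have := congrFun (congrFun (Gam_transpose G) α) β
    simpa [Matrix.transpose_apply] using this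
  rw [h]; ring

theorem GA_sq (x : EuclideanSpace ℝ (Fin 16 × Fin p)) : GA p G (GA p G x) = -x := by
  ext q
  simp only [GA_apply, PiLp.neg_apply, Finset.mul_sum]
  rw [Finset.sum_comm]
  have h : ∀ β, ∑ α, Gam G q.1 α * (Gam G α β * x (β, q.2)) = (Gam G * Gam G) q.1 β * x (β, q.2) := by
    intro β
    rw [Matrix.mul_apply, Finset.sum_mul]
    exact Finset.sum_congr rfl fun α _ => by ring
  simp only [h, Gam_sq]
  simp [Matrix.neg_apply, Matrix.one_apply, Finset.sum_ite_eq]

theorem LVac_iff_rep (e : F) :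
    LVac L G e ↔ ∀ x, (rep L).θ x e = Complex.I • (rep L).θ (GA p G x) e := by
  have hs : ∀ q : Fin 16 × Fin p, (rep L).θ (GA p G (EuclideanSpace.single q 1)) e =
      ∑ β, ((Gam G β q.1 : ℝ) : ℂ) • L.θ β q.2 e := by
    intro q
    simp only [rep, LinearMap.sum_apply, LinearMap.smul_apply]
    rw [Fintype.sum_prod_type]
    refine Finset.sum_congr rfl fun β _ => ?_
    rw [Finset.sum_eq_single q.2]
    · congr 2
      rw [GA_apply, Finset.sum_eq_single q.1]
      · simp
      · intro α _ hα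
        have : (α, q.2) ≠ q := fun h => hα (by rw [← h])
        simp [this]
      · simp
    · intro b _ hb
      have h0 : GA p G (EuclideanSpace.single q 1) (β, b) = 0 := by
        rw [GA_apply]
        refine Finset.sum_eq_zero fun α _ => ?_
        have : (α, b) ≠ q := fun h => hb (by rw [← h])
        simp [this]
      rw [h0]; simp
    · simp
  constructor
  · intro h x
    have hx : x = ∑ q, (x q) • EuclideanSpace.single q (1 : ℝ) := by
      ext r
      simp only [WithLp.ofLp_sum, Finset.sum_apply, WithLp.ofLp_smul, Pi.smul_apply, smul_eq_mul]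
      rw [Finset.sum_eq_single r]
      · simp
      · intro b _ hb
        simp [Ne.symm hb]
      · simp
    rw [hx]
    simp only [map_sum, map_smul, (rep L).sum, (rep L).smul, LinearMap.sum_apply,
      LinearMap.smul_apply, Finset.smul_sum]
    refine Finset.sum_congr rfl fun q _ => ?_
    rw [rep_single, hs, smul_comm]
    rw [← h q.1 q.2]
  · intro h α A
    have := h (EuclideanSpace.single (α, A) 1)
    rw [rep_single, hs] at this
    exact this

theorem rep_irr : (rep L).Irr := by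
  refine ⟨fun _ _ _ _ => trivial, fun W _ hW => ?_⟩
  apply L.irr W
  intro α a v hv
  have := hW (EuclideanSpace.single (α, a) 1) trivial v hv
  rwa [rep_single] at this

/-- **the vacuum line exists and is a line** -/
theorem exists_xi [Nontrivial F] : ∃ ξ : F, ‖ξ‖ = 1 ∧ LVac L G ξ ∧
    ∀ e, LVac L G e → e = ⟪ξ, e⟫_ℂ • ξ := by
  obtain ⟨n, u, v, lam, hNF⟩ := (GA_skew (p := p) G).exists_NF
  have hlam : ∀ k ∈ Finset.range n, lam k = 1 := by
    intro k hk
    have h1 : GA p G (GA p G (u k)) = -(lam k ^ 2) • u k := by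
      rw [hNF.au k hk, map_smul, hNF.av k hk, smul_smul]
      congr 1; ring
    rw [GA_sq] at h1
    have h2 : (1 - lam k ^ 2) • u k = 0 := by
      rw [sub_smul, one_smul]
      have : u k = (lam k ^ 2) • u k := by
        have := congrArg Neg.neg h1
        rw [neg_neg, neg_smul, neg_neg] at this
        exact this
      rw [← this, sub_self]
    have h3 : u k ≠ 0 := by
      intro h0
      have := (hNF.prs.pr k hk).1
      rw [h0, norm_zero] at this
      exact zero_ne_one this
    have h4 := (smul_eq_zero.mp h2).resolve_right h3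
    have h5 := hNF.pos k hk
    nlinarith
  have hiff : ∀ e, LVac L G e ↔
      ∀ k ∈ Finset.range n, (rep L).ann (u k) (v k) e = 0 := by
    intro e
    rw [LVac_iff_rep]
    constructor
    · intro h k hk
      rw [Cliff442.CRep.ann_apply, h (u k), hNF.au k hk, hlam k hk, neg_smul, one_smul,
        (rep L).neg, LinearMap.neg_apply, smul_neg, neg_add_cancel]
    · intro h x
      have hx0 : ∀ k ∈ Finset.range n, (rep L).θ (u k) e = -(Complex.I • (rep L).θ (v k) e) := by
        intro k hk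
        have := h k hk
        rw [Cliff442.CRep.ann_apply] at this
        exact eq_neg_of_add_eq_zero_left this
      have hproj := hNF.ker _ (hNF.prs.proj_mem x)
      have hxe : x = ∑ l ∈ Finset.range n, (⟪x, u l⟫_ℝ • u l + ⟪x, v l⟫_ℝ • v l) := by
        have h1 := congrArg (GA p G) hproj
        rw [GA_sq, map_zero, neg_eq_zero, sub_eq_zero] at h1
        exact h1
      rw [hxe]
      simp only [map_sum, map_add, map_smul, (rep L).sum, (rep L).add, (rep L).smul,
        LinearMap.sum_apply, LinearMap.add_apply, LinearMap.smul_apply, Finset.smul_sum]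
      refine Finset.sum_congr rfl fun k hk => ?_
      rw [hNF.au k hk, hNF.av k hk, hlam k hk, neg_smul, one_smul, one_smul, (rep L).neg,
        LinearMap.neg_apply, hx0 k hk]
      match_scalars
      linear_combination ((⟪x, v k⟫_ℝ : ℝ) : ℂ) * Complex.I_sq
  have hperp : Cliff442.CRep.perpS ⊤ u v (Finset.range n) = ⊥ := by
    rw [eq_bot_iff]
    intro x hx
    have h1 := hNF.ker x (fun k hk => hx.2 k hk)
    have h2 := congrArg (GA p G) h1
    rw [GA_sq, map_zero, neg_eq_zero] at h2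
    exact (Submodule.mem_bot ℝ).mpr h2
  obtain ⟨ξ, hξ, hn⟩ := Cliff442.CRep.exists_vac (M := rep L) (K := ⊤) (W := ⊤)
    (fun _ _ _ _ => trivial) hNF.prs (fun _ _ => ⟨trivial, trivial⟩) top_ne_bot
  refine ⟨ξ, hn, (hiff ξ).mpr hξ.2, fun e he => ?_⟩
  exact Cliff442.CRep.vac_line (M := rep L) (K := ⊤) (W := ⊤) (rep_irr L) hNF.prs
    (fun _ _ => ⟨trivial, trivial⟩) hperp hξ hn ⟨trivial, (hiff e).mp he⟩

/-! ### the zero mode of the free model -/

section final

variable {m : ℝ}

theorem gs_pos (x : EuclideanSpace ℝ (Fin 9 × Fin p)) : 0 < gs p m x := Real.exp_pos _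


theorem gs_smooth (p : ℕ) (m : ℝ) : ContDiff ℝ ∞ (gs p m) := by
  unfold gs
  apply Real.contDiff_exp.comp
  apply contDiff_const.mul
  apply ContDiff.sum
  intro k _
  exact contDiff_const.mul ((EuclideanSpace.proj (𝕜 := ℝ) k).contDiff.pow 2)

theorem gauss_smooth (p : ℕ) (m : ℝ) (e : F) : ContDiff ℝ ∞ (fun x => (gs p m x : ℂ) • e) :=
  (Complex.ofRealCLM.contDiff.comp (gs_smooth p m)).smul contDiff_const

include L G in
theorem gauss_memLp (hm : 0 < m) (e : F) : MemLp (fun x => (gs p m x : ℂ) • e) 2 volume :=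
  FreeD122.gauss_memLp (sys L G hm) e



/-- **Uniqueness**: square integrable weak zero modes of the free model, tested off a removable
set. -/
theorem free_unique (hm : 0 < m) {Z : Set (EuclideanSpace ℝ (Fin 9 × Fin p))} (hZ : Cuts Z)
    {f : EuclideanSpace ℝ (Fin 9 × Fin p) → F} (hf : MemLp f 2 volume)
    (h : ∀ (α : Fin 16) (ψ : EuclideanSpace ℝ (Fin 9 × Fin p) → F), ContDiff ℝ ∞ ψ →
      HasCompactSupport ψ → Disjoint (tsupport ψ) Z → ∫ x, ⟪f x, freeD L G m α ψ x⟫_ℂ = 0) :
    ∃ e : F, LVac L G e ∧ f =ᵐ[volume] fun x => (gs p m x : ℂ) • e := by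
  obtain ⟨e, he, hfe⟩ := zero_mode (sys L G hm) hZ hf (fun α ψ h1 h2 h3 => by
    have := h α ψ h1 h2 h3
    simp only [freeD_eq L G hm] at this
    exact this)
  exact ⟨e, (LVac_iff_C L G hm e).mpr he, hfe⟩

/-- the same with a chosen vacuum vector -/
theorem free_unique' (hm : 0 < m) {Z : Set (EuclideanSpace ℝ (Fin 9 × Fin p))} (hZ : Cuts Z)
    {ξ : F} (hξ : ∀ e, LVac L G e → e = ⟪ξ, e⟫_ℂ • ξ)
    {f : EuclideanSpace ℝ (Fin 9 × Fin p) → F} (hf : MemLp f 2 volume)
    (h : ∀ (α : Fin 16) (ψ : EuclideanSpace ℝ (Fin 9 × Fin p) → F), ContDiff ℝ ∞ ψ →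
      HasCompactSupport ψ → Disjoint (tsupport ψ) Z → ∫ x, ⟪f x, freeD L G m α ψ x⟫_ℂ = 0) :
    ∃ c : ℂ, f =ᵐ[volume] fun x => c • ((gs p m x : ℂ) • ξ) := by
  obtain ⟨e, he, hfe⟩ := free_unique L G hm hZ hf h
  refine ⟨⟪ξ, e⟫_ℂ, hfe.trans (Eventually.of_forall fun x => ?_)⟩
  simp only []
  rw [smul_comm, ← hξ e he]

/-- **Approximation** of the zero mode by real cut-offs of itself off the removed set. -/
theorem free_approx (hm : 0 < m) {Z : Set (EuclideanSpace ℝ (Fin 9 × Fin p))} (hZ : Cuts Z) :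
    ∃ χ : ℕ → EuclideanSpace ℝ (Fin 9 × Fin p) → ℝ, (∀ n, ContDiff ℝ ∞ (χ n)) ∧
      (∀ n, HasCompactSupport (χ n)) ∧ (∀ n, Disjoint (tsupport (χ n)) Z) ∧
      (∀ n x, 0 ≤ χ n x ∧ χ n x ≤ 1) ∧
      ∀ e : F, LVac L G e →
        Tendsto (fun n => eLpNorm (fun x => χ n x • ((gs p m x : ℂ) • e) - (gs p m x : ℂ) • e) 2
          volume) atTop (𝓝 0) ∧
        ∀ α, Tendsto (fun n => eLpNorm (freeD L G m α
          (fun x => χ n x • ((gs p m x : ℂ) • e))) 2 volume) atTop (𝓝 0) := by
  obtain ⟨χ, h1, h2, h3, h4, h5⟩ := approx (sys L G hm) hZ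
  refine ⟨χ, h1, h2, h3, h4, fun e he => ?_⟩
  obtain ⟨h6, h7⟩ := h5 e ((LVac_iff_C L G hm e).mp he)
  refine ⟨h6, fun α => ?_⟩
  have h8 : ∀ φ : EuclideanSpace ℝ (Fin 9 × Fin p) → F, freeD L G m α φ =
      (sys L G hm).D α φ := fun φ => funext fun x => freeD_eq L G hm α φ x
  simp only [h8]
  exact h7 α

end final

end Crest.Agent.R330.Free122
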