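import Crest.Agent.R330.WS_596
import Crest.Agent.R330.IBP_837
import Crest.Agent.R330.Rellich_893

-- ▼ part R330/Decay_968
section

/-!
# Row 330, S9 (helper968): decay of the solutions from an exterior Hardy inequality

A finite family of formally symmetric first order differential expressions `Q a` (helper596's `FOp`)
on a finite dimensional Euclidean space `E`, with symbols `Σ_a ‖σ_a(ℓ) v‖² = 8 ‖ℓ‖² ‖v‖²`;
`S` : pairs (isometry of `E`, map of `F`), `Core S` : the smooth compactly supported functions with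
these symmetries.

* `HI Q S k R₀` : the exterior Hardy inequality `k ∫ |φ|²/|x|² ≤ (1/16) Σ ‖Q_a φ‖²` for core functions
  which vanish on `|x| < R₀`.
* `Sol Q S u` : `u` is a weak solution of all `Q_a u = 0`, with the symmetries, `u/⟨x⟩ ∈ L²`.
* `Sol.hardy_cc`, `Sol.hardy_bdd` : `k ∫ w² |u|²/|x|² ≤ 1/2 ∫ |∇w|² |u|²`.
* `Sol.decay` : for `1 ≤ t`, `t²/2 < k` : `∫_{|x| ≥ 4 R₀} (1+|x|²)^t/|x|² |u|² ≤ C ∫_{|x| ≤ 4 R₀} |u|²`.
-/

set_option autoImplicit false
set_option linter.unusedSectionVars false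
set_option linter.unusedVariables false

open MeasureTheory Set Filter Topology ENNReal
open scoped ContDiff InnerProductSpace

noncomputable section

namespace Crest.Agent.R330.Decay968

open Moll596 WS596

variable {E : Type*} [NormedAddCommGroup E] [InnerProductSpace ℝ E] [FiniteDimensional ℝ E]
  [MeasurableSpace E] [BorelSpace E]
variable {F : Type*} [NormedAddCommGroup F] [InnerProductSpace ℂ F] [CompleteSpace F]
variable {κ : Type*} [Fintype κ]

/-! ### Definitions -/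

/-- Smooth compactly supported functions with the symmetries `S`. -/
structure Core (S : Set ((E ≃ₗᵢ[ℝ] E) × (F →L[ℝ] F))) (φ : E → F) : Prop where
  smooth : ContDiff ℝ ∞ φ
  supp : HasCompactSupport φ
  eqv : ∀ p ∈ S, ∀ x, φ (p.1 x) = p.2 (φ x)

/-- The form `(1/16) Σ_a ‖Q_a φ‖²`. -/
def qe (Q : κ → FOp E F) (φ : E → F) : ℝ≥0∞ := (1 / 16) * ∑ a, ∫⁻ x, ‖(Q a).op φ x‖ₑ ^ 2

/-- Formally symmetric family with Dirac type symbols. -/
structure Frame (Q : κ → FOp E F) : Prop where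
  adj : ∀ a, Adj (Q a) (Q a)
  sym : ∀ (ℓ : E →L[ℝ] ℝ) (v : F),
    ∑ a, ‖(Q a).A (ℓ.smulRight v)‖ ^ 2 = 8 * (‖ℓ‖ ^ 2 * ‖v‖ ^ 2)

/-- **The exterior Hardy inequality.** -/
def HI (Q : κ → FOp E F) (S : Set ((E ≃ₗᵢ[ℝ] E) × (F →L[ℝ] F))) (k R₀ : ℝ) : Prop :=
  ∀ φ : E → F, Core S φ → (∀ x, ‖x‖ < R₀ → φ x = 0) →
    ENNReal.ofReal k * ∫⁻ x, ‖φ x‖ₑ ^ 2 / ‖x‖ₑ ^ 2 ≤ qe Q φ

/-- The weight `1/(1+|x|²)`. -/
def jw (x : E) : ℝ≥0∞ := ENNReal.ofReal (1 / (1 + ‖x‖ ^ 2))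

/-- Weak solutions with `u/⟨x⟩ ∈ L²`. -/
structure Sol (Q : κ → FOp E F) (S : Set ((E ≃ₗᵢ[ℝ] E) × (F →L[ℝ] F))) (u : E → F) : Prop where
  meas : AEStronglyMeasurable u volume
  fin : ∫⁻ x, jw x * ‖u x‖ₑ ^ 2 ≠ ⊤
  weak : ∀ a, Wk (Q a) u (fun _ => 0)
  eqv : ∀ p ∈ S, ∀ᵐ x, u (p.1 x) = p.2 (u x)

/-! ### Elementary facts -/



theorem measurable_jw : Measurable (jw : E → ℝ≥0∞) := by
  unfold jw
  fun_prop

theorem aem_sq {u : E → F} (hu : AEStronglyMeasurable u volume) :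
    AEMeasurable (fun x => ‖u x‖ₑ ^ 2) (volume : Measure E) := hu.enorm.pow_const 2

/-- `L²` norms from a pointwise bound by the weight. -/
theorem n2_le_of_jw {u : E → F} {w : E → ℝ} {K : ℝ} (hK : 0 ≤ K)
    (hw : ∀ x, w x ^ 2 ≤ K * (1 / (1 + ‖x‖ ^ 2))) :
    ∫⁻ x, ‖w x • u x‖ₑ ^ 2 ≤ ENNReal.ofReal K * ∫⁻ x, jw x * ‖u x‖ₑ ^ 2 := by
  rw [← lintegral_const_mul' _ _ ENNReal.ofReal_ne_top]
  refine lintegral_mono fun x => ?_
  rw [enorm_smul, mul_pow, ← mul_assoc]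
  gcongr
  rw [jw, ← ENNReal.ofReal_mul hK, ← ofReal_norm, ← ENNReal.ofReal_pow (norm_nonneg _),
    Real.norm_eq_abs, sq_abs]
  exact ENNReal.ofReal_le_ofReal (hw x)

theorem memLp_of_n2 {v : E → F} (hv : AEStronglyMeasurable v volume)
    (h : ∫⁻ x, ‖v x‖ₑ ^ 2 ≠ ⊤) : MemLp v 2 volume := by
  refine ⟨hv, ?_⟩
  have h1 := sq_eLpNorm v
  by_contra hcon
  rw [not_lt, top_le_iff] at hcon
  rw [hcon, ENNReal.top_pow (by norm_num)] at h1
  exact h h1.symm

theorem n2_ne_top {v : E → F} (hv : MemLp v 2 volume) : ∫⁻ x, ‖v x‖ₑ ^ 2 ≠ ⊤ := by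
  rw [← sq_eLpNorm]
  exact (ENNReal.pow_lt_top hv.2).ne

section sol

variable {Q : κ → FOp E F} {S : Set ((E ≃ₗᵢ[ℝ] E) × (F →L[ℝ] F))} {u : E → F}

theorem Sol.memLp_smul (h : Sol Q S u) {w : E → ℝ} (hw : Continuous w) {K : ℝ} (hK : 0 ≤ K)
    (hb : ∀ x, w x ^ 2 ≤ K * (1 / (1 + ‖x‖ ^ 2))) : MemLp (fun x => w x • u x) 2 volume :=
  memLp_of_n2 (hw.aestronglyMeasurable.smul h.meas)
    (ne_top_of_le_ne_top (ENNReal.mul_ne_top ENNReal.ofReal_ne_top h.fin) (n2_le_of_jw hK hb))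

/-- A continuous function with compact support is bounded by the weight. -/
theorem exists_jw_bound {w : E → ℝ} (hw : Continuous w) (hc : HasCompactSupport w) :
    ∃ K : ℝ, 0 ≤ K ∧ ∀ x, w x ^ 2 ≤ K * (1 / (1 + ‖x‖ ^ 2)) := by
  have h1 : Continuous fun x => w x ^ 2 * (1 + ‖x‖ ^ 2) := by fun_prop
  have h2 : HasCompactSupport fun x => w x ^ 2 * (1 + ‖x‖ ^ 2) := by
    refine hc.mono' ?_
    intro x hx
    apply subset_tsupport
    intro h0
    apply hx
    simp only [h0]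
    ring
  obtain ⟨C, hC⟩ := h2.exists_bound_of_continuous h1
  refine ⟨C, (norm_nonneg _).trans (hC 0), fun x => ?_⟩
  have h3 : (0 : ℝ) < 1 + ‖x‖ ^ 2 := by positivity
  rw [mul_one_div, le_div_iff₀ h3]
  exact (le_abs_self _).trans (hC x)

theorem Sol.memLp_cc (h : Sol Q S u) {w : E → ℝ} (hw : Continuous w) (hc : HasCompactSupport w) :
    MemLp (fun x => w x • u x) 2 volume := by
  obtain ⟨K, hK, hb⟩ := exists_jw_bound hw hc
  exact h.memLp_smul hw hK hb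

theorem Sol.locInt (h : Sol Q S u) : LocallyIntegrable u volume := by
  rw [locallyIntegrable_iff]
  intro C hC
  obtain ⟨R, hR0, hR⟩ : ∃ R : ℝ, 0 < R ∧ ∀ x ∈ C, ‖x‖ ≤ R := by
    obtain ⟨R, hR⟩ := hC.isBounded.exists_norm_le
    exact ⟨max R 1, lt_max_of_lt_right one_pos, fun x hx => (hR x hx).trans (le_max_left _ _)⟩
  have h1 := (h.memLp_cc (cut_smooth R).continuous (cut_supp hR0)).restrict C
  have hfin : IsFiniteMeasure (volume.restrict C) := ⟨by
    rw [Measure.restrict_apply_univ]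
    exact hC.measure_lt_top⟩
  have h2 : Integrable (fun x => cut R x • u x) (volume.restrict C) :=
    h1.integrable (by norm_num)
  refine h2.congr ?_
  filter_upwards [ae_restrict_mem hC.measurableSet] with x hx
  rw [cut_one hR0 (hR x hx), one_smul]

end sol

/-! ### Exterior cut-off -/

/-- `0` on `|x| ≤ R`, `1` on `|x| ≥ 2 R`. -/
def ext (R : ℝ) (x : E) : ℝ := 1 - cut R x

theorem ext_smooth (R : ℝ) : ContDiff ℝ ∞ (ext R : E → ℝ) := contDiff_const.sub (cut_smooth R)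

theorem ext_nonneg (R : ℝ) (x : E) : 0 ≤ ext R x := sub_nonneg.2 (cut_le_one R x)

theorem ext_le_one (R : ℝ) (x : E) : ext R x ≤ 1 := sub_le_self _ (cut_nonneg R x)

theorem ext_zero {R : ℝ} (hR : 0 < R) {x : E} (hx : ‖x‖ ≤ R) : ext R x = 0 := by
  rw [ext, cut_one hR hx, sub_self]

theorem ext_one {R : ℝ} (hR : 0 < R) {x : E} (hx : 2 * R ≤ ‖x‖) : ext R x = 1 := by
  rw [ext, cut_zero hR hx, sub_zero]

theorem ext_radial (R : ℝ) {x y : E} (h : ‖x‖ = ‖y‖) : ext R x = ext R y := by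
  rw [ext, ext, cut_radial R h]

theorem fderiv_ext (R : ℝ) (x : E) : fderiv ℝ (ext R : E → ℝ) x = -fderiv ℝ (cut R) x := by
  unfold ext
  rw [fderiv_const_sub]


/-- The derivative vanishes where the cut-off is `1`. -/
theorem fderiv_ext_of_one {R : ℝ} {x : E} (hx : ext R x = 1) : fderiv ℝ (ext R : E → ℝ) x = 0 := by
  have h1 : IsLocalMax (ext R : E → ℝ) x := Eventually.of_forall fun y => by
    rw [hx]
    exact ext_le_one R y
  exact h1.fderiv_eq_zero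

theorem fderiv_cut_of_zero {R : ℝ} {x : E} (hx : cut R x = 0) :
    fderiv ℝ (cut R : E → ℝ) x = 0 := by
  have h1 : IsLocalMin (cut R : E → ℝ) x := Eventually.of_forall fun y => by
    rw [hx]
    exact cut_nonneg R y
  exact h1.fderiv_eq_zero

theorem fderiv_cut_of_one {R : ℝ} {x : E} (hx : cut R x = 1) :
    fderiv ℝ (cut R : E → ℝ) x = 0 := by
  have h1 : IsLocalMax (cut R : E → ℝ) x := Eventually.of_forall fun y => by
    rw [hx]
    exact cut_le_one R y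
  exact h1.fderiv_eq_zero

variable (E) in
/-- `|∇ cut_R| ≤ C/(1+|x|)`, `R ≥ 1`, `C` independent of `R`. -/
theorem exists_cut_bound : ∃ C : ℝ, 0 ≤ C ∧ ∀ R : ℝ, 1 ≤ R → ∀ x : E,
    ‖fderiv ℝ (cut R : E → ℝ) x‖ ≤ C / (1 + ‖x‖) := by
  obtain ⟨C, hC0, hC⟩ := exists_cut0_bound E
  refine ⟨3 * C, by positivity, fun R hR x => ?_⟩
  have hR0 : (0 : ℝ) < R := by linarith
  by_cases hx : 2 * R ≤ ‖x‖
  · rw [fderiv_cut_of_zero (cut_zero hR0 hx), norm_zero]
    positivity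
  · rw [not_le] at hx
    rw [fderiv_cut, norm_smul, norm_inv, Real.norm_of_nonneg hR0.le, le_div_iff₀ (by positivity),
      inv_mul_eq_div, div_mul_eq_mul_div, div_le_iff₀ hR0]
    have h1 := hC (R⁻¹ • x)
    have h2 : 1 + ‖x‖ ≤ 3 * R := by linarith
    calc ‖fderiv ℝ cut0 (R⁻¹ • x)‖ * (1 + ‖x‖) ≤ C * (3 * R) := by gcongr
      _ = 3 * C * R := by ring

/-! ### The weighted identity -/

section main

variable {Q : κ → FOp E F} {S : Set ((E ≃ₗᵢ[ℝ] E) × (F →L[ℝ] F))} {u : E → F}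
  {k R₀ : ℝ}

/-- Symbols, extended real valued. -/
theorem Frame.sym_enorm (hQ : Frame Q) (ℓ : E →L[ℝ] ℝ) (v : F) :
    ∑ a, ‖(Q a).A (ℓ.smulRight v)‖ₑ ^ 2 = 8 * (‖ℓ‖ₑ ^ 2 * ‖v‖ₑ ^ 2) := by
  have h1 : ∀ v : F, ‖v‖ₑ ^ 2 = ENNReal.ofReal (‖v‖ ^ 2) := fun v => by
    rw [← ofReal_norm, ENNReal.ofReal_pow (norm_nonneg _)]
  have h2 : ‖ℓ‖ₑ ^ 2 = ENNReal.ofReal (‖ℓ‖ ^ 2) := by
    rw [← ofReal_norm, ENNReal.ofReal_pow (norm_nonneg _)]
  simp only [h1]
  rw [← ENNReal.ofReal_sum_of_nonneg (fun a _ => by positivity), hQ.sym, h2,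
    ENNReal.ofReal_mul (by norm_num), ENNReal.ofReal_mul (by positivity)]
  norm_num

/-- **The weighted inequality**, compactly supported radial weights. -/
theorem Sol.hardy_cc (hQ : Frame Q) (hR₀ : 0 < R₀) (hH : HI Q S k R₀) (h : Sol Q S u) {w : E → ℝ}
    (hw : ContDiff ℝ ∞ w) (hc : HasCompactSupport w) (hrad : ∀ x y, ‖x‖ = ‖y‖ → w x = w y)
    (h0 : ∀ x, ‖x‖ ≤ 2 * R₀ → w x = 0) :
    ENNReal.ofReal k * ∫⁻ x, ‖w x • u x‖ₑ ^ 2 / ‖x‖ₑ ^ 2 ≤
      (1 / 2) * ∫⁻ x, ‖fderiv ℝ w x‖ₑ ^ 2 * ‖u x‖ₑ ^ 2 := by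
  set v : E → F := fun x => w x • u x with hv
  set Z : κ → E → F := fun a x => (Q a).A ((fderiv ℝ w x).smulRight (u x)) with hZ
  have hvL : MemLp v 2 volume := h.memLp_cc hw.continuous hc
  have hdw : Continuous (fderiv ℝ w) := hw.continuous_fderiv (by simp)
  have hZm : ∀ a, AEStronglyMeasurable (Z a) volume := fun a =>
    (Q a).A.continuous.comp_aestronglyMeasurable
      ((ContinuousLinearMap.smulRightL ℝ E F).aestronglyMeasurable_comp₂
        hdw.aestronglyMeasurable h.meas)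
  have hDL : MemLp (fun x => ‖fderiv ℝ w x‖ • u x) 2 volume := by
    refine h.memLp_cc hdw.norm ?_
    exact (hc.fderiv ℝ).comp_left (g := fun L => ‖L‖) norm_zero
  have hZL : ∀ a, MemLp (Z a) 2 volume := fun a => by
    refine hDL.of_le_mul (c := ‖(Q a).A‖) (hZm a) (Eventually.of_forall fun x => ?_)
    calc ‖(Q a).A ((fderiv ℝ w x).smulRight (u x))‖
        ≤ ‖(Q a).A‖ * ‖(fderiv ℝ w x).smulRight (u x)‖ := ContinuousLinearMap.le_opNorm _ _
      _ = ‖(Q a).A‖ * ‖‖fderiv ℝ w x‖ • u x‖ := by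
          rw [ContinuousLinearMap.norm_smulRight_apply, norm_smul, norm_norm]
  have hW : ∀ a, Wk (Q a) v (Z a) := fun a => by
    have h1 := Wk.smul (hQ.adj a) h.locInt (χ := fun _ => (0 : F))
      (locallyIntegrable_const 0) (h.weak a) hw
    simpa only [smul_zero, zero_add] using h1
  obtain ⟨φ, hφs, hφc, hφe, hφ1, hφ2⟩ := weak_strong hQ.adj hvL hZL hW
  have hex : ContDiff ℝ ∞ (ext R₀ : E → ℝ) := ext_smooth R₀
  have hv0 : ∀ x, ‖x‖ ≤ 2 * R₀ → v x = 0 := fun x hx => by simp only [hv, h0 x hx, zero_smul]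
  -- the cut-off functions
  have hcore : ∀ n, Core S (fun x => ext R₀ x • φ n x) := fun n =>
    { smooth := hex.smul (hφs n)
      supp := (hφc n).smul_left
      eqv := fun p hp x => by
        have h1 := hφe n p.1 p.2 (by
          filter_upwards [h.eqv p hp] with y hy
          simp only [hv]
          rw [hy, map_smul, hrad _ _ (p.1.norm_map y)]) x
        simp only [h1, map_smul, ext_radial R₀ (p.1.norm_map x)] }
  have hHn : ∀ n, ENNReal.ofReal k * ∫⁻ x, ‖ext R₀ x • φ n x‖ₑ ^ 2 / ‖x‖ₑ ^ 2 ≤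
      qe Q (fun x => ext R₀ x • φ n x) := fun n =>
    hH _ (hcore n) fun x hx => by simp only [ext_zero hR₀ hx.le, zero_smul]
  -- left side
  set hh : E → ℝ := fun x => if R₀ ≤ ‖x‖ then ‖x‖⁻¹ else 0 with hhh
  have hh_meas : Measurable hh := Measurable.ite (measurableSet_le measurable_const measurable_norm)
    measurable_norm.inv measurable_const
  have hh_le : ∀ x, ‖hh x‖ ≤ R₀⁻¹ := fun x => by
    simp only [hhh]
    split_ifs with hx
    · rw [norm_inv, norm_norm]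
      exact inv_anti₀ hR₀ hx
    · rw [norm_zero]
      positivity
  have key : ∀ f : E → F, (∀ x, ‖x‖ < R₀ → f x = 0) → ∀ x,
      ‖f x‖ₑ ^ 2 / ‖x‖ₑ ^ 2 = ‖hh x • f x‖ₑ ^ 2 := fun f hf x => by
    by_cases hx : R₀ ≤ ‖x‖
    · have hx0 : ‖x‖ ≠ 0 := (hR₀.trans_le hx).ne'
      have h1 : hh x = ‖x‖⁻¹ := if_pos hx
      rw [h1, enorm_smul, enorm_inv hx0, enorm_norm, mul_pow, ENNReal.inv_pow.symm, mul_comm]
      rfl
    · rw [hf x (not_le.1 hx)]
      simp
  have hL1 : Tendsto (fun n => ENNReal.ofReal k * ∫⁻ x, ‖ext R₀ x • φ n x‖ₑ ^ 2 / ‖x‖ₑ ^ 2) atTop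
      (𝓝 (ENNReal.ofReal k * ∫⁻ x, ‖v x‖ₑ ^ 2 / ‖x‖ₑ ^ 2)) := by
    refine ENNReal.Tendsto.const_mul ?_ (Or.inr ENNReal.ofReal_ne_top)
    have e1 : ∀ n, ∫⁻ x, ‖ext R₀ x • φ n x‖ₑ ^ 2 / ‖x‖ₑ ^ 2 =
        eLpNorm (fun x => hh x • ext R₀ x • φ n x) 2 volume ^ 2 := fun n => by
      rw [sq_eLpNorm]
      refine lintegral_congr fun x => key (fun x => ext R₀ x • φ n x) (fun y hy => ?_) x
      simp only [ext_zero hR₀ hy.le, zero_smul]
    have e2 : ∫⁻ x, ‖v x‖ₑ ^ 2 / ‖x‖ₑ ^ 2 = eLpNorm (fun x => hh x • v x) 2 volume ^ 2 := by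
      rw [sq_eLpNorm]
      exact lintegral_congr fun x => key v (fun y hy => hv0 y (by linarith)) x
    simp only [e1, e2]
    refine (ENNReal.continuous_pow 2).continuousAt.tendsto.comp ?_
    have hm1 : ∀ n, AEStronglyMeasurable (fun x => hh x • ext R₀ x • φ n x) volume := fun n =>
      hh_meas.aestronglyMeasurable.smul
        (hex.continuous.aestronglyMeasurable.smul (hφs n).continuous.aestronglyMeasurable)
    have hm2 : AEStronglyMeasurable (fun x => hh x • v x) volume :=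
      hh_meas.aestronglyMeasurable.smul hvL.1
    have hdiff : Tendsto (fun n => eLpNorm (fun x => hh x • ext R₀ x • φ n x - hh x • v x) 2 volume)
        atTop (𝓝 0) := by
      have hb : ∀ n, eLpNorm (fun x => hh x • ext R₀ x • φ n x - hh x • v x) 2 volume ≤
          ENNReal.ofReal R₀⁻¹ * eLpNorm (fun x => φ n x - v x) 2 volume := fun n => by
        refine eLpNorm_le_mul_eLpNorm_of_ae_le_mul (Eventually.of_forall fun x => ?_) 2
        have h3 : hh x • ext R₀ x • φ n x - hh x • v x = hh x • ext R₀ x • (φ n x - v x) := by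
          rw [smul_sub, smul_sub]
          congr 2
          by_cases hx : ‖x‖ ≤ 2 * R₀
          · rw [hv0 x hx, smul_zero]
          · rw [ext_one hR₀ (not_le.1 hx).le, one_smul]
        rw [h3, norm_smul, norm_smul, Real.norm_of_nonneg (ext_nonneg R₀ x)]
        calc ‖hh x‖ * (ext R₀ x * ‖φ n x - v x‖) ≤ R₀⁻¹ * (1 * ‖φ n x - v x‖) := by
              gcongr
              · exact mul_nonneg (ext_nonneg R₀ x) (norm_nonneg _)
              · exact hh_le x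
              · exact ext_le_one R₀ x
          _ = R₀⁻¹ * ‖φ n x - v x‖ := by rw [one_mul]
      have ht := ENNReal.Tendsto.const_mul (a := ENNReal.ofReal R₀⁻¹) hφ1
        (Or.inr ENNReal.ofReal_ne_top)
      rw [mul_zero] at ht
      exact tendsto_of_tendsto_of_tendsto_of_le_of_le tendsto_const_nhds ht (fun _ => zero_le) hb
    have hfin : eLpNorm (fun x => hh x • v x) 2 volume ≠ ⊤ := by
      have : MemLp (fun x => hh x • v x) 2 volume := by
        refine hvL.of_le_mul (c := R₀⁻¹) hm2 (Eventually.of_forall fun x => ?_)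
        rw [norm_smul]
        exact mul_le_mul_of_nonneg_right (hh_le x) (norm_nonneg _)
      exact this.2.ne
    have hup : ∀ n, eLpNorm (fun x => hh x • ext R₀ x • φ n x) 2 volume ≤
        eLpNorm (fun x => hh x • ext R₀ x • φ n x - hh x • v x) 2 volume +
          eLpNorm (fun x => hh x • v x) 2 volume := fun n => by
      have e : (fun x => hh x • ext R₀ x • φ n x) =
          (fun x => hh x • ext R₀ x • φ n x - hh x • v x) + fun x => hh x • v x := by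
        funext x; simp
      conv_lhs => rw [e]
      exact eLpNorm_add_le ((hm1 n).sub hm2) hm2 (by norm_num)
    have hlo : ∀ n, eLpNorm (fun x => hh x • v x) 2 volume -
        eLpNorm (fun x => hh x • ext R₀ x • φ n x - hh x • v x) 2 volume ≤
          eLpNorm (fun x => hh x • ext R₀ x • φ n x) 2 volume := fun n => by
      rw [tsub_le_iff_right]
      have e : (fun x => hh x • v x) = (fun x => hh x • ext R₀ x • φ n x) -
          fun x => hh x • ext R₀ x • φ n x - hh x • v x := by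
        funext x; simp
      conv_lhs => rw [e]
      exact eLpNorm_sub_le (hm1 n) ((hm1 n).sub hm2) (by norm_num)
    refine tendsto_of_tendsto_of_tendsto_of_le_of_le ?_ ?_ hlo hup
    · have := ENNReal.Tendsto.sub (tendsto_const_nhds (x := eLpNorm (fun x => hh x • v x) 2 volume))
        hdiff (Or.inl hfin)
      simpa using this
    · simpa using hdiff.add (tendsto_const_nhds (x := eLpNorm (fun x => hh x • v x) 2 volume))
  -- right side
  obtain ⟨C, hC⟩ : ∃ C : ℝ, ∀ x : E, ‖fderiv ℝ (ext R₀ : E → ℝ) x‖ ≤ C := by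
    obtain ⟨C, hC⟩ := ((cut_supp (E := E) hR₀).fderiv ℝ).exists_bound_of_continuous
      ((cut_smooth R₀).continuous_fderiv (by simp))
    refine ⟨C, fun x => ?_⟩
    rw [fderiv_ext, norm_neg]
    exact hC x
  have hR1 : ∀ a n, eLpNorm (fun x => (Q a).op (fun y => ext R₀ y • φ n y) x) 2 volume ≤
      (eLpNorm (fun x => (Q a).op (φ n) x - Z a x) 2 volume + eLpNorm (Z a) 2 volume) +
        ENNReal.ofReal (‖(Q a).A‖ * C) * eLpNorm (fun x => φ n x - v x) 2 volume := fun a n => by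
    have hm3 : AEStronglyMeasurable (fun x => ext R₀ x • (Q a).op (φ n) x) volume :=
      hex.continuous.aestronglyMeasurable.smul
        ((Q a).op_continuous (hφs n)).aestronglyMeasurable
    have hdex : Continuous (fderiv ℝ (ext R₀ : E → ℝ)) := hex.continuous_fderiv (by simp)
    have hm4 : AEStronglyMeasurable
        (fun x => (Q a).A ((fderiv ℝ (ext R₀ : E → ℝ) x).smulRight (φ n x))) volume :=
      (Q a).A.continuous.comp_aestronglyMeasurable
        ((ContinuousLinearMap.smulRightL ℝ E F).aestronglyMeasurable_comp₂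
          hdex.aestronglyMeasurable (hφs n).continuous.aestronglyMeasurable)
    have e1 : (fun x => (Q a).op (fun y => ext R₀ y • φ n y) x) =
        (fun x => ext R₀ x • (Q a).op (φ n) x) +
          fun x => (Q a).A ((fderiv ℝ (ext R₀ : E → ℝ) x).smulRight (φ n x)) := by
      funext x
      rw [FOp.op_smul _ hex (hφs n)]
      rfl
    rw [e1]
    refine (eLpNorm_add_le hm3 hm4 (by norm_num)).trans (add_le_add ?_ ?_)
    · have h5 : eLpNorm (fun x => ext R₀ x • (Q a).op (φ n) x) 2 volume ≤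
          eLpNorm ((Q a).op (φ n)) 2 volume := by
        refine eLpNorm_mono fun x => ?_
        rw [norm_smul, Real.norm_of_nonneg (ext_nonneg R₀ x)]
        exact mul_le_of_le_one_left (norm_nonneg _) (ext_le_one R₀ x)
      refine h5.trans ?_
      have e2 : (Q a).op (φ n) = (fun x => (Q a).op (φ n) x - Z a x) + Z a := by
        funext x; simp
      conv_lhs => rw [e2]
      exact eLpNorm_add_le (((Q a).op_continuous (hφs n)).aestronglyMeasurable.sub (hZm a)) (hZm a)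
        (by norm_num)
    · refine eLpNorm_le_mul_eLpNorm_of_ae_le_mul (Eventually.of_forall fun x => ?_) 2
      by_cases hx : ‖x‖ ≤ 2 * R₀
      · calc ‖(Q a).A ((fderiv ℝ (ext R₀ : E → ℝ) x).smulRight (φ n x))‖
            ≤ ‖(Q a).A‖ * ‖(fderiv ℝ (ext R₀ : E → ℝ) x).smulRight (φ n x)‖ :=
              ContinuousLinearMap.le_opNorm _ _
          _ = ‖(Q a).A‖ * (‖fderiv ℝ (ext R₀ : E → ℝ) x‖ * ‖φ n x‖) := by
              rw [ContinuousLinearMap.norm_smulRight_apply]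
          _ ≤ ‖(Q a).A‖ * (C * ‖φ n x‖) := by gcongr; exact hC x
          _ = ‖(Q a).A‖ * C * ‖φ n x - v x‖ := by rw [hv0 x hx, sub_zero]; ring
      · rw [fderiv_ext_of_one (ext_one hR₀ (not_le.1 hx).le)]
        have : (0 : E →L[ℝ] ℝ).smulRight (φ n x) = 0 := by ext; simp
        rw [this, map_zero, norm_zero]
        have hC0 : 0 ≤ C := (norm_nonneg _).trans (hC x)
        positivity
  have hR2 : ∀ a, Tendsto (fun n =>
      (eLpNorm (fun x => (Q a).op (φ n) x - Z a x) 2 volume + eLpNorm (Z a) 2 volume) +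
        ENNReal.ofReal (‖(Q a).A‖ * C) * eLpNorm (fun x => φ n x - v x) 2 volume) atTop
      (𝓝 (eLpNorm (Z a) 2 volume)) := fun a => by
    have h6 := ((hφ2 a).add (tendsto_const_nhds (x := eLpNorm (Z a) 2 volume))).add
      (ENNReal.Tendsto.const_mul (a := ENNReal.ofReal (‖(Q a).A‖ * C)) hφ1
        (Or.inr ENNReal.ofReal_ne_top))
    simpa using h6
  have hR3 : Tendsto (fun n => (1 / 16 : ℝ≥0∞) * ∑ a,
      ((eLpNorm (fun x => (Q a).op (φ n) x - Z a x) 2 volume + eLpNorm (Z a) 2 volume) +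
        ENNReal.ofReal (‖(Q a).A‖ * C) * eLpNorm (fun x => φ n x - v x) 2 volume) ^ 2) atTop
      (𝓝 ((1 / 16) * ∑ a, eLpNorm (Z a) 2 volume ^ 2)) := by
    refine ENNReal.Tendsto.const_mul ?_ (Or.inr (by
      rw [one_div]; exact ENNReal.inv_ne_top.2 (by norm_num)))
    exact tendsto_finsetSum _ fun a _ =>
      (ENNReal.continuous_pow 2).continuousAt.tendsto.comp (hR2 a)
  have hlim := le_of_tendsto_of_tendsto' hL1 hR3 fun n => by
    refine (hHn n).trans ?_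
    unfold qe
    gcongr with a
    rw [← sq_eLpNorm]
    gcongr
    exact hR1 a n
  refine hlim.trans (le_of_eq ?_)
  simp only [sq_eLpNorm]
  have hZm' : ∀ a, AEMeasurable (fun x => ‖Z a x‖ₑ ^ 2) volume := fun a => aem_sq (hZm a)
  rw [← lintegral_finsetSum' _ fun a _ => hZm' a]
  have h7 : ∀ x, ∑ a, ‖Z a x‖ₑ ^ 2 = 8 * (‖fderiv ℝ w x‖ₑ ^ 2 * ‖u x‖ₑ ^ 2) := fun x =>
    hQ.sym_enorm _ _
  simp only [h7]
  rw [lintegral_const_mul' _ _ (by norm_num), ← mul_assoc]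
  congr 1
  rw [one_div, one_div, show (16 : ℝ≥0∞) = 2 * 8 by norm_num, ENNReal.mul_inv (by norm_num)
    (by norm_num), mul_assoc, ENNReal.inv_mul_cancel (by norm_num) (by norm_num), mul_one]

end main

end Crest.Agent.R330.Decay968

end
end

-- ▼ part R330/Decay2_968
section

/-!
# Row 330, S9 (helper968): decay of the solutions from an exterior Hardy inequality, part 2

* `Sol.hardy_bdd` : the weighted inequality for bounded radial weights with `|∇w| ≤ K/(1+|x|)`.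
* `wt t L` : the weight `((1+|x|²)/(1+|x|²/L²))^(t/2)`.
* `exists_decay` : for `0 ≤ s`, `(s+1)²/2 < k` there is `C` with
  `∫_{|x| ≥ 4 R₀} (1+|x|²)^s |u|² ≤ C ∫_{|x| < 4 R₀} |u|²` for all solutions `u`.
* `Sol.memLp` : solutions are square integrable if `1/2 < k`.
-/

set_option autoImplicit false
set_option linter.unusedSectionVars false
set_option linter.unusedVariables false

open MeasureTheory Set Filter Topology ENNReal
open scoped ContDiff InnerProductSpace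

noncomputable section

namespace Crest.Agent.R330.Decay968

open Moll596 WS596

variable {E : Type*} [NormedAddCommGroup E] [InnerProductSpace ℝ E] [FiniteDimensional ℝ E]
  [MeasurableSpace E] [BorelSpace E]
variable {F : Type*} [NormedAddCommGroup F] [InnerProductSpace ℂ F] [CompleteSpace F]
variable {κ : Type*} [Fintype κ]
variable {Q : κ → FOp E F} {S : Set ((E ≃ₗᵢ[ℝ] E) × (F →L[ℝ] F))} {u : E → F}
  {k R₀ : ℝ}

/-! ### Bounded weights -/

theorem enorm_sq_le {a : ℝ} {G : Type*} [SeminormedAddCommGroup G] {v : G} (h : ‖v‖ ≤ a) :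
    ‖v‖ₑ ^ 2 ≤ ENNReal.ofReal (a ^ 2) := by
  rw [← ofReal_norm, ← ENNReal.ofReal_pow (norm_nonneg _)]
  exact ENNReal.ofReal_le_ofReal (pow_le_pow_left₀ (norm_nonneg _) h 2)

theorem div_sq_le_jw {K : ℝ} (hK : 0 ≤ K) (x : E) :
    ENNReal.ofReal ((K / (1 + ‖x‖)) ^ 2) ≤ ENNReal.ofReal (K ^ 2) * jw x := by
  rw [jw, ← ENNReal.ofReal_mul (by positivity)]
  refine ENNReal.ofReal_le_ofReal ?_
  have h := norm_nonneg x
  rw [div_pow, mul_one_div]
  gcongr
  nlinarith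

/-- **The weighted inequality**, bounded radial weights. -/
theorem Sol.hardy_bdd (hQ : Frame Q) (hR₀ : 0 < R₀) (hH : HI Q S k R₀) (h : Sol Q S u)
    {w : E → ℝ} (hw : ContDiff ℝ ∞ w) (hrad : ∀ x y, ‖x‖ = ‖y‖ → w x = w y)
    (h0 : ∀ x, ‖x‖ ≤ 2 * R₀ → w x = 0) {K : ℝ} (hK : 0 ≤ K) (hb : ∀ x, |w x| ≤ K)
    (hdb : ∀ x, ‖fderiv ℝ w x‖ ≤ K / (1 + ‖x‖)) :
    ENNReal.ofReal k * ∫⁻ x, ‖w x • u x‖ₑ ^ 2 / ‖x‖ₑ ^ 2 ≤
      (1 / 2) * ∫⁻ x, ‖fderiv ℝ w x‖ₑ ^ 2 * ‖u x‖ₑ ^ 2 := by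
  obtain ⟨C, hC0, hC⟩ := exists_cut_bound E
  set wn : ℕ → E → ℝ := fun n x => cut ((n : ℝ) + 1) x * w x with hwn
  have hn1 : ∀ n : ℕ, (1 : ℝ) ≤ (n : ℝ) + 1 := fun n => by
    have : (0 : ℝ) ≤ n := Nat.cast_nonneg n
    linarith
  have hsm : ∀ n, ContDiff ℝ ∞ (wn n) := fun n => (cut_smooth _).mul hw
  have hdn : ∀ n x, fderiv ℝ (wn n) x = cut ((n : ℝ) + 1) x • fderiv ℝ w x +
      w x • fderiv ℝ (cut ((n : ℝ) + 1)) x := fun n x => by
    have h1 : DifferentiableAt ℝ (cut ((n : ℝ) + 1) : E → ℝ) x :=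
      (cut_smooth _).differentiable (by simp) x
    have h2 : DifferentiableAt ℝ w x := hw.differentiable (by simp) x
    exact fderiv_fun_mul h1 h2
  have hcc : ∀ n, ENNReal.ofReal k * ∫⁻ x, ‖wn n x • u x‖ₑ ^ 2 / ‖x‖ₑ ^ 2 ≤
      (1 / 2) * ∫⁻ x, ‖fderiv ℝ (wn n) x‖ₑ ^ 2 * ‖u x‖ₑ ^ 2 := fun n =>
    h.hardy_cc hQ hR₀ hH (hsm n) ((cut_supp (by linarith [hn1 n])).mul_right)
      (fun x y hxy => by simp only [hwn, hrad x y hxy, cut_radial _ hxy])
      fun x hx => by simp only [hwn, h0 x hx, mul_zero]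
  have hev : ∀ x : E, ∀ᶠ n : ℕ in atTop, ‖x‖ ≤ (n : ℝ) + 1 := fun x => by
    obtain ⟨m, hm⟩ := exists_nat_ge ‖x‖
    filter_upwards [eventually_ge_atTop m] with n hn
    have : (m : ℝ) ≤ n := by exact_mod_cast hn
    linarith
  have hm1 : ∀ n, AEMeasurable (fun x => ENNReal.ofReal k * (‖wn n x • u x‖ₑ ^ 2 / ‖x‖ₑ ^ 2))
      (volume : Measure E) := fun n => by
    refine AEMeasurable.const_mul ?_ _
    refine AEMeasurable.div ?_ (measurable_enorm.pow_const 2).aemeasurable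
    exact aem_sq ((hsm n).continuous.aestronglyMeasurable.smul h.meas)
  have hm2 : ∀ n, AEMeasurable (fun x => ‖fderiv ℝ (wn n) x‖ₑ ^ 2 * ‖u x‖ₑ ^ 2)
      (volume : Measure E) := fun n => by
    refine AEMeasurable.mul ?_ (aem_sq h.meas)
    exact ((hsm n).continuous_fderiv (by simp)).measurable.enorm.pow_const 2 |>.aemeasurable
  -- the right side converges
  have hR : Tendsto (fun n => ∫⁻ x, ‖fderiv ℝ (wn n) x‖ₑ ^ 2 * ‖u x‖ₑ ^ 2) atTop
      (𝓝 (∫⁻ x, ‖fderiv ℝ w x‖ₑ ^ 2 * ‖u x‖ₑ ^ 2)) := by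
    refine tendsto_lintegral_of_dominated_convergence'
      (fun x => ENNReal.ofReal ((K + K * C) ^ 2) * (jw x * ‖u x‖ₑ ^ 2)) hm2 (fun n => ?_) ?_ ?_
    · refine Eventually.of_forall fun x => ?_
      simp only
      rw [← mul_assoc]
      gcongr
      refine (enorm_sq_le (a := (K + K * C) / (1 + ‖x‖)) ?_).trans
        (div_sq_le_jw (by positivity) x)
      rw [hdn]
      refine (norm_add_le _ _).trans ?_
      rw [norm_smul, norm_smul, Real.norm_of_nonneg (cut_nonneg _ _), Real.norm_eq_abs, add_div]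
      refine add_le_add ?_ ?_
      · calc cut ((n : ℝ) + 1) x * ‖fderiv ℝ w x‖ ≤ 1 * (K / (1 + ‖x‖)) := by
              gcongr
              · exact cut_le_one _ _
              · exact hdb x
          _ = K / (1 + ‖x‖) := one_mul _
      · calc |w x| * ‖fderiv ℝ (cut ((n : ℝ) + 1)) x‖ ≤ K * (C / (1 + ‖x‖)) := by
              gcongr
              · exact hb x
              · exact hC _ (hn1 n) x
          _ = K * C / (1 + ‖x‖) := by ring
    · rw [lintegral_const_mul' _ _ ENNReal.ofReal_ne_top]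
      exact ENNReal.mul_ne_top ENNReal.ofReal_ne_top h.fin
    · refine Eventually.of_forall fun x => ?_
      refine tendsto_const_nhds.congr' ?_
      filter_upwards [hev x] with n hn
      have h1 : cut ((n : ℝ) + 1) x = 1 := cut_one (by linarith [hn1 n]) hn
      rw [hdn, fderiv_cut_of_one h1, h1, one_smul, smul_zero, add_zero]
  -- Fatou on the left side
  have hL : ENNReal.ofReal k * ∫⁻ x, ‖w x • u x‖ₑ ^ 2 / ‖x‖ₑ ^ 2 ≤
      liminf (fun n => ENNReal.ofReal k * ∫⁻ x, ‖wn n x • u x‖ₑ ^ 2 / ‖x‖ₑ ^ 2) atTop := by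
    simp only [← lintegral_const_mul' _ _ (ENNReal.ofReal_ne_top (r := k))]
    refine le_trans ?_ (lintegral_liminf_le' hm1)
    refine lintegral_mono fun x => ?_
    refine le_of_eq ?_
    symm
    refine Tendsto.liminf_eq (tendsto_const_nhds.congr' ?_)
    filter_upwards [hev x] with n hn
    have h1 : cut ((n : ℝ) + 1) x = 1 := cut_one (by linarith [hn1 n]) hn
    simp only [hwn, h1, one_mul]
  refine hL.trans ?_
  have hR' : Tendsto (fun n => (1 / 2 : ℝ≥0∞) * ∫⁻ x, ‖fderiv ℝ (wn n) x‖ₑ ^ 2 * ‖u x‖ₑ ^ 2) atTop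
      (𝓝 ((1 / 2) * ∫⁻ x, ‖fderiv ℝ w x‖ₑ ^ 2 * ‖u x‖ₑ ^ 2)) :=
    ENNReal.Tendsto.const_mul hR (Or.inr (by
      rw [one_div]; exact ENNReal.inv_ne_top.2 (by norm_num)))
  rw [← hR'.liminf_eq]
  exact liminf_le_liminf (Eventually.of_forall hcc)

/-! ### The weights -/

/-- `((1+s)/(1+s/L²))^(t/2)`. -/
def gt (t L s : ℝ) : ℝ := Real.exp (t / 2 * (Real.log (1 + s) - Real.log (1 + s / L ^ 2)))

/-- `((1+|x|²)/(1+|x|²/L²))^(t/2)`. -/
def wt (t L : ℝ) (x : E) : ℝ := gt t L (‖x‖ ^ 2)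

theorem gt_pos (t L s : ℝ) : 0 < gt t L s := Real.exp_pos _

theorem wt_pos (t L : ℝ) (x : E) : 0 < wt t L x := gt_pos _ _ _

theorem wt_smooth (t L : ℝ) : ContDiff ℝ ∞ (wt t L : E → ℝ) := by
  unfold wt gt
  refine Real.contDiff_exp.comp (contDiff_const.mul (ContDiff.sub ?_ ?_))
  · refine (contDiff_const.add (contDiff_norm_sq ℝ)).log fun x => ?_
    positivity
  · refine (contDiff_const.add ((contDiff_norm_sq ℝ).div_const _)).log fun x => ?_
    positivity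

theorem hasDerivAt_gt (t L : ℝ) {s : ℝ} (hs : 0 ≤ s) :
    HasDerivAt (gt t L) (gt t L s * (t / 2 * (1 / (1 + s) - 1 / L ^ 2 / (1 + s / L ^ 2)))) s := by
  have h1 : HasDerivAt (fun s : ℝ => 1 + s) 1 s := (hasDerivAt_id s).const_add 1
  have h2 : HasDerivAt (fun s : ℝ => 1 + s / L ^ 2) (1 / L ^ 2) s :=
    ((hasDerivAt_id s).div_const _).const_add 1
  have h3 := (h1.log (by positivity)).sub (h2.log (by positivity))
  exact (h3.const_mul (t / 2)).exp

theorem gt_le_exp {t L s : ℝ} (ht : 0 ≤ t) (hs : 0 ≤ s) :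
    gt t L s ≤ Real.exp (t / 2 * Real.log (1 + s)) := by
  unfold gt
  refine Real.exp_le_exp.2 (mul_le_mul_of_nonneg_left ?_ (by positivity))
  have : 0 ≤ Real.log (1 + s / L ^ 2) := Real.log_nonneg (by
    have : 0 ≤ s / L ^ 2 := by positivity
    linarith)
  linarith

theorem gt_le_const {t L s : ℝ} (ht : 0 ≤ t) (hL : 1 ≤ L) (hs : 0 ≤ s) :
    gt t L s ≤ Real.exp (t / 2 * Real.log (L ^ 2)) := by
  unfold gt
  refine Real.exp_le_exp.2 (mul_le_mul_of_nonneg_left ?_ (by positivity))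
  have hL0 : (0 : ℝ) < L := by linarith
  have h1 : (0 : ℝ) < 1 + s / L ^ 2 := by positivity
  rw [← Real.log_div (by positivity) h1.ne']
  refine Real.log_le_log (by positivity) ?_
  rw [div_le_iff₀ h1]
  have h2 : L ^ 2 * (1 + s / L ^ 2) = L ^ 2 + s := by field_simp
  rw [h2]
  nlinarith

theorem norm_fderiv_wt {t L : ℝ} (ht : 0 ≤ t) (hL : 1 ≤ L) (x : E) :
    ‖fderiv ℝ (wt t L : E → ℝ) x‖ ≤ t * (‖x‖ / (1 + ‖x‖ ^ 2)) * wt t L x := by
  have hL0 : (0 : ℝ) < L := by linarith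
  set s : ℝ := ‖x‖ ^ 2 with hs
  have hs0 : 0 ≤ s := by positivity
  set c : ℝ := 1 / (1 + s) - 1 / L ^ 2 / (1 + s / L ^ 2) with hc
  have h1 : HasFDerivAt (fun x : E => ‖x‖ ^ 2) (2 • innerSL ℝ x) x :=
    (hasStrictFDerivAt_norm_sq x).hasFDerivAt
  have h2 : HasFDerivAt (wt t L : E → ℝ) ((gt t L s * (t / 2 * c)) • (2 • innerSL ℝ x)) x :=
    HasDerivAt.comp_hasFDerivAt (h₂ := gt t L) x (hasDerivAt_gt t L hs0) h1
  rw [h2.fderiv, norm_smul, two_smul]
  have h3 : c = 1 / (1 + s) - 1 / (L ^ 2 + s) := by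
    rw [hc]
    congr 1
    rw [div_div]
    congr 1
    field_simp
  have h4 : 0 ≤ c := by
    rw [h3, sub_nonneg]
    exact one_div_le_one_div_of_le (by positivity) (by nlinarith)
  have h5 : c ≤ 1 / (1 + s) := by
    rw [h3]
    have : 0 ≤ 1 / (L ^ 2 + s) := by positivity
    linarith
  rw [Real.norm_of_nonneg (by positivity [gt_pos t L s])]
  have h6 : ‖innerSL ℝ x + innerSL ℝ x‖ ≤ 2 * ‖x‖ := by
    refine (norm_add_le _ _).trans ?_
    rw [innerSL_apply_norm]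
    linarith
  calc gt t L s * (t / 2 * c) * ‖innerSL ℝ x + innerSL ℝ x‖
      ≤ gt t L s * (t / 2 * (1 / (1 + s))) * (2 * ‖x‖) := by
        have := (gt_pos t L s).le
        gcongr
    _ = t * (‖x‖ / (1 + s)) * gt t L s := by ring

theorem tendsto_gt (t : ℝ) {s : ℝ} (hs : 0 ≤ s) :
    Tendsto (fun n : ℕ => gt t ((n : ℝ) + 1) s) atTop (𝓝 (Real.exp (t / 2 * Real.log (1 + s)))) := by
  unfold gt
  refine (Real.continuous_exp.tendsto _).comp ?_
  have h1 : Tendsto (fun n : ℕ => 1 + s / ((n : ℝ) + 1) ^ 2) atTop (𝓝 1) := by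
    have h2 : Tendsto (fun n : ℕ => s / ((n : ℝ) + 1) ^ 2) atTop (𝓝 0) := by
      refine tendsto_const_nhds.div_atTop ?_
      exact (tendsto_pow_atTop (by norm_num)).comp
        (tendsto_atTop_add_const_right _ _ tendsto_natCast_atTop_atTop)
    simpa using h2.const_add 1
  have h3 : Tendsto (fun n : ℕ => Real.log (1 + s / ((n : ℝ) + 1) ^ 2)) atTop (𝓝 0) := by
    have := (Real.continuousAt_log (one_ne_zero)).tendsto.comp h1
    simpa [Function.comp_def] using this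
  have h4 := ((tendsto_const_nhds (x := Real.log (1 + s))).sub h3).const_mul (t / 2)
  simpa using h4

theorem exp_half_sq {t s : ℝ} (hs : 0 ≤ s) :
    Real.exp (t / 2 * Real.log (1 + s)) ^ 2 = (1 + s) ^ t := by
  rw [Real.rpow_def_of_pos (by positivity), ← Real.exp_nat_mul]
  congr 1
  push_cast
  ring

/-! ### Decay -/

/-- **Decay of the solutions.** -/
theorem exists_decay (hQ : Frame Q) (hR₀ : 0 < R₀) (hH : HI Q S k R₀) {s : ℝ} (hs : 0 ≤ s)
    (hk : (s + 1) ^ 2 / 2 < k) :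
    ∃ C : ℝ, 0 ≤ C ∧ ∀ u : E → F, Sol Q S u →
      ∫⁻ x in {x | 4 * R₀ ≤ ‖x‖}, ENNReal.ofReal ((1 + ‖x‖ ^ 2) ^ s) * ‖u x‖ₑ ^ 2 ≤
        ENNReal.ofReal C * ∫⁻ x in {x | ‖x‖ < 4 * R₀}, ‖u x‖ₑ ^ 2 := by
  set t : ℝ := s + 1 with ht
  have ht0 : 0 ≤ t := by linarith
  -- the bound of the gradient of the inner cut-off
  have hR2 : (0 : ℝ) < 2 * R₀ := by linarith
  obtain ⟨C₁, hC₁⟩ : ∃ C : ℝ, ∀ x : E, ‖fderiv ℝ (ext (2 * R₀) : E → ℝ) x‖ * (1 + ‖x‖) ≤ C := by
    have h1 : Continuous fun x : E => ‖fderiv ℝ (cut (2 * R₀) : E → ℝ) x‖ * (1 + ‖x‖) :=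
      ((cut_smooth (2 * R₀)).continuous_fderiv (by simp)).norm.mul
        (continuous_const.add continuous_norm)
    have h2 : HasCompactSupport fun x : E => ‖fderiv ℝ (cut (2 * R₀) : E → ℝ) x‖ * (1 + ‖x‖) := by
      have h3 : HasCompactSupport fun x : E => ‖fderiv ℝ (cut (2 * R₀) : E → ℝ) x‖ :=
        ((cut_supp (E := E) hR2).fderiv ℝ).comp_left (g := fun L => ‖L‖) norm_zero
      exact h3.mul_right
    obtain ⟨C, hC⟩ := h2.exists_bound_of_continuous h1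
    refine ⟨C, fun x => ?_⟩
    rw [fderiv_ext, norm_neg]
    exact (le_abs_self _).trans (hC x)
  have hC₁0 : 0 ≤ C₁ := le_trans (by positivity) (hC₁ 0)
  set P : ℝ := Real.exp (t / 2 * Real.log (1 + (4 * R₀) ^ 2)) with hP
  have hP0 : 0 < P := Real.exp_pos _
  set C₂ : ℝ := C₁ * P + t * P with hC₂
  have hC₂0 : 0 ≤ C₂ := by positivity
  have hkt : 0 < k - t ^ 2 / 2 := by linarith
  refine ⟨C₂ ^ 2 / 2 / (k - t ^ 2 / 2), by positivity, fun u h => ?_⟩
  set A : Set E := {x | 4 * R₀ ≤ ‖x‖} with hA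
  have hAm : MeasurableSet A := measurableSet_le measurable_const measurable_norm
  have hAc : Aᶜ = {x : E | ‖x‖ < 4 * R₀} := by
    ext x
    simp [hA]
  rw [← hAc]
  -- the weights
  set W : ℕ → E → ℝ := fun n x => ext (2 * R₀) x * wt t ((n : ℝ) + 1) x with hW
  have hn1 : ∀ n : ℕ, (1 : ℝ) ≤ (n : ℝ) + 1 := fun n => by
    have : (0 : ℝ) ≤ n := Nat.cast_nonneg n
    linarith
  have hsm : ∀ n, ContDiff ℝ ∞ (W n) := fun n => (ext_smooth _).mul (wt_smooth _ _)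
  have hdW : ∀ n x, fderiv ℝ (W n) x = ext (2 * R₀) x • fderiv ℝ (wt t ((n : ℝ) + 1)) x +
      wt t ((n : ℝ) + 1) x • fderiv ℝ (ext (2 * R₀)) x := fun n x => by
    have h1 : DifferentiableAt ℝ (ext (2 * R₀) : E → ℝ) x :=
      (ext_smooth _).differentiable (by simp) x
    have h2 : DifferentiableAt ℝ (wt t ((n : ℝ) + 1) : E → ℝ) x :=
      (wt_smooth _ _).differentiable (by simp) x
    exact fderiv_fun_mul h1 h2
  have hdiv : ∀ x : E, ‖x‖ / (1 + ‖x‖ ^ 2) ≤ 2 / (1 + ‖x‖) := fun x => by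
    have := norm_nonneg x
    rw [div_le_div_iff₀ (by positivity) (by positivity)]
    nlinarith
  have hdiv1 : ∀ x : E, ‖x‖ / (1 + ‖x‖ ^ 2) ≤ 1 := fun x => by
    have := norm_nonneg x
    rw [div_le_one (by positivity)]
    nlinarith
  have hext1 : ∀ x : E, ‖fderiv ℝ (ext (2 * R₀) : E → ℝ) x‖ ≤ C₁ := fun x => by
    refine le_trans ?_ (hC₁ x)
    have := norm_nonneg x
    nlinarith [norm_nonneg (fderiv ℝ (ext (2 * R₀) : E → ℝ) x)]
  have hmain : ∀ n : ℕ, ENNReal.ofReal (k - t ^ 2 / 2) *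
      ∫⁻ x in A, ‖W n x • u x‖ₑ ^ 2 / ‖x‖ₑ ^ 2 ≤
        ENNReal.ofReal (C₂ ^ 2 / 2) * ∫⁻ x in Aᶜ, ‖u x‖ₑ ^ 2 := by
    intro n
    set L : ℝ := (n : ℝ) + 1 with hL
    set Kn : ℝ := Real.exp (t / 2 * Real.log (L ^ 2)) with hKn
    have hKn0 : 0 < Kn := Real.exp_pos _
    have hwK : ∀ x : E, wt t L x ≤ Kn := fun x => gt_le_const ht0 (hn1 n) (by positivity)
    have hgb : ∀ x : E, ‖fderiv ℝ (W n) x‖ ≤ (2 * t * Kn + C₁ * Kn + Kn) / (1 + ‖x‖) := fun x => by
      rw [hdW]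
      refine (norm_add_le _ _).trans ?_
      rw [norm_smul, norm_smul, Real.norm_of_nonneg (ext_nonneg _ _),
        Real.norm_of_nonneg (wt_pos _ _ _).le, add_div, add_div]
      have h1 : ext (2 * R₀) x * ‖fderiv ℝ (wt t L) x‖ ≤ 2 * t * Kn / (1 + ‖x‖) := by
        calc ext (2 * R₀) x * ‖fderiv ℝ (wt t L) x‖
            ≤ 1 * (t * (‖x‖ / (1 + ‖x‖ ^ 2)) * wt t L x) := by
              gcongr
              · exact ext_le_one _ _
              · exact norm_fderiv_wt ht0 (hn1 n) x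
          _ ≤ 1 * (t * (2 / (1 + ‖x‖)) * Kn) :=
              mul_le_mul_of_nonneg_left (mul_le_mul (mul_le_mul_of_nonneg_left (hdiv x) ht0)
                (hwK x) (wt_pos _ _ _).le (by positivity)) zero_le_one
          _ = 2 * t * Kn / (1 + ‖x‖) := by ring
      have h2 : wt t L x * ‖fderiv ℝ (ext (2 * R₀)) x‖ ≤ C₁ * Kn / (1 + ‖x‖) := by
        rw [le_div_iff₀ (by positivity), mul_assoc, mul_comm C₁]
        have := hC₁ x
        have h3 := hwK x
        have h4 := (wt_pos t L x).le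
        have h5 : 0 ≤ ‖fderiv ℝ (ext (2 * R₀) : E → ℝ) x‖ * (1 + ‖x‖) := by positivity
        exact mul_le_mul h3 this h5 hKn0.le
      have h3 : 0 ≤ Kn / (1 + ‖x‖) := by positivity
      linarith
    have hineq := h.hardy_bdd hQ hR₀ hH (hsm n)
      (fun x y hxy => by simp only [hW, wt, ext_radial _ hxy, hxy])
      (fun x hx => by simp only [hW, ext_zero hR2 hx, zero_mul])
      (K := 2 * t * Kn + C₁ * Kn + Kn) (by positivity)
      (fun x => by
        rw [abs_of_nonneg (mul_nonneg (ext_nonneg _ _) (wt_pos _ _ _).le)]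
        calc ext (2 * R₀) x * wt t L x ≤ 1 * Kn := by
              gcongr
              · exact (wt_pos _ _ _).le
              · exact ext_le_one _ _
              · exact hwK x
          _ ≤ 2 * t * Kn + C₁ * Kn + Kn := by
              have : 0 ≤ 2 * t * Kn + C₁ * Kn := by positivity
              linarith) hgb
    have hm1 : AEMeasurable (fun x => ‖W n x • u x‖ₑ ^ 2 / ‖x‖ₑ ^ 2) (volume : Measure E) :=
      (aem_sq ((hsm n).continuous.aestronglyMeasurable.smul h.meas)).div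
        (measurable_enorm.pow_const 2).aemeasurable
    -- pointwise bounds
    have hpA : ∀ x ∈ A, ‖fderiv ℝ (W n) x‖ₑ ^ 2 * ‖u x‖ₑ ^ 2 ≤
        ENNReal.ofReal (t ^ 2) * (‖W n x • u x‖ₑ ^ 2 / ‖x‖ₑ ^ 2) := fun x hx => by
      have hx' : 4 * R₀ ≤ ‖x‖ := hx
      have hx0 : 0 < ‖x‖ := by linarith
      have h1 : ext (2 * R₀) x = 1 := ext_one hR2 (by linarith)
      have h2 : ‖fderiv ℝ (W n) x‖ ≤ t * (wt t L x / ‖x‖) := by
        rw [hdW, fderiv_ext_of_one h1, h1, one_smul, smul_zero, add_zero]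
        refine (norm_fderiv_wt ht0 (hn1 n) x).trans ?_
        rw [mul_assoc]
        refine mul_le_mul_of_nonneg_left ?_ ht0
        rw [div_mul_eq_mul_div, div_le_div_iff₀ (by positivity) hx0]
        nlinarith [(wt_pos t L x).le]
      have h3 : W n x = wt t L x := by simp only [hW, h1, one_mul, hL]
      have h4 : ‖W n x • u x‖ₑ ^ 2 / ‖x‖ₑ ^ 2 =
          ENNReal.ofReal ((wt t L x / ‖x‖) ^ 2) * ‖u x‖ₑ ^ 2 := by
        rw [h3, enorm_smul, mul_pow, ← ofReal_norm (wt t L x), Real.norm_of_nonneg (wt_pos _ _ _).le,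
          ← ofReal_norm x, div_pow, ENNReal.ofReal_div_of_pos (by positivity),
          ENNReal.ofReal_pow (wt_pos _ _ _).le, ENNReal.ofReal_pow hx0.le, mul_comm, mul_div_assoc,
          mul_comm]
      rw [h4, ← mul_assoc, ← ENNReal.ofReal_mul (by positivity), ← mul_pow t]
      gcongr
      exact enorm_sq_le h2
    have hpAc : ∀ x ∈ Aᶜ, ‖fderiv ℝ (W n) x‖ₑ ^ 2 * ‖u x‖ₑ ^ 2 ≤
        ENNReal.ofReal (C₂ ^ 2) * ‖u x‖ₑ ^ 2 := fun x hx => by
      rw [hAc] at hx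
      have hx' : ‖x‖ < 4 * R₀ := hx
      gcongr
      refine enorm_sq_le ?_
      have hwP : wt t L x ≤ P := by
        refine (gt_le_exp ht0 (by positivity)).trans ?_
        rw [hP]
        gcongr
      rw [hdW]
      refine (norm_add_le _ _).trans ?_
      rw [norm_smul, norm_smul, Real.norm_of_nonneg (ext_nonneg _ _),
        Real.norm_of_nonneg (wt_pos _ _ _).le, hC₂, add_comm]
      refine add_le_add ?_ ?_
      · rw [mul_comm]
        exact mul_le_mul (hext1 x) hwP (wt_pos _ _ _).le hC₁0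
      · calc ext (2 * R₀) x * ‖fderiv ℝ (wt t L) x‖
            ≤ 1 * (t * (‖x‖ / (1 + ‖x‖ ^ 2)) * wt t L x) := by
              gcongr
              · exact ext_le_one _ _
              · exact norm_fderiv_wt ht0 (hn1 n) x
          _ ≤ 1 * (t * 1 * P) :=
              mul_le_mul_of_nonneg_left (mul_le_mul (mul_le_mul_of_nonneg_left (hdiv1 x) ht0)
                hwP (wt_pos _ _ _).le (by positivity)) zero_le_one
          _ = t * P := by ring
    -- `a` is finite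
    have hafin : ∫⁻ x in A, ‖W n x • u x‖ₑ ^ 2 / ‖x‖ₑ ^ 2 ≠ ⊤ := by
      have hb : ∀ x ∈ A, ‖W n x • u x‖ₑ ^ 2 / ‖x‖ₑ ^ 2 ≤
          ENNReal.ofReal (Kn ^ 2 * (1 + 1 / (4 * R₀) ^ 2)) * (jw x * ‖u x‖ₑ ^ 2) := fun x hx => by
        have hx' : 4 * R₀ ≤ ‖x‖ := hx
        have hx0 : 0 < ‖x‖ := by linarith
        have h1 : ext (2 * R₀) x = 1 := ext_one hR2 (by linarith)
        have h3 : W n x = wt t L x := by simp only [hW, h1, one_mul, hL]
        rw [h3, enorm_smul, mul_pow, ← ofReal_norm (wt t L x), Real.norm_of_nonneg (wt_pos _ _ _).le,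
          ← ofReal_norm x, ← ENNReal.ofReal_pow (wt_pos _ _ _).le, ← ENNReal.ofReal_pow hx0.le,
          mul_comm, mul_div_assoc, ← ENNReal.ofReal_div_of_pos (by positivity), mul_comm,
          ← mul_assoc]
        gcongr
        rw [jw, ← ENNReal.ofReal_mul (by positivity)]
        refine ENNReal.ofReal_le_ofReal ?_
        rw [mul_assoc, div_eq_mul_one_div]
        have h5 : wt t L x ^ 2 ≤ Kn ^ 2 := pow_le_pow_left₀ (wt_pos _ _ _).le (hwK x) 2
        have h6 : 1 / ‖x‖ ^ 2 ≤ (1 + 1 / (4 * R₀) ^ 2) * (1 / (1 + ‖x‖ ^ 2)) := by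
          rw [mul_one_div, div_le_div_iff₀ (by positivity) (by positivity), one_mul]
          have h7 : 1 ≤ 1 / (4 * R₀) ^ 2 * ‖x‖ ^ 2 := by
            rw [one_div, inv_mul_eq_div, one_le_div (by positivity)]
            exact pow_le_pow_left₀ (by linarith) hx' 2
          nlinarith
        gcongr
      refine ne_top_of_le_ne_top ?_ (setLIntegral_mono_ae'  hAm (Eventually.of_forall hb))
      rw [lintegral_const_mul' _ _ ENNReal.ofReal_ne_top]
      refine ENNReal.mul_ne_top ENNReal.ofReal_ne_top (ne_top_of_le_ne_top h.fin ?_)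
      exact setLIntegral_le_lintegral _ _
    set a : ℝ≥0∞ := ∫⁻ x in A, ‖W n x • u x‖ₑ ^ 2 / ‖x‖ₑ ^ 2 with ha
    set B : ℝ≥0∞ := ∫⁻ x in Aᶜ, ‖u x‖ₑ ^ 2 with hB
    have h8 : ENNReal.ofReal k * a ≤ ENNReal.ofReal (t ^ 2 / 2) * a +
        ENNReal.ofReal (C₂ ^ 2 / 2) * B := by
      calc ENNReal.ofReal k * a ≤ ENNReal.ofReal k * ∫⁻ x, ‖W n x • u x‖ₑ ^ 2 / ‖x‖ₑ ^ 2 := by
            gcongr
            exact setLIntegral_le_lintegral _ _
        _ ≤ (1 / 2) * ∫⁻ x, ‖fderiv ℝ (W n) x‖ₑ ^ 2 * ‖u x‖ₑ ^ 2 := hineq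
        _ = (1 / 2) * ((∫⁻ x in A, ‖fderiv ℝ (W n) x‖ₑ ^ 2 * ‖u x‖ₑ ^ 2) +
              ∫⁻ x in Aᶜ, ‖fderiv ℝ (W n) x‖ₑ ^ 2 * ‖u x‖ₑ ^ 2) := by
            rw [lintegral_add_compl _ hAm]
        _ ≤ (1 / 2) * (ENNReal.ofReal (t ^ 2) * a + ENNReal.ofReal (C₂ ^ 2) * B) := by
            gcongr
            · rw [ha, ← lintegral_const_mul' _ _ ENNReal.ofReal_ne_top]
              exact setLIntegral_mono_ae' hAm (Eventually.of_forall hpA)
            · rw [hB, ← lintegral_const_mul' _ _ ENNReal.ofReal_ne_top]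
              exact setLIntegral_mono_ae' hAm.compl (Eventually.of_forall hpAc)
        _ = _ := by
            have h9 : ∀ r : ℝ, 0 ≤ r → (1 / 2 : ℝ≥0∞) * ENNReal.ofReal r =
                ENNReal.ofReal (r / 2) := fun r hr => by
              rw [ENNReal.ofReal_div_of_pos (by norm_num), one_div, ENNReal.div_eq_inv_mul]
              norm_num
            rw [mul_add, ← mul_assoc, ← mul_assoc, h9 _ (by positivity), h9 _ (by positivity)]
    have h10 : ENNReal.ofReal k = ENNReal.ofReal (k - t ^ 2 / 2) + ENNReal.ofReal (t ^ 2 / 2) := by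
      rw [← ENNReal.ofReal_add hkt.le (by positivity)]
      congr 1
      ring
    rw [h10, add_mul, add_comm] at h8
    exact (ENNReal.add_le_add_iff_left (ENNReal.mul_ne_top ENNReal.ofReal_ne_top hafin)).1 h8
  -- Fatou
  have hfat : ∫⁻ x in A, ENNReal.ofReal ((1 + ‖x‖ ^ 2) ^ s) * ‖u x‖ₑ ^ 2 ≤
      liminf (fun n => ∫⁻ x in A, ‖W n x • u x‖ₑ ^ 2 / ‖x‖ₑ ^ 2) atTop := by
    have hm1 : ∀ n, AEMeasurable (fun x => ‖W n x • u x‖ₑ ^ 2 / ‖x‖ₑ ^ 2)
        ((volume : Measure E).restrict A) := fun n =>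
      ((aem_sq ((hsm n).continuous.aestronglyMeasurable.smul h.meas)).div
        (measurable_enorm.pow_const 2).aemeasurable).restrict
    refine le_trans ?_ (lintegral_liminf_le' hm1)
    refine setLIntegral_mono_ae' hAm (Eventually.of_forall fun x hx => ?_)
    have hx' : 4 * R₀ ≤ ‖x‖ := hx
    have hx0 : 0 < ‖x‖ := by linarith
    have h1 : ext (2 * R₀) x = 1 := ext_one hR2 (by linarith)
    have h2 : Tendsto (fun n : ℕ => ‖W n x • u x‖ₑ ^ 2 / ‖x‖ₑ ^ 2) atTop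
        (𝓝 (ENNReal.ofReal ((1 + ‖x‖ ^ 2) ^ t / ‖x‖ ^ 2) * ‖u x‖ₑ ^ 2)) := by
      have h3 : ∀ n, ‖W n x • u x‖ₑ ^ 2 / ‖x‖ₑ ^ 2 =
          ENNReal.ofReal ((gt t ((n : ℝ) + 1) (‖x‖ ^ 2)) ^ 2 / ‖x‖ ^ 2) * ‖u x‖ₑ ^ 2 := fun n => by
        have h4 : W n x = gt t ((n : ℝ) + 1) (‖x‖ ^ 2) := by simp only [hW, h1, one_mul, wt]
        rw [h4, enorm_smul, mul_pow, ← ofReal_norm (gt t ((n : ℝ) + 1) (‖x‖ ^ 2)),
          Real.norm_of_nonneg (gt_pos _ _ _).le, ← ofReal_norm x,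
          ← ENNReal.ofReal_pow (gt_pos _ _ _).le, ← ENNReal.ofReal_pow hx0.le,
          mul_comm, mul_div_assoc, ← ENNReal.ofReal_div_of_pos (by positivity), mul_comm]
      simp only [h3]
      refine ENNReal.Tendsto.mul_const ?_ (Or.inr (by simp))
      refine (ENNReal.continuous_ofReal.tendsto _).comp ?_
      refine Tendsto.div_const ?_ _
      rw [← exp_half_sq (by positivity : (0 : ℝ) ≤ ‖x‖ ^ 2)]
      exact (tendsto_gt t (by positivity)).pow 2
    rw [h2.liminf_eq]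
    gcongr
    rw [le_div_iff₀ (by positivity), ht, Real.rpow_add_one (by positivity)]
    gcongr
    linarith
  have h11 : ENNReal.ofReal (k - t ^ 2 / 2) *
      liminf (fun n => ∫⁻ x in A, ‖W n x • u x‖ₑ ^ 2 / ‖x‖ₑ ^ 2) atTop ≤
        ENNReal.ofReal (C₂ ^ 2 / 2) * ∫⁻ x in Aᶜ, ‖u x‖ₑ ^ 2 := by
    rw [← ENNReal.liminf_const_mul_of_ne_top ENNReal.ofReal_ne_top]
    exact (liminf_le_liminf (Eventually.of_forall hmain)).trans (by simp)
  have h12 : ENNReal.ofReal (k - t ^ 2 / 2) *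
      ∫⁻ x in A, ENNReal.ofReal ((1 + ‖x‖ ^ 2) ^ s) * ‖u x‖ₑ ^ 2 ≤
        ENNReal.ofReal (C₂ ^ 2 / 2) * ∫⁻ x in Aᶜ, ‖u x‖ₑ ^ 2 :=
    (mul_le_mul_right hfat _).trans h11
  have hne : ENNReal.ofReal (k - t ^ 2 / 2) ≠ 0 := by
    rw [Ne, ENNReal.ofReal_eq_zero, not_le]
    exact hkt
  have h13 := (ENNReal.mul_le_iff_le_inv hne ENNReal.ofReal_ne_top).1 h12
  refine h13.trans (le_of_eq ?_)
  rw [← mul_assoc, ENNReal.ofReal_div_of_pos hkt, ENNReal.div_eq_inv_mul]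

/-- Local square integrals are finite. -/
theorem Sol.lintegral_ball_ne_top (h : Sol Q S u) (ρ : ℝ) :
    ∫⁻ x in {x | ‖x‖ < ρ}, ‖u x‖ₑ ^ 2 ≠ ⊤ := by
  have hm : MeasurableSet {x : E | ‖x‖ < ρ} := measurableSet_lt measurable_norm measurable_const
  have hb : ∀ x ∈ {x : E | ‖x‖ < ρ}, ‖u x‖ₑ ^ 2 ≤
      ENNReal.ofReal (1 + ρ ^ 2) * (jw x * ‖u x‖ₑ ^ 2) := fun x hx => by
    have hx' : ‖x‖ < ρ := hx
    rw [← mul_assoc, jw, ← ENNReal.ofReal_mul (by positivity)]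
    have h1 : (1 : ℝ) ≤ (1 + ρ ^ 2) * (1 / (1 + ‖x‖ ^ 2)) := by
      rw [mul_one_div, one_le_div (by positivity)]
      have := pow_le_pow_left₀ (norm_nonneg x) hx'.le 2
      linarith
    calc ‖u x‖ₑ ^ 2 = 1 * ‖u x‖ₑ ^ 2 := (one_mul _).symm
      _ ≤ _ := by
        gcongr
        rw [← ENNReal.ofReal_one]
        exact ENNReal.ofReal_le_ofReal h1
  refine ne_top_of_le_ne_top ?_ (setLIntegral_mono_ae' hm (Eventually.of_forall hb))
  rw [lintegral_const_mul' _ _ ENNReal.ofReal_ne_top]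
  refine ENNReal.mul_ne_top ENNReal.ofReal_ne_top (ne_top_of_le_ne_top h.fin ?_)
  exact setLIntegral_le_lintegral _ _

/-- **All moments below the Hardy exponent are finite.** -/
theorem Sol.moment (hQ : Frame Q) (hR₀ : 0 < R₀) (hH : HI Q S k R₀) {s : ℝ} (hs : 0 ≤ s)
    (hk : (s + 1) ^ 2 / 2 < k) (h : Sol Q S u) :
    ∫⁻ x, ENNReal.ofReal ((1 + ‖x‖ ^ 2) ^ s) * ‖u x‖ₑ ^ 2 ≠ ⊤ := by
  obtain ⟨C, hC, hdec⟩ := exists_decay hQ hR₀ hH hs hk
  have hm : MeasurableSet {x : E | 4 * R₀ ≤ ‖x‖} := measurableSet_le measurable_const measurable_norm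
  have hc : {x : E | 4 * R₀ ≤ ‖x‖}ᶜ = {x : E | ‖x‖ < 4 * R₀} := by
    ext x
    simp
  have hm' : MeasurableSet {x : E | ‖x‖ < 4 * R₀} := by
    rw [← hc]
    exact hm.compl
  rw [← lintegral_add_compl _ hm, hc]
  have h0 := h.lintegral_ball_ne_top (4 * R₀)
  refine ENNReal.add_ne_top.2 ⟨ne_top_of_le_ne_top (ENNReal.mul_ne_top ENNReal.ofReal_ne_top h0)
    (hdec u h), ?_⟩
  have hb : ∀ x ∈ {x : E | ‖x‖ < 4 * R₀}, ENNReal.ofReal ((1 + ‖x‖ ^ 2) ^ s) * ‖u x‖ₑ ^ 2 ≤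
      ENNReal.ofReal ((1 + (4 * R₀) ^ 2) ^ s) * ‖u x‖ₑ ^ 2 := fun x hx => by
    have hx' : ‖x‖ < 4 * R₀ := hx
    gcongr
  refine ne_top_of_le_ne_top ?_ (setLIntegral_mono_ae' hm' (Eventually.of_forall hb))
  rw [lintegral_const_mul' _ _ ENNReal.ofReal_ne_top]
  exact ENNReal.mul_ne_top ENNReal.ofReal_ne_top h0

/-- **Solutions are square integrable.** -/
theorem Sol.memLp (hQ : Frame Q) (hR₀ : 0 < R₀) (hH : HI Q S k R₀) (hk : 1 / 2 < k)
    (h : Sol Q S u) : MemLp u 2 volume := by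
  refine memLp_of_n2 h.meas ?_
  have h1 := h.moment hQ hR₀ hH le_rfl (by norm_num; linarith)
  simpa using h1

end Crest.Agent.R330.Decay968

end
end

-- ▼ part R330/HardyG_968

/-!
# Row 330, S9 (helper968): local limits of core functions

* `op_symm` : integration by parts for formally symmetric `FOp`.
* `LC f u` : convergence in `L²` of every ball; `eqv_of_lc`, `pair_of_lc`.
* `Ker Q S Ψ` : zero states; `sol_of_lim` : local limits of core functions with `Q_a f_n → 0` are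
  solutions; `Ker.sol`, `Sol.ker`.
-/

set_option autoImplicit false
set_option linter.unusedSectionVars false
set_option linter.unusedVariables false

open MeasureTheory Set Filter Topology ENNReal
open scoped ContDiff InnerProductSpace

noncomputable section

namespace Crest.Agent.R330.Decay968

open Moll596 WS596

variable {E : Type*} [NormedAddCommGroup E] [InnerProductSpace ℝ E] [FiniteDimensional ℝ E]
  [MeasurableSpace E] [BorelSpace E]
variable {F : Type*} [NormedAddCommGroup F] [InnerProductSpace ℂ F] [CompleteSpace F]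
variable {κ : Type*} [Fintype κ]
variable {Q : κ → FOp E F} {S : Set ((E ≃ₗᵢ[ℝ] E) × (F →L[ℝ] F))} {u : E → F}
  {k R₀ : ℝ}

/-! ### Integration by parts -/

theorem clm_decomp (L : E →L[ℝ] F) : L = ∑ i, (innerSL ℝ (stdOrthonormalBasis ℝ E i)).smulRight
    (L (stdOrthonormalBasis ℝ E i)) := by
  ext x
  have h := (stdOrthonormalBasis ℝ E).sum_repr' x
  conv_lhs => rw [← h]
  rw [map_sum, sum_apply]
  refine Finset.sum_congr rfl fun i _ => ?_
  simp

/-- **Integration by parts.** -/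
theorem op_symm {P : FOp E F} (hP : Adj P P) {φ ψ : E → F} (hφ : ContDiff ℝ ∞ φ)
    (hφc : HasCompactSupport φ) (hψ : ContDiff ℝ ∞ ψ) (hψc : HasCompactSupport ψ) :
    ∫ x, ⟪P.op ψ x, φ x⟫_ℂ = ∫ x, ⟪ψ x, P.op φ x⟫_ℂ := by
  set e := stdOrthonormalBasis ℝ E with he
  set ℓ : Fin (Module.finrank ℝ E) → (E →L[ℝ] ℝ) := fun i => innerSL ℝ (e i) with hℓ
  have hdψ : ∀ i, Continuous fun x => fderiv ℝ ψ x (e i) := fun i =>
    (hψ.continuous_fderiv (by simp)).clm_apply continuous_const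
  have hdφ : ∀ i, Continuous fun x => fderiv ℝ φ x (e i) := fun i =>
    (hφ.continuous_fderiv (by simp)).clm_apply continuous_const
  have hsr : ∀ i (f : E → F), Continuous f → Continuous fun x => P.A ((ℓ i).smulRight (f x)) :=
    fun i f hf => P.A.continuous.comp
      ((ContinuousLinearMap.smulRightL ℝ E F (ℓ i)).continuous.comp hf)
  -- the function `A(ℓ_i ⊗ φ)`
  have hAφ : ∀ i, ContDiff ℝ 1 fun x => P.A ((ℓ i).smulRight (φ x)) := fun i =>
    (P.A.contDiff.comp ((ContinuousLinearMap.smulRightL ℝ E F (ℓ i)).contDiff.comp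
      (hφ.of_le (by simp))))
  have hdA : ∀ i x v, fderiv ℝ (fun x => P.A ((ℓ i).smulRight (φ x))) x v =
      P.A ((ℓ i).smulRight (fderiv ℝ φ x v)) := fun i x v => by
    have h1 : HasFDerivAt φ (fderiv ℝ φ x) x := (hφ.differentiable (by simp) x).hasFDerivAt
    have h2 := (P.A.hasFDerivAt).comp x
      (((ContinuousLinearMap.smulRightL ℝ E F (ℓ i)).hasFDerivAt).comp x h1)
    have h3 : fderiv ℝ (fun x => P.A ((ℓ i).smulRight (φ x))) x = _ := h2.fderiv
    rw [h3]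
    rfl
  have iψ : ∀ i, Integrable fun x => ⟪P.A ((ℓ i).smulRight (fderiv ℝ ψ x (e i))), φ x⟫_ℂ :=
    fun i => by
      refine Continuous.integrable_of_hasCompactSupport ((hsr i _ (hdψ i)).inner hφ.continuous) ?_
      exact hφc.mono' (fun x hx => subset_tsupport _ fun h0 => hx (by simp only [h0,
        inner_zero_right]))
  have iφ : ∀ i, Integrable fun x => ⟪ψ x, P.A ((ℓ i).smulRight (fderiv ℝ φ x (e i)))⟫_ℂ :=
    fun i => by
      refine Continuous.integrable_of_hasCompactSupport (hψ.continuous.inner (hsr i _ (hdφ i))) ?_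
      exact hψc.mono' (fun x hx => subset_tsupport _ fun h0 => hx (by simp only [h0,
        inner_zero_left]))
  have hBφ : Continuous fun x => P.B x (φ x) := P.contB.clm_apply hφ.continuous
  have hBψ : Continuous fun x => P.B x (ψ x) := P.contB.clm_apply hψ.continuous
  have iB : Integrable fun x => ⟪P.B x (ψ x), φ x⟫_ℂ := by
    refine Continuous.integrable_of_hasCompactSupport (hBψ.inner hφ.continuous) ?_
    exact hφc.mono' (fun x hx => subset_tsupport _ fun h0 => hx (by simp only [h0,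
      inner_zero_right]))
  have iB' : Integrable fun x => ⟪ψ x, P.B x (φ x)⟫_ℂ := by
    refine Continuous.integrable_of_hasCompactSupport (hψ.continuous.inner hBφ) ?_
    exact hψc.mono' (fun x hx => subset_tsupport _ fun h0 => hx (by simp only [h0,
      inner_zero_left]))
  have e1 : ∀ x, ⟪P.op ψ x, φ x⟫_ℂ =
      ∑ i, ⟪P.A ((ℓ i).smulRight (fderiv ℝ ψ x (e i))), φ x⟫_ℂ + ⟪P.B x (ψ x), φ x⟫_ℂ := fun x => by
    rw [FOp.op, inner_add_left]
    congr 1
    conv_lhs => rw [clm_decomp (fderiv ℝ ψ x)]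
    rw [map_sum, sum_inner]
  have e2 : ∀ x, ⟪ψ x, P.op φ x⟫_ℂ =
      ∑ i, ⟪ψ x, P.A ((ℓ i).smulRight (fderiv ℝ φ x (e i)))⟫_ℂ + ⟪ψ x, P.B x (φ x)⟫_ℂ := fun x => by
    rw [FOp.op, inner_add_right]
    congr 1
    conv_lhs => rw [clm_decomp (fderiv ℝ φ x)]
    rw [map_sum, inner_sum]
  simp only [e1, e2]
  rw [integral_add (integrable_finsetSum _ fun i _ => iψ i) iB,
    integral_add (integrable_finsetSum _ fun i _ => iφ i) iB', integral_finsetSum _ fun i _ => iψ i,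
    integral_finsetSum _ fun i _ => iφ i]
  congr 1
  · refine Finset.sum_congr rfl fun i _ => ?_
    have h1 : ∀ x, ⟪P.A ((ℓ i).smulRight (fderiv ℝ ψ x (e i))), φ x⟫_ℂ =
        -⟪fderiv ℝ ψ x (e i), P.A ((ℓ i).smulRight (φ x))⟫_ℂ := fun x => by
      rw [hP.A, neg_neg]
    simp only [h1]
    rw [integral_neg, IBP837.ibp (hψ.of_le (by simp)) (hAφ i) (Or.inl hψc) (e i), neg_neg]
    simp only [hdA]
  · refine integral_congr_ae (Eventually.of_forall fun x => ?_)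
    simp only
    rw [hP.B]

/-! ### Local limits -/

/-- Convergence in `L²` of every ball. -/
def LC (f : ℕ → E → F) (u : E → F) : Prop :=
  ∀ R : ℝ, Tendsto (fun n => ∫⁻ x in {x | ‖x‖ ≤ R}, ‖f n x - u x‖ₑ ^ 2) atTop (𝓝 0)

theorem measurableSet_cball (R : ℝ) : MeasurableSet {x : E | ‖x‖ ≤ R} :=
  measurableSet_le measurable_norm measurable_const

theorem enorm_sq_eq (v : F) : ‖v‖ₑ ^ 2 = ENNReal.ofReal (‖v‖ ^ 2) := by
  rw [← ofReal_norm, ENNReal.ofReal_pow (norm_nonneg _)]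

theorem enorm_add_sq_le (v w : F) : ‖v + w‖ₑ ^ 2 ≤ 2 * ‖v‖ₑ ^ 2 + 2 * ‖w‖ₑ ^ 2 := by
  have h2 : (2 : ℝ≥0∞) = ENNReal.ofReal 2 := by norm_num
  rw [enorm_sq_eq, enorm_sq_eq, enorm_sq_eq, h2, ← ENNReal.ofReal_mul (by norm_num),
    ← ENNReal.ofReal_mul (by norm_num), ← ENNReal.ofReal_add (by positivity) (by positivity)]
  refine ENNReal.ofReal_le_ofReal ?_
  have h3 := norm_add_le v w
  have h4 := norm_nonneg (v + w)
  have h5 : ‖v + w‖ ^ 2 ≤ (‖v‖ + ‖w‖) ^ 2 := pow_le_pow_left₀ h4 h3 2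
  nlinarith [sq_nonneg (‖v‖ - ‖w‖)]

theorem lintegral_add_sq_le {μ : Measure E} {f g : E → F} (hf : AEStronglyMeasurable f μ) :
    ∫⁻ x, ‖f x + g x‖ₑ ^ 2 ∂μ ≤ 2 * ∫⁻ x, ‖f x‖ₑ ^ 2 ∂μ + 2 * ∫⁻ x, ‖g x‖ₑ ^ 2 ∂μ := by
  rw [← lintegral_const_mul' _ _ (by norm_num), ← lintegral_const_mul' _ _ (by norm_num),
    ← lintegral_add_left' ((hf.enorm.pow_const 2).const_mul 2)]
  exact lintegral_mono fun x => enorm_add_sq_le _ _

/-- Symmetries pass to local limits. -/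
theorem eqv_of_lc {f : ℕ → E → F} (hf : ∀ n, Continuous (f n)) (hu : AEStronglyMeasurable u volume)
    (h : LC f u) (g : E ≃ₗᵢ[ℝ] E) (T : F →L[ℝ] F) (hs : ∀ n x, f n (g x) = T (f n x)) :
    ∀ᵐ x, u (g x) = T (u x) := by
  have hug : AEStronglyMeasurable (fun x => u (g x)) volume :=
    hu.comp_measurePreserving g.measurePreserving
  have hTu : AEStronglyMeasurable (fun x => T (u x)) volume := T.continuous.comp_aestronglyMeasurable hu
  have key : ∀ R : ℝ, ∫⁻ x in {x | ‖x‖ ≤ R}, ‖u (g x) - T (u x)‖ₑ ^ 2 = 0 := fun R => by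
    have hle : ∀ n, ∫⁻ x in {x | ‖x‖ ≤ R}, ‖u (g x) - T (u x)‖ₑ ^ 2 ≤
        2 * (∫⁻ x in {x | ‖x‖ ≤ R}, ‖f n x - u x‖ₑ ^ 2) +
          2 * (ENNReal.ofReal (‖T‖ ^ 2) * ∫⁻ x in {x | ‖x‖ ≤ R}, ‖f n x - u x‖ₑ ^ 2) := fun n => by
      have e : ∀ x, u (g x) - T (u x) = (u (g x) - f n (g x)) + T (f n x - u x) := fun x => by
        rw [map_sub, ← hs n x]
        abel
      simp only [e]
      refine (lintegral_add_sq_le ((hug.sub ((hf n).comp g.continuous).aestronglyMeasurable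
        ).restrict)).trans ?_
      refine add_le_add (mul_le_mul_right ?_ 2) (mul_le_mul_right ?_ 2)
      · have h1 : ∫⁻ x in {x | ‖x‖ ≤ R}, ‖u (g x) - f n (g x)‖ₑ ^ 2 =
            ∫⁻ x in {x | ‖x‖ ≤ R}, ‖u x - f n x‖ₑ ^ 2 := by
          have h2 := (g.measurePreserving).setLIntegral_comp_preimage_emb
            g.toHomeomorph.measurableEmbedding (fun x => ‖u x - f n x‖ₑ ^ 2) {x | ‖x‖ ≤ R}
          rw [← h2]
          congr 2
          ext x
          simp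
        refine (le_of_eq h1).trans ?_
        refine le_of_eq (lintegral_congr fun x => ?_)
        rw [← enorm_neg, neg_sub]
      · rw [← lintegral_const_mul' _ _ ENNReal.ofReal_ne_top]
        refine lintegral_mono fun x => ?_
        rw [enorm_sq_eq, enorm_sq_eq, ← ENNReal.ofReal_mul (by positivity), ← mul_pow]
        exact ENNReal.ofReal_le_ofReal (pow_le_pow_left₀ (norm_nonneg _) (T.le_opNorm _) 2)
    have ht : Tendsto (fun n => 2 * (∫⁻ x in {x | ‖x‖ ≤ R}, ‖f n x - u x‖ₑ ^ 2) +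
          2 * (ENNReal.ofReal (‖T‖ ^ 2) * ∫⁻ x in {x | ‖x‖ ≤ R}, ‖f n x - u x‖ₑ ^ 2)) atTop (𝓝 0) := by
      have h1 := ENNReal.Tendsto.const_mul (a := 2) (h R) (Or.inr (by norm_num))
      have h2 := ENNReal.Tendsto.const_mul (a := 2) (ENNReal.Tendsto.const_mul
        (a := ENNReal.ofReal (‖T‖ ^ 2)) (h R) (Or.inr ENNReal.ofReal_ne_top)) (Or.inr (by norm_num))
      simpa using h1.add h2
    exact le_antisymm (ge_of_tendsto' ht hle) zero_le
  have hae : ∀ n : ℕ, ∀ᵐ x, x ∈ {x : E | ‖x‖ ≤ n} → u (g x) = T (u x) := fun n => by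
    have h1 := (lintegral_eq_zero_iff' ((hug.sub hTu).enorm.pow_const 2).restrict).1 (key n)
    rw [← ae_restrict_iff' (measurableSet_cball _)]
    filter_upwards [h1] with x hx
    have h2 : ‖u (g x) - T (u x)‖ₑ = 0 := by
      simpa using hx
    rwa [enorm_eq_zero, sub_eq_zero] at h2
  filter_upwards [ae_all_iff.2 hae] with x hx
  obtain ⟨n, hn⟩ := exists_nat_ge ‖x‖
  exact hx n hn

/-- Pairings with test functions pass to local limits. -/
theorem pair_of_lc {f : ℕ → E → F} (hf : ∀ n, Continuous (f n)) (hu : AEStronglyMeasurable u volume)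
    (h : LC f u) (hul : LocallyIntegrable u volume) {ψ : E → F} (hψ : Continuous ψ)
    (hψc : HasCompactSupport ψ) :
    Tendsto (fun n => ∫ x, ⟪ψ x, f n x⟫_ℂ) atTop (𝓝 (∫ x, ⟪ψ x, u x⟫_ℂ)) := by
  obtain ⟨R, hR⟩ : ∃ R : ℝ, ∀ x, R < ‖x‖ → ψ x = 0 := by
    obtain ⟨R, hR⟩ := hψc.isCompact.isBounded.exists_norm_le
    refine ⟨R, fun x hx => ?_⟩
    by_contra h0
    exact absurd (hR x (subset_tsupport _ h0)) (not_le.2 hx)
  have i1 : ∀ n, Integrable fun x => ⟪ψ x, f n x⟫_ℂ := fun n =>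
    integrable_inner_left hψ hψc ((hf n).locallyIntegrable)
  have i2 : Integrable fun x => ⟪ψ x, u x⟫_ℂ := integrable_inner_left hψ hψc hul
  rw [tendsto_iff_norm_sub_tendsto_zero]
  set A : ℝ≥0∞ := (∫⁻ x, ‖ψ x‖ₑ ^ 2) ^ (1 / 2 : ℝ) with hA
  have hAfin : A ≠ ⊤ := by
    rw [hA]
    refine ENNReal.rpow_ne_top_of_nonneg (by norm_num) ?_
    exact n2_ne_top (hψ.memLp_of_hasCompactSupport hψc)
  have hkey : ∀ n, ENNReal.ofReal ‖(∫ x, ⟪ψ x, f n x⟫_ℂ) - ∫ x, ⟪ψ x, u x⟫_ℂ‖ ≤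
      A * (∫⁻ x in {x | ‖x‖ ≤ R}, ‖f n x - u x‖ₑ ^ 2) ^ (1 / 2 : ℝ) := fun n => by
    rw [← integral_sub (i1 n) i2]
    have e : ∀ x, ⟪ψ x, f n x⟫_ℂ - ⟪ψ x, u x⟫_ℂ = ⟪ψ x, f n x - u x⟫_ℂ := fun x =>
      (inner_sub_right _ _ _).symm
    simp only [e]
    rw [ofReal_norm]
    refine (enorm_integral_le_lintegral_enorm _).trans ?_
    have h1 : ∫⁻ x, ‖⟪ψ x, f n x - u x⟫_ℂ‖ₑ ≤
        ∫⁻ x in {x | ‖x‖ ≤ R}, ‖ψ x‖ₑ * ‖f n x - u x‖ₑ := by
      rw [← lintegral_indicator (measurableSet_cball R)]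
      refine lintegral_mono fun x => ?_
      by_cases hx : ‖x‖ ≤ R
      · rw [indicator_of_mem (show x ∈ {x | ‖x‖ ≤ R} from hx)]
        rw [← ofReal_norm, ← ofReal_norm, ← ofReal_norm, ← ENNReal.ofReal_mul (norm_nonneg _)]
        exact ENNReal.ofReal_le_ofReal (norm_inner_le_norm _ _)
      · rw [hR x (not_le.1 hx), inner_zero_left]
        simp
    refine h1.trans ?_
    have h2 := ENNReal.lintegral_mul_le_Lp_mul_Lq ((volume : Measure E).restrict {x | ‖x‖ ≤ R})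
      (Real.HolderConjugate.two_two) (f := fun x => ‖ψ x‖ₑ) (g := fun x => ‖f n x - u x‖ₑ)
      hψ.aestronglyMeasurable.enorm.restrict
      (((hf n).aestronglyMeasurable.sub hu).enorm.restrict)
    refine h2.trans ?_
    simp only [ENNReal.rpow_two]
    rw [hA]
    gcongr
    exact Measure.restrict_le_self
  have ht : Tendsto (fun n => A * (∫⁻ x in {x | ‖x‖ ≤ R}, ‖f n x - u x‖ₑ ^ 2) ^ (1 / 2 : ℝ))
      atTop (𝓝 0) := by
    have h1 := (ENNReal.continuous_rpow_const (y := (1 / 2 : ℝ))).continuousAt.tendsto.comp (h R)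
    have h2 : ((0 : ℝ≥0∞)) ^ (1 / 2 : ℝ) = 0 := ENNReal.zero_rpow_of_pos (by norm_num)
    rw [h2] at h1
    have h3 := ENNReal.Tendsto.const_mul (a := A) h1 (Or.inr hAfin)
    rw [mul_zero] at h3
    exact h3
  have h0 := tendsto_of_tendsto_of_tendsto_of_le_of_le tendsto_const_nhds ht
    (fun _ => zero_le) hkey
  have h6 := (ENNReal.tendsto_toReal (by simp : (0 : ℝ≥0∞) ≠ ⊤)).comp h0
  simpa [Function.comp_def, ENNReal.toReal_ofReal (norm_nonneg _)] using h6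

/-! ### Zero states and solutions -/

/-- Zero states. -/
structure Ker (Q : κ → FOp E F) (S : Set ((E ≃ₗᵢ[ℝ] E) × (F →L[ℝ] F))) (Ψ : E → F) : Prop where
  memLp : MemLp Ψ 2 volume
  app : ∃ φ : ℕ → E → F, (∀ n, Core S (φ n)) ∧
    Tendsto (fun n => eLpNorm (fun x => φ n x - Ψ x) 2 volume) atTop (𝓝 0) ∧
    ∀ a, Tendsto (fun n => eLpNorm ((Q a).op (φ n)) 2 volume) atTop (𝓝 0)

theorem jw_le_one (x : E) : jw x ≤ 1 := by
  rw [jw]
  refine ENNReal.ofReal_le_one.2 ?_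
  rw [div_le_one (by positivity)]
  have : (0 : ℝ) ≤ ‖x‖ ^ 2 := by positivity
  linarith

/-- Functions with finite weighted norm are locally integrable. -/
theorem locInt_of_jw (hu : AEStronglyMeasurable u volume)
    (hfin : ∫⁻ x, jw x * ‖u x‖ₑ ^ 2 ≠ ⊤) : LocallyIntegrable u volume :=
  Sol.locInt (Q := fun a : Empty => (a.elim : FOp E F)) (S := ∅)
    ⟨hu, hfin, fun a => a.elim, fun p hp => absurd hp (Set.notMem_empty p)⟩

/-- Cauchy-Schwarz. -/
theorem enorm_integral_inner_le {μ : Measure E} {f g : E → F} (hf : AEStronglyMeasurable f μ)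
    (hg : AEStronglyMeasurable g μ) : ‖∫ x, ⟪f x, g x⟫_ℂ ∂μ‖ₑ ≤
      (∫⁻ x, ‖f x‖ₑ ^ 2 ∂μ) ^ (1 / 2 : ℝ) * (∫⁻ x, ‖g x‖ₑ ^ 2 ∂μ) ^ (1 / 2 : ℝ) := by
  refine (enorm_integral_le_lintegral_enorm _).trans ?_
  have h1 : ∫⁻ x, ‖⟪f x, g x⟫_ℂ‖ₑ ∂μ ≤ ∫⁻ x, ‖f x‖ₑ * ‖g x‖ₑ ∂μ := by
    refine lintegral_mono fun x => ?_
    rw [← ofReal_norm, ← ofReal_norm, ← ofReal_norm, ← ENNReal.ofReal_mul (norm_nonneg _)]
    exact ENNReal.ofReal_le_ofReal (norm_inner_le_norm _ _)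
  refine h1.trans ?_
  have h2 := ENNReal.lintegral_mul_le_Lp_mul_Lq μ
    (Real.HolderConjugate.two_two) (f := fun x => ‖f x‖ₑ) (g := fun x => ‖g x‖ₑ)
    hf.enorm hg.enorm
  refine h2.trans ?_
  simp only [ENNReal.rpow_two]
  exact le_rfl

theorem tendsto_half {α : Type*} {l : Filter α} {a : α → ℝ≥0∞} (h : Tendsto a l (𝓝 0)) :
    Tendsto (fun n => a n ^ (1 / 2 : ℝ)) l (𝓝 0) := by
  have h1 := (ENNReal.continuous_rpow_const (y := (1 / 2 : ℝ))).continuousAt.tendsto.comp h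
  have h2 : ((0 : ℝ≥0∞)) ^ (1 / 2 : ℝ) = 0 := ENNReal.zero_rpow_of_pos (by norm_num)
  rw [h2] at h1
  exact h1

/-- Pairings with square integrable functions which go to zero. -/
theorem tendsto_pair_zero {ψ : E → F} (hψ : MemLp ψ 2 volume) {g : ℕ → E → F}
    (hg : ∀ n, AEStronglyMeasurable (g n) volume)
    (h : Tendsto (fun n => ∫⁻ x, ‖g n x‖ₑ ^ 2) atTop (𝓝 0)) :
    Tendsto (fun n => ∫ x, ⟪ψ x, g n x⟫_ℂ) atTop (𝓝 0) := by
  rw [tendsto_zero_iff_enorm_tendsto_zero]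
  have h1 := ENNReal.Tendsto.const_mul (a := (∫⁻ x, ‖ψ x‖ₑ ^ 2) ^ (1 / 2 : ℝ)) (tendsto_half h)
    (Or.inr (ENNReal.rpow_ne_top_of_nonneg (by norm_num) (n2_ne_top hψ)))
  rw [mul_zero] at h1
  exact tendsto_of_tendsto_of_tendsto_of_le_of_le tendsto_const_nhds h1 (fun _ => zero_le)
    fun n => enorm_integral_inner_le hψ.1 (hg n)

/-- **Local limits of core functions with `Q_a f_n → 0` are solutions.** -/
theorem sol_of_lim (hQ : ∀ a, Adj (Q a) (Q a)) {f : ℕ → E → F} (hf : ∀ n, Core S (f n))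
    (hu : AEStronglyMeasurable u volume) (hfin : ∫⁻ x, jw x * ‖u x‖ₑ ^ 2 ≠ ⊤) (h : LC f u)
    (hq : ∀ a, Tendsto (fun n => ∫⁻ x, ‖(Q a).op (f n) x‖ₑ ^ 2) atTop (𝓝 0)) : Sol Q S u where
  meas := hu
  fin := hfin
  weak a ψ hψ hψc := by
    have h1 := pair_of_lc (fun n => (hf n).smooth.continuous) hu h (locInt_of_jw hu hfin)
      ((Q a).op_continuous hψ) ((Q a).op_supp hψc)
    have h2 : ∀ n, ∫ x, ⟪(Q a).op ψ x, f n x⟫_ℂ = ∫ x, ⟪ψ x, (Q a).op (f n) x⟫_ℂ := fun n =>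
      op_symm (hQ a) (hf n).smooth (hf n).supp hψ hψc
    simp only [h2] at h1
    have h3 := tendsto_pair_zero (hψ.continuous.memLp_of_hasCompactSupport hψc)
      (fun n => ((Q a).op_continuous (hf n).smooth).aestronglyMeasurable) (hq a)
    have h4 := tendsto_nhds_unique h1 h3
    rw [h4]
    simp
  eqv p hp := eqv_of_lc (fun n => (hf n).smooth.continuous) hu h p.1 p.2 fun n x =>
    (hf n).eqv p hp x

theorem jw_int_ne_top {Ψ : E → F} (h : MemLp Ψ 2 volume) : ∫⁻ x, jw x * ‖Ψ x‖ₑ ^ 2 ≠ ⊤ := by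
  refine ne_top_of_le_ne_top (n2_ne_top h) (lintegral_mono fun x => ?_)
  exact mul_le_of_le_one_left zero_le (jw_le_one x)

theorem Ker.sol (hQ : ∀ a, Adj (Q a) (Q a)) {Ψ : E → F} (h : Ker Q S Ψ) : Sol Q S Ψ := by
  obtain ⟨φ, h1, h2, h3⟩ := h.app
  refine sol_of_lim hQ h1 h.memLp.1 (jw_int_ne_top h.memLp) (fun R => ?_) fun a => ?_
  · have h4 := (ENNReal.continuous_pow 2).continuousAt.tendsto.comp h2
    simp only [ne_eq, OfNat.ofNat_ne_zero, not_false_eq_true, zero_pow, Function.comp_def,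
      sq_eLpNorm] at h4
    exact tendsto_of_tendsto_of_tendsto_of_le_of_le tendsto_const_nhds h4 (fun _ => zero_le)
      fun n => setLIntegral_le_lintegral _ _
  · have h4 := (ENNReal.continuous_pow 2).continuousAt.tendsto.comp (h3 a)
    simpa only [ne_eq, OfNat.ofNat_ne_zero, not_false_eq_true, zero_pow, Function.comp_def,
      sq_eLpNorm] using h4

theorem Sol.ker (hQ : ∀ a, Adj (Q a) (Q a)) (h : Sol Q S u) (hu : MemLp u 2 volume) :
    Ker Q S u := by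
  obtain ⟨φ, hφs, hφc, hφe, hφ1, hφ2⟩ := weak_strong hQ hu (χ := fun _ _ => (0 : F))
    (fun _ => MemLp.zero) h.weak
  refine ⟨hu, φ, fun n => ⟨hφs n, hφc n, fun p hp => hφe n p.1 p.2 (h.eqv p hp)⟩, hφ1,
    fun a => ?_⟩
  simpa only [sub_zero] using hφ2 a

end Crest.Agent.R330.Decay968

end
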