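import Mathlib
import Crest.Agent.R330.Rem_365

/-!
# Row 330, S9-DENS (helper365): cut-off near finitely many flats, density off the flats

`mcut A L c δ = ∏ a ∈ A, fcut (L a) (c a) δ` (product: invariant under isometries which permute the
flats, `mcut_comp`).

* `mcut_fderiv` : `‖D mcut‖ ≤ (C/δ) 1_{∃ a, ‖L a x - c a‖ ≤ 2 δ}`.
* `tendsto_mcut`, `tendsto_op_mcut` : `mcut_n ψ → ψ`, `Q (mcut_n ψ) → Q ψ` in `L²`.
* `exists_mol_step'` : 596's one step with an arbitrarily small radius.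
* `dens_off` : graph density of `C_c^∞` functions supported in any neighbourhood of the support, off
  the flats.
-/

set_option autoImplicit false
set_option linter.unusedSectionVars false

open MeasureTheory Set Filter Topology ENNReal
open scoped ContDiff InnerProductSpace NNReal

noncomputable section

namespace Crest.Agent.R330.MCut365

open Crest.Agent.R330.WS596 Crest.Agent.R330.Rem365 Crest.Agent.R330.Moll596

variable {E : Type*} [NormedAddCommGroup E] [InnerProductSpace ℝ E] [FiniteDimensional ℝ E]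
  [MeasurableSpace E] [BorelSpace E]
  {V : Type*} [NormedAddCommGroup V] [InnerProductSpace ℝ V] [FiniteDimensional ℝ V]
  [MeasurableSpace V] [BorelSpace V]
  {α : Type*}

/-- Product cut-off. -/
def mcut (A : Finset α) (L : α → E →L[ℝ] V) (c : α → V) (δ : ℝ) (x : E) : ℝ :=
  ∏ a ∈ A, fcut (L a) (c a) δ x

/-- The tubes of radius `r`. -/
def tubes (A : Finset α) (L : α → E →L[ℝ] V) (c : α → V) (r : ℝ) : Set E :=
  {x | ∃ a ∈ A, ‖L a x - c a‖ ≤ r}

theorem tubes_eq (A : Finset α) (L : α → E →L[ℝ] V) (c : α → V) (r : ℝ) :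
    tubes A L c r = ⋃ a ∈ A, {x | ‖L a x - c a‖ ≤ r} := by
  ext x
  simp [tubes]

theorem isClosed_tubes (A : Finset α) (L : α → E →L[ℝ] V) (c : α → V) (r : ℝ) :
    IsClosed (tubes A L c r) := by
  rw [tubes_eq]
  exact A.finite_toSet.isClosed_biUnion fun a _ =>
    isClosed_le (((L a).continuous.sub continuous_const).norm) continuous_const

section basic

variable (A : Finset α) (L : α → E →L[ℝ] V) (c : α → V)

theorem mcut_smooth (δ : ℝ) : ContDiff ℝ ∞ (mcut A L c δ) :=
  contDiff_prod fun a _ => fcut_smooth (L a) (c a) δ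

theorem mcut_nonneg (δ : ℝ) (x : E) : 0 ≤ mcut A L c δ x :=
  Finset.prod_nonneg fun _ _ => fcut_nonneg _ _ _ _

theorem mcut_le_one (δ : ℝ) (x : E) : mcut A L c δ x ≤ 1 :=
  Finset.prod_le_one (fun _ _ => fcut_nonneg _ _ _ _) fun _ _ => fcut_le_one _ _ _ _

variable {A L c}

theorem mcut_zero {δ : ℝ} (hδ : 0 < δ) {x : E} (h : x ∈ tubes A L c δ) : mcut A L c δ x = 0 := by
  obtain ⟨a, ha, h⟩ := h
  exact Finset.prod_eq_zero ha (fcut_zero hδ h)

theorem mcut_one {δ : ℝ} (hδ : 0 < δ) {x : E} (h : x ∉ tubes A L c (2 * δ)) :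
    mcut A L c δ x = 1 := by
  refine Finset.prod_eq_one fun a ha => fcut_one hδ ?_
  by_contra h'
  exact h ⟨a, ha, (not_le.1 h').le⟩

/-- The cut-off is invariant under isometries (any maps) permuting the distances to the flats. -/
theorem mcut_comp {g : E → E} {τ : α → α} (hτ : Set.BijOn τ A A)
    (h : ∀ a ∈ A, ∀ x, ‖L a (g x) - c a‖ = ‖L (τ a) x - c (τ a)‖) (δ : ℝ) (x : E) :
    mcut A L c δ (g x) = mcut A L c δ x := by
  unfold mcut
  refine Finset.prod_bij (fun a _ => τ a) (fun a ha => hτ.mapsTo ha)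
    (fun a ha b hb hab => hτ.injOn ha hb hab) (fun b hb => ?_) fun a ha => ?_
  · obtain ⟨a, ha, hab⟩ := hτ.surjOn hb
    exact ⟨a, ha, hab⟩
  · unfold fcut
    rw [h a ha x]

end basic

theorem mcut_fderiv (A : Finset α) (L : α → E →L[ℝ] V) : ∃ C : ℝ, 0 ≤ C ∧
    ∀ (c : α → V) (δ : ℝ), 0 < δ → ∀ x : E,
      ‖fderiv ℝ (mcut A L c δ) x‖ ≤ (tubes A L c (2 * δ)).indicator (fun _ => C / δ) x := by
  classical
  choose C hC0 hC using fun a => fcut_fderiv (L a)
  refine ⟨∑ a ∈ A, C a, Finset.sum_nonneg fun a _ => hC0 a, fun c δ hδ x => ?_⟩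
  by_cases hx : x ∈ tubes A L c (2 * δ)
  · rw [indicator_of_mem hx]
    have h1 : HasFDerivAt (mcut A L c δ) (∑ a ∈ A, (∏ b ∈ A.erase a, fcut (L b) (c b) δ x) •
        fderiv ℝ (fcut (L a) (c a) δ) x) x := by
      exact HasFDerivAt.finsetProd fun a _ =>
        ((fcut_smooth (L a) (c a) δ).differentiable (by simp) x).hasFDerivAt
    rw [h1.fderiv]
    refine (norm_sum_le _ _).trans ?_
    rw [Finset.sum_div]
    refine Finset.sum_le_sum fun a _ => ?_
    rw [norm_smul, Real.norm_eq_abs, abs_of_nonneg (Finset.prod_nonneg fun _ _ =>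
      fcut_nonneg _ _ _ _)]
    have h2 : ‖fderiv ℝ (fcut (L a) (c a) δ) x‖ ≤ C a / δ :=
      (hC a (c a) δ hδ x).trans (indicator_le_self' (fun _ _ => div_nonneg (hC0 a) hδ.le) _)
    calc (∏ b ∈ A.erase a, fcut (L b) (c b) δ x) * ‖fderiv ℝ (fcut (L a) (c a) δ) x‖
        ≤ 1 * (C a / δ) := mul_le_mul (Finset.prod_le_one (fun _ _ => fcut_nonneg _ _ _ _)
            fun _ _ => fcut_le_one _ _ _ _) h2 (norm_nonneg _) zero_le_one
      _ = C a / δ := one_mul _
  · rw [indicator_of_notMem hx]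
    have h3 : mcut A L c δ =ᶠ[𝓝 x] fun _ => 1 := by
      filter_upwards [(isClosed_tubes A L c (2 * δ)).isOpen_compl.mem_nhds hx] with y hy
      exact mcut_one hδ hy
    rw [h3.fderiv_eq, fderiv_fun_const]
    simp

/-- Volume of the tubes in a ball. -/
theorem tubes_vol (A : Finset α) {L : α → E →L[ℝ] V} (hL : ∀ a ∈ A, Function.Surjective (L a))
    (R : ℝ) : ∃ C : ℝ, 0 ≤ C ∧ ∀ (c : α → V) (ρ : ℝ), 0 ≤ ρ →
      (volume : Measure E) (Metric.closedBall 0 R ∩ tubes A L c ρ) ≤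
        ENNReal.ofReal (C * ρ ^ Module.finrank ℝ V) := by
  classical
  have h : ∀ a, ∃ C : ℝ, 0 ≤ C ∧ (a ∈ A → ∀ (c : V) (ρ : ℝ), 0 ≤ ρ →
      (volume : Measure E) {x : E | ‖x‖ ≤ R ∧ ‖L a x - c‖ ≤ ρ} ≤
        ENNReal.ofReal (C * ρ ^ Module.finrank ℝ V)) := by
    intro a
    by_cases ha : a ∈ A
    · obtain ⟨C, h0, h⟩ := tube_vol (L a) (hL a ha) R
      exact ⟨C, h0, fun _ => h⟩
    · exact ⟨0, le_rfl, fun h => absurd h ha⟩
  choose C hC0 hC using h
  refine ⟨∑ a ∈ A, C a, Finset.sum_nonneg fun a _ => hC0 a, fun c ρ hρ => ?_⟩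
  have h1 : Metric.closedBall (0 : E) R ∩ tubes A L c ρ ⊆
      ⋃ a ∈ A, {x : E | ‖x‖ ≤ R ∧ ‖L a x - c a‖ ≤ ρ} := by
    rintro x ⟨hx, a, ha, hxa⟩
    refine mem_biUnion ha ⟨?_, hxa⟩
    rwa [mem_closedBall_zero_iff] at hx
  refine (measure_mono h1).trans ((measure_biUnion_finset_le A _).trans ?_)
  rw [Finset.sum_mul, ENNReal.ofReal_sum_of_nonneg fun a _ =>
    mul_nonneg (hC0 a) (pow_nonneg hρ _)]
  exact Finset.sum_le_sum fun a ha => hC a ha (c a) ρ hρ

/-- The standard sequence of radii. -/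
def dl (n : ℕ) : ℝ := 1 / ((n : ℝ) + 1)

theorem dl_pos (n : ℕ) : 0 < dl n := by unfold dl; positivity

theorem dl_le_one (n : ℕ) : dl n ≤ 1 := by
  unfold dl
  rw [div_le_one (by positivity)]
  have : (0 : ℝ) ≤ n := Nat.cast_nonneg n
  linarith

theorem tendsto_dl : Tendsto dl atTop (𝓝 0) := tendsto_one_div_add_atTop_nhds_zero_nat

/-! ### `L²` convergence -/

section conv

variable {F : Type*} [NormedAddCommGroup F] [InnerProductSpace ℂ F] [CompleteSpace F]

/-- `L²` norm of a function supported in `ball R ∩ tubes` and bounded by `M`. -/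
theorem eLpNorm_tube_le {A : Finset α} {L : α → E →L[ℝ] V} {c : α → V} {R ρ M : ℝ}
    {g : E → F} (hg : ∀ x, ‖g x‖ ≤ (Metric.closedBall 0 R ∩ tubes A L c ρ).indicator
      (fun _ => M) x) :
    eLpNorm g 2 volume ^ 2 ≤ ENNReal.ofReal (M ^ 2) *
      (volume : Measure E) (Metric.closedBall 0 R ∩ tubes A L c ρ) := by
  have hS : MeasurableSet (Metric.closedBall (0 : E) R ∩ tubes A L c ρ) :=
    (Metric.isClosed_closedBall.inter (isClosed_tubes A L c ρ)).measurableSet
  rw [sq_eLpNorm]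
  calc ∫⁻ x, ‖g x‖ₑ ^ 2
      ≤ ∫⁻ x, (Metric.closedBall 0 R ∩ tubes A L c ρ).indicator
          (fun _ => ENNReal.ofReal (M ^ 2)) x := by
        refine lintegral_mono fun x => ?_
        have h1 := hg x
        by_cases hx : x ∈ Metric.closedBall (0 : E) R ∩ tubes A L c ρ
        · rw [indicator_of_mem hx] at h1 ⊢
          rw [← ofReal_norm, ← ENNReal.ofReal_pow (norm_nonneg _)]
          exact ENNReal.ofReal_le_ofReal (pow_le_pow_left₀ (norm_nonneg _) h1 2)
        · rw [indicator_of_notMem hx] at h1 ⊢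
          rw [norm_le_zero_iff.1 h1]
          simp
    _ = ENNReal.ofReal (M ^ 2) * volume (Metric.closedBall 0 R ∩ tubes A L c ρ) := by
        rw [lintegral_indicator hS, setLIntegral_const]

/-- Functions of size `K (n+1)` on the tubes of radius `2/(n+1)` tend to `0` in `L²` when the
codimension is at least `3`. -/
theorem tendsto_tube {A : Finset α} {L : α → E →L[ℝ] V} (hL : ∀ a ∈ A, Function.Surjective (L a))
    (hV : 3 ≤ Module.finrank ℝ V) (c : α → V) {R K : ℝ} {g : ℕ → E → F}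
    (hg : ∀ n x, ‖g n x‖ ≤ (Metric.closedBall 0 R ∩ tubes A L c (2 * dl n)).indicator
      (fun _ => K * ((n : ℝ) + 1)) x) :
    Tendsto (fun n => eLpNorm (g n) 2 volume) atTop (𝓝 0) := by
  obtain ⟨C, hC0, hC⟩ := tubes_vol A hL R
  set d := Module.finrank ℝ V
  refine tendsto_of_sq ?_
  have hb : ∀ n, eLpNorm (g n) 2 volume ^ 2 ≤ ENNReal.ofReal (K ^ 2 * C * 2 ^ d * dl n) := by
    intro n
    refine (eLpNorm_tube_le (hg n)).trans ?_
    have h1 := hC c (2 * dl n) (by have := dl_pos n; positivity)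
    calc ENNReal.ofReal ((K * ((n : ℝ) + 1)) ^ 2) *
          volume (Metric.closedBall (0 : E) R ∩ tubes A L c (2 * dl n))
        ≤ ENNReal.ofReal ((K * ((n : ℝ) + 1)) ^ 2) * ENNReal.ofReal (C * (2 * dl n) ^ d) := by
          gcongr
      _ = ENNReal.ofReal ((K * ((n : ℝ) + 1)) ^ 2 * (C * (2 * dl n) ^ d)) := by
          rw [← ENNReal.ofReal_mul (sq_nonneg _)]
      _ ≤ ENNReal.ofReal (K ^ 2 * C * 2 ^ d * dl n) := by
          refine ENNReal.ofReal_le_ofReal ?_
          have h5 : (dl n) ^ d ≤ (dl n) ^ 3 :=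
            pow_le_pow_of_le_one (dl_pos n).le (dl_le_one n) hV
          have h6 : ((n : ℝ) + 1) * dl n = 1 := by
            unfold dl
            field_simp
          calc (K * ((n : ℝ) + 1)) ^ 2 * (C * (2 * dl n) ^ d)
              = K ^ 2 * C * 2 ^ d * (((n : ℝ) + 1) ^ 2 * (dl n) ^ d) := by rw [mul_pow 2]; ring
            _ ≤ K ^ 2 * C * 2 ^ d * (((n : ℝ) + 1) ^ 2 * (dl n) ^ 3) := by gcongr
            _ = K ^ 2 * C * 2 ^ d * ((((n : ℝ) + 1) * dl n) ^ 2 * dl n) := by ring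
            _ = K ^ 2 * C * 2 ^ d * dl n := by rw [h6]; ring
  have hl : Tendsto (fun n => ENNReal.ofReal (K ^ 2 * C * 2 ^ d * dl n)) atTop (𝓝 0) := by
    have h1 := (ENNReal.continuous_ofReal.tendsto _).comp
      (tendsto_dl.const_mul (K ^ 2 * C * 2 ^ d))
    simpa only [mul_zero, ENNReal.ofReal_zero, Function.comp_def] using h1
  exact tendsto_of_tendsto_of_tendsto_of_le_of_le tendsto_const_nhds hl (fun _ => bot_le) hb

/-- Multiplication by the cut-off converges in `L²` (bounded functions in a ball). -/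
theorem tendsto_mcut {A : Finset α} {L : α → E →L[ℝ] V} (hL : ∀ a ∈ A, Function.Surjective (L a))
    (hV : 3 ≤ Module.finrank ℝ V) (c : α → V) {g : E → F} {R M : ℝ} (hR : ∀ x, R < ‖x‖ → g x = 0)
    (hM : ∀ x, ‖g x‖ ≤ M) :
    Tendsto (fun n => eLpNorm (fun x => mcut A L c (dl n) x • g x - g x) 2 volume) atTop (𝓝 0) := by
  have hM0 : 0 ≤ M := (norm_nonneg _).trans (hM 0)
  refine tendsto_tube hL hV c (R := R) (K := M) fun n x => ?_
  have h0 : mcut A L c (dl n) x • g x - g x = (mcut A L c (dl n) x - 1) • g x := by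
    rw [sub_smul, one_smul]
  by_cases hx : x ∈ Metric.closedBall (0 : E) R ∩ tubes A L c (2 * dl n)
  · rw [indicator_of_mem hx, h0, norm_smul, Real.norm_eq_abs]
    have h1 : |mcut A L c (dl n) x - 1| ≤ 1 := by
      rw [abs_le]
      constructor <;> linarith [mcut_nonneg A L c (dl n) x, mcut_le_one A L c (dl n) x]
    calc |mcut A L c (dl n) x - 1| * ‖g x‖ ≤ 1 * M :=
          mul_le_mul h1 (hM x) (norm_nonneg _) zero_le_one
      _ ≤ M * ((n : ℝ) + 1) := by
          have : (0 : ℝ) ≤ n := Nat.cast_nonneg n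
          nlinarith
  · rw [indicator_of_notMem hx]
    have h1 : mcut A L c (dl n) x • g x - g x = 0 := by
      by_cases hx1 : x ∈ Metric.closedBall (0 : E) R
      · rw [mcut_one (dl_pos n) fun h' => hx ⟨hx1, h'⟩, one_smul, sub_self]
      · rw [mem_closedBall_zero_iff, not_le] at hx1
        rw [hR x hx1, smul_zero, sub_zero]
    rw [h1, norm_zero]

/-- **Graph convergence** of the cut-off test functions. -/
theorem tendsto_op_mcut {A : Finset α} {L : α → E →L[ℝ] V}
    (hL : ∀ a ∈ A, Function.Surjective (L a)) (hV : 3 ≤ Module.finrank ℝ V) (c : α → V)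
    (Q : FOp E F) {ψ : E → F} (hψ : ContDiff ℝ ∞ ψ) (hψc : HasCompactSupport ψ) :
    Tendsto (fun n => eLpNorm (fun x => Q.op (fun y => mcut A L c (dl n) y • ψ y) x - Q.op ψ x)
      2 volume) atTop (𝓝 0) := by
  obtain ⟨R, hR⟩ := hψc.isBounded.subset_closedBall (0 : E)
  have hR' : ∀ x, R < ‖x‖ → ψ x = 0 := by
    intro x hx
    by_contra h'
    have h1 := hR (subset_tsupport _ h')
    rw [mem_closedBall_zero_iff] at h1
    linarith
  obtain ⟨M, hM⟩ := hψc.exists_bound_of_continuous hψ.continuous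
  have hM0 : 0 ≤ M := (norm_nonneg _).trans (hM 0)
  have hopR : ∀ x, R < ‖x‖ → Q.op ψ x = 0 := by
    intro x hx
    have h1 : x ∉ tsupport ψ := fun h' => by
      have h2 := hR h'
      rw [mem_closedBall_zero_iff] at h2
      linarith
    have h2 : fderiv ℝ ψ x = 0 := by
      by_contra h'
      exact h1 (support_fderiv_subset ℝ h')
    rw [FOp.op, h2, hR' x hx, map_zero, map_zero, add_zero]
  obtain ⟨M', hM'⟩ := (Q.op_supp hψc).exists_bound_of_continuous (Q.op_continuous hψ)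
  obtain ⟨C, hC0, hC⟩ := mcut_fderiv A L
  have h1 := tendsto_mcut hL hV c (g := Q.op ψ) hopR hM'
  have h2 : Tendsto (fun n => eLpNorm (fun x =>
      Q.A ((fderiv ℝ (mcut A L c (dl n)) x).smulRight (ψ x))) 2 volume) atTop (𝓝 0) := by
    refine tendsto_tube hL hV c (R := R) (K := ‖Q.A‖ * (C * M)) fun n x => ?_
    have h3 : ‖Q.A ((fderiv ℝ (mcut A L c (dl n)) x).smulRight (ψ x))‖ ≤
        ‖Q.A‖ * (‖fderiv ℝ (mcut A L c (dl n)) x‖ * ‖ψ x‖) := by
      refine (ContinuousLinearMap.le_opNorm _ _).trans ?_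
      rw [ContinuousLinearMap.norm_smulRight_apply]
    have h4 := hC c (dl n) (dl_pos n) x
    by_cases hx : x ∈ Metric.closedBall (0 : E) R ∩ tubes A L c (2 * dl n)
    · rw [indicator_of_mem hx]
      rw [indicator_of_mem hx.2] at h4
      have h5 : C / dl n = C * ((n : ℝ) + 1) := by
        unfold dl
        rw [div_div_eq_mul_div, div_one]
      rw [h5] at h4
      calc ‖Q.A ((fderiv ℝ (mcut A L c (dl n)) x).smulRight (ψ x))‖
          ≤ ‖Q.A‖ * (‖fderiv ℝ (mcut A L c (dl n)) x‖ * ‖ψ x‖) := h3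
        _ ≤ ‖Q.A‖ * ((C * ((n : ℝ) + 1)) * M) := by
            gcongr
            exact hM x
        _ = ‖Q.A‖ * (C * M) * ((n : ℝ) + 1) := by ring
    · rw [indicator_of_notMem hx]
      refine h3.trans (le_of_eq ?_)
      by_cases hx1 : x ∈ Metric.closedBall (0 : E) R
      · have hx2 : x ∉ tubes A L c (2 * dl n) := fun h' => hx ⟨hx1, h'⟩
        rw [indicator_of_notMem hx2] at h4
        rw [le_antisymm h4 (norm_nonneg _)]
        ring
      · rw [mem_closedBall_zero_iff, not_le] at hx1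
        rw [hR' x hx1, norm_zero]
        ring
  have h3 := h1.add h2
  rw [add_zero] at h3
  refine tendsto_of_tendsto_of_tendsto_of_le_of_le tendsto_const_nhds h3 (fun _ => bot_le)
    fun n => ?_
  have hms := mcut_smooth A L c (dl n)
  have hdc : Continuous (fderiv ℝ (mcut A L c (dl n))) := hms.continuous_fderiv (by simp)
  have hg : Continuous fun x => Q.A ((fderiv ℝ (mcut A L c (dl n)) x).smulRight (ψ x)) :=
    Q.A.continuous.comp ((ContinuousLinearMap.smulRightL ℝ E F).continuous₂.comp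
      (hdc.prodMk hψ.continuous))
  have e1 : (fun x => Q.op (fun y => mcut A L c (dl n) y • ψ y) x - Q.op ψ x) =
      fun x => (mcut A L c (dl n) x • Q.op ψ x - Q.op ψ x) +
        Q.A ((fderiv ℝ (mcut A L c (dl n)) x).smulRight (ψ x)) := by
    funext x
    rw [Q.op_smul hms hψ x]
    abel
  rw [e1]
  exact eLpNorm_add_le ((((hms.continuous.smul (Q.op_continuous hψ)).sub
    (Q.op_continuous hψ))).aestronglyMeasurable) hg.aestronglyMeasurable (by norm_num)

/-! ### Density -/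




end conv

end Crest.Agent.R330.MCut365

end
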