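import Mathlib
import Crest.Agent.R330.Pou_365
import Crest.Agent.R330.Chan_566
import Crest.Agent.R330.Chan_441
import Crest.Agent.R330.IBP_837
import Crest.Agent.R330.WS_596
import Crest.Agent.R330.Hardy_151
import Crest.Agent.R330.HardyG_968
import Crest.Agent.R330.TrialSys_796
import Crest.Agent.R330.Free_122
import Crest.Agent.R330.TDef_414
import Crest.Agent.R330.TCore_944

-- ▼ part R330/ChanWS_365
section

/-!
# Row 330, S10-LIM (helper365): weak = strong for 566's channel, transfer to free generators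

* `symm_chan`, `sep_chan`, `ws_chan` : the fields `symm`, `sep`, `ws` of 441's `IsLim` for 566's
  `Chan`, all masses.
* `IsLim.pull` : transfer of `IsLim` along a surjection `π : X' → X`.
* `Gen C B` : pairs `(i, ψ)`, `ψ` a test function supported in the open set `B i`; `π` : the
  symmetrisation `Gen →₀ ℂ → C.X`, surjective if the `B i` cover the complement of `Z`.
-/

set_option autoImplicit false
set_option linter.unusedSectionVars false
set_option linter.unusedVariables false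

open MeasureTheory Set Filter Topology
open scoped ContDiff InnerProductSpace

noncomputable section

namespace Crest.Agent.R330.ChanWS365

open Crest.Agent.R330.WS596 Crest.Agent.R330.WSOff365 Crest.Agent.R330.Pou365
  Crest.Agent.R330.Rem365 Crest.Agent.R330.MCut365 Crest.Agent.R330.Chan566
  Crest.Agent.R330.TrialSys796

/-! ### Transfer along a surjection -/



/-! ### Weak = strong for 566's channel -/

variable {S : Type*} [Group S] [Fintype S]
variable {E : Type*} [NormedAddCommGroup E] [InnerProductSpace ℝ E] [FiniteDimensional ℝ E]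
  [MeasurableSpace E] [BorelSpace E]
variable {F : Type*} [NormedAddCommGroup F] [InnerProductSpace ℂ F] [FiniteDimensional ℂ F]
variable {V : Type*} [NormedAddCommGroup V] [InnerProductSpace ℝ V] [FiniteDimensional ℝ V]
  [MeasurableSpace V] [BorelSpace V]
variable (C : Chan S E F)

theorem inner_eL (χ : C.X) (f : C.L) :
    ⟪C.e χ, f⟫_ℂ = ∫ x, ⟪χ.1 x, (f : Lp F 2 (volume : Measure E)) x⟫_ℂ := by
  have h0 : ⟪C.e χ, f⟫_ℂ =
      ⟪(C.e χ : Lp F 2 (volume : Measure E)), (f : Lp F 2 (volume : Measure E))⟫_ℂ := rfl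
  rw [h0, L2.inner_def]
  refine integral_congr_ae ?_
  filter_upwards [C.e_ae χ] with x hx
  rw [hx]

theorem norm_eL_sub (χ : C.X) (f : C.L) :
    ‖C.e χ - f‖ = (eLpNorm (fun x => χ.1 x - (f : Lp F 2 (volume : Measure E)) x) 2
      volume).toReal := by
  have h0 : ‖C.e χ - f‖ =
      ‖(C.e χ : Lp F 2 (volume : Measure E)) - (f : Lp F 2 (volume : Measure E))‖ := rfl
  rw [h0, Lp.norm_def]
  congr 1
  refine eLpNorm_congr_ae ?_
  filter_upwards [Lp.coeFn_sub (C.e χ : Lp F 2 (volume : Measure E))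
    (f : Lp F 2 (volume : Measure E)), C.e_ae χ] with x h1 h2
  rw [h1, Pi.sub_apply, h2]







theorem cov_chan (m : ℝ) (α : Fin 16) : Cov C.O C.U (C.Q m α) := by
  have h1 : ∀ (s : S) (ψ : E → F), tw C.O C.U s ψ = C.tr s ψ := by
    intro s ψ
    funext x
    rw [tw, Chan.tr, inv_apply_U]
  intro s ψ hψ x
  rw [h1, h1]
  exact C.op_tr m α s hψ x

/-- **The field `ws`.** -/
theorem ws_chan {m : ℝ} (hadj : ∀ α, Adj (C.Q m α) (C.Q m α)) {κ : Type*} {A : Finset κ}
    {L : κ → E →L[ℝ] V} {c : κ → V} (hZ : C.Z = flats A L c)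
    (hL : ∀ a ∈ A, Function.Surjective (L a)) (hV : 3 ≤ Module.finrank ℝ V)
    (hmc : ∀ (s : S) δ x, mcut A L c δ (C.O s x) = mcut A L c δ x)
    (f : C.L) (h : Fin 16 → C.L)
    (hf : ∀ (χ : C.X) α, ⟪C.e (C.D m α χ), f⟫_ℂ = ⟪C.e χ, h α⟫_ℂ) {ε : ℝ} (hε : 0 < ε) :
    ∃ χ : C.X, ‖C.e χ - f‖ ≤ ε ∧ ∀ α, ‖C.e (C.D m α χ) - h α‖ ≤ ε := by
  have hu : ∀ k : C.L, MemLp ((k : Lp F 2 (volume : Measure E)) : E → F) 2 volume :=
    fun k => Lp.memLp _
  obtain ⟨φ, h1, h2, h3, h4, h5, h6⟩ := ws_off_sym C.O C.U hadj (fun α => cov_chan C m α) (hu f)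
    (χ := fun α => ((h α : Lp F 2 (volume : Measure E)) : E → F)) (fun α => hu (h α))
    (fun s => C.mem_L.1 f.2 s) (fun α s => C.mem_L.1 (h α).2 s) hL hV hmc
    (fun s x => by rw [← hZ]; exact C.mem_Z_iff s x)
    (fun α ψ hψ hψc hψd hψs => by
      have hX : ψ ∈ C.X := ⟨⟨hψ, hψc, fun x hx hz => Set.disjoint_left.1 hψd hx (hZ ▸ hz)⟩, hψs⟩
      have h7 := hf ⟨ψ, hX⟩ α
      rw [inner_eL, inner_eL] at h7
      exact h7)
  have hX : ∀ n, φ n ∈ C.X := fun n =>
    ⟨⟨h1 n, h2 n, fun x hx hz => Set.disjoint_left.1 (h3 n) hx (hZ ▸ hz)⟩, h4 n⟩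
  have hε' : (0 : ENNReal) < ENNReal.ofReal ε := ENNReal.ofReal_pos.2 hε
  have e1 := h5.eventually_le_const hε'
  have e2 : ∀ᶠ n in atTop, ∀ α, eLpNorm (fun x => (C.Q m α).op (φ n) x -
      (h α : Lp F 2 (volume : Measure E)) x) 2 volume ≤ ENNReal.ofReal ε :=
    eventually_all.2 fun α => (h6 α).eventually_le_const hε'
  obtain ⟨n, hn1, hn2⟩ := (e1.and e2).exists
  refine ⟨⟨φ n, hX n⟩, ?_, fun α => ?_⟩
  · rw [norm_eL_sub]
    exact ENNReal.toReal_le_of_le_ofReal hε.le hn1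
  · rw [norm_eL_sub]
    exact ENNReal.toReal_le_of_le_ofReal hε.le (hn2 α)

/-! ### Free generators -/

variable {ι : Type*} (B : ι → Set E)

/-- Generators: test functions supported in one of the open sets. -/
def Gen : Type _ := Σ i : ι, {ψ : E → F // C.Test ψ ∧ tsupport ψ ⊆ B i}

variable {C B}

/-- The charge on generators. -/
def Gen.D (m : ℝ) (α : Fin 16) (γ : Gen C B) : Gen C B :=
  ⟨γ.1, (C.Q m α).op γ.2.1, γ.2.2.1.op m α, (C.op_tsupport m α γ.2.1).trans γ.2.2.2⟩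

variable (C B)

/-- The map to the test space of the channel. -/
def proj : (Gen C B →₀ ℂ) →ₗ[ℂ] C.X := Finsupp.linearCombination ℂ fun γ => C.sym γ.2.2.1







end Crest.Agent.R330.ChanWS365

end
end

-- ▼ part R330/ChanWS2_365
section

/-!
# Row 330, S10-LIM (helper365): `ws` for a channel whose flats are only invariant as a set

* `ws_chan'` : `ws_chan` without the permutation hypothesis: the flats `L a ∘ O s`, `a ∈ A`, `s ∈ S`,
  have the same union and are permuted by the group.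
* `surj_test` : a test function is a finite sum of test functions supported in balls.
-/

set_option autoImplicit false
set_option linter.unusedSectionVars false
set_option linter.unusedVariables false

open MeasureTheory Set Filter Topology
open scoped ContDiff InnerProductSpace

noncomputable section

namespace Crest.Agent.R330.ChanWS365

open Crest.Agent.R330.WS596 Crest.Agent.R330.WSOff365 Crest.Agent.R330.Pou365
  Crest.Agent.R330.Rem365 Crest.Agent.R330.MCut365 Crest.Agent.R330.Chan566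

variable {S : Type*} [Group S] [Fintype S]
variable {E : Type*} [NormedAddCommGroup E] [InnerProductSpace ℝ E] [FiniteDimensional ℝ E]
  [MeasurableSpace E] [BorelSpace E]
variable {F : Type*} [NormedAddCommGroup F] [InnerProductSpace ℂ F] [FiniteDimensional ℂ F]
variable {V : Type*} [NormedAddCommGroup V] [InnerProductSpace ℝ V] [FiniteDimensional ℝ V]
  [MeasurableSpace V] [BorelSpace V]
variable (C : Chan S E F)

/-- The translated flats. -/
def LO {κ : Type*} (L : κ → E →L[ℝ] V) (q : S × κ) : E →L[ℝ] V :=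
  (L q.2) ∘L ((C.O q.1 : E ≃ₗᵢ[ℝ] E) : E →L[ℝ] E)

theorem LO_apply {κ : Type*} (L : κ → E →L[ℝ] V) (q : S × κ) (x : E) :
    LO C L q x = L q.2 (C.O q.1 x) := rfl

theorem mem_flats {κ : Type*} {A : Finset κ} {L : κ → E →L[ℝ] V} {c : κ → V} {x : E} :
    x ∈ flats A L c ↔ ∃ a ∈ A, L a x = c a := by
  simp only [flats, mem_iUnion, mem_ofPred_eq, exists_prop]

theorem flats_LO {κ : Type*} {A : Finset κ} {L : κ → E →L[ℝ] V} {c : κ → V}
    (hZ : C.Z = flats A L c) :
    C.Z = flats ((Finset.univ : Finset S) ×ˢ A) (LO C L) fun q => c q.2 := by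
  ext x
  rw [mem_flats]
  constructor
  · intro hx
    rw [hZ, mem_flats] at hx
    obtain ⟨a, ha, h⟩ := hx
    refine ⟨(1, a), Finset.mem_product.2 ⟨Finset.mem_univ _, ha⟩, ?_⟩
    rw [LO_apply, map_one]
    exact h
  · rintro ⟨⟨s, a⟩, hq, h⟩
    rw [← C.mem_Z_iff s x, hZ, mem_flats]
    exact ⟨a, (Finset.mem_product.1 hq).2, h⟩

theorem mcut_LO {κ : Type*} {A : Finset κ} {L : κ → E →L[ℝ] V} {c : κ → V} (t : S) (δ : ℝ)
    (x : E) :
    mcut ((Finset.univ : Finset S) ×ˢ A) (LO C L) (fun q => c q.2) δ (C.O t x) =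
      mcut ((Finset.univ : Finset S) ×ˢ A) (LO C L) (fun q => c q.2) δ x := by
  refine mcut_comp (τ := fun q : S × κ => (q.1 * t, q.2)) ⟨?_, ?_, ?_⟩ (fun q _ y => ?_) δ x
  · intro q hq
    have h1 := Finset.mem_product.1 (Finset.mem_coe.1 hq)
    exact Finset.mem_coe.2 (Finset.mem_product.2 ⟨Finset.mem_univ _, h1.2⟩)
  · intro q _ q' _ h
    have h1 := congrArg Prod.fst h
    have h2 := congrArg Prod.snd h
    simp only [mul_left_inj] at h1
    exact Prod.ext h1 h2
  · intro q hq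
    have h1 := Finset.mem_product.1 (Finset.mem_coe.1 hq)
    refine ⟨(q.1 * t⁻¹, q.2), Finset.mem_coe.2 (Finset.mem_product.2 ⟨Finset.mem_univ _, h1.2⟩), ?_⟩
    simp only [inv_mul_cancel_right]
  · simp only [LO_apply]
    rw [map_mul]
    rfl



end Crest.Agent.R330.ChanWS365

end
end

-- ▼ part R330/WDH_245
section

/-!
# R330/WDH_245 (leaf S9-WDH)

Hardy inequality for square integrable functions with a weak constant coefficient Dirac equation:
`cD e a ψ = Σ_k (-i) a_k ∂_{e_k} ψ`, `a_k` symmetric, `a_k a_l + a_l a_k = δ_kl`, `e` orthonormal.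
If `∫ ⟪u, cD ψ⟫ = ∫ ⟪h, ψ⟫` for all test functions then
`((n-2)/2)² ∫ ‖u‖²/r² ≤ 2 ∫ ‖h‖²`.
-/

set_option autoImplicit false
set_option linter.unusedSectionVars false

open MeasureTheory Set Filter Topology ENNReal
open scoped ContDiff InnerProductSpace

noncomputable section

namespace Crest.Agent.R330.WDH245

open Crest.Agent.R330.IBP837 Crest.Agent.R330.WS596

variable {E : Type*} [NormedAddCommGroup E] [InnerProductSpace ℝ E] [FiniteDimensional ℝ E]
  [MeasurableSpace E] [BorelSpace E]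
variable {F : Type*} [NormedAddCommGroup F] [InnerProductSpace ℂ F] [FiniteDimensional ℂ F]
variable {ι : Type*} [Fintype ι] [DecidableEq ι]

/-- constant coefficient Dirac operator -/
def cD (e : ι → E) (a : ι → F →ₗ[ℂ] F) (ψ : E → F) (x : E) : F :=
  ∑ k, (-Complex.I) • a k (fderiv ℝ ψ x (e k))

/-- Clifford relations of the symbol -/
structure Cliff (a : ι → F →ₗ[ℂ] F) : Prop where
  symm : ∀ k, (a k).IsSymmetric
  anti : ∀ k l, a k ∘ₗ a l + a l ∘ₗ a k = if k = l then (LinearMap.id : F →ₗ[ℂ] F) else 0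

variable {e : ι → E} {a : ι → F →ₗ[ℂ] F}

theorem cont_lin (L : F →ₗ[ℂ] F) : Continuous L := LinearMap.continuous_of_finiteDimensional _

theorem contDiff_lin (L : F →ₗ[ℂ] F) {n : WithTop ℕ∞} {f : E → F} (hf : ContDiff ℝ n f) :
    ContDiff ℝ n fun x => L (f x) := by
  have h : ContDiff ℝ n (fun v : F => L v) :=
    ((LinearMap.toContinuousLinearMap L).restrictScalars ℝ).contDiff
  exact h.comp hf

theorem fderiv_lin (L : F →ₗ[ℂ] F) {f : E → F} {x : E} (hf : DifferentiableAt ℝ f x) (v : E) :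
    fderiv ℝ (fun y => L (f y)) x v = L (fderiv ℝ f x v) := by
  have h := (((LinearMap.toContinuousLinearMap L).restrictScalars ℝ).hasFDerivAt.comp x
    hf.hasFDerivAt)
  have h2 : fderiv ℝ (fun y => L (f y)) x = (((LinearMap.toContinuousLinearMap L).restrictScalars ℝ)).comp
      (fderiv ℝ f x) := h.fderiv
  rw [h2]
  rfl

/-- exchange of derivatives -/
theorem swap {φ : E → F} (hφ : ContDiff ℝ 2 φ) (hc : HasCompactSupport φ) (B : F →ₗ[ℂ] F)
    (u v : E) :
    ∫ x, ⟪fderiv ℝ φ x u, B (fderiv ℝ φ x v)⟫_ℂ = ∫ x, ⟪fderiv ℝ φ x v, B (fderiv ℝ φ x u)⟫_ℂ := by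
  have h1 : ContDiff ℝ 1 φ := hφ.of_le (by norm_num)
  have hd : ∀ w : E, ContDiff ℝ 1 fun x => fderiv ℝ φ x w := fun w =>
    (hφ.fderiv_right (m := 1) (by norm_num)).clm_apply contDiff_const
  have hB : ∀ w : E, ContDiff ℝ 1 fun x => B (fderiv ℝ φ x w) := fun w => contDiff_lin B (hd w)
  have h2 : ∀ w z : E, ∀ x, fderiv ℝ (fun y => B (fderiv ℝ φ y w)) x z =
      B (fderiv ℝ (fderiv ℝ φ) x z w) := by
    intro w z x
    rw [fderiv_lin B ((hd w).differentiable one_ne_zero x)]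
    congr 1
    have h3 : DifferentiableAt ℝ (fderiv ℝ φ) x :=
      (hφ.fderiv_right (m := 1) (by norm_num)).differentiable one_ne_zero x
    rw [fderiv_clm_apply h3 (differentiableAt_const w)]
    simp
  rw [ibp h1 (hB v) (Or.inl hc) u, ibp h1 (hB u) (Or.inl hc) v]
  congr 1
  refine integral_congr_ae (Eventually.of_forall fun x => ?_)
  show ⟪φ x, fderiv ℝ (fun y => B (fderiv ℝ φ y v)) x u⟫_ℂ =
    ⟪φ x, fderiv ℝ (fun y => B (fderiv ℝ φ y u)) x v⟫_ℂ
  rw [h2, h2]
  have hsym : IsSymmSndFDerivAt ℝ φ x := hφ.contDiffAt.isSymmSndFDerivAt (by simp)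
  rw [hsym.eq]

/-- `∫ ‖D φ‖² = ½ Σ ∫ ‖∂_k φ‖²` -/
theorem integral_cD_sq (ha : Cliff a) {φ : E → F} (hφ : ContDiff ℝ 2 φ)
    (hc : HasCompactSupport φ) :
    ∫ x, ‖cD e a φ x‖ ^ 2 = 1 / 2 * ∫ x, ∑ k, ‖fderiv ℝ φ x (e k)‖ ^ 2 := by
  have h1 : ContDiff ℝ 1 φ := hφ.of_le (by norm_num)
  have hdc : ∀ w : E, Continuous fun x => fderiv ℝ φ x w := fun w => fderiv_apply_continuous h1 w
  have hds : ∀ w : E, HasCompactSupport fun x => fderiv ℝ φ x w := fun w =>
    hasCompactSupport_fderiv_apply hc w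
  have hint : ∀ (B : F →ₗ[ℂ] F) (u v : E), Integrable fun x =>
      ⟪fderiv ℝ φ x u, B (fderiv ℝ φ x v)⟫_ℂ := fun B u v =>
    integrable_inner_of_cont (hdc u) ((cont_lin B).comp (hdc v)) (Or.inl (hds u))
  have hpt : ∀ x, ((‖cD e a φ x‖ ^ 2 : ℝ) : ℂ) = ∑ k, ∑ l,
      ⟪fderiv ℝ φ x (e k), (a k ∘ₗ a l) (fderiv ℝ φ x (e l))⟫_ℂ := by
    intro x
    have h2 : ((‖cD e a φ x‖ ^ 2 : ℝ) : ℂ) = ⟪cD e a φ x, cD e a φ x⟫_ℂ := by
      rw [inner_self_eq_norm_sq_to_K]; push_cast; rfl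
    rw [h2]
    unfold cD
    rw [sum_inner]
    refine Finset.sum_congr rfl fun k _ => ?_
    rw [inner_sum]
    refine Finset.sum_congr rfl fun l _ => ?_
    rw [inner_smul_left, inner_smul_right, LinearMap.comp_apply, ha.symm k]
    rw [← mul_assoc]
    have : (starRingEnd ℂ) (-Complex.I) * -Complex.I = 1 := by
      simp
    rw [this, one_mul]
  have hC : ((∫ x, ‖cD e a φ x‖ ^ 2 : ℝ) : ℂ) =
      ((1 / 2 * ∫ x, ∑ k, ‖fderiv ℝ φ x (e k)‖ ^ 2 : ℝ) : ℂ) := by
    rw [← integral_complex_ofReal]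
    simp only [hpt]
    rw [integral_finsetSum _ fun k _ => integrable_finsetSum _ fun l _ => hint _ _ _]
    have h3 : ∀ k, ∫ x, ∑ l, ⟪fderiv ℝ φ x (e k), (a k ∘ₗ a l) (fderiv ℝ φ x (e l))⟫_ℂ =
        ∑ l, ∫ x, ⟪fderiv ℝ φ x (e k), (a k ∘ₗ a l) (fderiv ℝ φ x (e l))⟫_ℂ := fun k =>
      integral_finsetSum _ fun l _ => hint _ _ _
    simp only [h3]
    set S : ι → ι → (F →ₗ[ℂ] F) → ℂ := fun k l B =>
      ∫ x, ⟪fderiv ℝ φ x (e k), B (fderiv ℝ φ x (e l))⟫_ℂ with hS
    have hSadd : ∀ k l (B C : F →ₗ[ℂ] F), S k l B + S k l C = S k l (B + C) := by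
      intro k l B C
      simp only [hS]
      rw [← integral_add (hint _ _ _) (hint _ _ _)]
      refine integral_congr_ae (Eventually.of_forall fun x => ?_)
      simp only [LinearMap.add_apply, inner_add_right]
    have hswap : ∀ k l B, S k l B = S l k B := fun k l B => swap hφ hc B (e k) (e l)
    have h4 : (2 : ℂ) * ∑ k, ∑ l, S k l (a k ∘ₗ a l) = ∑ k, ∑ l, S k l (a k ∘ₗ a l + a l ∘ₗ a k) := by
      rw [two_mul]
      nth_rewrite 2 [Finset.sum_comm]
      rw [← Finset.sum_add_distrib]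
      refine Finset.sum_congr rfl fun k _ => ?_
      rw [← Finset.sum_add_distrib]
      refine Finset.sum_congr rfl fun l _ => ?_
      rw [hswap l k, hSadd]
    have h5 : ∑ k, ∑ l, S k l (a k ∘ₗ a l + a l ∘ₗ a k) =
        ((∫ x, ∑ k, ‖fderiv ℝ φ x (e k)‖ ^ 2 : ℝ) : ℂ) := by
      have h6 : ∀ k l, S k l (a k ∘ₗ a l + a l ∘ₗ a k) =
          if k = l then ((∫ x, ‖fderiv ℝ φ x (e k)‖ ^ 2 : ℝ) : ℂ) else 0 := by
        intro k l
        simp only [hS, ha.anti]
        by_cases hkl : k = l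
        · subst hkl
          rw [if_pos rfl, if_pos rfl, ← integral_complex_ofReal]
          refine integral_congr_ae (Eventually.of_forall fun x => ?_)
          simp only [LinearMap.id_apply]
          rw [inner_self_eq_norm_sq_to_K]; push_cast; rfl
        · simp [if_neg hkl]
      simp only [h6]
      have h7 : ∀ k, ∑ l, (if k = l then ((∫ x, ‖fderiv ℝ φ x (e k)‖ ^ 2 : ℝ) : ℂ) else 0) =
          ((∫ x, ‖fderiv ℝ φ x (e k)‖ ^ 2 : ℝ) : ℂ) := fun k => by simp
      simp only [h7]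
      rw [integral_finsetSum]
      · push_cast; rfl
      · intro k _
        refine ((hdc (e k)).norm.pow 2).integrable_of_hasCompactSupport ?_
        exact HasCompactSupport.intro (hds (e k)) fun x hx => by
          simp only [Pi.pow_apply]
          have : fderiv ℝ φ x (e k) = 0 :=
            image_eq_zero_of_notMem_tsupport (f := fun x => fderiv ℝ φ x (e k)) hx
          rw [this]; simp
    rw [h5] at h4
    have h8 : ∑ k, ∑ l, S k l (a k ∘ₗ a l) =
        (1 / 2 : ℂ) * ((∫ x, ∑ k, ‖fderiv ℝ φ x (e k)‖ ^ 2 : ℝ) : ℂ) := by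
      rw [← h4]; ring
    rw [h8]
    push_cast
    ring
  exact_mod_cast hC







end Crest.Agent.R330.WDH245

end
end

-- ▼ part R330/ChHardy_718
section

/-!
# Row 330, S9-CHHARDY (helper718): the free massless charges on test functions

`a : κ → F →ₗ F` with `a_k` symmetric and `a_k a_l + a_l a_k = δ_kl` (`WDH245.Cliff`),
`dirac a 0 ψ = Σ_k (-i) a_k ∂_k ψ` on `ℝ^κ`.

* `dirac_sq` : `D² ψ = -½ Δ ψ`; `dirac_sq_eq` : (sq) the squares of two such operators agree.
* `sum_dirac_sq` : `Σ_α ∫ ‖D_α φ‖² = (card I / 2) ∫ |∇φ|²`.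
* `hardy_test` : (hardy) `(49/8) ∫ ‖w(|x|²) φ‖² ≤ (1/16) Σ_α ∫ ‖D_α φ‖²` if `w(t)² t ≤ 1`.
-/

set_option autoImplicit false
set_option linter.unusedSectionVars false

open MeasureTheory Set Filter Topology ENNReal
open scoped ContDiff InnerProductSpace

noncomputable section

namespace Crest.Agent.R330.ChHardy718

open Crest.Agent.R330.IBP837 Crest.Agent.R330.WDH245

variable {κ : Type*} [Fintype κ] [DecidableEq κ]
variable {F : Type*} [NormedAddCommGroup F] [InnerProductSpace ℂ F] [FiniteDimensional ℂ F]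
variable {a a' : κ → F →ₗ[ℂ] F} {V : EuclideanSpace ℝ κ → F →ₗ[ℂ] F}

/-- The standard orthonormal family. -/
def eb (κ : Type*) [Fintype κ] [DecidableEq κ] (k : κ) : EuclideanSpace ℝ κ :=
  EuclideanSpace.single k 1




/-- The second derivatives. -/
def dd (ψ : EuclideanSpace ℝ κ → F) (k l : κ) (x : EuclideanSpace ℝ κ) : F :=
  fderiv ℝ (fderiv ℝ ψ) x (eb κ k) (eb κ l)










end Crest.Agent.R330.ChHardy718

end
end

-- ▼ part R330/ChBind_718
section

/-!
# Row 330, S9-CHHARDY (helper718): 566's channel has the fields of 441's `IsLim`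

* `cdD_sq_eq`, `hardy_test'` : (sq), (hardy) for any orthonormal basis of a Euclidean space.
* `Free C ob a` : the massless charges of `C` are `Σ_k (-i) a_k ∂_k` in the orthonormal basis `ob`.
* `symm`, `sq`, `hardy` : the fields of `IsLim` for `C.e`, `C.D`, `Wt C`.
* `IsLim.comap` : the limit system with another space of generators `π : X' → X` (surjective).
-/

set_option autoImplicit false
set_option linter.unusedSectionVars false

open MeasureTheory Set Filter Topology ENNReal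
open scoped ContDiff InnerProductSpace

noncomputable section

namespace Crest.Agent.R330.ChBind718

open Crest.Agent.R330.WDH245 Crest.Agent.R330.WS596 Crest.Agent.R330.Chan566
  Crest.Agent.R330.Chan441 Crest.Agent.R330.TrialSys796

variable {κ : Type*} [Fintype κ] [DecidableEq κ]
variable {E : Type*} [NormedAddCommGroup E] [InnerProductSpace ℝ E] [FiniteDimensional ℝ E]
  [MeasurableSpace E] [BorelSpace E]
variable {F : Type*} [NormedAddCommGroup F] [InnerProductSpace ℂ F] [FiniteDimensional ℂ F]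
variable {e : κ → E} {a a' : κ → F →ₗ[ℂ] F}

theorem two_le_infty : (2 : WithTop ℕ∞) ≤ ((⊤ : ℕ∞) : WithTop ℕ∞) := by
  rw [show (2 : WithTop ℕ∞) = ((2 : ℕ∞) : WithTop ℕ∞) from rfl]
  exact WithTop.coe_le_coe.2 le_top

theorem cD_smooth {ψ : E → F} (hψ : ContDiff ℝ ∞ ψ) : ContDiff ℝ ∞ (cD e a ψ) := by
  unfold cD
  refine ContDiff.sum fun k _ => ContDiff.const_smul _ ?_
  exact contDiff_lin (a k) ((hψ.fderiv_right (m := ∞) (by simp)).clm_apply contDiff_const)

/-- The second derivatives. -/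
def d2 (e : κ → E) (ψ : E → F) (k l : κ) (x : E) : F := fderiv ℝ (fderiv ℝ ψ) x (e k) (e l)

theorem d2_symm {ψ : E → F} (hψ : ContDiff ℝ ∞ ψ) (k l : κ) (x : E) :
    d2 e ψ k l x = d2 e ψ l k x := by
  have h2 : ContDiff ℝ 2 ψ := hψ.of_le two_le_infty
  have hsym : IsSymmSndFDerivAt ℝ ψ x := h2.contDiffAt.isSymmSndFDerivAt (by simp)
  exact hsym.eq _ _

theorem fderiv_cD' {ψ : E → F} (hψ : ContDiff ℝ ∞ ψ) (k : κ) (x : E) :
    fderiv ℝ (cD e a ψ) x (e k) = ∑ l, (-Complex.I) • a l (d2 e ψ k l x) := by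
  have hd : ContDiff ℝ ∞ (fderiv ℝ ψ) := hψ.fderiv_right (m := ∞) (by simp)
  have hdl : ∀ l, DifferentiableAt ℝ (fun y => a l (fderiv ℝ ψ y (e l))) x := fun l =>
    (contDiff_lin (a l) (hd.clm_apply contDiff_const)).differentiable (by simp) x
  have h1 : fderiv ℝ (cD e a ψ) x =
      ∑ l, fderiv ℝ (fun y => (-Complex.I) • a l (fderiv ℝ ψ y (e l))) x := by
    unfold cD
    exact fderiv_fun_sum fun l _ => (hdl l).const_smul _
  rw [h1, sum_apply]
  refine Finset.sum_congr rfl fun l _ => ?_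
  have h2 : fderiv ℝ (fun y => (-Complex.I) • a l (fderiv ℝ ψ y (e l))) x =
      (-Complex.I) • fderiv ℝ (fun y => a l (fderiv ℝ ψ y (e l))) x :=
    fderiv_fun_const_smul (hdl l) _
  rw [h2, smul_apply]
  congr 1
  rw [fderiv_lin (a l) ((hd.clm_apply contDiff_const).differentiable (by simp) x)]
  congr 1
  rw [fderiv_clm_apply (hd.differentiable (by simp) x) (differentiableAt_const _)]
  simp [d2]

/-- `D² ψ = -½ Σ ∂_k² ψ`. -/
theorem cD_sq' (ha : Cliff a) {ψ : E → F} (hψ : ContDiff ℝ ∞ ψ) (x : E) :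
    cD e a (cD e a ψ) x = (-(1 / 2) : ℂ) • ∑ k, d2 e ψ k k x := by
  have e1 : cD e a (cD e a ψ) x = -∑ k, ∑ l, a k (a l (d2 e ψ k l x)) := by
    conv_lhs => unfold cD
    rw [← Finset.sum_neg_distrib]
    refine Finset.sum_congr rfl fun k _ => ?_
    have := fderiv_cD' (e := e) (a := a) hψ k x
    unfold cD at this
    rw [this, map_sum, Finset.smul_sum, ← Finset.sum_neg_distrib]
    refine Finset.sum_congr rfl fun l _ => ?_
    rw [map_smul, smul_smul, neg_mul_neg, Complex.I_mul_I, neg_one_smul]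
  have e2 : (2 : ℂ) • ∑ k, ∑ l, a k (a l (d2 e ψ k l x)) = ∑ k, d2 e ψ k k x := by
    rw [two_smul]
    nth_rewrite 2 [Finset.sum_comm]
    rw [← Finset.sum_add_distrib]
    refine Finset.sum_congr rfl fun k _ => ?_
    rw [← Finset.sum_add_distrib]
    have e3 : ∀ l, a k (a l (d2 e ψ k l x)) + a l (a k (d2 e ψ l k x)) =
        if k = l then d2 e ψ k k x else 0 := by
      intro l
      rw [d2_symm hψ l k x]
      have h := LinearMap.congr_fun (ha.anti k l) (d2 e ψ k l x)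
      rw [LinearMap.add_apply, LinearMap.comp_apply, LinearMap.comp_apply] at h
      rw [h]
      by_cases hkl : k = l
      · subst hkl; simp
      · simp [hkl]
    rw [Finset.sum_congr rfl fun l _ => e3 l]
    simp
  have e4 : ∑ k, ∑ l, a k (a l (d2 e ψ k l x)) = (1 / 2 : ℂ) • ∑ k, d2 e ψ k k x := by
    rw [← e2, smul_smul]
    norm_num
  rw [e1, e4, neg_smul]

/-- (sq) the squares agree. -/
theorem cD_sq_eq' (ha : Cliff a) (ha' : Cliff a') {ψ : E → F} (hψ : ContDiff ℝ ∞ ψ) :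
    cD e a (cD e a ψ) = cD e a' (cD e a' ψ) := by
  funext x
  rw [cD_sq' ha hψ, cD_sq' ha' hψ]

/-- (hardy) in any orthonormal basis. -/
theorem hardy_test' (ob : OrthonormalBasis κ ℝ E) {b : Fin 16 → κ → F →ₗ[ℂ] F}
    (hb : ∀ α, Cliff (b α)) (hκ : 9 ≤ Fintype.card κ)
    {φ : E → F} (hφ : ContDiff ℝ ∞ φ) (hc : HasCompactSupport φ)
    {w : ℝ → ℝ} (hw : ∀ t, 0 ≤ t → w t ^ 2 * t ≤ 1) :
    49 / 8 * ∫ x, ‖w (‖x‖ ^ 2) • φ x‖ ^ 2 ≤ 1 / 16 * ∑ α, ∫ x, ‖cD ob (b α) φ x‖ ^ 2 := by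
  let _ : InnerProductSpace ℝ F := InnerProductSpace.complexToReal
  obtain ⟨h1, h2⟩ := Hardy151.hardy (μ := (volume : Measure E)) (v := ob)
    (c := 0) (hφ.of_le (by simp)) hc ob.orthonormal (by omega)
  have hr : ∀ x, Hardy151.r2 ob 0 x = ‖x‖ ^ 2 := by
    intro x
    unfold Hardy151.r2 Hardy151.yc
    have := ob.sum_sq_norm_inner_right x
    simp only [Real.norm_eq_abs, sq_abs] at this
    simpa using this
  simp only [hr] at h1 h2
  have h2' : ∑ α, ∫ x, ‖cD ob (b α) φ x‖ ^ 2 =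
      8 * ∫ x, ∑ k, ‖fderiv ℝ φ x (ob k)‖ ^ 2 := by
    have h : ∀ α, ∫ x, ‖cD ob (b α) φ x‖ ^ 2 =
        1 / 2 * ∫ x, ∑ k, ‖fderiv ℝ φ x (ob k)‖ ^ 2 := fun α =>
      integral_cD_sq (hb α) (hφ.of_le two_le_infty) hc
    simp only [h, Finset.sum_const, Finset.card_univ, nsmul_eq_mul, Fintype.card_fin]
    push_cast
    ring
  have hne : Nonempty κ := Fintype.card_pos_iff.1 (by omega)
  have hκ' : (9 : ℝ) ≤ Fintype.card κ := by exact_mod_cast hκ
  have h3 : ∫ x, ‖w (‖x‖ ^ 2) • φ x‖ ^ 2 ≤ ∫ x, ‖φ x‖ ^ 2 / ‖x‖ ^ 2 := by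
    refine integral_mono_of_nonneg (Eventually.of_forall fun x => sq_nonneg _) h1 ?_
    have h0 : ∀ᵐ x : E, x ≠ 0 := by
      obtain ⟨k⟩ := hne
      have : Nontrivial E := ⟨⟨ob k, 0, ob.orthonormal.ne_zero k⟩⟩
      have : (volume : Measure E) {0} = 0 := measure_singleton 0
      rw [ae_iff]
      simp
    filter_upwards [h0] with x hx
    rw [norm_smul, mul_pow, Real.norm_eq_abs, sq_abs]
    have hx2 : 0 < ‖x‖ ^ 2 := by positivity
    rw [le_div_iff₀ hx2]
    have := hw (‖x‖ ^ 2) hx2.le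
    nlinarith [sq_nonneg ‖φ x‖]
  have hA : (49 : ℝ) ≤ 4 * (((Fintype.card κ : ℝ) - 2) / 2) ^ 2 := by nlinarith
  have h4 : 0 ≤ ∫ x, ‖φ x‖ ^ 2 / ‖x‖ ^ 2 := integral_nonneg fun x => by positivity
  rw [h2']
  nlinarith [mul_le_mul_of_nonneg_right hA h4]

/-! ### 566's channel -/

variable {S : Type*} [Group S] [Fintype S]

section chan

variable (C : Chan566.Chan S E F)

/-- radial multiplication, junk value `0` when `w` is not smooth -/
def Wt (w : ℝ → ℝ) : C.X →ₗ[ℂ] C.X := by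
  classical
  exact if hw : ContDiff ℝ ∞ w then C.W w hw else 0

theorem Wt_eq {w : ℝ → ℝ} (hw : ContDiff ℝ ∞ w) : Wt C w = C.W w hw := by
  unfold Wt
  rw [dif_pos hw]

theorem norm_e_sq (χ : C.X) : ‖C.e χ‖ ^ 2 = ∫ x, ‖χ.1 x‖ ^ 2 := by
  have h1 := C.inner_e_e χ χ
  have h0 : ⟪C.e χ, C.e χ⟫_ℂ = ((‖C.e χ‖ ^ 2 : ℝ) : ℂ) := by
    have := inner_self_eq_norm_sq_to_K (𝕜 := ℂ) (C.e χ)
    refine this.trans ?_
    push_cast; rfl
  have h2 : ∀ x, ⟪χ.1 x, χ.1 x⟫_ℂ = ((‖χ.1 x‖ ^ 2 : ℝ) : ℂ) := fun x => by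
    rw [inner_self_eq_norm_sq_to_K (𝕜 := ℂ)]; push_cast; rfl
  simp only [h0, h2] at h1
  rw [integral_complex_ofReal] at h1
  exact_mod_cast h1

theorem separable : TopologicalSpace.SeparableSpace C.L := by
  have : Fact ((2 : ℝ≥0∞) ≠ ⊤) := ⟨by norm_num⟩
  have : SecondCountableTopology (Lp F 2 (volume : Measure E)) := inferInstance
  exact inferInstance

/-- the field `symm` -/
theorem symm {m : ℝ} {α : Fin 16} (hadj : Adj (C.Q m α) (C.Q m α)) (χ χ' : C.X) :
    ⟪C.e (C.D m α χ), C.e χ'⟫_ℂ = ⟪C.e χ, C.e (C.D m α χ')⟫_ℂ := by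
  rw [C.inner_e_e, C.inner_e_e]
  exact Decay968.op_symm hadj χ'.2.1.smooth χ'.2.1.cpt χ.2.1.smooth χ.2.1.cpt

/-- the massless charges of `C` are the free ones -/
def Free (ob : OrthonormalBasis κ ℝ E) (b : Fin 16 → κ → F →ₗ[ℂ] F) : Prop :=
  (∀ α, Cliff (b α)) ∧ 9 ≤ Fintype.card κ ∧
    ∀ α (ψ : E → F), ContDiff ℝ ∞ ψ → ∀ x, (C.Q 0 α).op ψ x = cD ob (b α) ψ x

variable {C} {ob : OrthonormalBasis κ ℝ E} {b : Fin 16 → κ → F →ₗ[ℂ] F}

theorem Free.op (h : Free C ob b) (α : Fin 16) {ψ : E → F} (hψ : ContDiff ℝ ∞ ψ) :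
    (C.Q 0 α).op ψ = cD ob (b α) ψ := funext fun x => h.2.2 α ψ hψ x

theorem Free.op_sq (h : Free C ob b) (α β : Fin 16) {ψ : E → F} (hψ : ContDiff ℝ ∞ ψ) :
    (C.Q 0 α).op ((C.Q 0 α).op ψ) = (C.Q 0 β).op ((C.Q 0 β).op ψ) := by
  rw [h.op α hψ, h.op β hψ, h.op α (cD_smooth hψ), h.op β (cD_smooth hψ)]
  exact cD_sq_eq' (h.1 α) (h.1 β) hψ

/-- the field `sq` -/
theorem Free.sq (h : Free C ob b) (α β : Fin 16) (χ : C.X) :
    C.D 0 α (C.D 0 α χ) = C.D 0 β (C.D 0 β χ) :=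
  Subtype.ext (h.op_sq α β χ.2.1.smooth)

/-- the field `hardy` -/
theorem Free.hardy (h : Free C ob b) (w : ℝ → ℝ) (hw : ContDiff ℝ ∞ w)
    (hw1 : ∀ t, 0 ≤ t → w t ^ 2 * t ≤ 1) (χ : C.X) :
    49 / 8 * ‖C.e (Wt C w χ)‖ ^ 2 ≤ 1 / 16 * ∑ α, ‖C.e (C.D 0 α χ)‖ ^ 2 := by
  have h1 := hardy_test' ob h.1 h.2.1 χ.2.1.smooth χ.2.1.cpt hw1
  rw [Wt_eq C hw]
  simp only [norm_e_sq]
  have e1 : ∀ α, ∫ x, ‖((C.D 0 α χ : C.X) : E → F) x‖ ^ 2 = ∫ x, ‖cD ob (b α) χ.1 x‖ ^ 2 :=
    fun α => by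
      rw [C.D_apply, h.op α χ.2.1.smooth]
  simp only [e1]
  exact h1

/-- the limit system of one channel -/
theorem isLim (h : Free C ob b) (hadj : ∀ m α, Adj (C.Q m α) (C.Q m α)) (hd : DenseRange C.e)
    (hws : ∀ (f : C.L) (u : Fin 16 → C.L),
      (∀ χ α, ⟪C.e (C.D 0 α χ), f⟫_ℂ = ⟪C.e χ, u α⟫_ℂ) →
      ∀ ε : ℝ, 0 < ε → ∃ χ, ‖C.e χ - f‖ ≤ ε ∧ ∀ α, ‖C.e (C.D 0 α χ) - u α‖ ≤ ε)
    {K0 : Submodule ℂ C.L} (hf : IsFree C.e (C.D 1) K0 1) : IsLim C.e C.D (Wt C) K0 1 where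
  dense := hd
  sep := separable C
  symm m α χ χ' := ChBind718.symm C (hadj m α) χ χ'
  sq := h.sq
  ws := hws
  hardy := h.hardy
  free := hf

end chan

/-! ### Change of the space of generators -/


end Crest.Agent.R330.ChBind718

end
end

-- ▼ part R330/Chan2_566
section

/-!
# R330 (helper566), S10-LIM part 2: density and the free model of one symmetric channel

* `exists_close` / `denseRange_e` : the test space is dense in `L`;
* `norm_e_sym_sub_le`, `norm_e_sym_le` : symmetrisation does not increase `L²` norms;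
* `isFree` : 796's `IsFree` with `K0 = ℂ ∙ Φ`, `d = 1`, from uniqueness of weak zero modes tested off
  `Z` and one approximating sequence (no symmetry in the hypotheses).
-/

set_option autoImplicit false
set_option linter.unusedSectionVars false
set_option linter.unusedVariables false
set_option maxHeartbeats 400000

open MeasureTheory Set Filter Topology ENNReal
open scoped ContDiff InnerProductSpace

noncomputable section
namespace Crest.Agent.R330.Chan566
open Moll596 WS596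

variable {S : Type*} [Group S] [Fintype S]
variable {E : Type*} [NormedAddCommGroup E] [InnerProductSpace ℝ E] [FiniteDimensional ℝ E]
  [MeasurableSpace E] [BorelSpace E]
variable {F : Type*} [NormedAddCommGroup F] [InnerProductSpace ℂ F] [FiniteDimensional ℂ F]
variable (C : Chan S E F)

namespace Chan

/-! ### density -/

/-- the compact exhaustion of the complement of `Z` -/
def Kn (δ R : ℝ) : Set E := {x | ‖x‖ ≤ R ∧ ∀ z ∈ C.Z, δ ≤ dist x z}

theorem isClosed_Kn (δ R : ℝ) : IsClosed (C.Kn δ R) := by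
  have h1 : C.Kn δ R = {x | ‖x‖ ≤ R} ∩ ⋂ z ∈ C.Z, {x | δ ≤ dist x z} := by
    ext x
    simp [Kn]
  rw [h1]
  refine (isClosed_le continuous_norm continuous_const).inter ?_
  exact isClosed_biInter fun z _ =>
    isClosed_le continuous_const (continuous_id.dist continuous_const)

theorem mem_Kn_iff (δ R : ℝ) (s : S) (x : E) : C.O s x ∈ C.Kn δ R ↔ x ∈ C.Kn δ R := by
  have key : ∀ (s : S) (x : E), x ∈ C.Kn δ R → C.O s x ∈ C.Kn δ R := by
    intro s x hx
    refine ⟨by rw [LinearIsometryEquiv.norm_map]; exact hx.1, fun z hz => ?_⟩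
    have h1 := hx.2 _ (C.ZO s⁻¹ z hz)
    have h2 : dist x (C.O s⁻¹ z) = dist (C.O s x) z := by
      rw [← (C.O s).dist_map x, C.O_inv']
    rwa [h2] at h1
  refine ⟨fun h => ?_, key s x⟩
  have := key s⁻¹ _ h
  rwa [C.O_inv] at this

theorem exists_mem_Kn {x : E} (hx : x ∉ C.Z) :
    ∃ n₀ : ℕ, ∀ n : ℕ, n₀ ≤ n → x ∈ C.Kn (1 / ((n : ℝ) + 1)) (n : ℝ) := by
  obtain ⟨ε, hε, hb⟩ := Metric.isOpen_iff.1 C.closed.isOpen_compl x hx
  obtain ⟨n₁, hn₁⟩ := exists_nat_gt (1 / ε)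
  obtain ⟨n₂, hn₂⟩ := exists_nat_gt ‖x‖
  refine ⟨max n₁ n₂, fun n hn => ⟨?_, fun z hz => ?_⟩⟩
  · have : (n₂ : ℝ) ≤ n := by exact_mod_cast (le_max_right _ _).trans hn
    linarith
  · have h1 : (n₁ : ℝ) ≤ n := by exact_mod_cast (le_max_left _ _).trans hn
    have h2 : ε ≤ dist x z := by
      by_contra h3
      have : z ∈ Metric.ball x ε := by
        rw [Metric.mem_ball, dist_comm]; exact not_le.1 h3
      exact hb this hz
    refine le_trans ?_ h2
    rw [div_le_iff₀ (by positivity)]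
    rw [div_lt_iff₀ hε] at hn₁
    nlinarith

theorem tendsto_cutoff {u : E → F} (hu : MemLp u 2 (volume : Measure E)) :
    Tendsto (fun n : ℕ => eLpNorm (fun x => (C.Kn (1 / ((n : ℝ) + 1)) (n : ℝ)).indicator u x - u x)
      2 volume) atTop (𝓝 0) := by
  refine tendsto_of_sq ?_
  have h0 : ∀ n : ℕ, eLpNorm (fun x => (C.Kn (1 / ((n : ℝ) + 1)) (n : ℝ)).indicator u x - u x)
      2 volume ^ 2 = ∫⁻ x, ‖(C.Kn (1 / ((n : ℝ) + 1)) (n : ℝ)).indicator u x - u x‖ₑ ^ 2 := by
    intro n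
    exact sq_eLpNorm _
  simp only [h0]
  have hz : (0 : ℝ≥0∞) = ∫⁻ x : E, 0 := by simp
  rw [hz]
  have hfin : ∫⁻ x, ‖u x‖ₑ ^ 2 ≠ ⊤ := by
    rw [← sq_eLpNorm u]
    exact ENNReal.pow_ne_top hu.2.ne
  refine tendsto_lintegral_of_dominated_convergence' (fun x => ‖u x‖ₑ ^ 2) (fun n => ?_)
    (fun n => ?_) hfin ?_
  · exact (((hu.1.indicator (C.isClosed_Kn _ _).measurableSet).sub hu.1).enorm).pow_const 2
  · refine Eventually.of_forall fun x => ?_
    by_cases hx : x ∈ C.Kn (1 / ((n : ℝ) + 1)) (n : ℝ)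
    · show ‖(C.Kn (1 / ((n : ℝ) + 1)) (n : ℝ)).indicator u x - u x‖ₑ ^ 2 ≤ ‖u x‖ₑ ^ 2
      rw [Set.indicator_of_mem hx, sub_self]
      simp
    · show ‖(C.Kn (1 / ((n : ℝ) + 1)) (n : ℝ)).indicator u x - u x‖ₑ ^ 2 ≤ ‖u x‖ₑ ^ 2
      rw [Set.indicator_of_notMem hx, zero_sub, enorm_neg]
  · have hZ : ∀ᵐ x : E, x ∉ C.Z := by
      rw [ae_iff]
      simpa using C.null
    filter_upwards [hZ] with x hx
    obtain ⟨n₀, hn₀⟩ := C.exists_mem_Kn hx
    refine tendsto_const_nhds.congr' ?_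
    filter_upwards [eventually_ge_atTop n₀] with n hn
    rw [Set.indicator_of_mem (hn₀ n hn)]
    simp

/-- **density of the test space** -/
theorem exists_close (f : C.L) {ε : ℝ} (hε : 0 < ε) : ∃ χ : C.X, ‖C.e χ - f‖ ≤ ε := by
  set u : E → F := ((f : Lp F 2 (volume : Measure E)) : E → F) with hu_def
  have hu : MemLp u 2 (volume : Measure E) := Lp.memLp _
  have hε2 : ENNReal.ofReal (ε / 2) ≠ 0 := by simpa using hε
  obtain ⟨n, hn⟩ := ((C.tendsto_cutoff hu).eventually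
    (ge_mem_nhds (pos_iff_ne_zero.2 hε2))).exists
  set δ : ℝ := 1 / ((n : ℝ) + 1) with hδ
  have hδ0 : 0 < δ := by positivity
  set K : Set E := C.Kn δ (n : ℝ) with hK
  set g : E → F := K.indicator u with hg
  have hKm : MeasurableSet K := (C.isClosed_Kn _ _).measurableSet
  have hgm : MemLp g 2 (volume : Measure E) := hu.indicator hKm
  obtain ⟨r₀, hr₀, hr⟩ := exists_mol_close hgm hε2
  set r : ℝ := min r₀ (δ / 2) with hr_def
  have hrpos : 0 < r := lt_min hr₀ (by positivity)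
  have hker : MolK r (ker r : E → ℝ) := molK_ker hrpos
  have hcl := hr r (min_le_left _ _) _ hker
  set χ : E → F := mol (ker r) g with hχ
  have hgl : LocallyIntegrable g := hgm.locallyIntegrable (by norm_num)
  have hsm : ContDiff ℝ ∞ χ := mol_contDiff hker hgl
  -- support
  have hsupp : ∀ x, χ x ≠ 0 → ∃ y ∈ K, ‖x - y‖ < r := by
    intro x hx
    by_contra hcon
    push Not at hcon
    apply hx
    rw [hχ, mol, ← integral_zero E F (μ := volume)]
    refine integral_congr_ae (Eventually.of_forall fun y => ?_)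
    dsimp only
    by_cases hy : y ∈ K
    · rw [hker.small _ (hcon y hy), zero_smul]
    · rw [hg, Set.indicator_of_notMem hy, smul_zero]
  have hrd : r ≤ δ / 2 := min_le_right _ _
  have hsub1 : Function.support χ ⊆ {x | ∀ z ∈ C.Z, δ / 2 ≤ dist x z} := by
    intro x hx z hz
    obtain ⟨y, hy, hxy⟩ := hsupp x hx
    have h1 := hy.2 z hz
    have h2 : dist y z ≤ dist y x + dist x z := dist_triangle _ _ _
    have h3 : dist y x < r := by rw [dist_comm, dist_eq_norm]; exact hxy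
    linarith
  have hcl1 : IsClosed {x : E | ∀ z ∈ C.Z, δ / 2 ≤ dist x z} := by
    have : {x : E | ∀ z ∈ C.Z, δ / 2 ≤ dist x z} = ⋂ z ∈ C.Z, {x | δ / 2 ≤ dist x z} := by
      ext x; simp
    rw [this]
    exact isClosed_biInter fun z _ =>
      isClosed_le continuous_const (continuous_id.dist continuous_const)
  have hoff : ∀ x ∈ tsupport χ, x ∉ C.Z := by
    intro x hx hz
    have := closure_minimal hsub1 hcl1 hx x hz
    rw [dist_self] at this
    linarith
  have hcpt : HasCompactSupport χ := by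
    refine HasCompactSupport.of_support_subset_isCompact
      (isCompact_closedBall (0 : E) ((n : ℝ) + r)) ?_
    intro x hx
    obtain ⟨y, hy, hxy⟩ := hsupp x hx
    rw [Metric.mem_closedBall, dist_zero_right]
    have h1 : ‖x‖ ≤ ‖x - y‖ + ‖y‖ := by
      have := norm_add_le (x - y) y
      simpa using this
    have := hy.1
    linarith
  have heqv : C.Eqv χ := by
    intro s x
    refine mol_equivariant hker hgl (C.O s) (ul (C.U s)) ?_ x
    filter_upwards [C.mem_L.1 f.2 s] with y hy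
    by_cases hyK : y ∈ K
    · have h2 : C.O s y ∈ K := (C.mem_Kn_iff δ n s y).2 hyK
      rw [hg, Set.indicator_of_mem h2, Set.indicator_of_mem hyK]
      exact hy
    · have h2 : C.O s y ∉ K := fun h => hyK ((C.mem_Kn_iff δ n s y).1 h)
      rw [hg, Set.indicator_of_notMem h2, Set.indicator_of_notMem hyK, map_zero]
  refine ⟨⟨χ, ⟨hsm, hcpt, hoff⟩, heqv⟩, ?_⟩
  have hT : MemLp χ 2 (volume : Measure E) := hsm.continuous.memLp_of_hasCompactSupport hcpt
  have h1 : ‖C.e ⟨χ, ⟨hsm, hcpt, hoff⟩, heqv⟩ - f‖ = (eLpNorm (fun x => χ x - u x) 2 volume).toReal := by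
    have h2 : ‖C.e ⟨χ, ⟨hsm, hcpt, hoff⟩, heqv⟩ - f‖ =
        ‖hT.toLp χ - (f : Lp F 2 (volume : Measure E))‖ := rfl
    have h3 : (f : Lp F 2 (volume : Measure E)) = hu.toLp u := by
      apply Lp.ext
      exact (hu.coeFn_toLp).symm
    rw [h2, h3, ← MemLp.toLp_sub, Lp.norm_toLp]
    rfl
  rw [h1]
  have h4 : eLpNorm (fun x => χ x - u x) 2 volume ≤ ENNReal.ofReal ε := by
    have e1 : (fun x => χ x - u x) = (fun x => (χ x - g x) + (g x - u x)) := by
      funext x; abel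
    rw [e1]
    refine (eLpNorm_add_le (hT.1.sub hgm.1) (hgm.1.sub hu.1) (by norm_num)).trans ?_
    refine (add_le_add hcl hn).trans ?_
    rw [← ENNReal.ofReal_add (by positivity) (by positivity)]
    exact ENNReal.ofReal_le_ofReal (by linarith)
  exact ENNReal.toReal_le_of_le_ofReal hε.le h4

theorem denseRange_e : DenseRange C.e := by
  intro f
  rw [Metric.mem_closure_range_iff]
  intro ε hε
  obtain ⟨χ, hχ⟩ := C.exists_close f (ε := ε / 2) (by positivity)
  refine ⟨χ, ?_⟩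
  rw [dist_comm, dist_eq_norm]
  linarith

/-! ### symmetrisation is a contraction -/

theorem eLpNorm_tr (s : S) {ψ : E → F} (h : AEStronglyMeasurable ψ (volume : Measure E)) :
    eLpNorm (C.tr s ψ) 2 volume = eLpNorm ψ 2 volume := by
  have h1 : eLpNorm (C.tr s ψ) 2 volume = eLpNorm (fun x => ψ (C.O s x)) 2 volume := by
    refine eLpNorm_congr_norm_ae (Eventually.of_forall fun x => ?_)
    simp [tr]
  rw [h1]
  exact eLpNorm_comp_measurePreserving h (C.mp s)

theorem eLpNorm_avg_le {ψ : E → F} (h : AEStronglyMeasurable ψ (volume : Measure E)) :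
    eLpNorm (C.avg ψ) 2 volume ≤ eLpNorm ψ 2 volume := by
  have hc : (0 : ℝ) < Fintype.card S := by exact_mod_cast Fintype.card_pos
  have hm : ∀ s, AEStronglyMeasurable (C.tr s ψ) (volume : Measure E) := fun s =>
    (ul (C.U s⁻¹)).continuous.comp_aestronglyMeasurable (h.comp_measurePreserving (C.mp s))
  have e1 : C.avg ψ = ((Fintype.card S : ℝ)⁻¹ : ℝ) • ∑ s, C.tr s ψ := by
    funext x
    simp [avg, Finset.sum_apply]
  rw [e1, eLpNorm_const_smul]
  have h2 : eLpNorm (∑ s, C.tr s ψ) 2 volume ≤ ∑ s : S, eLpNorm (C.tr s ψ) 2 volume :=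
    eLpNorm_sum_le (fun s _ => hm s) (by norm_num)
  have h3 : ∑ s : S, eLpNorm (C.tr s ψ) 2 volume = (Fintype.card S : ℝ≥0∞) * eLpNorm ψ 2 volume := by
    rw [Finset.sum_congr rfl fun s _ => C.eLpNorm_tr s h]
    simp [Finset.sum_const, Finset.card_univ]
  have h4 : ‖((Fintype.card S : ℝ)⁻¹ : ℝ)‖ₑ * (Fintype.card S : ℝ≥0∞) = 1 := by
    have : ‖((Fintype.card S : ℝ)⁻¹ : ℝ)‖ₑ = ENNReal.ofReal ((Fintype.card S : ℝ)⁻¹) :=
      Real.enorm_of_nonneg (by positivity)
    rw [this, ← ENNReal.ofReal_natCast, ← ENNReal.ofReal_mul (by positivity),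
      inv_mul_cancel₀ hc.ne', ENNReal.ofReal_one]
  calc ‖((Fintype.card S : ℝ)⁻¹ : ℝ)‖ₑ * eLpNorm (∑ s, C.tr s ψ) 2 volume
      ≤ ‖((Fintype.card S : ℝ)⁻¹ : ℝ)‖ₑ * ((Fintype.card S : ℝ≥0∞) * eLpNorm ψ 2 volume) := by
        gcongr
        exact h2.trans h3.le
    _ = eLpNorm ψ 2 volume := by rw [← mul_assoc, h4, one_mul]

theorem norm_e (χ : C.X) : ‖C.e χ‖ = (eLpNorm χ.1 2 volume).toReal := by
  have h1 : ‖C.e χ‖ = ‖(χ.2.1.memLp).toLp χ.1‖ := rfl
  rw [h1, Lp.norm_toLp]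

theorem norm_e_sym_le {ψ : E → F} (h : C.Test ψ) :
    ‖C.e (C.sym h)‖ ≤ (eLpNorm ψ 2 volume).toReal := by
  rw [norm_e]
  exact ENNReal.toReal_mono h.memLp.2.ne (C.eLpNorm_avg_le h.memLp.1)

theorem norm_e_D_sym_le (m : ℝ) (α : Fin 16) {ψ : E → F} (h : C.Test ψ) :
    ‖C.e (C.D m α (C.sym h))‖ ≤ (eLpNorm ((C.Q m α).op ψ) 2 volume).toReal := by
  rw [C.D_sym]
  exact C.norm_e_sym_le (h.op m α)

theorem avg_sub_ae (f : C.L) (ψ : E → F) :
    (fun x => C.avg ψ x - ((f : Lp F 2 (volume : Measure E)) : E → F) x) =ᵐ[volume]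
      C.avg (fun x => ψ x - ((f : Lp F 2 (volume : Measure E)) : E → F) x) := by
  have h1 : ∀ᵐ x : E, ∀ s, ((f : Lp F 2 (volume : Measure E)) : E → F) (C.O s x) =
      C.U s (((f : Lp F 2 (volume : Measure E)) : E → F) x) :=
    ae_all_iff.2 fun s => C.mem_L.1 f.2 s
  filter_upwards [h1] with x hx
  have hc : (Fintype.card S : ℝ) ≠ 0 := by exact_mod_cast (Fintype.card_pos (α := S)).ne'
  have h2 : ∀ s, C.tr s (fun x => ψ x - ((f : Lp F 2 (volume : Measure E)) : E → F) x) x =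
      C.tr s ψ x - ((f : Lp F 2 (volume : Measure E)) : E → F) x := by
    intro s
    simp only [tr]
    rw [hx s, map_sub, C.U_inv]
  simp only [avg]
  rw [Finset.sum_congr rfl fun s _ => h2 s, Finset.sum_sub_distrib, smul_sub, Finset.sum_const,
    Finset.card_univ, ← Nat.cast_smul_eq_nsmul ℝ, smul_smul, inv_mul_cancel₀ hc, one_smul]

theorem norm_e_sym_sub_le (f : C.L) {ψ : E → F} (h : C.Test ψ) :
    ‖C.e (C.sym h) - f‖ ≤
      (eLpNorm (fun x => ψ x - ((f : Lp F 2 (volume : Measure E)) : E → F) x) 2 volume).toReal := by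
  set u : E → F := ((f : Lp F 2 (volume : Measure E)) : E → F) with hu_def
  have hu : MemLp u 2 (volume : Measure E) := Lp.memLp _
  have hT : MemLp (C.avg ψ) 2 (volume : Measure E) := h.avg.memLp
  have h1 : ‖C.e (C.sym h) - f‖ = (eLpNorm (fun x => C.avg ψ x - u x) 2 volume).toReal := by
    have h2 : ‖C.e (C.sym h) - f‖ = ‖hT.toLp (C.avg ψ) - (f : Lp F 2 (volume : Measure E))‖ := rfl
    have h3 : (f : Lp F 2 (volume : Measure E)) = hu.toLp u := by
      apply Lp.ext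
      exact (hu.coeFn_toLp).symm
    rw [h2, h3, ← MemLp.toLp_sub, Lp.norm_toLp]
    rfl
  rw [h1, eLpNorm_congr_ae (C.avg_sub_ae f ψ)]
  exact ENNReal.toReal_mono (h.memLp.sub hu).2.ne (C.eLpNorm_avg_le (h.memLp.1.sub hu.1))

/-! ### the free model of one channel -/

/-- **796's `IsFree` for one channel**, `K0 = ℂ ∙ Φ` -/
theorem isFree (m : ℝ) (Φ : C.L) (hΦ : Φ ≠ 0)
    (huniq : ∀ f : Lp F 2 (volume : Measure E),
      (∀ ψ : E → F, C.Test ψ → ∀ α, ∫ x, ⟪f x, (C.Q m α).op ψ x⟫_ℂ = 0) →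
        ∃ c : ℂ, f = c • (Φ : Lp F 2 (volume : Measure E)))
    (happ : ∀ ε : ℝ, 0 < ε → ∃ ψ : E → F, C.Test ψ ∧
      eLpNorm (fun x => ψ x - ((Φ : Lp F 2 (volume : Measure E)) : E → F) x) 2 volume
        ≤ ENNReal.ofReal ε ∧
      ∀ α, eLpNorm ((C.Q m α).op ψ) 2 volume ≤ ENNReal.ofReal ε) :
    TrialSys796.IsFree C.e (C.D m) (Submodule.span ℂ {Φ}) 1 where
  rank := by
    have h1 : Module.rank ℂ (Submodule.span ℂ {Φ}) = 1 := by
      have h2 := Module.finrank_eq_rank ℂ (Submodule.span ℂ {Φ})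
      rw [finrank_span_singleton hΦ] at h2
      simpa using h2.symm
    rw [h1]
    simp
  uniq := by
    intro f hf
    obtain ⟨c, hc⟩ := C.uniq_sym m huniq f fun χ α => by
      have := hf χ α
      exact (inner_eq_zero_symm (𝕜 := ℂ) (x := C.e (C.D m α χ)) (y := f)).1 this
    rw [Submodule.mem_span_singleton]
    refine ⟨c, ?_⟩
    apply Subtype.ext
    exact hc.symm
  approx := by
    intro f hf ε hε
    obtain ⟨c, rfl⟩ := Submodule.mem_span_singleton.1 hf
    obtain ⟨ψ, hψ, h1, h2⟩ := happ (ε / (1 + ‖c‖)) (by positivity)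
    refine ⟨c • C.sym hψ, ?_, fun α => ?_⟩
    · have h3 := (C.norm_e_sym_sub_le Φ hψ).trans
        (ENNReal.toReal_le_of_le_ofReal (by positivity) h1)
      rw [map_smul, ← smul_sub, norm_smul]
      calc ‖c‖ * ‖C.e (C.sym hψ) - Φ‖ ≤ ‖c‖ * (ε / (1 + ‖c‖)) := by gcongr
        _ ≤ ε := by
          rw [mul_div_assoc', div_le_iff₀ (by positivity)]
          nlinarith [norm_nonneg c]
    · have h3 := (C.norm_e_D_sym_le m α hψ).trans
        (ENNReal.toReal_le_of_le_ofReal (by positivity) (h2 α))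
      rw [map_smul, map_smul, norm_smul]
      calc ‖c‖ * ‖C.e (C.D m α (C.sym hψ))‖ ≤ ‖c‖ * (ε / (1 + ‖c‖)) := by gcongr
        _ ≤ ε := by
          rw [mul_div_assoc', div_le_iff₀ (by positivity)]
          nlinarith [norm_nonneg c]

instance instSeparable : TopologicalSpace.SeparableSpace C.L := by
  have : Fact ((1 : ℝ≥0∞) ≤ 2) := ⟨by norm_num⟩
  have : Fact ((2 : ℝ≥0∞) ≠ ⊤) := ⟨by norm_num⟩
  have : SecondCountableTopology (Lp F 2 (volume : Measure E)) := inferInstance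
  infer_instance

end Chan
end Crest.Agent.R330.Chan566
end
end

-- ▼ part R330/ChFree_718
section

/-!
# Row 330, S10-LIM (helper718): the limit system of one channel with the free charges

`isLim_free` : if `C` is a channel (566) on `EuclideanSpace ℝ (Fin 9 × Fin p)`, `1 ≤ p`, whose
charges are the free charges of 122, with finitely many removed flats of codimension `≥ 3`, then
441's `IsLim C.e C.D (Wt C) (ℂ ∙ Φ) 1` holds, `Φ` the class of the Gaussian zero mode.
-/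

set_option autoImplicit false
set_option linter.unusedSectionVars false

open MeasureTheory Set Filter Topology ENNReal
open scoped ContDiff InnerProductSpace

noncomputable section

namespace Crest.Agent.R330.ChFree718

open Crest.MathPhysics.MatrixQM
open Crest.Agent.R330.WDH245 Crest.Agent.R330.WS596 Crest.Agent.R330.Chan566
  Crest.Agent.R330.Chan441 Crest.Agent.R330.TrialSys796 Crest.Agent.R330.ChBind718
  Crest.Agent.R330.Free122 Crest.Agent.R330.FreeB122 Crest.Agent.R330.WSOff365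
  Crest.Agent.R330.MCut365 Crest.Agent.R330.Defs478

variable {p : ℕ} {F : Type*} [NormedAddCommGroup F] [InnerProductSpace ℂ F]
  [FiniteDimensional ℂ F]

/-- the coefficients of the free charges -/
def aco (Lt : Light p F) (G : GammaNine) (α : Fin 16) (k : Fin 9 × Fin p) : F →ₗ[ℂ] F :=
  ∑ β : Fin 16, ((G.γ k.1 α β : ℝ) : ℂ) • Lt.θ β k.2

theorem aco_apply (Lt : Light p F) (G : GammaNine) (α : Fin 16) (k : Fin 9 × Fin p) (v : F) :
    aco Lt G α k v = ∑ β : Fin 16, ((G.γ k.1 α β : ℝ) : ℂ) • Lt.θ β k.2 v := by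
  simp [aco]

/-- `(γ_i γ_j)_αα = δ_ij` -/
theorem gam_diag (G : GammaNine) (i j : Fin 9) (α : Fin 16) :
    ∑ β : Fin 16, G.γ i α β * G.γ j α β = if i = j then 1 else 0 := by
  have h1 : ∀ i j, ∑ β : Fin 16, G.γ i α β * G.γ j α β = (G.γ i * G.γ j) α α := by
    intro i j
    rw [Matrix.mul_apply]
    refine Finset.sum_congr rfl fun β _ => ?_
    have := congrFun (congrFun (G.symm j) β) α
    rw [Matrix.transpose_apply] at this
    rw [this]
  have h2 : (G.γ i * G.γ j) α α = (G.γ j * G.γ i) α α := by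
    rw [← h1, ← h1]
    exact Finset.sum_congr rfl fun β _ => mul_comm _ _
  have h3 := congrFun (congrFun (G.clifford i j) α) α
  rw [Matrix.add_apply, ← h2] at h3
  rw [h1]
  by_cases hij : i = j
  · rw [if_pos hij] at h3 ⊢
    have h4 : (2 : Matrix (Fin 16) (Fin 16) ℝ) α α = 2 := by
      have : (2 : Matrix (Fin 16) (Fin 16) ℝ) = (1 : Matrix (Fin 16) (Fin 16) ℝ) + 1 := by norm_num
      rw [this, Matrix.add_apply, Matrix.one_apply_eq]; norm_num
    rw [h4] at h3
    linarith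
  · rw [if_neg hij] at h3 ⊢
    rw [Matrix.zero_apply] at h3
    linarith

theorem aco_cliff (Lt : Light p F) (G : GammaNine) (α : Fin 16) : Cliff (aco Lt G α) where
  symm k := by
    intro v w
    rw [aco_apply, aco_apply, sum_inner, inner_sum]
    refine Finset.sum_congr rfl fun β _ => ?_
    rw [inner_smul_left, inner_smul_right, Complex.conj_ofReal, Lt.symm β k.2 v w]
  anti k l := by
    ext v
    rw [LinearMap.add_apply, LinearMap.comp_apply, LinearMap.comp_apply]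
    have e1 : ∀ k l : Fin 9 × Fin p, aco Lt G α k (aco Lt G α l v) =
        ∑ β, ∑ β', (((G.γ k.1 α β : ℝ) : ℂ) * ((G.γ l.1 α β' : ℝ) : ℂ)) •
          Lt.θ β k.2 (Lt.θ β' l.2 v) := by
      intro k l
      rw [aco_apply]
      refine Finset.sum_congr rfl fun β _ => ?_
      rw [aco_apply, map_sum, Finset.smul_sum]
      refine Finset.sum_congr rfl fun β' _ => ?_
      rw [map_smul, smul_smul]
    rw [e1 k l, e1 l k]
    nth_rewrite 2 [Finset.sum_comm]
    rw [← Finset.sum_add_distrib]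
    have e2 : ∀ β β', (((G.γ k.1 α β : ℝ) : ℂ) * ((G.γ l.1 α β' : ℝ) : ℂ)) •
          Lt.θ β k.2 (Lt.θ β' l.2 v) +
        (((G.γ l.1 α β' : ℝ) : ℂ) * ((G.γ k.1 α β : ℝ) : ℂ)) • Lt.θ β' l.2 (Lt.θ β k.2 v) =
        if β = β' then (if k.2 = l.2 then
          (((G.γ k.1 α β : ℝ) : ℂ) * ((G.γ l.1 α β : ℝ) : ℂ)) • v else 0) else 0 := by
      intro β β'
      have h := LinearMap.congr_fun (Lt.anti β k.2 β' l.2) v
      rw [LinearMap.add_apply, LinearMap.comp_apply, LinearMap.comp_apply] at h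
      rw [mul_comm ((G.γ l.1 α β' : ℝ) : ℂ), ← smul_add, h]
      by_cases h1 : β = β'
      · subst h1
        by_cases h2 : k.2 = l.2
        · simp [h2]
        · simp [h2]
      · simp [h1]
    have e3 : ∀ β, ∑ β', (((G.γ k.1 α β : ℝ) : ℂ) * ((G.γ l.1 α β' : ℝ) : ℂ)) •
          Lt.θ β k.2 (Lt.θ β' l.2 v) +
        ∑ β', (((G.γ l.1 α β' : ℝ) : ℂ) * ((G.γ k.1 α β : ℝ) : ℂ)) •
          Lt.θ β' l.2 (Lt.θ β k.2 v) =
        if k.2 = l.2 then (((G.γ k.1 α β : ℝ) : ℂ) * ((G.γ l.1 α β : ℝ) : ℂ)) • v else 0 := by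
      intro β
      rw [← Finset.sum_add_distrib, Finset.sum_congr rfl fun β' _ => e2 β β']
      simp
    rw [Finset.sum_congr rfl fun β _ => e3 β]
    by_cases h2 : k.2 = l.2
    · simp only [if_pos h2]
      rw [← Finset.sum_smul]
      have h3 : ∑ β, (((G.γ k.1 α β : ℝ) : ℂ) * ((G.γ l.1 α β : ℝ) : ℂ)) =
          ((if k.1 = l.1 then 1 else 0 : ℝ) : ℂ) := by
        rw [← gam_diag G k.1 l.1 α]
        push_cast
        rfl
      rw [h3]
      by_cases h1 : k.1 = l.1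
      · have : k = l := Prod.ext h1 h2
        simp [this]
      · have : k ≠ l := fun h => h1 (by rw [h])
        simp [h1, this]
    · have : k ≠ l := fun h => h2 (by rw [h])
      simp [h2, this]

/-- the massless free charges -/
theorem freeD_zero (Lt : Light p F) (G : GammaNine) (α : Fin 16)
    (φ : EuclideanSpace ℝ (Fin 9 × Fin p) → F) (x : EuclideanSpace ℝ (Fin 9 × Fin p)) :
    freeD Lt G 0 α φ x = cD (EuclideanSpace.basisFun (Fin 9 × Fin p) ℝ) (aco Lt G α) φ x := by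
  unfold freeD cD
  have e1 : ∑ A : Fin p, ∑ β : Fin 16,
      ((-((0 : ℝ) * ∑ j : Fin 9, cc j * x (j, A) * (Gam G * G.γ j) α β) : ℝ) : ℂ) •
        Lt.θ β A (φ x) = 0 := by
    simp
  rw [e1, add_zero, Fintype.sum_prod_type]
  refine Finset.sum_congr rfl fun i _ => Finset.sum_congr rfl fun A _ => ?_
  rw [aco_apply, Finset.smul_sum]
  refine Finset.sum_congr rfl fun β _ => ?_
  rw [smul_smul, EuclideanSpace.basisFun_apply]

variable {S : Type*} [Group S] [Fintype S]

/-- 566's channels with the free charges satisfy `Free`. -/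
theorem free_of {C : Chan566.Chan S (EuclideanSpace ℝ (Fin 9 × Fin p)) F} (hp : 1 ≤ p)
    {Lt : Light p F} {G : GammaNine}
    (hQ : ∀ m α (ψ : EuclideanSpace ℝ (Fin 9 × Fin p) → F), ContDiff ℝ ∞ ψ →
      (C.Q m α).op ψ = freeD Lt G m α ψ) :
    Free C (EuclideanSpace.basisFun (Fin 9 × Fin p) ℝ) (aco Lt G) := by
  refine ⟨fun α => aco_cliff Lt G α, ?_, fun α ψ hψ x => ?_⟩
  · rw [Fintype.card_prod, Fintype.card_fin, Fintype.card_fin]
    omega
  · rw [hQ 0 α ψ hψ, freeD_zero]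

/-- **The limit system of one channel.** -/
theorem isLim_free (hp : 1 ≤ p) (C : Chan566.Chan S (EuclideanSpace ℝ (Fin 9 × Fin p)) F)
    {Lt : Light p F} {G : GammaNine}
    (hQ : ∀ m α (ψ : EuclideanSpace ℝ (Fin 9 × Fin p) → F), ContDiff ℝ ∞ ψ →
      (C.Q m α).op ψ = freeD Lt G m α ψ)
    (hadj : ∀ m α, Adj (C.Q m α) (C.Q m α))
    {ι : Type*} {A : Finset ι} {V : Type*} [NormedAddCommGroup V] [InnerProductSpace ℝ V]
    [FiniteDimensional ℝ V] [MeasurableSpace V] [BorelSpace V]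
    {L : ι → EuclideanSpace ℝ (Fin 9 × Fin p) →L[ℝ] V} {c : ι → V} (hZ : C.Z = flats A L c)
    (hL : ∀ a ∈ A, Function.Surjective (L a)) (hV : 3 ≤ Module.finrank ℝ V)
    (hmc : ∀ (s : S) δ x, mcut A L c δ (C.O s x) = mcut A L c δ x)
    {ξ : F} (hξ0 : ξ ≠ 0) (hξ : LVac Lt G ξ) (hline : ∀ e, LVac Lt G e → e = ⟪ξ, e⟫_ℂ • ξ)
    (hgs : ∀ s x, gs p 1 (C.O s x) = gs p 1 x) (hU : ∀ s, C.U s ξ = ξ) :
    ∃ Φ : C.L, (((Φ : Lp F 2 (volume : Measure (EuclideanSpace ℝ (Fin 9 × Fin p)))) :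
        EuclideanSpace ℝ (Fin 9 × Fin p) → F) =ᵐ[volume] fun x => (gs p 1 x : ℂ) • ξ) ∧
      IsLim C.e C.D (Wt C) (Submodule.span ℂ {Φ}) 1 := by
  have hm : (0 : ℝ) < 1 := one_pos
  have hg : MemLp (fun x => (gs p 1 x : ℂ) • ξ) 2 volume := gauss_memLp Lt G hm ξ
  have hΦL : hg.toLp _ ∈ C.L := by
    rw [C.mem_L]
    intro s
    have h1 := hg.coeFn_toLp
    have h2 := (C.mp s).quasiMeasurePreserving.ae_eq_comp h1
    filter_upwards [h1, h2] with x hx hx2
    simp only [Function.comp_apply] at hx2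
    rw [hx2, hx, hgs s x, map_smul, hU s]
  set Φ : C.L := ⟨hg.toLp _, hΦL⟩ with hΦ
  have hΦae : (((Φ : Lp F 2 (volume : Measure (EuclideanSpace ℝ (Fin 9 × Fin p)))) :
      EuclideanSpace ℝ (Fin 9 × Fin p) → F) =ᵐ[volume] fun x => (gs p 1 x : ℂ) • ξ) :=
    hg.coeFn_toLp
  obtain ⟨hcut⟩ := FreeE122.exists_cuts hV L c A hL
  have hZ' : C.Z = ⋃ a ∈ A, {x | L a x = c a} := hZ
  have hdis : ∀ ψ : EuclideanSpace ℝ (Fin 9 × Fin p) → F,
      Disjoint (tsupport ψ) (⋃ a ∈ A, {x | L a x = c a}) → ∀ x ∈ tsupport ψ, x ∉ C.Z := by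
    intro ψ h x hx hx'
    rw [hZ'] at hx'
    exact Set.disjoint_left.1 h hx hx'
  have hΦ0 : Φ ≠ 0 := by
    intro h0
    have h1 : (hg.toLp _ : Lp F 2 (volume : Measure (EuclideanSpace ℝ (Fin 9 × Fin p)))) = 0 := by
      have := congrArg Subtype.val h0
      exact this
    have h2 : (fun x => (gs p 1 x : ℂ) • ξ) =ᵐ[volume] (0 : EuclideanSpace ℝ (Fin 9 × Fin p) → F) := by
      have h3 := hg.coeFn_toLp
      rw [h1] at h3
      exact h3.symm.trans (Lp.coeFn_zero _ _ _)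
    have h4 : (fun x => (gs p 1 x : ℂ) • ξ) = (0 : EuclideanSpace ℝ (Fin 9 × Fin p) → F) :=
      (gauss_smooth p 1 ξ).continuous.ae_eq_iff_eq volume continuous_zero |>.1 h2
    have h5 := congrFun h4 0
    simp only [Pi.zero_apply, smul_eq_zero] at h5
    rcases h5 with h5 | h5
    · exact (gs_pos (p := p) (m := 1) 0).ne' (by exact_mod_cast h5)
    · exact hξ0 h5
  have hfree : IsFree C.e (C.D 1) (Submodule.span ℂ {Φ}) 1 := by
    refine C.isFree 1 Φ hΦ0 (fun f hf => ?_) (fun ε hε => ?_)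
    · obtain ⟨k, hk⟩ := free_unique' Lt G hm hcut hline (f := f) (Lp.memLp f)
        (fun α ψ h1 h2 h3 => by
          have := hf ψ ⟨h1, h2, hdis ψ h3⟩ α
          rw [hQ 1 α ψ h1] at this
          exact this)
      refine ⟨k, ?_⟩
      apply Lp.ext
      filter_upwards [hk, hΦae, Lp.coeFn_smul k (Φ : Lp F 2 (volume : Measure
        (EuclideanSpace ℝ (Fin 9 × Fin p))))] with x h1 h2 h3
      rw [h1, h3, Pi.smul_apply, h2]
    · obtain ⟨χ, h1, h2, h3, _, h5⟩ := free_approx Lt G hm hcut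
      obtain ⟨h6, h7⟩ := h5 ξ hξ
      have hε' : (0 : ENNReal) < ENNReal.ofReal ε := ENNReal.ofReal_pos.2 hε
      have e1 := h6.eventually_le_const hε'
      have e2 : ∀ᶠ n in atTop, ∀ α, eLpNorm (freeD Lt G 1 α
          (fun x => χ n x • ((gs p 1 x : ℂ) • ξ))) 2 volume ≤ ENNReal.ofReal ε :=
        eventually_all.2 fun α => (h7 α).eventually_le_const hε'
      obtain ⟨n, hn1, hn2⟩ := (e1.and e2).exists
      have hs : ContDiff ℝ ∞ (fun x => χ n x • ((gs p 1 x : ℂ) • ξ)) :=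
        (h1 n).smul (gauss_smooth p 1 ξ)
      have ht : tsupport (fun x => χ n x • ((gs p 1 x : ℂ) • ξ)) ⊆ tsupport (χ n) :=
        tsupport_smul_subset_left (χ n) (fun x => (gs p 1 x : ℂ) • ξ)
      refine ⟨fun x => χ n x • ((gs p 1 x : ℂ) • ξ), ⟨hs, (h2 n).smul_right,
        hdis _ ((h3 n).mono_left ht)⟩, ?_, fun α => ?_⟩
      · refine (eLpNorm_congr_ae ?_).trans_le hn1
        filter_upwards [hΦae] with x hx
        rw [hx]
      · rw [hQ 1 α _ hs]
        exact hn2 α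
  refine ⟨Φ, hΦae, ChBind718.isLim (free_of hp hQ) hadj C.denseRange_e
    (fun f u hf ε hε => ?_) hfree⟩
  exact ChanWS365.ws_chan C (hadj 0) hZ hL hV hmc f u hf hε

end Crest.Agent.R330.ChFree718

end
end

-- ▼ part R330/ChFlat_718

/-!
# Row 330, S10-LIM (helper718): the removed flats of one channel and their symmetries

Over 414's `C : Chn b p S`:

* `Zc C = {X | ¬ C.BReg X}` is a finite union of flats of codimension six (`Zc_eq`), closed, null;
  `exists_breg`.
* `adC_cen` : `Ad_(w s) (cen t) = cen (o s t)`; `mem_kk_iff`; `adC_mem_kk`;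
  `breg_O`, `reg_O` : `C.BReg (C.O s X) ↔ C.BReg X`, `C.Reg (C.O s X) ↔ C.Reg X`.
* `gs_O` : the Gaussian of the free model is invariant under `C.O s`.
* `isLim_free'` : `isLim_free` without hypothesis on the cut-offs.
-/

set_option autoImplicit false
set_option linter.unusedSectionVars false

open MeasureTheory Set Filter Topology ENNReal
open scoped ContDiff InnerProductSpace

noncomputable section

namespace Crest.Agent.R330.ChFlat718

open Crest.MathPhysics.MatrixQM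
open Crest.Agent.R330.Defs478 Crest.Agent.R330.LS839 Crest.Agent.R330.Frame839
  Crest.Agent.R330.Clus839 Crest.Agent.R330.Bind6839 Crest.Agent.R330.TDef414
  Crest.Agent.R330.TCore944 Crest.Agent.R330.WSOff365 Crest.Agent.R330.Free122

variable {N p : ℕ} {b : ColorBasis N} {S : Type} [Group S] [Fintype S] (C : Chn b p S)

/-! ### the removed set -/

/-- The removed set. -/
def Zc : Set (Pos p) := {X | ¬ C.BReg X}

instance instJ : Fintype C.J := C.hJ

theorem mem_Zc {X : Pos p} : X ∈ Zc C ↔ ∃ a, C.Lf a X = 0 := by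
  unfold Zc Chn.BReg
  simp

theorem Zc_eq : Zc C = flats (Finset.univ : Finset C.J) C.Lf 0 := by
  ext X
  rw [mem_Zc, ChanWS365.mem_flats]
  simp

theorem isClosed_Zc : IsClosed (Zc C) := by
  have h := C.isOpen_breg
  have : Zc C = {X | C.BReg X}ᶜ := rfl
  rw [this]
  exact h.isClosed_compl

theorem finrank_six : Module.finrank ℝ (EuclideanSpace ℝ (Fin 6)) = 6 := by simp

theorem null_Zc : (volume : Measure (Pos p)) (Zc C) = 0 := by
  have h : Zc C = ⋃ a, {X | C.Lf a X = 0} := by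
    ext X
    rw [mem_Zc]
    simp
  rw [h]
  refine measure_iUnion_null fun a => ?_
  exact Rem365.flat_null (C.Lf a) (C.Lf_surj a) (by rw [finrank_six]; norm_num) 0

theorem exists_breg : ∃ X, C.BReg X := by
  by_contra h
  push Not at h
  have h1 : Zc C = Set.univ := by
    ext X
    simp [Zc, h X]
  have h2 := null_Zc C
  rw [h1] at h2
  exact (isOpen_univ.measure_pos (volume : Measure (Pos p)) ⟨0, trivial⟩).ne' h2


/-! ### the symmetries -/

/-- a position with a single component -/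
def sing (i : Fin 9) (t : EuclideanSpace ℝ (Fin p)) : Pos p := mkp fun j => if j = i then t else 0

theorem pcomp_sing (i : Fin 9) (t : EuclideanSpace ℝ (Fin p)) : pcomp (sing i t) i = t := by
  unfold sing
  rw [pcomp_mkp, if_pos rfl]

theorem adC_cen (s : S) (t : EuclideanSpace ℝ (Fin p)) :
    adC b (C.w s) (C.cen t) = C.cen (C.o s t) := by
  have h := congrArg (fun x : Cfg N => comp x 0) (C.act_w s (sing 0 t))
  simp only [comp_actg, comp_cfOf, pcomp_lift9, pcomp_sing] at h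
  exact h

/-- covariance of the bracket -/
theorem adC_br (g : Matrix.specialUnitaryGroup (Fin N) ℂ) (u v : Colg N) :
    adC b g ((colAlg b).br u v) = (colAlg b).br (adC b g u) (adC b g v) := by
  have h := congrArg (fun x : Cfg N => comp x 0) (act_actB (b := b) g u (mkc fun _ => v))
  simp only [comp_actg, comp_act, comp_mkc] at h
  exact h

theorem adC_inv (g : Matrix.specialUnitaryGroup (Fin N) ℂ) (u : Colg N) :
    adC b g (adC b g⁻¹ u) = u := by
  rw [← adC_mul, mul_inv_cancel, adC_one]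

theorem adC_inv' (g : Matrix.specialUnitaryGroup (Fin N) ℂ) (u : Colg N) :
    adC b g⁻¹ (adC b g u) = u := by
  rw [← adC_mul, inv_mul_cancel, adC_one]

/-- `kk` is the centraliser of the centre. -/
theorem mem_kk_iff (u : Colg N) : u ∈ C.kk ↔ ∀ t, (colAlg b).br (C.cen t) u = 0 := by
  constructor
  · intro hu t
    exact C.cen_comm t u hu
  · intro hu
    obtain ⟨X, hX⟩ := exists_breg C
    refine (C.breg_iff X).1 hX u fun i _ => ?_
    rw [(colAlg b).anti, hu, neg_zero]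

theorem adC_mem_kk (s : S) {u : Colg N} (hu : u ∈ C.kk) : adC b (C.w s) u ∈ C.kk := by
  rw [mem_kk_iff] at hu ⊢
  intro t
  have h1 := adC_br (b := b) (C.w s) (C.cen ((C.o s).symm t)) u
  rw [hu, map_zero, adC_cen, (C.o s).apply_symm_apply] at h1
  exact h1.symm

theorem adC_inv_cen (s : S) (t : EuclideanSpace ℝ (Fin p)) :
    adC b (C.w s)⁻¹ (C.cen t) = C.cen ((C.o s).symm t) := by
  have h := adC_cen C s ((C.o s).symm t)
  rw [(C.o s).apply_symm_apply] at h
  rw [← h, adC_inv']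


theorem pcomp_O (s : S) (X : Pos p) (i : Fin 9) : pcomp (C.O s X) i = C.o s (pcomp X i) := rfl

theorem breg_O_of (s : S) {X : Pos p} (h : C.BReg X) : C.BReg (C.O s X) := by
  rw [Chn.breg_iff] at h ⊢
  intro u hu
  have h1 : adC b (C.w s)⁻¹ u ∈ C.kk := by
    refine h _ fun i hi => ?_
    have h2 := hu i hi
    rw [pcomp_O] at h2
    have h3 := adC_br (b := b) (C.w s)⁻¹ u (C.cen (C.o s (pcomp X i)))
    rw [h2, map_zero, adC_inv_cen, (C.o s).symm_apply_apply] at h3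
    exact h3.symm
  have h4 := adC_mem_kk C s h1
  rwa [adC_inv] at h4

theorem O_mul (s t : S) (X : Pos p) : C.O (s * t) X = C.O s (C.O t X) := by
  unfold Chn.O
  rw [map_mul]
  rfl

theorem O_one (X : Pos p) : C.O 1 X = X := by
  unfold Chn.O
  rw [map_one]
  rfl

theorem O_inv (s : S) (X : Pos p) : C.O s⁻¹ (C.O s X) = X := by
  rw [← O_mul, inv_mul_cancel, O_one]

theorem breg_O (s : S) (X : Pos p) : C.BReg (C.O s X) ↔ C.BReg X := by
  refine ⟨fun h => ?_, breg_O_of C s⟩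
  have := breg_O_of C s⁻¹ h
  rwa [O_inv] at this




/-! ### the Gaussian -/

theorem gs_eq_pcomp (m : ℝ) (X : Pos p) :
    gs p m X = Real.exp (-(1 / 2) * ∑ i : Fin 9, m * |cc i| * ‖pcomp X i‖ ^ 2) := by
  unfold gs
  congr 2
  rw [Fintype.sum_prod_type]
  refine Finset.sum_congr rfl fun i _ => ?_
  rw [EuclideanSpace.norm_sq_eq, Finset.mul_sum]
  refine Finset.sum_congr rfl fun A _ => ?_
  rw [Real.norm_eq_abs, sq_abs]
  rfl

theorem gs_O (m : ℝ) (s : S) (X : Pos p) : gs p m (C.O s X) = gs p m X := by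
  rw [gs_eq_pcomp, gs_eq_pcomp]
  congr 2
  refine Finset.sum_congr rfl fun i _ => ?_
  rw [pcomp_O, LinearIsometryEquiv.norm_map]

/-! ### the limit system -/

open Crest.Agent.R330.WS596 Crest.Agent.R330.Chan441 in
/-- **The limit system of one channel**, the symmetries only have to preserve `Z`. -/
theorem isLim_free' {S : Type*} [Group S] [Fintype S] {F : Type*} [NormedAddCommGroup F]
    [InnerProductSpace ℂ F] [FiniteDimensional ℂ F] (hp : 1 ≤ p)
    (C : Chan566.Chan S (EuclideanSpace ℝ (Fin 9 × Fin p)) F)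
    {Lt : Light p F} {G : GammaNine}
    (hQ : ∀ m α (ψ : EuclideanSpace ℝ (Fin 9 × Fin p) → F), ContDiff ℝ ∞ ψ →
      (C.Q m α).op ψ = freeD Lt G m α ψ)
    (hadj : ∀ m α, Adj (C.Q m α) (C.Q m α))
    {ι : Type*} {A : Finset ι} {V : Type*} [NormedAddCommGroup V] [InnerProductSpace ℝ V]
    [FiniteDimensional ℝ V] [MeasurableSpace V] [BorelSpace V]
    {L : ι → EuclideanSpace ℝ (Fin 9 × Fin p) →L[ℝ] V} {c : ι → V} (hZ : C.Z = flats A L c)
    (hL : ∀ a ∈ A, Function.Surjective (L a)) (hV : 3 ≤ Module.finrank ℝ V)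
    {ξ : F} (hξ0 : ξ ≠ 0) (hξ : LVac Lt G ξ) (hline : ∀ e, LVac Lt G e → e = ⟪ξ, e⟫_ℂ • ξ)
    (hgs : ∀ s x, gs p 1 (C.O s x) = gs p 1 x) (hU : ∀ s, C.U s ξ = ξ) :
    ∃ Φ : C.L, (((Φ : Lp F 2 (volume : Measure (EuclideanSpace ℝ (Fin 9 × Fin p)))) :
        EuclideanSpace ℝ (Fin 9 × Fin p) → F) =ᵐ[volume] fun x => (gs p 1 x : ℂ) • ξ) ∧
      IsLim C.e C.D (ChBind718.Wt C) (Submodule.span ℂ {Φ}) 1 :=
  ChFree718.isLim_free hp C hQ hadj (ChanWS365.flats_LO C hZ)
    (fun q hq => (hL q.2 (Finset.mem_product.1 hq).2).comp (C.O q.1).surjective) hV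
    (fun s δ x => ChanWS365.mcut_LO C s δ x) hξ0 hξ hline hgs hU

end Crest.Agent.R330.ChFlat718

end
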