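import Crest.Agent.R330.TrialSys_796
import Crest.Agent.R330.ChSum_718
import Crest.Agent.R330.Chan_441
import Crest.Agent.R330.Chan_566
import Crest.Agent.R330.TDef_414
import Crest.Agent.R330.Pou_365

-- ▼ part R330/FreeX_399
section

/-!
# Row 330: trial systems on a free module of generators (helper399)

A trial system may be given on generators `γ : Γ` only (`X = Γ →₀ ℂ`, decision (D2) of #17594).

* `eF`, `DF`, `TF` : the linear extensions.
* `IsGen` : the fields of `IsTrial` on generators.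
* `isTrial_free` : `IsTrial` for the free module.
* `dense_eF` : density from a total set of generators.
* `cap_gen` : testing against all of `X` = testing against generators.
-/

set_option autoImplicit false
set_option linter.unusedSectionVars false

open MeasureTheory Filter Topology Crest.MathPhysics.MatrixQM
open scoped ContDiff InnerProductSpace ENNReal

noncomputable section

namespace Crest.Agent.R330.FreeX399

open Crest.Agent.R330.Defs478 Crest.Agent.R330.Sec478 Crest.Agent.R330.TrialSys796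

variable {N : ℕ} {F : Type*} [NormedAddCommGroup F] [InnerProductSpace ℂ F]
  [FiniteDimensional ℂ F] {Γ : Type*}
  {L : Type*} [NormedAddCommGroup L] [InnerProductSpace ℂ L]

/-- linear extension of the amplitudes -/
def eF (e₀ : Γ → L) : (Γ →₀ ℂ) →ₗ[ℂ] L := Finsupp.linearCombination ℂ e₀


/-- linear extension of the trial states -/
def TF (T₀ : ℝ → Γ → Cfg N → F) (g : ℝ) : (Γ →₀ ℂ) → Cfg N → F := fun χ =>
  Finsupp.linearCombination ℂ (T₀ g) χ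

theorem TF_eq (T₀ : ℝ → Γ → Cfg N → F) (g : ℝ) (χ : Γ →₀ ℂ) :
    TF T₀ g χ = fun x => ∑ γ ∈ χ.support, χ γ • T₀ g γ x := by
  funext x
  simp [TF, Finsupp.linearCombination_apply, Finsupp.sum, Finset.sum_apply]

theorem TF_single (T₀ : ℝ → Γ → Cfg N → F) (g : ℝ) (γ : Γ) :
    TF T₀ g (Finsupp.single γ 1) = T₀ g γ := by
  simp [TF]


theorem eF_eq (e₀ : Γ → L) (χ : Γ →₀ ℂ) : eF e₀ χ = ∑ γ ∈ χ.support, χ γ • e₀ γ := by
  simp [eF, Finsupp.linearCombination_apply, Finsupp.sum]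



/-- The fields of `IsTrial` on generators. -/
structure IsGen (b : ColorBasis N) (M : FermionRep N F) (R : GaugeAction b M) (G : GammaNine)
    (e₀ : Γ → L) (D₀ : Fin 16 → Γ → (Γ →₀ ℂ)) (T₀ : ℝ → Γ → Cfg N → F) : Prop where
  core : ∀ γ, ∀ᶠ g in atTop, IsCoreVec b R (T₀ g γ)
  iso : ∀ γ γ', Tendsto (fun g => ∫ x, ⟪T₀ g γ x, T₀ g γ' x⟫_ℂ) atTop (𝓝 ⟪e₀ γ, e₀ γ'⟫_ℂ)
  dual : ∀ γ α, ∀ ε : ℝ, 0 < ε → ∀ᶠ g in atTop, ∀ φ : Cfg N → F, IsCoreVec b R φ →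
    ‖∫ x, ⟪φ x, dcharge b M G g 1 α (T₀ g γ) x - TF T₀ g (D₀ α γ) x⟫_ℂ‖ ≤
      ε * Real.sqrt (En b M G g 1 φ)
  far : ∀ γ, ∃ δ : ℝ, 0 < δ ∧ ∀ᶠ g in atTop, ∀ x, ‖x‖ < δ → T₀ g γ x = 0

section

variable {b : ColorBasis N} {M : FermionRep N F} {R : GaugeAction b M} {G : GammaNine}
  {e₀ : Γ → L} {D₀ : Fin 16 → Γ → (Γ →₀ ℂ)} {T₀ : ℝ → Γ → Cfg N → F}

theorem smul_core {φ : Cfg N → F} (h : IsCoreVec b R φ) (a : ℂ) :
    IsCoreVec b R (fun x => a • φ x) :=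
  Submodule.smul_mem (core b R) a h

theorem sum_core {κ : Type*} (s : Finset κ) {f : κ → Cfg N → F}
    (h : ∀ i ∈ s, IsCoreVec b R (f i)) : IsCoreVec b R (fun x => ∑ i ∈ s, f i x) := by
  have h1 : (fun x => ∑ i ∈ s, f i x) = ∑ i ∈ s, f i := by
    funext x
    simp
  rw [h1]
  exact Submodule.sum_mem (core b R) h

theorem core_TF (h : ∀ γ, ∀ᶠ g in atTop, IsCoreVec b R (T₀ g γ)) (χ : Γ →₀ ℂ) :
    ∀ᶠ g in atTop, IsCoreVec b R (TF T₀ g χ) := by
  have h1 : ∀ᶠ g in atTop, ∀ γ ∈ χ.support, IsCoreVec b R (T₀ g γ) :=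
    (eventually_all_finset χ.support).2 fun γ _ => h γ
  filter_upwards [h1] with g hg
  rw [TF_eq]
  exact sum_core _ fun γ hγ => smul_core (hg γ hγ) _

theorem core_inner_int {φ ψ : Cfg N → F} (hφ : IsCoreVec b R φ) (hψ : Continuous ψ) :
    Integrable (fun x => ⟪φ x, ψ x⟫_ℂ) := by
  refine (hφ.1.continuous.inner hψ).integrable_of_hasCompactSupport ?_
  refine hφ.2.1.mono fun x hx => ?_
  rw [Function.mem_support] at hx ⊢
  intro h
  exact hx (by simp [h])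

theorem iso_TF (h : ∀ γ, ∀ᶠ g in atTop, IsCoreVec b R (T₀ g γ))
    (hi : ∀ γ γ', Tendsto (fun g => ∫ x, ⟪T₀ g γ x, T₀ g γ' x⟫_ℂ) atTop (𝓝 ⟪e₀ γ, e₀ γ'⟫_ℂ))
    (χ χ' : Γ →₀ ℂ) :
    Tendsto (fun g => ∫ x, ⟪TF T₀ g χ x, TF T₀ g χ' x⟫_ℂ) atTop (𝓝 ⟪eF e₀ χ, eF e₀ χ'⟫_ℂ) := by
  have e1 : ⟪eF e₀ χ, eF e₀ χ'⟫_ℂ = ∑ γ ∈ χ.support, ∑ γ' ∈ χ'.support,
      (starRingEnd ℂ) (χ γ) * (χ' γ' * ⟪e₀ γ, e₀ γ'⟫_ℂ) := by
    rw [eF_eq, eF_eq, sum_inner]
    refine Finset.sum_congr rfl fun γ _ => ?_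
    rw [inner_sum]
    refine Finset.sum_congr rfl fun γ' _ => ?_
    rw [inner_smul_left, inner_smul_right]
  have h1 : ∀ᶠ g in atTop, ∀ γ ∈ χ.support, IsCoreVec b R (T₀ g γ) :=
    (eventually_all_finset χ.support).2 fun γ _ => h γ
  have h2 : ∀ᶠ g in atTop, ∀ γ ∈ χ'.support, IsCoreVec b R (T₀ g γ) :=
    (eventually_all_finset χ'.support).2 fun γ _ => h γ
  have h3 : Tendsto (fun g => ∑ γ ∈ χ.support, ∑ γ' ∈ χ'.support,
      (starRingEnd ℂ) (χ γ) * (χ' γ' * ∫ x, ⟪T₀ g γ x, T₀ g γ' x⟫_ℂ)) atTop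
      (𝓝 ⟪eF e₀ χ, eF e₀ χ'⟫_ℂ) := by
    rw [e1]
    exact tendsto_finsetSum _ fun γ _ => tendsto_finsetSum _ fun γ' _ =>
      ((hi γ γ').const_mul _).const_mul _
  refine h3.congr' ?_
  filter_upwards [h1, h2] with g hg hg'
  have e2 : ∀ x, ⟪TF T₀ g χ x, TF T₀ g χ' x⟫_ℂ = ∑ γ ∈ χ.support, ∑ γ' ∈ χ'.support,
      (starRingEnd ℂ) (χ γ) * (χ' γ' * ⟪T₀ g γ x, T₀ g γ' x⟫_ℂ) := by
    intro x
    rw [TF_eq, TF_eq, sum_inner]
    refine Finset.sum_congr rfl fun γ _ => ?_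
    rw [inner_sum]
    refine Finset.sum_congr rfl fun γ' _ => ?_
    rw [inner_smul_left, inner_smul_right]
  have hI : ∀ γ ∈ χ.support, ∀ γ' ∈ χ'.support, Integrable fun x =>
      (starRingEnd ℂ) (χ γ) * (χ' γ' * ⟪T₀ g γ x, T₀ g γ' x⟫_ℂ) := fun γ hγ γ' hγ' =>
    ((core_inner_int (hg γ hγ) (hg' γ' hγ').1.continuous).const_mul _).const_mul _
  simp only [e2]
  rw [integral_finsetSum _ fun γ hγ => integrable_finsetSum _ fun γ' hγ' => hI γ hγ γ' hγ']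
  refine Finset.sum_congr rfl fun γ hγ => ?_
  rw [integral_finsetSum _ fun γ' hγ' => hI γ hγ γ' hγ']
  refine Finset.sum_congr rfl fun γ' _ => ?_
  rw [integral_const_mul, integral_const_mul]


theorem dcharge_sum {κ : Type*} (s : Finset κ) {f : κ → Cfg N → F} (a : κ → ℂ)
    (h : ∀ i ∈ s, Differentiable ℝ (f i)) (g m : ℝ) (α : Fin 16) (x : Cfg N) :
    dcharge b M G g m α (fun x => ∑ i ∈ s, a i • f i x) x =
      ∑ i ∈ s, a i • dcharge b M G g m α (f i) x := by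
  classical
  induction s using Finset.induction_on with
  | empty =>
    have h0 := dcharge_smul b M G g m α (0 : ℂ) (φ := (0 : Cfg N → F)) (by fun_prop)
    have h1 := congrFun h0 x
    have h2 : (fun x => ∑ i ∈ (∅ : Finset κ), a i • f i x) = (0 : Cfg N → F) := by
      funext y
      simp
    rw [h2, Finset.sum_empty]
    simpa using h1
  | insert i s hi ih =>
    have h1 : (fun x => ∑ j ∈ insert i s, a j • f j x) =
        a i • f i + fun x => ∑ j ∈ s, a j • f j x := by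
      funext y
      simp [Finset.sum_insert hi]
    have hd : ∀ j ∈ insert i s, Differentiable ℝ (a j • f j) := fun j hj =>
      (h j hj).const_smul (a j)
    have hd' : ∀ j ∈ insert i s, Differentiable ℝ (fun x => a j • f j x) := hd
    rw [h1, dcharge_add b M G g m α (hd i (Finset.mem_insert_self i s))
      (Differentiable.fun_sum fun j hj => hd' j (Finset.mem_insert_of_mem hj)),
      Finset.sum_insert hi]
    rw [← ih fun j hj => h j (Finset.mem_insert_of_mem hj)]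
    rw [dcharge_smul b M G g m α (a i) (h i (Finset.mem_insert_self i s))]
    rfl

theorem TF_linear (g : ℝ) (s : Finset Γ) (a : Γ → ℂ) (f : Γ → (Γ →₀ ℂ)) (x : Cfg N) :
    TF T₀ g (∑ γ ∈ s, a γ • f γ) x = ∑ γ ∈ s, a γ • TF T₀ g (f γ) x := by
  simp [TF, map_sum, Finset.sum_apply]







end

end Crest.Agent.R330.FreeX399
end
end

-- ▼ part R330/FreeY_399
section

/-!
# Row 330: 441's channel on a free module of generators (helper399)

* `IsGenCh` : the fields of `Chan441.IsChan` on generators `γ : Γ` (`D₀ m α : Γ → Γ`,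
  `W₀ w : Γ → Γ`).
* `isChan_free` : `IsChan` for `X = Γ →₀ ℂ`.
* `isLim_pull` : transfer of `IsLim` along a surjective intertwiner `π : X' → X`.
* `orth_gen`, `capFam_gen` : orthogonality and capture on generators.
-/

set_option autoImplicit false
set_option linter.unusedSectionVars false

open MeasureTheory Filter Topology Crest.MathPhysics.MatrixQM
open scoped ContDiff InnerProductSpace ENNReal

noncomputable section

namespace Crest.Agent.R330.FreeY399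

open Crest.Agent.R330.Defs478 Crest.Agent.R330.Sec478 Crest.Agent.R330.TrialSys796
  Crest.Agent.R330.FreeX399 Crest.Agent.R330.Chan441

variable {N : ℕ} {F : Type*} [NormedAddCommGroup F] [InnerProductSpace ℂ F]
  [FiniteDimensional ℂ F] {Γ : Type*}
  {L : Type*} [NormedAddCommGroup L] [InnerProductSpace ℂ L]

/-- linear extension of a map of generators -/
def MF (D₀ : Γ → Γ) : (Γ →₀ ℂ) →ₗ[ℂ] (Γ →₀ ℂ) := Finsupp.lmapDomain ℂ ℂ D₀

theorem MF_single (D₀ : Γ → Γ) (γ : Γ) (a : ℂ) :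
    MF D₀ (Finsupp.single γ a) = Finsupp.single (D₀ γ) a := by
  simp [MF]

theorem MF_eq (D₀ : Γ → Γ) (χ : Γ →₀ ℂ) :
    MF D₀ χ = ∑ γ ∈ χ.support, χ γ • Finsupp.single (D₀ γ) (1 : ℂ) := by
  rw [MF, Finsupp.lmapDomain_apply, Finsupp.mapDomain, Finsupp.sum]
  exact Finset.sum_congr rfl fun γ _ => by rw [Finsupp.smul_single, smul_eq_mul, mul_one]


/-- The fields of `IsChan` on generators. -/
structure IsGenCh (b : ColorBasis N) (M : FermionRep N F) (R : GaugeAction b M) (G : GammaNine)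
    (e₀ : Γ → L) (D₀ : ℝ → Fin 16 → Γ → Γ) (W₀ : (ℝ → ℝ) → Γ → Γ)
    (T₀ : ℝ → Γ → Cfg N → F) : Prop where
  core : ∀ γ, ∀ᶠ g in atTop, IsCoreVec b R (T₀ g γ)
  supp : ∀ γ, ∃ r ρ : ℝ, 0 < r ∧ ∀ᶠ g in atTop, ∀ x, T₀ g γ x ≠ 0 → r ≤ ‖x‖ ∧ ‖x‖ ≤ ρ
  iso : ∀ γ γ', Tendsto (fun g => ∫ x, ⟪T₀ g γ x, T₀ g γ' x⟫_ℂ) atTop (𝓝 ⟪e₀ γ, e₀ γ'⟫_ℂ)
  dual : ∀ m : ℝ, m = 0 ∨ m = 1 → ∀ γ α, ∀ ε : ℝ, 0 < ε → ∀ᶠ g in atTop, ∀ φ : Cfg N → F,
    IsCoreVec b R φ →
    ‖∫ x, ⟪φ x, dcharge b M G g m α (T₀ g γ) x - T₀ g (D₀ m α γ) x⟫_ℂ‖ ≤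
      ε * Real.sqrt (En b M G g m φ)
  rad : ∀ w : ℝ → ℝ, ContDiff ℝ ∞ w → ∀ γ, Tendsto (fun g =>
    ∫ x, ‖T₀ g (W₀ w γ) x - ((w (‖x‖ ^ 2) : ℝ) : ℂ) • T₀ g γ x‖ ^ 2) atTop (𝓝 0)

section

variable {b : ColorBasis N} {M : FermionRep N F} {R : GaugeAction b M} {G : GammaNine}
  {e₀ : Γ → L} {D₀ : ℝ → Fin 16 → Γ → Γ} {W₀ : (ℝ → ℝ) → Γ → Γ} {T₀ : ℝ → Γ → Cfg N → F}

/-- the dual estimate, any mass -/
theorem dual_TF' (m : ℝ) (D₀ : Fin 16 → Γ → Γ) (h : ∀ γ, ∀ᶠ g in atTop, IsCoreVec b R (T₀ g γ))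
    (hd : ∀ γ α, ∀ ε : ℝ, 0 < ε → ∀ᶠ g in atTop, ∀ φ : Cfg N → F, IsCoreVec b R φ →
      ‖∫ x, ⟪φ x, dcharge b M G g m α (T₀ g γ) x - T₀ g (D₀ α γ) x⟫_ℂ‖ ≤
        ε * Real.sqrt (En b M G g m φ)) (χ : Γ →₀ ℂ) (α : Fin 16) (ε : ℝ) (hε : 0 < ε) :
    ∀ᶠ g in atTop, ∀ φ : Cfg N → F, IsCoreVec b R φ →
      ‖∫ x, ⟪φ x, dcharge b M G g m α (TF T₀ g χ) x - TF T₀ g (MF (D₀ α) χ) x⟫_ℂ‖ ≤
        ε * Real.sqrt (En b M G g m φ) := by
  set S : ℝ := ∑ γ ∈ χ.support, ‖χ γ‖ with hS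
  have hS0 : 0 ≤ S := Finset.sum_nonneg fun _ _ => norm_nonneg _
  have hc : 0 < ε / (S + 1) := by positivity
  have h1 : ∀ᶠ g in atTop, ∀ γ ∈ χ.support, IsCoreVec b R (T₀ g γ) :=
    (eventually_all_finset χ.support).2 fun γ _ => h γ
  have h2 : ∀ᶠ g in atTop, ∀ γ ∈ χ.support, ∀ φ : Cfg N → F, IsCoreVec b R φ →
      ‖∫ x, ⟪φ x, dcharge b M G g m α (T₀ g γ) x - T₀ g (D₀ α γ) x⟫_ℂ‖ ≤
        ε / (S + 1) * Real.sqrt (En b M G g m φ) :=
    (eventually_all_finset χ.support).2 fun γ _ => hd γ α _ hc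
  have h3 : ∀ᶠ g in atTop, ∀ γ ∈ χ.support, IsCoreVec b R (T₀ g (D₀ α γ)) :=
    (eventually_all_finset χ.support).2 fun γ _ => h _
  filter_upwards [h1, h2, h3] with g hg1 hg2 hg3 φ hφ
  have e1 : ∀ x, ⟪φ x, dcharge b M G g m α (TF T₀ g χ) x - TF T₀ g (MF (D₀ α) χ) x⟫_ℂ =
      ∑ γ ∈ χ.support, χ γ *
        ⟪φ x, dcharge b M G g m α (T₀ g γ) x - T₀ g (D₀ α γ) x⟫_ℂ := by
    intro x
    have e2 : dcharge b M G g m α (TF T₀ g χ) x =
        ∑ γ ∈ χ.support, χ γ • dcharge b M G g m α (T₀ g γ) x := by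
      rw [TF_eq]
      exact dcharge_sum _ _ (fun γ hγ => cv_diff (hg1 γ hγ)) g m α x
    rw [e2, MF_eq, TF_linear, ← Finset.sum_sub_distrib, inner_sum]
    refine Finset.sum_congr rfl fun γ _ => ?_
    rw [TF_single, ← smul_sub, inner_smul_right]
  have hI : ∀ γ ∈ χ.support, Integrable fun x => χ γ *
      ⟪φ x, dcharge b M G g m α (T₀ g γ) x - T₀ g (D₀ α γ) x⟫_ℂ := fun γ hγ =>
    (core_inner_int hφ ((continuous_dcharge b M G g m α (cv_c1 (hg1 γ hγ))).sub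
      (hg3 γ hγ).1.continuous)).const_mul _
  simp only [e1]
  rw [integral_finsetSum _ hI]
  have hs : 0 ≤ Real.sqrt (En b M G g m φ) := Real.sqrt_nonneg _
  calc ‖∑ γ ∈ χ.support, ∫ x, χ γ *
        ⟪φ x, dcharge b M G g m α (T₀ g γ) x - T₀ g (D₀ α γ) x⟫_ℂ‖
      ≤ ∑ γ ∈ χ.support, ‖χ γ‖ * (ε / (S + 1) * Real.sqrt (En b M G g m φ)) := by
        refine (norm_sum_le _ _).trans (Finset.sum_le_sum fun γ hγ => ?_)
        rw [integral_const_mul, norm_mul]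
        exact mul_le_mul_of_nonneg_left (hg2 γ hγ φ hφ) (norm_nonneg _)
    _ = S / (S + 1) * (ε * Real.sqrt (En b M G g m φ)) := by
        rw [← Finset.sum_mul, ← hS]
        ring
    _ ≤ 1 * (ε * Real.sqrt (En b M G g m φ)) := by
        refine mul_le_mul_of_nonneg_right ?_ (by positivity)
        rw [div_le_one (by positivity)]
        linarith
    _ = _ := one_mul _

theorem supp_TF (hs : ∀ γ, ∃ r ρ : ℝ, 0 < r ∧ ∀ᶠ g in atTop, ∀ x : Cfg N, T₀ g γ x ≠ 0 →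
    r ≤ ‖x‖ ∧ ‖x‖ ≤ ρ) (χ : Γ →₀ ℂ) : ∃ r ρ : ℝ, 0 < r ∧ ∀ᶠ g in atTop, ∀ x : Cfg N,
      TF T₀ g χ x ≠ 0 → r ≤ ‖x‖ ∧ ‖x‖ ≤ ρ := by
  choose r ρ h0 h1 using hs
  have h2 : ∀ γ ∈ χ.support, ∀ᶠ d : ℝ in 𝓝[>] 0, d < r γ := fun γ _ => by
    filter_upwards [Ioo_mem_nhdsGT (h0 γ)] with d hd
    exact hd.2
  obtain ⟨d, h3, h4⟩ := (((eventually_all_finset χ.support).2 h2).and
    self_mem_nhdsWithin).exists
  have h5 : ∀ᶠ t : ℝ in atTop, ∀ γ ∈ χ.support, ρ γ ≤ t :=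
    (eventually_all_finset χ.support).2 fun γ _ => eventually_ge_atTop _
  obtain ⟨t, ht⟩ := h5.exists
  refine ⟨d, t, h4, ?_⟩
  filter_upwards [(eventually_all_finset χ.support).2 fun γ _ => h1 γ] with g hg x hx
  rw [TF_eq] at hx
  obtain ⟨γ, hγ, hne⟩ := Finset.exists_ne_zero_of_sum_ne_zero hx
  have h6 := hg γ hγ x fun h => hne (by rw [h, smul_zero])
  exact ⟨(h3 γ hγ).le.trans h6.1, h6.2.trans (ht γ hγ)⟩

theorem norm_sum_sq_le {κ : Type*} (s : Finset κ) (f : κ → F) :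
    ‖∑ i ∈ s, f i‖ ^ 2 ≤ s.card * ∑ i ∈ s, ‖f i‖ ^ 2 := by
  calc ‖∑ i ∈ s, f i‖ ^ 2 ≤ (∑ i ∈ s, ‖f i‖) ^ 2 := by
        gcongr
        exact norm_sum_le _ _
    _ ≤ _ := sq_sum_le_card_mul_sum_sq

theorem integrable_diff_sq {φ ψ : Cfg N → F} (hφ : IsCoreVec b R φ) (hψ : IsCoreVec b R ψ)
    {w : ℝ → ℝ} (hw : ContDiff ℝ ∞ w) :
    Integrable fun x => ‖φ x - ((w (‖x‖ ^ 2) : ℝ) : ℂ) • ψ x‖ ^ 2 := by
  have hc : Continuous fun x : Cfg N => ((w (‖x‖ ^ 2) : ℝ) : ℂ) :=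
    Complex.continuous_ofReal.comp (hw.continuous.comp (by fun_prop))
  refine Continuous.integrable_of_hasCompactSupport
    ((hφ.1.continuous.sub (hc.smul hψ.1.continuous)).norm.pow 2) ?_
  refine (hφ.2.1.union hψ.2.1).of_isClosed_subset (isClosed_tsupport _)
    (closure_minimal ?_ ((isClosed_tsupport φ).union (isClosed_tsupport ψ)))
  intro x hx
  by_contra h
  rw [Set.mem_union, not_or] at h
  apply hx
  show ‖φ x - ((w (‖x‖ ^ 2) : ℝ) : ℂ) • ψ x‖ ^ 2 = 0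
  rw [image_eq_zero_of_notMem_tsupport h.1, image_eq_zero_of_notMem_tsupport h.2]
  simp

theorem rad_TF (h : ∀ γ, ∀ᶠ g in atTop, IsCoreVec b R (T₀ g γ)) {w : ℝ → ℝ}
    (hw : ContDiff ℝ ∞ w) (hr : ∀ γ, Tendsto (fun g =>
      ∫ x, ‖T₀ g (W₀ w γ) x - ((w (‖x‖ ^ 2) : ℝ) : ℂ) • T₀ g γ x‖ ^ 2) atTop (𝓝 0))
    (χ : Γ →₀ ℂ) : Tendsto (fun g =>
      ∫ x, ‖TF T₀ g (MF (W₀ w) χ) x - ((w (‖x‖ ^ 2) : ℝ) : ℂ) • TF T₀ g χ x‖ ^ 2) atTop (𝓝 0) := by
  have h1 : ∀ᶠ g in atTop, ∀ γ ∈ χ.support, IsCoreVec b R (T₀ g γ) :=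
    (eventually_all_finset χ.support).2 fun γ _ => h γ
  have h3 : ∀ᶠ g in atTop, ∀ γ ∈ χ.support, IsCoreVec b R (T₀ g (W₀ w γ)) :=
    (eventually_all_finset χ.support).2 fun γ _ => h _
  have h4 : Tendsto (fun g => (χ.support.card : ℝ) * ∑ γ ∈ χ.support, ‖χ γ‖ ^ 2 *
      ∫ x, ‖T₀ g (W₀ w γ) x - ((w (‖x‖ ^ 2) : ℝ) : ℂ) • T₀ g γ x‖ ^ 2) atTop (𝓝 0) := by
    have h5 := (tendsto_finsetSum χ.support fun γ _ =>
      (hr γ).const_mul (‖χ γ‖ ^ 2)).const_mul (χ.support.card : ℝ)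
    simpa using h5
  refine squeeze_zero' (Eventually.of_forall fun g => integral_nonneg fun x => sq_nonneg _) ?_ h4
  filter_upwards [h1, h3] with g hg1 hg3
  have e1 : ∀ x, TF T₀ g (MF (W₀ w) χ) x - ((w (‖x‖ ^ 2) : ℝ) : ℂ) • TF T₀ g χ x =
      ∑ γ ∈ χ.support, χ γ • (T₀ g (W₀ w γ) x - ((w (‖x‖ ^ 2) : ℝ) : ℂ) • T₀ g γ x) := by
    intro x
    rw [MF_eq, TF_linear]
    have e2 : TF T₀ g χ x = ∑ γ ∈ χ.support, χ γ • T₀ g γ x := by rw [TF_eq]
    rw [e2, Finset.smul_sum, ← Finset.sum_sub_distrib]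
    refine Finset.sum_congr rfl fun γ _ => ?_
    rw [TF_single, smul_sub, smul_comm]
  have hI : ∀ γ ∈ χ.support, Integrable fun x => ‖χ γ‖ ^ 2 *
      ‖T₀ g (W₀ w γ) x - ((w (‖x‖ ^ 2) : ℝ) : ℂ) • T₀ g γ x‖ ^ 2 := fun γ hγ =>
    (integrable_diff_sq (hg3 γ hγ) (hg1 γ hγ) hw).const_mul _
  have hIs : Integrable fun x => (χ.support.card : ℝ) * ∑ γ ∈ χ.support, ‖χ γ‖ ^ 2 *
      ‖T₀ g (W₀ w γ) x - ((w (‖x‖ ^ 2) : ℝ) : ℂ) • T₀ g γ x‖ ^ 2 :=
    (integrable_finsetSum _ hI).const_mul _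
  calc ∫ x, ‖TF T₀ g (MF (W₀ w) χ) x - ((w (‖x‖ ^ 2) : ℝ) : ℂ) • TF T₀ g χ x‖ ^ 2
      ≤ ∫ x, (χ.support.card : ℝ) * ∑ γ ∈ χ.support, ‖χ γ‖ ^ 2 *
          ‖T₀ g (W₀ w γ) x - ((w (‖x‖ ^ 2) : ℝ) : ℂ) • T₀ g γ x‖ ^ 2 := by
        refine integral_mono_of_nonneg (Eventually.of_forall fun x => sq_nonneg _) hIs
          (Eventually.of_forall fun x => ?_)
        show ‖TF T₀ g (MF (W₀ w) χ) x - ((w (‖x‖ ^ 2) : ℝ) : ℂ) • TF T₀ g χ x‖ ^ 2 ≤ _
        rw [e1]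
        refine (norm_sum_sq_le _ _).trans_eq ?_
        congr 1
        exact Finset.sum_congr rfl fun γ _ => by rw [norm_smul, mul_pow]
    _ = _ := by
        rw [integral_const_mul, integral_finsetSum _ hI]
        congr 1
        exact Finset.sum_congr rfl fun γ _ => integral_const_mul _ _

/-- **`IsChan` on the free module from the fields on generators.** -/
theorem isChan_free (h : IsGenCh b M R G e₀ D₀ W₀ T₀) :
    IsChan b M R G (eF e₀) (fun m α => MF (D₀ m α)) (fun w => MF (W₀ w)) (TF T₀) where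
  core := core_TF h.core
  add g χ χ' := map_add (Finsupp.linearCombination ℂ (T₀ g)) χ χ'
  smul g c χ := map_smul (Finsupp.linearCombination ℂ (T₀ g)) c χ
  supp := supp_TF h.supp
  iso := iso_TF h.core h.iso
  dual m hm χ α ε hε := dual_TF' m (D₀ m) h.core (h.dual m hm) χ α ε hε
  rad w hw χ := rad_TF h.core hw (h.rad w hw) χ

end

/-! ## transfer of the limit system along a surjective intertwiner -/

section pull

variable {X X' : Type*} [AddCommGroup X] [Module ℂ X] [AddCommGroup X'] [Module ℂ X']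
  {e : X →ₗ[ℂ] L} {D : ℝ → Fin 16 → X →ₗ[ℂ] X} {W : (ℝ → ℝ) → X →ₗ[ℂ] X}
  {e' : X' →ₗ[ℂ] L} {D' : ℝ → Fin 16 → X' →ₗ[ℂ] X'} {W' : (ℝ → ℝ) → X' →ₗ[ℂ] X'}
  {K0 : Submodule ℂ L} {d : ℕ}

/-- transfer of `IsFree` -/
theorem isFree_pull {D : Fin 16 → X →ₗ[ℂ] X} {D' : Fin 16 → X' →ₗ[ℂ] X'} (π : X' →ₗ[ℂ] X)
    (hπ : Function.Surjective π) (he : ∀ χ, e' χ = e (π χ)) (hD : ∀ α χ, π (D' α χ) = D α (π χ))
    (h : IsFree e D K0 d) : IsFree e' D' K0 d where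
  rank := h.rank
  uniq f hf := h.uniq f fun χ α => by
    obtain ⟨χ', rfl⟩ := hπ χ
    rw [← hD, ← he]
    exact hf χ' α
  approx f hf ε hε := by
    obtain ⟨χ, h1, h2⟩ := h.approx f hf ε hε
    obtain ⟨χ', rfl⟩ := hπ χ
    exact ⟨χ', by rwa [he], fun α => by rw [he, hD]; exact h2 α⟩

/-- **transfer of `IsLim` along a surjective intertwiner.** -/
theorem isLim_pull (π : X' →ₗ[ℂ] X) (hπ : Function.Surjective π) (he : ∀ χ, e' χ = e (π χ))
    (hD : ∀ m α χ, π (D' m α χ) = D m α (π χ))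
    (hW : ∀ w, ContDiff ℝ ∞ w → ∀ χ, π (W' w χ) = W w (π χ))
    (hsq : ∀ (α β : Fin 16) (χ : X'), D' 0 α (D' 0 α χ) = D' 0 β (D' 0 β χ))
    (h : IsLim e D W K0 d) : IsLim e' D' W' K0 d where
  dense := by
    have h1 : Set.range e' = Set.range e := by
      ext f
      constructor
      · rintro ⟨χ, rfl⟩
        exact ⟨π χ, (he χ).symm⟩
      · rintro ⟨χ, rfl⟩
        obtain ⟨χ', rfl⟩ := hπ χ
        exact ⟨χ', he χ'⟩
    rw [DenseRange, h1]
    exact h.dense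
  sep := h.sep
  symm m α χ χ' := by
    rw [he, he, he, he, hD, hD]
    exact h.symm m α _ _
  sq := hsq
  ws f k hf ε hε := by
    obtain ⟨χ, h1, h2⟩ := h.ws f k (fun χ α => by
      obtain ⟨χ', rfl⟩ := hπ χ
      have := hf χ' α
      rwa [he, he, hD] at this) ε hε
    obtain ⟨χ', rfl⟩ := hπ χ
    exact ⟨χ', by rwa [he], fun α => by rw [he, hD]; exact h2 α⟩
  hardy w hw hw2 χ := by
    have h1 := h.hardy w hw hw2 (π χ)
    simp only [he, hD, hW w hw]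
    exact h1
  free := isFree_pull π hπ he (hD 1) h.free

end pull

/-! ## families -/

section fam

variable {b : ColorBasis N} {M : FermionRep N F} {R : GaugeAction b M} {G : GammaNine}
  {Γ' : Type*}



end fam

end Crest.Agent.R330.FreeY399
end
end

-- ▼ part R330/FreeC_399
section

/-!
# Row 330: generators of one symmetric channel (helper399)

Over `C : Chan566.Chan S E F` (positions `E`, light fermions `F`, finite group `S`):

* `Gen C reg r` : generators `(c, χ)`, `c ∈ reg`, `χ` a test function with support in `B(c, r c)`.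
* `op`, `wm` : the limit charges and radial multiplication on generators.
* `e₀` : `√|S|` times the symmetrisation in `L²`; `inner_e₀` : Gram matrix of generators.
* `proj` : the intertwiner of the free module onto the symmetric test space `C.X`;
  `proj_e`, `proj_D`, `proj_W`, `sq_gen`.
* `isLim_free` : `IsLim` of the free module from `IsLim` of `C.X`, if `proj` is surjective.
-/

set_option autoImplicit false
set_option linter.unusedSectionVars false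

open MeasureTheory Filter Topology
open scoped ContDiff InnerProductSpace ENNReal

noncomputable section

namespace Crest.Agent.R330.FreeC399

open Crest.Agent.R330.FreeX399 Crest.Agent.R330.FreeY399 Crest.Agent.R330.Chan441
  Crest.Agent.R330.WS596

variable {S : Type*} [Group S] [Fintype S]
variable {E : Type*} [NormedAddCommGroup E] [InnerProductSpace ℝ E] [FiniteDimensional ℝ E]
  [MeasurableSpace E] [BorelSpace E]
variable {F : Type*} [NormedAddCommGroup F] [InnerProductSpace ℂ F] [FiniteDimensional ℂ F]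

/-- A generator: a chart centre and a test function supported in the chart. -/
structure Gen (C : Chan566.Chan S E F) (reg : Set E) (r : E → ℝ) where
  /-- the centre -/
  c : E
  /-- the test function -/
  χ : E → F
  hc : c ∈ reg
  test : C.Test χ
  supp : tsupport χ ⊆ Metric.ball c (r c)

namespace Gen

variable {C : Chan566.Chan S E F} {reg : Set E} {r : E → ℝ}

/-- the limit charge of a generator -/
def op (m : ℝ) (α : Fin 16) (γ : Gen C reg r) : Gen C reg r where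
  c := γ.c
  χ := (C.Q m α).op γ.χ
  hc := γ.hc
  test := γ.test.op m α
  supp := (C.op_tsupport m α γ.χ).trans γ.supp

theorem tsupport_wm (w : ℝ → ℝ) (χ : E → F) :
    tsupport (fun x => w (‖x‖ ^ 2) • χ x) ⊆ tsupport χ := by
  refine closure_minimal ?_ (isClosed_tsupport χ)
  intro x hx
  apply subset_tsupport
  intro h0
  apply hx
  simp only [h0, smul_zero]

/-- radial multiplication of a test function -/
theorem test_wm {w : ℝ → ℝ} (hw : ContDiff ℝ ∞ w) {χ : E → F} (h : C.Test χ) :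
    C.Test (fun x => w (‖x‖ ^ 2) • χ x) := by
  have hs : ContDiff ℝ ∞ fun x : E => w (‖x‖ ^ 2) := hw.comp (contDiff_norm_sq ℝ)
  exact ⟨hs.smul h.smooth, h.cpt.of_isClosed_subset (isClosed_tsupport _) (tsupport_wm w χ),
    fun x hx => h.off x (tsupport_wm w χ hx)⟩






end Gen

variable (C : Chan566.Chan S E F) (reg : Set E) (r : E → ℝ)

/-- the normalisation `√|S|` -/
def kap (S : Type*) [Fintype S] : ℂ := ((Real.sqrt (Fintype.card S) : ℝ) : ℂ)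

theorem kap_sq : (starRingEnd ℂ) (kap S) * kap S = (Fintype.card S : ℂ) := by
  have h1 : (0 : ℝ) ≤ (Fintype.card S : ℝ) := by positivity
  unfold kap
  rw [Complex.conj_ofReal, ← Complex.ofReal_mul, Real.mul_self_sqrt h1]
  simp

theorem kap_ne : kap S ≠ 0 := by
  have h1 : (0 : ℝ) < (Fintype.card S : ℝ) := by
    exact_mod_cast Fintype.card_pos (α := S)
  unfold kap
  exact Complex.ofReal_ne_zero.2 (Real.sqrt_pos.2 h1).ne'

/-- the limit vector of a generator -/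
def e₀ (γ : Gen C reg r) : C.L := kap S • C.e (C.sym γ.test)

/-- the intertwiner onto the symmetric test space -/
def proj : (Gen C reg r →₀ ℂ) →ₗ[ℂ] C.X :=
  Finsupp.linearCombination ℂ fun γ : Gen C reg r => kap S • C.sym γ.test



/-- two linear maps on the free module agree if they agree on generators -/
theorem ext_gen {X : Type*} [AddCommGroup X] [Module ℂ X] {f g : (Gen C reg r →₀ ℂ) →ₗ[ℂ] X}
    (h : ∀ γ, f (Finsupp.single γ 1) = g (Finsupp.single γ 1)) : f = g :=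
  Finsupp.lhom_ext' fun γ => LinearMap.ext_ring (by simpa using h γ)


theorem avg_wm {w : ℝ → ℝ} (χ : E → F) (x : E) :
    C.avg (fun y => w (‖y‖ ^ 2) • χ y) x = w (‖x‖ ^ 2) • C.avg χ x := by
  simp only [Chan566.Chan.avg, Chan566.Chan.tr]
  rw [smul_comm (w (‖x‖ ^ 2))]
  congr 1
  rw [Finset.smul_sum]
  refine Finset.sum_congr rfl fun s _ => ?_
  rw [LinearIsometryEquiv.norm_map]
  have h1 := map_smul (Chan566.ul (C.U s⁻¹)) (w (‖x‖ ^ 2)) (χ (C.O s x))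
  simpa only [Chan566.ul_apply] using h1

theorem W_sym {w : ℝ → ℝ} (hw : ContDiff ℝ ∞ w) {χ : E → F} (h : C.Test χ) :
    C.W w hw (C.sym h) = C.sym (Gen.test_wm hw h) := by
  apply Subtype.ext
  funext x
  rw [Chan566.Chan.W_apply]
  exact (avg_wm C χ x).symm



/-- **Gram matrix of the generators**: `Σ_s ∫ ⟪χ, U_s⁻¹ χ'(O_s ·)⟫`. -/
theorem inner_e₀ (γ γ' : Gen C reg r) :
    ⟪e₀ C reg r γ, e₀ C reg r γ'⟫_ℂ = ∑ s, ∫ x, ⟪γ.χ x, C.tr s γ'.χ x⟫_ℂ := by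
  have h0 : ⟪e₀ C reg r γ, e₀ C reg r γ'⟫_ℂ =
      (Fintype.card S : ℂ) * ⟪C.e (C.sym γ.test), C.e (C.sym γ'.test)⟫_ℂ := by
    have h1 := inner_smul_left (𝕜 := ℂ) (E := C.L) (C.e (C.sym γ.test))
      (kap S • C.e (C.sym γ'.test)) (kap S)
    have h2 := inner_smul_right (𝕜 := ℂ) (E := C.L) (C.e (C.sym γ.test))
      (C.e (C.sym γ'.test)) (kap S)
    refine h1.trans ?_
    rw [h2, ← mul_assoc, kap_sq]
  have h1 : ⟪C.e (C.sym γ.test), C.e (C.sym γ'.test)⟫_ℂ =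
      ∫ x, ⟪γ.χ x, (C.sym γ'.test).1 x⟫_ℂ := by
    have h2 := C.inner_avg (C.e (C.sym γ'.test)) γ.test.memLp
    have h3 : ⟪C.e (C.sym γ'.test), C.e (C.sym γ.test)⟫_ℂ =
        ∫ x, ⟪((C.e (C.sym γ'.test) : C.L) : Lp F 2 (volume : Measure E)) x, γ.χ x⟫_ℂ := by
      rw [C.inner_e, ← h2]
      rfl
    have h4 : ⟪C.e (C.sym γ'.test), C.e (C.sym γ.test)⟫_ℂ =
        ∫ x, ⟪(C.sym γ'.test).1 x, γ.χ x⟫_ℂ := by
      rw [h3]
      refine integral_congr_ae ?_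
      filter_upwards [C.e_ae (C.sym γ'.test)] with x hx
      rw [hx]
    have h6 := inner_conj_symm (𝕜 := ℂ) (E := C.L) (C.e (C.sym γ.test)) (C.e (C.sym γ'.test))
    rw [← h6, h4, ← integral_conj]
    refine integral_congr_ae (Eventually.of_forall fun x => ?_)
    exact inner_conj_symm _ _
  have hc : (Fintype.card S : ℂ) ≠ 0 := by
    exact_mod_cast (Fintype.card_pos (α := S)).ne'
  rw [h0, h1]
  have h5 : ∀ x, ⟪γ.χ x, (C.sym γ'.test).1 x⟫_ℂ =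
      (Fintype.card S : ℂ)⁻¹ * ∑ s, ⟪γ.χ x, C.tr s γ'.χ x⟫_ℂ := by
    intro x
    have h6 : (C.sym γ'.test).1 x = C.avg γ'.χ x := rfl
    rw [h6, Chan566.Chan.avg, inner_rsmul_right, inner_sum]
    push_cast
    rfl
  simp only [h5]
  rw [integral_const_mul, integral_finsetSum _ fun s _ =>
    Chan566.Chan.integrable_inner γ.test.memLp (γ'.test.tr s).memLp, ← mul_assoc, mul_inv_cancel₀ hc, one_mul]




end Crest.Agent.R330.FreeC399
end
end

-- ▼ part R330/ChSys_399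

/-!
# Row 330, S8-CHSYS: one channel from the statements on generators (helper399)

Over `TDef_414` (`C : Chn b p S`, `P : TPack C M R G`) and a limit channel
`K : Chan566.Chan S (Pos p) (C.Fx M G)` of helper566 which matches it (`Match`):

* `CoreT`, `SuppT`, `RadT`, `GramT`, `DualT` : the statements (T1)-(T5) on generators.
* `ChartT` : charts exist at every regular position.
* `e₀`, `eX` : the limit vectors.
* `isChan_TT` : 441's `IsChan` for `XX`, `DD`, `WW`, `TT` of helper414.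
* `isLim_TT` : 441's `IsLim` for `XX`, from `IsLim` of the symmetric test space.
* `chanOf` : the bundled channel.
-/

set_option autoImplicit false
set_option linter.unusedSectionVars false

open MeasureTheory Filter Topology Crest.MathPhysics.MatrixQM
open scoped ContDiff InnerProductSpace ENNReal

noncomputable section

namespace Crest.Agent.R330.ChSys399

open Crest.Agent.R330.Defs478 Crest.Agent.R330.TDef414 Crest.Agent.R330.FreeX399
  Crest.Agent.R330.FreeY399 Crest.Agent.R330.Chan441 Crest.Agent.R330.TrialSys796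

/-! ## symmetrised vectors of a channel -/

section gen

variable {S : Type*} [Group S] [Fintype S]
variable {E : Type*} [NormedAddCommGroup E] [InnerProductSpace ℝ E] [FiniteDimensional ℝ E]
  [MeasurableSpace E] [BorelSpace E]
variable {F : Type*} [NormedAddCommGroup F] [InnerProductSpace ℂ F] [FiniteDimensional ℂ F]
variable (K : Chan566.Chan S E F)

/-- Gram matrix of symmetrised vectors. -/
theorem inner_sym {ψ ψ' : E → F} (h : K.Test ψ) (h' : K.Test ψ') :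
    ⟪FreeC399.kap S • K.e (K.sym h), FreeC399.kap S • K.e (K.sym h')⟫_ℂ =
      ∑ s, ∫ x, ⟪ψ x, K.tr s ψ' x⟫_ℂ := by
  obtain ⟨r₁, hr₁⟩ := h.cpt.isCompact.isBounded.subset_ball (0 : E)
  obtain ⟨r₂, hr₂⟩ := h'.cpt.isCompact.isBounded.subset_ball (0 : E)
  let r : E → ℝ := fun _ => max r₁ r₂
  let γ : FreeC399.Gen K Set.univ r := ⟨0, ψ, Set.mem_univ _, h, hr₁.trans
    (Metric.ball_subset_ball (le_max_left _ _))⟩
  let γ' : FreeC399.Gen K Set.univ r := ⟨0, ψ', Set.mem_univ _, h', hr₂.trans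
    (Metric.ball_subset_ball (le_max_right _ _))⟩
  exact FreeC399.inner_e₀ K Set.univ r γ γ'

variable {Γ : Type*} (f : Γ → E → F) (hf : ∀ γ, K.Test (f γ))

/-- limit vectors of an arbitrary family of test functions -/
def e₁ (γ : Γ) : K.L := FreeC399.kap S • K.e (K.sym (hf γ))

/-- the intertwiner onto the symmetric test space -/
def pr : (Γ →₀ ℂ) →ₗ[ℂ] K.X :=
  Finsupp.linearCombination ℂ fun γ : Γ => FreeC399.kap S • K.sym (hf γ)

theorem pr_single (γ : Γ) (a : ℂ) :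
    pr K f hf (Finsupp.single γ a) = a • FreeC399.kap S • K.sym (hf γ) := by
  simp [pr]

theorem pr_e (χ : Γ →₀ ℂ) : eF (e₁ K f hf) χ = K.e (pr K f hf χ) := by
  rw [eF_eq, pr, Finsupp.linearCombination_apply, Finsupp.sum, map_sum]
  refine Finset.sum_congr rfl fun γ _ => ?_
  rw [map_smul, map_smul]
  rfl

theorem ext_gen {X : Type*} [AddCommGroup X] [Module ℂ X] {f g : (Γ →₀ ℂ) →ₗ[ℂ] X}
    (h : ∀ γ, f (Finsupp.single γ 1) = g (Finsupp.single γ 1)) : f = g :=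
  Finsupp.lhom_ext' fun γ => LinearMap.ext_ring (by simpa using h γ)

theorem sym_congr {ψ ψ' : E → F} (h : K.Test ψ) (h' : K.Test ψ') (he : ψ = ψ') :
    K.sym h = K.sym h' := by
  subst he
  rfl

theorem pr_D (m : ℝ) (α : Fin 16) (D₀ : Γ → Γ) (hD : ∀ γ, f (D₀ γ) = (K.Q m α).op (f γ))
    (χ : Γ →₀ ℂ) : pr K f hf (MF D₀ χ) = K.D m α (pr K f hf χ) := by
  have h1 : (pr K f hf) ∘ₗ (MF D₀) = (K.D m α) ∘ₗ (pr K f hf) := by
    refine ext_gen fun γ => ?_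
    rw [LinearMap.comp_apply, LinearMap.comp_apply, MF_single, pr_single, pr_single, map_smul,
      map_smul, K.D_sym, sym_congr K (hf (D₀ γ)) ((hf γ).op m α) (hD γ)]
  exact LinearMap.congr_fun h1 χ

theorem pr_W {w : ℝ → ℝ} (hw : ContDiff ℝ ∞ w) (W₀ : Γ → Γ)
    (hW : ∀ γ, f (W₀ γ) = fun x => w (‖x‖ ^ 2) • f γ x) (χ : Γ →₀ ℂ) :
    pr K f hf (MF W₀ χ) = K.W w hw (pr K f hf χ) := by
  have h1 : (pr K f hf) ∘ₗ (MF W₀) = (K.W w hw) ∘ₗ (pr K f hf) := by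
    refine ext_gen fun γ => ?_
    rw [LinearMap.comp_apply, LinearMap.comp_apply, MF_single, pr_single, pr_single, map_smul,
      map_smul, FreeC399.W_sym K hw,
      sym_congr K (hf (W₀ γ)) (FreeC399.Gen.test_wm hw (hf γ)) (hW γ)]
  exact LinearMap.congr_fun h1 χ


/-- surjectivity from finite decompositions -/
theorem pr_surj_of (h : ∀ χ : K.X, ∃ (κ : Type) (s : Finset κ) (γ : κ → Γ),
    ∀ x, χ.1 x = ∑ i ∈ s, f (γ i) x) : Function.Surjective (pr K f hf) := by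
  intro χ
  obtain ⟨κ, s, γ, h1⟩ := h χ
  refine ⟨∑ i ∈ s, Finsupp.single (γ i) (FreeC399.kap S)⁻¹, ?_⟩
  rw [map_sum]
  have h2 : ∀ i, pr K f hf (Finsupp.single (γ i) (FreeC399.kap S)⁻¹) = K.sym (hf (γ i)) :=
    fun i => by rw [pr_single, smul_smul, inv_mul_cancel₀ FreeC399.kap_ne, one_smul]
  simp only [h2]
  apply Subtype.ext
  have h3 : ((∑ i ∈ s, K.sym (hf (γ i)) : K.X) : E → F) = ∑ i ∈ s, K.avg (f (γ i)) := by
    rw [AddSubmonoidClass.coe_finsetSum]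
    rfl
  rw [h3]
  funext x
  rw [Finset.sum_apply]
  have h4 : K.avg χ.1 x = χ.1 x := by
    have hc : ((Fintype.card S : ℝ)) ≠ 0 := by
      exact_mod_cast (Fintype.card_pos (α := S)).ne'
    rw [Chan566.Chan.avg]
    simp only [K.tr_of_eqv χ.2.2]
    rw [Finset.sum_const, Finset.card_univ, ← Nat.cast_smul_eq_nsmul ℝ, smul_smul,
      inv_mul_cancel₀ hc, one_smul]
  rw [← h4]
  simp only [Chan566.Chan.avg, Chan566.Chan.tr]
  rw [← Finset.smul_sum, Finset.sum_comm]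
  congr 1
  refine Finset.sum_congr rfl fun s _ => ?_
  rw [h1, map_sum]

end gen

/-! ## the channel -/

variable {N p : ℕ} {b : ColorBasis N} {S : Type} [Group S] [Fintype S] {C : Chn b p S}
variable {F : Type} [NormedAddCommGroup F] [InnerProductSpace ℂ F] [FiniteDimensional ℂ F]
variable {M : FermionRep N F} {R : GaugeAction b M} {G : GammaNine}

/-- The limit channel matches the geometry. -/
structure Match (R : GaugeAction b M) (K : Chan566.Chan S (Pos p) (C.Fx M G)) : Prop where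
  hO : ∀ s X, K.O s X = C.O s X
  hU : ∀ s (f : C.Fx M G), ((K.U s f : C.Fx M G) : F) = R.ρ (C.w s) (f : F)
  hZ : ∀ X, X ∈ K.Z ↔ ¬ C.BReg X
  hQ : ∀ m α (ψ : Pos p → C.Fx M G), ContDiff ℝ ∞ ψ → (K.Q m α).op ψ = C.Dx M G m α ψ

/-- (T1) core vectors. -/
def CoreT (P : TPack C M R G) : Prop :=
  ∀ (σ : Sl C) (χ : Amp M G σ), ∀ᶠ g in atTop, IsCoreVec b R (Tgen P σ g χ.fn)

/-- (T1) supports. -/
def SuppT (P : TPack C M R G) : Prop :=
  ∀ (σ : Sl C) (χ : Amp M G σ), ∃ δ ρ : ℝ, 0 < δ ∧ ∀ᶠ g in atTop, ∀ x,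
    Tgen P σ g χ.fn x ≠ 0 → δ ≤ ‖x‖ ∧ ‖x‖ ≤ ρ

/-- (T2) radial multiplication. -/
def RadT (P : TPack C M R G) : Prop :=
  ∀ (σ : Sl C) (χ : Amp M G σ) (w : ℝ → ℝ), ContDiff ℝ ∞ w → Tendsto (fun g =>
    ∫ x, ‖Tgen P σ g (χ.W w).fn x - ((w (‖x‖ ^ 2) : ℝ) : ℂ) • Tgen P σ g χ.fn x‖ ^ 2) atTop (𝓝 0)

/-- (T3), (T4) Gram matrix. -/
def GramT (P : TPack C M R G) : Prop :=
  ∀ (σ σ' : Sl C) (χ : Amp M G σ) (χ' : Amp M G σ'), Tendsto (fun g =>
    ∫ x, ⟪Tgen P σ g χ.fn x, Tgen P σ' g χ'.fn x⟫_ℂ) atTop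
      (𝓝 (∑ s, ∫ X, ⟪R.ρ (C.w s) (χ.fn X : F), (χ'.fn (C.O s X) : F)⟫_ℂ))

/-- (T5) the dual estimate. -/
def DualT (P : TPack C M R G) : Prop :=
  ∀ m : ℝ, m = 0 ∨ m = 1 → ∀ (σ : Sl C) (χ : Amp M G σ) (α : Fin 16), ∀ ε : ℝ, 0 < ε →
    ∀ᶠ g in atTop, ∀ φ : Cfg N → F, IsCoreVec b R φ →
      ‖∫ x, ⟪φ x, dcharge b M G g m α (Tgen P σ g χ.fn) x -
        Tgen P σ g (C.Dx M G m α χ.fn) x⟫_ℂ‖ ≤ ε * Real.sqrt (En b M G g m φ)

/-- Charts exist. -/
def ChartT (C : Chn b p S) : Prop := ∀ X0 : Pos p, C.BReg X0 → ∃ σ : Sl C, σ.X0 = X0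

variable {K : Chan566.Chan S (Pos p) (C.Fx M G)}

/-- The amplitude of a generator is a test function of the limit channel. -/
theorem Match.test (hM : Match R K) (q : TDef414.Gen C M G) : K.Test q.2.fn where
  smooth := q.2.smooth
  cpt := q.2.compact
  off x hx := by
    rw [hM.hZ, not_not]
    exact q.2.off x hx

/-- The limit vector of a generator. -/
def e₀ (hM : Match R K) : TDef414.Gen C M G → K.L := e₁ K (fun q => q.2.fn) hM.test

/-- The limit vectors of the test space. -/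
def eX (hM : Match R K) : XX C M G →ₗ[ℂ] K.L := eF (e₀ hM)

theorem gram_e₀ (hM : Match R K) (q q' : TDef414.Gen C M G) :
    ⟪e₀ hM q, e₀ hM q'⟫_ℂ =
      ∑ s, ∫ X, ⟪R.ρ (C.w s) (q.2.fn X : F), (q'.2.fn (C.O s X) : F)⟫_ℂ := by
  refine (inner_sym K (hM.test q) (hM.test q')).trans (Finset.sum_congr rfl fun s _ => ?_)
  refine integral_congr_ae (Eventually.of_forall fun x => ?_)
  show ⟪q.2.fn x, K.U s⁻¹ (q'.2.fn (K.O s x))⟫_ℂ = _
  have h1 : ⟪q.2.fn x, K.U s⁻¹ (q'.2.fn (K.O s x))⟫_ℂ =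
      ⟪K.U s (q.2.fn x), q'.2.fn (K.O s x)⟫_ℂ := by
    rw [← (K.U s).inner_map_map (q.2.fn x), K.U_inv']
  rw [h1, Submodule.coe_inner, hM.hU, hM.hO]

/-- The statements on generators. -/
theorem isGenCh (P : TPack C M R G) (hM : Match R K) (hC : CoreT P) (hS : SuppT P) (hR : RadT P)
    (hG : GramT P) (hD : DualT P) :
    IsGenCh b M R G (e₀ hM) (fun m α (q : TDef414.Gen C M G) => ⟨q.1, q.2.D m α⟩)
      (fun w q => ⟨q.1, q.2.W w⟩) (fun g q => Tgen P q.1 g q.2.fn) where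
  core q := hC q.1 q.2
  supp q := hS q.1 q.2
  iso q q' := by
    rw [gram_e₀]
    exact hG q.1 q'.1 q.2 q'.2
  dual m hm q α ε hε := hD m hm q.1 q.2 α ε hε
  rad w hw q := hR q.1 q.2 w hw

/-- **`IsChan` of the channel.** -/
theorem isChan_TT (P : TPack C M R G) (hM : Match R K) (hC : CoreT P) (hS : SuppT P)
    (hR : RadT P) (hG : GramT P) (hD : DualT P) :
    IsChan b M R G (L := K.L) (eX hM) (DD C M G) (WW C M G) (fun g χ => TT P g χ) :=
  isChan_free (isGenCh P hM hC hS hR hG hD)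

theorem surj_TT (hM : Match R K) (hCh : ChartT C) :
    Function.Surjective (pr K (fun q : TDef414.Gen C M G => q.2.fn) hM.test) := by
  refine pr_surj_of K _ _ fun χ => ?_
  have h1 : ∀ X0 : {X : Pos p // C.BReg X}, ∃ σ : Sl C, σ.X0 = X0.1 := fun X0 => hCh X0.1 X0.2
  choose σ hσ using h1
  have hcov : tsupport χ.1 ⊆ ⋃ X0 : {X : Pos p // C.BReg X},
      Metric.ball (X0 : Pos p) ((σ X0).r / 4) := by
    intro x hx
    have hx1 : C.BReg x := by
      have := χ.2.1.off x hx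
      rwa [hM.hZ, not_not] at this
    have hr : 0 < (σ ⟨x, hx1⟩).r / 4 := by
      have := (σ ⟨x, hx1⟩).pos
      positivity
    exact Set.mem_iUnion.2 ⟨⟨x, hx1⟩, Metric.mem_ball_self hr⟩
  obtain ⟨s, ψ, h2, h3, h4, h5⟩ := Pou365.exists_rep
    (U := fun X0 : {X : Pos p // C.BReg X} => Metric.ball (X0 : Pos p) ((σ X0).r / 4))
    (fun X0 => Metric.isOpen_ball) χ.2.1.smooth χ.2.1.cpt hcov
  refine ⟨_, s, fun X0 => ⟨σ X0, ⟨ψ X0, h2 X0, ?_, fun X hX => ?_⟩⟩, h5⟩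
  · rw [hσ X0]
    exact (h4 X0).trans Set.inter_subset_left
  · have := χ.2.1.off X (h4 X0 hX).2
    rwa [hM.hZ, not_not] at this

theorem sq_TT (hM : Match R K)
    (hsq : ∀ (α β : Fin 16) (ψ : Pos p → C.Fx M G), ContDiff ℝ ∞ ψ →
      (K.Q 0 α).op ((K.Q 0 α).op ψ) = (K.Q 0 β).op ((K.Q 0 β).op ψ))
    (α β : Fin 16) (χ : XX C M G) :
    DD C M G 0 α (DD C M G 0 α χ) = DD C M G 0 β (DD C M G 0 β χ) := by
  have h0 : ∀ (σ : Sl C) (χ : Amp M G σ), (χ.D 0 α).D 0 α = (χ.D 0 β).D 0 β := by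
    intro σ χ
    have h1 : ∀ α, C.Dx M G 0 α (C.Dx M G 0 α χ.fn) = (K.Q 0 α).op ((K.Q 0 α).op χ.fn) := by
      intro α
      rw [hM.hQ 0 α χ.fn χ.smooth]
      exact (hM.hQ 0 α _ (χ.D 0 α).smooth).symm
    have h2 : C.Dx M G 0 α (C.Dx M G 0 α χ.fn) = C.Dx M G 0 β (C.Dx M G 0 β χ.fn) := by
      rw [h1, h1, hsq α β χ.fn χ.smooth]
    simp only [Amp.D, Amp.mk.injEq]
    exact h2
  have h1 : (DD C M G 0 α) ∘ₗ (DD C M G 0 α) = (DD C M G 0 β) ∘ₗ (DD C M G 0 β) := by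
    refine ext_gen fun q => ?_
    obtain ⟨σ, χ⟩ := q
    have h2 : ∀ γ : Fin 16, ((DD C M G 0 γ) ∘ₗ (DD C M G 0 γ)) (Finsupp.single ⟨σ, χ⟩ 1) =
        gen σ ((χ.D 0 γ).D 0 γ) := fun γ => by
      rw [LinearMap.comp_apply]
      exact (congrArg _ (DD_gen 0 γ σ χ)).trans (DD_gen 0 γ σ _)
    rw [h2, h2, h0]
  exact LinearMap.congr_fun h1 χ

/-- **`IsLim` of the channel.** -/
theorem isLim_TT (hM : Match R K) (hCh : ChartT C)
    {W : (ℝ → ℝ) → K.X →ₗ[ℂ] K.X} {K0 : Submodule ℂ K.L} {d : ℕ}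
    (hW : ∀ (w : ℝ → ℝ) (hw : ContDiff ℝ ∞ w), W w = K.W w hw)
    (hsq : ∀ (α β : Fin 16) (ψ : Pos p → C.Fx M G), ContDiff ℝ ∞ ψ →
      (K.Q 0 α).op ((K.Q 0 α).op ψ) = (K.Q 0 β).op ((K.Q 0 β).op ψ))
    (h : IsLim (L := K.L) K.e K.D W K0 d) :
    IsLim (L := K.L) (eX hM) (DD C M G) (WW C M G) K0 d :=
  isLim_pull (pr K (fun q : TDef414.Gen C M G => q.2.fn) hM.test) (surj_TT hM hCh)
    (pr_e K _ _)
    (fun m α χ => pr_D K _ _ m α _ (fun q => (hM.hQ m α q.2.fn q.2.smooth).symm) χ)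
    (fun w hw χ => by
      rw [hW w hw]
      refine pr_W K _ _ hw _ (fun q => ?_) χ
      funext X
      exact (if_pos hw).trans (Complex.coe_smul _ _))
    (sq_TT hM hsq) h

/-- **The bundled channel.** -/
def chanOf (P : TPack C M R G) (hM : Match R K) (hCh : ChartT C) (hC : CoreT P) (hS : SuppT P)
    (hR : RadT P) (hG : GramT P) (hD : DualT P) {W : (ℝ → ℝ) → K.X →ₗ[ℂ] K.X}
    {K0 : Submodule ℂ K.L}
    (hW : ∀ (w : ℝ → ℝ) (hw : ContDiff ℝ ∞ w), W w = K.W w hw)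
    (hsq : ∀ (α β : Fin 16) (ψ : Pos p → C.Fx M G), ContDiff ℝ ∞ ψ →
      (K.Q 0 α).op ((K.Q 0 α).op ψ) = (K.Q 0 β).op ((K.Q 0 β).op ψ))
    (h : IsLim (L := K.L) K.e K.D W K0 1) : Chan441.Chan b M R G where
  L := K.L
  nL := inferInstance
  iL := inferInstance
  cL := inferInstance
  X := XX C M G
  aX := inferInstance
  mX := inferInstance
  e := eX hM
  D := DD C M G
  W := WW C M G
  T := fun g χ => TT P g χ
  K0 := K0
  lim := isLim_TT hM hCh hW hsq h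
  chan := isChan_TT P hM hC hS hR hG hD

end Crest.Agent.R330.ChSys399
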