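import Crest.Agent.R330.SInd_478
import Crest.Agent.R330.Ovl2_693
import Crest.Agent.R330.Ims_714

/-!
# Row 330: the fermion parity (helper478)

`IsParity M G P` (`SInd_478`): `P` anticommutes with the generators and fixes the reference vacua.

* `exists_gvac` : a reference vacuum exists.
* `schur` : an operator which commutes with the generators is a scalar.
* `IsParity.sq`, `IsParity.iso`, `IsParity.rho` : `P² = 1`, `P` unitary, `P ρ(g) = ρ(g) P`.
* `IsParity.even_of_anti` : the vacua of every complex structure which anticommutes with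
  `(γ⁴ γ⁵ γ⁶) ⊗ 1` are even (overlap trick of helper693).
* `core_P`, `dcharge_P`, `qf_P`, `zset_P` : parity on wave functions.
-/

set_option autoImplicit false
set_option linter.unusedSectionVars false

open MeasureTheory Filter Topology Crest.MathPhysics.MatrixQM
open scoped ContDiff InnerProductSpace ENNReal

noncomputable section

namespace Crest.Agent.R330.Par478

open Crest.Agent.R330.Defs478 Crest.Agent.R330.SInd478 Crest.Agent.R330.Om0331
  Crest.Agent.R330.Ovl693

variable {N : ℕ} {F : Type*} [NormedAddCommGroup F] [InnerProductSpace ℂ F]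
  [FiniteDimensional ℂ F] {b : ColorBasis N} {M : FermionRep N F} {G : GammaNine}

/-! ## reference vacua -/

theorem isGVac_iff {Ω : F} :
    IsGVac M G Ω ↔ Neut45.IsVac (tht M) (tens N (-Gam G)) Ω := by
  have h : ∀ (α : Fin 16) (A : Fin (N ^ 2 - 1)),
      -Complex.I • ∑ l : Idx N, ((tens N (-Gam G) l (α, A) : ℝ) : ℂ) • tht M l Ω =
        Complex.I • ∑ β : Fin 16, ((Gam G β α : ℝ) : ℂ) • M.θ β A Ω := by
    intro α A
    rw [Fintype.sum_prod_type, neg_smul, ← smul_neg]
    congr 1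
    rw [← Finset.sum_neg_distrib]
    refine Finset.sum_congr rfl fun β _ => ?_
    rw [Finset.sum_eq_single A]
    · simp [tens, tht]
    · intro B _ hB
      simp [tens, hB]
    · intro h
      exact absurd (Finset.mem_univ _) h
  constructor
  · rintro h1 ⟨α, A⟩
    rw [h α A]
    exact h1 α A
  · intro h1 α A
    rw [← h α A]
    exact h1 (α, A)

theorem gam_transpose (G : GammaNine) : (Gam G).transpose = -Gam G :=
  triple_transpose G (by decide) (by decide) (by decide)

theorem tensGam_sq (N : ℕ) (G : GammaNine) : tens N (-Gam G) * tens N (-Gam G) = -1 := by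
  rw [tens_mul, neg_mul_neg, Gam_sq, tens_neg, tens_one]

theorem tensGam_transpose (N : ℕ) (G : GammaNine) :
    (tens N (-Gam G)).transpose = -tens N (-Gam G) := by
  rw [tens_transpose, Matrix.transpose_neg, gam_transpose, ← tens_neg]




variable (M G) in
/-- **A reference vacuum exists.** -/
theorem exists_gvac [Nontrivial F] : ∃ Ω : F, Ω ≠ 0 ∧ IsGVac M G Ω := by
  obtain ⟨Ω, h0, h⟩ := Neut45.exists_vac (cliff_tht M) (tensGam_transpose N G) (tensGam_sq N G)
  exact ⟨Ω, h0, isGVac_iff.2 h⟩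

theorem gvac_rho (R : GaugeAction b M) {Ω : F} (h : IsGVac M G Ω)
    (g : Matrix.specialUnitaryGroup (Fin N) ℂ) : IsGVac M G (R.ρ g Ω) :=
  isGVac_iff.2 (rho_vac R (fun g => tens_comm_adI b (-Gam G) g) g (isGVac_iff.1 h))

/-- **Schur.** -/
theorem schur [Nontrivial F] {T : F →ₗ[ℂ] F} (hT : ∀ α A v, T (M.θ α A v) = M.θ α A (T v)) :
    ∃ c : ℂ, ∀ v, T v = c • v := by
  obtain ⟨c, hc⟩ := Module.End.exists_eigenvalue T
  obtain ⟨v, hv⟩ := hc.exists_hasEigenvector
  refine ⟨c, fun w => ?_⟩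
  have h1 := M.irreducible (Module.End.eigenspace T c) fun α A w hw => by
    rw [Module.End.mem_eigenspace_iff] at hw ⊢
    rw [hT, hw, map_smul]
  rcases h1 with h1 | h1
  · exact absurd h1 hc
  · exact Module.End.mem_eigenspace_iff.1 (h1 ▸ Submodule.mem_top : w ∈ _)

/-! ## algebra of the parity -/

section par

variable [Nontrivial F] {P : F →ₗ[ℂ] F} (hP : IsParity M G P)

include hP in
theorem _root_.Crest.Agent.R330.SInd478.IsParity.sq (v : F) : P (P v) = v := by
  obtain ⟨Ω, h0, h⟩ := exists_gvac M G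
  obtain ⟨c, hc⟩ := schur (M := M) (T := P ∘ₗ P) fun α A v => by
    simp only [LinearMap.comp_apply]
    rw [hP.anti, map_neg, hP.anti, neg_neg]
  have h1 := hc Ω
  simp only [LinearMap.comp_apply] at h1
  rw [hP.vac Ω h, hP.vac Ω h] at h1
  have h2 : c = 1 := by
    by_contra hne
    have h3 : (c - 1) • Ω = 0 := by rw [sub_smul, one_smul, ← h1, sub_self]
    rcases smul_eq_zero.1 h3 with h4 | h4
    · exact hne (sub_eq_zero.1 h4)
    · exact h0 h4
  have h3 := hc v
  rw [h2, one_smul] at h3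
  exact h3

include hP in
theorem _root_.Crest.Agent.R330.SInd478.IsParity.iso (v w : F) : ⟪P v, P w⟫_ℂ = ⟪v, w⟫_ℂ := by
  obtain ⟨Ω, h0, h⟩ := exists_gvac M G
  have hadj : ∀ α A v, LinearMap.adjoint P (M.θ α A v) = -M.θ α A (LinearMap.adjoint P v) := by
    intro α A v
    refine ext_inner_right ℂ fun w => ?_
    rw [LinearMap.adjoint_inner_left, M.selfAdjoint, inner_neg_left, M.selfAdjoint,
      LinearMap.adjoint_inner_left, hP.anti, inner_neg_right, neg_neg]
  obtain ⟨c, hc⟩ := schur (M := M) (T := LinearMap.adjoint P ∘ₗ P) fun α A v => by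
    simp only [LinearMap.comp_apply]
    rw [hP.anti, map_neg, hadj, neg_neg]
  have h1 : ∀ v w, ⟪P v, P w⟫_ℂ = c * ⟪v, w⟫_ℂ := by
    intro v w
    have h2 := hc w
    simp only [LinearMap.comp_apply] at h2
    rw [← LinearMap.adjoint_inner_right, h2, inner_smul_right]
  have h2 := h1 Ω Ω
  rw [hP.vac Ω h] at h2
  have h3 : (⟪Ω, Ω⟫_ℂ : ℂ) ≠ 0 := inner_self_ne_zero.2 h0
  have h4 : c = 1 := by
    have h5 : (1 - c) * ⟪Ω, Ω⟫_ℂ = 0 := by rw [sub_mul, one_mul, ← h2, sub_self]
    rcases mul_eq_zero.1 h5 with h6 | h6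
    · exact (sub_eq_zero.1 h6).symm
    · exact absurd h6 h3
  rw [h1, h4, one_mul]

include hP in
theorem _root_.Crest.Agent.R330.SInd478.IsParity.norm (v : F) : ‖P v‖ = ‖v‖ := by
  have h1 := hP.iso v v
  rw [inner_self_eq_norm_sq_to_K, inner_self_eq_norm_sq_to_K] at h1
  have h2 : ‖P v‖ ^ 2 = ‖v‖ ^ 2 := by exact_mod_cast h1
  exact (pow_left_inj₀ (norm_nonneg _) (norm_nonneg _) two_ne_zero).1 h2

include hP in
theorem _root_.Crest.Agent.R330.SInd478.IsParity.rho (R : GaugeAction b M)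
    (g : Matrix.specialUnitaryGroup (Fin N) ℂ) (v : F) : P (R.ρ g v) = R.ρ g (P v) := by
  obtain ⟨Ω, h0, h⟩ := exists_gvac M G
  have e1 : ∀ w : F, R.ρ g (R.ρ g⁻¹ w) = w := by
    intro w
    have : (R.ρ g * R.ρ g⁻¹) w = w := by rw [← map_mul, mul_inv_cancel, map_one]; rfl
    exact this
  have e2 : ∀ w : F, R.ρ g⁻¹ (R.ρ g w) = w := by
    intro w
    have : (R.ρ g⁻¹ * R.ρ g) w = w := by rw [← map_mul, inv_mul_cancel, map_one]; rfl
    exact this
  have hint : ∀ α A (w : F), R.ρ g (M.θ α A w) =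
      ∑ B, (b.adjMat g B A : ℂ) • M.θ α B (R.ρ g w) := by
    intro α A w
    have h1 := LinearMap.congr_fun (R.intertwine g α A) w
    simpa only [LinearMap.comp_apply, LinearMap.sum_apply, LinearMap.smul_apply] using h1
  set S : F →ₗ[ℂ] F := R.ρ g⁻¹ ∘ₗ P ∘ₗ R.ρ g with hS
  have hSa : ∀ w, R.ρ g (S w) = P (R.ρ g w) := fun w => by
    simp only [hS, LinearMap.comp_apply]
    rw [e1]
  have hanti : ∀ α A w, S (M.θ α A w) = -M.θ α A (S w) := by
    intro α A w
    have h2 : R.ρ g (S (M.θ α A w)) = R.ρ g (-M.θ α A (S w)) := by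
      rw [hSa, hint, map_sum, map_neg, hint, ← Finset.sum_neg_distrib]
      refine Finset.sum_congr rfl fun B _ => ?_
      rw [map_smul, hP.anti, hSa, smul_neg]
    rw [← e2 (S (M.θ α A w)), h2, e2]
  obtain ⟨c, hc⟩ := schur (M := M) (T := S ∘ₗ P) fun α A v => by
    simp only [LinearMap.comp_apply]
    rw [hP.anti, map_neg, hanti, neg_neg]
  have h1 := hc Ω
  simp only [LinearMap.comp_apply] at h1
  have h2 : S Ω = Ω := by
    simp only [hS, LinearMap.comp_apply]
    rw [hP.vac _ (gvac_rho R h g), e2]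
  rw [hP.vac Ω h, h2] at h1
  have h3 : c = 1 := by
    by_contra hne
    have h3 : (c - 1) • Ω = 0 := by rw [sub_smul, one_smul, ← h1, sub_self]
    rcases smul_eq_zero.1 h3 with h4 | h4
    · exact hne (sub_eq_zero.1 h4)
    · exact h0 h4
  have h4 := hc (P v)
  simp only [LinearMap.comp_apply] at h4
  rw [hP.sq, h3, one_smul] at h4
  rw [← h4, hSa]


end par

/-! ## wave functions -/

theorem fderiv_P (P : F →ₗ[ℂ] F) {φ : Cfg N → F} {x : Cfg N} (hφ : DifferentiableAt ℝ φ x)
    (v : Cfg N) : fderiv ℝ (fun y => P (φ y)) x v = P (fderiv ℝ φ x v) := by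
  have h1 : HasFDerivAt (fun y => P (φ y))
      (((LinearMap.toContinuousLinearMap P).restrictScalars ℝ).comp (fderiv ℝ φ x)) x :=
    ((LinearMap.toContinuousLinearMap P).restrictScalars ℝ).hasFDerivAt.comp x hφ.hasFDerivAt
  rw [h1.fderiv]
  rfl

theorem dcharge_P (b : ColorBasis N) {P : F →ₗ[ℂ] F} (hP : ∀ α A v, P (M.θ α A v) = -M.θ α A (P v))
    (g m : ℝ) (α : Fin 16) {φ : Cfg N → F} {x : Cfg N} (hφ : DifferentiableAt ℝ φ x) :
    dcharge b M G g m α (fun y => P (φ y)) x = -P (dcharge b M G g m α φ x) := by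
  unfold dcharge kin
  simp only [fderiv_P P hφ, map_add, map_sum, map_smul, hP, smul_neg, Finset.sum_neg_distrib,
    neg_neg, neg_add]

theorem core_P {P : F →ₗ[ℂ] F} {R : GaugeAction b M}
    (hr : ∀ g v, P (R.ρ g v) = R.ρ g (P v)) {φ : Cfg N → F} (hφ : IsCoreVec b R φ) :
    IsCoreVec b R fun x => P (φ x) := by
  refine ⟨?_, ?_, fun g x => ?_⟩
  · exact ((LinearMap.toContinuousLinearMap P).restrictScalars ℝ).contDiff.comp hφ.1
  · exact hφ.2.1.comp_left (map_zero P)
  · show P (φ (b.act g x)) = R.ρ g (P (φ x))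
    rw [hφ.2.2, hr]


theorem eLpNorm_P [Nontrivial F] {P : F →ₗ[ℂ] F} (hP : IsParity M G P) (φ : Cfg N → F) :
    eLpNorm (fun y => P (φ y)) 2 volume = eLpNorm φ 2 volume :=
  eLpNorm_congr_norm_ae (Eventually.of_forall fun _ => hP.norm _)

theorem zset_P [Nontrivial F] {P : F →ₗ[ℂ] F} (hP : IsParity M G P) {R : GaugeAction b M}
    {g m : ℝ} {ψ : Cfg N → F} (hψ : ψ ∈ zset b M R G g m) :
    (fun x => P (ψ x)) ∈ zset b M R G g m := by
  obtain ⟨h1, φ, hφ, h2, h3⟩ := hψ
  refine ⟨?_, fun n x => P (φ n x), fun n => core_P (hP.rho R) (hφ n), ?_, fun α => ?_⟩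
  · exact ((LinearMap.toContinuousLinearMap P).comp_memLp' h1)
  · have h4 : ∀ n, eLpNorm ((fun x => P (φ n x)) - fun x => P (ψ x)) 2 volume =
        eLpNorm (φ n - ψ) 2 volume := fun n => by
      rw [← eLpNorm_P hP (φ n - ψ)]
      refine eLpNorm_congr_ae (Eventually.of_forall fun x => ?_)
      simp only [Pi.sub_apply, map_sub]
    simpa only [h4] using h2
  · have h4 : ∀ n, eLpNorm (dcharge b M G g m α fun x => P (φ n x)) 2 volume =
        eLpNorm (dcharge b M G g m α (φ n)) 2 volume := fun n => by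
      refine eLpNorm_congr_norm_ae (Eventually.of_forall fun x => ?_)
      rw [dcharge_P b hP.anti g m α (cv_diff (hφ n) x), norm_neg, hP.norm]
    simpa only [h4] using h3 α

end Crest.Agent.R330.Par478

end
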