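import Mathlib
import Crest.Agent.R330.Free_122
import Crest.Agent.R330.Chan_566
import Crest.Agent.R330.TDef_414
import Crest.Agent.R330.FactI_161
import Crest.Agent.R330.Par_478
import Crest.Agent.R330.FactG_161

-- ▼ part R330/FreeQ_122
section

/-!
Row 330 (helper122): the free charges as first order expressions (`FOp` of 596), covariance under
the symmetries of the positions, squares of the massless charges.
-/

set_option autoImplicit false
set_option linter.unusedSectionVars false

noncomputable section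

namespace Crest.Agent.R330.FreeQ122

open MeasureTheory Filter Topology Crest.MathPhysics.MatrixQM Crest.Agent.R330.IBP837
  Crest.Agent.R330.FreeB122 Crest.Agent.R330.FreeC122 Crest.Agent.R330.FreeD122
  Crest.Agent.R330.FreeE122 Crest.Agent.R330.Defs478 Crest.Agent.R330.Free122
  Crest.Agent.R330.WS596
open scoped ContDiff InnerProductSpace ENNReal

variable {p : ℕ} {F : Type*} [NormedAddCommGroup F] [InnerProductSpace ℂ F]
  [FiniteDimensional ℂ F] (L : Light p F) (G : GammaNine)

/-- a complex linear map of the finite dimensional space as a real continuous linear map -/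
def rl (T : F →ₗ[ℂ] F) : F →L[ℝ] F := (LinearMap.toContinuousLinearMap T).restrictScalars ℝ

@[simp] theorem rl_apply (T : F →ₗ[ℂ] F) (v : F) : rl T v = T v := rfl

/-- the kinetic symbol of the charge -/
def kA (α : Fin 16) (k : Fin 9 × Fin p) : F →ₗ[ℂ] F :=
  ∑ β, (-Complex.I * (G.γ k.1 α β : ℂ)) • L.θ β k.2

/-- the potential matrices of the charge -/
def pV (m : ℝ) (α : Fin 16) (k : Fin 9 × Fin p) : F →ₗ[ℂ] F :=
  ∑ β, ((-(m * cc k.1 * (Gam G * G.γ k.1) α β) : ℝ) : ℂ) • L.θ β k.2

/-- the free charge as a first order expression -/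
def freeFOp (m : ℝ) (α : Fin 16) : FOp (EuclideanSpace ℝ (Fin 9 × Fin p)) F where
  A := ∑ k : Fin 9 × Fin p, (rl (kA L G α k)) ∘L
    (ContinuousLinearMap.apply ℝ F (EuclideanSpace.single k (1 : ℝ)))
  B x := ∑ k : Fin 9 × Fin p, (x k) • rl (pV L G m α k)
  contB := by
    refine continuous_finsetSum _ fun k _ => ?_
    exact ((EuclideanSpace.proj (𝕜 := ℝ) k).continuous).smul continuous_const

theorem freeFOp_A (m : ℝ) (α : Fin 16) (ℓ : EuclideanSpace ℝ (Fin 9 × Fin p) →L[ℝ] F) :
    (freeFOp L G m α).A ℓ = ∑ k, kA L G α k (ℓ (EuclideanSpace.single k 1)) := by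
  simp [freeFOp]

theorem freeFOp_B (m : ℝ) (α : Fin 16) (x : EuclideanSpace ℝ (Fin 9 × Fin p)) (v : F) :
    (freeFOp L G m α).B x v = ∑ k, ((x k : ℝ) : ℂ) • pV L G m α k v := by
  simp [freeFOp]

theorem freeFOp_op (m : ℝ) (α : Fin 16) (φ : EuclideanSpace ℝ (Fin 9 × Fin p) → F)
    (x : EuclideanSpace ℝ (Fin 9 × Fin p)) :
    (freeFOp L G m α).op φ x = freeD L G m α φ x := by
  unfold FOp.op freeD
  rw [freeFOp_A, freeFOp_B]
  congr 1
  · rw [Fintype.sum_prod_type]
    refine Finset.sum_congr rfl fun i _ => Finset.sum_congr rfl fun A _ => ?_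
    simp only [kA, LinearMap.sum_apply, LinearMap.smul_apply]
  · rw [Fintype.sum_prod_type_right]
    refine Finset.sum_congr rfl fun A _ => ?_
    simp only [pV, LinearMap.sum_apply, LinearMap.smul_apply, Finset.smul_sum, smul_smul]
    rw [Finset.sum_comm]
    refine Finset.sum_congr rfl fun β _ => ?_
    rw [← Finset.sum_smul]
    congr 1
    rw [Finset.mul_sum, ← Finset.sum_neg_distrib]
    push_cast
    refine Finset.sum_congr rfl fun j _ => ?_
    ring

theorem freeFOp_smooth (m : ℝ) (α : Fin 16) : ContDiff ℝ ∞ (freeFOp L G m α).B := by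
  show ContDiff ℝ ∞ fun x : EuclideanSpace ℝ (Fin 9 × Fin p) => ∑ k, (x k) • rl (pV L G m α k)
  apply ContDiff.sum
  intro k _
  exact ((EuclideanSpace.proj (𝕜 := ℝ) k).contDiff).smul contDiff_const

theorem freeFOp_Ac (m : ℝ) (α : Fin 16) (c : ℂ)
    (ℓ : EuclideanSpace ℝ (Fin 9 × Fin p) →L[ℝ] F) :
    (freeFOp L G m α).A (c • ℓ) = c • (freeFOp L G m α).A ℓ := by
  rw [freeFOp_A, freeFOp_A, Finset.smul_sum]
  refine Finset.sum_congr rfl fun k _ => ?_
  rw [_root_.smul_apply, map_smul]

theorem freeFOp_Bc (m : ℝ) (α : Fin 16) (x : EuclideanSpace ℝ (Fin 9 × Fin p)) (c : ℂ) (v : F) :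
    (freeFOp L G m α).B x (c • v) = c • (freeFOp L G m α).B x v := by
  rw [freeFOp_B, freeFOp_B, Finset.smul_sum]
  refine Finset.sum_congr rfl fun k _ => ?_
  rw [map_smul, smul_comm]

/-! ### symmetries -/

/-- a symmetry of the positions with its lift to the fermions -/
structure Lift (L : Light p F) (O : Matrix (Fin p) (Fin p) ℝ) (U : F ≃ₗᵢ[ℂ] F) : Prop where
  orth : O.transpose * O = 1
  cov : ∀ α a v, U (L.θ α a v) = ∑ b, ((O b a : ℝ) : ℂ) • L.θ α b (U v)

variable {L}

theorem Lift.orth' {O : Matrix (Fin p) (Fin p) ℝ} {U : F ≃ₗᵢ[ℂ] F} (h : Lift L O U) :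
    O * O.transpose = 1 := mul_eq_one_comm.mp h.orth

/-- the isometry `(x_j^a) ↦ (Σ_b O_ab x_j^b)` -/
def isoO (O : Matrix (Fin p) (Fin p) ℝ) (h : O.transpose * O = 1) :
    EuclideanSpace ℝ (Fin 9 × Fin p) ≃ₗᵢ[ℝ] EuclideanSpace ℝ (Fin 9 × Fin p) := by
  have h' : O * O.transpose = 1 := mul_eq_one_comm.mp h
  have key : ∀ (P Q : Matrix (Fin p) (Fin p) ℝ), Q * P = 1 →
      ∀ (x : EuclideanSpace ℝ (Fin 9 × Fin p)) (q : Fin 9 × Fin p),
      ∑ b, Q q.2 b * ∑ c, P b c * x (q.1, c) = x q := by
    intro P Q hQP x q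
    simp only [Finset.mul_sum]
    rw [Finset.sum_comm]
    have e : ∀ c, ∑ b, Q q.2 b * (P b c * x (q.1, c)) = (Q * P) q.2 c * x (q.1, c) := by
      intro c
      rw [Matrix.mul_apply, Finset.sum_mul]
      exact Finset.sum_congr rfl fun b _ => by ring
    simp only [e, hQP]
    simp [Matrix.one_apply, Finset.sum_ite_eq]
  exact
  { toLinearEquiv :=
    { toFun := fun x => WithLp.toLp 2 fun q => ∑ b, O q.2 b * x (q.1, b)
      map_add' := fun x y => by
        ext q
        simp [mul_add, Finset.sum_add_distrib]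
      map_smul' := fun r x => by
        ext q
        simp only [PiLp.smul_apply, smul_eq_mul, RingHom.id_apply, Finset.mul_sum]
        exact Finset.sum_congr rfl fun α _ => by ring
      invFun := fun x => WithLp.toLp 2 fun q => ∑ b, O.transpose q.2 b * x (q.1, b)
      left_inv := fun x => by
        ext q
        exact key O O.transpose h x q
      right_inv := fun x => by
        ext q
        exact key O.transpose O h' x q }
    norm_map' := fun x => by
      rw [EuclideanSpace.norm_eq, EuclideanSpace.norm_eq]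
      congr 1
      simp only [Real.norm_eq_abs, sq_abs]
      rw [Fintype.sum_prod_type, Fintype.sum_prod_type]
      refine Finset.sum_congr rfl fun j _ => ?_
      show ∑ a, (∑ b, O a b * x (j, b)) ^ 2 = ∑ a, x (j, a) ^ 2
      have e1 : ∀ a, (∑ b, O a b * x (j, b)) ^ 2 =
          ∑ b, ∑ c, (O a b * O a c) * (x (j, b) * x (j, c)) := by
        intro a
        rw [sq, Finset.sum_mul_sum]
        exact Finset.sum_congr rfl fun b _ => Finset.sum_congr rfl fun c _ => by ring
      simp only [e1]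
      rw [Finset.sum_comm]
      refine Finset.sum_congr rfl fun b _ => ?_
      rw [Finset.sum_comm]
      have e2 : ∀ c, ∑ a, O a b * O a c * (x (j, b) * x (j, c)) =
          (O.transpose * O) b c * (x (j, b) * x (j, c)) := by
        intro c
        rw [Matrix.mul_apply, Finset.sum_mul]
        rfl
      simp only [e2, h]
      simp [Matrix.one_apply, Finset.sum_ite_eq, sq] }

theorem isoO_apply (O : Matrix (Fin p) (Fin p) ℝ) (h : O.transpose * O = 1)
    (x : EuclideanSpace ℝ (Fin 9 × Fin p)) (q : Fin 9 × Fin p) :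
    isoO O h x q = ∑ b, O q.2 b * x (q.1, b) := rfl

theorem isoO_symm_apply (O : Matrix (Fin p) (Fin p) ℝ) (h : O.transpose * O = 1)
    (x : EuclideanSpace ℝ (Fin 9 × Fin p)) (q : Fin 9 × Fin p) :
    (isoO O h).symm x q = ∑ b, O b q.2 * x (q.1, b) := rfl

theorem isoO_symm_single (O : Matrix (Fin p) (Fin p) ℝ) (h : O.transpose * O = 1)
    (j : Fin 9) (a : Fin p) :
    (isoO O h).symm (EuclideanSpace.single (j, a) 1) =
      ∑ b, O a b • EuclideanSpace.single (j, b) (1 : ℝ) := by
  ext q
  rw [isoO_symm_apply]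
  simp only [WithLp.ofLp_sum, Finset.sum_apply, WithLp.ofLp_smul, Pi.smul_apply, smul_eq_mul]
  obtain ⟨i, c⟩ := q
  by_cases hi : i = j
  · subst hi
    rw [Finset.sum_eq_single a, Finset.sum_eq_single c]
    · simp
    · intro b _ hb
      simp [Ne.symm hb]
    · simp
    · intro b _ hb
      simp [hb]
    · simp
  · have h1 : ∀ b c' : Fin p, (EuclideanSpace.single (j, b) (1 : ℝ) :
        EuclideanSpace ℝ (Fin 9 × Fin p)) (i, c') = 0 := by
      intro b c'
      simp [hi]
    simp [hi]

/-- covariance of the kinetic part -/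
theorem covA {O : Matrix (Fin p) (Fin p) ℝ} {U : F ≃ₗᵢ[ℂ] F} (h : Lift L O U) (m : ℝ)
    (α : Fin 16) (ℓ : EuclideanSpace ℝ (Fin 9 × Fin p) →L[ℝ] F) :
    (freeFOp L G m α).A (Chan566.ul U ∘L ℓ ∘L
      (((isoO O h.orth).symm : EuclideanSpace ℝ (Fin 9 × Fin p) ≃ₗᵢ[ℝ] _) :
        EuclideanSpace ℝ (Fin 9 × Fin p) →L[ℝ] EuclideanSpace ℝ (Fin 9 × Fin p))) =
      U ((freeFOp L G m α).A ℓ) := by
  rw [freeFOp_A, freeFOp_A, map_sum, Fintype.sum_prod_type, Fintype.sum_prod_type]
  refine Finset.sum_congr rfl fun j _ => ?_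
  have h1 : ∀ a, kA L G α (j, a) ((Chan566.ul U ∘L ℓ ∘L
      (((isoO O h.orth).symm : EuclideanSpace ℝ (Fin 9 × Fin p) ≃ₗᵢ[ℝ] _) :
        EuclideanSpace ℝ (Fin 9 × Fin p) →L[ℝ] EuclideanSpace ℝ (Fin 9 × Fin p)))
          (EuclideanSpace.single (j, a) 1)) =
      ∑ b, ((O a b : ℝ) : ℂ) • kA L G α (j, a) (U (ℓ (EuclideanSpace.single (j, b) 1))) := by
    intro a
    have e : (Chan566.ul U ∘L ℓ ∘L
      (((isoO O h.orth).symm : EuclideanSpace ℝ (Fin 9 × Fin p) ≃ₗᵢ[ℝ] _) :
        EuclideanSpace ℝ (Fin 9 × Fin p) →L[ℝ] EuclideanSpace ℝ (Fin 9 × Fin p)))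
          (EuclideanSpace.single (j, a) 1) = U (ℓ ((isoO O h.orth).symm
            (EuclideanSpace.single (j, a) 1))) := rfl
    rw [e, isoO_symm_single, map_sum, map_sum, map_sum]
    refine Finset.sum_congr rfl fun b _ => ?_
    rw [map_smul, ← Complex.coe_smul, map_smul, map_smul]
  have h2 : ∀ b, U (kA L G α (j, b) (ℓ (EuclideanSpace.single (j, b) 1))) =
      ∑ a, ((O a b : ℝ) : ℂ) • kA L G α (j, a) (U (ℓ (EuclideanSpace.single (j, b) 1))) := by
    intro b
    simp only [kA, LinearMap.sum_apply, LinearMap.smul_apply, map_sum, map_smul, h.cov,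
      Finset.smul_sum]
    rw [Finset.sum_comm]
    refine Finset.sum_congr rfl fun a _ => Finset.sum_congr rfl fun β _ => ?_
    rw [smul_comm]
  simp only [h1, h2]
  rw [Finset.sum_comm]

/-- covariance of the potential part -/
theorem covB {O : Matrix (Fin p) (Fin p) ℝ} {U : F ≃ₗᵢ[ℂ] F} (h : Lift L O U) (m : ℝ)
    (α : Fin 16) (x : EuclideanSpace ℝ (Fin 9 × Fin p)) (v : F) :
    (freeFOp L G m α).B (isoO O h.orth x) (U v) = U ((freeFOp L G m α).B x v) := by
  rw [freeFOp_B, freeFOp_B, map_sum, Fintype.sum_prod_type, Fintype.sum_prod_type]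
  refine Finset.sum_congr rfl fun j _ => ?_
  have h2 : ∀ b, U (((x (j, b) : ℝ) : ℂ) • pV L G m α (j, b) v) =
      ∑ a, ((O a b * x (j, b) : ℝ) : ℂ) • pV L G m α (j, a) (U v) := by
    intro b
    simp only [pV, LinearMap.sum_apply, LinearMap.smul_apply, map_sum, map_smul, h.cov,
      Finset.smul_sum]
    rw [Finset.sum_comm]
    refine Finset.sum_congr rfl fun a _ => Finset.sum_congr rfl fun β _ => ?_
    simp only [smul_smul]
    congr 1
    push_cast
    ring
  simp only [h2, isoO_apply]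
  rw [Finset.sum_comm]
  refine Finset.sum_congr rfl fun a _ => ?_
  rw [← Finset.sum_smul]
  push_cast
  rfl

/-- the vacuum line is preserved -/
theorem Lift.LVac {O : Matrix (Fin p) (Fin p) ℝ} {U : F ≃ₗᵢ[ℂ] F} (h : Lift L O U) {e : F}
    (he : LVac L G e) : LVac L G (U e) := by
  -- `θ_α^a (U e) = Σ_b O_ab U (θ_α^b e)`
  have key : ∀ α a v, L.θ α a (U v) = ∑ b, ((O a b : ℝ) : ℂ) • U (L.θ α b v) := by
    intro α a v
    simp only [h.cov, Finset.smul_sum, smul_smul]
    rw [Finset.sum_comm]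
    have e1 : ∀ c, ∑ b, (((O a b : ℝ) : ℂ) * ((O c b : ℝ) : ℂ)) • L.θ α c (U v) =
        (((O * O.transpose) a c : ℝ) : ℂ) • L.θ α c (U v) := by
      intro c
      rw [← Finset.sum_smul, Matrix.mul_apply]
      push_cast
      rfl
    simp only [e1, h.orth']
    simp [Matrix.one_apply, Finset.sum_ite_eq]
  intro α A
  rw [key]
  have h1 : ∀ b, U (L.θ α b e) = Complex.I • ∑ β, ((Gam G β α : ℝ) : ℂ) • U (L.θ β b e) := by
    intro b
    conv_lhs => rw [he α b]
    rw [map_smul, map_sum]
    simp only [map_smul]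
  have h2 : ∑ b, ((O A b : ℝ) : ℂ) • U (L.θ α b e) =
      Complex.I • ∑ β, ((Gam G β α : ℝ) : ℂ) • ∑ b, ((O A b : ℝ) : ℂ) • U (L.θ β b e) := by
    simp only [h1]
    simp only [Finset.smul_sum, smul_smul]
    rw [Finset.sum_comm]
    refine Finset.sum_congr rfl fun β _ => Finset.sum_congr rfl fun b _ => ?_
    congr 1
    ring
  rw [h2]
  simp only [key]


/-! ### symmetry for every mass -/

variable (L)

theorem freeD_dirac (m : ℝ) (α : Fin 16) (φ : EuclideanSpace ℝ (Fin 9 × Fin p) → F)
    (x : EuclideanSpace ℝ (Fin 9 × Fin p)) :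
    freeD L G m α φ x = dirac (fun k => ∑ β, ((G.γ k.1 α β : ℝ) : ℂ) • L.θ β k.2)
      (lin (pV L G m α)) φ x := by
  rw [← freeFOp_op]
  unfold FOp.op dirac
  rw [freeFOp_A, freeFOp_B, lin_apply]
  congr 1
  refine Finset.sum_congr rfl fun k _ => ?_
  simp only [kA, LinearMap.sum_apply, LinearMap.smul_apply, Finset.smul_sum, smul_smul]


end Crest.Agent.R330.FreeQ122
end
end

-- ▼ part R330/FreeFx_122
section

/-!
Row 330 (helper122): the amplitude space `C.Fx M G` of 414 is an irreducible light module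
(`fxLight : Light p (C.Fx M G)`), the literal charges `C.Dx` are the free charges `freeD`, the
vacuum line is spanned by the reference vacuum.
-/

set_option autoImplicit false
set_option linter.unusedSectionVars false

noncomputable section

namespace Crest.Agent.R330.FreeFx122

open MeasureTheory Filter Topology Crest.MathPhysics.MatrixQM Crest.Agent.R330.IBP837
  Crest.Agent.R330.FreeC122 Crest.Agent.R330.Defs478 Crest.Agent.R330.Free122
  Crest.Agent.R330.TDef414 Crest.Agent.R330.FactI161 Crest.Agent.R330.SInd478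
  Crest.Agent.R330.Cliff442 Crest.Agent.R330.Cliff442.CRep
  Crest.Agent.R330.LS839 Crest.Agent.R330.Bind6839
open scoped ContDiff InnerProductSpace ENNReal

variable {N p : ℕ} {b : ColorBasis N} {S : Type} [Group S] [Fintype S] (C : Chn b p S)
  {F : Type*} [NormedAddCommGroup F] [InnerProductSpace ℂ F] [FiniteDimensional ℂ F]
  (M : FermionRep N F) (G : GammaNine)

/-! ### heavy vectors -/

/-- spinor-colour vectors with colour part orthogonal to `K` -/
def Hv (K : Submodule ℝ (Colg N)) : Submodule ℝ (W16 N) where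
  carrier := {x | ∀ β, row β x ∈ K}
  add_mem' hx hy β := by rw [map_add]; exact K.add_mem (hx β) (hy β)
  zero_mem' β := by rw [map_zero]; exact K.zero_mem
  smul_mem' r x hx β := by rw [map_smul]; exact K.smul_mem r (hx β)


theorem ins_mem_Hv {K : Submodule ℝ (Colg N)} {u : Colg N} (hu : u ∈ K) (β : Fin 16) :
    ins β u ∈ Hv K := by
  intro β'
  rw [row_ins]
  split_ifs
  · exact hu
  · exact K.zero_mem

theorem GJ_mem_Hv {K : Submodule ℝ (Colg N)} {x : W16 N} (hx : x ∈ Hv K) : GJ G N x ∈ Hv K := by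
  intro β
  rw [row_GJ]
  exact K.sum_mem fun β' _ => K.smul_mem _ (hx β')

theorem cr_GJ_ins (α : Fin 16) (u : Colg N) (f : F) :
    (cr M).θ (GJ G N (ins α u)) f = ∑ β, ((Gam G β α : ℝ) : ℂ) • thv M β u f := by
  rw [GJ_ins, CRep.sum, LinearMap.sum_apply]
  refine Finset.sum_congr rfl fun β _ => ?_
  rw [cr_ins, thv_smul]

theorem gan_eq (α : Fin 16) (u : Colg N) (f : F) :
    gan M G α u f = (cr M).θ (ins α u) f - Complex.I • (cr M).θ (GJ G N (ins α u)) f := by
  rw [cr_GJ_ins, cr_ins]
  unfold gan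
  rw [LinearMap.sub_apply, LinearMap.smul_apply, LinearMap.sum_apply]
  simp only [LinearMap.smul_apply]

theorem mem_vacOf_iff {K : Submodule ℝ (Colg N)} {f : F} :
    f ∈ vacOf M G K ↔ ∀ x ∈ Hv K, (cr M).θ x f = Complex.I • (cr M).θ (GJ G N x) f := by
  rw [mem_vacOf]
  constructor
  · intro h x hx
    have h1 : ∀ β, (cr M).θ (ins β (row β x)) f =
        Complex.I • (cr M).θ (GJ G N (ins β (row β x))) f := by
      intro β
      have := h β _ (hx β)
      rw [gan_eq, sub_eq_zero] at this
      exact this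
    conv_lhs => rw [← sum_ins_row x]
    conv_rhs => rw [← sum_ins_row x]
    rw [map_sum, CRep.sum, CRep.sum, LinearMap.sum_apply, LinearMap.sum_apply, Finset.smul_sum]
    exact Finset.sum_congr rfl fun β _ => h1 β
  · intro h α u hu
    rw [gan_eq, sub_eq_zero]
    exact h _ (ins_mem_Hv hu α)

/-- adapted pairs of a colour subspace -/
theorem exists_pairs (K : Submodule ℝ (Colg N)) : ∃ (m : ℕ) (u v : ℕ → W16 N),
    Prs u v (Finset.range m) ∧ (∀ k ∈ Finset.range m, u k ∈ Hv K ∧ v k ∈ Hv K) ∧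
    (∀ f : F, f ∈ vacOf M G K ↔ ∀ k ∈ Finset.range m, (cr M).ann (u k) (v k) f = 0) ∧
    (∀ x : W16 N, (∀ k ∈ Finset.range m, ⟪x, u k⟫_ℝ = 0 ∧ ⟪x, v k⟫_ℝ = 0) → x ∈ (Hv K)ᗮ) := by
  obtain ⟨m, u, v, lam, hprs, hpos, hK, hu, hv, hker⟩ :=
    (GJ_skew G N).exists_normal_on (Module.finrank ℝ (Hv K)) (Hv K) rfl
      (fun x hx => GJ_mem_Hv G hx)
  have hl : ∀ j < m, lam j = 1 := fun j hj => by
    have e1 := GJ_GJ G (u j)
    rw [hu j hj, map_smul, hv j hj, smul_smul, neg_mul, neg_smul, neg_inj] at e1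
    have e2 : ⟪(lam j * lam j) • u j, u j⟫_ℝ = ⟪u j, u j⟫_ℝ := by rw [e1]
    rw [inner_smul_left, real_inner_self_eq_norm_sq,
      (hprs.pr j (Finset.mem_range.2 hj)).1] at e2
    simp only [conj_trivial, one_pow, mul_one] at e2
    nlinarith [hpos j hj]
  have hexp : ∀ x ∈ Hv K, x = ∑ l ∈ Finset.range m,
      (⟪x, u l⟫_ℝ • u l + ⟪x, v l⟫_ℝ • v l) := by
    intro x hx
    have h3 : x - ∑ l ∈ Finset.range m, (⟪x, u l⟫_ℝ • u l + ⟪x, v l⟫_ℝ • v l) ∈
        perpS (Hv K) u v (Finset.range m) := by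
      refine mem_perpS.2 ⟨?_, hprs.proj_mem x⟩
      refine (Hv K).sub_mem hx ((Hv K).sum_mem fun l hl => ?_)
      have := hK l (Finset.mem_range.1 hl)
      exact (Hv K).add_mem ((Hv K).smul_mem _ this.1) ((Hv K).smul_mem _ this.2)
    have h4 := hker _ h3
    have h5 := congrArg (GJ G N) h4
    rw [GJ_GJ, map_zero, neg_eq_zero, sub_eq_zero] at h5
    exact h5
  refine ⟨m, u, v, hprs, fun k hk => hK k (Finset.mem_range.1 hk), fun f => ?_, fun x hx => ?_⟩
  · rw [mem_vacOf_iff]
    constructor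
    · intro h k hk
      have hk' := Finset.mem_range.1 hk
      rw [ann_apply, h (u k) (hK k hk').1, hu k hk', hl k hk', neg_smul, one_smul, CRep.neg,
        LinearMap.neg_apply, smul_neg, neg_add_cancel]
    · intro h x hx
      have hx0 : ∀ k ∈ Finset.range m, (cr M).θ (u k) f = -(Complex.I • (cr M).θ (v k) f) := by
        intro k hk
        have := h k hk
        rw [ann_apply] at this
        exact eq_neg_of_add_eq_zero_left this
      rw [hexp x hx]
      simp only [map_sum, map_add, map_smul, CRep.sum, CRep.add, CRep.smul,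
        LinearMap.sum_apply, LinearMap.add_apply, LinearMap.smul_apply, Finset.smul_sum]
      refine Finset.sum_congr rfl fun k hk => ?_
      have hk' := Finset.mem_range.1 hk
      rw [hu k hk', hv k hk', hl k hk', neg_smul, one_smul, one_smul, CRep.neg,
        LinearMap.neg_apply, hx0 k hk]
      match_scalars
      linear_combination ((⟪x, v k⟫_ℝ : ℝ) : ℂ) * Complex.I_sq
  · rw [Submodule.mem_orthogonal]
    intro w hw
    rw [hexp w hw, sum_inner]
    refine Finset.sum_eq_zero fun k hk => ?_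
    have a1 : ⟪u k, x⟫_ℝ = 0 := by rw [real_inner_comm]; exact (hx k hk).1
    have a2 : ⟪v k, x⟫_ℝ = 0 := by rw [real_inner_comm]; exact (hx k hk).2
    rw [inner_add_left, inner_smul_left, inner_smul_left, a1, a2]
    simp

/-- the reference vacua -/
theorem isGVac_iff_vacOf (Ω : F) : IsGVac M G Ω ↔ Ω ∈ vacOf M G (⊤ : Submodule ℝ (Colg N)) := by
  rw [mem_vacOf_iff, isGVac_iff]
  exact ⟨fun h x _ => h x, fun h x => h x fun _ => trivial⟩

theorem isGVac_mem_Fx {Ω : F} (h : IsGVac M G Ω) : Ω ∈ C.Fx M G :=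
  vacOf_mono le_top ((isGVac_iff_vacOf M G Ω).1 h)

/-- the vacuum space of a colour subspace is irreducible for the orthogonal fermions -/
theorem vacOf_irr (K : Submodule ℝ (Colg N)) :
    (cr M).IrrOn (Hv K)ᗮ (vacOf M G K) := by
  obtain ⟨m, u, v, hprs, hK, hvac, hperp⟩ := exists_pairs M G K
  have h := (cr_irr M).vacS hprs (fun _ _ => ⟨trivial, trivial⟩)
  have e1 : (cr M).vacS ⊤ u v (Finset.range m) = vacOf M G K := by
    ext f
    rw [mem_vacS, hvac f]
    exact ⟨fun h => h.2, fun h => ⟨trivial, h⟩⟩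
  have e2 : perpS (⊤ : Submodule ℝ (W16 N)) u v (Finset.range m) = (Hv K)ᗮ := by
    ext x
    rw [mem_perpS]
    constructor
    · intro h
      exact hperp x h.2
    · intro h
      refine ⟨trivial, fun k hk => ?_⟩
      rw [Submodule.mem_orthogonal'] at h
      exact ⟨h _ (hK k hk).1, h _ (hK k hk).2⟩
  rw [e1, e2] at h
  exact h

theorem row_mem {K : Submodule ℝ (Colg N)} {x : W16 N} (hx : x ∈ (Hv K)ᗮ) (β : Fin 16) :
    row β x ∈ Kᗮ := by
  rw [Submodule.mem_orthogonal]
  intro u hu
  have h := (Submodule.mem_orthogonal _ _).1 hx _ (ins_mem_Hv hu β)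
  rwa [inner_ins] at h

/-! ### the light module -/

theorem thx_coe (β : Fin 16) (t : EuclideanSpace ℝ (Fin p)) (f : C.Fx M G) :
    ((C.thx M G β t f : C.Fx M G) : F) = thv M β (C.cen t) f := rfl

/-- expansion of a light fermion in the basis -/
theorem thv_cen (β : Fin 16) (t : EuclideanSpace ℝ (Fin p)) (f : F) :
    thv M β (C.cen t) f =
      ∑ a, ((t a : ℝ) : ℂ) • thv M β (C.cen (EuclideanSpace.single a 1)) f := by
  have ht : t = ∑ a, (t a) • EuclideanSpace.single a (1 : ℝ) := by
    ext r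
    simp only [WithLp.ofLp_sum, Finset.sum_apply, WithLp.ofLp_smul, Pi.smul_apply, smul_eq_mul]
    rw [Finset.sum_eq_single r]
    · simp
    · intro b _ hb
      simp [Ne.symm hb]
    · simp
  conv_lhs => rw [ht]
  rw [map_sum]
  simp only [map_smul]
  rw [← cr_ins, map_sum, CRep.sum, LinearMap.sum_apply]
  refine Finset.sum_congr rfl fun a _ => ?_
  rw [cr_ins, thv_smul]

/-- **The amplitude space of 414 is a light module.** -/
def fxLight : Light p (C.Fx M G) where
  θ α a := C.thx M G α (EuclideanSpace.single a 1)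
  symm α a f g := by
    show ⟪(thv M α (C.cen (EuclideanSpace.single a 1)) f : F), (g : F)⟫_ℂ =
      ⟪(f : F), thv M α (C.cen (EuclideanSpace.single a 1)) g⟫_ℂ
    rw [← cr_ins]
    exact (cr M).symm _ _ _
  anti α a β c := by
    ext f
    have h := thv_anti M α β (C.cen (EuclideanSpace.single a 1)) (C.cen (EuclideanSpace.single c 1))
      (f : F)
    rw [C.cen.inner_map_map] at h
    have e : ⟪(EuclideanSpace.single a (1 : ℝ) : EuclideanSpace ℝ (Fin p)),
        EuclideanSpace.single c 1⟫_ℝ = if a = c then 1 else 0 := by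
      rw [EuclideanSpace.inner_single_left]
      by_cases hac : a = c
      · subst hac; simp
      · simp [hac]
    rw [e] at h
    have h2 : ((((C.thx M G α (EuclideanSpace.single a 1)) ∘ₗ
        (C.thx M G β (EuclideanSpace.single c 1)) + (C.thx M G β (EuclideanSpace.single c 1)) ∘ₗ
        (C.thx M G α (EuclideanSpace.single a 1))) f : C.Fx M G) : F) =
        thv M α (C.cen (EuclideanSpace.single a 1)) (thv M β (C.cen (EuclideanSpace.single c 1)) f) +
        thv M β (C.cen (EuclideanSpace.single c 1))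
          (thv M α (C.cen (EuclideanSpace.single a 1)) f) := rfl
    rw [h2, h]
    by_cases h1 : α = β
    · by_cases h3 : a = c
      · simp [h1, h3]
      · simp [h1, h3]
    · simp [h1]
  irr W hW := by
    have hirr := vacOf_irr M G (LinearMap.range C.cen.toLinearMap)ᗮ
    set W' : Submodule ℂ F := W.map (C.Fx M G).subtype with hW'
    have hle : W' ≤ C.Fx M G := by
      rintro _ ⟨w, _, rfl⟩
      exact w.2
    have hinv : (cr M).InvOn (Hv (LinearMap.range C.cen.toLinearMap)ᗮ)ᗮ W' := by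
      rintro x hx _ ⟨w, hw, rfl⟩
      rw [cr_eq_sum]
      refine W'.sum_mem fun β _ => ?_
      have h1 := row_mem hx β
      rw [Submodule.orthogonal_orthogonal] at h1
      obtain ⟨t, ht⟩ := h1
      have ht' : C.cen t = row β x := ht
      rw [← ht', thv_cen]
      refine W'.sum_mem fun a _ => W'.smul_mem _ ?_
      exact ⟨_, hW β a w hw, rfl⟩
    rcases hirr.2 W' hle hinv with h | h
    · left
      rw [eq_bot_iff]
      intro w hw
      have h1 : (w : F) ∈ W' := ⟨w, hw, rfl⟩
      rw [h, Submodule.mem_bot] at h1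
      exact (Submodule.mem_bot ℂ).2 (Subtype.ext h1)
    · right
      rw [eq_top_iff]
      intro w _
      have h1 : (w : F) ∈ W' := by
        rw [h]
        exact w.2
      obtain ⟨w', hw', hww⟩ := h1
      have : w' = w := Subtype.ext hww
      rwa [this] at hw'

theorem fxLight_θ (α : Fin 16) (a : Fin p) :
    (fxLight C M G).θ α a = C.thx M G α (EuclideanSpace.single a 1) := rfl

/-- the literal charges are the free charges -/
theorem freeD_eq_Dx (m : ℝ) (α : Fin 16) (χ : Pos p → C.Fx M G) :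
    freeD (fxLight C M G) G m α χ = C.Dx M G m α χ := by
  funext X
  rw [FreeQ122.freeD_dirac]
  unfold Chn.Dx Chn.ax
  congr 2
  funext k
  unfold FreeQ122.pV Chn.vx
  simp only [fxLight_θ, mul_assoc]

/-- the vacua of the light module are the reference vacua -/
theorem LVac_iff_isGVac (e : C.Fx M G) : LVac (fxLight C M G) G e ↔ IsGVac M G (e : F) := by
  rw [isGVac_iff_vacOf, mem_vacOf]
  constructor
  · intro h
    -- for centre vectors
    have hc : ∀ α t, gan M G α (C.cen t) (e : F) = 0 := by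
      intro α t
      unfold gan
      rw [LinearMap.sub_apply, LinearMap.smul_apply, LinearMap.sum_apply, sub_eq_zero]
      simp only [LinearMap.smul_apply]
      rw [thv_cen]
      simp only [thv_cen C M _ t]
      have h1 : ∀ a, thv M α (C.cen (EuclideanSpace.single a 1)) (e : F) =
          Complex.I • ∑ β, ((Gam G β α : ℝ) : ℂ) •
            thv M β (C.cen (EuclideanSpace.single a 1)) (e : F) := by
        intro a
        have h2 := congrArg (Subtype.val) (h α a)
        rw [Submodule.coe_smul, Submodule.coe_sum] at h2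
        exact h2
      simp only [h1]
      simp only [Finset.smul_sum, smul_smul]
      rw [Finset.sum_comm]
      refine Finset.sum_congr rfl fun β _ => Finset.sum_congr rfl fun a _ => ?_
      congr 1
      ring
    intro α u _
    -- split `u`
    have hK := (LinearMap.range C.cen.toLinearMap)
    obtain ⟨y, hy, z, hz, hu⟩ := (LinearMap.range C.cen.toLinearMap).exists_add_mem_mem_orthogonal u
    obtain ⟨t, rfl⟩ := hy
    have h3 : gan M G α u (e : F) = gan M G α (C.cen t) e + gan M G α z e := by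
      rw [hu]
      simp only [gan_eq, map_add, CRep.add, LinearMap.add_apply, smul_add]
      have e9 : C.cen.toLinearMap t = C.cen t := rfl
      rw [e9]
      abel
    rw [h3, hc, zero_add]
    exact e.2 α z hz
  · intro h α a
    apply Subtype.ext
    have h1 := h α (C.cen (EuclideanSpace.single a 1)) trivial
    unfold gan at h1
    rw [LinearMap.sub_apply, LinearMap.smul_apply, LinearMap.sum_apply, sub_eq_zero] at h1
    simp only [LinearMap.smul_apply] at h1
    rw [Submodule.coe_smul, Submodule.coe_sum]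
    exact h1

end Crest.Agent.R330.FreeFx122
end
end

-- ▼ part R330/FreeFx2_122

/-!
Row 330 (helper122): the vacuum line of the amplitude space `C.Fx M G`, invariant under the gauge
group.
-/

set_option autoImplicit false
set_option linter.unusedSectionVars false

noncomputable section

namespace Crest.Agent.R330.FreeFx122

open MeasureTheory Filter Topology Crest.MathPhysics.MatrixQM Crest.Agent.R330.IBP837
  Crest.Agent.R330.FreeC122 Crest.Agent.R330.Defs478 Crest.Agent.R330.Free122
  Crest.Agent.R330.TDef414 Crest.Agent.R330.FactI161 Crest.Agent.R330.SInd478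
open scoped ContDiff InnerProductSpace ENNReal

variable {N p : ℕ} {b : ColorBasis N} {S : Type} [Group S] [Fintype S] (C : Chn b p S)
  {F : Type*} [NormedAddCommGroup F] [InnerProductSpace ℂ F] [FiniteDimensional ℂ F]
  (M : FermionRep N F) (G : GammaNine)

theorem nontrivial_Fx [Nontrivial F] : Nontrivial (C.Fx M G) := by
  obtain ⟨Ω, h1, hΩ⟩ := FactI161.exists_gvac M G
  refine ⟨⟨⟨Ω, isGVac_mem_Fx C M G hΩ⟩, 0, fun h => ?_⟩⟩
  have h2 : Ω = 0 := congrArg Subtype.val h
  rw [h2, norm_zero] at h1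
  exact zero_ne_one h1

/-- **the vacuum line of the amplitude space** -/
theorem exists_xi_fx [Nontrivial F] : ∃ ξ : C.Fx M G, ‖ξ‖ = 1 ∧ LVac (fxLight C M G) G ξ ∧
    IsGVac M G (ξ : F) ∧ ∀ e, LVac (fxLight C M G) G e → e = ⟪ξ, e⟫_ℂ • ξ := by
  have := nontrivial_Fx C M G
  obtain ⟨ξ, h1, h2, h3⟩ := Free122.exists_xi (L := fxLight C M G) (G := G)
  exact ⟨ξ, h1, h2, (LVac_iff_isGVac C M G ξ).1 h2, h3⟩

/-- the vacua of the amplitude space are gauge invariant -/
theorem rho_xi (R : GaugeAction b M) {e : C.Fx M G} (he : LVac (fxLight C M G) G e)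
    (g : Matrix.specialUnitaryGroup (Fin N) ℂ) : R.ρ g (e : F) = e :=
  FactI161.rho_gvac R ((LVac_iff_isGVac C M G e).1 he) g

end Crest.Agent.R330.FreeFx122
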