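import Mathlib

/-!
# Row 330, S8-G2 (helper815): concentration on a set and asymptotic orthogonality

* `Conc l φ K` : for every `ρ > 0` the mass of `φ g` outside the open `ρ`-neighbourhood of `K`
  tends to zero along `l`.
* `Bdd l φ` : eventually in `L²` with bounded norm.
* `inner_tendsto_zero` : two bounded families concentrated on disjoint compact sets are
  asymptotically orthogonal.
* `conc_add`, `conc_smul`, `conc_mono`, `conc_of_supp`, `conc_mul_sub` (a continuous function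
  `w` with `w = w0` on `K`: `‖(w - w0) φ g‖₂ → 0`).
-/

set_option autoImplicit false
set_option linter.unusedSectionVars false

open MeasureTheory Filter Topology Set Metric
open scoped InnerProductSpace

noncomputable section

namespace Crest.Agent.R330.Conc815

variable {E : Type*} [NormedAddCommGroup E] [MeasureSpace E] [BorelSpace E]
  {F : Type*} [NormedAddCommGroup F] {ι : Type*}

/-- The mass outside every neighbourhood of `K` tends to zero. -/
def Conc (l : Filter ι) (φ : ι → E → F) (K : Set E) : Prop :=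
  ∀ ρ : ℝ, 0 < ρ → Tendsto (fun g => ∫ x in (thickening ρ K)ᶜ, ‖φ g x‖ ^ 2) l (𝓝 0)

/-- Eventually in `L²` with bounded norm. -/
def Bdd (l : Filter ι) (φ : ι → E → F) : Prop :=
  ∃ C : ℝ, 0 ≤ C ∧ ∀ᶠ g in l, MemLp (φ g) 2 volume ∧ ∫ x, ‖φ g x‖ ^ 2 ≤ C

theorem sq_int {f : E → F} (h : MemLp f 2 volume) : Integrable (fun x => ‖f x‖ ^ 2) := by
  have h' : MemLp f ((2 : ℕ) : ENNReal) volume := by simpa using h
  exact h'.integrable_norm_pow two_ne_zero

theorem Conc.mono {l : Filter ι} {φ : ι → E → F} {K K' : Set E} (hb : Bdd l φ)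
    (h : Conc l φ K) (hK : K ⊆ K') : Conc l φ K' := by
  intro ρ hρ
  obtain ⟨C, hC, hb⟩ := hb
  refine tendsto_of_tendsto_of_tendsto_of_le_of_le' tendsto_const_nhds (h ρ hρ)
    (Eventually.of_forall fun g => integral_nonneg fun x => by positivity) ?_
  filter_upwards [hb] with g hg
  refine setIntegral_mono_set (sq_int hg.1).integrableOn
    (Eventually.of_forall fun x => by positivity) ?_
  exact Filter.Eventually.of_forall (compl_subset_compl.2 (thickening_subset_of_subset ρ hK))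


theorem Conc.add {l : Filter ι} {φ ψ : ι → E → F} {K : Set E} (h1 : Conc l φ K)
    (h2 : Conc l ψ K) (hb1 : Bdd l φ) (hb2 : Bdd l ψ) : Conc l (fun g => φ g + ψ g) K := by
  intro ρ hρ
  obtain ⟨C1, hC1, hb1⟩ := hb1
  obtain ⟨C2, hC2, hb2⟩ := hb2
  have h3 : Tendsto (fun g => 2 * (∫ x in (thickening ρ K)ᶜ, ‖φ g x‖ ^ 2) +
      2 * ∫ x in (thickening ρ K)ᶜ, ‖ψ g x‖ ^ 2) l (𝓝 0) := by
    simpa using ((h1 ρ hρ).const_mul 2).add ((h2 ρ hρ).const_mul 2)
  refine tendsto_of_tendsto_of_tendsto_of_le_of_le' tendsto_const_nhds h3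
    (Eventually.of_forall fun g => integral_nonneg fun x => by positivity) ?_
  filter_upwards [hb1, hb2] with g hg1 hg2
  rw [← integral_const_mul, ← integral_const_mul, ← integral_add
    ((sq_int hg1.1).integrableOn.const_mul _)
    ((sq_int hg2.1).integrableOn.const_mul _)]
  refine integral_mono_of_nonneg (Eventually.of_forall fun x => by positivity)
    (((sq_int hg1.1).integrableOn.const_mul _).add
      ((sq_int hg2.1).integrableOn.const_mul _)) (Eventually.of_forall fun x => ?_)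
  have h4 : ‖φ g x + ψ g x‖ ≤ ‖φ g x‖ + ‖ψ g x‖ := norm_add_le _ _
  have h5 : ‖φ g x + ψ g x‖ ^ 2 ≤ (‖φ g x‖ + ‖ψ g x‖) ^ 2 :=
    pow_le_pow_left₀ (norm_nonneg _) h4 2
  change ‖φ g x + ψ g x‖ ^ 2 ≤ 2 * ‖φ g x‖ ^ 2 + 2 * ‖ψ g x‖ ^ 2
  nlinarith [sq_nonneg (‖φ g x‖ - ‖ψ g x‖)]

/-- Two bounded families concentrated on disjoint compact sets are asymptotically orthogonal. -/
theorem inner_tendsto_zero [InnerProductSpace ℂ F] {l : Filter ι} {φ ψ : ι → E → F}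
    {K1 K2 : Set E} (hK1 : IsCompact K1) (hK2 : IsClosed K2) (hd : Disjoint K1 K2)
    (h1 : Conc l φ K1) (h2 : Conc l ψ K2) (hb1 : Bdd l φ) (hb2 : Bdd l ψ) :
    Tendsto (fun g => ∫ x, ⟪φ g x, ψ g x⟫_ℂ) l (𝓝 0) := by
  obtain ⟨ρ, hρ, hdis⟩ := hd.exists_thickenings hK1 hK2
  obtain ⟨C1, hC1, hb1⟩ := hb1
  obtain ⟨C2, hC2, hb2⟩ := hb2
  rw [Metric.tendsto_nhds]
  intro ε hε
  -- `t` with `t⁻¹ (C1 + C2) < ε`
  set t : ℝ := (C1 + C2 + 1) / ε with ht
  have ht0 : 0 < t := by positivity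
  have h3 : Tendsto (fun g => t / 2 * (∫ x in (thickening ρ K1)ᶜ, ‖φ g x‖ ^ 2) +
      t / 2 * ∫ x in (thickening ρ K2)ᶜ, ‖ψ g x‖ ^ 2) l (𝓝 0) := by
    simpa using ((h1 ρ hρ).const_mul (t / 2)).add ((h2 ρ hρ).const_mul (t / 2))
  have h4 : ∀ᶠ g in l, t / 2 * (∫ x in (thickening ρ K1)ᶜ, ‖φ g x‖ ^ 2) +
      t / 2 * ∫ x in (thickening ρ K2)ᶜ, ‖ψ g x‖ ^ 2 < ε / 2 :=
    h3.eventually_lt tendsto_const_nhds (by positivity)
  filter_upwards [hb1, hb2, h4] with g hg1 hg2 hg4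
  rw [dist_zero_right]
  set A1 : Set E := (thickening ρ K1)ᶜ with hA1
  set A2 : Set E := (thickening ρ K2)ᶜ with hA2
  have hA1m : MeasurableSet A1 := isOpen_thickening.measurableSet.compl
  have hA2m : MeasurableSet A2 := isOpen_thickening.measurableSet.compl
  have hi1 : Integrable (fun x => ‖φ g x‖ ^ 2) := (sq_int hg1.1)
  have hi2 : Integrable (fun x => ‖ψ g x‖ ^ 2) := (sq_int hg2.1)
  -- pointwise bound
  have hpt : ∀ x, ‖⟪φ g x, ψ g x⟫_ℂ‖ ≤ A1.indicator (fun x => t / 2 * ‖φ g x‖ ^ 2) x +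
      A2.indicator (fun x => t / 2 * ‖ψ g x‖ ^ 2) x +
      (t⁻¹ / 2 * ‖φ g x‖ ^ 2 + t⁻¹ / 2 * ‖ψ g x‖ ^ 2) := by
    intro x
    have h5 : ‖⟪φ g x, ψ g x⟫_ℂ‖ ≤ ‖φ g x‖ * ‖ψ g x‖ := norm_inner_le_norm _ _
    have h6 : ∀ a b : ℝ, a * b ≤ t / 2 * a ^ 2 + t⁻¹ / 2 * b ^ 2 := by
      intro a b
      have h7 : t / 2 * a ^ 2 + t⁻¹ / 2 * b ^ 2 - a * b = (t * a - b) ^ 2 / (2 * t) := by
        field_simp
        ring
      have h8 : 0 ≤ (t * a - b) ^ 2 / (2 * t) := by positivity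
      linarith
    by_cases hx : x ∈ thickening ρ K1
    · have hx2 : x ∈ A2 := fun h => Set.disjoint_left.1 hdis hx h
      rw [indicator_of_mem hx2]
      have h9 : 0 ≤ A1.indicator (fun x => t / 2 * ‖φ g x‖ ^ 2) x :=
        indicator_nonneg (fun x _ => by positivity) x
      have h10 := h6 ‖ψ g x‖ ‖φ g x‖
      have h11 : 0 ≤ t⁻¹ / 2 * ‖ψ g x‖ ^ 2 := by positivity
      nlinarith
    · have hx1 : x ∈ A1 := hx
      rw [indicator_of_mem hx1]
      have h9 : 0 ≤ A2.indicator (fun x => t / 2 * ‖ψ g x‖ ^ 2) x :=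
        indicator_nonneg (fun x _ => by positivity) x
      have h10 := h6 ‖φ g x‖ ‖ψ g x‖
      have h11 : 0 ≤ t⁻¹ / 2 * ‖φ g x‖ ^ 2 := by positivity
      nlinarith
  have hint1 : Integrable (A1.indicator (fun x => t / 2 * ‖φ g x‖ ^ 2)) :=
    (hi1.const_mul _).indicator hA1m
  have hint2 : Integrable (A2.indicator (fun x => t / 2 * ‖ψ g x‖ ^ 2)) :=
    (hi2.const_mul _).indicator hA2m
  have hint3 : Integrable (fun x => t⁻¹ / 2 * ‖φ g x‖ ^ 2 + t⁻¹ / 2 * ‖ψ g x‖ ^ 2) :=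
    (hi1.const_mul _).add (hi2.const_mul _)
  have hint12 : Integrable (fun x => A1.indicator (fun x => t / 2 * ‖φ g x‖ ^ 2) x +
      A2.indicator (fun x => t / 2 * ‖ψ g x‖ ^ 2) x) := hint1.add hint2
  calc ‖∫ x, ⟪φ g x, ψ g x⟫_ℂ‖ ≤ ∫ x, ‖⟪φ g x, ψ g x⟫_ℂ‖ := norm_integral_le_integral_norm _
    _ ≤ ∫ x, (A1.indicator (fun x => t / 2 * ‖φ g x‖ ^ 2) x +
      A2.indicator (fun x => t / 2 * ‖ψ g x‖ ^ 2) x +
      (t⁻¹ / 2 * ‖φ g x‖ ^ 2 + t⁻¹ / 2 * ‖ψ g x‖ ^ 2)) :=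
        integral_mono_of_nonneg (Eventually.of_forall fun x => norm_nonneg _)
          (hint12.add hint3) (Eventually.of_forall hpt)
    _ = (t / 2 * (∫ x in A1, ‖φ g x‖ ^ 2) + t / 2 * ∫ x in A2, ‖ψ g x‖ ^ 2) +
        (t⁻¹ / 2 * (∫ x, ‖φ g x‖ ^ 2) + t⁻¹ / 2 * ∫ x, ‖ψ g x‖ ^ 2) := by
        rw [integral_add hint12 hint3, integral_add hint1 hint2,
          integral_add (hi1.const_mul _) (hi2.const_mul _), integral_indicator hA1m,
          integral_indicator hA2m, integral_const_mul, integral_const_mul, integral_const_mul,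
          integral_const_mul]
    _ < ε := by
        have h12 : t⁻¹ / 2 * (∫ x, ‖φ g x‖ ^ 2) + t⁻¹ / 2 * (∫ x, ‖ψ g x‖ ^ 2) ≤ ε / 2 := by
          have h13 : t⁻¹ * (C1 + C2) ≤ ε := by
            rw [ht, inv_div, div_mul_eq_mul_div, div_le_iff₀ (by positivity)]
            nlinarith
          have h14 : 0 ≤ t⁻¹ / 2 := by positivity
          calc _ ≤ t⁻¹ / 2 * C1 + t⁻¹ / 2 * C2 :=
                add_le_add (mul_le_mul_of_nonneg_left hg1.2 h14)
                  (mul_le_mul_of_nonneg_left hg2.2 h14)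
            _ = t⁻¹ * (C1 + C2) / 2 := by ring
            _ ≤ ε / 2 := by linarith
        linarith


end Crest.Agent.R330.Conc815

end
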