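import Crest.Agent.R330.LitB_974
import Crest.Agent.R330.TCore_383

/-!
# Row 330, S8-G2 (helper974): concentration of the literal trial states

* `dd C u = ‖PY u‖ + ‖PM u‖`.
* `ofReal_slice` : `j ‖T(c+u)‖² = j⁻¹ ‖tau u‖²` on the slice.
* `sbdd`, `sconc_lit` : 339's `SBdd`, `SConc`.
* `tendsto_dd` : `∫ d² j ‖T‖² → 0`; `sconc` : the abstract slice concentration.
* **`conc`** : `Tgen P σ g χ.fn` concentrates on the orbits of `cf (tsupport χ.fn)` (167's `HConc`).
* `bdd` : bounded in `L²`.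
-/

set_option autoImplicit false
set_option linter.unusedSectionVars false

open MeasureTheory Filter Topology Crest.MathPhysics.MatrixQM
open scoped ContDiff InnerProductSpace ENNReal

noncomputable section

namespace Crest.Agent.R330.LitC974

open Crest.Agent.R330.Defs478 Crest.Agent.R330.LS839 Crest.Agent.R330.Frame839
  Crest.Agent.R330.Bind6839 Crest.Agent.R330.TDef414 Crest.Agent.R330.Split149
  Crest.Agent.R330.LitA974 Crest.Agent.R330.LitB974 Crest.Agent.R330.ConcB974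
open Crest.Agent.R330.SlB314 (Nor Tan)
open Crest.Agent.R330.SlD314 (tube)

variable {N p : ℕ} {b : ColorBasis N} {S : Type} [Group S] [Fintype S] {C : Chn b p S}
variable {F : Type*} [NormedAddCommGroup F] [InnerProductSpace ℂ F] [FiniteDimensional ℂ F]
variable {M : FermionRep N F} {R : GaugeAction b M} {G : GammaNine}

/-- Distance to the positions. -/
def dd (C : Chn b p S) (u : Cfg N) : ℝ := ‖C.PY u‖ + ‖C.PM u‖

theorem continuous_dd : Continuous (dd C) := (continuous_PY C).norm.add (continuous_PM C).norm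

/-- the density on the slice -/
theorem ofReal_slice (P : TPack C M R G) (σ : Sl C) (χ : Amp M G σ) (g : ℝ) {u : Cfg N}
    (hu : u ∈ Nor b (C.cf σ.X0)) (hr : ‖u‖ < σ.r) :
    ENNReal.ofReal (σ.j u) * ‖Tgen P σ g χ.fn (C.cf σ.X0 + u)‖ₑ ^ 2 =
      ENNReal.ofReal ((σ.j u)⁻¹ * ‖tau P σ g χ.fn u‖ ^ 2) := by
  have hj := σ.jpos u hu hr
  rw [TCore383.Tgen_slice P σ g χ hu hr, ← ofReal_norm, ← ENNReal.ofReal_pow (norm_nonneg _),
    ← ENNReal.ofReal_mul hj.le, norm_smul, Complex.norm_real, Real.norm_eq_abs,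
    abs_of_pos (inv_pos.2 hj), mul_pow]
  congr 1
  field_simp

/-- `j⁻¹ ≤ j0⁻¹` on the support -/
theorem exists_jinv (P : TPack C M R G) (σ : Sl C) (χ : Amp M G σ) : ∃ B : ℝ, 0 < B ∧
    ∀ᶠ g in atTop, ∀ u ∈ Nor b (C.cf σ.X0), (σ.j u)⁻¹ * ‖tau P σ g χ.fn u‖ ^ 2 ≤
      B * ‖tau P σ g χ.fn u‖ ^ 2 := by
  obtain ⟨a, a', j0, j1, ha, ha', hj0, hj1, hA, hj⟩ := exists_bds P σ
  refine ⟨j0⁻¹, inv_pos.2 hj0, ?_⟩
  filter_upwards [tau_supp_ball P σ χ] with g hg u hu
  by_cases h0 : tau P σ g χ.fn u = 0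
  · rw [h0, norm_zero]
    simp
  · have h1 := (hj u hu (hg u h0).2.2.2.2.2).1
    gcongr

/-- **339's `SBdd`.** -/
theorem sbdd (P : TPack C M R G) (σ : Sl C) (χ : Amp M G σ) : ∃ K : ℝ≥0∞, K < ⊤ ∧ ∀ᶠ g in atTop,
    ∫⁻ u in Metric.ball (0 : Nor b (C.cf σ.X0)) σ.r,
      ENNReal.ofReal ((σ.j u)⁻¹ * ‖tau P σ g χ.fn u‖ ^ 2) ≤ K := by
  obtain ⟨B, hB, h1⟩ := exists_jinv P σ χ
  obtain ⟨K, h2⟩ := tau_mass P σ χ
  refine ⟨ENNReal.ofReal B * K, ENNReal.mul_lt_top ENNReal.ofReal_lt_top ENNReal.coe_lt_top, ?_⟩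
  filter_upwards [h1, h2] with g h1 h2
  refine le_trans ?_ (mul_le_mul_right h2 (ENNReal.ofReal B))
  rw [← lintegral_const_mul' _ _ ENNReal.ofReal_ne_top]
  refine lintegral_mono fun u => ?_
  refine (ENNReal.ofReal_le_ofReal (h1 u u.2)).trans (le_of_eq ?_)
  rw [ENNReal.ofReal_mul hB.le, ENNReal.ofReal_pow (norm_nonneg _), ofReal_norm]

/-- the second moment of the distance tends to zero -/
theorem tendsto_dd (P : TPack C M R G) (σ : Sl C) (χ : Amp M G σ) :
    Tendsto (fun g => ∫⁻ u in Metric.ball (0 : Nor b (C.cf σ.X0)) σ.r,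
      ENNReal.ofReal (dd C u ^ 2) * ENNReal.ofReal ((σ.j u)⁻¹ * ‖tau P σ g χ.fn u‖ ^ 2))
      atTop (𝓝 0) := by
  obtain ⟨B, hB, h1⟩ := exists_jinv P σ χ
  obtain ⟨K, h2⟩ := tau_mass P σ χ
  obtain ⟨K', h3⟩ := tau_mom P σ χ
  have h4 : Tendsto (fun g => ENNReal.ofReal (B * 2) * (ENNReal.ofReal (P.s g ^ 2) * K +
      ENNReal.ofReal (K' / g))) atTop (𝓝 0) := by
    have h5 : Tendsto (fun g => ENNReal.ofReal (P.s g ^ 2)) atTop (𝓝 0) := by
      have := ENNReal.tendsto_ofReal (P.s_lim.pow 2)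
      simpa using this
    have h6 : Tendsto (fun g : ℝ => ENNReal.ofReal (K' / g)) atTop (𝓝 0) := by
      have h7 : Tendsto (fun g : ℝ => (K' : ℝ) / g) atTop (𝓝 0) :=
        tendsto_const_nhds.div_atTop tendsto_id
      have := ENNReal.tendsto_ofReal h7
      simpa using this
    have h8 := (ENNReal.Tendsto.mul_const h5 (Or.inr (ENNReal.coe_ne_top (r := K)))).add h6
    have h9 := ENNReal.Tendsto.const_mul (a := ENNReal.ofReal (B * 2)) h8
      (Or.inr ENNReal.ofReal_ne_top)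
    simpa using h9
  refine tendsto_of_tendsto_of_tendsto_of_le_of_le' tendsto_const_nhds h4
    (Eventually.of_forall fun _ => zero_le) ?_
  filter_upwards [h1, h2, h3, tau_supp_ball P σ χ, P.Psi_smooth, eventually_gt_atTop (0 : ℝ)]
    with g h1 h2 h3 hs hΨ hg
  have h5 : ∫⁻ u in Metric.ball (0 : Nor b (C.cf σ.X0)) σ.r,
      ENNReal.ofReal (dd C u ^ 2) * ENNReal.ofReal ((σ.j u)⁻¹ * ‖tau P σ g χ.fn u‖ ^ 2) ≤
      ∫⁻ u in Metric.ball (0 : Nor b (C.cf σ.X0)) σ.r, ENNReal.ofReal (B * 2) *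
        (ENNReal.ofReal (P.s g ^ 2) * ‖tau P σ g χ.fn u‖ₑ ^ 2 +
          ‖C.PM u‖ₑ ^ 2 * ‖tau P σ g χ.fn u‖ₑ ^ 2) := by
    refine lintegral_mono fun u => ?_
    have e1 : ‖tau P σ g χ.fn u‖ₑ ^ 2 = ENNReal.ofReal (‖tau P σ g χ.fn u‖ ^ 2) := by
      rw [ENNReal.ofReal_pow (norm_nonneg _), ofReal_norm]
    have e2 : ‖C.PM u‖ₑ ^ 2 = ENNReal.ofReal (‖C.PM u‖ ^ 2) := by
      rw [ENNReal.ofReal_pow (norm_nonneg _), ofReal_norm]
    simp only
    rw [e1, e2, ← ENNReal.ofReal_mul (by positivity), ← ENNReal.ofReal_mul (by positivity),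
      ← ENNReal.ofReal_mul (by positivity), ← ENNReal.ofReal_add (by positivity) (by positivity),
      ← ENNReal.ofReal_mul (by positivity)]
    refine ENNReal.ofReal_le_ofReal ?_
    by_cases h0 : tau P σ g χ.fn u = 0
    · rw [h0, norm_zero]
      simp
    · obtain ⟨-, -, h6, -⟩ := hs u h0
      have h7 : dd C u ^ 2 ≤ 2 * (P.s g ^ 2 + ‖C.PM u‖ ^ 2) := by
        unfold dd
        have := pow_le_pow_left₀ (norm_nonneg _) h6.le 2
        nlinarith [sq_nonneg (‖C.PY u‖ - ‖C.PM u‖)]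
      calc dd C u ^ 2 * ((σ.j u)⁻¹ * ‖tau P σ g χ.fn u‖ ^ 2)
          ≤ dd C u ^ 2 * (B * ‖tau P σ g χ.fn u‖ ^ 2) :=
            mul_le_mul_of_nonneg_left (h1 u u.2) (sq_nonneg _)
        _ ≤ (2 * (P.s g ^ 2 + ‖C.PM u‖ ^ 2)) * (B * ‖tau P σ g χ.fn u‖ ^ 2) :=
            mul_le_mul_of_nonneg_right h7 (by positivity)
        _ = _ := by ring
  refine h5.trans ?_
  rw [lintegral_const_mul' _ _ ENNReal.ofReal_ne_top]
  refine mul_le_mul_right ?_ _
  have hcont : ContinuousOn (fun u : Nor b (C.cf σ.X0) => tau P σ g χ.fn u)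
      (Metric.ball 0 σ.r) := by
    intro u hu
    have hur : ‖(u : Cfg N)‖ < σ.r := by simpa using hu
    have h6 := (TCore383.contDiffAt_tau P σ hg hΨ χ (TCore383.cfT_ball σ hur)).continuousAt
    exact (h6.comp continuous_subtype_val.continuousAt).continuousWithinAt
  have hae : AEMeasurable (fun u : Nor b (C.cf σ.X0) =>
      ENNReal.ofReal (P.s g ^ 2) * ‖tau P σ g χ.fn u‖ₑ ^ 2)
      (volume.restrict (Metric.ball 0 σ.r)) :=
    ((hcont.enorm.aemeasurable measurableSet_ball).pow_const 2).const_mul _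
  rw [lintegral_add_left' hae, lintegral_const_mul' _ _ ENNReal.ofReal_ne_top]
  exact add_le_add (mul_le_mul_right h2 _) h3

/-- slice concentration -/
theorem sconc (P : TPack C M R G) (σ : Sl C) (χ : Amp M G σ) :
    SConc b (C.cf σ.X0) σ.r σ.j (dd C) (fun g => Tgen P σ g χ.fn) := by
  refine sconc_of_moment continuous_dd ((tendsto_dd P σ χ).congr fun g => ?_)
  refine setLIntegral_congr_fun measurableSet_ball fun u hu => ?_
  rw [ofReal_slice P σ χ g u.2 (by simpa using hu)]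


/-- **Boundedness in `L²`.** -/
theorem bdd [Nontrivial F] (P : TPack C M R G) (σ : Sl C) (χ : Amp M G σ) :
    Conc815.Bdd atTop (fun g => Tgen P σ g χ.fn) := by
  obtain ⟨K, hK, h1⟩ := sbdd P σ χ
  refine bdd_of_slice (J := σ.j) σ.int ?_ (Eventually.of_forall fun g h x => ?_)
    (Eventually.of_forall fun g x hx => TCore383.Tgen_off P σ g χ.fn hx) hK.ne ?_
  · filter_upwards [TCore383.core P σ χ] with g hg
    exact ⟨hg.1.continuous, hg.2.1⟩
  · rw [TCore383.Tgen_act P σ g χ h x, Cov837.norm_rho]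
  · filter_upwards [h1] with g h1
    refine le_trans (le_of_eq ?_) h1
    refine setLIntegral_congr_fun measurableSet_ball fun u hu => ?_
    exact ofReal_slice P σ χ g u.2 (by simpa using hu)

/-- **Concentration of the trial states** (167's `HConc`). -/
theorem conc [Nontrivial F] (P : TPack C M R G) (σ : Sl C) (χ : Amp M G σ) :
    Conc815.Conc atTop (fun g => Tgen P σ g χ.fn)
      {x | ∃ h : Matrix.specialUnitaryGroup (Fin N) ℂ, ∃ X ∈ tsupport χ.fn,
        b.act h (C.cf X) = x} := by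
  have h1 : {x | ∃ h : Matrix.specialUnitaryGroup (Fin N) ℂ, ∃ X ∈ tsupport χ.fn,
      b.act h (C.cf X) = x} = orb b (C.cf '' tsupport χ.fn) := by
    ext x
    constructor
    · rintro ⟨h, X, hX, rfl⟩
      exact ⟨h, C.cf X, ⟨X, hX, rfl⟩, rfl⟩
    · rintro ⟨h, _, ⟨X, hX, rfl⟩, rfl⟩
      exact ⟨h, X, hX, rfl⟩
  rw [h1]
  refine conc_of_sconc (J := σ.j) σ.int continuous_dd ?_ (Eventually.of_forall fun g h x => ?_)
    (Eventually.of_forall fun g x hx => TCore383.Tgen_off P σ g χ.fn hx)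
    (Eventually.of_forall fun g u hu hr h0 => ?_) (sconc P σ χ)
  · filter_upwards [TCore383.core P σ χ] with g hg
    exact hg.1.continuous
  · rw [TCore383.Tgen_act P σ g χ h x, Cov837.norm_rho]
  · rw [TCore383.Tgen_slice P σ g χ hu hr] at h0
    have h2 : tau P σ g χ.fn u ≠ 0 := by
      intro h3
      rw [h3, smul_zero] at h0
      exact h0 rfl
    refine ⟨C.cf (σ.X0 + C.cfT u), ⟨_, (TCore383.tau_ne P σ g χ h2).1, rfl⟩, ?_⟩
    rw [dist_eq_norm, map_add]
    have h3 : C.cf σ.X0 + u - (C.cf σ.X0 + C.cf (C.cfT u)) = C.PY u + C.PM u := by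
      have h4 := C.decomp u
      calc C.cf σ.X0 + u - (C.cf σ.X0 + C.cf (C.cfT u)) = u - C.cf (C.cfT u) := by abel
        _ = (C.cf (C.cfT u) + C.PY u + C.PM u) - C.cf (C.cfT u) := by rw [← h4]
        _ = _ := by abel
    rw [h3]
    exact norm_add_le _ _

end Crest.Agent.R330.LitC974

end
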