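import Mathlib

/-!
# R330 (helper596): `SU(N)` as a compact topological group with its Haar probability measure

Instances on `SU N := Matrix.specialUnitaryGroup (Fin N) ℂ` (the type used in `Def_MatrixModel`):
topological group, compact, second countable, Borel measurable space; `haarSU N` with all
invariances. Everything is stated first for an arbitrary compact group (`haarP`).
-/

set_option autoImplicit false

open MeasureTheory Matrix Topology

noncomputable section
namespace Crest.Agent.R330.SUgrp596

/-! ### compact groups -/

section compact

variable (G : Type*) [Group G] [TopologicalSpace G] [IsTopologicalGroup G] [CompactSpace G]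
  [MeasurableSpace G] [BorelSpace G]

/-- Haar probability measure of a compact group -/
def haarP : Measure G := Measure.haarMeasure ⊤

instance : (haarP G).IsHaarMeasure := by unfold haarP; infer_instance

instance : IsProbabilityMeasure (haarP G) := ⟨by
  have := Measure.haarMeasure_self (K₀ := (⊤ : TopologicalSpace.PositiveCompacts G))
  simpa [haarP] using this⟩

instance : (haarP G).IsMulRightInvariant := ⟨fun g => by
  have h1 : (Measure.map (fun x => x * g) (haarP G)).IsHaarMeasure := by
    infer_instance
  have h2 : IsProbabilityMeasure (Measure.map (fun x => x * g) (haarP G)) :=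
    Measure.isProbabilityMeasure_map (by fun_prop)
  exact Measure.isHaarMeasure_eq_of_isProbabilityMeasure _ _⟩

instance : (haarP G).IsInvInvariant := ⟨by
  have h0 : (haarP G).inv.IsMulLeftInvariant := inferInstance
  have h2 : IsProbabilityMeasure (haarP G).inv := ⟨by simp [Measure.inv_apply]⟩
  have h1 : (haarP G).inv.IsHaarMeasure := by
    refine Measure.isHaarMeasure_of_isCompact_nonempty_interior (haarP G).inv Set.univ isCompact_univ ?_ ?_ ?_
    · simp
    · simp
    · simp
  exact Measure.isHaarMeasure_eq_of_isProbabilityMeasure _ _⟩

end compact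

/-! ### the special unitary group -/

/-- the special unitary group (the type used in `Def_MatrixModel`) -/
abbrev SU (N : ℕ) := Matrix.specialUnitaryGroup (Fin N) ℂ

variable {N : ℕ}




instance : IsTopologicalGroup (SU N) where
  continuous_mul := continuous_mul
  continuous_inv := by
    rw [continuous_induced_rng]
    exact continuous_star.comp continuous_subtype_val

theorem isCompact_SU : IsCompact ((SU N : Submonoid (Matrix (Fin N) (Fin N) ℂ)) : Set (Matrix (Fin N) (Fin N) ℂ)) := by
  have hK : IsCompact (Set.univ.pi fun _ : Fin N => Set.univ.pi fun _ : Fin N =>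
      Metric.closedBall (0 : ℂ) 1) :=
    isCompact_univ_pi fun _ => isCompact_univ_pi fun _ => isCompact_closedBall 0 1
  have h1 : IsClosed {U : Matrix (Fin N) (Fin N) ℂ | star U * U = 1} :=
    isClosed_eq (by fun_prop) (by fun_prop)
  have h2 : IsClosed {U : Matrix (Fin N) (Fin N) ℂ | U.det = 1} :=
    isClosed_eq (Continuous.matrix_det continuous_id) continuous_const
  have h3 : ((SU N : Submonoid (Matrix (Fin N) (Fin N) ℂ)) : Set (Matrix (Fin N) (Fin N) ℂ)) =
      {U : Matrix (Fin N) (Fin N) ℂ | star U * U = 1} ∩ {U : Matrix (Fin N) (Fin N) ℂ | U.det = 1} := by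
    ext U
    simp only [SetLike.mem_coe, mem_specialUnitaryGroup_iff, mem_unitaryGroup_iff',
      Set.mem_inter_iff, Set.mem_ofPred_eq]
  refine IsCompact.of_isClosed_subset hK (by rw [h3]; exact h1.inter h2) ?_
  intro U hU i _ j _
  rw [mem_closedBall_zero_iff]
  exact entry_norm_bound_of_unitary (mem_specialUnitaryGroup_iff.1 hU).1 i j

instance : CompactSpace (SU N) := isCompact_iff_compactSpace.1 isCompact_SU

instance : MeasurableSpace (SU N) := borel _

instance : BorelSpace (SU N) := ⟨rfl⟩

instance : SecondCountableTopology (SU N) :=
  haveI : SecondCountableTopology (Matrix (Fin N) (Fin N) ℂ) :=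
    inferInstanceAs (SecondCountableTopology (Fin N → Fin N → ℂ))
  TopologicalSpace.Subtype.secondCountableTopology
    ((SU N : Submonoid (Matrix (Fin N) (Fin N) ℂ)) : Set (Matrix (Fin N) (Fin N) ℂ))

/-- the Haar probability measure of `SU(N)` -/
abbrev haarSU (N : ℕ) : Measure (SU N) := haarP (SU N)

end Crest.Agent.R330.SUgrp596
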