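import Crest.Agent.R330.SlB_314
import Crest.Agent.R330.SUgrp_596

-- ▼ part R330/SlC_314
section

/-!
Row 330, S5b (slice theorem), part C: the quadratic estimate (QUAD) for orbits,
the nearest point property and (STAR).
-/

set_option autoImplicit false
noncomputable section

open Matrix
open Crest.MathPhysics.MatrixQM
open Crest.Agent.R330.SlA314 Crest.Agent.R330.SlB314

namespace Crest.Agent.R330.SlC314

open scoped Matrix.Norms.Frobenius

variable {N : ℕ} (b : ColorBasis N)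

theorem exists_approx {V W : Type*} [NormedAddCommGroup V] [NormedSpace ℂ V]
    [FiniteDimensional ℂ V] [NormedAddCommGroup W] [NormedSpace ℂ W] [FiniteDimensional ℂ W]
    (L : V →ₗ[ℂ] W) :
    ∃ K : ℝ, 0 < K ∧ ∀ u, ∃ d, L d = L u ∧ ‖d‖ ≤ K * ‖L u‖ := by
  have : CompleteSpace V := FiniteDimensional.complete ℂ V
  have : CompleteSpace (LinearMap.range L) := FiniteDimensional.complete ℂ _
  obtain ⟨K, hK, h⟩ := ContinuousLinearMap.exists_preimage_norm_le
    (LinearMap.toContinuousLinearMap L.rangeRestrict) L.surjective_rangeRestrict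
  refine ⟨K, hK, fun u => ?_⟩
  obtain ⟨d, hd, hd'⟩ := h (L.rangeRestrict u)
  refine ⟨d, ?_, ?_⟩
  · have := congrArg Subtype.val hd
    simpa using this
  · simpa using hd'

theorem frob_sq (A : Matrix (Fin N) (Fin N) ℂ) : ((‖A‖ ^ 2 : ℝ) : ℂ) = (A * Aᴴ).trace := by
  have h : ‖A‖ ^ 2 = ∑ i, ∑ j, ‖A i j‖ ^ 2 := by
    rw [Matrix.frobenius_norm_def]
    have h0 : 0 ≤ ∑ i, ∑ j, ‖A i j‖ ^ (2 : ℝ) :=
      Finset.sum_nonneg fun i _ => Finset.sum_nonneg fun j _ => by positivity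
    rw [← Real.rpow_natCast, ← Real.rpow_mul h0]
    norm_num
  rw [h]
  push_cast
  rw [Matrix.trace]
  refine Finset.sum_congr rfl fun i _ => ?_
  rw [Matrix.diag_apply, Matrix.mul_apply]
  refine Finset.sum_congr rfl fun j _ => ?_
  rw [Matrix.conjTranspose_apply]
  rw [← starRingEnd_apply, Complex.mul_conj]
  rw [Complex.normSq_eq_norm_sq]
  push_cast
  rfl

theorem norm_sq_mat (x : Cfg N) : ‖x‖ ^ 2 = ∑ i, ‖mat b x i‖ ^ 2 := by
  have h : ((‖x‖ ^ 2 : ℝ) : ℂ) = ((∑ i, ‖mat b x i‖ ^ 2 : ℝ) : ℂ) := by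
    rw [norm_sq_eq b]
    push_cast
    refine Finset.sum_congr rfl fun i _ => ?_
    have := frob_sq (mat b x i)
    push_cast at this
    rw [this, (mat_herm b x i).eq]
  exact_mod_cast h

theorem norm_mat_le (x : Cfg N) (i : Fin 9) : ‖mat b x i‖ ≤ ‖x‖ := by
  have h := norm_sq_mat b x
  have h1 : ‖mat b x i‖ ^ 2 ≤ ∑ i, ‖mat b x i‖ ^ 2 :=
    Finset.single_le_sum (f := fun i => ‖mat b x i‖ ^ 2) (fun i _ => by positivity)
      (Finset.mem_univ i)
  rw [← h] at h1
  exact (sq_le_sq₀ (norm_nonneg _) (norm_nonneg _)).1 h1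

theorem norm_le_of_mat (x : Cfg N) (M : ℝ) (hM : 0 ≤ M) (h : ∀ i, ‖mat b x i‖ ≤ M) :
    ‖x‖ ≤ 3 * M := by
  have h1 : ‖x‖ ^ 2 ≤ (3 * M) ^ 2 := by
    rw [norm_sq_mat b x]
    calc ∑ i, ‖mat b x i‖ ^ 2 ≤ ∑ _i : Fin 9, M ^ 2 :=
          Finset.sum_le_sum fun i _ => by
            have := h i
            gcongr
      _ = (3 * M) ^ 2 := by simp; ring
  exact (sq_le_sq₀ (norm_nonneg _) (by positivity)).1 h1

theorem norm_unitary (g : Matrix.specialUnitaryGroup (Fin N) ℂ) :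
    ‖(g : Matrix (Fin N) (Fin N) ℂ)‖ ≤ Real.sqrt N := by
  have h := frob_sq (g : Matrix (Fin N) (Fin N) ℂ)
  rw [← Matrix.star_eq_conjTranspose, mul_star_self', Matrix.trace_one, Fintype.card_fin] at h
  have h2 : ‖(g : Matrix (Fin N) (Fin N) ℂ)‖ ^ 2 = N := by exact_mod_cast h
  exact Real.le_sqrt_of_sq_le h2.le

/-- commutator with the nine matrices of `c` -/
def adC (c : Cfg N) : Matrix (Fin N) (Fin N) ℂ →ₗ[ℂ] (Fin 9 → Matrix (Fin N) (Fin N) ℂ) where
  toFun A := fun i => A * mat b c i - mat b c i * A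
  map_add' A B := by
    funext i
    simp only [Pi.add_apply]
    noncomm_ring
  map_smul' t A := by
    funext i
    simp only [Pi.smul_apply, RingHom.id_apply, smul_sub, smul_mul_assoc, mul_smul_comm]

theorem comm_norm (A C : Matrix (Fin N) (Fin N) ℂ) : ‖A * C - C * A‖ ≤ 2 * ‖A‖ * ‖C‖ := by
  calc ‖A * C - C * A‖ ≤ ‖A * C‖ + ‖C * A‖ := norm_sub_le _ _
    _ ≤ ‖A‖ * ‖C‖ + ‖C‖ * ‖A‖ := add_le_add (norm_mul_le _ _) (norm_mul_le _ _)
    _ = 2 * ‖A‖ * ‖C‖ := by ring

/-- an anti-Hermitian generator gives a tangent vector -/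
theorem exists_om (c : Cfg N) (Wa : Matrix (Fin N) (Fin N) ℂ) (hW : Waᴴ = -Wa) :
    ∃ om : Fin (N ^ 2 - 1) → ℝ, ∀ i, mat b (brx b om c) i = Wa * mat b c i - mat b c i * Wa := by
  rcases Nat.eq_zero_or_pos N with hN | hN
  · subst hN
    exact ⟨0, fun i => Subsingleton.elim _ _⟩
  set H : Matrix (Fin N) (Fin N) ℂ := Complex.I • Wa with hH
  have hHh : H.IsHermitian := by
    unfold Matrix.IsHermitian
    rw [hH, Matrix.conjTranspose_smul, hW]
    simp
  have htr : ((H.trace.re : ℝ) : ℂ) = H.trace := by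
    apply Complex.conj_eq_iff_re.1
    rw [starRingEnd_apply, ← Matrix.trace_conjTranspose, hHh.eq]
  set τ : ℝ := H.trace.re / N with hτ
  set H0 : Matrix (Fin N) (Fin N) ℂ := H - (τ : ℂ) • 1 with hH0
  have hH0h : H0.IsHermitian := by
    unfold Matrix.IsHermitian
    rw [hH0, Matrix.conjTranspose_sub, hHh.eq, Matrix.conjTranspose_smul,
      Matrix.conjTranspose_one]
    simp
  have hN' : (N : ℂ) ≠ 0 := by exact_mod_cast hN.ne'
  have hH0t : H0.trace = 0 := by
    have h1 : H0.trace = H.trace - (τ : ℂ) * N := by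
      rw [hH0, trace_sub, trace_smul (τ : ℂ) (1 : Matrix (Fin N) (Fin N) ℂ), trace_one,
        Fintype.card_fin, smul_eq_mul]
    rw [h1, hτ]
    push_cast
    rw [htr]
    field_simp
    ring
  refine ⟨fun A => (b.T A * H0).trace.re, fun i => ?_⟩
  rw [mat_brx, exists_cm b H0 hH0h hH0t, hH0, hH]
  simp only [Matrix.sub_mul, Matrix.mul_sub, smul_mul_assoc, mul_smul_comm, Matrix.one_mul,
    Matrix.mul_one, smul_sub, smul_smul, neg_smul, neg_mul]
  simp

theorem quad (c : Cfg N) : ∃ K : ℝ, 0 < K ∧ ∀ g : Matrix.specialUnitaryGroup (Fin N) ℂ,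
    ∃ om : Fin (N ^ 2 - 1) → ℝ,
      ‖b.act g c - c - brx b om c‖ ≤ K * ‖b.act g c - c‖ ^ 2 := by
  obtain ⟨K, hK, hL⟩ := exists_approx (adC b c)
  set S : ℝ := Real.sqrt N with hS
  have hS0 : 0 ≤ S := Real.sqrt_nonneg _
  refine ⟨9 * (K * S) ^ 2 * ‖c‖ + 1, by positivity, fun g => ?_⟩
  set U : Matrix (Fin N) (Fin N) ℂ := (g : Matrix (Fin N) (Fin N) ℂ) with hU
  have hUs : star U * U = 1 := star_mul_self' g
  have hsU : U * star U = 1 := mul_star_self' g
  rw [Matrix.star_eq_conjTranspose] at hUs hsU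
  set R : Cfg N := b.act g c - c with hR
  have hmR : ∀ i, mat b R i = U * mat b c i * Uᴴ - mat b c i := by
    intro i
    rw [hR, mat_sub, mat_act, Matrix.star_eq_conjTranspose]
  obtain ⟨D, hD, hDn⟩ := hL U
  have hcomm : ∀ i, U * mat b c i - mat b c i * U = mat b R i * U := by
    intro i
    rw [hmR, Matrix.sub_mul, Matrix.mul_assoc (U * mat b c i), hUs, Matrix.mul_one]
  have hadn : ‖adC b c U‖ ≤ S * ‖R‖ := by
    refine (pi_norm_le_iff_of_nonneg (by positivity)).2 fun i => ?_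
    change ‖U * mat b c i - mat b c i * U‖ ≤ _
    rw [hcomm]
    calc ‖mat b R i * U‖ ≤ ‖mat b R i‖ * ‖U‖ := norm_mul_le _ _
      _ ≤ ‖R‖ * S := mul_le_mul (norm_mat_le b R i) (norm_unitary g) (norm_nonneg _)
          (norm_nonneg _)
      _ = S * ‖R‖ := mul_comm _ _
  have hDn' : ‖D‖ ≤ K * S * ‖R‖ := by
    calc ‖D‖ ≤ K * ‖adC b c U‖ := hDn
      _ ≤ K * (S * ‖R‖) := by gcongr
      _ = K * S * ‖R‖ := by ring
  have hDc : ∀ i, D * mat b c i - mat b c i * D = U * mat b c i - mat b c i * U := fun i =>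
    congrFun hD i
  set A : Matrix (Fin N) (Fin N) ℂ := U - D with hA
  have hAc : ∀ i, A * mat b c i = mat b c i * A := by
    intro i
    have := hDc i
    rw [hA, Matrix.sub_mul, Matrix.mul_sub]
    rw [sub_eq_sub_iff_add_eq_add] at this ⊢
    rw [add_comm (U * mat b c i), add_comm (mat b c i * U)] at *
    exact this.symm
  have hAc' : ∀ i, Aᴴ * mat b c i = mat b c i * Aᴴ := by
    intro i
    have := congrArg Matrix.conjTranspose (hAc i)
    rw [Matrix.conjTranspose_mul, Matrix.conjTranspose_mul, (mat_herm b c i).eq] at this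
    exact this.symm
  set W : Matrix (Fin N) (Fin N) ℂ := D * Aᴴ with hW
  have hWW : W + Wᴴ = 1 - A * Aᴴ - D * Dᴴ := by
    have hUU : (A + D) * (A + D)ᴴ = 1 := by
      rw [hA, sub_add_cancel]; exact hsU
    rw [Matrix.conjTranspose_add, Matrix.add_mul, Matrix.mul_add, Matrix.mul_add] at hUU
    rw [hW, Matrix.conjTranspose_mul, Matrix.conjTranspose_conjTranspose, ← hUU]
    abel
  set Wa : Matrix (Fin N) (Fin N) ℂ := (1 / 2 : ℂ) • (W - Wᴴ) with hWa
  have hWah : Waᴴ = -Wa := by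
    rw [hWa, Matrix.conjTranspose_smul, Matrix.conjTranspose_sub,
      Matrix.conjTranspose_conjTranspose, ← smul_neg, neg_sub]
    simp
  obtain ⟨om, hom⟩ := exists_om b c Wa hWah
  refine ⟨om, ?_⟩
  have key : ∀ i, mat b (R - brx b om c) i =
      (D * mat b c i - mat b c i * D) * Dᴴ -
        (1 / 2 : ℂ) • (D * Dᴴ * mat b c i - mat b c i * (D * Dᴴ)) := by
    intro i
    rw [mat_sub, hom, hmR]
    have h1 : U * mat b c i * Uᴴ - mat b c i = (D * mat b c i - mat b c i * D) * Uᴴ := by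
      rw [hDc, Matrix.sub_mul, Matrix.mul_assoc (mat b c i), hsU, Matrix.mul_one]
    have h2 : Uᴴ = Aᴴ + Dᴴ := by rw [hA, ← Matrix.conjTranspose_add, sub_add_cancel]
    have h3 : (D * mat b c i - mat b c i * D) * Aᴴ = W * mat b c i - mat b c i * W := by
      rw [hW, Matrix.sub_mul, Matrix.mul_assoc, ← hAc', ← Matrix.mul_assoc,
        Matrix.mul_assoc (mat b c i)]
    have h4 : W * mat b c i - mat b c i * W =
        (Wa * mat b c i - mat b c i * Wa) -
          (1 / 2 : ℂ) • (D * Dᴴ * mat b c i - mat b c i * (D * Dᴴ)) := by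
      have h5 : W = Wa + (1 / 2 : ℂ) • (1 - A * Aᴴ - D * Dᴴ) := by
        rw [← hWW, hWa, ← smul_add]
        have : W - Wᴴ + (W + Wᴴ) = (2 : ℂ) • W := by rw [two_smul]; abel
        rw [this, smul_smul]
        norm_num
      have h6 : A * Aᴴ * mat b c i = mat b c i * (A * Aᴴ) := by
        rw [Matrix.mul_assoc, hAc', ← Matrix.mul_assoc, hAc, Matrix.mul_assoc]
      conv_lhs => rw [h5]
      simp only [Matrix.add_mul, Matrix.mul_add, smul_mul_assoc, mul_smul_comm, Matrix.sub_mul,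
        Matrix.mul_sub, Matrix.one_mul, Matrix.mul_one, smul_sub, h6]
      abel
    rw [h1, h2, Matrix.mul_add, h3, h4]
    abel
  have hkey : ∀ i, ‖mat b (R - brx b om c) i‖ ≤ 3 * (K * S * ‖R‖) ^ 2 * ‖c‖ := by
    intro i
    rw [key]
    have hDs : ‖Dᴴ‖ = ‖D‖ := Matrix.frobenius_norm_conjTranspose D
    have e1 : ‖(D * mat b c i - mat b c i * D) * Dᴴ‖ ≤ 2 * ‖D‖ ^ 2 * ‖c‖ := by
      calc _ ≤ ‖D * mat b c i - mat b c i * D‖ * ‖Dᴴ‖ := norm_mul_le _ _
        _ ≤ (2 * ‖D‖ * ‖mat b c i‖) * ‖D‖ := by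
            rw [hDs]
            gcongr
            exact comm_norm _ _
        _ ≤ (2 * ‖D‖ * ‖c‖) * ‖D‖ := by
            gcongr
            exact norm_mat_le b c i
        _ = 2 * ‖D‖ ^ 2 * ‖c‖ := by ring
    have e2 : ‖(1 / 2 : ℂ) • (D * Dᴴ * mat b c i - mat b c i * (D * Dᴴ))‖ ≤ ‖D‖ ^ 2 * ‖c‖ := by
      rw [norm_smul]
      have e3 : ‖D * Dᴴ‖ ≤ ‖D‖ ^ 2 := by
        calc ‖D * Dᴴ‖ ≤ ‖D‖ * ‖Dᴴ‖ := norm_mul_le _ _
          _ = ‖D‖ ^ 2 := by rw [hDs]; ring
      have e4 : ‖D * Dᴴ * mat b c i - mat b c i * (D * Dᴴ)‖ ≤ 2 * ‖D‖ ^ 2 * ‖c‖ := by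
        calc _ ≤ 2 * ‖D * Dᴴ‖ * ‖mat b c i‖ := comm_norm _ _
          _ ≤ 2 * ‖D‖ ^ 2 * ‖c‖ := by
            gcongr
            exact norm_mat_le b c i
      have e5 : ‖(1 / 2 : ℂ)‖ = 1 / 2 := by norm_num
      rw [e5]
      nlinarith
    calc _ ≤ ‖(D * mat b c i - mat b c i * D) * Dᴴ‖ +
          ‖(1 / 2 : ℂ) • (D * Dᴴ * mat b c i - mat b c i * (D * Dᴴ))‖ := norm_sub_le _ _
      _ ≤ 2 * ‖D‖ ^ 2 * ‖c‖ + ‖D‖ ^ 2 * ‖c‖ := add_le_add e1 e2
      _ = 3 * ‖D‖ ^ 2 * ‖c‖ := by ring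
      _ ≤ 3 * (K * S * ‖R‖) ^ 2 * ‖c‖ := by gcongr
  have := norm_le_of_mat b (R - brx b om c) _ (by positivity) hkey
  calc ‖R - brx b om c‖ ≤ 3 * (3 * (K * S * ‖R‖) ^ 2 * ‖c‖) := this
    _ = (9 * (K * S) ^ 2 * ‖c‖) * ‖R‖ ^ 2 := by ring
    _ ≤ (9 * (K * S) ^ 2 * ‖c‖ + 1) * ‖R‖ ^ 2 := by
        gcongr
        linarith

/-- (QUAD) in the form used below -/
theorem quad_inner (c : Cfg N) : ∃ K : ℝ, 0 < K ∧
    ∀ (g : Matrix.specialUnitaryGroup (Fin N) ℂ) (y : Cfg N), y ∈ Nor b c →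
      inner ℝ y (b.act g c - c) ≤ K * ‖y‖ * ‖b.act g c - c‖ ^ 2 := by
  obtain ⟨K, hK, h⟩ := quad b c
  refine ⟨K, hK, fun g y hy => ?_⟩
  obtain ⟨om, hom⟩ := h g
  have h1 : inner ℝ y (brx b om c) = (0 : ℝ) := by
    rw [real_inner_comm]
    exact (mem_Nor b).1 hy om
  have h2 : inner ℝ y (b.act g c - c) = inner ℝ y (b.act g c - c - brx b om c) := by
    rw [inner_sub_right _ (b.act g c - c), h1, sub_zero]
  rw [h2]
  calc inner ℝ y (b.act g c - c - brx b om c) ≤ ‖y‖ * ‖b.act g c - c - brx b om c‖ :=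
        real_inner_le_norm _ _
    _ ≤ ‖y‖ * (K * ‖b.act g c - c‖ ^ 2) := by gcongr
    _ = K * ‖y‖ * ‖b.act g c - c‖ ^ 2 := by ring

/-- nearest point property: `r1` is a uniform radius -/
theorem nearest (c : Cfg N) : ∃ r1 : ℝ, 0 < r1 ∧
    ∀ (g : Matrix.specialUnitaryGroup (Fin N) ℂ) (y : Cfg N), y ∈ Nor b c → ‖y‖ < r1 →
      ‖y‖ ^ 2 + ‖b.act g c - c‖ ^ 2 / 2 ≤ ‖c + y - b.act g c‖ ^ 2 := by
  obtain ⟨K, hK, h⟩ := quad_inner b c
  refine ⟨1 / (4 * K), by positivity, fun g y hy hr => ?_⟩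
  have h1 : c + y - b.act g c = y - (b.act g c - c) := by abel
  rw [h1, norm_sub_sq_real y (b.act g c - c)]
  have h2 := h g y hy
  have h3 : K * ‖y‖ ≤ 1 / 4 := by
    rw [lt_div_iff₀ (by positivity)] at hr
    linarith
  have h4 : K * ‖y‖ * ‖b.act g c - c‖ ^ 2 ≤ 1 / 4 * ‖b.act g c - c‖ ^ 2 := by
    gcongr
  linarith

/-- (STAR): two points of the slice of radius `r1` are related only by the stabiliser of `c` -/
theorem star (c : Cfg N) : ∃ r1 : ℝ, 0 < r1 ∧
    (∀ (g : Matrix.specialUnitaryGroup (Fin N) ℂ) (y : Cfg N), y ∈ Nor b c → ‖y‖ < r1 →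
      ‖y‖ ^ 2 + ‖b.act g c - c‖ ^ 2 / 2 ≤ ‖c + y - b.act g c‖ ^ 2) ∧
    ∀ (g : Matrix.specialUnitaryGroup (Fin N) ℂ) (y y' : Cfg N), y ∈ Nor b c → y' ∈ Nor b c →
      ‖y‖ < r1 → ‖y'‖ < r1 → b.act g (c + y) = c + y' → b.act g c = c := by
  obtain ⟨r1, hr1, h⟩ := nearest b c
  refine ⟨r1, hr1, h, fun g y y' hy hy' hn hn' he => ?_⟩
  have h1 := h g y' hy' hn'
  have h2 := h g⁻¹ y hy hn
  have e1 : ‖c + y' - b.act g c‖ = ‖y‖ := by
    rw [← he, ← act_sub, act_norm]
    congr 1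
    abel
  have e2 : ‖c + y - b.act g⁻¹ c‖ = ‖y'‖ := by
    have : c + y - b.act g⁻¹ c = b.act g⁻¹ y' := by
      have : b.act g⁻¹ (c + y') = c + y := by rw [← he, act_inv_act]
      rw [← this, ← act_sub]
      congr 1
      abel
    rw [this, act_norm]
  rw [e1] at h1
  rw [e2] at h2
  have h3 : ‖b.act g c - c‖ ^ 2 ≤ 0 := by
    have := sq_nonneg ‖b.act g⁻¹ c - c‖
    linarith
  have h4 : ‖b.act g c - c‖ = 0 := by
    have := sq_nonneg ‖b.act g c - c‖
    exact pow_eq_zero_iff (two_ne_zero) |>.1 (le_antisymm h3 this)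
  exact sub_eq_zero.1 (norm_eq_zero.1 h4)

end Crest.Agent.R330.SlC314
end
end

-- ▼ part R330/SlD_314

/-!
Row 330, S5b (slice theorem), part D: the exponential elements of `SU(N)`, smoothness of the
action in exponential coordinates, derivative, tubes.
-/

set_option autoImplicit false
noncomputable section

open Matrix
open Crest.MathPhysics.MatrixQM
open Crest.Agent.R330.SlA314 Crest.Agent.R330.SlB314 Crest.Agent.R330.SlC314
open scoped ContDiff

namespace Crest.Agent.R330.SlD314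

open scoped Matrix.Norms.Operator

variable {N : ℕ} (b : ColorBasis N)

/-- the skew-Hermitian matrix `-i Ω` -/
def gen (om : Fin (N ^ 2 - 1) → ℝ) : Matrix (Fin N) (Fin N) ℂ := -Complex.I • cm b om

theorem gen_conjTranspose (om : Fin (N ^ 2 - 1) → ℝ) : (gen b om)ᴴ = -gen b om := by
  unfold gen
  rw [Matrix.conjTranspose_smul, (cm_herm b om).eq]
  simp

theorem gen_smul (t : ℝ) (om : Fin (N ^ 2 - 1) → ℝ) : gen b (t • om) = t • gen b om := by
  unfold gen
  rw [cm_smul, smul_comm]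
  rfl

theorem gen_neg (om : Fin (N ^ 2 - 1) → ℝ) : gen b (-om) = -gen b om := by
  have := gen_smul b (-1) om
  simpa using this

theorem det_exp_gen (om : Fin (N ^ 2 - 1) → ℝ) : (NormedSpace.exp (gen b om)).det = 1 := by
  classical
  have hH := cm_herm b om
  set V := hH.eigenvectorUnitary with hV
  have hsp := hH.spectral_theorem
  have hVV : (V : Matrix (Fin N) (Fin N) ℂ) * star (V : Matrix (Fin N) (Fin N) ℂ) = 1 :=
    Matrix.mem_unitaryGroup_iff.1 V.2
  have hVV' : star (V : Matrix (Fin N) (Fin N) ℂ) * (V : Matrix (Fin N) (Fin N) ℂ) = 1 :=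
    Matrix.mem_unitaryGroup_iff'.1 V.2
  have hunit : IsUnit (V : Matrix (Fin N) (Fin N) ℂ) :=
    ⟨⟨V, star (V : Matrix (Fin N) (Fin N) ℂ), hVV, hVV'⟩, rfl⟩
  have hinv : (V : Matrix (Fin N) (Fin N) ℂ)⁻¹ = star (V : Matrix (Fin N) (Fin N) ℂ) :=
    Matrix.inv_eq_right_inv hVV
  have hg : gen b om = (V : Matrix (Fin N) (Fin N) ℂ) *
      Matrix.diagonal (fun i => -Complex.I * (hH.eigenvalues i : ℂ)) *
        (V : Matrix (Fin N) (Fin N) ℂ)⁻¹ := by
    rw [hinv]
    unfold gen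
    conv_lhs => rw [hsp]
    have : Matrix.diagonal (fun i => -Complex.I * (hH.eigenvalues i : ℂ)) =
        -Complex.I • Matrix.diagonal (fun i => (hH.eigenvalues i : ℂ)) := by
      ext i j
      by_cases h : i = j
      · subst h; simp
      · simp [h]
    rw [this, mul_smul_comm, smul_mul_assoc]
    rfl
  rw [hg, Matrix.exp_conj _ _ hunit, Matrix.det_mul, Matrix.det_mul, Matrix.exp_diagonal,
    Matrix.det_diagonal, mul_right_comm, ← Matrix.det_mul,
    Matrix.mul_nonsing_inv _ ((Matrix.isUnit_iff_isUnit_det _).1 hunit), Matrix.det_one, one_mul]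
  have h2 : ∀ i, (NormedSpace.exp (fun i => -Complex.I * (hH.eigenvalues i : ℂ))) i =
      Complex.exp (-Complex.I * (hH.eigenvalues i : ℂ)) := by
    intro i
    rw [Pi.coe_exp, Complex.exp_eq_exp_ℂ]
  simp only [h2]
  rw [← Complex.exp_sum, ← Finset.mul_sum]
  have h3 : ∑ i, (hH.eigenvalues i : ℂ) = 0 := by
    have := hH.trace_eq_sum_eigenvalues
    rw [cm_trace] at this
    exact this.symm
  rw [h3, mul_zero, Complex.exp_zero]

theorem exp_gen_star_mul (om : Fin (N ^ 2 - 1) → ℝ) :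
    star (NormedSpace.exp (gen b om)) * NormedSpace.exp (gen b om) = 1 := by
  rw [Matrix.star_eq_conjTranspose, ← Matrix.exp_conjTranspose, gen_conjTranspose,
    ← Matrix.exp_add_of_commute _ _ (Commute.neg_left (Commute.refl (gen b om)))]
  simp

/-- `exp(-i Ω)` as an element of `SU(N)` -/
def gexp (om : Fin (N ^ 2 - 1) → ℝ) : Matrix.specialUnitaryGroup (Fin N) ℂ :=
  ⟨NormedSpace.exp (gen b om), Matrix.mem_specialUnitaryGroup_iff.2
    ⟨Matrix.mem_unitaryGroup_iff'.2 (exp_gen_star_mul b om), det_exp_gen b om⟩⟩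

theorem gexp_val (om : Fin (N ^ 2 - 1) → ℝ) :
    ((gexp b om : Matrix.specialUnitaryGroup (Fin N) ℂ) : Matrix (Fin N) (Fin N) ℂ) =
      NormedSpace.exp (gen b om) := rfl

theorem gexp_zero : gexp b 0 = 1 := by
  apply Subtype.ext
  rw [gexp_val]
  have : gen b (0 : Fin (N ^ 2 - 1) → ℝ) = 0 := by
    have := gen_smul b 0 (0 : Fin (N ^ 2 - 1) → ℝ)
    simpa using this
  rw [this, NormedSpace.exp_zero]
  rfl



theorem exp_gen_star (om : Fin (N ^ 2 - 1) → ℝ) :
    star (NormedSpace.exp (gen b om)) = NormedSpace.exp (gen b (-om)) := by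
  rw [Matrix.star_eq_conjTranspose, ← Matrix.exp_conjTranspose, gen_conjTranspose, gen_neg]

/-- reconstruction of a configuration from nine matrices (real parts of `Tr(T_A M_i)`) -/
def recon : (Fin 9 → Matrix (Fin N) (Fin N) ℂ) →ₗ[ℝ] Cfg N where
  toFun M := WithLp.toLp 2 fun iA => (b.T iA.2 * M iA.1).trace.re
  map_add' M M' := by
    ext iA
    simp [Matrix.mul_add, trace_add]
  map_smul' t M := by
    ext iA
    simp [trace_smul]

theorem recon_mat (x : Cfg N) : recon b (fun i => mat b x i) = x := by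
  ext iA
  change (b.T iA.2 * mat b x iA.1).trace.re = _
  rw [mat_eq, T_mul_cm_trace]
  simp

/-- `mat` as a real linear map in `x` -/
def matL (i : Fin 9) : Cfg N →ₗ[ℝ] Matrix (Fin N) (Fin N) ℂ where
  toFun x := mat b x i
  map_add' x y := mat_add b x y i
  map_smul' t x := by
    rw [mat_smul]
    rfl

/-- `gen` as a real linear map -/
def genL : (Fin (N ^ 2 - 1) → ℝ) →ₗ[ℝ] Matrix (Fin N) (Fin N) ℂ where
  toFun om := gen b om
  map_add' u v := by
    unfold gen
    rw [cm_add, smul_add]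
  map_smul' t u := by
    rw [gen_smul]
    rfl

theorem act_gexp_eq (om : Fin (N ^ 2 - 1) → ℝ) (x : Cfg N) :
    b.act (gexp b om) x = recon b (fun i =>
      NormedSpace.exp (gen b om) * mat b x i * NormedSpace.exp (gen b (-om))) := by
  rw [← recon_mat b (b.act (gexp b om) x)]
  congr 1
  funext i
  rw [mat_act, gexp_val, exp_gen_star]

theorem contDiff_exp_mat : ContDiff ℝ ∞
    (NormedSpace.exp : Matrix (Fin N) (Fin N) ℂ → Matrix (Fin N) (Fin N) ℂ) := by
  rw [contDiff_iff_contDiffAt]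
  intro x
  exact (NormedSpace.exp_analytic (𝕂 := ℝ) x).contDiffAt

theorem contDiff_gen_exp : ContDiff ℝ ∞
    (fun om : Fin (N ^ 2 - 1) → ℝ => NormedSpace.exp (gen b om)) :=
  contDiff_exp_mat.comp (LinearMap.toContinuousLinearMap (genL b)).contDiff

/-- the action is jointly smooth in exponential coordinates -/
theorem contDiff_act_gexp : ContDiff ℝ ∞
    (fun p : (Fin (N ^ 2 - 1) → ℝ) × Cfg N => b.act (gexp b p.1) p.2) := by
  have h : (fun p : (Fin (N ^ 2 - 1) → ℝ) × Cfg N => b.act (gexp b p.1) p.2) =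
      fun p => (LinearMap.toContinuousLinearMap (recon b)) (fun i =>
        NormedSpace.exp (gen b p.1) * mat b p.2 i * NormedSpace.exp (gen b (-p.1))) := by
    funext p
    exact act_gexp_eq b p.1 p.2
  rw [h]
  refine (ContinuousLinearMap.contDiff _).comp ?_
  rw [contDiff_pi]
  intro i
  refine ContDiff.mul (ContDiff.mul ?_ ?_) ?_
  · exact (contDiff_gen_exp b).comp contDiff_fst
  · exact (LinearMap.toContinuousLinearMap (matL b i)).contDiff.comp contDiff_snd
  · exact (contDiff_gen_exp b).comp contDiff_fst.neg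

theorem hasDerivAt_act (om : Fin (N ^ 2 - 1) → ℝ) (x : Cfg N) (t : ℝ) :
    HasDerivAt (fun t : ℝ => b.act (gexp b (t • om)) x)
      (brx b om (b.act (gexp b (t • om)) x)) t := by
  have h1 : HasDerivAt (fun u : ℝ => NormedSpace.exp (u • gen b om))
      (gen b om * NormedSpace.exp (t • gen b om)) t :=
    hasDerivAt_exp_smul_const' (𝕂 := ℝ) (gen b om) t
  have h2 : HasDerivAt (fun u : ℝ => NormedSpace.exp (u • gen b (-om)))
      (NormedSpace.exp (t • gen b (-om)) * gen b (-om)) t :=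
    hasDerivAt_exp_smul_const (𝕂 := ℝ) (gen b (-om)) t
  have h3 : HasDerivAt (fun u : ℝ => (fun i : Fin 9 =>
      NormedSpace.exp (u • gen b om) * mat b x i * NormedSpace.exp (u • gen b (-om))))
      (fun i => (gen b om * NormedSpace.exp (t • gen b om)) * mat b x i *
        NormedSpace.exp (t • gen b (-om)) +
        NormedSpace.exp (t • gen b om) * mat b x i *
          (NormedSpace.exp (t • gen b (-om)) * gen b (-om))) t := by
    refine hasDerivAt_pi.2 fun i => ?_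
    exact (h1.mul_const (mat b x i)).mul h2
  have h4 := (LinearMap.toContinuousLinearMap (recon b)).hasFDerivAt.comp_hasDerivAt t h3
  have e1 : (fun t : ℝ => b.act (gexp b (t • om)) x) =
      (LinearMap.toContinuousLinearMap (recon b)) ∘ (fun u : ℝ => (fun i : Fin 9 =>
      NormedSpace.exp (u • gen b om) * mat b x i * NormedSpace.exp (u • gen b (-om)))) := by
    funext u
    rw [act_gexp_eq, gen_smul, ← smul_neg, gen_smul]
    rfl
  have e0 : b.act (gexp b (t • om)) x = ((LinearMap.toContinuousLinearMap (recon b)) ∘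
      (fun u : ℝ => (fun i : Fin 9 =>
      NormedSpace.exp (u • gen b om) * mat b x i * NormedSpace.exp (u • gen b (-om))))) t :=
    congrFun e1 t
  rw [e0, e1]
  refine h4.congr_deriv ?_
  symm
  rw [← recon_mat b (brx b om _)]
  change recon b _ = recon b _
  congr 1
  funext i
  rw [mat_brx]
  have e2 : mat b (((LinearMap.toContinuousLinearMap (recon b)) ∘ (fun u : ℝ => (fun i : Fin 9 =>
      NormedSpace.exp (u • gen b om) * mat b x i * NormedSpace.exp (u • gen b (-om))))) t) i =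
      NormedSpace.exp (t • gen b om) * mat b x i * NormedSpace.exp (t • gen b (-om)) := by
    rw [← congrFun e1 t, mat_act, gexp_val, exp_gen_star, gen_smul, ← smul_neg, gen_smul]
  rw [e2]
  rw [gen_neg]
  unfold gen
  simp only [smul_sub, smul_mul_assoc, mul_smul_comm, neg_smul, neg_mul, mul_neg, smul_neg,
    Matrix.mul_assoc]
  abel

theorem hasDerivAt_act_zero (om : Fin (N ^ 2 - 1) → ℝ) (x : Cfg N) :
    HasDerivAt (fun t : ℝ => b.act (gexp b (t • om)) x) (brx b om x) 0 := by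
  have h := hasDerivAt_act b om x 0
  rwa [zero_smul, gexp_zero, act_one] at h

/-! ### tubes -/

theorem continuous_act : Continuous
    (fun p : Matrix.specialUnitaryGroup (Fin N) ℂ × Cfg N => b.act p.1 p.2) := by
  have h : (fun p : Matrix.specialUnitaryGroup (Fin N) ℂ × Cfg N => b.act p.1 p.2) =
      fun p => (LinearMap.toContinuousLinearMap (recon b)) (fun i =>
        (p.1 : Matrix (Fin N) (Fin N) ℂ) * mat b p.2 i *
          star (p.1 : Matrix (Fin N) (Fin N) ℂ)) := by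
    funext p
    rw [← recon_mat b (b.act p.1 p.2)]
    change recon b _ = recon b _
    congr 1
    funext i
    rw [mat_act]
  rw [h]
  refine (ContinuousLinearMap.continuous _).comp ?_
  rw [continuous_pi_iff]
  intro i
  have h1 : Continuous fun p : Matrix.specialUnitaryGroup (Fin N) ℂ × Cfg N =>
      (p.1 : Matrix (Fin N) (Fin N) ℂ) := continuous_subtype_val.comp continuous_fst
  have h2 : Continuous fun p : Matrix.specialUnitaryGroup (Fin N) ℂ × Cfg N => mat b p.2 i :=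
    (LinearMap.toContinuousLinearMap (matL b i)).continuous.comp continuous_snd
  exact (h1.mul h2).mul h1.star

theorem continuous_act_left (x : Cfg N) :
    Continuous fun g : Matrix.specialUnitaryGroup (Fin N) ℂ => b.act g x := by
  have h2 : Continuous (fun g : Matrix.specialUnitaryGroup (Fin N) ℂ =>
      ((g, x) : Matrix.specialUnitaryGroup (Fin N) ℂ × Cfg N)) := by fun_prop
  change Continuous ((fun p : Matrix.specialUnitaryGroup (Fin N) ℂ × Cfg N => b.act p.1 p.2) ∘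
    (fun g : Matrix.specialUnitaryGroup (Fin N) ℂ =>
      ((g, x) : Matrix.specialUnitaryGroup (Fin N) ℂ × Cfg N)))
  exact Continuous.comp (continuous_act b) h2

/-- every point has a nearest point on the orbit, and the difference (moved back) is normal -/
theorem exists_slice (c x : Cfg N) : ∃ (g : Matrix.specialUnitaryGroup (Fin N) ℂ) (y : Cfg N),
    y ∈ Nor b c ∧ b.act g (c + y) = x ∧ ∀ h : Matrix.specialUnitaryGroup (Fin N) ℂ,
      ‖y‖ ≤ ‖x - b.act h c‖ := by
  have hcont : Continuous fun g : Matrix.specialUnitaryGroup (Fin N) ℂ => ‖x - b.act g c‖ :=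
    (continuous_const.sub (continuous_act_left b c)).norm
  obtain ⟨g, -, hg⟩ := (isCompact_univ : IsCompact (Set.univ :
    Set (Matrix.specialUnitaryGroup (Fin N) ℂ))).exists_isMinOn ⟨1, trivial⟩ hcont.continuousOn
  have hmin : ∀ h, ‖x - b.act g c‖ ≤ ‖x - b.act h c‖ := fun h => hg (Set.mem_univ h)
  set y : Cfg N := b.act g⁻¹ x - c with hy
  have hyn : ∀ h, ‖y‖ ≤ ‖c + y - b.act h c‖ := by
    intro h
    have e1 : ‖y‖ = ‖x - b.act g c‖ := by
      rw [hy, ← act_norm b g, act_sub, act_act_inv]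
    have e2 : ‖c + y - b.act h c‖ = ‖x - b.act (g * h) c‖ := by
      have : c + y = b.act g⁻¹ x := by rw [hy]; abel
      rw [this, ← act_norm b g, act_sub, act_act_inv, act_mul]
    rw [e1, e2]
    exact hmin _
  refine ⟨g, y, ?_, ?_, ?_⟩
  · rw [mem_Nor]
    intro om
    -- first order condition
    set f : ℝ → ℝ := fun t => ‖c + y - b.act (gexp b (t • om)) c‖ ^ 2 with hf
    have hd : HasDerivAt f (2 * inner ℝ (c + y - b.act (gexp b ((0 : ℝ) • om)) c)
        (-brx b om c)) 0 := by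
      have h0 : HasDerivAt (fun t : ℝ => c + y - b.act (gexp b (t • om)) c) (-brx b om c) 0 :=
        (hasDerivAt_act_zero b om c).const_sub (c + y)
      exact h0.norm_sq
    have hloc : IsLocalMin f 0 := by
      refine Filter.Eventually.of_forall fun t => ?_
      have h1 := hyn (gexp b (t • om))
      have h2 : f 0 = ‖y‖ ^ 2 := by
        simp only [hf, zero_smul, gexp_zero, act_one]
        congr 2
        abel
      rw [h2]
      exact pow_le_pow_left₀ (norm_nonneg _) h1 2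
    have h0 := hloc.hasDerivAt_eq_zero hd
    rw [zero_smul, gexp_zero, act_one] at h0
    have e : c + y - c = y := by abel
    rw [e, inner_neg_right] at h0
    rw [real_inner_comm]
    linarith
  · rw [hy]
    have : c + (b.act g⁻¹ x - c) = b.act g⁻¹ x := by abel
    rw [this, act_act_inv]
  · intro h
    have h1 := hyn (g⁻¹ * h)
    have e2 : ‖c + y - b.act (g⁻¹ * h) c‖ = ‖x - b.act h c‖ := by
      have : c + y = b.act g⁻¹ x := by rw [hy]; abel
      rw [this, act_mul, ← act_sub, act_norm]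
    rwa [e2] at h1

/-- the tube of radius `r` around the orbit of `c` -/
def tube (c : Cfg N) (r : ℝ) : Set (Cfg N) := {x | ∃ g, ‖x - b.act g c‖ < r}

theorem isOpen_tube (c : Cfg N) (r : ℝ) : IsOpen (tube b c r) := by
  have : tube b c r = ⋃ g, Metric.ball (b.act g c) r := by
    ext x
    simp [tube, dist_eq_norm]
  rw [this]
  exact isOpen_iUnion fun g => Metric.isOpen_ball

theorem mem_tube_iff (c : Cfg N) (r : ℝ) (x : Cfg N) :
    x ∈ tube b c r ↔ ∃ (g : Matrix.specialUnitaryGroup (Fin N) ℂ) (y : Cfg N),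
      y ∈ Nor b c ∧ ‖y‖ < r ∧ b.act g (c + y) = x := by
  constructor
  · rintro ⟨h, hh⟩
    obtain ⟨g, y, hy, he, hn⟩ := exists_slice b c x
    exact ⟨g, y, hy, (hn h).trans_lt hh, he⟩
  · rintro ⟨g, y, hy, hn, rfl⟩
    refine ⟨g, ?_⟩
    rw [← act_sub, act_norm]
    have e : c + y - c = y := by abel
    rwa [e]

theorem act_mem_tube {c : Cfg N} {r : ℝ} {x : Cfg N}
    (g : Matrix.specialUnitaryGroup (Fin N) ℂ) : b.act g x ∈ tube b c r ↔ x ∈ tube b c r := by
  constructor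
  · rintro ⟨h, hh⟩
    refine ⟨g⁻¹ * h, ?_⟩
    rw [act_mul, ← act_norm b g, act_sub, act_act_inv]
    exact hh
  · rintro ⟨h, hh⟩
    refine ⟨g * h, ?_⟩
    rw [act_mul, ← act_sub, act_norm]
    exact hh

end Crest.Agent.R330.SlD314
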