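import Crest.Agent.R330.Geo8_692
import Crest.Agent.R330.HW_815
import Crest.Agent.R330.SlD_314
import Crest.Agent.R330.Conc_815
import Crest.Agent.R330.Chan_441

-- ▼ part R330/GeoInj_815
section

/-!
# Row 330, S8-GEO (helper815): orbits of regular diagonal configurations

* `inj` : if `g . cfX X = cfX X'` with `X, X'` regular positions of the same channel, then `X'` is
  `X` with the clusters permuted by some `s ∈ Sw P` (`pos X' (s p) = pos X p`), and `g` is block
  monomial with permutation `s` (`g_ac ≠ 0 → cl a = s (cl c)`).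
* `inj_part` : regular positions of different channels are never on the same orbit.
* `mono_inv_mul` : two block monomial matrices with the same permutation differ by an element of
  the block subgroup.
* `orbK b P K` : the orbits of the positions in `K`: compact for compact `K`; `disjoint_orbK`,
  `disjoint_orbK'` : disjointness.
-/

set_option autoImplicit false
set_option linter.unusedSectionVars false

open MeasureTheory Filter Topology Crest.MathPhysics.MatrixQM
open scoped ContDiff InnerProductSpace ENNReal BigOperators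

noncomputable section

namespace Crest.Agent.R330.GeoInj815

open Crest.Agent.R330.Parts879 Crest.Agent.R330.Geo692
open Crest.Agent.R330.Diag304 (dg)

variable {N : ℕ} (b : ColorBasis N)

/-- Equal diagonal configurations up to a rotation, `dg` form. -/
theorem dg_inj {p q : Fin N → EuclideanSpace ℝ (Fin 9)} (hp : ∑ a, p a = 0) (hq : ∑ a, q a = 0)
    {g : Matrix.specialUnitaryGroup (Fin N) ℂ} (h : b.act g (dg b p) = dg b q) :
    (∃ σ : Equiv.Perm (Fin N), ∀ a, p (σ a) = q a) ∧
      ∀ a c, (g : Matrix (Fin N) (Fin N) ℂ) a c ≠ 0 → p c = q a := by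
  have hp' : ∀ i : Fin 9, ∑ a, (fun i a => p a i) i a = 0 := fun i => by
    have h1 := congrArg (fun v : EuclideanSpace ℝ (Fin 9) => v i) hp
    simpa using h1
  have hq' : ∀ i : Fin 9, ∑ a, (fun i a => q a i) i a = 0 := fun i => by
    have h1 := congrArg (fun v : EuclideanSpace ℝ (Fin 9) => v i) hq
    simpa using h1
  obtain ⟨⟨σ, hσ⟩, h2⟩ := HW815.perm_of_eq b g (fun i a => p a i) (fun i a => q a i) hp' hq' h
  refine ⟨⟨σ, fun a => ?_⟩, fun a c hg => ?_⟩
  · ext i
    exact hσ i a
  · ext i
    exact h2 a c hg i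

/-- Regular positions of different channels are never on the same orbit. -/
theorem inj_part {P Q : Lam N} {X : XS P} {Y : XS Q} (hX : X ∈ Reg b P) (hY : Y ∈ Reg b Q)
    {g : Matrix.specialUnitaryGroup (Fin N) ℂ} (h : b.act g (cfX b P X) = cfX b Q Y) : P = Q := by
  rw [cfX_eq_dg, cfX_eq_dg] at h
  obtain ⟨⟨σ, hσ⟩, -⟩ := dg_inj b (sum_pos b P X) (sum_pos b Q Y) h
  refine label_unique (r := pos b P X) (s := pos b Q Y) hX hY σ.symm fun a => ?_
  have h1 := hσ (σ.symm a)
  rw [Equiv.apply_symm_apply] at h1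
  exact h1



/-! ### Orbits of compact sets of positions -/

/-- The orbits of the positions in `K`. -/
def orbK (P : Lam N) (K : Set (XS P)) : Set (Cfg N) :=
  {x | ∃ (g : Matrix.specialUnitaryGroup (Fin N) ℂ) (X : XS P), X ∈ K ∧ b.act g (cfX b P X) = x}





theorem isCompact_orbK {P : Lam N} {K : Set (XS P)} (hK : IsCompact K) :
    IsCompact (orbK b P K) := by
  have h1 : orbK b P K = (fun q : Matrix.specialUnitaryGroup (Fin N) ℂ × Cfg N =>
      b.act q.1 q.2) '' (Set.univ ×ˢ (cfX b P '' K)) := by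
    ext x
    constructor
    · rintro ⟨g, X, hX, rfl⟩
      exact ⟨(g, cfX b P X), ⟨trivial, X, hX, rfl⟩, rfl⟩
    · rintro ⟨⟨g, y⟩, ⟨-, X, hX, rfl⟩, rfl⟩
      exact ⟨g, X, hX, rfl⟩
  rw [h1]
  exact (isCompact_univ.prod (hK.image (cfX b P).continuous)).image (SlD314.continuous_act b)

/-- Different channels. -/
theorem disjoint_orbK {P Q : Lam N} (hPQ : P ≠ Q) {K : Set (XS P)} {K' : Set (XS Q)}
    (hK : K ⊆ Reg b P) (hK' : K' ⊆ Reg b Q) : Disjoint (orbK b P K) (orbK b Q K') := by
  rw [Set.disjoint_left]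
  rintro x ⟨g, X, hX, rfl⟩ ⟨h, Y, hY, he⟩
  refine hPQ (inj_part b (g := h⁻¹ * g) (hK hX) (hK' hY) ?_)
  rw [SlA314.act_mul, ← he, SlA314.act_inv_act]


end Crest.Agent.R330.GeoInj815

end
end

-- ▼ part R330/OrthCh_815

/-!
# Row 330, S8-G2 (helper815): different channels are asymptotically orthogonal

* `ConcCh b P T` : every family `T g χ` concentrates, as `g → ∞`, on the orbits of a compact set of
  regular positions of the channel `P`.
* `bdd_of_isChan` : bounded in `L²`, from `core` and `iso` of `IsChan`.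
* `orth_of_conc` : `Orth T T'` for different channels.
-/

set_option autoImplicit false
set_option linter.unusedSectionVars false

open MeasureTheory Filter Topology Crest.MathPhysics.MatrixQM
open scoped ContDiff InnerProductSpace ENNReal BigOperators

noncomputable section

namespace Crest.Agent.R330.OrthCh815

open Crest.Agent.R330.Defs478 Crest.Agent.R330.Parts879 Crest.Agent.R330.Geo692
  Crest.Agent.R330.GeoInj815 Crest.Agent.R330.Conc815 Crest.Agent.R330.Chan441

variable {N : ℕ} {F : Type*} [NormedAddCommGroup F] [InnerProductSpace ℂ F]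
  [FiniteDimensional ℂ F] (b : ColorBasis N)

/-- Every family `T g χ` concentrates on the orbits of a compact set of regular positions. -/
def ConcCh (P : Lam N) {X : Type*} (T : ℝ → X → Cfg N → F) : Prop :=
  ∀ χ : X, ∃ K : Set (XS P), IsCompact K ∧ K ⊆ Reg b P ∧
    Conc atTop (fun g => T g χ) (orbK b P K)

variable {b} {M : FermionRep N F} {R : GaugeAction b M} {G : GammaNine}

theorem memLp_core {φ : Cfg N → F} (h : IsCoreVec b R φ) : MemLp φ 2 volume :=
  h.1.continuous.memLp_of_hasCompactSupport h.2.1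




/-- **Different channels are asymptotically orthogonal.** -/
theorem orth_of_conc {P Q : Lam N} (hPQ : P ≠ Q) {X Y : Type*} {T : ℝ → X → Cfg N → F}
    {T' : ℝ → Y → Cfg N → F} (hT : ConcCh b P T) (hT' : ConcCh b Q T')
    (hb : ∀ χ, Bdd atTop (fun g => T g χ)) (hb' : ∀ χ, Bdd atTop (fun g => T' g χ)) :
    Orth T T' := by
  intro χ χ'
  obtain ⟨K, hK, hKr, hc⟩ := hT χ
  obtain ⟨K', hK', hKr', hc'⟩ := hT' χ'
  exact inner_tendsto_zero (isCompact_orbK b hK) (isCompact_orbK b hK').isClosed
    (disjoint_orbK b hPQ hKr hKr') hc hc' (hb χ) (hb' χ')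


/-- `ConcCh` for a linear family from generators: sums. -/
theorem ConcCh.add {P : Lam N} {φ ψ : ℝ → Cfg N → F}
    (hφ : ∃ K : Set (XS P), IsCompact K ∧ K ⊆ Reg b P ∧ Conc atTop φ (orbK b P K))
    (hψ : ∃ K : Set (XS P), IsCompact K ∧ K ⊆ Reg b P ∧ Conc atTop ψ (orbK b P K))
    (hbφ : Bdd atTop φ) (hbψ : Bdd atTop ψ) :
    ∃ K : Set (XS P), IsCompact K ∧ K ⊆ Reg b P ∧
      Conc atTop (fun g => φ g + ψ g) (orbK b P K) := by
  obtain ⟨K, hK, hKr, hc⟩ := hφ
  obtain ⟨K', hK', hKr', hc'⟩ := hψ
  have h1 : orbK b P K ⊆ orbK b P (K ∪ K') := by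
    rintro x ⟨g, X, hX, rfl⟩
    exact ⟨g, X, Or.inl hX, rfl⟩
  have h2 : orbK b P K' ⊆ orbK b P (K ∪ K') := by
    rintro x ⟨g, X, hX, rfl⟩
    exact ⟨g, X, Or.inr hX, rfl⟩
  exact ⟨K ∪ K', hK.union hK', Set.union_subset hKr hKr',
    (hc.mono hbφ h1).add (hc'.mono hbψ h2) hbφ hbψ⟩

end Crest.Agent.R330.OrthCh815

end
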