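import Crest.Agent.R330.Chn_692
import Crest.Agent.R330.CapGlue_737
import Crest.Agent.R330.LitC_974
import Crest.Agent.R330.OrthCh_815
import Crest.Agent.R330.Rad_969
import Crest.Agent.R330.TCore_383
import Crest.Agent.R330.ChSys_399
import Crest.Agent.R330.LitB_974
import Crest.Agent.R330.FreeFx2_122
import Crest.Agent.R330.FactG_161
import Crest.Agent.R330.ChFlat_718

-- ▼ part R330/S2P_692
section

/-!
# Row 330, S9-S2C, partition half (helper692): diagonal configurations and channels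

* `exists_permSU` : every permutation of the indices is implemented by an element of `SU(N)`;
  `act_dg_perm`.
* `exists_chn` : a diagonal configuration with two different positions is conjugate to a regular
  configuration `cfX b P X` of one channel; `exists_chn'` for `diagCfg`.
-/

set_option autoImplicit false
set_option linter.unusedSectionVars false

open MeasureTheory Filter Topology Crest.MathPhysics.MatrixQM
open scoped ContDiff InnerProductSpace ENNReal BigOperators

noncomputable section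

namespace Crest.Agent.R330.Geo692

open Crest.Agent.R330.Parts879 Crest.Agent.R330.LS839 Crest.Agent.R330.Bind6839
open Crest.Agent.R330.Frame839 (kc Tn)
open Crest.Agent.R330.Blk304 (hm cf hs)
open Crest.Agent.R330.Diag304 (dg)

variable {N : ℕ} (b : ColorBasis N)

/-- **Permutations are implemented by elements of `SU(N)`.** -/
theorem exists_permSU (τ : Equiv.Perm (Fin N)) : ∃ w : Matrix.specialUnitaryGroup (Fin N) ℂ,
    ∀ f : Fin N → ℂ, (w : Matrix (Fin N) (Fin N) ℂ) * Matrix.diagonal f *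
      star (w : Matrix (Fin N) (Fin N) ℂ) = Matrix.diagonal fun a => f (τ⁻¹ a) := by
  classical
  rcases Nat.eq_zero_or_pos N with rfl | hN
  · exact ⟨1, fun f => Subsingleton.elim _ _⟩
  set e : ℂ := (((Equiv.Perm.sign τ : ℤˣ) : ℤ) : ℂ) with he
  have hee : e * e = 1 := by
    rw [he]
    rcases Int.units_eq_one_or (Equiv.Perm.sign τ) with h | h <;> rw [h] <;> norm_num
  set d : Fin N → ℂ := fun a => if a = ⟨0, hN⟩ then e else 1 with hd
  have hdd : ∀ a, d a * star (d a) = 1 := by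
    intro a
    simp only [hd]
    split_ifs
    · have : star e = e := by
        rw [he]
        simp
      rw [this, hee]
    · simp
  set W : Matrix (Fin N) (Fin N) ℂ := Matrix.diagonal d * (Equiv.Perm.permMatrix ℂ τ⁻¹) with hW
  have hWapp : ∀ a c, W a c = if a = τ c then d a else 0 := by
    intro a c
    rw [hW, Matrix.diagonal_mul]
    have h1 : (Equiv.Perm.permMatrix ℂ τ⁻¹ : Matrix (Fin N) (Fin N) ℂ) a c =
        if τ⁻¹ a = c then 1 else 0 := by
      rw [Equiv.Perm.permMatrix, PEquiv.toMatrix_apply]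
      simp [Equiv.toPEquiv_apply, eq_comm]
    rw [h1]
    by_cases h : a = τ c
    · subst h
      simp
    · have h2 : ¬ (τ⁻¹ a = c) := fun h3 => h (by rw [← h3, sia])
      rw [if_neg h, if_neg h2, mul_zero]
  have hWD : ∀ f : Fin N → ℂ, W * Matrix.diagonal f * star W =
      Matrix.diagonal fun a => f (τ⁻¹ a) := by
    intro f
    ext a c
    rw [Matrix.mul_apply]
    simp only [Matrix.star_apply, Matrix.mul_diagonal, hWapp]
    by_cases hac : a = c
    · subst hac
      rw [Matrix.diagonal_apply_eq, Finset.sum_eq_single (τ⁻¹ a)]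
      · simp only [sia, if_true]
        calc d a * f (τ⁻¹ a) * star (d a) = f (τ⁻¹ a) * (d a * star (d a)) := by ring
          _ = f (τ⁻¹ a) := by rw [hdd, mul_one]
      · intro x _ hx
        have : ¬ (a = τ x) := fun h => hx (by rw [h, ias])
        simp [this]
      · intro h
        exact absurd (Finset.mem_univ _) h
    · rw [Matrix.diagonal_apply_ne _ hac]
      refine Finset.sum_eq_zero fun x _ => ?_
      by_cases h : a = τ x
      · have h2 : ¬ (c = τ x) := fun h' => hac (h.trans h'.symm)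
        simp [h2]
      · simp [h]
  have hWW : W * star W = 1 := by
    have h1 := hWD fun _ => 1
    rw [Matrix.diagonal_one, Matrix.mul_one] at h1
    exact h1
  have hdet : W.det = 1 := by
    rw [hW, Matrix.det_mul, Matrix.det_diagonal, Matrix.det_permutation]
    have h1 : ∏ a, d a = e := by
      rw [Finset.prod_eq_single (⟨0, hN⟩ : Fin N)]
      · simp [hd]
      · intro x _ hx
        simp [hd, hx]
      · intro h
        exact absurd (Finset.mem_univ _) h
    rw [h1, Equiv.Perm.sign_inv]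
    exact hee
  have hU : W ∈ Matrix.unitaryGroup (Fin N) ℂ := Matrix.mem_unitaryGroup_iff.2 hWW
  exact ⟨⟨W, Matrix.mem_specialUnitaryGroup_iff.2 ⟨hU, hdet⟩⟩, hWD⟩

/-- Permutation of the positions of a diagonal configuration. -/
theorem act_dg_perm (τ : Equiv.Perm (Fin N)) : ∃ w : Matrix.specialUnitaryGroup (Fin N) ℂ,
    ∀ r : Fin N → EuclideanSpace ℝ (Fin 9), ∑ a, r a = 0 →
      b.act w (dg b r) = dg b fun a => r (τ⁻¹ a) := by
  obtain ⟨w, hw⟩ := exists_permSU τ
  refine ⟨w, fun r hr => ?_⟩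
  have hr' : ∑ a, r (τ⁻¹ a) = 0 := by
    rw [Equiv.sum_comp τ⁻¹ r, hr]
  apply Blk304.mat_inj b
  intro i
  rw [Blk304.mat_act, Diag304.mat_dg b hr, Diag304.mat_dg b hr', hw]

/-- **Every diagonal configuration with two different positions belongs to a channel.** -/
theorem exists_chn {r : Fin N → EuclideanSpace ℝ (Fin 9)} (hr : ∑ a, r a = 0) {a c : Fin N}
    (hac : r a ≠ r c) : ∃ (P : Lam N) (X : XS P), X ∈ Reg b P ∧
      ∃ h : Matrix.specialUnitaryGroup (Fin N) ℂ, b.act h (dg b r) = cfX b P X := by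
  obtain ⟨P, s, τ, hs, hl⟩ := exists_label r ⟨a, c, hac⟩
  have h0 : ∑ p, (P.k p : ℝ) • s p = 0 := by
    have h1 : ∑ a, s (P.cl a) = 0 := by
      rw [← hr, ← Equiv.sum_comp τ r]
      exact Finset.sum_congr rfl fun a _ => (hl a).symm
    rw [← h1]
    ext i
    have h2 := sum_cl P fun p => s p i
    have h3 : (∑ p, (P.k p : ℝ) • s p) i = ∑ p, (P.k p : ℝ) * s p i := by simp
    have h4 : (∑ a, s (P.cl a)) i = ∑ a, s (P.cl a) i := by simp
    rw [h3, h4, h2]
  obtain ⟨X, hX⟩ := exists_pos b P h0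
  refine ⟨P, X, fun p q hpq => hs ?_, ?_⟩
  · rw [← hX p, ← hX q]
    exact hpq
  · obtain ⟨w, hw⟩ := act_dg_perm b τ⁻¹
    refine ⟨w, ?_⟩
    rw [hw r hr, cfX_eq_dg]
    congr 1
    funext a
    rw [inv_inv, hl, hX]

/-- The same for `diagCfg`. -/
theorem exists_chn' {p : Fin 9 → Fin N → ℝ} (hp : ∀ i, ∑ a, p i a = 0) {a c : Fin N}
    (hac : ∃ i, p i a ≠ p i c) : ∃ (P : Lam N) (X : XS P), X ∈ Reg b P ∧
      ∃ h : Matrix.specialUnitaryGroup (Fin N) ℂ,
        b.act h (AcomV302.diagCfg b p) = cfX b P X := by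
  set r : Fin N → EuclideanSpace ℝ (Fin 9) := fun a => WithLp.toLp 2 fun i => p i a with hrd
  have hr : ∑ a, r a = 0 := by
    ext i
    have h1 : (∑ a, r a) i = ∑ a, r a i := by simp
    rw [h1]
    exact hp i
  have hne : r a ≠ r c := by
    obtain ⟨i, hi⟩ := hac
    intro h
    exact hi (congrArg (fun v : EuclideanSpace ℝ (Fin 9) => v i) h)
  obtain ⟨P, X, hX, h, hh⟩ := exists_chn b hr hne
  exact ⟨P, X, hX, h, by rw [← hh, Diag304.dg_eq_diagCfg]⟩

end Crest.Agent.R330.Geo692

end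
end

-- ▼ part R330/Orbit_737
section

/-!
# Row 330, S9-S2C (helper737): `OrbitT b` from helper692's `exists_chn'`
-/

set_option autoImplicit false

open Crest.MathPhysics.MatrixQM

namespace Crest.Agent.R330.CapGlue737

open Crest.Agent.R330.Strata737 Crest.Agent.R330.TDef414 Crest.Agent.R330.Parts879
  Crest.Agent.R330.Geo692

theorem orbitT {N : ℕ} (b : ColorBasis N) : OrbitT b := by
  intro q hq hn
  have hex : ∃ a c : Fin N, ∃ i, q i a ≠ q i c := by
    by_contra hcon
    push Not at hcon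
    have hsub : (Set.range (pt q)).Subsingleton := by
      rintro _ ⟨a, rfl⟩ _ ⟨c, rfl⟩
      funext i
      exact hcon a c i
    have h1 : nv q ≤ 1 := by
      unfold nv
      exact (Set.ncard_le_one hsub.finite).2 fun x hx y hy => hsub hx hy
    omega
  obtain ⟨a, c, hac⟩ := hex
  obtain ⟨P, X, hX, h, he⟩ := exists_chn' b hq hac
  exact ⟨P, X, h, (chn_Reg b P X).2 hX, he⟩

end Crest.Agent.R330.CapGlue737
end

-- ▼ part R330/ConcT_974
section

/-!
# Row 330, S8-G2 (helper974): different channels are asymptotically orthogonal, literally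

* `CC b P φ` : bounded in `L²` and concentrated on the orbits of a compact set of regular
  positions of the channel `P`; stable under sums and multiples.
* `concCh_TT` : 815's `ConcCh` for 414's trial map `TT` over 692's geometry `chn b P`.
* **`orth_TT`** : `Orth` of the trial maps of two different channels.
-/

set_option autoImplicit false
set_option linter.unusedSectionVars false

open MeasureTheory Filter Topology Crest.MathPhysics.MatrixQM
open scoped ContDiff InnerProductSpace ENNReal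

noncomputable section

namespace Crest.Agent.R330.ConcT974

open Crest.Agent.R330.Defs478 Crest.Agent.R330.Parts879 Crest.Agent.R330.Geo692
  Crest.Agent.R330.GeoInj815 Crest.Agent.R330.Conc815 Crest.Agent.R330.Chan441
  Crest.Agent.R330.TDef414 Crest.Agent.R330.OrthCh815

section abstract

variable {E : Type*} [NormedAddCommGroup E] [MeasureSpace E] [BorelSpace E]
  {F : Type*} [NormedAddCommGroup F] [InnerProductSpace ℂ F] {ι : Type*} {l : Filter ι}

theorem bdd_zero : Bdd l (fun (_ : ι) => (0 : E → F)) :=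
  ⟨0, le_rfl, Eventually.of_forall fun _ => ⟨MemLp.zero, by simp⟩⟩

theorem conc_zero (K : Set E) : Conc l (fun (_ : ι) => (0 : E → F)) K := by
  intro ρ _
  simp only [Pi.zero_apply, norm_zero, ne_eq, OfNat.ofNat_ne_zero, not_false_eq_true, zero_pow,
    integral_zero]
  exact tendsto_const_nhds

theorem bdd_add {φ ψ : ι → E → F} (h1 : Bdd l φ) (h2 : Bdd l ψ) :
    Bdd l (fun g => φ g + ψ g) := by
  obtain ⟨C1, hC1, hb1⟩ := h1
  obtain ⟨C2, hC2, hb2⟩ := h2
  refine ⟨2 * C1 + 2 * C2, by positivity, ?_⟩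
  filter_upwards [hb1, hb2] with g hg1 hg2
  refine ⟨hg1.1.add hg2.1, ?_⟩
  have i1 := sq_int hg1.1
  have i2 := sq_int hg2.1
  calc ∫ x, ‖(φ g + ψ g) x‖ ^ 2 ≤ ∫ x, (2 * ‖φ g x‖ ^ 2 + 2 * ‖ψ g x‖ ^ 2) := by
        refine integral_mono_of_nonneg (Eventually.of_forall fun x => by positivity)
          ((i1.const_mul 2).add (i2.const_mul 2)) (Eventually.of_forall fun x => ?_)
        have h4 : ‖φ g x + ψ g x‖ ≤ ‖φ g x‖ + ‖ψ g x‖ := norm_add_le _ _
        have h5 : ‖φ g x + ψ g x‖ ^ 2 ≤ (‖φ g x‖ + ‖ψ g x‖) ^ 2 :=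
          pow_le_pow_left₀ (norm_nonneg _) h4 2
        change ‖φ g x + ψ g x‖ ^ 2 ≤ 2 * ‖φ g x‖ ^ 2 + 2 * ‖ψ g x‖ ^ 2
        nlinarith [sq_nonneg (‖φ g x‖ - ‖ψ g x‖)]
    _ = 2 * (∫ x, ‖φ g x‖ ^ 2) + 2 * ∫ x, ‖ψ g x‖ ^ 2 := by
        rw [integral_add (i1.const_mul 2) (i2.const_mul 2), integral_const_mul,
          integral_const_mul]
    _ ≤ 2 * C1 + 2 * C2 := by
        have := hg1.2
        have := hg2.2
        linarith

theorem bdd_smul (c : ℂ) {φ : ι → E → F} (h1 : Bdd l φ) : Bdd l (fun g => c • φ g) := by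
  obtain ⟨C1, hC1, hb1⟩ := h1
  refine ⟨‖c‖ ^ 2 * C1, by positivity, ?_⟩
  filter_upwards [hb1] with g hg1
  refine ⟨hg1.1.const_smul c, ?_⟩
  have h2 : ∀ x, ‖(c • φ g) x‖ ^ 2 = ‖c‖ ^ 2 * ‖φ g x‖ ^ 2 := by
    intro x
    rw [Pi.smul_apply, norm_smul, mul_pow]
  simp only [h2]
  rw [integral_const_mul]
  exact mul_le_mul_of_nonneg_left hg1.2 (by positivity)

theorem conc_smul (c : ℂ) {φ : ι → E → F} {K : Set E} (h : Conc l φ K) :
    Conc l (fun g => c • φ g) K := by
  intro ρ hρ
  have h1 := (h ρ hρ).const_mul (‖c‖ ^ 2)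
  rw [mul_zero] at h1
  refine h1.congr fun g => ?_
  rw [← integral_const_mul]
  refine integral_congr_ae (Eventually.of_forall fun x => ?_)
  change ‖c‖ ^ 2 * ‖φ g x‖ ^ 2 = ‖c • φ g x‖ ^ 2
  rw [norm_smul, mul_pow]

end abstract

variable {N : ℕ} {b : ColorBasis N} {F : Type*} [NormedAddCommGroup F] [InnerProductSpace ℂ F]
  [FiniteDimensional ℂ F] {M : FermionRep N F} {R : GaugeAction b M} {G : GammaNine}

/-- Bounded and concentrated on the orbits of a compact set of regular positions. -/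
def CC (b : ColorBasis N) (P : Lam N) (φ : ℝ → Cfg N → F) : Prop :=
  Bdd atTop φ ∧ ∃ K : Set (XS P), IsCompact K ∧ K ⊆ Reg b P ∧ Conc atTop φ (orbK b P K)

variable {P : Lam N}

theorem cc_zero : CC b P (fun _ => (0 : Cfg N → F)) :=
  ⟨bdd_zero, ∅, isCompact_empty, Set.empty_subset _, conc_zero _⟩

theorem cc_add {φ ψ : ℝ → Cfg N → F} (h1 : CC b P φ) (h2 : CC b P ψ) :
    CC b P (fun g => φ g + ψ g) :=
  ⟨bdd_add h1.1 h2.1, ConcCh.add h1.2 h2.2 h1.1 h2.1⟩

theorem cc_smul (c : ℂ) {φ : ℝ → Cfg N → F} (h1 : CC b P φ) : CC b P (fun g => c • φ g) := by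
  obtain ⟨K, hK, hr, hc⟩ := h1.2
  exact ⟨bdd_smul c h1.1, K, hK, hr, conc_smul c hc⟩

/-- One generator. -/
theorem cc_gen [Nontrivial F] (T : TPack (chn b P) M R G) (σ : Sl (chn b P)) (χ : Amp M G σ) :
    CC b P (fun g => Tgen T σ g χ.fn) := by
  refine ⟨LitC974.bdd T σ χ, tsupport χ.fn, χ.compact, fun X hX => ?_, ?_⟩
  · exact (chn_Reg b P X).1 (χ.off X hX).reg
  · have h1 := LitC974.conc T σ χ
    have h2 : {x | ∃ h : Matrix.specialUnitaryGroup (Fin N) ℂ, ∃ X ∈ tsupport χ.fn,
        b.act h ((chn b P).cf X) = x} = orbK b P (tsupport χ.fn) := by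
      ext x
      constructor
      · rintro ⟨h, X, hX, rfl⟩
        exact ⟨h, X, hX, rfl⟩
      · rintro ⟨h, X, hX, rfl⟩
        exact ⟨h, X, hX, rfl⟩
    rwa [h2] at h1

/-- The trial map. -/
theorem cc_TT [Nontrivial F] (T : TPack (chn b P) M R G) (χ : XX (chn b P) M G) :
    CC b P (fun g => TT T g χ) := by
  induction χ using Finsupp.induction_linear with
  | zero =>
    simp only [map_zero]
    exact cc_zero
  | add χ χ' h h' =>
    simp only [map_add]
    exact cc_add h h'
  | single q c =>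
    have h1 : ∀ g, TT T g (Finsupp.single q c) = c • Tgen T q.1 g q.2.fn := fun g => by
      unfold TT
      rw [Finsupp.linearCombination_single]
    simp only [h1]
    exact cc_smul c (cc_gen T q.1 q.2)

theorem bdd_TT [Nontrivial F] (T : TPack (chn b P) M R G) (χ : XX (chn b P) M G) :
    Bdd atTop (fun g => TT T g χ) := (cc_TT T χ).1

/-- **815's `ConcCh` for the literal trial map.** -/
theorem concCh_TT [Nontrivial F] (T : TPack (chn b P) M R G) :
    ConcCh b P (fun g (χ : XX (chn b P) M G) => TT T g χ) := fun χ => (cc_TT T χ).2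

/-- **The trial maps of two different channels are asymptotically orthogonal.** -/
theorem orth_TT [Nontrivial F] {Q : Lam N} (hPQ : P ≠ Q) (T : TPack (chn b P) M R G)
    (T' : TPack (chn b Q) M R G) :
    Orth (fun g (χ : XX (chn b P) M G) => TT T g χ) (fun g (χ : XX (chn b Q) M G) => TT T' g χ) :=
  orth_of_conc hPQ (concCh_TT T) (concCh_TT T') (bdd_TT T) (bdd_TT T')

end Crest.Agent.R330.ConcT974

end
end

-- ▼ part R330/RadB_969
section

/-!
# Row 330, S8 (T2) (helper969): `RadT` of `ChSys_399` from (T1) and the two moment bounds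
-/

set_option autoImplicit false
set_option linter.unusedSectionVars false

open MeasureTheory Filter Topology Crest.MathPhysics.MatrixQM
open scoped ContDiff InnerProductSpace ENNReal NNReal

noncomputable section

namespace Crest.Agent.R330.Rad969

open Crest.Agent.R330.Defs478 Crest.Agent.R330.TDef414
open Crest.Agent.R330.SlB314 (Nor)

variable {N p : ℕ} {b : ColorBasis N} {S : Type} [Group S] [Fintype S]
  {C : Chn b p S} {F : Type} [NormedAddCommGroup F] [InnerProductSpace ℂ F]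
  [FiniteDimensional ℂ F] {M : FermionRep N F} {R : GaugeAction b M} {G : GammaNine}

theorem slOK (P : TPack C M R G) (σ : Sl C) (g : ℝ) (χ : Amp M G σ) : SlOK P σ g χ.fn :=
  TCore383.sliceFun P σ g χ

/-- **(T2)** for all generators, from the moment bounds. -/
theorem radT_of (P : TPack C M R G) (hC : ChSys399.CoreT P)
    (hL2 : ∀ (σ : Sl C) (χ : Amp M G σ), ∃ K : ℝ≥0, ∀ᶠ g in atTop,
      ∫⁻ y in Metric.ball (0 : Nor b (C.cf σ.X0)) σ.r, ‖tau P σ g χ.fn y‖ₑ ^ 2 ≤ K)
    (hmom : ∀ (σ : Sl C) (χ : Amp M G σ), Tendsto (fun g =>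
      ∫⁻ y in Metric.ball (0 : Nor b (C.cf σ.X0)) σ.r,
        ‖C.PM y‖ₑ ^ 2 * ‖tau P σ g χ.fn y‖ₑ ^ 2) atTop (𝓝 0)) : ChSys399.RadT P := by
  intro σ χ w hw
  exact rad P σ χ hw (hC σ) (fun χ' => Eventually.of_forall fun g => slOK P σ g χ')
    (hL2 σ χ) (hmom σ χ)

/-- **(T2) closed.** -/
theorem radT [Nontrivial F] (P : TPack C M R G) : ChSys399.RadT P :=
  radT_of P (fun σ χ => TCore383.core P σ χ) (fun σ χ => LitB974.tau_mass P σ χ)
    (fun σ χ => by
      obtain ⟨K, hK⟩ := LitB974.tau_mom P σ χ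
      have h1 : Tendsto (fun g : ℝ => ENNReal.ofReal ((K : ℝ) / g)) atTop (𝓝 0) := by
        have h2 : Tendsto (fun g : ℝ => (K : ℝ) / g) atTop (𝓝 0) :=
          tendsto_const_nhds.div_atTop tendsto_id
        have h3 := (ENNReal.continuous_ofReal.tendsto 0).comp h2
        rwa [ENNReal.ofReal_zero] at h3
      exact tendsto_of_tendsto_of_tendsto_of_le_of_le' tendsto_const_nhds h1
        (Eventually.of_forall fun _ => zero_le) hK)

end Crest.Agent.R330.Rad969
end
end

-- ▼ part R330/ChU_879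
section

/-!
# Row 330: the permutations of equal clusters on the amplitude space (helper879)

* `adC_cen`, `adC_stab`, `adC_orbit` : the adjoint action on the centre `C.cen`.
* `rho_gan`, `rho_mem_vacOf`, `rho_mem_Fx`, `rho_mem_Fl` : the light spaces are preserved.
* `ext_Fx` : two covariant maps which agree on the vacuum agree on `C.Fx`.
* `stab_fix` : the stabiliser of a regular configuration acts trivially on `C.Fx`
  (the field `TPack.stab_fix`); `rho_orbit`.
* `UF : S →* (C.Fx M G ≃ₗᵢ[ℂ] C.Fx M G)`, `OF : S →* (Pos p ≃ₗᵢ[ℝ] Pos p)`, `UF_thx`, `UF_xi`.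
* `oM`, `OF_eq`, `lift_UF`, `covA_UF`, `covB_UF` : the fields of `Chan566.Chan`.
-/

set_option autoImplicit false
set_option linter.unusedSectionVars false

noncomputable section

namespace Crest.Agent.R330.ChU879

open MeasureTheory Filter Topology Crest.MathPhysics.MatrixQM Crest.Agent.R330.IBP837
  Crest.Agent.R330.FreeC122 Crest.Agent.R330.Defs478 Crest.Agent.R330.Free122
  Crest.Agent.R330.TDef414 Crest.Agent.R330.FactI161 Crest.Agent.R330.SInd478
  Crest.Agent.R330.LS839 Crest.Agent.R330.Bind6839 Crest.Agent.R330.TCore944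
  Crest.Agent.R330.FreeFx122 Crest.Agent.R330.FreeQ122
open Crest.Agent.R330.Frame839 (kc)
open scoped ContDiff InnerProductSpace ENNReal

variable {N p : ℕ} {b : ColorBasis N} {S : Type} [Group S] [Fintype S] (C : Chn b p S)
  {F : Type*} [NormedAddCommGroup F] [InnerProductSpace ℂ F] [FiniteDimensional ℂ F]
  {M : FermionRep N F} (R : GaugeAction b M) (G : GammaNine)

/-! ### the adjoint action on the centre -/

/-- the representatives act on the centre through `C.o` -/
theorem adC_cen (s : S) (t : EuclideanSpace ℝ (Fin p)) :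
    adC b (C.w s) (C.cen t) = C.cen (C.o s t) := by
  have h := C.act_w s (mkp fun _ => t)
  have h1 := congrArg (fun x => comp x 0) h
  exact h1





/-! ### the light spaces -/

theorem rho_gan (h : Matrix.specialUnitaryGroup (Fin N) ℂ) (α : Fin 16) (u : Colg N) (f : F) :
    R.ρ h (gan M G α u f) = gan M G α (adC b h u) (R.ρ h f) := by
  unfold gan
  simp only [LinearMap.sub_apply, LinearMap.smul_apply, LinearMap.sum_apply, map_sub, map_smul,
    map_sum, rho_thv R]

theorem rho_mem_vacOf {h : Matrix.specialUnitaryGroup (Fin N) ℂ} {K : Submodule ℝ (Colg N)}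
    (hK : ∀ u ∈ K, adC b h⁻¹ u ∈ K) {f : F} (hf : f ∈ vacOf M G K) :
    R.ρ h f ∈ vacOf M G K := by
  intro α u hu
  have h1 := rho_gan R G h α (adC b h⁻¹ u) f
  rw [← adC_mul, mul_inv_cancel, adC_one, hf α _ (hK u hu), map_zero] at h1
  exact h1.symm

/-- if `Ad h` maps `K` into `K`, then `Ad h⁻¹` maps `Kᗮ` into `Kᗮ` -/
theorem adC_inv_orth {h : Matrix.specialUnitaryGroup (Fin N) ℂ} {K : Submodule ℝ (Colg N)}
    (hK : ∀ u ∈ K, adC b h u ∈ K) {u : Colg N} (hu : u ∈ Kᗮ) : adC b h⁻¹ u ∈ Kᗮ := by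
  rw [Submodule.mem_orthogonal] at hu ⊢
  intro v hv
  have h1 := adC_inner (b := b) h v (adC b h⁻¹ u)
  rw [← adC_mul, mul_inv_cancel, adC_one] at h1
  rw [← h1]
  exact hu _ (hK v hv)

theorem rho_mem_Fx_of {h : Matrix.specialUnitaryGroup (Fin N) ℂ}
    {τ : EuclideanSpace ℝ (Fin p) → EuclideanSpace ℝ (Fin p)}
    (hh : ∀ t, adC b h (C.cen t) = C.cen (τ t)) {f : F} (hf : f ∈ C.Fx M G) :
    R.ρ h f ∈ C.Fx M G := by
  refine rho_mem_vacOf R G (fun u hu => adC_inv_orth ?_ hu) hf
  rintro _ ⟨t, rfl⟩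
  exact ⟨τ t, (hh t).symm⟩

theorem rho_mem_Fx (s : S) {f : F} (hf : f ∈ C.Fx M G) : R.ρ (C.w s) f ∈ C.Fx M G :=
  rho_mem_Fx_of C R G (adC_cen C s) hf




/-! ### rigidity on the amplitude space -/

/-- two covariant maps which agree on the vacuum agree on `C.Fx` -/
theorem ext_Fx [Nontrivial F] {A B : F →ₗ[ℂ] F}
    {τ : EuclideanSpace ℝ (Fin p) → EuclideanSpace ℝ (Fin p)}
    (hA : ∀ β t, ∀ f ∈ C.Fx M G, A (thv M β (C.cen t) f) = thv M β (C.cen (τ t)) (A f))
    (hB : ∀ β t, ∀ f ∈ C.Fx M G, B (thv M β (C.cen t) f) = thv M β (C.cen (τ t)) (B f))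
    (hξ : ∀ Ω : F, IsGVac M G Ω → A Ω = B Ω) : ∀ f ∈ C.Fx M G, A f = B f := by
  obtain ⟨ξ, h1, -, h3, -⟩ := exists_xi_fx C M G
  let W : Submodule ℂ (C.Fx M G) :=
    LinearMap.ker ((A - B) ∘ₗ (C.Fx M G).subtype)
  have hW : ∀ f : C.Fx M G, f ∈ W ↔ A (f : F) = B f := fun f => by
    rw [LinearMap.mem_ker]
    exact sub_eq_zero
  have hinv : ∀ α a, ∀ v ∈ W, (fxLight C M G).θ α a v ∈ W := fun α a v hv => by
    rw [hW] at hv ⊢
    have e1 := hA α (EuclideanSpace.single a 1) v v.2
    have e2 := hB α (EuclideanSpace.single a 1) v v.2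
    rw [fxLight_θ, thx_coe, e1, e2, hv]
  rcases (fxLight C M G).irr W hinv with h | h
  · exfalso
    have h5 : ξ ∈ W := (hW ξ).2 (hξ _ h3)
    rw [h, Submodule.mem_bot] at h5
    rw [h5, norm_zero] at h1
    exact zero_ne_one h1
  · intro f hf
    have h5 : (⟨f, hf⟩ : C.Fx M G) ∈ W := by
      rw [h]
      trivial
    exact (hW _).1 h5



theorem rho_one [Nontrivial F] {f : F} (hf : f ∈ C.Fx M G) : R.ρ (C.w 1) f = f := by
  refine ext_Fx C G (A := R.ρ (C.w 1)) (B := LinearMap.id) (τ := id) (fun β t f _ => ?_)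
    (fun β t f _ => rfl) (fun Ω hΩ => rho_gvac R hΩ _) f hf
  rw [rho_thv, adC_cen, map_one]
  rfl

theorem rho_mul [Nontrivial F] (s s' : S) {f : F} (hf : f ∈ C.Fx M G) :
    R.ρ (C.w (s * s')) f = R.ρ (C.w s) (R.ρ (C.w s') f) := by
  refine ext_Fx C G (A := R.ρ (C.w (s * s'))) (B := R.ρ (C.w s) ∘ₗ R.ρ (C.w s'))
    (τ := C.o (s * s')) (fun β t f _ => ?_) (fun β t f _ => ?_) (fun Ω hΩ => ?_) f hf
  · rw [rho_thv, adC_cen]
  · rw [LinearMap.comp_apply, rho_thv, rho_thv, adC_cen, adC_cen, map_mul]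
    rfl
  · rw [LinearMap.comp_apply, rho_gvac R hΩ, rho_gvac R hΩ, rho_gvac R hΩ]

/-! ### the two homomorphisms -/

/-- the unitary of a permutation on the amplitude space -/
def uf [Nontrivial F] (s : S) : C.Fx M G ≃ₗᵢ[ℂ] C.Fx M G where
  toFun f := ⟨R.ρ (C.w s) f, rho_mem_Fx C R G s f.2⟩
  map_add' f f' := Subtype.ext (map_add _ _ _)
  map_smul' c f := Subtype.ext (map_smul _ _ _)
  invFun f := ⟨R.ρ (C.w s⁻¹) f, rho_mem_Fx C R G s⁻¹ f.2⟩
  left_inv f := Subtype.ext (by
    change R.ρ (C.w s⁻¹) (R.ρ (C.w s) f) = f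
    rw [← rho_mul C R G _ _ f.2, inv_mul_cancel, rho_one C R G f.2])
  right_inv f := Subtype.ext (by
    change R.ρ (C.w s) (R.ρ (C.w s⁻¹) f) = f
    rw [← rho_mul C R G _ _ f.2, mul_inv_cancel, rho_one C R G f.2])
  norm_map' f := by
    change ‖R.ρ (C.w s) f‖ = ‖(f : F)‖
    have h1 := R.unitary (C.w s) (f : F) f
    have h2 : ‖R.ρ (C.w s) f‖ ^ 2 = ‖(f : F)‖ ^ 2 := by
      have h3 := inner_self_eq_norm_sq_to_K (𝕜 := ℂ) (R.ρ (C.w s) f)
      have h4 := inner_self_eq_norm_sq_to_K (𝕜 := ℂ) (f : F)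
      rw [h1, h4] at h3
      exact_mod_cast h3.symm
    exact (sq_eq_sq₀ (norm_nonneg _) (norm_nonneg _)).1 h2

/-- **The permutations of equal clusters on the amplitude space.** -/
def UF [Nontrivial F] : S →* (C.Fx M G ≃ₗᵢ[ℂ] C.Fx M G) where
  toFun := uf C R G
  map_one' := by
    ext f
    exact rho_one C R G f.2
  map_mul' s s' := by
    ext f
    exact rho_mul C R G s s' f.2

theorem UF_coe [Nontrivial F] (s : S) (f : C.Fx M G) :
    ((UF C R G s f : C.Fx M G) : F) = R.ρ (C.w s) f := rfl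

/-- **The permutations of equal clusters on the positions.** -/
def OF : S →* (Pos p ≃ₗᵢ[ℝ] Pos p) where
  toFun s := C.O s
  map_one' := by
    ext X q
    change (C.o 1 (pcomp X q.1)) q.2 = X q
    rw [map_one]
    rfl
  map_mul' s s' := by
    ext X q
    change (C.o (s * s') (pcomp X q.1)) q.2 = (C.o s (pcomp (C.O s' X) q.1)) q.2
    rw [map_mul]
    rfl

theorem OF_apply (s : S) (X : Pos p) : OF C s X = C.O s X := rfl

theorem UF_thx [Nontrivial F] (s : S) (β : Fin 16) (t : EuclideanSpace ℝ (Fin p))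
    (f : C.Fx M G) : UF C R G s (C.thx M G β t f) = C.thx M G β (C.o s t) (UF C R G s f) := by
  apply Subtype.ext
  rw [UF_coe, thx_coe, thx_coe, UF_coe, rho_thv, adC_cen]

/-- the vacuum is fixed -/
theorem UF_xi [Nontrivial F] (s : S) {e : C.Fx M G} (he : LVac (fxLight C M G) G e) :
    UF C R G s e = e := Subtype.ext (rho_xi C M G R he _)

/-! ### the fields of the limit channel -/

/-- the matrix of a permutation -/
def oM (s : S) : Matrix (Fin p) (Fin p) ℝ := fun a c => C.o s (EuclideanSpace.single c 1) a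

theorem o_apply (s : S) (t : EuclideanSpace ℝ (Fin p)) (a : Fin p) :
    C.o s t a = ∑ c, oM C s a c * t c := by
  have ht : t = ∑ c, (t c) • EuclideanSpace.single c (1 : ℝ) := by
    ext r
    simp only [WithLp.ofLp_sum, Finset.sum_apply, WithLp.ofLp_smul, Pi.smul_apply, smul_eq_mul]
    rw [Finset.sum_eq_single r]
    · simp
    · intro c _ hc
      simp [Ne.symm hc]
    · simp
  conv_lhs => rw [ht]
  rw [map_sum]
  simp only [map_smul, WithLp.ofLp_sum, Finset.sum_apply, WithLp.ofLp_smul, Pi.smul_apply,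
    smul_eq_mul]
  exact Finset.sum_congr rfl fun c _ => mul_comm _ _

theorem oM_orth (s : S) : (oM C s).transpose * oM C s = 1 := by
  ext a c
  rw [Matrix.mul_apply]
  have h1 := (C.o s).inner_map_map (EuclideanSpace.single c (1 : ℝ))
    (EuclideanSpace.single a (1 : ℝ))
  rw [PiLp.inner_apply] at h1
  have h2 : ⟪(EuclideanSpace.single c (1 : ℝ) : EuclideanSpace ℝ (Fin p)),
      EuclideanSpace.single a 1⟫_ℝ = (1 : Matrix (Fin p) (Fin p) ℝ) a c := by
    rw [EuclideanSpace.inner_single_left, Matrix.one_apply]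
    by_cases hac : a = c
    · subst hac
      simp
    · simp [hac, Ne.symm hac]
  rw [h2] at h1
  rw [← h1]
  exact Finset.sum_congr rfl fun r _ => rfl

theorem OF_eq (s : S) : OF C s = isoO (oM C s) (oM_orth C s) := by
  ext X q
  rw [isoO_apply, OF_apply]
  change C.o s (pcomp X q.1) q.2 = _
  rw [o_apply]
  rfl

/-- 122's lift -/
theorem lift_UF [Nontrivial F] (s : S) : Lift (fxLight C M G) (oM C s) (UF C R G s) where
  orth := oM_orth C s
  cov α a v := by
    rw [fxLight_θ, UF_thx]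
    apply Subtype.ext
    rw [thx_coe, thv_cen, Submodule.coe_sum]
    refine Finset.sum_congr rfl fun c _ => ?_
    rw [Submodule.coe_smul, fxLight_θ, thx_coe]
    rfl

/-- `Chan566.Chan.covA` -/
theorem covA_UF [Nontrivial F] (m : ℝ) (α : Fin 16) (s : S)
    (ℓ : Pos p →L[ℝ] C.Fx M G) :
    (freeFOp (fxLight C M G) G m α).A (Chan566.ul (UF C R G s) ∘L ℓ ∘L
      ((OF C s⁻¹ : Pos p ≃ₗᵢ[ℝ] Pos p) : Pos p →L[ℝ] Pos p)) =
      UF C R G s ((freeFOp (fxLight C M G) G m α).A ℓ) := by
  have h1 := covA G (lift_UF C R G s) m α ℓ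
  have h2 : (OF C s⁻¹ : Pos p ≃ₗᵢ[ℝ] Pos p) = (isoO (oM C s) (oM_orth C s)).symm := by
    rw [map_inv, OF_eq]
    rfl
  rw [h2]
  exact h1

/-- `Chan566.Chan.covB` -/
theorem covB_UF [Nontrivial F] (m : ℝ) (α : Fin 16) (s : S) (X : Pos p) (v : C.Fx M G) :
    (freeFOp (fxLight C M G) G m α).B (OF C s X) (UF C R G s v) =
      UF C R G s ((freeFOp (fxLight C M G) G m α).B X v) := by
  rw [OF_eq]
  exact covB G (lift_UF C R G s) m α X v

end Crest.Agent.R330.ChU879
end
end

-- ▼ part R330/ChLit_879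

/-!
# Row 330: the literal limit channel (helper879)

* `limC C R G : Chan566.Chan S (Pos p) (C.Fx M G)`.
* `limC_match`, `limC_adj`, `limC_sq`, `limC_isLim`.
* `chanLit` : the bundled channel from the statements on generators.
-/

set_option autoImplicit false
set_option linter.unusedSectionVars false

noncomputable section

namespace Crest.Agent.R330.ChLit879

open MeasureTheory Filter Topology Crest.MathPhysics.MatrixQM Crest.Agent.R330.IBP837
  Crest.Agent.R330.FreeC122 Crest.Agent.R330.Defs478 Crest.Agent.R330.Free122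
  Crest.Agent.R330.TDef414 Crest.Agent.R330.FreeFx122 Crest.Agent.R330.FreeQ122
  Crest.Agent.R330.ChU879 Crest.Agent.R330.ChFlat718 Crest.Agent.R330.ChSys399
  Crest.Agent.R330.WS596
open scoped ContDiff InnerProductSpace ENNReal

variable {N p : ℕ} {b : ColorBasis N} {S : Type} [Group S] [Fintype S] (C : Chn b p S)
  {F : Type} [NormedAddCommGroup F] [InnerProductSpace ℂ F] [FiniteDimensional ℂ F]
  [Nontrivial F] {M : FermionRep N F} (R : GaugeAction b M) (G : GammaNine)

/-- **The limit channel.** -/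
def limC : Chan566.Chan S (Pos p) (C.Fx M G) where
  Q := freeFOp (fxLight C M G) G
  O := OF C
  U := UF C R G
  Z := Zc C
  hB m α := freeFOp_smooth _ G m α
  Ac m α c ℓ := freeFOp_Ac _ G m α c ℓ
  Bc m α x c v := freeFOp_Bc _ G m α x c v
  closed := isClosed_Zc C
  null := null_Zc C
  ZO s X hX h := hX ((breg_O C s X).1 h)
  covA := covA_UF C R G
  covB := covB_UF C R G

theorem limC_op (m : ℝ) (α : Fin 16) (ψ : Pos p → C.Fx M G) :
    ((limC C R G).Q m α).op ψ = C.Dx M G m α ψ := by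
  rw [← freeD_eq_Dx]
  funext x
  exact freeFOp_op (fxLight C M G) G m α ψ x

theorem limC_match : Match R (limC C R G) where
  hO _ _ := rfl
  hU _ _ := rfl
  hZ _ := Iff.rfl
  hQ m α ψ _ := limC_op C R G m α ψ

theorem limC_adj (m : ℝ) (α : Fin 16) :
    Adj ((limC C R G).Q m α) ((limC C R G).Q m α) where
  A ℓ u v := by
    change ⟪v, (freeFOp (fxLight C M G) G m α).A (ℓ.smulRight u)⟫_ℂ =
      -⟪(freeFOp (fxLight C M G) G m α).A (ℓ.smulRight v), u⟫_ℂ
    rw [freeFOp_A, freeFOp_A, inner_sum, sum_inner, ← Finset.sum_neg_distrib]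
    refine Finset.sum_congr rfl fun k _ => ?_
    rw [ContinuousLinearMap.smulRight_apply, ContinuousLinearMap.smulRight_apply]
    simp only [kA, LinearMap.sum_apply, LinearMap.smul_apply, inner_sum, sum_inner,
      inner_smul_left, inner_smul_right, ← Finset.sum_neg_distrib]
    refine Finset.sum_congr rfl fun β _ => ?_
    have h1 : ∀ w : C.Fx M G, (fxLight C M G).θ β k.2 (ℓ (EuclideanSpace.single k 1) • w) =
        ((ℓ (EuclideanSpace.single k 1) : ℝ) : ℂ) • (fxLight C M G).θ β k.2 w := fun w => by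
      rw [← Complex.coe_smul, map_smul]
    rw [h1, h1, inner_smul_right, inner_smul_left, ← (fxLight C M G).symm β k.2 v u]
    simp only [map_mul, map_neg, Complex.conj_ofReal, Complex.conj_I]
    ring
  B x u v := by
    change ⟪v, (freeFOp (fxLight C M G) G m α).B x u⟫_ℂ =
      ⟪(freeFOp (fxLight C M G) G m α).B x v, u⟫_ℂ
    rw [freeFOp_B, freeFOp_B, inner_sum, sum_inner]
    refine Finset.sum_congr rfl fun k _ => ?_
    simp only [pV, LinearMap.sum_apply, LinearMap.smul_apply, inner_sum, sum_inner,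
      inner_smul_left, inner_smul_right, Complex.conj_ofReal]
    refine congrArg _ (Finset.sum_congr rfl fun β _ => ?_)
    rw [(fxLight C M G).symm β k.2 v u]

theorem limC_hQ (m : ℝ) (α : Fin 16) (ψ : EuclideanSpace ℝ (Fin 9 × Fin p) → C.Fx M G)
    (_ : ContDiff ℝ ∞ ψ) : ((limC C R G).Q m α).op ψ = freeD (fxLight C M G) G m α ψ := by
  rw [limC_op, freeD_eq_Dx]

theorem limC_sq (hp : 1 ≤ p) (α β : Fin 16) (ψ : Pos p → C.Fx M G) (hψ : ContDiff ℝ ∞ ψ) :
    ((limC C R G).Q 0 α).op (((limC C R G).Q 0 α).op ψ) =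
      ((limC C R G).Q 0 β).op (((limC C R G).Q 0 β).op ψ) :=
  (ChFree718.free_of hp (limC_hQ C R G)).op_sq α β hψ

/-- **The limit system.** -/
theorem limC_isLim (hp : 1 ≤ p) :
    ∃ K0 : Submodule ℂ (limC C R G).L,
      Chan441.IsLim (L := (limC C R G).L) (limC C R G).e (limC C R G).D
        (ChBind718.Wt (limC C R G)) K0 1 := by
  obtain ⟨ξ, h1, h2, -, h4⟩ := exists_xi_fx C M G
  have h0 : ξ ≠ 0 := fun h => by
    rw [h, norm_zero] at h1
    exact zero_ne_one h1
  obtain ⟨Φ, -, h⟩ := isLim_free' hp (limC C R G) (limC_hQ C R G) (limC_adj C R G)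
    (A := Finset.univ) (L := C.Lf) (c := 0) (Zc_eq C) (fun a _ => C.Lf_surj a)
    (by rw [finrank_six]; norm_num) h0 h2 h4 (fun s X => gs_O C 1 s X)
    (fun s => UF_xi C R G s h2)
  exact ⟨_, h⟩

variable {C R G}


/-- The literal channel. -/
def chanLit (hp : 1 ≤ p) (P : TPack C M R G) (hCh : ChartT C) (hC : CoreT P)
    (hS : SuppT P) (hR : RadT P) (hG : GramT P) (hD : DualT P) : Chan441.Chan b M R G :=
  chanOf P (limC_match C R G) hCh hC hS hR hG hD (fun _ hw => ChBind718.Wt_eq _ hw)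
    (limC_sq C R G hp) (limC_isLim C R G hp).choose_spec



end Crest.Agent.R330.ChLit879

end
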