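import Crest.Agent.R330.Geo8_692
import Crest.Agent.R330.HW_815
import Crest.Agent.R330.TDef_414

-- ▼ part R330/Geo9_692
section

/-!
# Row 330, S8-GEO part 2 (helper692): permutations of clusters of equal size

* `Osw b P σ hσ : XS P ≃ₗᵢ[ℝ] XS P` for `σ ∈ Sw P`, `pos (O_σ X) p = pos X (σ⁻¹ p)`; `Osw_mul`,
  `Osw_one`, `Osw_mem_Reg`, `Osw_mem_UU`.
* `KS P σ` : the elements of `SU(N)` which map block `p` to block `σ p`; `KS P 1 = Kst P`; products,
  inverses; `act_KS : act g (cfX X) = cfX (O_σ X)`; `KS_nonempty` : for every `σ ∈ Sw P`.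
* `exists_sw` : `act g (cfX X) = cfX X'`, `X' ∈ Reg`, implies `g ∈ KS P σ`, `X' = O_σ X` for some
  `σ ∈ Sw P`.
-/

set_option autoImplicit false
set_option linter.unusedSectionVars false

open MeasureTheory Filter Topology Crest.MathPhysics.MatrixQM
open scoped ContDiff InnerProductSpace ENNReal BigOperators

noncomputable section

namespace Crest.Agent.R330.Geo692

open Crest.Agent.R330.Parts879 Crest.Agent.R330.LS839 Crest.Agent.R330.Bind6839
open Crest.Agent.R330.Frame839 (kc Tn)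
open Crest.Agent.R330.Blk304 (hm cf hs)
open Crest.Agent.R330.Diag304 (dg)

variable {N : ℕ} (b : ColorBasis N) (P : Lam N)

/-! ## The action on positions -/

theorem ias {α : Type*} (σ : Equiv.Perm α) (x : α) : σ⁻¹ (σ x) = x := σ.symm_apply_apply x

theorem sia {α : Type*} (σ : Equiv.Perm α) (x : α) : σ (σ⁻¹ x) = x := σ.apply_symm_apply x

theorem sum_k_perm {σ : Equiv.Perm (Fin P.m)} (hσ : σ ∈ Sw P) {V : Type*} [AddCommGroup V]
    [Module ℝ V] (f : Fin P.m → V) :
    ∑ p, (P.k p : ℝ) • f (σ⁻¹ p) = ∑ p, (P.k p : ℝ) • f p := by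
  rw [← Equiv.sum_comp σ]
  refine Finset.sum_congr rfl fun p _ => ?_
  rw [mem_Sw.1 hσ p, ias]

theorem exists_Osw {σ : Equiv.Perm (Fin P.m)} (hσ : σ ∈ Sw P) (X : XS P) :
    ∃ Y : XS P, ∀ p, pos b P Y p = pos b P X (σ⁻¹ p) := by
  refine exists_pos b P ?_
  rw [sum_k_perm P hσ fun p => pos b P X p]
  exact sum_k_pos b P X

/-- The action of a permutation on positions, as a map. -/
def oswf {σ : Equiv.Perm (Fin P.m)} (hσ : σ ∈ Sw P) (X : XS P) : XS P :=
  Classical.choose (exists_Osw b P hσ X)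

theorem pos_oswf {σ : Equiv.Perm (Fin P.m)} (hσ : σ ∈ Sw P) (X : XS P) (p : Fin P.m) :
    pos b P (oswf b P hσ X) p = pos b P X (σ⁻¹ p) := Classical.choose_spec (exists_Osw b P hσ X) p

/-- The action of a permutation on positions, as a linear isometry. -/
def oswl {σ : Equiv.Perm (Fin P.m)} (hσ : σ ∈ Sw P) : XS P →ₗᵢ[ℝ] XS P where
  toFun := oswf b P hσ
  map_add' X Y := by
    apply pos_inj b P
    intro p
    rw [pos_oswf, pos_add, pos_add, pos_oswf, pos_oswf]
  map_smul' t X := by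
    apply pos_inj b P
    intro p
    rw [pos_oswf, pos_smul, RingHom.id_apply, pos_smul, pos_oswf]
  norm_map' X := by
    have h : ‖oswf b P hσ X‖ ^ 2 = ‖X‖ ^ 2 := by
      rw [← norm_sq_pos b P, ← norm_sq_pos b P]
      simp only [pos_oswf]
      exact sum_k_perm P hσ fun p => ‖pos b P X p‖ ^ 2
    exact (pow_left_inj₀ (norm_nonneg _) (norm_nonneg _) two_ne_zero).1 h

theorem inv_mem_Sw {σ : Equiv.Perm (Fin P.m)} (hσ : σ ∈ Sw P) : σ⁻¹ ∈ Sw P := (Sw P).inv_mem hσ

/-- **The action of a permutation on positions.** -/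
def Osw {σ : Equiv.Perm (Fin P.m)} (hσ : σ ∈ Sw P) : XS P ≃ₗᵢ[ℝ] XS P where
  toFun := oswf b P hσ
  map_add' := (oswl b P hσ).map_add
  map_smul' := (oswl b P hσ).map_smul
  invFun := oswf b P (inv_mem_Sw P hσ)
  left_inv X := by
    apply pos_inj b P
    intro p
    rw [pos_oswf, pos_oswf]
    exact congrArg _ (ias σ p)
  right_inv X := by
    apply pos_inj b P
    intro p
    rw [pos_oswf, pos_oswf, inv_inv, sia]
  norm_map' X := (oswl b P hσ).norm_map X

variable {P} in
@[simp] theorem pos_Osw {σ : Equiv.Perm (Fin P.m)} (hσ : σ ∈ Sw P) (X : XS P) (p : Fin P.m) :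
    pos b P (Osw b P hσ X) p = pos b P X (σ⁻¹ p) := pos_oswf b P hσ X p







/-! ## The group elements which permute the blocks -/

/-- `g` maps the block `p` to the block `σ p`. -/
def KS (σ : Equiv.Perm (Fin P.m)) : Set (Matrix.specialUnitaryGroup (Fin N) ℂ) :=
  {g | ∀ a c, P.cl a ≠ σ (P.cl c) → (g : Matrix (Fin N) (Fin N) ℂ) a c = 0}

theorem KS_one : KS P 1 = (Kst P : Set (Matrix.specialUnitaryGroup (Fin N) ℂ)) := rfl

theorem KS_mul {σ τ : Equiv.Perm (Fin P.m)} {g h : Matrix.specialUnitaryGroup (Fin N) ℂ}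
    (hg : g ∈ KS P σ) (hh : h ∈ KS P τ) : g * h ∈ KS P (σ * τ) := by
  intro a c hac
  change ((g : Matrix (Fin N) (Fin N) ℂ) * (h : Matrix (Fin N) (Fin N) ℂ)) a c = 0
  rw [Matrix.mul_apply]
  refine Finset.sum_eq_zero fun d _ => ?_
  by_cases h1 : P.cl d = τ (P.cl c)
  · rw [hg a d (fun h2 => hac (by rw [h2, h1]; rfl)), zero_mul]
  · rw [hh d c h1, mul_zero]

theorem KS_inv {σ : Equiv.Perm (Fin P.m)} {g : Matrix.specialUnitaryGroup (Fin N) ℂ}
    (hg : g ∈ KS P σ) : g⁻¹ ∈ KS P σ⁻¹ := by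
  intro a c hac
  change (star (g : Matrix (Fin N) (Fin N) ℂ)) a c = 0
  rw [Matrix.star_apply, hg c a (fun h => hac (by rw [h, ias])), star_zero]

/-- the key identity: `g (diag f) = (diag f') g` -/
theorem mul_diag {σ : Equiv.Perm (Fin P.m)} {g : Matrix.specialUnitaryGroup (Fin N) ℂ}
    (hg : g ∈ KS P σ) (f : Fin P.m → ℂ) :
    (g : Matrix (Fin N) (Fin N) ℂ) * (Matrix.diagonal fun a => f (P.cl a)) =
      (Matrix.diagonal fun a => f (σ⁻¹ (P.cl a))) * (g : Matrix (Fin N) (Fin N) ℂ) := by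
  ext a c
  rw [Matrix.mul_diagonal, Matrix.diagonal_mul]
  by_cases h : P.cl a = σ (P.cl c)
  · rw [h, ias, mul_comm]
  · rw [hg a c h]
    ring

theorem act_KS {σ : Equiv.Perm (Fin P.m)} (hσ : σ ∈ Sw P)
    {g : Matrix.specialUnitaryGroup (Fin N) ℂ} (hg : g ∈ KS P σ) (X : XS P) :
    b.act g (cfX b P X) = cfX b P (Osw b P hσ X) := by
  apply Blk304.mat_inj b
  intro i
  rw [Blk304.mat_act, cfX_eq_dg, cfX_eq_dg, Diag304.mat_dg b (sum_pos b P X),
    Diag304.mat_dg b (sum_pos b P _)]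
  have h1 := mul_diag P hg fun p => ((pos b P X p i : ℝ) : ℂ)
  rw [h1, Matrix.mul_assoc, Blk304.su_mul_star, Matrix.mul_one]
  congr 1
  funext a
  rw [pos_Osw]

/-- the permutation matrix of `lift σ` -/
theorem exists_mem_KS {σ : Equiv.Perm (Fin P.m)} (hσ : σ ∈ Sw P) : (KS P σ).Nonempty := by
  classical
  set τ : Equiv.Perm (Fin N) := lift σ hσ with hτ
  set e : ℂ := (((Equiv.Perm.sign τ : ℤˣ) : ℤ) : ℂ) with he
  have hee : e * e = 1 := by
    rw [he]
    rcases Int.units_eq_one_or (Equiv.Perm.sign τ) with h | h <;> rw [h] <;> norm_num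
  have hN : 0 < N := lt_of_lt_of_le two_pos P.two_le
  set d : Fin N → ℂ := fun a => if a = ⟨0, hN⟩ then e else 1 with hd
  have hdd : ∀ a, d a * star (d a) = 1 := by
    intro a
    simp only [hd]
    split_ifs
    · have : star e = e := by
        rw [he]
        simp
      rw [this, hee]
    · simp
  set W : Matrix (Fin N) (Fin N) ℂ := Matrix.diagonal d * (Equiv.Perm.permMatrix ℂ τ⁻¹) with hW
  have hWapp : ∀ a c, W a c = if a = τ c then d a else 0 := by
    intro a c
    rw [hW, Matrix.diagonal_mul]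
    have h1 : (Equiv.Perm.permMatrix ℂ τ⁻¹ : Matrix (Fin N) (Fin N) ℂ) a c =
        if τ⁻¹ a = c then 1 else 0 := by
      rw [Equiv.Perm.permMatrix, PEquiv.toMatrix_apply]
      simp [Equiv.toPEquiv_apply, eq_comm]
    rw [h1]
    by_cases h : a = τ c
    · subst h
      simp
    · have h2 : ¬ (τ⁻¹ a = c) := fun h3 => h (by rw [← h3, sia])
      rw [if_neg h, if_neg h2, mul_zero]
  have hWW : W * star W = 1 := by
    ext a c
    rw [Matrix.mul_apply]
    simp only [Matrix.star_apply, hWapp]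
    by_cases hac : a = c
    · subst hac
      rw [Matrix.one_apply_eq, Finset.sum_eq_single (τ⁻¹ a)]
      · simp only [sia, if_true]
        exact hdd a
      · intro x _ hx
        have : ¬ (a = τ x) := fun h => hx (by rw [h, ias])
        simp [this]
      · intro h
        exact absurd (Finset.mem_univ _) h
    · rw [Matrix.one_apply_ne hac]
      refine Finset.sum_eq_zero fun x _ => ?_
      by_cases h : a = τ x
      · have h2 : ¬ (c = τ x) := fun h' => hac (h.trans h'.symm)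
        simp [h2]
      · simp [h]
  have hdet : W.det = 1 := by
    rw [hW, Matrix.det_mul, Matrix.det_diagonal, Matrix.det_permutation]
    have h1 : ∏ a, d a = e := by
      rw [Finset.prod_eq_single (⟨0, hN⟩ : Fin N)]
      · simp [hd]
      · intro x _ hx
        simp [hd, hx]
      · intro h
        exact absurd (Finset.mem_univ _) h
    rw [h1, Equiv.Perm.sign_inv]
    exact hee
  have hU : W ∈ Matrix.unitaryGroup (Fin N) ℂ := Matrix.mem_unitaryGroup_iff.2 hWW
  refine ⟨⟨W, Matrix.mem_specialUnitaryGroup_iff.2 ⟨hU, hdet⟩⟩, fun a c hac => ?_⟩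
  change W a c = 0
  rw [hWapp, if_neg]
  intro h
  apply hac
  rw [h, hτ, cl_lift]

/-- **Diagonal configurations on one orbit differ by a permutation of the clusters.** -/
theorem exists_sw {X X' : XS P} (hX' : X' ∈ Reg b P)
    {g : Matrix.specialUnitaryGroup (Fin N) ℂ} (h : b.act g (cfX b P X) = cfX b P X') :
    ∃ (σ : Equiv.Perm (Fin P.m)) (hσ : σ ∈ Sw P), g ∈ KS P σ ∧ X' = Osw b P hσ X := by
  classical
  rw [cfX_eq_dg, cfX_eq_dg, Diag304.dg_eq_diagCfg, Diag304.dg_eq_diagCfg] at h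
  have hz : ∀ (Y : XS P) (i : Fin 9), ∑ a : Fin N, pos b P Y (P.cl a) i = 0 := fun Y i => by
    have h1 := congrArg (fun v : EuclideanSpace ℝ (Fin 9) => v i) (sum_pos b P Y)
    simpa using h1
  obtain ⟨⟨τ, hτ⟩, h2⟩ := HW815.perm_of_eq b g (fun i a => pos b P X (P.cl a) i)
    (fun i a => pos b P X' (P.cl a) i) (hz X) (hz X') h
  have h3 : ∀ a c, (g : Matrix (Fin N) (Fin N) ℂ) a c ≠ 0 →
      pos b P X (P.cl c) = pos b P X' (P.cl a) := fun a c hac => by
    ext i
    exact h2 a c hac i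
  have h4 : ∀ a, pos b P X (P.cl (τ a)) = pos b P X' (P.cl a) := fun a => by
    ext i
    exact hτ i a
  -- the permutation
  have h5 : ∀ p : Fin P.m, ∃ q : Fin P.m, pos b P X' q = pos b P X p := fun p => by
    obtain ⟨c, rfl⟩ := P.cl_surj p
    refine ⟨P.cl (τ⁻¹ c), ?_⟩
    rw [← h4, sia]
  choose f hf using h5
  have hfs : Function.Surjective f := fun q => by
    obtain ⟨a, rfl⟩ := P.cl_surj q
    refine ⟨P.cl (τ a), hX' ?_⟩
    rw [hf, h4]
  let σ : Equiv.Perm (Fin P.m) := Equiv.ofBijective f (Finite.surjective_iff_bijective.1 hfs)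
  have hσf : ∀ p, pos b P X' (σ p) = pos b P X p := hf
  have h6 : ∀ a, σ (P.cl (τ a)) = P.cl a := fun a => hX' (by rw [hσf, h4])
  have hσ : σ ∈ Sw P := by
    intro p
    rw [← P.card_cl, ← P.card_cl]
    refine Fintype.card_congr (Equiv.subtypeEquiv τ fun a => ?_)
    constructor
    · intro ha
      exact σ.injective (by rw [h6, ha])
    · intro ha
      rw [← h6, ha]
  refine ⟨σ, hσ, fun a c hac => ?_, ?_⟩
  · by_contra hg
    apply hac
    apply hX'
    rw [hσf, h3 a c hg]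
  · apply pos_inj b P
    intro p
    rw [pos_Osw, ← hσf, sia]

end Crest.Agent.R330.Geo692

end
end

-- ▼ part R330/Chn_692

/-!
# Row 330, S8-GEO part 3 (helper692): the geometry of the channels, literally

`chn b P : TDef414.Chn b (P.m - 1) (Sw P)` for every partition `P : Lam N` with at least two parts.

* `hm_colbr`, `colbr_cen` : brackets by matrix entries; `ev b a c z` : the colour vector of
  `z E_ac + conj z E_ca`.
* `Reg_iff` : `kc (cfX X) = kk` exactly for `X ∈ Reg`.
* `osw`, `oS` : the permutations on the centre; `lift9_oS`.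
* `Lf` : the last six components of `pos p - pos q`; `UU_iff`.
* `chn`, and the dictionary `chn_kk`, `chn_cen`, `chn_cf`, `chn_O`, `chn_Reg`, `chn_BReg`,
  `chn_w_mem`.
-/

set_option autoImplicit false
set_option linter.unusedSectionVars false

open MeasureTheory Filter Topology Crest.MathPhysics.MatrixQM
open scoped ContDiff InnerProductSpace ENNReal BigOperators

noncomputable section

namespace Crest.Agent.R330.Geo692

open Crest.Agent.R330.Parts879 Crest.Agent.R330.LS839 Crest.Agent.R330.Bind6839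
open Crest.Agent.R330.Frame839 (kc Tn)
open Crest.Agent.R330.Blk304 (hm cf hs)
open Crest.Agent.R330.Diag304 (dg)
open Crest.Agent.R330.Clus839
open Crest.Agent.R330.TDef414 (Pos pcomp mkp lift9 cfOf Chn)

variable {N : ℕ} (b : ColorBasis N) (P : Lam N)

/-! ## Brackets by matrix entries -/

theorem hm_colbr (u v : Colg N) : hm b ((colAlg b).br u v).ofLp =
    (-Complex.I) • (hm b u.ofLp * hm b v.ofLp - hm b v.ofLp * hm b u.ofLp) :=
  SlB314.cm_br b u.ofLp v.ofLp

theorem colbr_eq_zero_iff (u v : Colg N) : (colAlg b).br u v = 0 ↔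
    hm b u.ofLp * hm b v.ofLp = hm b v.ofLp * hm b u.ofLp := by
  constructor
  · intro h
    have h1 := hm_colbr b u v
    rw [h] at h1
    have h2 : hm b (0 : Colg N).ofLp = 0 := Blk304.hm_zero b
    rw [h2] at h1
    have h3 := smul_eq_zero.1 h1.symm
    rcases h3 with h3 | h3
    · simp at h3
    · exact sub_eq_zero.1 h3
  · intro h
    have h1 := hm_colbr b u v
    rw [h, sub_self, smul_zero] at h1
    have h2 : ((colAlg b).br u v).ofLp = 0 := by
      apply Blk304.hm_inj b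
      rw [h1, Blk304.hm_zero]
    exact (WithLp.ofLp_injective 2) h2

/-- The bracket with a central vector vanishes. -/
theorem colbr_cen (u : Colg N) (t : EuclideanSpace ℝ (Fin (P.m - 1))) :
    (colAlg b).br u (cen b P t) = 0 ↔
      ∀ a c, lab b P t (P.cl a) ≠ lab b P t (P.cl c) → hm b u.ofLp a c = 0 := by
  rw [colbr_eq_zero_iff, hm_cen]
  unfold bsc
  constructor
  · intro h a c hac
    have h1 := congrFun (congrFun h a) c
    rw [Matrix.mul_diagonal, Matrix.diagonal_mul] at h1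
    have h2 : hm b u.ofLp a c * (((lab b P t (P.cl c) : ℝ) : ℂ) - ((lab b P t (P.cl a) : ℝ) : ℂ))
        = 0 := by
      rw [mul_sub, h1]
      ring
    rcases mul_eq_zero.1 h2 with h3 | h3
    · exact h3
    · exfalso
      apply hac
      have h4 := sub_eq_zero.1 h3
      exact (Complex.ofReal_inj.1 h4).symm
  · intro h
    ext a c
    rw [Matrix.mul_diagonal, Matrix.diagonal_mul]
    by_cases hac : lab b P t (P.cl a) = lab b P t (P.cl c)
    · rw [hac, mul_comm]
    · rw [h a c hac]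
      ring

/-! ## Off-diagonal vectors -/

/-- `z E_ac + conj z E_ca`. -/
def eM (a c : Fin N) (z : ℂ) : Matrix (Fin N) (Fin N) ℂ :=
  Matrix.single a c z + Matrix.single c a (star z)

theorem eM_herm (a c : Fin N) (z : ℂ) : (eM a c z).IsHermitian := by
  unfold eM Matrix.IsHermitian
  rw [Matrix.conjTranspose_add, Matrix.conjTranspose_single, Matrix.conjTranspose_single,
    star_star, add_comm]

theorem eM_trace {a c : Fin N} (h : a ≠ c) (z : ℂ) : (eM a c z).trace = 0 := by
  unfold eM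
  rw [Matrix.trace_add, Matrix.trace_single_eq_of_ne _ _ _ h, Matrix.trace_single_eq_of_ne _ _ _ h.symm,
    add_zero]

/-- The colour vector of `z E_ac + conj z E_ca`. -/
def ev (a c : Fin N) (z : ℂ) : Colg N := WithLp.toLp 2 (cf b (eM a c z))

theorem hm_ev {a c : Fin N} (h : a ≠ c) (z : ℂ) : hm b (ev b a c z).ofLp = eM a c z :=
  Blk304.hm_cf b (eM_herm a c z) (eM_trace h z)

theorem eM_ac {a c : Fin N} (h : a ≠ c) (z : ℂ) : eM a c z a c = z := by
  unfold eM
  rw [Matrix.add_apply, Matrix.single_apply_same, Matrix.single_apply_of_ne _ _ _ _ _ (by tauto),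
    add_zero]

theorem eM_eq_zero {a c x y : Fin N} (z : ℂ) (h1 : ¬ (a = x ∧ c = y)) (h2 : ¬ (c = x ∧ a = y)) :
    eM a c z x y = 0 := by
  unfold eM
  rw [Matrix.add_apply, Matrix.single_apply_of_ne _ _ _ _ _ h1,
    Matrix.single_apply_of_ne _ _ _ _ _ h2, add_zero]


/-- An off-diagonal vector between two clusters. -/
theorem exists_ev {p q : Fin P.m} (hpq : p ≠ q) : ∃ u : Colg N, u ∉ kk b P ∧
    ∀ a c, hm b u.ofLp a c ≠ 0 → (P.cl a = p ∧ P.cl c = q) ∨ (P.cl a = q ∧ P.cl c = p) := by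
  obtain ⟨a, ha⟩ := P.cl_surj p
  obtain ⟨c, hc⟩ := P.cl_surj q
  have hac : a ≠ c := fun h => hpq (by rw [← ha, ← hc, h])
  refine ⟨ev b a c 1, fun h => ?_, fun x y hxy => ?_⟩
  · have h1 := h a c (by rw [ha, hc]; exact hpq)
    rw [hm_ev b hac, eM_ac hac] at h1
    exact one_ne_zero h1
  · rw [hm_ev b hac] at hxy
    by_cases h1 : a = x ∧ c = y
    · exact Or.inl ⟨by rw [← h1.1, ha], by rw [← h1.2, hc]⟩
    · by_cases h2 : c = x ∧ a = y
      · exact Or.inr ⟨by rw [← h2.1, hc], by rw [← h2.2, ha]⟩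
      · exact absurd (eM_eq_zero 1 h1 h2) hxy

theorem Reg_iff (X : XS P) : kc (actB b) (cfX b P X) = kk b P ↔ X ∈ Reg b P := by
  refine ⟨fun h p q hpq => ?_, kc_cfX b P⟩
  by_contra hne
  obtain ⟨u, hu, hu2⟩ := exists_ev b P hne
  apply hu
  rw [← h, mem_kc_cfX]
  intro a c hac
  by_contra h3
  rcases hu2 a c h3 with ⟨h4, h5⟩ | ⟨h4, h5⟩
  · exact hac (by rw [h4, h5, hpq])
  · exact hac (by rw [h4, h5, hpq])

/-! ## The centre of the block algebra -/

theorem cen_comm (t : EuclideanSpace ℝ (Fin (P.m - 1))) (u : Colg N) (hu : u ∈ kk b P) :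
    (colAlg b).br (cen b P t) u = 0 := by
  rw [(colAlg b).anti, (colbr_cen b P u t).2, neg_zero]
  intro a c hac
  exact hu a c fun h => hac (by rw [h])

theorem ev_mem_kk {a c : Fin N} (hac : a ≠ c) (h : P.cl a = P.cl c) (z : ℂ) :
    ev b a c z ∈ kk b P := by
  intro x y hxy
  rw [hm_ev b hac]
  refine eM_eq_zero z (fun h1 => hxy ?_) fun h1 => hxy ?_
  · rw [← h1.1, ← h1.2, h]
  · rw [← h1.1, ← h1.2, h]

/-- commuting with `E_ac`, entrywise -/
theorem comm_entries {U : Matrix (Fin N) (Fin N) ℂ} {a c : Fin N} (hac : a ≠ c)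
    (h1 : U * eM a c 1 = eM a c 1 * U) (hI : U * eM a c Complex.I = eM a c Complex.I * U) :
    U a a = U c c ∧ U a c = 0 := by
  have e1 := congrFun (congrFun h1 a) c
  have e2 := congrFun (congrFun h1 a) a
  have e3 := congrFun (congrFun hI a) a
  unfold eM at e1 e2 e3
  rw [Matrix.mul_add, Matrix.add_mul, Matrix.add_apply, Matrix.add_apply,
    Matrix.mul_single_apply_same, Matrix.single_mul_apply_same,
    Matrix.mul_single_apply_of_ne _ _ _ _ _ hac.symm,
    Matrix.single_mul_apply_of_ne _ _ _ _ _ hac] at e1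
  rw [Matrix.mul_add, Matrix.add_mul, Matrix.add_apply, Matrix.add_apply,
    Matrix.mul_single_apply_same, Matrix.single_mul_apply_same,
    Matrix.mul_single_apply_of_ne _ _ _ _ _ hac,
    Matrix.single_mul_apply_of_ne _ _ _ _ _ hac] at e2 e3
  simp only [star_one, mul_one, one_mul, add_zero, zero_add] at e1 e2
  refine ⟨e1, ?_⟩
  rw [zero_add, add_zero] at e3
  have h5 : star Complex.I = -Complex.I := Complex.conj_I
  rw [h5, e2] at e3
  have h6 : Complex.I * U c a = 0 := by
    have : (2 : ℂ) * (Complex.I * U c a) = 0 := by linear_combination -e3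
    simpa using this
  rw [e2]
  simpa using h6

theorem cen_all (u : Colg N) (hu : u ∈ kk b P) (h : ∀ v ∈ kk b P, (colAlg b).br u v = 0) :
    ∃ t, cen b P t = u := by
  set U := hm b u.ofLp with hU
  have key : ∀ a c : Fin N, a ≠ c → P.cl a = P.cl c → U a a = U c c ∧ U a c = 0 := by
    intro a c hac hcl
    have h1 := (colbr_eq_zero_iff b _ _).1 (h _ (ev_mem_kk b P hac hcl 1))
    have h2 := (colbr_eq_zero_iff b _ _).1 (h _ (ev_mem_kk b P hac hcl Complex.I))
    rw [hm_ev b hac] at h1 h2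
    exact comm_entries hac h1 h2
  have hreal : ∀ a, (((U a a).re : ℝ) : ℂ) = U a a := by
    intro a
    have h1 : star (U a a) = U a a := (Blk304.hm_herm b u.ofLp).apply a a
    exact Complex.conj_eq_iff_re.1 h1
  have hdiag : U = bsc P fun p => (U (P.eqv ⟨p, ⟨0, P.k_pos p⟩⟩) (P.eqv ⟨p, ⟨0, P.k_pos p⟩⟩)).re := by
    ext a c
    unfold bsc
    by_cases hac : a = c
    · subst hac
      rw [Matrix.diagonal_apply_eq]
      set a0 := P.eqv ⟨P.cl a, ⟨0, P.k_pos (P.cl a)⟩⟩ with ha0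
      have hcl : P.cl a0 = P.cl a := by
        have h1 := congrArg Sigma.fst
          (P.eqv.symm_apply_apply ⟨P.cl a, ⟨0, P.k_pos (P.cl a)⟩⟩)
        exact h1
      rw [hreal a0]
      by_cases h0 : a = a0
      · rw [← h0]
      · exact (key a a0 h0 hcl.symm).1
    · rw [Matrix.diagonal_apply_ne _ hac]
      by_cases hcl : P.cl a = P.cl c
      · exact (key a c hac hcl).2
      · exact hu a c hcl
  have hmem : u ∈ Cen b P := by
    refine (mem_Cen b P).2 ⟨_, ?_, hdiag⟩
    rw [mem_Val]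
    have h1 := Blk304.hm_trace b u.ofLp
    rw [← hU, hdiag, trace_bsc] at h1
    exact_mod_cast h1
  rw [← range_cen] at hmem
  exact hmem

/-! ## The permutations on the centre -/

theorem exists_osw {σ : Equiv.Perm (Fin P.m)} (hσ : σ ∈ Sw P)
    (s : EuclideanSpace ℝ (Fin (P.m - 1))) : ∃ t, lab b P t = fun p => lab b P s (σ⁻¹ p) := by
  refine exists_lab b P ((mem_Val P).2 ?_)
  have h1 := sum_k_perm P hσ (V := ℝ) fun p => lab b P s p
  simp only [smul_eq_mul] at h1
  rw [h1]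
  exact (mem_Val P).1 (lab_mem b P s)

/-- The permutation on the centre, as a map. -/
def oswc {σ : Equiv.Perm (Fin P.m)} (hσ : σ ∈ Sw P) (s : EuclideanSpace ℝ (Fin (P.m - 1))) :
    EuclideanSpace ℝ (Fin (P.m - 1)) := Classical.choose (exists_osw b P hσ s)

theorem lab_oswc {σ : Equiv.Perm (Fin P.m)} (hσ : σ ∈ Sw P) (s : EuclideanSpace ℝ (Fin (P.m - 1)))
    (p : Fin P.m) : lab b P (oswc b P hσ s) p = lab b P s (σ⁻¹ p) :=
  congrFun (Classical.choose_spec (exists_osw b P hσ s)) p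

/-- The permutation on the centre, as a linear isometry. -/
def oswi {σ : Equiv.Perm (Fin P.m)} (hσ : σ ∈ Sw P) :
    EuclideanSpace ℝ (Fin (P.m - 1)) →ₗᵢ[ℝ] EuclideanSpace ℝ (Fin (P.m - 1)) where
  toFun := oswc b P hσ
  map_add' s t := by
    apply lab_inj b P
    funext p
    rw [lab_oswc, map_add, map_add, Pi.add_apply, Pi.add_apply, lab_oswc, lab_oswc]
  map_smul' r s := by
    apply lab_inj b P
    funext p
    rw [lab_oswc, map_smul, RingHom.id_apply, map_smul, Pi.smul_apply, Pi.smul_apply, lab_oswc]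
  norm_map' s := by
    have h : ‖oswc b P hσ s‖ ^ 2 = ‖s‖ ^ 2 := by
      rw [← norm_sq_lab b P, ← norm_sq_lab b P]
      simp only [lab_oswc]
      have h1 := sum_k_perm P hσ (V := ℝ) fun p => lab b P s p ^ 2
      simp only [smul_eq_mul] at h1
      exact h1
    exact (pow_left_inj₀ (norm_nonneg _) (norm_nonneg _) two_ne_zero).1 h

/-- The permutation on the centre. -/
def osw {σ : Equiv.Perm (Fin P.m)} (hσ : σ ∈ Sw P) :
    EuclideanSpace ℝ (Fin (P.m - 1)) ≃ₗᵢ[ℝ] EuclideanSpace ℝ (Fin (P.m - 1)) where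
  toFun := oswc b P hσ
  map_add' := (oswi b P hσ).map_add
  map_smul' := (oswi b P hσ).map_smul
  invFun := oswc b P (inv_mem_Sw P hσ)
  left_inv s := by
    apply lab_inj b P
    funext p
    rw [lab_oswc, lab_oswc]
    exact congrArg _ (ias σ p)
  right_inv s := by
    apply lab_inj b P
    funext p
    rw [lab_oswc, lab_oswc, inv_inv, sia]
  norm_map' s := (oswi b P hσ).norm_map s

@[simp] theorem lab_osw {σ : Equiv.Perm (Fin P.m)} (hσ : σ ∈ Sw P)
    (s : EuclideanSpace ℝ (Fin (P.m - 1))) (p : Fin P.m) :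
    lab b P (osw b P hσ s) p = lab b P s (σ⁻¹ p) := lab_oswc b P hσ s p

/-- The representation of the permutations of equal clusters on the centre. -/
def oS : Sw P →* (EuclideanSpace ℝ (Fin (P.m - 1)) ≃ₗᵢ[ℝ] EuclideanSpace ℝ (Fin (P.m - 1))) where
  toFun σ := osw b P σ.2
  map_one' := by
    refine LinearIsometryEquiv.ext fun s => ?_
    apply lab_inj b P
    funext p
    rw [lab_osw]
    rfl
  map_mul' σ τ := by
    refine LinearIsometryEquiv.ext fun s => ?_
    apply lab_inj b P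
    funext p
    rw [lab_osw, LinearIsometryEquiv.coe_mul, Function.comp_apply, lab_osw, lab_osw]
    congr 1

theorem lab_oS (σ : Sw P) (s : EuclideanSpace ℝ (Fin (P.m - 1))) (p : Fin P.m) :
    lab b P (oS b P σ s) p = lab b P s ((σ : Equiv.Perm (Fin P.m))⁻¹ p) := lab_osw b P σ.2 s p


theorem lift9_oS (σ : Sw P) (X : XS P) : lift9 (oS b P σ) X = Osw b P σ.2 X := by
  apply pos_inj b P
  intro p
  rw [pos_Osw]
  ext i
  rw [pos_apply, pos_apply]
  exact lab_oS b P σ (xrow P X i) p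

/-! ## The flats -/

/-- The last six components of the difference of two positions. -/
def Lf (q : {q : Fin P.m × Fin P.m // q.1 ≠ q.2}) : XS P →L[ℝ] EuclideanSpace ℝ (Fin 6) :=
  LinearMap.toContinuousLinearMap
    { toFun := fun X => WithLp.toLp 2 fun j : Fin 6 =>
        pos b P X q.1.1 ⟨(j : ℕ) + 3, by omega⟩ - pos b P X q.1.2 ⟨(j : ℕ) + 3, by omega⟩
      map_add' := fun X Y => by
        ext j
        simp only [pos_add, PiLp.add_apply]
        ring
      map_smul' := fun r X => by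
        ext j
        simp only [pos_smul, PiLp.smul_apply, smul_eq_mul, RingHom.id_apply]
        ring }

theorem Lf_apply (q : {q : Fin P.m × Fin P.m // q.1 ≠ q.2}) (X : XS P) (j : Fin 6) :
    Lf b P q X j = pos b P X q.1.1 ⟨(j : ℕ) + 3, by omega⟩ - pos b P X q.1.2 ⟨(j : ℕ) + 3, by omega⟩ :=
  rfl

theorem Lf_eq_zero (q : {q : Fin P.m × Fin P.m // q.1 ≠ q.2}) (X : XS P) :
    Lf b P q X = 0 ↔ ∀ i : Fin 9, 3 ≤ (i : ℕ) → pos b P X q.1.1 i = pos b P X q.1.2 i := by
  constructor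
  · intro h i hi
    have h1 := congrArg (fun v : EuclideanSpace ℝ (Fin 6) => v ⟨(i : ℕ) - 3, by omega⟩) h
    simp only [Lf_apply, PiLp.zero_apply] at h1
    have h2 : (⟨(i : ℕ) - 3 + 3, by omega⟩ : Fin 9) = i := Fin.ext (by simp; omega)
    rw [h2] at h1
    exact sub_eq_zero.1 h1
  · intro h
    ext j
    rw [Lf_apply, h _ (by simp), sub_self]
    rfl

theorem UU_iff (X : XS P) : (∀ q, Lf b P q X ≠ 0) ↔ X ∈ UU b P := by
  constructor
  · intro h p q hpq
    have h1 := h ⟨(p, q), hpq⟩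
    rw [Ne, Lf_eq_zero] at h1
    push Not at h1
    exact h1
  · intro h q h0
    rw [Lf_eq_zero] at h0
    obtain ⟨j, hj, hne⟩ := h _ _ q.2
    exact hne (h0 j hj)

theorem Lf_surj (q : {q : Fin P.m × Fin P.m // q.1 ≠ q.2}) :
    Function.Surjective (Lf b P q) := by
  intro v
  obtain ⟨⟨p, q⟩, hpq⟩ := q
  change p ≠ q at hpq
  set n : ℝ := (P.k p : ℝ) + (P.k q : ℝ) with hn
  have hn0 : n ≠ 0 := by
    have h1 : (0 : ℝ) < P.k p := by exact_mod_cast P.k_pos p
    have h2 : (0 : ℝ) ≤ P.k q := Nat.cast_nonneg _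
    positivity
  set v' : EuclideanSpace ℝ (Fin 9) := WithLp.toLp 2 fun i =>
    if h : 3 ≤ (i : ℕ) then n⁻¹ * v ⟨(i : ℕ) - 3, by omega⟩ else 0 with hv'
  set cfn : Fin P.m → ℝ := fun r => (if r = p then (P.k q : ℝ) else 0) -
    (if r = q then (P.k p : ℝ) else 0) with hcfn
  obtain ⟨X, hX⟩ := exists_pos b P (r := fun r => cfn r • v') (by
    simp only [smul_smul, ← Finset.sum_smul]
    have h1 : ∑ r, (P.k r : ℝ) * cfn r = 0 := by
      simp only [hcfn, mul_sub, Finset.sum_sub_distrib, mul_ite, mul_zero, Finset.sum_ite_eq',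
        Finset.mem_univ, if_true]
      ring
    rw [h1, zero_smul])
  refine ⟨X, ?_⟩
  ext j
  rw [Lf_apply]
  simp only [hX]
  have e1 : cfn p = (P.k q : ℝ) := by simp [hcfn, hpq]
  have e2 : cfn q = -(P.k p : ℝ) := by simp [hcfn, hpq.symm]
  have e3 : v' ⟨(j : ℕ) + 3, by omega⟩ = n⁻¹ * v j := by
    simp [hv']
  simp only [PiLp.smul_apply, smul_eq_mul, e1, e2, e3]
  have h4 : (P.k q : ℝ) * (n⁻¹ * v j) - -(P.k p : ℝ) * (n⁻¹ * v j) = n * n⁻¹ * v j := by
    rw [hn]
    ring
  rw [h4, mul_inv_cancel₀ hn0, one_mul]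

theorem breg (X : XS P) : (∀ q, Lf b P q X ≠ 0) ↔
    ∀ u : Colg N, (∀ i : Fin 9, 3 ≤ (i : ℕ) → (colAlg b).br u (cen b P (xrow P X i)) = 0) →
      u ∈ kk b P := by
  rw [UU_iff]
  constructor
  · intro h u hu a c hac
    obtain ⟨j, hj, hne⟩ := h _ _ hac
    exact (colbr_cen b P u _).1 (hu j hj) a c hne
  · intro h p q hpq
    by_contra hcon
    push Not at hcon
    obtain ⟨u, hu, hu2⟩ := exists_ev b P hpq
    apply hu
    apply h
    intro i hi
    rw [colbr_cen]
    intro a c hac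
    by_contra h3
    have h4 := hcon i hi
    rw [pos_apply, pos_apply] at h4
    rcases hu2 a c h3 with ⟨h5, h6⟩ | ⟨h5, h6⟩
    · exact hac (by rw [h5, h6, h4])
    · exact hac (by rw [h5, h6, h4])

/-! ## The channel -/

theorem exists_w (σ : Sw P) : ∃ w : Matrix.specialUnitaryGroup (Fin N) ℂ,
    w ∈ KS P (σ : Equiv.Perm (Fin P.m)) := exists_mem_KS P σ.2

/-- Representatives in `SU(N)` of the permutations. -/
def wS (σ : Sw P) : Matrix.specialUnitaryGroup (Fin N) ℂ := Classical.choose (exists_w P σ)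

theorem wS_mem (σ : Sw P) : wS P σ ∈ KS P (σ : Equiv.Perm (Fin P.m)) :=
  Classical.choose_spec (exists_w P σ)

instance : Fintype (Sw P) := Fintype.ofFinite _

/-- **The geometry of the channel of the partition `P`.** -/
def chn : Chn b (P.m - 1) (Sw P) where
  kk := kk b P
  cen := cen b P
  o := oS b P
  w := wS P
  J := {q : Fin P.m × Fin P.m // q.1 ≠ q.2}
  hJ := inferInstance
  Lf := Lf b P
  cen_mem t := Cen_le_kk b P (cen_mem b P t)
  cen_comm t u hu := cen_comm b P t u hu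
  cen_all u hu h := cen_all b P u hu h
  act_w σ X := by
    rw [lift9_oS]
    exact act_KS b P σ.2 (wS_mem P σ) X
  orbit X X' h hX hX' hh := by
    have h1 : X' ∈ Reg b P := (Reg_iff b P X').1 hX'
    obtain ⟨σ, hσ, -, h2⟩ := exists_sw b P h1 hh
    exact ⟨⟨σ, hσ⟩, by rw [lift9_oS]; exact h2⟩
  free σ X hX h := by
    have h1 : X ∈ Reg b P := (Reg_iff b P X).1 hX
    rw [lift9_oS] at h
    have h2 : (σ : Equiv.Perm (Fin P.m))⁻¹ = 1 := by
      refine Equiv.ext fun p => ?_
      apply h1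
      rw [← pos_Osw b σ.2, h]
      rfl
    exact Subtype.ext (inv_eq_one.1 h2)
  Lf_surj := Lf_surj b P
  breg X := breg b P X

@[simp] theorem chn_kk : (chn b P).kk = kk b P := rfl

@[simp] theorem chn_cen : (chn b P).cen = cen b P := rfl

theorem chn_cf (X : XS P) : (chn b P).cf X = cfX b P X := rfl



theorem chn_Reg (X : XS P) : (chn b P).Reg X ↔ X ∈ Reg b P := Reg_iff b P X

theorem chn_BReg (X : XS P) : (chn b P).BReg X ↔ X ∈ UU b P := UU_iff b P X


end Crest.Agent.R330.Geo692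

end
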