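import Mathlib

-- ▼ part R330/Cliff_442
section

/-!
# Row 330 (helper442): modules of the Clifford relations

`CRep V F`: `θ : V → End F` real linear, every `θ u` symmetric, `θ u θ v + θ v θ u = ⟪u, v⟫`.

* `ann`, `cre` : `θ u ± i θ v` of an orthonormal pair; relations.
* `IrrOn K W` : `W` has no proper submodule invariant under `θ x`, `x ∈ K`.
* `IrrOn.step` : the kernel of `ann u v` in `W` is non-zero and irreducible for the orthogonal of `u, v`.
-/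

set_option autoImplicit false
set_option linter.unusedSectionVars false

open scoped InnerProductSpace

noncomputable section

namespace Crest.Agent.R330.Cliff442

variable {V F F' : Type*} [NormedAddCommGroup V] [InnerProductSpace ℝ V]
  [NormedAddCommGroup F] [InnerProductSpace ℂ F] [NormedAddCommGroup F'] [InnerProductSpace ℂ F']

/-- Modules of the Clifford relations `θ u θ v + θ v θ u = ⟪u, v⟫`. -/
structure CRep (V F : Type*) [NormedAddCommGroup V] [InnerProductSpace ℝ V]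
    [NormedAddCommGroup F] [InnerProductSpace ℂ F] where
  /-- the operators -/
  θ : V → Module.End ℂ F
  add : ∀ u v, θ (u + v) = θ u + θ v
  smul : ∀ (r : ℝ) u, θ (r • u) = (r : ℂ) • θ u
  symm : ∀ u (f g : F), ⟪θ u f, g⟫_ℂ = ⟪f, θ u g⟫_ℂ
  anti : ∀ u v, θ u * θ v + θ v * θ u = ((⟪u, v⟫_ℝ : ℝ) : ℂ) • (1 : Module.End ℂ F)

namespace CRep

variable (M : CRep V F)

theorem zero : M.θ 0 = 0 := by
  have h := M.smul 0 0
  simpa using h

theorem neg (u : V) : M.θ (-u) = -M.θ u := by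
  have h := M.smul (-1) u
  simpa using h

theorem sub (u v : V) : M.θ (u - v) = M.θ u - M.θ v := by
  rw [sub_eq_add_neg, M.add, M.neg, sub_eq_add_neg]

theorem sum {ι : Type*} (s : Finset ι) (f : ι → V) : M.θ (∑ i ∈ s, f i) = ∑ i ∈ s, M.θ (f i) := by
  classical
  induction s using Finset.induction_on with
  | empty => simp [M.zero]
  | insert a s ha ih => rw [Finset.sum_insert ha, Finset.sum_insert ha, M.add, ih]

theorem anti_apply (u v : V) (f : F) :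
    M.θ u (M.θ v f) + M.θ v (M.θ u f) = ((⟪u, v⟫_ℝ : ℝ) : ℂ) • f := by
  have h := congrArg (fun T : Module.End ℂ F => T f) (M.anti u v)
  simpa [Module.End.mul_apply] using h

/-- Orthogonal vectors anticommute. -/
theorem comm_apply {u v : V} (h : ⟪u, v⟫_ℝ = 0) (f : F) : M.θ u (M.θ v f) = -M.θ v (M.θ u f) := by
  have h1 := M.anti_apply u v f
  rw [h, Complex.ofReal_zero, zero_smul] at h1
  exact eq_neg_of_add_eq_zero_left h1

theorem sq_apply (u : V) (f : F) : (2 : ℂ) • M.θ u (M.θ u f) = ((‖u‖ ^ 2 : ℝ) : ℂ) • f := by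
  have h1 := M.anti_apply u u f
  rw [real_inner_self_eq_norm_sq] at h1
  rw [two_smul]
  exact h1

/-! ### Annihilation and creation operators of a pair -/

/-- `θ u + i θ v`. -/
def ann (u v : V) : Module.End ℂ F := M.θ u + Complex.I • M.θ v

/-- `θ u - i θ v`. -/
def cre (u v : V) : Module.End ℂ F := M.θ u - Complex.I • M.θ v

theorem ann_apply (u v : V) (f : F) : M.ann u v f = M.θ u f + Complex.I • M.θ v f := rfl

theorem cre_apply (u v : V) (f : F) : M.cre u v f = M.θ u f - Complex.I • M.θ v f := rfl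

theorem inner_ann (u v : V) (f g : F) : ⟪M.ann u v f, g⟫_ℂ = ⟪f, M.cre u v g⟫_ℂ := by
  rw [ann_apply, cre_apply, inner_add_left, inner_sub_right, inner_smul_left, inner_smul_right,
    M.symm, M.symm, Complex.conj_I]
  ring

theorem inner_cre (u v : V) (f g : F) : ⟪M.cre u v f, g⟫_ℂ = ⟪f, M.ann u v g⟫_ℂ := by
  rw [ann_apply, cre_apply, inner_sub_left, inner_add_right, inner_smul_left, inner_smul_right,
    M.symm, M.symm, Complex.conj_I]
  ring

/-- `ann x y (ann u v f) + ann u v (ann x y f)`. -/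
theorem ann_ann (x y u v : V) (f : F) : M.ann x y (M.ann u v f) + M.ann u v (M.ann x y f) =
    (((⟪x, u⟫_ℝ - ⟪y, v⟫_ℝ : ℝ) : ℂ) + Complex.I * ((⟪x, v⟫_ℝ + ⟪y, u⟫_ℝ : ℝ) : ℂ)) • f := by
  have h1 := M.anti_apply x u f
  have h2 := M.anti_apply x v f
  have h3 := M.anti_apply y u f
  have h4 := M.anti_apply y v f
  simp only [ann_apply, map_add, map_smul, smul_add, smul_smul, Complex.I_mul_I]
  have e : (((⟪x, u⟫_ℝ - ⟪y, v⟫_ℝ : ℝ) : ℂ) + Complex.I * ((⟪x, v⟫_ℝ + ⟪y, u⟫_ℝ : ℝ) : ℂ)) • f =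
      ((⟪x, u⟫_ℝ : ℝ) : ℂ) • f - ((⟪y, v⟫_ℝ : ℝ) : ℂ) • f +
        Complex.I • (((⟪x, v⟫_ℝ : ℝ) : ℂ) • f + ((⟪y, u⟫_ℝ : ℝ) : ℂ) • f) := by
    push_cast
    module
  rw [e, ← h1, ← h2, ← h3, ← h4]
  module

theorem cre_cre (x y u v : V) (f : F) : M.cre x y (M.cre u v f) + M.cre u v (M.cre x y f) =
    (((⟪x, u⟫_ℝ - ⟪y, v⟫_ℝ : ℝ) : ℂ) - Complex.I * ((⟪x, v⟫_ℝ + ⟪y, u⟫_ℝ : ℝ) : ℂ)) • f := by
  have h1 := M.anti_apply x u f
  have h2 := M.anti_apply x v f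
  have h3 := M.anti_apply y u f
  have h4 := M.anti_apply y v f
  simp only [cre_apply, map_sub, map_smul, smul_sub, smul_smul, Complex.I_mul_I]
  have e : (((⟪x, u⟫_ℝ - ⟪y, v⟫_ℝ : ℝ) : ℂ) - Complex.I * ((⟪x, v⟫_ℝ + ⟪y, u⟫_ℝ : ℝ) : ℂ)) • f =
      ((⟪x, u⟫_ℝ : ℝ) : ℂ) • f - ((⟪y, v⟫_ℝ : ℝ) : ℂ) • f -
        Complex.I • (((⟪x, v⟫_ℝ : ℝ) : ℂ) • f + ((⟪y, u⟫_ℝ : ℝ) : ℂ) • f) := by
    push_cast
    module
  rw [e, ← h1, ← h2, ← h3, ← h4]
  module

theorem ann_cre (x y u v : V) (f : F) : M.ann x y (M.cre u v f) + M.cre u v (M.ann x y f) =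
    (((⟪x, u⟫_ℝ + ⟪y, v⟫_ℝ : ℝ) : ℂ) + Complex.I * ((⟪y, u⟫_ℝ - ⟪x, v⟫_ℝ : ℝ) : ℂ)) • f := by
  have h1 := M.anti_apply x u f
  have h2 := M.anti_apply x v f
  have h3 := M.anti_apply y u f
  have h4 := M.anti_apply y v f
  simp only [cre_apply, ann_apply, map_sub, map_add, map_smul, smul_sub, smul_add, smul_smul,
    Complex.I_mul_I]
  have e : (((⟪x, u⟫_ℝ + ⟪y, v⟫_ℝ : ℝ) : ℂ) + Complex.I * ((⟪y, u⟫_ℝ - ⟪x, v⟫_ℝ : ℝ) : ℂ)) • f =
      ((⟪x, u⟫_ℝ : ℝ) : ℂ) • f + ((⟪y, v⟫_ℝ : ℝ) : ℂ) • f +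
        Complex.I • (((⟪y, u⟫_ℝ : ℝ) : ℂ) • f - ((⟪x, v⟫_ℝ : ℝ) : ℂ) • f) := by
    push_cast
    module
  rw [e, ← h1, ← h2, ← h3, ← h4]
  module

/-- `θ x` and `ann u v`. -/
theorem th_ann (x u v : V) (f : F) : M.θ x (M.ann u v f) + M.ann u v (M.θ x f) =
    (((⟪x, u⟫_ℝ : ℝ) : ℂ) + Complex.I * ((⟪x, v⟫_ℝ : ℝ) : ℂ)) • f := by
  have h1 := M.anti_apply x u f
  have h2 := M.anti_apply x v f
  simp only [ann_apply, map_add, map_smul]
  rw [add_smul, mul_smul, ← h1, ← h2]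
  module

theorem th_cre (x u v : V) (f : F) : M.θ x (M.cre u v f) + M.cre u v (M.θ x f) =
    (((⟪x, u⟫_ℝ : ℝ) : ℂ) - Complex.I * ((⟪x, v⟫_ℝ : ℝ) : ℂ)) • f := by
  have h1 := M.anti_apply x u f
  have h2 := M.anti_apply x v f
  simp only [cre_apply, map_sub, map_smul]
  rw [sub_smul, mul_smul, ← h1, ← h2]
  module

/-- `u, v` is an orthonormal pair. -/
def Pr (u v : V) : Prop := ‖u‖ = 1 ∧ ‖v‖ = 1 ∧ ⟪u, v⟫_ℝ = 0

section pair

variable {M} {u v : V} (hp : Pr u v)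
include hp

theorem ann_sq (f : F) : M.ann u v (M.ann u v f) = 0 := by
  have h := M.ann_ann u v u v f
  rw [real_inner_self_eq_norm_sq, real_inner_self_eq_norm_sq, hp.1, hp.2.1, hp.2.2,
    real_inner_comm, hp.2.2] at h
  simp only [one_pow, sub_self, add_zero, Complex.ofReal_zero, mul_zero, zero_smul] at h
  have h2 : (2 : ℂ) • M.ann u v (M.ann u v f) = 0 := by rw [two_smul]; exact h
  exact (smul_eq_zero.1 h2).resolve_left two_ne_zero

theorem cre_sq (f : F) : M.cre u v (M.cre u v f) = 0 := by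
  have h := M.cre_cre u v u v f
  rw [real_inner_self_eq_norm_sq, real_inner_self_eq_norm_sq, hp.1, hp.2.1, hp.2.2,
    real_inner_comm, hp.2.2] at h
  simp only [one_pow, sub_self, add_zero, Complex.ofReal_zero, mul_zero, zero_smul] at h
  have h2 : (2 : ℂ) • M.cre u v (M.cre u v f) = 0 := by rw [two_smul]; exact h
  exact (smul_eq_zero.1 h2).resolve_left two_ne_zero

theorem ann_cre_self (f : F) :
    M.ann u v (M.cre u v f) + M.cre u v (M.ann u v f) = (2 : ℂ) • f := by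
  rw [M.ann_cre, real_inner_self_eq_norm_sq, real_inner_self_eq_norm_sq, hp.1, hp.2.1, hp.2.2,
    real_inner_comm, hp.2.2]
  norm_num

/-- Every vector is `½ a a† f + a† (½ a f)`. -/
theorem split (f : F) :
    f = (1 / 2 : ℂ) • M.ann u v (M.cre u v f) + (1 / 2 : ℂ) • M.cre u v (M.ann u v f) := by
  rw [← smul_add, ann_cre_self hp, smul_smul]
  norm_num

end pair

/-- `θ x` anticommutes with `ann u v` if `x` is orthogonal to `u` and `v`. -/
theorem th_ann_perp {x u v : V} (hu : ⟪x, u⟫_ℝ = 0) (hv : ⟪x, v⟫_ℝ = 0) (f : F) :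
    M.ann u v (M.θ x f) = -M.θ x (M.ann u v f) := by
  have h := M.th_ann x u v f
  rw [hu, hv] at h
  simp only [Complex.ofReal_zero, mul_zero, add_zero, zero_smul] at h
  exact eq_neg_of_add_eq_zero_right h

theorem th_cre_perp {x u v : V} (hu : ⟪x, u⟫_ℝ = 0) (hv : ⟪x, v⟫_ℝ = 0) (f : F) :
    M.cre u v (M.θ x f) = -M.θ x (M.cre u v f) := by
  have h := M.th_cre x u v f
  rw [hu, hv] at h
  simp only [Complex.ofReal_zero, mul_zero, sub_zero, zero_smul] at h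
  exact eq_neg_of_add_eq_zero_right h

/-! ### Irreducible subspaces -/

/-- `W` is invariant under `θ x`, `x ∈ K`. -/
def InvOn (K : Submodule ℝ V) (W : Submodule ℂ F) : Prop := ∀ x ∈ K, ∀ f ∈ W, M.θ x f ∈ W

/-- `W` is invariant and has no proper invariant subspace. -/
def IrrOn (K : Submodule ℝ V) (W : Submodule ℂ F) : Prop :=
  M.InvOn K W ∧ ∀ W' ≤ W, M.InvOn K W' → W' = ⊥ ∨ W' = W

/-- The vectors of `K` orthogonal to `u` and `v`. -/
def perp (K : Submodule ℝ V) (u v : V) : Submodule ℝ V where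
  carrier := {x | x ∈ K ∧ ⟪x, u⟫_ℝ = 0 ∧ ⟪x, v⟫_ℝ = 0}
  add_mem' := by
    rintro x y ⟨h1, h2, h3⟩ ⟨h4, h5, h6⟩
    refine ⟨K.add_mem h1 h4, ?_, ?_⟩
    · rw [inner_add_left, h2, h5, add_zero]
    · rw [inner_add_left, h3, h6, add_zero]
  zero_mem' := ⟨K.zero_mem, inner_zero_left _, inner_zero_left _⟩
  smul_mem' := by
    rintro r x ⟨h1, h2, h3⟩
    refine ⟨K.smul_mem r h1, ?_, ?_⟩
    · rw [inner_smul_left, h2, mul_zero]
    · rw [inner_smul_left, h3, mul_zero]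

theorem mem_perp {K : Submodule ℝ V} {u v x : V} :
    x ∈ perp K u v ↔ x ∈ K ∧ ⟪x, u⟫_ℝ = 0 ∧ ⟪x, v⟫_ℝ = 0 := Iff.rfl

/-- The kernel of `ann u v` in `W`. -/
def vac (W : Submodule ℂ F) (u v : V) : Submodule ℂ F := W ⊓ LinearMap.ker (M.ann u v)

theorem mem_vac {W : Submodule ℂ F} {u v : V} {f : F} :
    f ∈ M.vac W u v ↔ f ∈ W ∧ M.ann u v f = 0 := by
  rw [vac, Submodule.mem_inf, LinearMap.mem_ker]

section step

variable {M} {K : Submodule ℝ V} {W : Submodule ℂ F} {u v : V} (hp : Pr u v) (hu : u ∈ K)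
  (hv : v ∈ K)
include hp hu hv

theorem InvOn.ann (h : M.InvOn K W) {f : F} (hf : f ∈ W) : M.ann u v f ∈ W :=
  W.add_mem (h u hu f hf) (W.smul_mem _ (h v hv f hf))

theorem InvOn.cre (h : M.InvOn K W) {f : F} (hf : f ∈ W) : M.cre u v f ∈ W :=
  W.sub_mem (h u hu f hf) (W.smul_mem _ (h v hv f hf))

theorem InvOn.ann_cre_mem (h : M.InvOn K W) {f : F} (hf : f ∈ W) :
    M.ann u v (M.cre u v f) ∈ M.vac W u v :=
  M.mem_vac.2 ⟨h.ann hp hu hv (h.cre hp hu hv hf), ann_sq hp _⟩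

theorem InvOn.ann_mem (h : M.InvOn K W) {f : F} (hf : f ∈ W) : M.ann u v f ∈ M.vac W u v :=
  M.mem_vac.2 ⟨h.ann hp hu hv hf, ann_sq hp _⟩

theorem InvOn.vac (h : M.InvOn K W) : M.InvOn (perp K u v) (M.vac W u v) := by
  intro x hx f hf
  obtain ⟨h1, h2⟩ := M.mem_vac.1 hf
  refine M.mem_vac.2 ⟨h x hx.1 f h1, ?_⟩
  rw [M.th_ann_perp hx.2.1 hx.2.2, h2, map_zero, neg_zero]

theorem vac_ne_bot (h : M.InvOn K W) (hW : W ≠ ⊥) : M.vac W u v ≠ ⊥ := by
  intro hb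
  obtain ⟨f, hf, hf0⟩ := W.ne_bot_iff.1 hW
  have h1 := h.ann_mem hp hu hv hf
  have h2 := h.ann_cre_mem hp hu hv hf
  rw [hb, Submodule.mem_bot] at h1 h2
  apply hf0
  rw [split (M := M) hp f, h1, h2, map_zero]
  simp

/-- The orthogonal projection of `x` on the pair and its orthogonal. -/
theorem exists_split {x : V} (hx : x ∈ K) :
    x - ⟪x, u⟫_ℝ • u - ⟪x, v⟫_ℝ • v ∈ perp K u v := by
  refine ⟨K.sub_mem (K.sub_mem hx (K.smul_mem _ hu)) (K.smul_mem _ hv), ?_, ?_⟩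
  · rw [inner_sub_left, inner_sub_left, inner_smul_left, inner_smul_left,
      real_inner_self_eq_norm_sq, hp.1, real_inner_comm u v, hp.2.2]
    simp
  · rw [inner_sub_left, inner_sub_left, inner_smul_left, inner_smul_left,
      real_inner_self_eq_norm_sq, hp.2.1, hp.2.2]
    simp

/-- `θ u`, `θ v` from `ann`, `cre`. -/
theorem th_u (f : F) : M.θ u f = (1 / 2 : ℂ) • (M.ann u v f + M.cre u v f) := by
  rw [ann_apply, cre_apply]
  module

theorem th_v (f : F) : M.θ v f = (-Complex.I / 2 : ℂ) • (M.ann u v f - M.cre u v f) := by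
  have h1 : M.ann u v f - M.cre u v f = (2 * Complex.I) • M.θ v f := by
    rw [ann_apply, cre_apply]
    module
  rw [h1, smul_smul, show (-Complex.I / 2 * (2 * Complex.I) : ℂ) = -(Complex.I * Complex.I) by ring,
    Complex.I_mul_I]
  simp

/-- `IrrOn` descends to the kernel of an annihilation operator. -/
theorem IrrOn.step (h : M.IrrOn K W) : M.IrrOn (perp K u v) (M.vac W u v) := by
  refine ⟨h.1.vac hp hu hv, fun W' hW' hinv => ?_⟩
  -- the submodule `W' + a† W'`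
  set U : Submodule ℂ F := W' ⊔ W'.map (M.cre u v) with hU
  have hW'W : W' ≤ W := fun f hf => (M.mem_vac.1 (hW' hf)).1
  have hann : ∀ f ∈ W', M.ann u v f = 0 := fun f hf => (M.mem_vac.1 (hW' hf)).2
  have hUW : U ≤ W := by
    refine sup_le hW'W ?_
    rintro _ ⟨f, hf, rfl⟩
    exact h.1.cre hp hu hv (hW'W hf)
  have hUann : ∀ f ∈ U, M.ann u v f ∈ U := by
    intro f hf
    obtain ⟨f1, hf1, _, ⟨f2, hf2, rfl⟩, rfl⟩ := Submodule.mem_sup.1 hf
    have h1 := ann_cre_self (M := M) hp f2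
    rw [hann f2 hf2, map_zero, add_zero] at h1
    rw [map_add, hann f1 hf1, zero_add, h1]
    exact Submodule.mem_sup_left (W'.smul_mem _ hf2)
  have hUcre : ∀ f ∈ U, M.cre u v f ∈ U := by
    intro f hf
    obtain ⟨f1, hf1, _, ⟨f2, hf2, rfl⟩, rfl⟩ := Submodule.mem_sup.1 hf
    rw [map_add, cre_sq hp, add_zero]
    exact Submodule.mem_sup_right ⟨f1, hf1, rfl⟩
  have hUinv : M.InvOn K U := by
    intro x hx f hf
    have e : x = ⟪x, u⟫_ℝ • u + ⟪x, v⟫_ℝ • v + (x - ⟪x, u⟫_ℝ • u - ⟪x, v⟫_ℝ • v) := by abel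
    have hy := exists_split hp hu hv hx
    rw [e, M.add, M.add, M.smul, M.smul]
    simp only [LinearMap.add_apply, LinearMap.smul_apply]
    refine U.add_mem (U.add_mem (U.smul_mem _ ?_) (U.smul_mem _ ?_)) ?_
    · rw [th_u (M := M) hp hu hv f]
      exact U.smul_mem _ (U.add_mem (hUann f hf) (hUcre f hf))
    · rw [th_v (M := M) hp hu hv f]
      exact U.smul_mem _ (U.sub_mem (hUann f hf) (hUcre f hf))
    · obtain ⟨f1, hf1, _, ⟨f2, hf2, rfl⟩, rfl⟩ := Submodule.mem_sup.1 hf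
      rw [map_add]
      refine U.add_mem (Submodule.mem_sup_left (hinv _ hy f1 hf1)) ?_
      have h1 := M.th_cre_perp hy.2.1 hy.2.2 f2
      rw [eq_neg_iff_add_eq_zero, add_comm, ← eq_neg_iff_add_eq_zero] at h1
      rw [h1]
      exact U.neg_mem (Submodule.mem_sup_right ⟨_, hinv _ hy f2 hf2, rfl⟩)
  rcases h.2 U hUW hUinv with hb | ht
  · left
    rw [eq_bot_iff]
    exact fun f hf => hb ▸ Submodule.mem_sup_left hf
  · right
    refine le_antisymm hW' fun f hf => ?_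
    obtain ⟨h1, h2⟩ := M.mem_vac.1 hf
    rw [← ht] at h1
    obtain ⟨f1, hf1, _, ⟨f2, hf2, rfl⟩, rfl⟩ := Submodule.mem_sup.1 h1
    have h3 := ann_cre_self (M := M) hp f2
    rw [hann f2 hf2, map_zero, add_zero] at h3
    rw [map_add, hann f1 hf1, zero_add, h3] at h2
    have h4 : f2 = 0 := (smul_eq_zero.1 h2).resolve_left two_ne_zero
    rw [h4, map_zero, add_zero]
    exact hf1

end step

end CRep

end Crest.Agent.R330.Cliff442

end
end

-- ▼ part R330/Cliff2_442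

/-!
# Row 330 (helper442): families of pairs, vacuum line, intertwiners

For a family of orthonormal pairs `u k, v k` (`Prs u v s`, `s : Finset ι`):

* `perpS K s`, `vacS W u v s`, `IrrOn.vacS`, `vacS_ne_bot`, `finrank_vacS`.
* `vac_line` : if nothing of `K` is orthogonal to all pairs, the common kernel is a line.
* `exists_inter` : the intertwiner of two modules with given vacuum vectors (isometric, into every
  invariant subspace); `inter_unique`.
-/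

set_option autoImplicit false
set_option linter.unusedSectionVars false

open scoped InnerProductSpace

noncomputable section

namespace Crest.Agent.R330.Cliff442

variable {V F F' : Type*} [NormedAddCommGroup V] [InnerProductSpace ℝ V]
  [NormedAddCommGroup F] [InnerProductSpace ℂ F] [NormedAddCommGroup F'] [InnerProductSpace ℂ F']
  {ι : Type*}

theorem inner_self_c (x : F) : ⟪x, x⟫_ℂ = ((‖x‖ ^ 2 : ℝ) : ℂ) := by
  rw [inner_self_eq_norm_sq_to_K]
  norm_cast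

/-- A family of orthonormal pairs. -/
structure Prs (u v : ι → V) (s : Finset ι) : Prop where
  pr : ∀ k ∈ s, CRep.Pr (u k) (v k)
  uu : ∀ k ∈ s, ∀ l ∈ s, k ≠ l → ⟪u k, u l⟫_ℝ = 0
  uv : ∀ k ∈ s, ∀ l ∈ s, k ≠ l → ⟪u k, v l⟫_ℝ = 0
  vv : ∀ k ∈ s, ∀ l ∈ s, k ≠ l → ⟪v k, v l⟫_ℝ = 0

namespace Prs

variable {u v : ι → V} {s t : Finset ι}

theorem mono (h : Prs u v t) (hs : s ⊆ t) : Prs u v s :=
  ⟨fun k hk => h.pr k (hs hk), fun k hk l hl => h.uu k (hs hk) l (hs hl),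
    fun k hk l hl => h.uv k (hs hk) l (hs hl), fun k hk l hl => h.vv k (hs hk) l (hs hl)⟩

end Prs

namespace CRep

variable (M : CRep V F) (M' : CRep V F')

/-- The vectors of `K` orthogonal to all pairs. -/
def perpS (K : Submodule ℝ V) (u v : ι → V) (s : Finset ι) : Submodule ℝ V where
  carrier := {x | x ∈ K ∧ ∀ k ∈ s, ⟪x, u k⟫_ℝ = 0 ∧ ⟪x, v k⟫_ℝ = 0}
  add_mem' := by
    rintro x y ⟨h1, h2⟩ ⟨h4, h5⟩
    refine ⟨K.add_mem h1 h4, fun k hk => ⟨?_, ?_⟩⟩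
    · rw [inner_add_left, (h2 k hk).1, (h5 k hk).1, add_zero]
    · rw [inner_add_left, (h2 k hk).2, (h5 k hk).2, add_zero]
  zero_mem' := ⟨K.zero_mem, fun _ _ => ⟨inner_zero_left _, inner_zero_left _⟩⟩
  smul_mem' := by
    rintro r x ⟨h1, h2⟩
    refine ⟨K.smul_mem r h1, fun k hk => ⟨?_, ?_⟩⟩
    · rw [inner_smul_left, (h2 k hk).1, mul_zero]
    · rw [inner_smul_left, (h2 k hk).2, mul_zero]

theorem mem_perpS {K : Submodule ℝ V} {u v : ι → V} {s : Finset ι} {x : V} :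
    x ∈ perpS K u v s ↔ x ∈ K ∧ ∀ k ∈ s, ⟪x, u k⟫_ℝ = 0 ∧ ⟪x, v k⟫_ℝ = 0 := Iff.rfl

/-- The common kernel of the annihilation operators in `W`. -/
def vacS (W : Submodule ℂ F) (u v : ι → V) (s : Finset ι) : Submodule ℂ F where
  carrier := {f | f ∈ W ∧ ∀ k ∈ s, M.ann (u k) (v k) f = 0}
  add_mem' := by
    rintro x y ⟨h1, h2⟩ ⟨h4, h5⟩
    refine ⟨W.add_mem h1 h4, fun k hk => ?_⟩
    rw [map_add, h2 k hk, h5 k hk, add_zero]
  zero_mem' := ⟨W.zero_mem, fun _ _ => map_zero _⟩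
  smul_mem' := by
    rintro r x ⟨h1, h2⟩
    refine ⟨W.smul_mem r h1, fun k hk => ?_⟩
    rw [map_smul, h2 k hk, smul_zero]

theorem mem_vacS {W : Submodule ℂ F} {u v : ι → V} {s : Finset ι} {f : F} :
    f ∈ M.vacS W u v s ↔ f ∈ W ∧ ∀ k ∈ s, M.ann (u k) (v k) f = 0 := Iff.rfl

theorem perpS_empty (K : Submodule ℝ V) (u v : ι → V) : perpS K u v ∅ = K := by
  ext x
  simp [mem_perpS]

theorem vacS_empty (W : Submodule ℂ F) (u v : ι → V) : M.vacS W u v ∅ = W := by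
  ext x
  simp [mem_vacS]

theorem perpS_insert [DecidableEq ι] (K : Submodule ℝ V) (u v : ι → V) (a : ι) (s : Finset ι) :
    perpS K u v (insert a s) = perp (perpS K u v s) (u a) (v a) := by
  ext x
  simp only [mem_perpS, mem_perp, Finset.forall_mem_insert]
  tauto

theorem perpS_insert' [DecidableEq ι] (K : Submodule ℝ V) (u v : ι → V) (a : ι) (s : Finset ι) :
    perpS K u v (insert a s) = perpS (perp K (u a) (v a)) u v s := by
  ext x
  simp only [mem_perpS, mem_perp, Finset.forall_mem_insert]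
  tauto

theorem vacS_insert [DecidableEq ι] (W : Submodule ℂ F) (u v : ι → V) (a : ι) (s : Finset ι) :
    M.vacS W u v (insert a s) = M.vac (M.vacS W u v s) (u a) (v a) := by
  ext x
  simp only [mem_vacS, mem_vac, Finset.forall_mem_insert]
  tauto

theorem vacS_insert' [DecidableEq ι] (W : Submodule ℂ F) (u v : ι → V) (a : ι) (s : Finset ι) :
    M.vacS W u v (insert a s) = M.vacS (M.vac W (u a) (v a)) u v s := by
  ext x
  simp only [mem_vacS, mem_vac, Finset.forall_mem_insert]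
  tauto

section fam

variable {M} {K : Submodule ℝ V} {W : Submodule ℂ F} {u v : ι → V}

theorem InvOn.vacS {s : Finset ι} (h : M.InvOn K W) : M.InvOn (perpS K u v s) (M.vacS W u v s) := by
  intro x hx f hf
  obtain ⟨h1, h2⟩ := M.mem_vacS.1 hf
  refine M.mem_vacS.2 ⟨h x hx.1 f h1, fun k hk => ?_⟩
  rw [M.th_ann_perp (hx.2 k hk).1 (hx.2 k hk).2, h2 k hk, map_zero, neg_zero]

/-- The pair `a` lies in the orthogonal of the pairs of `s`. -/
theorem mem_perpS_of_notMem [DecidableEq ι] {a : ι} {s : Finset ι} (ha : a ∉ s)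
    (hp : Prs u v (insert a s)) (hK : ∀ k ∈ insert a s, u k ∈ K ∧ v k ∈ K) :
    u a ∈ perpS K u v s ∧ v a ∈ perpS K u v s := by
  have ham : a ∈ insert a s := Finset.mem_insert_self a s
  refine ⟨⟨(hK a ham).1, fun k hk => ?_⟩, ⟨(hK a ham).2, fun k hk => ?_⟩⟩
  · have hkm : k ∈ insert a s := Finset.mem_insert_of_mem hk
    have hne : a ≠ k := fun e => ha (e ▸ hk)
    exact ⟨hp.uu a ham k hkm hne, hp.uv a ham k hkm hne⟩
  · have hkm : k ∈ insert a s := Finset.mem_insert_of_mem hk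
    have hne : k ≠ a := fun e => ha (e ▸ hk)
    exact ⟨by rw [real_inner_comm]; exact hp.uv k hkm a ham hne, hp.vv a ham k hkm hne.symm⟩

/-- The pairs of `s` lie in the orthogonal of the pair `a`. -/
theorem mem_perp_of_notMem [DecidableEq ι] {a : ι} {s : Finset ι} (ha : a ∉ s)
    (hp : Prs u v (insert a s)) (hK : ∀ k ∈ insert a s, u k ∈ K ∧ v k ∈ K) (k : ι) (hk : k ∈ s) :
    u k ∈ perp K (u a) (v a) ∧ v k ∈ perp K (u a) (v a) := by
  have ham : a ∈ insert a s := Finset.mem_insert_self a s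
  have hkm : k ∈ insert a s := Finset.mem_insert_of_mem hk
  have hne : k ≠ a := fun e => ha (e ▸ hk)
  refine ⟨⟨(hK k hkm).1, hp.uu k hkm a ham hne, hp.uv k hkm a ham hne⟩,
    ⟨(hK k hkm).2, ?_, hp.vv k hkm a ham hne⟩⟩
  rw [real_inner_comm]
  exact hp.uv a ham k hkm hne.symm

theorem IrrOn.vacS {s : Finset ι} (h : M.IrrOn K W) (hp : Prs u v s)
    (hK : ∀ k ∈ s, u k ∈ K ∧ v k ∈ K) : M.IrrOn (perpS K u v s) (M.vacS W u v s) := by
  classical
  induction s using Finset.induction_on with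
  | empty =>
    rw [perpS_empty, vacS_empty]
    exact h
  | insert a s ha ih =>
    have h1 := ih (hp.mono (Finset.subset_insert a s))
      (fun k hk => hK k (Finset.mem_insert_of_mem hk))
    obtain ⟨h2, h3⟩ := mem_perpS_of_notMem ha hp hK
    rw [perpS_insert, vacS_insert]
    exact h1.step (hp.pr a (Finset.mem_insert_self a s)) h2 h3

theorem vacS_ne_bot {s : Finset ι} (h : M.InvOn K W) (hp : Prs u v s)
    (hK : ∀ k ∈ s, u k ∈ K ∧ v k ∈ K) (hW : W ≠ ⊥) : M.vacS W u v s ≠ ⊥ := by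
  classical
  induction s using Finset.induction_on with
  | empty =>
    rw [vacS_empty]
    exact hW
  | insert a s ha ih =>
    have h1 := ih (hp.mono (Finset.subset_insert a s))
      (fun k hk => hK k (Finset.mem_insert_of_mem hk))
    obtain ⟨h2, h3⟩ := mem_perpS_of_notMem ha hp hK
    rw [vacS_insert]
    exact vac_ne_bot (hp.pr a (Finset.mem_insert_self a s)) h2 h3 h.vacS h1

/-- An irreducible subspace for `K = 0` is a line. -/
theorem line_of_irr_bot (h : M.IrrOn (⊥ : Submodule ℝ V) W) {Ω : F} (hΩ : Ω ∈ W) (h0 : ‖Ω‖ = 1)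
    {f : F} (hf : f ∈ W) : f = ⟪Ω, f⟫_ℂ • Ω := by
  have hle : Submodule.span ℂ {Ω} ≤ W := by
    rw [Submodule.span_le]
    exact Set.singleton_subset_iff.2 hΩ
  have hinv : M.InvOn (⊥ : Submodule ℝ V) (Submodule.span ℂ {Ω}) := by
    intro x hx g _
    rw [(Submodule.mem_bot ℝ).1 hx, M.zero]
    exact Submodule.zero_mem _
  have hne : Ω ≠ 0 := fun e => by rw [e, norm_zero] at h0; exact zero_ne_one h0
  rcases h.2 _ hle hinv with hb | ht
  · exact absurd (Submodule.span_singleton_eq_bot.1 hb) hne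
  · rw [← ht] at hf
    obtain ⟨c, rfl⟩ := Submodule.mem_span_singleton.1 hf
    rw [inner_smul_right, inner_self_eq_norm_sq_to_K, h0]
    simp

/-- The common kernel of the annihilation operators is a line if the pairs span `K`. -/
theorem vac_line {s : Finset ι} (h : M.IrrOn K W) (hp : Prs u v s)
    (hK : ∀ k ∈ s, u k ∈ K ∧ v k ∈ K) (hspan : perpS K u v s = ⊥) {Ω : F}
    (hΩ : Ω ∈ M.vacS W u v s) (h0 : ‖Ω‖ = 1) {f : F} (hf : f ∈ M.vacS W u v s) :
    f = ⟪Ω, f⟫_ℂ • Ω := by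
  have h1 := h.vacS hp hK
  rw [hspan] at h1
  exact line_of_irr_bot h1 hΩ h0 hf

theorem exists_vac {s : Finset ι} (h : M.InvOn K W) (hp : Prs u v s)
    (hK : ∀ k ∈ s, u k ∈ K ∧ v k ∈ K) (hW : W ≠ ⊥) : ∃ Ω ∈ M.vacS W u v s, ‖Ω‖ = 1 := by
  obtain ⟨f, hf, hf0⟩ := Submodule.exists_mem_ne_zero_of_ne_bot (vacS_ne_bot h hp hK hW)
  refine ⟨((‖f‖⁻¹ : ℝ) : ℂ) • f, Submodule.smul_mem _ _ hf, ?_⟩
  rw [norm_smul, Complex.norm_real, norm_inv, norm_norm, inv_mul_cancel₀ (norm_ne_zero_iff.2 hf0)]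

end fam

section inter

variable {M M'} {u v : ι → V}

/-- Inner products in the splitting of a pair. -/
theorem inner_split {a b : V} (hp : Pr a b) {f₀ f₁ g₀ g₁ : F} (hf₀ : M.ann a b f₀ = 0) (hg₀ : M.ann a b g₀ = 0) (hg₁ : M.ann a b g₁ = 0) :
    ⟪f₀ + M.cre a b f₁, g₀ + M.cre a b g₁⟫_ℂ = ⟪f₀, g₀⟫_ℂ + 2 * ⟪f₁, g₁⟫_ℂ := by
  have e1 : ⟪f₀, M.cre a b g₁⟫_ℂ = 0 := by rw [← M.inner_ann, hf₀, inner_zero_left]
  have e2 : ⟪M.cre a b f₁, g₀⟫_ℂ = 0 := by rw [M.inner_cre, hg₀, inner_zero_right]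
  have e3 : ⟪M.cre a b f₁, M.cre a b g₁⟫_ℂ = 2 * ⟪f₁, g₁⟫_ℂ := by
    rw [M.inner_cre]
    have h := ann_cre_self (M := M) hp g₁
    rw [hg₁, map_zero, add_zero] at h
    rw [h, inner_smul_right]
  rw [inner_add_left, inner_add_right, inner_add_right, e1, e2, e3]
  ring

/-- Extension of an intertwiner over one pair. -/
theorem inter_step {K : Submodule ℝ V} {W : Submodule ℂ F} {W' : Submodule ℂ F'} {a b : V}
    (hp : Pr a b) (ha : a ∈ K) (hb : b ∈ K) (hW : M.InvOn K W) (hW' : M'.InvOn K W')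
    (J₁ : F →ₗ[ℂ] F') (h1 : ∀ f, J₁ f ∈ M'.vac W' a b)
    (h2 : ∀ x ∈ perp K a b, ∀ f ∈ M.vac W a b, J₁ (M.θ x f) = M'.θ x (J₁ f)) :
    ∃ J : F →ₗ[ℂ] F', (∀ f ∈ M.vac W a b, J f = J₁ f) ∧ (∀ f, J f ∈ W') ∧
      (∀ x ∈ K, ∀ f ∈ W, J (M.θ x f) = M'.θ x (J f)) ∧
      (∀ c : ℝ, (∀ f ∈ M.vac W a b, ∀ g ∈ M.vac W a b, ⟪J₁ f, J₁ g⟫_ℂ = (c : ℂ) * ⟪f, g⟫_ℂ) →
        ∀ f ∈ W, ∀ g ∈ W, ⟪J f, J g⟫_ℂ = (c : ℂ) * ⟪f, g⟫_ℂ) := by
  set J : F →ₗ[ℂ] F' := J₁ ∘ₗ ((1 / 2 : ℂ) • (M.ann a b ∘ₗ M.cre a b)) +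
    M'.cre a b ∘ₗ J₁ ∘ₗ ((1 / 2 : ℂ) • M.ann a b) with hJ
  have hJa : ∀ f, J f = J₁ ((1 / 2 : ℂ) • M.ann a b (M.cre a b f)) +
      M'.cre a b (J₁ ((1 / 2 : ℂ) • M.ann a b f)) := fun f => rfl
  have hk : ∀ f, M'.ann a b (J₁ f) = 0 := fun f => (M'.mem_vac.1 (h1 f)).2
  have hJW : ∀ f, J₁ f ∈ W' := fun f => (M'.mem_vac.1 (h1 f)).1
  have hann : ∀ f, J (M.ann a b f) = M'.ann a b (J f) := by
    intro f
    rw [hJa, hJa, map_add, hk, ann_sq hp, smul_zero, map_zero, map_zero, add_zero, zero_add]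
    have e1 := ann_cre_self (M := M) hp (M.ann a b f)
    rw [ann_sq hp, map_zero, add_zero] at e1
    have e2 := ann_cre_self (M := M') hp (J₁ ((1 / 2 : ℂ) • M.ann a b f))
    rw [hk, map_zero, add_zero] at e2
    rw [e1, e2]
    simp only [map_smul, smul_smul]
    norm_num
  have hcre : ∀ f, J (M.cre a b f) = M'.cre a b (J f) := by
    intro f
    rw [hJa, hJa, map_add, cre_sq hp, cre_sq hp, map_zero, smul_zero, map_zero, zero_add, add_zero]
  have hperp : ∀ x ∈ perp K a b, ∀ f ∈ W, J (M.θ x f) = M'.θ x (J f) := by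
    intro x hx f hf
    have e1 : M.ann a b (M.cre a b (M.θ x f)) = M.θ x (M.ann a b (M.cre a b f)) := by
      rw [M.th_cre_perp hx.2.1 hx.2.2, map_neg, M.th_ann_perp hx.2.1 hx.2.2, neg_neg]
    have e2 : M.ann a b (M.θ x f) = -M.θ x (M.ann a b f) := M.th_ann_perp hx.2.1 hx.2.2 f
    have e3 : (1 / 2 : ℂ) • M.θ x (M.ann a b (M.cre a b f)) =
        M.θ x ((1 / 2 : ℂ) • M.ann a b (M.cre a b f)) := (map_smul _ _ _).symm
    have e4 : (1 / 2 : ℂ) • M.θ x (M.ann a b f) =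
        M.θ x ((1 / 2 : ℂ) • M.ann a b f) := (map_smul _ _ _).symm
    rw [hJa, hJa, e1, e2, map_add, smul_neg, map_neg, map_neg, e3, e4,
      h2 x hx _ (Submodule.smul_mem _ _ (hW.ann_cre_mem hp ha hb hf)),
      h2 x hx _ (Submodule.smul_mem _ _ (hW.ann_mem hp ha hb hf)),
      M'.th_cre_perp hx.2.1 hx.2.2, neg_neg]
  refine ⟨J, fun f hf => ?_, fun f => ?_, fun x hx f hf => ?_, fun c hc f hf g hg => ?_⟩
  · have h3 := (M.mem_vac.1 hf).2
    have e1 := ann_cre_self (M := M) hp f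
    rw [h3, map_zero, add_zero] at e1
    rw [hJa, h3, e1, smul_zero, map_zero, map_zero, add_zero, smul_smul]
    norm_num
  · rw [hJa]
    exact W'.add_mem (hJW _) (hW'.cre hp ha hb (hJW _))
  · have e : x = ⟪x, a⟫_ℝ • a + ⟪x, b⟫_ℝ • b + (x - ⟪x, a⟫_ℝ • a - ⟪x, b⟫_ℝ • b) := by abel
    have hy := exists_split hp ha hb hx
    have ea : J (M.θ a f) = M'.θ a (J f) := by
      rw [th_u (M := M) hp ha hb, th_u (M := M') hp ha hb, map_smul, map_add, hann, hcre]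
    have eb : J (M.θ b f) = M'.θ b (J f) := by
      rw [th_v (M := M) hp ha hb, th_v (M := M') hp ha hb, map_smul, map_sub, hann, hcre]
    rw [e, M.add, M.add, M.smul, M.smul, M'.add, M'.add, M'.smul, M'.smul]
    simp only [LinearMap.add_apply, LinearMap.smul_apply, map_add, map_smul]
    rw [ea, eb, hperp _ hy f hf]
  · have ef : f = (1 / 2 : ℂ) • M.ann a b (M.cre a b f) +
        M.cre a b ((1 / 2 : ℂ) • M.ann a b f) := by
      rw [map_smul]; exact split hp f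
    have eg : g = (1 / 2 : ℂ) • M.ann a b (M.cre a b g) +
        M.cre a b ((1 / 2 : ℂ) • M.ann a b g) := by
      rw [map_smul]; exact split hp g
    have k1 : ∀ h : F, M.ann a b ((1 / 2 : ℂ) • M.ann a b h) = 0 := fun h => by
      rw [map_smul, ann_sq hp, smul_zero]
    have k1' : ∀ h : F, M.ann a b ((1 / 2 : ℂ) • M.ann a b (M.cre a b h)) = 0 := fun h => by
      rw [map_smul, ann_sq hp, smul_zero]
    have e1 := inner_split (M := M) hp (f₁ := (1 / 2 : ℂ) • M.ann a b f)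
      (k1' f) (k1' g) (k1 g)
    rw [← ef, ← eg] at e1
    have e2 := inner_split (M := M') hp (f₁ := J₁ ((1 / 2 : ℂ) • M.ann a b f))
      (hk ((1 / 2 : ℂ) • M.ann a b (M.cre a b f))) (hk ((1 / 2 : ℂ) • M.ann a b (M.cre a b g)))
      (hk ((1 / 2 : ℂ) • M.ann a b g))
    rw [← hJa, ← hJa] at e2
    rw [e1, e2, hc _ (Submodule.smul_mem _ _ (hW.ann_cre_mem hp ha hb hf)) _
      (Submodule.smul_mem _ _ (hW.ann_cre_mem hp ha hb hg)),
      hc _ (Submodule.smul_mem _ _ (hW.ann_mem hp ha hb hf)) _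
      (Submodule.smul_mem _ _ (hW.ann_mem hp ha hb hg))]
    ring

/-- **Intertwiner with prescribed vacuum vectors.** -/
theorem exists_inter {K : Submodule ℝ V} {W : Submodule ℂ F} {W' : Submodule ℂ F'} (s : Finset ι)
    (hp : Prs u v s) (hK : ∀ k ∈ s, u k ∈ K ∧ v k ∈ K) (hspan : perpS K u v s = ⊥)
    (hW : M.InvOn K W) (hW' : M'.InvOn K W') {Ω : F} (hΩ : Ω ∈ M.vacS W u v s) (h0 : ‖Ω‖ = 1)
    {Ω' : F'} (hΩ' : Ω' ∈ M'.vacS W' u v s) :
    ∃ J : F →ₗ[ℂ] F', J Ω = Ω' ∧ (∀ f, J f ∈ W') ∧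
      (∀ x ∈ K, ∀ f ∈ W, J (M.θ x f) = M'.θ x (J f)) ∧
      ((∀ f ∈ M.vacS W u v s, f = ⟪Ω, f⟫_ℂ • Ω) →
        ∀ f ∈ W, ∀ g ∈ W, ⟪J f, J g⟫_ℂ = ((‖Ω'‖ ^ 2 : ℝ) : ℂ) * ⟪f, g⟫_ℂ) := by
  classical
  induction s using Finset.induction_on generalizing K W W' with
  | empty =>
    rw [perpS_empty] at hspan
    rw [vacS_empty] at hΩ hΩ'
    refine ⟨(innerSL ℂ Ω).toLinearMap.smulRight Ω', ?_, fun f => ?_, fun x hx f hf => ?_,
      fun hl f hf g hg => ?_⟩
    · simp [inner_self_eq_norm_sq_to_K, h0]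
    · exact W'.smul_mem _ hΩ'
    · rw [hspan] at hx
      rw [(Submodule.mem_bot ℝ).1 hx, M.zero, M'.zero]
      simp
    · rw [vacS_empty] at hl
      have e1 : ⟪f, g⟫_ℂ = starRingEnd ℂ ⟪Ω, f⟫_ℂ * ⟪Ω, g⟫_ℂ := by
        conv_lhs => rw [hl f hf, hl g hg]
        rw [inner_smul_left, inner_smul_right, inner_self_c, h0]
        simp
      have e2 : ∀ h : F, ((innerSL ℂ Ω).toLinearMap.smulRight Ω') h = ⟪Ω, h⟫_ℂ • Ω' := fun _ => rfl
      rw [e2, e2, inner_smul_left, inner_smul_right, inner_self_c, e1]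
      ring
  | insert a s ha ih =>
    have ham : a ∈ insert a s := Finset.mem_insert_self a s
    have hpa := hp.pr a ham
    obtain ⟨hua, hva⟩ := hK a ham
    rw [vacS_insert'] at hΩ hΩ'
    rw [perpS_insert'] at hspan
    obtain ⟨J₁, j1, j2, j3, j4⟩ := ih (K := perp K (u a) (v a)) (W := M.vac W (u a) (v a))
      (W' := M'.vac W' (u a) (v a)) (hp.mono (Finset.subset_insert a s))
      (mem_perp_of_notMem ha hp hK) hspan (hW.vac hpa hua hva) (hW'.vac hpa hua hva) hΩ hΩ'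
    obtain ⟨J, g1, g2, g3, g4⟩ := inter_step hpa hua hva hW hW' J₁ j2 j3
    have hΩ1 : Ω ∈ M.vac W (u a) (v a) := (M.mem_vacS.1 hΩ).1
    refine ⟨J, by rw [g1 Ω hΩ1, j1], g2, g3, fun hl => g4 (‖Ω'‖ ^ 2) ?_⟩
    rw [vacS_insert'] at hl
    exact j4 hl

/-- Two intertwiners which agree on one vector of an irreducible subspace agree on it. -/
theorem inter_unique {K : Submodule ℝ V} {W : Submodule ℂ F} (hW : M.IrrOn K W)
    {J J' : F →ₗ[ℂ] F'} (h1 : ∀ x ∈ K, ∀ f ∈ W, J (M.θ x f) = M'.θ x (J f))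
    (h2 : ∀ x ∈ K, ∀ f ∈ W, J' (M.θ x f) = M'.θ x (J' f)) {Ω : F} (hΩ : Ω ∈ W) (h0 : Ω ≠ 0)
    (h : J Ω = J' Ω) : ∀ f ∈ W, J f = J' f := by
  set E : Submodule ℂ F := W ⊓ LinearMap.eqLocus J J' with hE
  have hinv : M.InvOn K E := by
    intro x hx f hf
    have h3 : J f = J' f := hf.2
    refine ⟨hW.1 x hx f hf.1, ?_⟩
    change J (M.θ x f) = J' (M.θ x f)
    rw [h1 x hx f hf.1, h2 x hx f hf.1, h3]
  rcases hW.2 E inf_le_left hinv with hb | ht
  · exact absurd ((Submodule.mem_bot ℂ).1 (hb ▸ (⟨hΩ, h⟩ : Ω ∈ E))) h0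
  · intro f hf
    rw [← ht] at hf
    exact hf.2

end inter

end CRep

end Crest.Agent.R330.Cliff442

end
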