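import Crest.Agent.R330.Cliff2_442

/-!
# Row 330 (helper442): normal form of a skew matrix, quadratic forms in `θ`, fermion gap

* `exists_normal` : a skew-adjoint `A` has a family of orthonormal pairs `A u = -lam v`, `A v = lam u`,
  `lam > 0`, and vanishes on the orthogonal of the pairs.
* `quad A = (i/2) ∑ θ (A e_i) θ (e_i)` (any orthonormal basis), `quad_eq`: `∑ lam (N - 1/2)`.
* `quad_comm` : `[quad A, θ x] = i θ (A x)`.
* `gap` : `∑ ‖ann f‖² / 2 ≥ ‖f - P f‖²`, `re_inner_quad`, `quad_ge`, `quad_gap`.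
* `trace_abs` : `2 ∑ lam = tr |A|`.
-/

set_option autoImplicit false
set_option linter.unusedSectionVars false

open scoped InnerProductSpace

noncomputable section

namespace Crest.Agent.R330.Cliff442

variable {V F F' : Type*} [NormedAddCommGroup V] [InnerProductSpace ℝ V]
  [NormedAddCommGroup F] [InnerProductSpace ℂ F] [NormedAddCommGroup F'] [InnerProductSpace ℂ F']

/-- Skew-adjoint maps. -/
def Skew (A : V →ₗ[ℝ] V) : Prop := ∀ x y, ⟪A x, y⟫_ℝ = -⟪x, A y⟫_ℝ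

namespace Skew

variable {A : V →ₗ[ℝ] V} (hA : Skew A)
include hA

theorem inner_self (x : V) : ⟪A x, x⟫_ℝ = 0 := by
  have h := hA x x
  rw [real_inner_comm (A x) x] at h
  linarith [h, real_inner_comm x (A x)]

theorem inner_sq (x : V) : ⟪A (A x), x⟫_ℝ = -‖A x‖ ^ 2 := by
  rw [hA, real_inner_self_eq_norm_sq]

/-- A non-zero eigenvalue of `A²` on an invariant subspace on which `A ≠ 0`. -/
theorem exists_eigen [FiniteDimensional ℝ V] (K : Submodule ℝ V) (hK : ∀ x ∈ K, A x ∈ K)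
    (h0 : ∃ x ∈ K, A x ≠ 0) :
    ∃ x ∈ K, ∃ lam : ℝ, 0 < lam ∧ ‖x‖ = 1 ∧ ‖A x‖ = lam ∧ A (A x) = -(lam ^ 2) • x := by
  set T : K →ₗ[ℝ] K := (A ∘ₗ A).restrict (fun x hx => hK _ (hK x hx)) with hT
  have hTa : ∀ x : K, ((T x : K) : V) = A (A x) := fun x => rfl
  have hsym : T.IsSymmetric := by
    intro x y
    rw [Submodule.coe_inner, Submodule.coe_inner, hTa, hTa, hA, hA, neg_neg]
  have hne : ∃ i, hsym.eigenvalues rfl i ≠ 0 := by
    by_contra hcon
    push Not at hcon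
    have hT0 : T = 0 := by
      refine (hsym.eigenvectorBasis rfl).toBasis.ext fun i => ?_
      rw [OrthonormalBasis.coe_toBasis, LinearMap.zero_apply, hsym.apply_eigenvectorBasis, hcon i]
      simp
    obtain ⟨x, hx, hx0⟩ := h0
    apply hx0
    have h1 := hA.inner_sq x
    have h2 : A (A x) = 0 := by
      have h3 := hTa ⟨x, hx⟩
      rw [hT0] at h3
      exact h3.symm
    rw [h2, inner_zero_left] at h1
    have h3 : ‖A x‖ ^ 2 = 0 := by linarith
    exact norm_eq_zero.1 (pow_eq_zero_iff two_ne_zero |>.1 h3)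
  obtain ⟨i, hi⟩ := hne
  set x : K := hsym.eigenvectorBasis rfl i with hx
  have hx1 : ‖(x : V)‖ = 1 := (hsym.eigenvectorBasis rfl).orthonormal.1 i
  have hx2 : A (A (x : V)) = (hsym.eigenvalues rfl i) • (x : V) := by
    rw [← hTa]
    exact congrArg (fun y : K => (y : V)) (hsym.apply_eigenvectorBasis rfl i)
  have h5 : hsym.eigenvalues rfl i = -‖A (x : V)‖ ^ 2 := by
    have h6 := hA.inner_sq (x : V)
    rw [hx2, inner_smul_left, real_inner_self_eq_norm_sq, hx1] at h6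
    simpa using h6
  refine ⟨x, x.2, ‖A (x : V)‖, ?_, hx1, rfl, ?_⟩
  · rcases (norm_nonneg (A (x : V))).lt_or_eq with h | h
    · exact h
    · exfalso
      apply hi
      rw [h5, ← h]
      simp
  · rw [hx2, h5]

/-- **Normal form**, on an invariant subspace. -/
theorem exists_normal_on [FiniteDimensional ℝ V] (n : ℕ) : ∀ K : Submodule ℝ V,
    Module.finrank ℝ K = n → (∀ x ∈ K, A x ∈ K) → ∃ (m : ℕ) (u v : ℕ → V) (lam : ℕ → ℝ),
      Prs u v (Finset.range m) ∧ (∀ k < m, 0 < lam k) ∧ (∀ k < m, u k ∈ K ∧ v k ∈ K) ∧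
      (∀ k < m, A (u k) = -(lam k) • v k) ∧ (∀ k < m, A (v k) = lam k • u k) ∧
      ∀ x ∈ CRep.perpS K u v (Finset.range m), A x = 0 := by
  induction n using Nat.strong_induction_on with
  | _ n ih =>
  intro K hn hK
  by_cases h0 : ∃ x ∈ K, A x ≠ 0
  swap
  · push Not at h0
    refine ⟨0, fun _ => 0, fun _ => 0, fun _ => 0, ⟨?_, ?_, ?_, ?_⟩, ?_, ?_, ?_, ?_, ?_⟩
    · simp
    · simp
    · simp
    · simp
    · simp
    · simp
    · simp
    · simp
    · intro x hx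
      exact h0 x hx.1
  obtain ⟨a, ha, l, hl, ha1, hl1, ha2⟩ := hA.exists_eigen K hK h0
  set b : V := -(l⁻¹) • A a with hb
  have hAa : A a = -l • b := by
    rw [hb, smul_smul, neg_mul_neg, mul_inv_cancel₀ hl.ne', one_smul]
  have hAb : A b = l • a := by
    rw [hb, map_smul, ha2, smul_smul]
    congr 1
    field_simp
  have hbK : b ∈ K := K.smul_mem _ (hK a ha)
  have hb1 : ‖b‖ = 1 := by
    rw [hb, norm_smul, hl1, norm_neg, norm_inv, Real.norm_eq_abs, abs_of_pos hl,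
      inv_mul_cancel₀ hl.ne']
  have hab : ⟪a, b⟫_ℝ = 0 := by
    rw [hb, inner_smul_right, real_inner_comm, hA.inner_self, mul_zero]
  have hp : CRep.Pr a b := ⟨ha1, hb1, hab⟩
  have hlt : Module.finrank ℝ (CRep.perp K a b) < n := by
    rw [← hn]
    refine Submodule.finrank_lt_finrank_of_lt (lt_of_le_of_ne (fun x hx => hx.1) ?_)
    intro e
    have h3 : a ∈ CRep.perp K a b := by rw [e]; exact ha
    have h4 := h3.2.1
    rw [real_inner_self_eq_norm_sq, ha1] at h4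
    norm_num at h4
  have hinv : ∀ x ∈ CRep.perp K a b, A x ∈ CRep.perp K a b := by
    intro x hx
    refine ⟨hK x hx.1, ?_, ?_⟩
    · rw [hA, hAa, inner_smul_right, hx.2.2]
      simp
    · rw [hA, hAb, inner_smul_right, hx.2.1]
      simp
  obtain ⟨m, u, v, lam, h1, h2, h3, h4, h5, h6⟩ := ih _ hlt (CRep.perp K a b) rfl hinv
  have hne : ∀ k < m, k ≠ m := fun k hk => hk.ne
  have hu : ∀ k < m, Function.update u m a k = u k := fun k hk =>
    Function.update_of_ne (hne k hk) _ _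
  have hv : ∀ k < m, Function.update v m b k = v k := fun k hk =>
    Function.update_of_ne (hne k hk) _ _
  have hla : ∀ k < m, Function.update lam m l k = lam k := fun k hk =>
    Function.update_of_ne (hne k hk) _ _
  have key : ∀ {P : ℕ → Prop}, (∀ k < m, P k) → P m → ∀ k < m + 1, P k := by
    intro P q1 q2 k hk
    rcases Nat.lt_succ_iff_lt_or_eq.1 hk with h | h
    · exact q1 k h
    · rw [h]; exact q2
  have hmem : ∀ k ∈ Finset.range m, k < m := fun k hk => Finset.mem_range.1 hk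
  refine ⟨m + 1, Function.update u m a, Function.update v m b, Function.update lam m l,
    ⟨?_, ?_, ?_, ?_⟩, ?_, ?_, ?_, ?_, ?_⟩
  · intro k hk
    revert k
    simp only [Finset.mem_range]
    refine key (fun k hk => ?_) ?_
    · rw [hu k hk, hv k hk]
      exact h1.pr k (Finset.mem_range.2 hk)
    · simpa using hp
  · intro k hk j hj hkj
    rcases Nat.lt_succ_iff_lt_or_eq.1 (Finset.mem_range.1 hk) with h | h <;>
    rcases Nat.lt_succ_iff_lt_or_eq.1 (Finset.mem_range.1 hj) with h' | h'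
    · rw [hu k h, hu j h']
      exact h1.uu k (Finset.mem_range.2 h) j (Finset.mem_range.2 h') hkj
    · rw [hu k h, h', Function.update_self]
      exact (h3 k h).1.2.1
    · rw [hu j h', h, Function.update_self, real_inner_comm]
      exact (h3 j h').1.2.1
    · exact absurd (h.trans h'.symm) hkj
  · intro k hk j hj hkj
    rcases Nat.lt_succ_iff_lt_or_eq.1 (Finset.mem_range.1 hk) with h | h <;>
    rcases Nat.lt_succ_iff_lt_or_eq.1 (Finset.mem_range.1 hj) with h' | h'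
    · rw [hu k h, hv j h']
      exact h1.uv k (Finset.mem_range.2 h) j (Finset.mem_range.2 h') hkj
    · rw [hu k h, h', Function.update_self]
      exact (h3 k h).1.2.2
    · rw [hv j h', h, Function.update_self, real_inner_comm]
      exact (h3 j h').2.2.1
    · exact absurd (h.trans h'.symm) hkj
  · intro k hk j hj hkj
    rcases Nat.lt_succ_iff_lt_or_eq.1 (Finset.mem_range.1 hk) with h | h <;>
    rcases Nat.lt_succ_iff_lt_or_eq.1 (Finset.mem_range.1 hj) with h' | h'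
    · rw [hv k h, hv j h']
      exact h1.vv k (Finset.mem_range.2 h) j (Finset.mem_range.2 h') hkj
    · rw [hv k h, h', Function.update_self]
      exact (h3 k h).2.2.2
    · rw [hv j h', h, Function.update_self, real_inner_comm]
      exact (h3 j h').2.2.2
    · exact absurd (h.trans h'.symm) hkj
  · refine key (fun k hk => ?_) ?_
    · rw [hla k hk]; exact h2 k hk
    · simpa using hl
  · refine key (fun k hk => ?_) ?_
    · rw [hu k hk, hv k hk]; exact ⟨(h3 k hk).1.1, (h3 k hk).2.1⟩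
    · simpa using ⟨ha, hbK⟩
  · refine key (fun k hk => ?_) ?_
    · rw [hu k hk, hv k hk, hla k hk]; exact h4 k hk
    · simpa using hAa
  · refine key (fun k hk => ?_) ?_
    · rw [hu k hk, hv k hk, hla k hk]; exact h5 k hk
    · simpa using hAb
  · intro x hx
    have hm := hx.2 m (Finset.self_mem_range_succ m)
    simp only [Function.update_self] at hm
    refine h6 x ⟨⟨hx.1, hm.1, hm.2⟩, fun k hk => ?_⟩
    have hk' := hmem k hk
    have h7 := hx.2 k (Finset.mem_range.2 (Nat.lt_succ_of_lt hk'))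
    rwa [hu k hk', hv k hk'] at h7

/-- **Normal form of a real skew-adjoint map.** -/
theorem exists_normal [FiniteDimensional ℝ V] : ∃ (m : ℕ) (u v : ℕ → V) (lam : ℕ → ℝ),
      Prs u v (Finset.range m) ∧ (∀ k < m, 0 < lam k) ∧
      (∀ k < m, A (u k) = -(lam k) • v k) ∧ (∀ k < m, A (v k) = lam k • u k) ∧
      ∀ x, (∀ k < m, ⟪x, u k⟫_ℝ = 0 ∧ ⟪x, v k⟫_ℝ = 0) → A x = 0 := by
  obtain ⟨m, u, v, lam, h1, h2, -, h4, h5, h6⟩ := hA.exists_normal_on _ ⊤ rfl (fun x _ => trivial)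
  exact ⟨m, u, v, lam, h1, h2, h4, h5, fun x hx => h6 x ⟨trivial, fun k hk =>
    hx k (Finset.mem_range.1 hk)⟩⟩

end Skew

/-- A normal form of `A`: pairs `A u = -lam v`, `A v = lam u`, `lam > 0`, `A = 0` on the orthogonal. -/
structure NF {ι : Type*} (A : V →ₗ[ℝ] V) (s : Finset ι) (u v : ι → V) (lam : ι → ℝ) : Prop where
  prs : Prs u v s
  pos : ∀ k ∈ s, 0 < lam k
  au : ∀ k ∈ s, A (u k) = -(lam k) • v k
  av : ∀ k ∈ s, A (v k) = lam k • u k
  ker : ∀ x, (∀ k ∈ s, ⟪x, u k⟫_ℝ = 0 ∧ ⟪x, v k⟫_ℝ = 0) → A x = 0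

theorem Skew.exists_NF [FiniteDimensional ℝ V] {A : V →ₗ[ℝ] V} (hA : Skew A) :
    ∃ (m : ℕ) (u v : ℕ → V) (lam : ℕ → ℝ), NF A (Finset.range m) u v lam := by
  obtain ⟨m, u, v, lam, h1, h2, h4, h5, h6⟩ := hA.exists_normal
  exact ⟨m, u, v, lam, h1, fun k hk => h2 k (Finset.mem_range.1 hk),
    fun k hk => h4 k (Finset.mem_range.1 hk), fun k hk => h5 k (Finset.mem_range.1 hk),
    fun x hx => h6 x fun k hk => hx k (Finset.mem_range.2 hk)⟩

/-- The projection on the span of the pairs. -/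
theorem Prs.proj_mem {ι : Type*} {s : Finset ι} {u v : ι → V} (h : Prs u v s) (x : V) :
    ∀ k ∈ s, ⟪x - ∑ l ∈ s, (⟪x, u l⟫_ℝ • u l + ⟪x, v l⟫_ℝ • v l), u k⟫_ℝ = 0 ∧
      ⟪x - ∑ l ∈ s, (⟪x, u l⟫_ℝ • u l + ⟪x, v l⟫_ℝ • v l), v k⟫_ℝ = 0 := by
  intro k hk
  constructor
  · rw [inner_sub_left, sum_inner, Finset.sum_eq_single_of_mem k hk]
    · rw [inner_add_left, inner_smul_left, inner_smul_left, real_inner_self_eq_norm_sq,
        (h.pr k hk).1, real_inner_comm (u k) (v k), (h.pr k hk).2.2]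
      simp
    · intro l hl hlk
      rw [inner_add_left, inner_smul_left, inner_smul_left, h.uu l hl k hk hlk,
        real_inner_comm (u k) (v l), h.uv k hk l hl hlk.symm]
      simp
  · rw [inner_sub_left, sum_inner, Finset.sum_eq_single_of_mem k hk]
    · rw [inner_add_left, inner_smul_left, inner_smul_left, real_inner_self_eq_norm_sq,
        (h.pr k hk).2.1, (h.pr k hk).2.2]
      simp
    · intro l hl hlk
      rw [inner_add_left, inner_smul_left, inner_smul_left, h.vv l hl k hk hlk,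
        h.uv l hl k hk hlk]
      simp

namespace NF

variable {ι : Type*} {A : V →ₗ[ℝ] V} {s : Finset ι} {u v : ι → V} {lam : ι → ℝ}

theorem expand (h : NF A s u v lam) (x : V) :
    A x = ∑ k ∈ s, (lam k * ⟪x, v k⟫_ℝ) • u k - ∑ k ∈ s, (lam k * ⟪x, u k⟫_ℝ) • v k := by
  have h1 := h.ker _ (h.prs.proj_mem x)
  rw [map_sub, sub_eq_zero, map_sum] at h1
  rw [h1, ← Finset.sum_sub_distrib]
  refine Finset.sum_congr rfl fun k hk => ?_
  rw [map_add, map_smul, map_smul, h.au k hk, h.av k hk, smul_smul, smul_smul]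
  module

/-- `2 ∑ lam = tr |A|`: `B` symmetric, positive, `B² = -A²`. -/
theorem trace_abs (h : NF A s u v lam) {κ : Type*} [Fintype κ]
    (b : OrthonormalBasis κ ℝ V) {B : V →ₗ[ℝ] V} (hB : ∀ x y, ⟪B x, y⟫_ℝ = ⟪x, B y⟫_ℝ)
    (hB0 : ∀ x, 0 ≤ ⟪B x, x⟫_ℝ) (hBA : ∀ x, B (B x) = -A (A x)) :
    ∑ i, ⟪B (b i), b i⟫_ℝ = 2 * ∑ k ∈ s, lam k := by
  have hev : ∀ (w : V) (l : ℝ), 0 < l → A (A w) = -(l ^ 2) • w → B w = l • w := by
    intro w l hl hw
    have h1 : B (B w - l • w) = -(l • (B w - l • w)) := by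
      rw [map_sub, hBA, hw, map_smul]
      module
    have h2 := hB0 (B w - l • w)
    rw [h1, inner_neg_left, inner_smul_left, real_inner_self_eq_norm_sq] at h2
    have h3 : ‖B w - l • w‖ ^ 2 ≤ 0 := by
      have : 0 ≤ -(l * ‖B w - l • w‖ ^ 2) := by simpa using h2
      nlinarith [sq_nonneg ‖B w - l • w‖]
    have h4 : ‖B w - l • w‖ = 0 := by
      have := sq_nonneg ‖B w - l • w‖
      exact pow_eq_zero_iff two_ne_zero |>.1 (le_antisymm h3 this)
    exact sub_eq_zero.1 (norm_eq_zero.1 h4)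
  have hBu : ∀ k ∈ s, B (u k) = lam k • u k := fun k hk => hev _ _ (h.pos k hk) (by
    rw [h.au k hk, map_smul, h.av k hk, smul_smul]; congr 1; ring)
  have hBv : ∀ k ∈ s, B (v k) = lam k • v k := fun k hk => hev _ _ (h.pos k hk) (by
    rw [h.av k hk, map_smul, h.au k hk, smul_smul]; congr 1; ring)
  have hBk : ∀ x, A x = 0 → B x = 0 := by
    intro x hx
    have h1 : B (B x) = 0 := by rw [hBA, hx, map_zero, neg_zero]
    have h2 : ⟪B x, B x⟫_ℝ = 0 := by rw [hB, h1, inner_zero_right]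
    exact inner_self_eq_zero.1 h2
  have hexp : ∀ x, B x = ∑ k ∈ s, lam k • (⟪x, u k⟫_ℝ • u k + ⟪x, v k⟫_ℝ • v k) := by
    intro x
    have h1 := hBk _ (h.ker _ (h.prs.proj_mem x))
    rw [map_sub, sub_eq_zero, map_sum] at h1
    rw [h1]
    refine Finset.sum_congr rfl fun k hk => ?_
    rw [map_add, map_smul, map_smul, hBu k hk, hBv k hk]
    module
  have hpars : ∀ w : V, ∑ i, ⟪b i, w⟫_ℝ * ⟪w, b i⟫_ℝ = ‖w‖ ^ 2 := by
    intro w
    rw [← real_inner_self_eq_norm_sq, ← b.sum_inner_mul_inner w w]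
    exact Finset.sum_congr rfl fun i _ => mul_comm _ _
  simp only [hexp, sum_inner, inner_smul_left, inner_add_left]
  rw [Finset.sum_comm, Finset.mul_sum]
  refine Finset.sum_congr rfl fun k hk => ?_
  have e : ∀ i, (starRingEnd ℝ) (lam k) * ((starRingEnd ℝ) ⟪b i, u k⟫_ℝ * ⟪u k, b i⟫_ℝ +
      (starRingEnd ℝ) ⟪b i, v k⟫_ℝ * ⟪v k, b i⟫_ℝ) =
      lam k * (⟪b i, u k⟫_ℝ * ⟪u k, b i⟫_ℝ) + lam k * (⟪b i, v k⟫_ℝ * ⟪v k, b i⟫_ℝ) := by
    intro i
    simp only [conj_trivial]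
    ring
  simp only [e]
  rw [Finset.sum_add_distrib, ← Finset.mul_sum, ← Finset.mul_sum, hpars, hpars,
    (h.prs.pr k hk).1, (h.prs.pr k hk).2.1]
  ring

end NF

namespace CRep

variable (M : CRep V F)

/-- `(i/2) ∑ θ (A e_i) θ (e_i)`. -/
def quad {κ : Type*} [Fintype κ] (b : OrthonormalBasis κ ℝ V) (A : V →ₗ[ℝ] V) :
    Module.End ℂ F := (Complex.I / 2) • ∑ i, M.θ (A (b i)) * M.θ (b i)

theorem quad_apply {κ : Type*} [Fintype κ] (b : OrthonormalBasis κ ℝ V) (A : V →ₗ[ℝ] V) (f : F) :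
    M.quad b A f = (Complex.I / 2) • ∑ i, M.θ (A (b i)) (M.θ (b i) f) := by
  simp [quad, LinearMap.sum_apply, Module.End.mul_apply]

theorem expand_basis {κ : Type*} [Fintype κ] (b : OrthonormalBasis κ ℝ V) (w : V) (f : F) :
    ∑ i, ((⟪b i, w⟫_ℝ : ℝ) : ℂ) • M.θ (b i) f = M.θ w f := by
  conv_rhs => rw [← b.sum_repr' w, M.sum]
  rw [LinearMap.sum_apply]
  refine Finset.sum_congr rfl fun i _ => ?_
  rw [M.smul]
  rfl

/-- `[quad A, θ x] = i θ (A x)`. -/
theorem quad_comm {κ : Type*} [Fintype κ] (b : OrthonormalBasis κ ℝ V) {A : V →ₗ[ℝ] V}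
    (hA : Skew A) (x : V) (f : F) :
    M.quad b A (M.θ x f) - M.θ x (M.quad b A f) = Complex.I • M.θ (A x) f := by
  have h1 : ∀ i, M.θ (A (b i)) (M.θ (b i) (M.θ x f)) - M.θ x (M.θ (A (b i)) (M.θ (b i) f)) =
      ((⟪b i, x⟫_ℝ : ℝ) : ℂ) • M.θ (A (b i)) f + ((⟪b i, A x⟫_ℝ : ℝ) : ℂ) • M.θ (b i) f := by
    intro i
    have e1 : M.θ (b i) (M.θ x f) = ((⟪b i, x⟫_ℝ : ℝ) : ℂ) • f - M.θ x (M.θ (b i) f) :=
      eq_sub_of_add_eq (M.anti_apply (b i) x f)
    have e2 : M.θ x (M.θ (A (b i)) (M.θ (b i) f)) =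
        ((⟪A (b i), x⟫_ℝ : ℝ) : ℂ) • M.θ (b i) f - M.θ (A (b i)) (M.θ x (M.θ (b i) f)) := by
      refine eq_sub_of_add_eq ?_
      rw [add_comm]
      exact M.anti_apply _ _ _
    have e3 : ⟪A (b i), x⟫_ℝ = -⟪b i, A x⟫_ℝ := hA _ _
    rw [e1, e2, map_sub, map_smul, e3]
    push_cast
    module
  have h2 : ∑ i, ((⟪b i, x⟫_ℝ : ℝ) : ℂ) • M.θ (A (b i)) f = M.θ (A x) f := by
    conv_rhs => rw [← b.sum_repr' x, map_sum, M.sum]
    rw [LinearMap.sum_apply]
    refine Finset.sum_congr rfl fun i _ => ?_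
    rw [map_smul, M.smul]
    rfl
  rw [quad_apply, quad_apply, map_smul, ← smul_sub, map_sum, ← Finset.sum_sub_distrib]
  simp only [h1]
  rw [Finset.sum_add_distrib, h2, M.expand_basis]
  module

/-- `quad A = ∑ lam i θ u θ v`. -/
theorem quad_eq_uv {κ : Type*} [Fintype κ] (b : OrthonormalBasis κ ℝ V) {ι : Type*}
    {A : V →ₗ[ℝ] V} {s : Finset ι} {u v : ι → V} {lam : ι → ℝ} (h : NF A s u v lam) (f : F) :
    M.quad b A f = ∑ k ∈ s, ((lam k : ℝ) : ℂ) • Complex.I • M.θ (u k) (M.θ (v k) f) := by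
  have h1 : ∀ i, M.θ (A (b i)) (M.θ (b i) f) =
      ∑ k ∈ s, (((lam k : ℝ) : ℂ) • M.θ (u k) (((⟪b i, v k⟫_ℝ : ℝ) : ℂ) • M.θ (b i) f) -
        ((lam k : ℝ) : ℂ) • M.θ (v k) (((⟪b i, u k⟫_ℝ : ℝ) : ℂ) • M.θ (b i) f)) := by
    intro i
    rw [h.expand (b i), M.sub, M.sum, M.sum, LinearMap.sub_apply, LinearMap.sum_apply,
      LinearMap.sum_apply, ← Finset.sum_sub_distrib]
    refine Finset.sum_congr rfl fun k _ => ?_
    rw [M.smul, M.smul, LinearMap.smul_apply, LinearMap.smul_apply, map_smul, map_smul, smul_smul,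
      smul_smul]
    push_cast
    rfl
  rw [quad_apply]
  simp only [h1]
  rw [Finset.sum_comm]
  have h2 : ∀ k ∈ s, ∑ i, (((lam k : ℝ) : ℂ) • M.θ (u k) (((⟪b i, v k⟫_ℝ : ℝ) : ℂ) • M.θ (b i) f) -
        ((lam k : ℝ) : ℂ) • M.θ (v k) (((⟪b i, u k⟫_ℝ : ℝ) : ℂ) • M.θ (b i) f)) =
      ((lam k : ℝ) : ℂ) • (2 : ℂ) • M.θ (u k) (M.θ (v k) f) := by
    intro k hk
    rw [Finset.sum_sub_distrib, ← Finset.smul_sum, ← Finset.smul_sum, ← map_sum, ← map_sum,
      M.expand_basis, M.expand_basis]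
    have e := M.comm_apply (u := v k) (v := u k)
      (by rw [real_inner_comm]; exact (h.prs.pr k hk).2.2) f
    rw [e]
    module
  rw [Finset.sum_congr rfl h2, Finset.smul_sum]
  refine Finset.sum_congr rfl fun k _ => ?_
  module

/-- `i θ u θ v = ½ a† a - ½`. -/
theorem I_uv {a b : V} (hp : Pr a b) (f : F) : Complex.I • M.θ a (M.θ b f) =
    (1 / 2 : ℂ) • M.cre a b (M.ann a b f) - (1 / 2 : ℂ) • f := by
  have h1 := M.sq_apply a f
  have h2 := M.sq_apply b f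
  rw [hp.1] at h1
  rw [hp.2.1] at h2
  have h3 : M.θ a (M.θ a f) = (1 / 2 : ℂ) • f := by
    have : M.θ a (M.θ a f) = (1 / 2 : ℂ) • (2 : ℂ) • M.θ a (M.θ a f) := by
      rw [smul_smul]; norm_num
    rw [this, h1]
    norm_num
  have h4 : M.θ b (M.θ b f) = (1 / 2 : ℂ) • f := by
    have : M.θ b (M.θ b f) = (1 / 2 : ℂ) • (2 : ℂ) • M.θ b (M.θ b f) := by
      rw [smul_smul]; norm_num
    rw [this, h2]
    norm_num
  have h5 := M.comm_apply (u := b) (v := a) (by rw [real_inner_comm]; exact hp.2.2) f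
  rw [cre_apply, ann_apply]
  simp only [map_add, map_smul, smul_add, smul_sub, smul_smul]
  rw [h3, h4, h5]
  have hI : Complex.I * Complex.I = -1 := Complex.I_mul_I
  simp only [smul_smul, smul_neg]
  rw [show (1 / 2 * (Complex.I * Complex.I) : ℂ) = -(1 / 2) by rw [hI]; ring]
  module

/-- **Quadratic form**: `quad A = ∑ lam (N - ½)`. -/
theorem quad_eq {κ : Type*} [Fintype κ] (b : OrthonormalBasis κ ℝ V) {ι : Type*}
    {A : V →ₗ[ℝ] V} {s : Finset ι} {u v : ι → V} {lam : ι → ℝ} (h : NF A s u v lam) (f : F) :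
    M.quad b A f = ∑ k ∈ s, ((lam k : ℝ) : ℂ) •
      ((1 / 2 : ℂ) • M.cre (u k) (v k) (M.ann (u k) (v k) f) - (1 / 2 : ℂ) • f) := by
  rw [M.quad_eq_uv b h]
  exact Finset.sum_congr rfl fun k hk => by rw [M.I_uv (h.prs.pr k hk)]

/-- `⟪f, quad A g⟫ = ½ ∑ lam (⟪a f, a g⟫ - ⟪f, g⟫)`. -/
theorem inner_quad {κ : Type*} [Fintype κ] (b : OrthonormalBasis κ ℝ V) {ι : Type*}
    {A : V →ₗ[ℝ] V} {s : Finset ι} {u v : ι → V} {lam : ι → ℝ} (h : NF A s u v lam) (f g : F) :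
    ⟪f, M.quad b A g⟫_ℂ = ∑ k ∈ s, ((lam k / 2 : ℝ) : ℂ) *
      (⟪M.ann (u k) (v k) f, M.ann (u k) (v k) g⟫_ℂ - ⟪f, g⟫_ℂ) := by
  rw [M.quad_eq b h, inner_sum]
  refine Finset.sum_congr rfl fun k _ => ?_
  rw [inner_smul_right, inner_sub_right, inner_smul_right, inner_smul_right, ← M.inner_ann]
  push_cast
  ring

theorem re_inner_quad {κ : Type*} [Fintype κ] (b : OrthonormalBasis κ ℝ V) {ι : Type*}
    {A : V →ₗ[ℝ] V} {s : Finset ι} {u v : ι → V} {lam : ι → ℝ} (h : NF A s u v lam) (f : F) :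
    (⟪f, M.quad b A f⟫_ℂ).re + (1 / 2) * (∑ k ∈ s, lam k) * ‖f‖ ^ 2 =
      ∑ k ∈ s, lam k / 2 * ‖M.ann (u k) (v k) f‖ ^ 2 := by
  rw [M.inner_quad b h, Complex.re_sum, Finset.mul_sum, Finset.sum_mul, ← Finset.sum_add_distrib]
  refine Finset.sum_congr rfl fun k _ => ?_
  rw [inner_self_c, inner_self_c, Complex.re_ofReal_mul, Complex.sub_re, Complex.ofReal_re,
    Complex.ofReal_re]
  ring

/-- **Fermion gap**: the splitting in vacuum part and rest. -/
theorem gap {ι : Type*} {K : Submodule ℝ V} {W : Submodule ℂ F} {u v : ι → V} {s : Finset ι}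
    (hp : Prs u v s) (hK : ∀ k ∈ s, u k ∈ K ∧ v k ∈ K) (hW : M.InvOn K W) {f : F} (hf : f ∈ W) :
    ∃ f₀ ∈ M.vacS W u v s, ∃ f₁ ∈ W, f = f₀ + f₁ ∧ (∀ g ∈ M.vacS W u v s, ⟪g, f₁⟫_ℂ = 0) ∧
      ‖f₁‖ ^ 2 ≤ ∑ k ∈ s, 1 / 2 * ‖M.ann (u k) (v k) f‖ ^ 2 := by
  classical
  induction s using Finset.induction_on with
  | empty =>
    refine ⟨f, by rw [vacS_empty]; exact hf, 0, W.zero_mem, (add_zero f).symm,
      fun g _ => inner_zero_right _, ?_⟩
    simp
  | insert a s ha ih =>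
    obtain ⟨f₀, hf₀, f₁, hf₁, e, ho, hn⟩ := ih (hp.mono (Finset.subset_insert a s))
      (fun k hk => hK k (Finset.mem_insert_of_mem hk))
    obtain ⟨h2, h3⟩ := mem_perpS_of_notMem ha hp hK
    have hpa := hp.pr a (Finset.mem_insert_self a s)
    have hinv : M.InvOn (perpS K u v s) (M.vacS W u v s) := hW.vacS
    have hac := hinv.ann_cre_mem hpa h2 h3 hf₀
    have hca : M.cre (u a) (v a) (M.ann (u a) (v a) f₀) ∈ M.vacS W u v s :=
      hinv.cre hpa h2 h3 (hinv.ann hpa h2 h3 hf₀)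
    have hsp := split (M := M) hpa f₀
    refine ⟨(1 / 2 : ℂ) • M.ann (u a) (v a) (M.cre (u a) (v a) f₀), ?_,
      (1 / 2 : ℂ) • M.cre (u a) (v a) (M.ann (u a) (v a) f₀) + f₁, ?_, ?_, ?_, ?_⟩
    · rw [vacS_insert]
      exact Submodule.smul_mem _ _ hac
    · exact W.add_mem (W.smul_mem _ (M.mem_vacS.1 hca).1) hf₁
    · rw [← add_assoc, ← hsp]
      exact e
    · intro g hg
      rw [vacS_insert] at hg
      obtain ⟨g1, g2⟩ := M.mem_vac.1 hg
      rw [inner_add_right, ho g g1, inner_smul_right, ← M.inner_ann, g2, inner_zero_left]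
      simp
    · rw [Finset.sum_insert ha]
      have k1 : ⟪(1 / 2 : ℂ) • M.cre (u a) (v a) (M.ann (u a) (v a) f₀), f₁⟫_ℂ = 0 :=
        ho _ (Submodule.smul_mem _ _ hca)
      have k2 : ‖(1 / 2 : ℂ) • M.cre (u a) (v a) (M.ann (u a) (v a) f₀) + f₁‖ ^ 2 =
          ‖(1 / 2 : ℂ) • M.cre (u a) (v a) (M.ann (u a) (v a) f₀)‖ ^ 2 + ‖f₁‖ ^ 2 := by
        rw [@norm_add_sq ℂ, k1]
        simp
      have k3 : ‖(1 / 2 : ℂ) • M.cre (u a) (v a) (M.ann (u a) (v a) f₀)‖ ^ 2 =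
          1 / 2 * ‖M.ann (u a) (v a) f₀‖ ^ 2 := by
        have q1 : ((‖M.cre (u a) (v a) (M.ann (u a) (v a) f₀)‖ ^ 2 : ℝ) : ℂ) =
            ((2 * ‖M.ann (u a) (v a) f₀‖ ^ 2 : ℝ) : ℂ) := by
          rw [← inner_self_c, M.inner_cre]
          have q2 := ann_cre_self (M := M) hpa (M.ann (u a) (v a) f₀)
          rw [ann_sq hpa, map_zero, add_zero] at q2
          rw [q2, inner_smul_right, inner_self_c]
          push_cast
          ring
        have q3 := Complex.ofReal_injective q1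
        rw [norm_smul, mul_pow, q3]
        norm_num
        ring
      have k4 : ⟪M.ann (u a) (v a) f₀, M.ann (u a) (v a) f₁⟫_ℂ = 0 := by
        rw [← M.inner_cre]
        exact ho _ hca
      have k5 : ‖M.ann (u a) (v a) f₀‖ ^ 2 ≤ ‖M.ann (u a) (v a) f‖ ^ 2 := by
        rw [e, map_add, @norm_add_sq ℂ, k4]
        simp only [map_zero, mul_zero, add_zero]
        nlinarith [sq_nonneg ‖M.ann (u a) (v a) f₁‖]
      rw [k2, k3]
      nlinarith

/-- The quadratic form is bounded below by minus half of the sum of the frequencies. -/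
theorem quad_ge {κ : Type*} [Fintype κ] (b : OrthonormalBasis κ ℝ V) {ι : Type*}
    {A : V →ₗ[ℝ] V} {s : Finset ι} {u v : ι → V} {lam : ι → ℝ} (h : NF A s u v lam) (f : F) :
    -((1 / 2) * (∑ k ∈ s, lam k) * ‖f‖ ^ 2) ≤ (⟪f, M.quad b A f⟫_ℂ).re := by
  have h1 := M.re_inner_quad b h f
  have h2 : 0 ≤ ∑ k ∈ s, lam k / 2 * ‖M.ann (u k) (v k) f‖ ^ 2 :=
    Finset.sum_nonneg fun k hk => mul_nonneg (by linarith [h.pos k hk]) (sq_nonneg _)
  linarith



end CRep

end Crest.Agent.R330.Cliff442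

end
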