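import Crest.Agent.R330.Cliff4_442

/-!
# Row 330 (helper442): the projection on the vacuum space of a partial complex structure

`PCS J`: `J` skew, `J³ = -J` (a complex structure on its range, `0` on the orthogonal).

* `vacJ J = {f | θ (J x) f = i θ (J J x) f}`.
* `num J = quad J + ¼ ∑ ‖J e_i‖²` (number operator, eigenvalues `0, 1, ..`).
* `proj J = ∏_{j ≤ dim V} (1 - num J / j)`: the orthogonal projection on `vacJ J`.
* covariance, commutation, smoothness in parameters, gap.
-/

set_option autoImplicit false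
set_option linter.unusedSectionVars false

open scoped InnerProductSpace

noncomputable section

namespace Crest.Agent.R330.Cliff442

variable {V V' F F' : Type*} [NormedAddCommGroup V] [InnerProductSpace ℝ V]
  [NormedAddCommGroup V'] [InnerProductSpace ℝ V']
  [NormedAddCommGroup F] [InnerProductSpace ℂ F] [NormedAddCommGroup F'] [InnerProductSpace ℂ F']

/-- Partial complex structures. -/
structure PCS (J : V →ₗ[ℝ] V) : Prop where
  skew : Skew J
  cube : ∀ x, J (J (J x)) = -J x

theorem PCS.neg {J : V →ₗ[ℝ] V} (h : PCS J) : PCS (-J) :=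
  ⟨fun x y => by
    rw [LinearMap.neg_apply, LinearMap.neg_apply, inner_neg_left, inner_neg_right, h.skew],
   fun x => by
    simp only [LinearMap.neg_apply, map_neg, neg_neg]
    rw [h.cube, neg_neg]⟩

theorem PCS.lam_one {J : V →ₗ[ℝ] V} (h : PCS J) {ι : Type*} {s : Finset ι} {u v : ι → V}
    {lam : ι → ℝ} (hn : NF J s u v lam) (k : ι) (hk : k ∈ s) : lam k = 1 := by
  have h1 := h.cube (u k)
  rw [hn.au k hk, map_smul, hn.av k hk, smul_smul, map_smul, hn.au k hk, smul_smul, ← neg_smul] at h1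
  have h2 := congrArg (fun x => ⟪x, v k⟫_ℝ) h1
  simp only [inner_smul_left, real_inner_self_eq_norm_sq, (hn.prs.pr k hk).2.1] at h2
  have h3 := hn.pos k hk
  have h4 : lam k * (lam k ^ 2 - 1) = 0 := by
    have : -lam k * lam k * -lam k * 1 = - -lam k * 1 := by simpa using h2
    nlinarith
  rcases mul_eq_zero.1 h4 with h5 | h5
  · exact absurd h5 h3.ne'
  · nlinarith

theorem PCS.card {J : V →ₗ[ℝ] V} (h : PCS J) {ι : Type*} {s : Finset ι} {u v : ι → V}
    {lam : ι → ℝ} (hn : NF J s u v lam) {κ : Type*} [Fintype κ] (b : OrthonormalBasis κ ℝ V) :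
    ∑ i, ‖J (b i)‖ ^ 2 = 2 * (s.card : ℝ) := by
  have h1 := hn.trace_abs b (B := -(J ∘ₗ J))
    (fun x y => by
      simp only [LinearMap.neg_apply, LinearMap.comp_apply, inner_neg_left, inner_neg_right]
      rw [h.skew, h.skew, neg_neg])
    (fun x => by
      simp only [LinearMap.neg_apply, LinearMap.comp_apply, inner_neg_left]
      rw [h.skew, neg_neg, real_inner_self_eq_norm_sq]
      exact sq_nonneg _)
    (fun x => by
      simp only [LinearMap.neg_apply, LinearMap.comp_apply, map_neg, neg_neg]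
      rw [h.cube])
  have h2 : ∑ k ∈ s, lam k = (s.card : ℝ) := by
    rw [Finset.sum_congr rfl (fun k hk => h.lam_one hn k hk)]
    simp
  rw [h2] at h1
  rw [← h1]
  refine Finset.sum_congr rfl fun i _ => ?_
  simp only [LinearMap.neg_apply, LinearMap.comp_apply, inner_neg_left]
  rw [h.skew, neg_neg, real_inner_self_eq_norm_sq]

theorem Prs.card_le [FiniteDimensional ℝ V] {ι : Type*} {s : Finset ι} {u v : ι → V}
    (h : Prs u v s) : s.card ≤ Module.finrank ℝ V := by
  classical
  have h1 : Orthonormal ℝ (fun k : s => u k) := by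
    refine ⟨fun k => (h.pr k k.2).1, fun k l hkl => h.uu k k.2 l l.2 ?_⟩
    exact fun e => hkl (Subtype.ext e)
  have h2 := h1.linearIndependent.fintype_card_le_finrank
  simpa using h2

/-- The falling products `∏_{j < m} (1 - N / (j + 1))`. -/
def fall (N : Module.End ℂ F) : ℕ → Module.End ℂ F
  | 0 => 1
  | m + 1 => (1 - (1 / ((m : ℂ) + 1)) • N) * fall N m

theorem fall_zero (N : Module.End ℂ F) : fall N 0 = 1 := rfl

theorem fall_succ (N : Module.End ℂ F) (m : ℕ) (f : F) :
    fall N (m + 1) f = fall N m f - (1 / ((m : ℂ) + 1)) • N (fall N m f) := rfl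

theorem fall_eigen (N : Module.End ℂ F) {c : ℂ} {f : F} (h : N f = c • f) (m : ℕ) :
    fall N m f = (∏ j ∈ Finset.range m, (1 - c / ((j : ℂ) + 1))) • f := by
  induction m with
  | zero => simp [fall_zero]
  | succ m ih =>
    rw [fall_succ, ih, map_smul, h, Finset.prod_range_succ, smul_smul, smul_smul, ← sub_smul]
    congr 1
    ring

theorem fall_eigen_nat (N : Module.End ℂ F) {c : ℕ} {f : F} (h : N f = (c : ℂ) • f) {m : ℕ}
    (hc0 : c ≠ 0) (hc : c ≤ m) : fall N m f = 0 := by
  rw [fall_eigen N h, Finset.prod_eq_zero (i := c - 1), zero_smul]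
  · rw [Finset.mem_range]
    omega
  · obtain ⟨d, rfl⟩ := Nat.exists_eq_succ_of_ne_zero hc0
    have : ((d : ℂ) + 1) ≠ 0 := by exact_mod_cast Nat.succ_ne_zero d
    simp only [Nat.succ_eq_add_one, Nat.add_sub_cancel, Nat.cast_add, Nat.cast_one]
    rw [div_self this, sub_self]

theorem fall_symm (N : Module.End ℂ F) (h : ∀ f g, ⟪N f, g⟫_ℂ = ⟪f, N g⟫_ℂ) (m : ℕ) (f g : F) :
    ⟪fall N m f, g⟫_ℂ = ⟪f, fall N m g⟫_ℂ := by
  have hcomm : ∀ m f, fall N m (N f) = N (fall N m f) := by
    intro m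
    induction m with
    | zero => intro f; rfl
    | succ m ih =>
      intro f
      rw [fall_succ, fall_succ, ih, map_sub, map_smul]
  induction m generalizing f g with
  | zero => rfl
  | succ m ih =>
    have e : (starRingEnd ℂ) (1 / ((m : ℂ) + 1)) = 1 / ((m : ℂ) + 1) := by simp
    rw [fall_succ, fall_succ, inner_sub_left, inner_sub_right, inner_smul_left, inner_smul_right, e,
      h, ih, ih, hcomm]

theorem fall_comm (N : Module.End ℂ F) (N' : Module.End ℂ F') (T : F → F')
    (hsub : ∀ x y, T (x - y) = T x - T y) (hsm : ∀ (r : ℝ) x, T ((r : ℂ) • x) = (r : ℂ) • T x)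
    (h : ∀ f, T (N f) = N' (T f)) (m : ℕ) (f : F) : T (fall N m f) = fall N' m (T f) := by
  induction m with
  | zero => rfl
  | succ m ih =>
    have e : (1 / ((m : ℂ) + 1)) = ((1 / ((m : ℝ) + 1) : ℝ) : ℂ) := by push_cast; rfl
    rw [fall_succ, fall_succ, hsub, e, hsm, h, ih]

namespace CRep

variable (M : CRep V F) (M' : CRep V' F')

/-- The vacuum space of a partial complex structure. -/
def vacJ (J : V →ₗ[ℝ] V) : Submodule ℂ F where
  carrier := {f | ∀ x, M.θ (J x) f = Complex.I • M.θ (J (J x)) f}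
  add_mem' := by
    intro f g hf hg x
    rw [map_add, map_add, hf x, hg x, smul_add]
  zero_mem' := fun x => by rw [map_zero, map_zero, smul_zero]
  smul_mem' := by
    intro c f hf x
    rw [map_smul, map_smul, hf x, smul_comm]

theorem mem_vacJ {J : V →ₗ[ℝ] V} {f : F} :
    f ∈ M.vacJ J ↔ ∀ x, M.θ (J x) f = Complex.I • M.θ (J (J x)) f := Iff.rfl

theorem vacJ_eq {J : V →ₗ[ℝ] V} (h : PCS J) {ι : Type*} {s : Finset ι} {u v : ι → V}
    {lam : ι → ℝ} (hn : NF J s u v lam) : M.vacJ J = M.vacS ⊤ u v s := by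
  have hl := h.lam_one hn
  ext f
  constructor
  · intro hf
    refine ⟨trivial, fun k hk => ?_⟩
    have h1 := hf (v k)
    rw [hn.av k hk, hl k hk, one_smul, hn.au k hk, hl k hk, M.smul, LinearMap.smul_apply] at h1
    rw [ann_apply, h1]
    push_cast
    module
  · intro hf x
    have e1 : J x = ∑ k ∈ s, (⟪x, v k⟫_ℝ • u k - ⟪x, u k⟫_ℝ • v k) := by
      rw [hn.expand x, ← Finset.sum_sub_distrib]
      refine Finset.sum_congr rfl fun k hk => ?_
      rw [hl k hk, one_mul, one_mul]
    have e2 : J (J x) = ∑ k ∈ s, (-⟪x, v k⟫_ℝ • v k - ⟪x, u k⟫_ℝ • u k) := by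
      rw [e1, map_sum]
      refine Finset.sum_congr rfl fun k hk => ?_
      rw [map_sub, map_smul, map_smul, hn.au k hk, hn.av k hk, hl k hk]
      module
    have h2 : ∀ k ∈ s, M.θ (u k) f = -Complex.I • M.θ (v k) f := by
      intro k hk
      have h3 := hf.2 k hk
      rw [ann_apply] at h3
      rw [neg_smul]
      exact eq_neg_of_add_eq_zero_left h3
    rw [e2, e1, M.sum, M.sum, LinearMap.sum_apply, LinearMap.sum_apply, Finset.smul_sum]
    refine Finset.sum_congr rfl fun k hk => ?_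
    rw [M.sub, M.sub, M.smul, M.smul, M.smul, M.smul]
    simp only [LinearMap.sub_apply, LinearMap.smul_apply]
    rw [h2 k hk, smul_sub]
    simp only [smul_smul]
    have hI : Complex.I * (((⟪x, u k⟫_ℝ : ℝ) : ℂ) * -Complex.I) = ((⟪x, u k⟫_ℝ : ℝ) : ℂ) := by
      linear_combination (-((⟪x, u k⟫_ℝ : ℝ) : ℂ)) * Complex.I_mul_I
    rw [hI]
    push_cast
    module

variable [FiniteDimensional ℝ V] [FiniteDimensional ℝ V']



/-- The number operator of a partial complex structure. -/
def num (J : V →ₗ[ℝ] V) : Module.End ℂ F :=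
  M.quad (stdOrthonormalBasis ℝ V) J +
    ((1 / 4 * ∑ i, ‖J (stdOrthonormalBasis ℝ V i)‖ ^ 2 : ℝ) : ℂ) • (1 : Module.End ℂ F)

/-- The projection on the vacuum space. -/
def proj (J : V →ₗ[ℝ] V) : Module.End ℂ F := fall (M.num J) (Module.finrank ℝ V)

theorem num_eq {J : V →ₗ[ℝ] V} (h : PCS J) {ι : Type*} {s : Finset ι} {u v : ι → V}
    {lam : ι → ℝ} (hn : NF J s u v lam) (f : F) :
    M.num J f = ∑ k ∈ s, (1 / 2 : ℂ) • M.cre (u k) (v k) (M.ann (u k) (v k) f) := by
  rw [num, LinearMap.add_apply, M.quad_eq _ hn, h.card hn, LinearMap.smul_apply,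
    Module.End.one_apply]
  have h1 : ∀ k ∈ s, ((lam k : ℝ) : ℂ) •
      ((1 / 2 : ℂ) • M.cre (u k) (v k) (M.ann (u k) (v k) f) - (1 / 2 : ℂ) • f) =
      (1 / 2 : ℂ) • M.cre (u k) (v k) (M.ann (u k) (v k) f) - (1 / 2 : ℂ) • f := by
    intro k hk
    rw [h.lam_one hn k hk]
    simp
  rw [Finset.sum_congr rfl h1, Finset.sum_sub_distrib, Finset.sum_const, ← Nat.cast_smul_eq_nsmul ℂ]
  push_cast
  module

theorem num_symm {J : V →ₗ[ℝ] V} (h : PCS J) (f g : F) : ⟪M.num J f, g⟫_ℂ = ⟪f, M.num J g⟫_ℂ := by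
  obtain ⟨m, u, v, lam, hn⟩ := h.skew.exists_NF
  rw [M.num_eq h hn, M.num_eq h hn, sum_inner, inner_sum]
  refine Finset.sum_congr rfl fun k _ => ?_
  have e : (starRingEnd ℂ) (1 / 2 : ℂ) = 1 / 2 := by
    rw [show (1 / 2 : ℂ) = ((1 / 2 : ℝ) : ℂ) by norm_num, Complex.conj_ofReal]
  rw [inner_smul_left, inner_smul_right, M.inner_cre, M.inner_ann, e]

theorem re_inner_num {J : V →ₗ[ℝ] V} (h : PCS J) {ι : Type*} {s : Finset ι} {u v : ι → V}
    {lam : ι → ℝ} (hn : NF J s u v lam) (f : F) :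
    (⟪f, M.num J f⟫_ℂ).re = ∑ k ∈ s, 1 / 2 * ‖M.ann (u k) (v k) f‖ ^ 2 := by
  rw [M.num_eq h hn, inner_sum, Complex.re_sum]
  refine Finset.sum_congr rfl fun k _ => ?_
  rw [inner_smul_right, ← M.inner_ann, inner_self_c,
    show ((1 / 2 : ℂ)) = ((1 / 2 : ℝ) : ℂ) by norm_num, ← Complex.ofReal_mul, Complex.ofReal_re]

theorem mem_vacJ_iff {J : V →ₗ[ℝ] V} (h : PCS J) (f : F) : f ∈ M.vacJ J ↔ M.num J f = 0 := by
  obtain ⟨m, u, v, lam, hn⟩ := h.skew.exists_NF
  rw [M.vacJ_eq h hn]
  constructor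
  · intro hf
    rw [M.num_eq h hn]
    refine Finset.sum_eq_zero fun k hk => ?_
    rw [hf.2 k hk, map_zero, smul_zero]
  · intro hf
    have h1 := M.re_inner_num h hn f
    rw [hf, inner_zero_right, Complex.zero_re] at h1
    have h2 := (Finset.sum_eq_zero_iff_of_nonneg
      (fun k _ => mul_nonneg (by norm_num) (sq_nonneg ‖M.ann (u k) (v k) f‖))).1 h1.symm
    refine ⟨trivial, fun k hk => ?_⟩
    have h3 := h2 k hk
    have h4 : ‖M.ann (u k) (v k) f‖ ^ 2 = 0 := by linarith
    exact norm_eq_zero.1 (pow_eq_zero_iff two_ne_zero |>.1 h4)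

/-- Decomposition in eigenvectors of the number operator. -/
theorem exists_decomp {ι : Type*} {u v : ι → V} (s : Finset ι) (hp : Prs u v s) (f : F) :
    ∃ g : ℕ → F, f = ∑ j ∈ Finset.range (s.card + 1), g j ∧ (∀ j, s.card < j → g j = 0) ∧
      ∀ j, ∑ k ∈ s, (1 / 2 : ℂ) • M.cre (u k) (v k) (M.ann (u k) (v k) (g j)) =
        ((j : ℕ) : ℂ) • g j := by
  classical
  induction s using Finset.induction_on with
  | empty =>
    refine ⟨fun j => if j = 0 then f else 0, ?_, fun j hj => ?_, fun j => ?_⟩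
    · simp
    · simp only [Finset.card_empty] at hj
      exact if_neg hj.ne'
    · by_cases hj : j = 0
      · simp [hj]
      · simp [hj]
  | insert a s ha ih =>
    obtain ⟨g, h1, h2, h3⟩ := ih (hp.mono (Finset.subset_insert a s))
    have hpa := hp.pr a (Finset.mem_insert_self a s)
    set n : ι → F → F := fun k f => (1 / 2 : ℂ) • M.cre (u k) (v k) (M.ann (u k) (v k) f) with hn
    have nadd : ∀ k x y, n k (x + y) = n k x + n k y := fun k x y => by
      simp only [hn, map_add, smul_add]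
    have nsub : ∀ k x y, n k (x - y) = n k x - n k y := fun k x y => by
      simp only [hn, map_sub, smul_sub]
    have nzero : ∀ k, n k 0 = 0 := fun k => by simp [hn]
    have nn : ∀ x, n a (n a x) = n a x := by
      intro x
      simp only [hn]
      have e := ann_cre_self (M := M) hpa (M.ann (u a) (v a) x)
      rw [ann_sq hpa, map_zero, add_zero] at e
      rw [map_smul, map_smul, e, map_smul, smul_smul, smul_smul]
      norm_num
    have ncomm : ∀ k ∈ s, ∀ x, n k (n a x) = n a (n k x) := by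
      intro k hk x
      have hne : k ≠ a := fun e => ha (e ▸ hk)
      have hkm : k ∈ insert a s := Finset.mem_insert_of_mem hk
      have ham : a ∈ insert a s := Finset.mem_insert_self a s
      have q1 : ⟪u k, u a⟫_ℝ = 0 := hp.uu k hkm a ham hne
      have q2 : ⟪u k, v a⟫_ℝ = 0 := hp.uv k hkm a ham hne
      have q3 : ⟪v k, u a⟫_ℝ = 0 := by rw [real_inner_comm]; exact hp.uv a ham k hkm hne.symm
      have q4 : ⟪v k, v a⟫_ℝ = 0 := hp.vv k hkm a ham hne
      have c1 : ∀ y, M.ann (u k) (v k) (M.cre (u a) (v a) y) =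
          -M.cre (u a) (v a) (M.ann (u k) (v k) y) := by
        intro y
        have := M.ann_cre (u k) (v k) (u a) (v a) y
        rw [q1, q2, q3, q4] at this
        simp only [add_zero, sub_zero, Complex.ofReal_zero, mul_zero, zero_smul] at this
        exact eq_neg_of_add_eq_zero_left this
      have c2 : ∀ y, M.ann (u k) (v k) (M.ann (u a) (v a) y) =
          -M.ann (u a) (v a) (M.ann (u k) (v k) y) := by
        intro y
        have := M.ann_ann (u k) (v k) (u a) (v a) y
        rw [q1, q2, q3, q4] at this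
        simp only [add_zero, sub_zero, Complex.ofReal_zero, mul_zero, zero_smul] at this
        exact eq_neg_of_add_eq_zero_left this
      have c3 : ∀ y, M.cre (u k) (v k) (M.cre (u a) (v a) y) =
          -M.cre (u a) (v a) (M.cre (u k) (v k) y) := by
        intro y
        have := M.cre_cre (u k) (v k) (u a) (v a) y
        rw [q1, q2, q3, q4] at this
        simp only [add_zero, sub_zero, Complex.ofReal_zero, mul_zero, zero_smul] at this
        exact eq_neg_of_add_eq_zero_left this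
      have c4 : ∀ y, M.ann (u a) (v a) (M.cre (u k) (v k) y) =
          -M.cre (u k) (v k) (M.ann (u a) (v a) y) := by
        intro y
        have := M.ann_cre (u a) (v a) (u k) (v k) y
        rw [real_inner_comm, q1, real_inner_comm (u k) (v a), q2, real_inner_comm (v k) (u a), q3,
          real_inner_comm (v k) (v a), q4] at this
        simp only [add_zero, sub_zero, Complex.ofReal_zero, mul_zero, zero_smul] at this
        exact eq_neg_of_add_eq_zero_left this
      simp only [hn, map_smul]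
      congr 2
      rw [c1, c2, c4]
      simp only [map_neg, neg_neg]
      exact c3 _
    have hS : ∀ x, ∑ k ∈ insert a s, n k x = n a x + ∑ k ∈ s, n k x := fun x =>
      Finset.sum_insert ha
    have h3' : ∀ j, ∑ k ∈ s, n k (g j) = ((j : ℕ) : ℂ) • g j := h3
    have h4 : ∀ j, ∑ k ∈ s, n k (n a (g j)) = ((j : ℕ) : ℂ) • n a (g j) := by
      intro j
      rw [Finset.sum_congr rfl (fun k hk => ncomm k hk (g j))]
      have : ∑ k ∈ s, n a (n k (g j)) = n a (∑ k ∈ s, n k (g j)) := by
        simp only [hn, map_sum, Finset.smul_sum]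
      rw [this, h3']
      simp only [hn, map_smul]
      rw [smul_comm]
    refine ⟨fun j => (g j - n a (g j)) + if j = 0 then 0 else n a (g (j - 1)), ?_, fun j hj => ?_,
      fun j => ?_⟩
    · rw [Finset.card_insert_of_notMem ha, Finset.sum_add_distrib, Finset.sum_range_succ,
        h2 (s.card + 1) (Nat.lt_succ_self _), nzero, sub_zero, add_zero,
        Finset.sum_range_succ' (fun j => if j = 0 then (0 : F) else n a (g (j - 1)))]
      simp only [Nat.add_eq_zero_iff, one_ne_zero, and_false, if_false, Nat.add_sub_cancel, if_true,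
        add_zero]
      rw [← Finset.sum_add_distrib]
      simp only [sub_add_cancel]
      exact h1
    · rw [Finset.card_insert_of_notMem ha] at hj
      have e1 : g j = 0 := h2 j (by omega)
      have e2 : g (j - 1) = 0 := h2 (j - 1) (by omega)
      have e3 : j ≠ 0 := by omega
      simp only [e1, e2, nzero, if_neg e3, sub_zero, add_zero]
    · change ∑ k ∈ insert a s, n k _ = _
      rw [hS]
      rcases Nat.eq_zero_or_pos j with hj | hj
      · subst hj
        simp only [if_true, add_zero]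
        rw [nsub, nn, sub_self, zero_add]
        have : ∑ k ∈ s, n k (g 0 - n a (g 0)) = ∑ k ∈ s, n k (g 0) - ∑ k ∈ s, n k (n a (g 0)) := by
          rw [← Finset.sum_sub_distrib]
          exact Finset.sum_congr rfl fun k _ => nsub _ _ _
        rw [this, h3', h4]
        module
      · obtain ⟨i, rfl⟩ := Nat.exists_eq_succ_of_ne_zero hj.ne'
        simp only [Nat.succ_eq_add_one, Nat.add_eq_zero_iff, one_ne_zero, and_false, if_false,
          Nat.add_sub_cancel]
        rw [nadd, nsub, nn, nn, sub_self, zero_add]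
        have : ∑ k ∈ s, n k (g (i + 1) - n a (g (i + 1)) + n a (g i)) =
            ∑ k ∈ s, n k (g (i + 1)) - ∑ k ∈ s, n k (n a (g (i + 1))) + ∑ k ∈ s, n k (n a (g i)) := by
          rw [← Finset.sum_sub_distrib, ← Finset.sum_add_distrib]
          exact Finset.sum_congr rfl fun k _ => by rw [nadd, nsub]
        rw [this, h3', h4, h4]
        push_cast
        module

/-- `proj J` maps into the vacuum space, identity on it. -/
theorem proj_spec {J : V →ₗ[ℝ] V} (h : PCS J) :
    (∀ f, M.proj J f ∈ M.vacJ J) ∧ (∀ f ∈ M.vacJ J, M.proj J f = f) := by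
  obtain ⟨m, u, v, lam, hn⟩ := h.skew.exists_NF
  constructor
  · intro f
    obtain ⟨g, h1, h2, h3⟩ := M.exists_decomp _ hn.prs f
    have h3' : ∀ j, M.num J (g j) = ((j : ℕ) : ℂ) • g j := fun j => by
      rw [M.num_eq h hn]; exact h3 j
    have hcard := hn.prs.card_le
    have h4 : M.proj J f = M.proj J (g 0) := by
      rw [h1, map_sum, Finset.sum_eq_single_of_mem 0 (by simp)]
      intro j hj hj0
      exact fall_eigen_nat _ (h3' j) hj0 ((Nat.lt_succ_iff.1 (Finset.mem_range.1 hj)).trans hcard)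
    have h5 : M.num J (g 0) = 0 := by
      rw [h3' 0]; simp
    have h6 : M.proj J (g 0) = g 0 := by
      rw [proj, fall_eigen _ (c := 0) (by rw [h5, zero_smul])]
      simp
    rw [h4, h6, M.mem_vacJ_iff h, h5]
  · intro f hf
    rw [M.mem_vacJ_iff h] at hf
    rw [proj, fall_eigen _ (c := 0) (by rw [hf, zero_smul])]
    simp

variable {M} in
theorem proj_mem {J : V →ₗ[ℝ] V} (h : PCS J) (f : F) : M.proj J f ∈ M.vacJ J := (M.proj_spec h).1 f

theorem proj_of_mem {J : V →ₗ[ℝ] V} (h : PCS J) {f : F} (hf : f ∈ M.vacJ J) : M.proj J f = f :=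
  (M.proj_spec h).2 f hf

theorem proj_idem {J : V →ₗ[ℝ] V} (h : PCS J) (f : F) : M.proj J (M.proj J f) = M.proj J f :=
  M.proj_of_mem h (proj_mem h f)

theorem proj_symm {J : V →ₗ[ℝ] V} (h : PCS J) (f g : F) :
    ⟪M.proj J f, g⟫_ℂ = ⟪f, M.proj J g⟫_ℂ := fall_symm _ (M.num_symm h) _ f g

theorem inner_proj_self {J : V →ₗ[ℝ] V} (h : PCS J) (f : F) :
    ⟪f, M.proj J f⟫_ℂ = ((‖M.proj J f‖ ^ 2 : ℝ) : ℂ) := by
  rw [← inner_self_c, ← M.proj_symm h, ← M.proj_symm h, M.proj_idem h]

theorem proj_orth {J : V →ₗ[ℝ] V} (h : PCS J) {g : F} (hg : g ∈ M.vacJ J) (f : F) :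
    ⟪g, f - M.proj J f⟫_ℂ = 0 := by
  rw [inner_sub_right, ← M.proj_symm h, M.proj_of_mem h hg, sub_self]

theorem norm_sq_split {J : V →ₗ[ℝ] V} (h : PCS J) (f : F) :
    ‖f‖ ^ 2 = ‖M.proj J f‖ ^ 2 + ‖f - M.proj J f‖ ^ 2 := by
  have h1 := M.proj_orth h (proj_mem h f) f
  conv_lhs => rw [← add_sub_cancel (M.proj J f) f]
  rw [@norm_add_sq ℂ, h1]
  simp


/-- **Gap**: `num J ≥ 1 - proj J`. -/
theorem num_gap {J : V →ₗ[ℝ] V} (h : PCS J) (f : F) :
    ‖f - M.proj J f‖ ^ 2 ≤ (⟪f, M.num J f⟫_ℂ).re := by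
  obtain ⟨m, u, v, lam, hn⟩ := h.skew.exists_NF
  obtain ⟨f₀, h0, f₁, -, e, ho, hle⟩ := M.gap (K := ⊤) (W := ⊤) hn.prs
    (fun k _ => ⟨trivial, trivial⟩) (fun _ _ _ _ => trivial) (f := f) trivial
  rw [← M.vacJ_eq h hn] at h0 ho
  have h1 : M.proj J f₁ = 0 := by
    have h2 := ho _ (proj_mem (M := M) h f₁)
    rw [M.proj_symm h, M.inner_proj_self h] at h2
    have h3 : ‖M.proj J f₁‖ ^ 2 = 0 := by exact_mod_cast h2
    exact norm_eq_zero.1 (pow_eq_zero_iff two_ne_zero |>.1 h3)
  have h2 : f - M.proj J f = f₁ := by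
    rw [e, map_add, h1, M.proj_of_mem h h0]
    abel
  rw [h2, M.re_inner_num h hn]
  exact hle

end CRep

end Crest.Agent.R330.Cliff442

end
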