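import Crest.Agent.R330.Cliff6_442

/-!
# Row 330 (helper442): two-point function of the heavy vacuum

`J` a partial complex structure, `x` heavy: `J (J x) = -x`, light: `J x = 0`; `f ∈ vacJ J`.

* `proj_th` : `P θ x f = 0`.
* `proj_th_th` : `P θ x θ y f = ½ (⟪x, y⟫ + i ⟪x, J y⟫) f`.
* `proj_th_light` : light generators commute with `P`, anticommute through.
* `proj_sum2` : bilinears `∑ K_ij θ (e_i) θ (e_j)`.
-/

set_option autoImplicit false
set_option linter.unusedSectionVars false

open scoped InnerProductSpace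

noncomputable section

namespace Crest.Agent.R330.Cliff442

variable {V F : Type*} [NormedAddCommGroup V] [InnerProductSpace ℝ V]
  [NormedAddCommGroup F] [InnerProductSpace ℂ F]

namespace CRep

variable (M : CRep V F) [FiniteDimensional ℝ V]



theorem proj_eq_zero_of {J : V →ₗ[ℝ] V} (hJ : PCS J) {f : F}
    (h : ∀ g ∈ M.vacJ J, ⟪g, f⟫_ℂ = 0) : M.proj J f = 0 := by
  have h1 := h _ (proj_mem hJ f)
  rw [M.proj_symm hJ, M.inner_proj_self hJ] at h1
  have h3 : ‖M.proj J f‖ ^ 2 = 0 := by exact_mod_cast h1
  exact norm_eq_zero.1 (pow_eq_zero_iff two_ne_zero |>.1 h3)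

















end CRep

end Crest.Agent.R330.Cliff442

end
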