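import Crest.Agent.R330.Bar_186
import Crest.Agent.R330.Col_962

/-!
# Row 330, leaf S6E: the cone of commuting configurations and its covers (helper741)

* `V4 b x = ¼ Σ_{jk} |[x_j, x_k]|²` (the bosonic quartic potential on `Cfg N`), homogeneous of
  degree four, gauge invariant, continuous, nonnegative.
* `Cm b = {V4 = 0}`: a closed gauge invariant cone; `mem_Cm` : the matrices commute.
* `V4_lower` (6.4): `r ‖x‖ ≤ infDist x Cm → c ‖x‖⁴ ≤ V4 x`.
* `exists_finite_cover`: finitely many members of any family of neighbourhoods of the points of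
  the annulus of `Cm` cover a conical neighbourhood of it.
-/

set_option autoImplicit false
set_option linter.unusedSectionVars false

noncomputable section

open MeasureTheory Filter Topology Metric Set
open scoped ComplexOrder
open Crest.MathPhysics.MatrixQM
open Crest.Agent.R330.Bar186

namespace Crest.Agent.R330.Cone741

variable {N : ℕ} (b : ColorBasis N)

/-- the `i`-th bosonic matrix in colour coordinates -/
def row (x : Cfg N) (i : Fin 9) : Fin (N ^ 2 - 1) → ℝ := fun A => x (i, A)

/-- the quartic potential `¼ Σ_{jk} |[x_j,x_k]|²` -/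
def V4 (x : Cfg N) : ℝ := 1 / 4 * ∑ j, ∑ k, ∑ A, brk b (row x j) (row x k) A ^ 2


theorem V4_nonneg (x : Cfg N) : 0 ≤ V4 b x := by
  unfold V4
  positivity



theorem continuous_V4 : Continuous (V4 b) := by
  unfold V4 brk row
  fun_prop

theorem sum4_comm {α β γ δ : Type*} [Fintype α] [Fintype β] [Fintype γ] [Fintype δ]
    (F : α → β → γ → δ → ℝ) :
    ∑ a, ∑ b, ∑ c, ∑ d, F a b c d = ∑ c, ∑ d, ∑ a, ∑ b, F a b c d := by
  have h1 : ∑ a, ∑ b, ∑ c, ∑ d, F a b c d = ∑ a, ∑ c, ∑ b, ∑ d, F a b c d :=
    Finset.sum_congr rfl fun a _ => Finset.sum_comm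
  rw [h1, Finset.sum_comm]
  refine Finset.sum_congr rfl fun c _ => ?_
  have h2 : ∑ a, ∑ b, ∑ d, F a b c d = ∑ a, ∑ d, ∑ b, F a b c d :=
    Finset.sum_congr rfl fun a _ => Finset.sum_comm
  rw [h2, Finset.sum_comm]

/-- the bracket is covariant -/
theorem brk_act (g : Matrix.specialUnitaryGroup (Fin N) ℂ) (u v : Fin (N ^ 2 - 1) → ℝ)
    (D : Fin (N ^ 2 - 1)) :
    brk b (fun A => ∑ B, b.adjMat g A B * u B) (fun A => ∑ B, b.adjMat g A B * v B) D =
      ∑ C, b.adjMat g D C * brk b u v C := by
  have h1 : brk b (fun A => ∑ B, b.adjMat g A B * u B) (fun A => ∑ B, b.adjMat g A B * v B) D =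
      ∑ A', ∑ B', ∑ A, ∑ B, b.adjMat g A' A * b.adjMat g B' B * b.structConst A' B' D *
        (u A * v B) := by
    unfold brk
    refine Finset.sum_congr rfl fun A' _ => Finset.sum_congr rfl fun B' _ => ?_
    rw [Col962.f_cyc b D A' B', mul_assoc, Finset.sum_mul_sum, Finset.mul_sum]
    refine Finset.sum_congr rfl fun A _ => ?_
    rw [Finset.mul_sum]
    exact Finset.sum_congr rfl fun B _ => by ring
  have h2 : ∑ C, b.adjMat g D C * brk b u v C =
      ∑ A, ∑ B, (∑ C, b.structConst A B C * b.adjMat g D C) * (u A * v B) := by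
    unfold brk
    have : ∀ C, b.adjMat g D C * ∑ A, ∑ B, b.structConst C A B * u A * v B =
        ∑ A, ∑ B, b.structConst A B C * b.adjMat g D C * (u A * v B) := by
      intro C
      rw [Finset.mul_sum]
      refine Finset.sum_congr rfl fun A _ => ?_
      rw [Finset.mul_sum]
      refine Finset.sum_congr rfl fun B _ => ?_
      rw [Col962.f_cyc b C A B]
      ring
    rw [Finset.sum_congr rfl fun C _ => this C, Finset.sum_comm]
    refine Finset.sum_congr rfl fun A _ => ?_
    rw [Finset.sum_comm]
    exact Finset.sum_congr rfl fun B _ => by rw [Finset.sum_mul]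
  rw [h1, h2, sum4_comm]
  refine Finset.sum_congr rfl fun A _ => Finset.sum_congr rfl fun B _ => ?_
  rw [← Col962.adjMat_struct, Finset.sum_mul]
  exact Finset.sum_congr rfl fun A' _ => by rw [Finset.sum_mul]

theorem sum_adj_sq (g : Matrix.specialUnitaryGroup (Fin N) ℂ) (w : Fin (N ^ 2 - 1) → ℝ) :
    ∑ D, (∑ C, b.adjMat g D C * w C) ^ 2 = ∑ C, w C ^ 2 := by
  have h : ∀ D, (∑ C, b.adjMat g D C * w C) ^ 2 =
      ∑ B, ∑ C, b.adjMat g D B * b.adjMat g D C * (w B * w C) := by
    intro D
    rw [sq, Finset.sum_mul_sum]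
    exact Finset.sum_congr rfl fun B _ => Finset.sum_congr rfl fun C _ => by ring
  rw [Finset.sum_congr rfl fun D _ => h D, Finset.sum_comm]
  refine Finset.sum_congr rfl fun B _ => ?_
  rw [Finset.sum_comm, Finset.sum_eq_single B]
  · rw [← Finset.sum_mul, Col962.adjMat_orth, if_pos rfl]; ring
  · intro C _ hC
    rw [← Finset.sum_mul, Col962.adjMat_orth, if_neg (Ne.symm hC), zero_mul]
  · intro h; exact absurd (Finset.mem_univ B) h

/-- the potential is gauge invariant -/
theorem V4_act (g : Matrix.specialUnitaryGroup (Fin N) ℂ) (x : Cfg N) :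
    V4 b (b.act g x) = V4 b x := by
  unfold V4
  congr 1
  refine Finset.sum_congr rfl fun j _ => Finset.sum_congr rfl fun k _ => ?_
  have h : ∀ D, brk b (row (b.act g x) j) (row (b.act g x) k) D =
      ∑ C, b.adjMat g D C * brk b (row x j) (row x k) C := fun D =>
    brk_act b g (row x j) (row x k) D
  simp only [h]
  exact sum_adj_sq b g _

/-! ### The commuting cone -/

/-- the commuting configurations -/
def Cm : Set (Cfg N) := {x | V4 b x = 0}















/-! ### Finite covers of the annulus of the cone -/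




end Crest.Agent.R330.Cone741
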