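import Mathlib

/-!
# Row 330, S5-AVG: packing and Haar doubling (helper798)

Abstract: a compact group `G` acts by isometries `act : G → E → E` on a finite-dimensional real
normed space `E`; `μ` is a left-invariant probability measure, positive on open sets.
`near act p r = {h | dist (act h p) p ≤ r}`.
-/

set_option linter.unusedSectionVars false

open MeasureTheory Metric Set Module
open scoped ENNReal NNReal

namespace Crest.Agent.R330.Dbl798

/-! ## packing -/

section Packing

variable {E : Type*} [NormedAddCommGroup E] [NormedSpace ℝ E] [FiniteDimensional ℝ E]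

/-- Packing in a ball: pairwise distances `≥ r` in a closed ball of radius `R`. -/
theorem packing (p : E) {r R : ℝ} (hr : 0 < r) (hR : 0 ≤ R) (s : Finset E)
    (hs : ∀ c ∈ s, dist c p ≤ R) (h : ∀ c ∈ s, ∀ d ∈ s, c ≠ d → r ≤ dist c d) :
    (s.card : ℝ) ≤ (1 + 2 * R / r) ^ finrank ℝ E := by
  borelize E
  let μ : Measure E := Measure.addHaar
  set δ : ℝ := r / 2 with hδ
  set ρ : ℝ := R + r / 2 with hρ
  have δpos : 0 < δ := by positivity
  have ρpos : 0 < ρ := by positivity
  set A := ⋃ c ∈ s, ball (c : E) δ with hA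
  have D : Set.Pairwise (s : Set E) (Function.onFun Disjoint fun c => ball (c : E) δ) := by
    rintro c hc d hd hcd
    apply ball_disjoint_ball
    have := h c hc d hd hcd
    rw [hδ]; linarith
  have A_subset : A ⊆ ball p ρ := by
    refine iUnion₂_subset fun x hx => ?_
    apply ball_subset_ball'
    have := hs x hx
    rw [hδ, hρ]; linarith
  have I :
    (s.card : ℝ≥0∞) * ENNReal.ofReal (δ ^ finrank ℝ E) * μ (ball 0 1) ≤
      ENNReal.ofReal (ρ ^ finrank ℝ E) * μ (ball 0 1) :=
    calc
      (s.card : ℝ≥0∞) * ENNReal.ofReal (δ ^ finrank ℝ E) * μ (ball 0 1) = μ A := by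
        rw [hA, measure_biUnion_finset D fun c _ => measurableSet_ball]
        simp only [μ.addHaar_ball_of_pos _ δpos]
        simp only [Finset.sum_const, nsmul_eq_mul, mul_assoc]
      _ ≤ μ (ball p ρ) := measure_mono A_subset
      _ = ENNReal.ofReal (ρ ^ finrank ℝ E) * μ (ball 0 1) := by
        simp only [μ.addHaar_ball_of_pos _ ρpos]
  have J : (s.card : ℝ≥0∞) * ENNReal.ofReal (δ ^ finrank ℝ E) ≤ ENNReal.ofReal (ρ ^ finrank ℝ E) :=
    (ENNReal.mul_le_mul_iff_left (measure_ball_pos _ _ zero_lt_one).ne' measure_ball_lt_top.ne).1 I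
  have K : (s.card : ℝ) * δ ^ finrank ℝ E ≤ ρ ^ finrank ℝ E := by
    have := ENNReal.toReal_le_of_le_ofReal (pow_nonneg ρpos.le _) J
    rwa [ENNReal.toReal_mul, ENNReal.toReal_natCast,
      ENNReal.toReal_ofReal (pow_nonneg δpos.le _)] at this
  have hq : 1 + 2 * R / r = ρ / δ := by
    rw [hρ, hδ]; field_simp; ring
  rw [hq, div_pow, le_div_iff₀ (by positivity)]
  exact K

/-- A subset of a ball whose `r`-separated finite subsets exist: maximal separated subsets. -/
theorem exists_maximal_separated (p : E) {r R : ℝ} (hr : 0 < r) (hR : 0 ≤ R) (S : Set E)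
    (hS : ∀ x ∈ S, dist x p ≤ R) :
    ∃ s : Finset E, (↑s ⊆ S) ∧ (s.card : ℝ) ≤ (1 + 2 * R / r) ^ finrank ℝ E ∧
      ∀ x ∈ S, ∃ c ∈ s, dist x c ≤ r := by
  classical
  -- the set of cardinalities of `r`-separated subsets is bounded
  let P : ℕ → Prop := fun n => ∃ s : Finset E, s.card = n ∧ (↑s ⊆ S) ∧
    ∀ c ∈ s, ∀ d ∈ s, c ≠ d → r ≤ dist c d
  have hb : ∀ n, P n → (n : ℝ) ≤ (1 + 2 * R / r) ^ finrank ℝ E := by
    rintro n ⟨s, rfl, hsS, hsep⟩
    exact packing p hr hR s (fun c hc => hS c (hsS hc)) hsep
  have hP0 : P 0 := ⟨∅, rfl, by simp, by simp⟩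
  obtain ⟨B, hB⟩ := exists_nat_ge ((1 + 2 * R / r) ^ finrank ℝ E)
  have hbB : ∀ n, P n → n ≤ B := fun n hn => by exact_mod_cast (hb n hn).trans hB
  set m := Nat.findGreatest P B with hm
  have hPm : P m := Nat.findGreatest_spec (P := P) (Nat.zero_le B) hP0
  have hmax : ∀ n, P n → n ≤ m := fun n hn => Nat.le_findGreatest (hbB n hn) hn
  obtain ⟨s, hcard, hsS, hsep⟩ := hPm
  refine ⟨s, hsS, ?_, ?_⟩
  · exact packing p hr hR s (fun c hc => hS c (hsS hc)) hsep
  · intro x hx
    by_contra hcon
    push Not at hcon
    have hxs : x ∉ s := by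
      intro hxs
      have := hcon x hxs
      rw [dist_self] at this
      linarith
    have : P (m + 1) := by
      refine ⟨insert x s, by rw [Finset.card_insert_of_notMem hxs, hcard], ?_, ?_⟩
      · intro y hy
        rw [Finset.coe_insert] at hy
        rcases hy with rfl | hy
        · exact hx
        · exact hsS hy
      · intro c hc d hd hcd
        rw [Finset.mem_insert] at hc hd
        rcases hc with rfl | hc
        · rcases hd with rfl | hd
          · exact absurd rfl hcd
          · exact (hcon d hd).le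
        · rcases hd with rfl | hd
          · rw [dist_comm]; exact (hcon c hc).le
          · exact hsep c hc d hd hcd
    have := hmax _ this
    omega

end Packing

/-! ## doubling -/

section Doubling

variable {G : Type*} [Group G] [TopologicalSpace G] [IsTopologicalGroup G] [MeasurableSpace G]
  [BorelSpace G]
variable {E : Type*} [NormedAddCommGroup E] [NormedSpace ℝ E] [FiniteDimensional ℝ E]

/-- A continuous action by isometries, as explicit data. -/
structure IsoAct (act : G → E → E) : Prop where
  one : ∀ x, act 1 x = x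
  mul : ∀ g h x, act (g * h) x = act g (act h x)
  dist_eq : ∀ g x y, dist (act g x) (act g y) = dist x y
  cont : Continuous fun q : G × E => act q.1 q.2

namespace IsoAct

variable {act : G → E → E}

theorem inv_act (H : IsoAct act) (g : G) (x : E) : act g⁻¹ (act g x) = x := by
  rw [← H.mul, inv_mul_cancel, H.one]

theorem act_inv (H : IsoAct act) (g : G) (x : E) : act g (act g⁻¹ x) = x := by
  rw [← H.mul, mul_inv_cancel, H.one]

theorem cont_left (H : IsoAct act) (x : E) : Continuous fun g => act g x :=
  H.cont.comp (continuous_id.prodMk continuous_const)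


theorem dist_inv (H : IsoAct act) (g : G) (x y : E) : dist (act g⁻¹ x) y = dist x (act g y) := by
  rw [← H.dist_eq g, H.act_inv]

end IsoAct

/-- Group elements moving `p` by at most `r`. -/
def near (act : G → E → E) (p : E) (r : ℝ) : Set G := {h | dist (act h p) p ≤ r}

/-- Group elements moving `p` into the `r`-ball about `x`. -/
def hit (act : G → E → E) (p x : E) (r : ℝ) : Set G := {h | dist x (act h p) ≤ r}


theorem near_mono (act : G → E → E) (p : E) {r r' : ℝ} (h : r ≤ r') :
    near act p r ⊆ near act p r' := fun _ hh => le_trans hh h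


theorem isClosed_near {act : G → E → E} (H : IsoAct act) (p : E) (r : ℝ) :
    IsClosed (near act p r) :=
  isClosed_le ((H.cont_left p).dist continuous_const) continuous_const

theorem isClosed_hit {act : G → E → E} (H : IsoAct act) (p x : E) (r : ℝ) :
    IsClosed (hit act p x r) :=
  isClosed_le (continuous_const.dist (H.cont_left p)) continuous_const

theorem measurableSet_near {act : G → E → E} (H : IsoAct act) (p : E) (r : ℝ) :
    MeasurableSet (near act p r) := (isClosed_near H p r).measurableSet

theorem measurableSet_hit {act : G → E → E} (H : IsoAct act) (p x : E) (r : ℝ) :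
    MeasurableSet (hit act p x r) := (isClosed_hit H p x r).measurableSet




variable (μ : Measure G)

theorem near_pos [μ.IsOpenPosMeasure] {act : G → E → E} (H : IsoAct act) (p : E) {r : ℝ}
    (hr : 0 < r) : 0 < μ (near act p r) := by
  have hopen : IsOpen {h : G | dist (act h p) p < r} :=
    isOpen_lt ((H.cont_left p).dist continuous_const) continuous_const
  have hne : ({h : G | dist (act h p) p < r}).Nonempty := ⟨1, by simp [H.one, hr]⟩
  exact (hopen.measure_pos μ hne).trans_le (measure_mono fun h (hh : dist (act h p) p < r) => show dist (act h p) p ≤ r from hh.le)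

/-- left translates of `near` cover -/
theorem hit_eq_smul {act : G → E → E} (H : IsoAct act) (p : E) (g : G) (r : ℝ) :
    hit act p (act g p) r = (fun h => g⁻¹ * h) ⁻¹' (near act p r) := by
  ext h
  show dist (act g p) (act h p) ≤ r ↔ dist (act (g⁻¹ * h) p) p ≤ r
  rw [H.mul, H.dist_inv, dist_comm]

theorem measure_hit_orbit [μ.IsMulLeftInvariant] {act : G → E → E} (H : IsoAct act) (p : E)
    (g : G) (r : ℝ) : μ (hit act p (act g p) r) = μ (near act p r) := by
  rw [hit_eq_smul H, measure_preimage_mul]

/-- DOUBLING. -/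
theorem doubling [μ.IsMulLeftInvariant] {act : G → E → E} (H : IsoAct act) (p : E) {r R : ℝ}
    (hr : 0 < r) (hR : 0 ≤ R) :
    μ (near act p R) ≤ ENNReal.ofReal ((1 + 2 * R / r) ^ finrank ℝ E) * μ (near act p r) := by
  classical
  obtain ⟨s, hsS, hcard, hcov⟩ := exists_maximal_separated p hr hR
    ((fun h : G => act h p) '' near act p R) (by rintro _ ⟨h, hh, rfl⟩; exact hh)
  have hsub : near act p R ⊆ ⋃ c ∈ s, hit act p c r := by
    intro h hh
    obtain ⟨c, hc, hd⟩ := hcov _ ⟨h, hh, rfl⟩
    refine mem_iUnion₂.2 ⟨c, hc, ?_⟩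
    show dist c (act h p) ≤ r
    rw [dist_comm]; exact hd
  calc μ (near act p R) ≤ μ (⋃ c ∈ s, hit act p c r) := measure_mono hsub
    _ ≤ ∑ c ∈ s, μ (hit act p c r) := measure_biUnion_finset_le _ _
    _ = ∑ c ∈ s, μ (near act p r) := by
        refine Finset.sum_congr rfl fun c hc => ?_
        obtain ⟨g, -, rfl⟩ := hsS hc
        exact measure_hit_orbit μ H p g r
    _ = (s.card : ℝ≥0∞) * μ (near act p r) := by rw [Finset.sum_const, nsmul_eq_mul]
    _ ≤ _ := by
        gcongr
        rw [← ENNReal.ofReal_natCast]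
        exact ENNReal.ofReal_le_ofReal hcard

/-- `hit` sets are not bigger than doubled `near` sets. -/
theorem hit_le [μ.IsMulLeftInvariant] {act : G → E → E} (H : IsoAct act) (p x : E) (r : ℝ) :
    μ (hit act p x r) ≤ μ (near act p (2 * r)) := by
  rcases (hit act p x r).eq_empty_or_nonempty with he | ⟨g, hg⟩
  · simp [he]
  · rw [← measure_hit_orbit μ H p g (2 * r)]
    refine measure_mono fun h hh => ?_
    show dist (act g p) (act h p) ≤ 2 * r
    have h1 : dist x (act h p) ≤ r := hh
    have h2 : dist x (act g p) ≤ r := hg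
    calc dist (act g p) (act h p) ≤ dist (act g p) x + dist x (act h p) := dist_triangle _ _ _
      _ ≤ r + r := by rw [dist_comm (act g p) x]; exact add_le_add h2 h1
      _ = 2 * r := by ring

/-- lower bound for `hit` sets near the orbit -/
theorem le_hit [μ.IsMulLeftInvariant] {act : G → E → E} (H : IsoAct act) (p x : E) {r a : ℝ}
    (hx : (hit act p x r).Nonempty) : μ (near act p a) ≤ μ (hit act p x (r + a)) := by
  obtain ⟨g, hg⟩ := hx
  rw [← measure_hit_orbit μ H p g a]
  refine measure_mono fun h hh => ?_
  show dist x (act h p) ≤ r + a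
  exact (dist_triangle x (act g p) (act h p)).trans (add_le_add hg hh)

end Doubling

end Crest.Agent.R330.Dbl798
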