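import Crest.Prelude.Def_MatrixModel

-- ▼ part R330/SlA_314
section

/-!
Row 330, S5b (slice theorem), part A: colour algebra in matrix form, the action on configurations.
-/

set_option autoImplicit false
noncomputable section

open Matrix
open Crest.MathPhysics.MatrixQM

namespace Crest.Agent.R330.SlA314

variable {N : ℕ} (b : ColorBasis N)

/-- the family `T_A`, `1` -/
def fam : Option (Fin (N ^ 2 - 1)) → Matrix (Fin N) (Fin N) ℂ
  | none => 1
  | some A => b.T A

theorem linInd (hN : 0 < N) : LinearIndependent ℂ (fam b) := by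
  have : NeZero N := ⟨hN.ne'⟩
  rw [Fintype.linearIndependent_iff]
  intro c hc
  have hsum : c none • (1 : Matrix (Fin N) (Fin N) ℂ) + ∑ A, c (some A) • b.T A = 0 := by
    rw [Fintype.sum_option] at hc
    exact hc
  have h1 : ∀ B, c (some B) = 0 := by
    intro B
    have h := congrArg (fun M => (M * b.T B).trace) hsum
    simp only [add_mul, Finset.sum_mul, smul_mul_assoc, one_mul, zero_mul, trace_add, trace_smul,
      trace_sum, b.traceless, b.orthonormal, trace_zero, smul_eq_mul, mul_zero, zero_add, mul_ite,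
      mul_one] at h
    simpa using h
  have h0 : c none = 0 := by
    simp only [h1, zero_smul, Finset.sum_const_zero, add_zero] at hsum
    have h := congrArg (fun M => M 0 0) hsum
    simpa using h
  intro i
  cases i with
  | none => exact h0
  | some A => exact h1 A

theorem complete (M : Matrix (Fin N) (Fin N) ℂ) (hM : M.trace = 0) :
    M = ∑ A, (b.T A * M).trace • b.T A := by
  rcases Nat.eq_zero_or_pos N with hN | hN
  · subst hN
    exact Subsingleton.elim _ _
  have hcard : Fintype.card (Option (Fin (N ^ 2 - 1))) =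
      Module.finrank ℂ (Matrix (Fin N) (Fin N) ℂ) := by
    have h1 : 1 ≤ N ^ 2 := Nat.one_le_pow _ _ hN
    rw [Module.finrank_matrix]
    simp only [Fintype.card_option, Fintype.card_fin, Module.finrank_self, mul_one]
    have : N * N = N ^ 2 := (sq N).symm
    omega
  have hspan := (linInd b hN).span_eq_top_of_card_eq_finrank' hcard
  have hM' : M ∈ Submodule.span ℂ (Set.range (fam b)) := by rw [hspan]; trivial
  obtain ⟨c, hc⟩ := (Submodule.mem_span_range_iff_exists_fun ℂ).1 hM'
  have hsum : c none • (1 : Matrix (Fin N) (Fin N) ℂ) + ∑ A, c (some A) • b.T A = M := by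
    rw [Fintype.sum_option] at hc
    exact hc
  have h0 : c none = 0 := by
    have h := congrArg Matrix.trace hsum
    simp only [trace_add, trace_smul, trace_sum, b.traceless, hM, smul_eq_mul, mul_zero,
      Finset.sum_const_zero, add_zero, trace_one, Fintype.card_fin] at h
    have hN' : (N : ℂ) ≠ 0 := by exact_mod_cast hN.ne'
    simpa [hN'] using h
  have hB : ∀ B, (b.T B * M).trace = c (some B) := by
    intro B
    rw [← hsum]
    simp only [mul_add, Finset.mul_sum, mul_smul_comm, mul_one, trace_add, trace_smul,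
      trace_sum, b.traceless, b.orthonormal, smul_eq_mul, mul_zero, zero_add, mul_ite,
      mul_one]
    simp
  conv_lhs => rw [← hsum]
  rw [h0]
  simp [hB]

/-- the matrix of the configuration `x` in direction `i` -/
def mat (x : Cfg N) (i : Fin 9) : Matrix (Fin N) (Fin N) ℂ := ∑ A, (x (i, A) : ℂ) • b.T A

/-- matrix of a colour vector -/
def cm (u : Fin (N ^ 2 - 1) → ℝ) : Matrix (Fin N) (Fin N) ℂ := ∑ A, (u A : ℂ) • b.T A

theorem cm_herm (u : Fin (N ^ 2 - 1) → ℝ) : (cm b u).IsHermitian := by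
  unfold cm Matrix.IsHermitian
  rw [Matrix.conjTranspose_sum]
  refine Finset.sum_congr rfl fun A _ => ?_
  rw [Matrix.conjTranspose_smul, (b.herm A).eq]
  simp

theorem cm_trace (u : Fin (N ^ 2 - 1) → ℝ) : (cm b u).trace = 0 := by
  unfold cm
  simp [trace_sum, b.traceless]

theorem T_mul_cm_trace (u : Fin (N ^ 2 - 1) → ℝ) (A : Fin (N ^ 2 - 1)) :
    (b.T A * cm b u).trace = u A := by
  unfold cm
  simp only [Finset.mul_sum, mul_smul_comm, trace_sum, trace_smul, b.orthonormal, smul_eq_mul,
    mul_ite, mul_one, mul_zero]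
  simp

theorem cm_inj {u v : Fin (N ^ 2 - 1) → ℝ} (h : cm b u = cm b v) : u = v := by
  funext A
  have := T_mul_cm_trace b u A
  rw [h, T_mul_cm_trace] at this
  exact_mod_cast this.symm

theorem cm_add (u v : Fin (N ^ 2 - 1) → ℝ) : cm b (u + v) = cm b u + cm b v := by
  simp [cm, add_smul, Finset.sum_add_distrib]


theorem cm_smul (t : ℝ) (v : Fin (N ^ 2 - 1) → ℝ) : cm b (t • v) = (t : ℂ) • cm b v := by
  unfold cm
  rw [Finset.smul_sum]
  refine Finset.sum_congr rfl fun A _ => ?_
  rw [smul_smul, Pi.smul_apply, smul_eq_mul, Complex.ofReal_mul]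

/-- a traceless Hermitian matrix is the matrix of its coefficient vector -/
theorem exists_cm (M : Matrix (Fin N) (Fin N) ℂ) (hM : M.IsHermitian) (h0 : M.trace = 0) :
    cm b (fun A => (b.T A * M).trace.re) = M := by
  conv_rhs => rw [complete b M h0]
  unfold cm
  refine Finset.sum_congr rfl fun A _ => ?_
  congr 1
  apply Complex.conj_eq_iff_re.1
  rw [starRingEnd_apply, ← Matrix.trace_conjTranspose, Matrix.conjTranspose_mul, hM.eq,
    (b.herm A).eq, Matrix.trace_mul_comm]

theorem mat_eq (x : Cfg N) (i : Fin 9) : mat b x i = cm b (fun A => x (i, A)) := rfl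

theorem mat_herm (x : Cfg N) (i : Fin 9) : (mat b x i).IsHermitian := cm_herm b _

theorem mat_trace (x : Cfg N) (i : Fin 9) : (mat b x i).trace = 0 := cm_trace b _

theorem mat_add (x y : Cfg N) (i : Fin 9) : mat b (x + y) i = mat b x i + mat b y i := by
  simp [mat, add_smul, Finset.sum_add_distrib]

theorem mat_sub (x y : Cfg N) (i : Fin 9) : mat b (x - y) i = mat b x i - mat b y i := by
  simp [mat, sub_smul, Finset.sum_sub_distrib]

theorem mat_smul (t : ℝ) (x : Cfg N) (i : Fin 9) : mat b (t • x) i = (t : ℂ) • mat b x i := by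
  unfold mat
  rw [Finset.smul_sum]
  refine Finset.sum_congr rfl fun A _ => ?_
  rw [smul_smul, PiLp.smul_apply, smul_eq_mul, Complex.ofReal_mul]

theorem mat_inj {x y : Cfg N} (h : ∀ i, mat b x i = mat b y i) : x = y := by
  ext ⟨i, A⟩
  exact congrFun (cm_inj b (h i)) A

/-- Hilbert-Schmidt square -/
theorem trace_cm_mul (u v : Fin (N ^ 2 - 1) → ℝ) :
    (cm b u * cm b v).trace = ((∑ A, u A * v A : ℝ) : ℂ) := by
  conv_lhs => rw [cm, Finset.sum_mul, trace_sum]
  push_cast
  refine Finset.sum_congr rfl fun A _ => ?_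
  rw [smul_mul_assoc, trace_smul, T_mul_cm_trace, smul_eq_mul]

theorem inner_eq (x y : Cfg N) :
    ((inner ℝ x y : ℝ) : ℂ) = ∑ i, (mat b x i * mat b y i).trace := by
  simp only [mat_eq, trace_cm_mul]
  rw [PiLp.inner_apply, Fintype.sum_prod_type]
  push_cast
  refine Finset.sum_congr rfl fun i _ => Finset.sum_congr rfl fun A _ => ?_
  simp [mul_comm]

theorem norm_sq_eq (x : Cfg N) :
    ((‖x‖ ^ 2 : ℝ) : ℂ) = ∑ i, (mat b x i * mat b x i).trace := by
  rw [← inner_eq, real_inner_self_eq_norm_sq]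

theorem adj_real (g : Matrix.specialUnitaryGroup (Fin N) ℂ) (A B : Fin (N ^ 2 - 1)) :
    (b.T A * (g : Matrix (Fin N) (Fin N) ℂ) * b.T B * star (g : Matrix (Fin N) (Fin N) ℂ)).trace
      = (b.adjMat g A B : ℂ) := by
  unfold ColorBasis.adjMat
  symm
  apply Complex.conj_eq_iff_re.1
  rw [starRingEnd_apply, ← Matrix.trace_conjTranspose]
  simp only [Matrix.conjTranspose_mul, Matrix.star_eq_conjTranspose,
    Matrix.conjTranspose_conjTranspose, (b.herm A).eq, (b.herm B).eq]
  rw [← Matrix.mul_assoc, ← Matrix.mul_assoc, Matrix.trace_mul_comm]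
  simp only [Matrix.mul_assoc]

theorem star_mul_self' (g : Matrix.specialUnitaryGroup (Fin N) ℂ) :
    star (g : Matrix (Fin N) (Fin N) ℂ) * (g : Matrix (Fin N) (Fin N) ℂ) = 1 :=
  (Matrix.mem_unitaryGroup_iff'.1 (Matrix.mem_specialUnitaryGroup_iff.1 g.2).1)

theorem mul_star_self' (g : Matrix.specialUnitaryGroup (Fin N) ℂ) :
    (g : Matrix (Fin N) (Fin N) ℂ) * star (g : Matrix (Fin N) (Fin N) ℂ) = 1 :=
  (Matrix.mem_unitaryGroup_iff.1 (Matrix.mem_specialUnitaryGroup_iff.1 g.2).1)

theorem cm_adj (g : Matrix.specialUnitaryGroup (Fin N) ℂ) (u : Fin (N ^ 2 - 1) → ℝ) :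
    cm b (fun A => ∑ B, b.adjMat g A B * u B) =
      (g : Matrix (Fin N) (Fin N) ℂ) * cm b u * star (g : Matrix (Fin N) (Fin N) ℂ) := by
  set U : Matrix (Fin N) (Fin N) ℂ := (g : Matrix (Fin N) (Fin N) ℂ) with hU
  have htr : (U * cm b u * star U).trace = 0 := by
    rw [Matrix.trace_mul_comm, ← Matrix.mul_assoc, hU, star_mul_self', Matrix.one_mul, cm_trace]
  conv_rhs => rw [complete b _ htr]
  unfold cm
  refine Finset.sum_congr rfl fun A _ => ?_
  congr 1
  push_cast
  rw [Finset.mul_sum, Finset.sum_mul, Finset.mul_sum, trace_sum]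
  refine Finset.sum_congr rfl fun B _ => ?_
  rw [← adj_real, mul_comm, ← smul_eq_mul, ← trace_smul]
  congr 1
  simp only [Matrix.mul_assoc, mul_smul_comm, smul_mul_assoc]
  rfl

theorem mat_act (g : Matrix.specialUnitaryGroup (Fin N) ℂ) (x : Cfg N) (i : Fin 9) :
    mat b (b.act g x) i =
      (g : Matrix (Fin N) (Fin N) ℂ) * mat b x i * star (g : Matrix (Fin N) (Fin N) ℂ) := by
  rw [mat_eq, mat_eq, ← cm_adj]
  rfl

theorem act_add (g : Matrix.specialUnitaryGroup (Fin N) ℂ) (x y : Cfg N) :
    b.act g (x + y) = b.act g x + b.act g y := by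
  apply mat_inj b; intro i
  rw [mat_add, mat_act, mat_act, mat_act, mat_add, Matrix.mul_add, Matrix.add_mul]

theorem act_sub (g : Matrix.specialUnitaryGroup (Fin N) ℂ) (x y : Cfg N) :
    b.act g (x - y) = b.act g x - b.act g y := by
  apply mat_inj b; intro i
  rw [mat_sub, mat_act, mat_act, mat_act, mat_sub, Matrix.mul_sub, Matrix.sub_mul]

theorem act_smul (g : Matrix.specialUnitaryGroup (Fin N) ℂ) (t : ℝ) (x : Cfg N) :
    b.act g (t • x) = t • b.act g x := by
  apply mat_inj b; intro i
  rw [mat_smul, mat_act, mat_act, mat_smul, Matrix.mul_smul, Matrix.smul_mul]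

theorem act_one (x : Cfg N) : b.act 1 x = x := by
  apply mat_inj b; intro i
  rw [mat_act]; simp

theorem act_mul (g h : Matrix.specialUnitaryGroup (Fin N) ℂ) (x : Cfg N) :
    b.act (g * h) x = b.act g (b.act h x) := by
  apply mat_inj b; intro i
  rw [mat_act, mat_act, mat_act]
  simp [Matrix.mul_assoc]

theorem act_inv_act (g : Matrix.specialUnitaryGroup (Fin N) ℂ) (x : Cfg N) :
    b.act g⁻¹ (b.act g x) = x := by
  rw [← act_mul, inv_mul_cancel, act_one]

theorem act_act_inv (g : Matrix.specialUnitaryGroup (Fin N) ℂ) (x : Cfg N) :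
    b.act g (b.act g⁻¹ x) = x := by
  rw [← act_mul, mul_inv_cancel, act_one]

theorem act_inner (g : Matrix.specialUnitaryGroup (Fin N) ℂ) (x y : Cfg N) :
    inner ℝ (b.act g x) (b.act g y) = inner ℝ x y := by
  have h : ((inner ℝ (b.act g x) (b.act g y) : ℝ) : ℂ) = ((inner ℝ x y : ℝ) : ℂ) := by
    rw [inner_eq b, inner_eq b]
    refine Finset.sum_congr rfl fun i _ => ?_
    rw [mat_act, mat_act]
    have : (g : Matrix (Fin N) (Fin N) ℂ) * mat b x i * star (g : Matrix (Fin N) (Fin N) ℂ) *
        ((g : Matrix (Fin N) (Fin N) ℂ) * mat b y i * star (g : Matrix (Fin N) (Fin N) ℂ)) =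
        (g : Matrix (Fin N) (Fin N) ℂ) * (mat b x i * mat b y i) *
          star (g : Matrix (Fin N) (Fin N) ℂ) := by
      have h1 := star_mul_self' g
      calc _ = (g : Matrix (Fin N) (Fin N) ℂ) * mat b x i *
            (star (g : Matrix (Fin N) (Fin N) ℂ) * (g : Matrix (Fin N) (Fin N) ℂ)) *
            (mat b y i * star (g : Matrix (Fin N) (Fin N) ℂ)) := by
              simp only [Matrix.mul_assoc]
        _ = _ := by rw [h1]; simp only [Matrix.mul_assoc, Matrix.mul_one]
    rw [this, Matrix.trace_mul_comm, ← Matrix.mul_assoc, star_mul_self', Matrix.one_mul]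
  exact_mod_cast h

theorem act_norm (g : Matrix.specialUnitaryGroup (Fin N) ℂ) (x : Cfg N) :
    ‖b.act g x‖ = ‖x‖ := by
  have h := act_inner b g x x
  rw [real_inner_self_eq_norm_sq, real_inner_self_eq_norm_sq] at h
  nlinarith [norm_nonneg (b.act g x), norm_nonneg x, sq_nonneg (‖b.act g x‖ - ‖x‖)]

end Crest.Agent.R330.SlA314
end
end

-- ▼ part R330/SlB_314

/-!
Row 330, S5b (slice theorem), part B: the bracket, the quadratic estimate (QUAD) for orbits,
the nearest point property and (STAR).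
-/

set_option autoImplicit false
noncomputable section

open Matrix
open Crest.MathPhysics.MatrixQM
open Crest.Agent.R330.SlA314

namespace Crest.Agent.R330.SlB314

variable {N : ℕ} (b : ColorBasis N)

/-- colour bracket `[u,v]^A = f_ABC u^B v^C` -/
def br (u v : Fin (N ^ 2 - 1) → ℝ) : Fin (N ^ 2 - 1) → ℝ :=
  fun A => ∑ B, ∑ C, b.structConst A B C * u B * v C

/-- infinitesimal gauge transformation `[om, x]_i = [om, x_i]` -/
def brx (om : Fin (N ^ 2 - 1) → ℝ) (x : Cfg N) : Cfg N :=
  WithLp.toLp 2 fun iA => br b om (fun A => x (iA.1, A)) iA.2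

theorem structConst_eq (A B C : Fin (N ^ 2 - 1)) :
    ((b.structConst A B C : ℝ) : ℂ) =
      -Complex.I * ((b.T A * b.T B - b.T B * b.T A) * b.T C).trace := by
  unfold ColorBasis.structConst
  apply Complex.conj_eq_iff_re.1
  rw [map_mul, map_neg, Complex.conj_I, starRingEnd_apply, ← Matrix.trace_conjTranspose]
  simp only [Matrix.conjTranspose_mul, Matrix.conjTranspose_sub, (b.herm A).eq, (b.herm B).eq,
    (b.herm C).eq]
  have : (b.T C * (b.T B * b.T A - b.T A * b.T B)).trace =
      - ((b.T A * b.T B - b.T B * b.T A) * b.T C).trace := by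
    rw [Matrix.trace_mul_comm, ← Matrix.trace_neg, ← Matrix.neg_mul, neg_sub]
  rw [this]
  ring

theorem structConst_cyc (A B C : Fin (N ^ 2 - 1)) :
    b.structConst A B C = b.structConst B C A := by
  have h : ((b.structConst A B C : ℝ) : ℂ) = ((b.structConst B C A : ℝ) : ℂ) := by
    rw [structConst_eq, structConst_eq]
    congr 1
    simp only [Matrix.sub_mul, trace_sub]
    rw [Matrix.trace_mul_cycle (b.T A) (b.T B) (b.T C),
      Matrix.trace_mul_cycle (b.T C) (b.T A) (b.T B),
      Matrix.trace_mul_cycle (b.T B) (b.T A) (b.T C)]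
  exact_mod_cast h

theorem cm_br (u v : Fin (N ^ 2 - 1) → ℝ) :
    cm b (br b u v) = -Complex.I • (cm b u * cm b v - cm b v * cm b u) := by
  have htr : (-Complex.I • (cm b u * cm b v - cm b v * cm b u)).trace = 0 := by
    rw [trace_smul, trace_sub, Matrix.trace_mul_comm, sub_self, smul_zero]
  rw [complete b _ htr]
  conv_lhs => rw [cm]
  refine Finset.sum_congr rfl fun A _ => ?_
  congr 1
  unfold br
  push_cast
  have h1 : (b.T A * (-Complex.I • (cm b u * cm b v - cm b v * cm b u))).trace =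
      ∑ B, ∑ C, (-Complex.I * ((b.T B * b.T C - b.T C * b.T B) * b.T A).trace) * u B * v C := by
    rw [mul_smul_comm, trace_smul, Matrix.trace_mul_comm]
    unfold cm
    have h2 : (∑ B, (u B : ℂ) • b.T B) * (∑ C, (v C : ℂ) • b.T C) -
        (∑ C, (v C : ℂ) • b.T C) * (∑ B, (u B : ℂ) • b.T B) =
        ∑ B, ∑ C, ((u B : ℂ) * (v C : ℂ)) • (b.T B * b.T C - b.T C * b.T B) := by
      rw [Finset.sum_mul, Finset.sum_mul]
      simp only [Finset.mul_sum, smul_mul_smul_comm, smul_sub, Finset.sum_sub_distrib]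
      congr 1
      rw [Finset.sum_comm]
      refine Finset.sum_congr rfl fun B _ => Finset.sum_congr rfl fun C _ => ?_
      rw [mul_comm]
    rw [h2]
    simp only [Finset.sum_mul, trace_sum, smul_mul_assoc, trace_smul, smul_eq_mul,
      Finset.mul_sum]
    refine Finset.sum_congr rfl fun B _ => Finset.sum_congr rfl fun C _ => ?_
    ring
  rw [h1]
  refine Finset.sum_congr rfl fun B _ => Finset.sum_congr rfl fun C _ => ?_
  rw [structConst_cyc, structConst_eq]

theorem mat_brx (om : Fin (N ^ 2 - 1) → ℝ) (x : Cfg N) (i : Fin 9) :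
    mat b (brx b om x) i = -Complex.I • (cm b om * mat b x i - mat b x i * cm b om) := by
  rw [mat_eq, mat_eq, ← cm_br]
  rfl

theorem brx_add_left (u v : Fin (N ^ 2 - 1) → ℝ) (x : Cfg N) :
    brx b (u + v) x = brx b u x + brx b v x := by
  apply mat_inj b; intro i
  rw [mat_add, mat_brx, mat_brx, mat_brx, cm_add, ← smul_add]
  congr 1
  noncomm_ring

theorem brx_smul_left (t : ℝ) (v : Fin (N ^ 2 - 1) → ℝ) (x : Cfg N) :
    brx b (t • v) x = t • brx b v x := by
  apply mat_inj b; intro i
  rw [mat_smul, mat_brx, mat_brx, cm_smul, smul_mul_assoc, mul_smul_comm, ← smul_sub,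
    smul_comm]

theorem brx_add_right (u : Fin (N ^ 2 - 1) → ℝ) (x y : Cfg N) :
    brx b u (x + y) = brx b u x + brx b u y := by
  apply mat_inj b; intro i
  rw [mat_add, mat_brx, mat_brx, mat_brx, mat_add, ← smul_add]
  congr 1
  noncomm_ring

theorem brx_smul_right (t : ℝ) (v : Fin (N ^ 2 - 1) → ℝ) (x : Cfg N) :
    brx b v (t • x) = t • brx b v x := by
  apply mat_inj b; intro i
  rw [mat_smul, mat_brx, mat_brx, mat_smul, smul_mul_assoc, mul_smul_comm, ← smul_sub,
    smul_comm]

/-- `om ↦ [om, x]` as a linear map -/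
def adL (x : Cfg N) : (Fin (N ^ 2 - 1) → ℝ) →ₗ[ℝ] Cfg N where
  toFun om := brx b om x
  map_add' u v := brx_add_left b u v x
  map_smul' t v := brx_smul_left b t v x

@[simp] theorem adL_apply (x : Cfg N) (om : Fin (N ^ 2 - 1) → ℝ) : adL b x om = brx b om x := rfl

/-- tangent space of the orbit -/
def Tan (c : Cfg N) : Submodule ℝ (Cfg N) := LinearMap.range (adL b c)

/-- normal space of the orbit -/
def Nor (c : Cfg N) : Submodule ℝ (Cfg N) := (Tan b c)ᗮ

theorem mem_Nor {c y : Cfg N} :
    y ∈ Nor b c ↔ ∀ om, inner ℝ (brx b om c) y = (0 : ℝ) := by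
  unfold Nor Tan
  rw [Submodule.mem_orthogonal]
  constructor
  · intro h om
    exact h _ ⟨om, rfl⟩
  · rintro h _ ⟨om, rfl⟩
    exact h om

end Crest.Agent.R330.SlB314
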