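import Crest.Agent.R330.Blk_304
import Crest.Agent.R330.SlB_314
import Crest.Agent.R330.Clus_839
import Crest.Agent.R330.AcomV_302
import Crest.Agent.R330.LS_839
import Crest.Agent.R330.Cone_741

-- ▼ part R330/Diag_304
section

/-!
# Row 330, leaf S6A (helper304): diagonal configurations, block algebra, the gap

`p : Fin N → EuclideanSpace ℝ (Fin 9)`, `Σ_a p_a = 0`; `dg b p` = configuration with the diagonal
matrices `diag(p_a · i)`.

* `mat_dg`, `norm_dg_sq`, `exists_dg` : every commuting configuration is `act g x = dg b p`.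
* `brx_dg` : entries of `[om, dg p]`; `brx_dg_eq_zero` : the kernel `k`.
* `norm_brx_sq` : `‖[om, dg p]‖² = Σ |om_{aa'}|² ‖p_{a'} - p_a‖²`; `gap` : separation gap.
* `mem_Nor_dg` : the normal space entrywise.
* `act_dg` : stabiliser.
* `colAlg b` : 839's `ColAlg` on colour space, `BrBound 2`; `V4_low` : the literal lower bound of the
  quartic potential in the slice, uniform in `p`.
-/

set_option autoImplicit false
set_option linter.unusedSectionVars false

open MeasureTheory Crest.MathPhysics.MatrixQM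
open scoped BigOperators Matrix InnerProductSpace
open Crest.Agent.R330.SlB314 (br brx Tan Nor)

noncomputable section

namespace Crest.Agent.R330.Diag304

open Blk304 (hm cf hs)

variable {N : ℕ} (b : ColorBasis N)

theorem mat_eq (x : Cfg N) (i : Fin 9) : SlA314.mat b x i = Blk304.mat b x i := rfl

theorem cm_eq (u : Fin (N ^ 2 - 1) → ℝ) : SlA314.cm b u = hm b u := rfl

/-- the diagonal configuration -/
def dg (p : Fin N → EuclideanSpace ℝ (Fin 9)) : Cfg N :=
  Blk304.mk b (fun i => Matrix.diagonal fun a => ((p a i : ℝ) : ℂ))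

theorem dg_herm (p : Fin N → EuclideanSpace ℝ (Fin 9)) (i : Fin 9) :
    (Matrix.diagonal fun a => ((p a i : ℝ) : ℂ)).IsHermitian := by
  rw [Matrix.IsHermitian, Matrix.diagonal_conjTranspose]
  congr 1
  funext a
  simp

theorem mat_dg {p : Fin N → EuclideanSpace ℝ (Fin 9)} (hp : ∑ a, p a = 0) (i : Fin 9) :
    Blk304.mat b (dg b p) i = Matrix.diagonal fun a => ((p a i : ℝ) : ℂ) := by
  refine Blk304.mat_mk b (dg_herm p) (fun i => ?_) i
  rw [Matrix.trace_diagonal, ← Complex.ofReal_sum]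
  have h := congrArg (fun v : EuclideanSpace ℝ (Fin 9) => v i) hp
  simp only [PiLp.zero_apply] at h
  rw [← Complex.ofReal_zero, ← h]
  congr 1
  simp

theorem dg_eq_diagCfg (p : Fin N → EuclideanSpace ℝ (Fin 9)) :
    dg b p = AcomV302.diagCfg b (fun i a => p a i) := rfl


theorem norm_dg_sq {p : Fin N → EuclideanSpace ℝ (Fin 9)} (hp : ∑ a, p a = 0) :
    ‖dg b p‖ ^ 2 = ∑ a, ‖p a‖ ^ 2 := by
  rw [Blk304.norm_sq_eq b]
  have h : ∀ i, hs (Blk304.mat b (dg b p) i) = ∑ a, (p a i) ^ 2 := by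
    intro i
    rw [mat_dg b hp]
    unfold Blk304.hs
    refine Finset.sum_congr rfl fun a _ => ?_
    rw [Finset.sum_eq_single a]
    · simp
    · intro a' _ h
      rw [Matrix.diagonal_apply_ne _ (Ne.symm h)]
      simp
    · intro h; exact absurd (Finset.mem_univ _) h
  simp only [h]
  rw [Finset.sum_comm]
  refine Finset.sum_congr rfl fun a _ => ?_
  rw [EuclideanSpace.norm_sq_eq]
  simp

/-! ## Entries of brackets -/

theorem mat_brx_dg {p : Fin N → EuclideanSpace ℝ (Fin 9)} (hp : ∑ a, p a = 0)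
    (om : Fin (N ^ 2 - 1) → ℝ) (i : Fin 9) (a a' : Fin N) :
    Blk304.mat b (brx b om (dg b p)) i a a' =
      -Complex.I * hm b om a a' * (((p a' i - p a i : ℝ)) : ℂ) := by
  have h := SlB314.mat_brx b om (dg b p) i
  rw [mat_eq, mat_eq, cm_eq, mat_dg b hp] at h
  rw [h]
  simp only [Matrix.smul_apply, Matrix.sub_apply, Matrix.mul_diagonal, Matrix.diagonal_mul,
    smul_eq_mul]
  push_cast
  ring

theorem norm_brx_sq {p : Fin N → EuclideanSpace ℝ (Fin 9)} (hp : ∑ a, p a = 0)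
    (om : Fin (N ^ 2 - 1) → ℝ) :
    ‖brx b om (dg b p)‖ ^ 2 = ∑ a, ∑ a', ‖hm b om a a'‖ ^ 2 * ‖p a' - p a‖ ^ 2 := by
  rw [Blk304.norm_sq_eq b]
  unfold Blk304.hs
  rw [Finset.sum_comm]
  refine Finset.sum_congr rfl fun a _ => ?_
  rw [Finset.sum_comm]
  refine Finset.sum_congr rfl fun a' _ => ?_
  rw [EuclideanSpace.norm_sq_eq, Finset.mul_sum]
  refine Finset.sum_congr rfl fun i _ => ?_
  rw [mat_brx_dg b hp, norm_mul, norm_mul, norm_neg, Complex.norm_I, Complex.norm_real, mul_pow,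
    mul_pow]
  simp

theorem brx_dg_eq_zero {p : Fin N → EuclideanSpace ℝ (Fin 9)} (hp : ∑ a, p a = 0)
    (om : Fin (N ^ 2 - 1) → ℝ) :
    brx b om (dg b p) = 0 ↔ ∀ a a', p a ≠ p a' → hm b om a a' = 0 := by
  constructor
  · intro h a a' hne
    have h1 := norm_brx_sq b hp om
    rw [h, norm_zero, zero_pow two_ne_zero] at h1
    have h2 := (Finset.sum_eq_zero_iff_of_nonneg (fun a _ => Finset.sum_nonneg fun a' _ =>
      by positivity)).1 h1.symm a (Finset.mem_univ _)
    have h3 := (Finset.sum_eq_zero_iff_of_nonneg (fun a' _ => by positivity)).1 h2 a'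
      (Finset.mem_univ _)
    rcases mul_eq_zero.1 h3 with h4 | h4
    · simpa using h4
    · exfalso
      apply hne
      have : ‖p a' - p a‖ = 0 := by simpa using h4
      exact (sub_eq_zero.1 (norm_eq_zero.1 this)).symm
  · intro h
    have h1 := norm_brx_sq b hp om
    have h2 : ‖brx b om (dg b p)‖ ^ 2 = 0 := by
      rw [h1]
      refine Finset.sum_eq_zero fun a _ => Finset.sum_eq_zero fun a' _ => ?_
      by_cases hq : p a = p a'
      · rw [hq, sub_self, norm_zero]; ring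
      · rw [h a a' hq, norm_zero]; ring
    simpa using h2

/-! ## Block projection -/

/-- block part of a matrix -/
def blk (p : Fin N → EuclideanSpace ℝ (Fin 9)) (M : Matrix (Fin N) (Fin N) ℂ) :
    Matrix (Fin N) (Fin N) ℂ := fun a a' => by
  classical exact if p a = p a' then M a a' else 0

theorem blk_of_eq {p : Fin N → EuclideanSpace ℝ (Fin 9)} {M : Matrix (Fin N) (Fin N) ℂ}
    {a a' : Fin N} (h : p a = p a') : blk p M a a' = M a a' := by
  unfold blk; rw [if_pos h]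

theorem blk_of_ne {p : Fin N → EuclideanSpace ℝ (Fin 9)} {M : Matrix (Fin N) (Fin N) ℂ}
    {a a' : Fin N} (h : p a ≠ p a') : blk p M a a' = 0 := by
  unfold blk; rw [if_neg h]

theorem blk_herm {p : Fin N → EuclideanSpace ℝ (Fin 9)} {M : Matrix (Fin N) (Fin N) ℂ}
    (hM : M.IsHermitian) : (blk p M).IsHermitian := by
  ext a a'
  rw [Matrix.conjTranspose_apply]
  by_cases h : p a = p a'
  · rw [blk_of_eq h, blk_of_eq h.symm]
    exact congrFun (congrFun hM a) a'
  · rw [blk_of_ne h, blk_of_ne (Ne.symm h), star_zero]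

theorem blk_trace {p : Fin N → EuclideanSpace ℝ (Fin 9)} (M : Matrix (Fin N) (Fin N) ℂ) :
    (blk p M).trace = M.trace := by
  unfold Matrix.trace
  refine Finset.sum_congr rfl fun a _ => ?_
  rw [Matrix.diag_apply, Matrix.diag_apply, blk_of_eq rfl]

/-- block projection of a colour vector -/
def pk (p : Fin N → EuclideanSpace ℝ (Fin 9)) (u : Fin (N ^ 2 - 1) → ℝ) :
    Fin (N ^ 2 - 1) → ℝ := cf b (blk p (hm b u))

theorem hm_pk (p : Fin N → EuclideanSpace ℝ (Fin 9)) (u : Fin (N ^ 2 - 1) → ℝ) :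
    hm b (pk b p u) = blk p (hm b u) :=
  Blk304.hm_cf b (blk_herm (Blk304.hm_herm b u)) (by rw [blk_trace, Blk304.hm_trace])




/-- the block projection is symmetric -/
theorem pk_symm (p : Fin N → EuclideanSpace ℝ (Fin 9)) (u v : Fin (N ^ 2 - 1) → ℝ) :
    ∑ A, pk b p u A * v A = ∑ A, u A * pk b p v A := by
  rw [Blk304.sum_mul_eq b, Blk304.sum_mul_eq b, hm_pk, hm_pk]
  refine Finset.sum_congr rfl fun a _ => Finset.sum_congr rfl fun a' _ => ?_
  by_cases h : p a = p a'
  · rw [blk_of_eq h, blk_of_eq h]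
  · rw [blk_of_ne h, blk_of_ne h]
    simp

theorem pk_pk (p : Fin N → EuclideanSpace ℝ (Fin 9)) (u : Fin (N ^ 2 - 1) → ℝ) :
    pk b p (pk b p u) = pk b p u := by
  apply Blk304.hm_inj b
  rw [hm_pk, hm_pk]
  ext a a'
  by_cases h : p a = p a'
  · rw [blk_of_eq h]
  · rw [blk_of_ne h, blk_of_ne h]

theorem pk_eq_self_iff (p : Fin N → EuclideanSpace ℝ (Fin 9)) (u : Fin (N ^ 2 - 1) → ℝ) :
    pk b p u = u ↔ ∀ a a', p a ≠ p a' → hm b u a a' = 0 := by
  constructor
  · intro h a a' hne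
    rw [← h, hm_pk, blk_of_ne hne]
  · intro h
    apply Blk304.hm_inj b
    rw [hm_pk]
    ext a a'
    by_cases hq : p a = p a'
    · rw [blk_of_eq hq]
    · rw [blk_of_ne hq, h a a' hq]

theorem pk_eq_zero_iff (p : Fin N → EuclideanSpace ℝ (Fin 9)) (u : Fin (N ^ 2 - 1) → ℝ) :
    pk b p u = 0 ↔ ∀ a a', p a = p a' → hm b u a a' = 0 := by
  constructor
  · intro h a a' heq
    have h1 := hm_pk b p u
    rw [h, Blk304.hm_zero] at h1
    have := congrFun (congrFun h1 a) a'
    rw [blk_of_eq heq] at this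
    exact this.symm
  · intro h
    apply Blk304.hm_inj b
    rw [hm_pk, Blk304.hm_zero]
    ext a a'
    by_cases hq : p a = p a'
    · rw [blk_of_eq hq, h a a' hq]; rfl
    · rw [blk_of_ne hq]; rfl

/-! ## The normal space -/

theorem inner_brx_dg {p : Fin N → EuclideanSpace ℝ (Fin 9)} (hp : ∑ a, p a = 0)
    (om : Fin (N ^ 2 - 1) → ℝ) (y : Cfg N) :
    ⟪brx b om (dg b p), y⟫_ℝ = ∑ a, ∑ a', (-Complex.I * hm b om a a' *
      (starRingEnd ℂ) (∑ i, ((p a' i - p a i : ℝ) : ℂ) * Blk304.mat b y i a a')).re := by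
  rw [Blk304.inner_eq b, Finset.sum_comm]
  refine Finset.sum_congr rfl fun a _ => ?_
  rw [Finset.sum_comm]
  refine Finset.sum_congr rfl fun a' _ => ?_
  rw [map_sum, Finset.mul_sum, Complex.re_sum]
  refine Finset.sum_congr rfl fun i _ => ?_
  rw [mat_brx_dg b hp, map_mul, Complex.conj_ofReal]
  congr 1
  ring

theorem mem_Nor_dg {p : Fin N → EuclideanSpace ℝ (Fin 9)} (hp : ∑ a, p a = 0) (y : Cfg N) :
    y ∈ Nor b (dg b p) ↔
      ∀ a a', ∑ i, ((p a' i - p a i : ℝ) : ℂ) * Blk304.mat b y i a a' = 0 := by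
  rw [SlB314.mem_Nor]
  constructor
  · intro h
    set S : Matrix (Fin N) (Fin N) ℂ := fun a a' =>
      ∑ i, ((p a' i - p a i : ℝ) : ℂ) * Blk304.mat b y i a a' with hS
    have hSH : (Complex.I • S).IsHermitian := by
      ext a a'
      rw [Matrix.conjTranspose_apply, Matrix.smul_apply, Matrix.smul_apply, smul_eq_mul,
        smul_eq_mul, star_mul', Complex.star_def, Complex.conj_I]
      have : (starRingEnd ℂ) (S a' a) = - S a a' := by
        simp only [hS, map_sum, map_mul, Complex.conj_ofReal, ← Finset.sum_neg_distrib]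
        refine Finset.sum_congr rfl fun i _ => ?_
        have h1 : (starRingEnd ℂ) (Blk304.mat b y i a' a) = Blk304.mat b y i a a' :=
          congrFun (congrFun (Blk304.mat_herm b y i) a) a'
        rw [h1]
        push_cast
        ring
      rw [this]
      ring
    have hS0 : (Complex.I • S).trace = 0 := by
      rw [Matrix.trace_smul]
      have : S.trace = 0 := by
        unfold Matrix.trace
        refine Finset.sum_eq_zero fun a _ => ?_
        simp [hS, Matrix.diag_apply]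
      rw [this, smul_zero]
    have h1 := h (cf b (Complex.I • S))
    rw [inner_brx_dg b hp, Blk304.hm_cf b hSH hS0] at h1
    have h2 : ∀ a a', (-Complex.I * (Complex.I • S) a a' * (starRingEnd ℂ) (S a a')).re =
        ‖S a a'‖ ^ 2 := by
      intro a a'
      rw [Matrix.smul_apply, smul_eq_mul, ← mul_assoc, neg_mul, Complex.I_mul_I, neg_neg, one_mul,
        Complex.mul_conj, Complex.ofReal_re, Complex.normSq_eq_norm_sq]
    have h3 : ∑ a, ∑ a', ‖S a a'‖ ^ 2 = 0 := by
      rw [← h1]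
      exact Finset.sum_congr rfl fun a _ => Finset.sum_congr rfl fun a' _ => (h2 a a').symm
    intro a a'
    have h4 := (Finset.sum_eq_zero_iff_of_nonneg (fun a _ => Finset.sum_nonneg fun a' _ =>
      sq_nonneg _)).1 h3 a (Finset.mem_univ _)
    have h5 := (Finset.sum_eq_zero_iff_of_nonneg (fun a' _ => sq_nonneg _)).1 h4 a'
      (Finset.mem_univ _)
    have h6 : S a a' = 0 := norm_eq_zero.1 (pow_eq_zero_iff two_ne_zero |>.1 h5)
    exact h6
  · intro h om
    rw [inner_brx_dg b hp]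
    refine Finset.sum_eq_zero fun a _ => Finset.sum_eq_zero fun a' _ => ?_
    rw [h a a', map_zero, mul_zero, Complex.zero_re]

/-! ## The stabiliser -/



/-! ## Commuting configurations -/


/-- two clusters: some pair of points is at distance `≥ ‖x‖ / √N`. -/
theorem exists_far {p : Fin N → EuclideanSpace ℝ (Fin 9)} (hp : ∑ a, p a = 0) (hN : 0 < N) :
    ∃ a a', ‖dg b p‖ ≤ Real.sqrt N * ‖p a - p a'‖ := by
  classical
  haveI : Nonempty (Fin N) := ⟨⟨0, hN⟩⟩
  obtain ⟨a, -, ha⟩ := Finset.exists_max_image Finset.univ (fun a : Fin N => ‖p a‖)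
    Finset.univ_nonempty
  have h1 : ‖dg b p‖ ≤ Real.sqrt N * ‖p a‖ := by
    have h2 : ‖dg b p‖ ^ 2 ≤ (Real.sqrt N * ‖p a‖) ^ 2 := by
      rw [norm_dg_sq b hp, mul_pow, Real.sq_sqrt (by positivity)]
      calc ∑ c, ‖p c‖ ^ 2 ≤ ∑ _c : Fin N, ‖p a‖ ^ 2 :=
            Finset.sum_le_sum fun c _ => by
              have := ha c (Finset.mem_univ _)
              gcongr
        _ = N * ‖p a‖ ^ 2 := by simp
    exact (pow_le_pow_iff_left₀ (norm_nonneg _) (by positivity) two_ne_zero).1 h2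
  obtain ⟨a', -, ha'⟩ := Finset.exists_max_image Finset.univ (fun a' : Fin N => ‖p a - p a'‖)
    Finset.univ_nonempty
  refine ⟨a, a', h1.trans ?_⟩
  have h3 : (N : ℝ) • p a = ∑ c, (p a - p c) := by
    rw [Finset.sum_sub_distrib, hp, sub_zero, Finset.sum_const, Finset.card_univ, Fintype.card_fin,
      ← Nat.cast_smul_eq_nsmul ℝ]
  have h4 : (N : ℝ) * ‖p a‖ ≤ N * ‖p a - p a'‖ := by
    calc (N : ℝ) * ‖p a‖ = ‖(N : ℝ) • p a‖ := by
          rw [norm_smul, Real.norm_eq_abs, abs_of_nonneg (by positivity)]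
      _ ≤ ∑ c, ‖p a - p c‖ := by rw [h3]; exact norm_sum_le _ _
      _ ≤ ∑ _c : Fin N, ‖p a - p a'‖ := Finset.sum_le_sum fun c _ => ha' c (Finset.mem_univ _)
      _ = N * ‖p a - p a'‖ := by simp
  have hN' : (0 : ℝ) < N := by exact_mod_cast hN
  exact mul_le_mul_of_nonneg_left (le_of_mul_le_mul_left h4 hN') (Real.sqrt_nonneg _)

theorem exists_ne {p : Fin N → EuclideanSpace ℝ (Fin 9)} (hp : ∑ a, p a = 0) (hN : 0 < N)
    (h : dg b p ≠ 0) : ∃ a a', p a ≠ p a' := by
  obtain ⟨a, a', h1⟩ := exists_far b hp hN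
  refine ⟨a, a', fun hq => h ?_⟩
  rw [hq, sub_self, norm_zero, mul_zero] at h1
  exact norm_eq_zero.1 (le_antisymm h1 (norm_nonneg _))

/-- minimal separation at least `r` -/
def Sep (p : Fin N → EuclideanSpace ℝ (Fin 9)) (r : ℝ) : Prop :=
  ∀ a a', p a ≠ p a' → r ≤ ‖p a - p a'‖


/-- the gap of the adjoint action is the separation -/
theorem gap {p : Fin N → EuclideanSpace ℝ (Fin 9)} (hp : ∑ a, p a = 0) {r : ℝ} (hr : 0 ≤ r)
    (hs : Sep p r) {om : Fin (N ^ 2 - 1) → ℝ} (hom : pk b p om = 0) :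
    r ^ 2 * ∑ A, om A ^ 2 ≤ ‖brx b om (dg b p)‖ ^ 2 := by
  rw [norm_brx_sq b hp, ← Blk304.hs_hm b]
  unfold Blk304.hs
  rw [Finset.mul_sum]
  refine Finset.sum_le_sum fun a _ => ?_
  rw [Finset.mul_sum]
  refine Finset.sum_le_sum fun a' _ => ?_
  by_cases hq : p a = p a'
  · rw [(pk_eq_zero_iff b p om).1 hom a a' hq, norm_zero]
    ring_nf
    exact le_refl _
  · rw [mul_comm]
    have := hs a a' hq
    rw [norm_sub_rev] at this
    gcongr

end Crest.Agent.R330.Diag304
end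
end

-- ▼ part R330/DiagB_304

/-!
# Row 330, leaf S6A/S6D, part 2 (helper304): the literal colour algebra

* `colAlg b : ColAlg (Colg N)` : 839's abstract colour algebra, literally; `brBound` : constant `2`.
* `row x i`, `mem_kk_row`, `mem_perp_row` : the commutant and its complement for `dg b p`.
* `gap_colAlg`, `gapAt` : the gap is the separation of the points.
* `V4_row` : the abstract quartic potential is `Cone741.V4`.
* `Blk b p`, `Zt b p` : block configurations, transverse off-diagonal configurations; `Zt` ⊆ `Nor`,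
  `Nor = Blk + Zt`.
* `V4_low` : `V4 (dg p + y + z) ≥ 1/2 V4 y + r²/8 ‖z‖²` for `56 (‖y‖² + ‖z‖²) ≤ r²`.
-/

set_option autoImplicit false
set_option linter.unusedSectionVars false

open MeasureTheory Crest.MathPhysics.MatrixQM
open scoped BigOperators Matrix InnerProductSpace
open Crest.Agent.R330.SlB314 (br brx Tan Nor)
open Crest.Agent.R330.LS839 (Colg actB)
open Crest.Agent.R330.Clus839

noncomputable section

namespace Crest.Agent.R330.Diag304

open Blk304 (hm cf hs)

variable {N : ℕ} (b : ColorBasis N)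

theorem hm_br (u v : Fin (N ^ 2 - 1) → ℝ) :
    hm b (br b u v) = (-Complex.I) • (hm b u * hm b v - hm b v * hm b u) :=
  SlB314.cm_br b u v

theorem br_add_left (u u' v : Fin (N ^ 2 - 1) → ℝ) : br b (u + u') v = br b u v + br b u' v := by
  apply Blk304.hm_inj b
  rw [Blk304.hm_add, hm_br, hm_br, hm_br, Blk304.hm_add, ← smul_add]
  congr 1
  noncomm_ring

theorem br_smul_left (t : ℝ) (u v : Fin (N ^ 2 - 1) → ℝ) : br b (t • u) v = t • br b u v := by
  apply Blk304.hm_inj b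
  rw [Blk304.hm_smul, hm_br, hm_br, Blk304.hm_smul, smul_mul_assoc, mul_smul_comm, ← smul_sub,
    smul_comm]

theorem br_anti (u v : Fin (N ^ 2 - 1) → ℝ) : br b u v = - br b v u := by
  apply Blk304.hm_inj b
  rw [Blk304.hm_neg, hm_br, hm_br, ← smul_neg, neg_sub]

theorem br_add_right (u v v' : Fin (N ^ 2 - 1) → ℝ) : br b u (v + v') = br b u v + br b u v' := by
  rw [br_anti, br_add_left, br_anti b v u, br_anti b v' u]
  abel

theorem br_smul_right (t : ℝ) (u v : Fin (N ^ 2 - 1) → ℝ) : br b u (t • v) = t • br b u v := by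
  rw [br_anti, br_smul_left, br_anti b v u, smul_neg, neg_neg]

theorem br_jac (u v w : Fin (N ^ 2 - 1) → ℝ) :
    br b u (br b v w) = br b (br b u v) w + br b v (br b u w) := by
  apply Blk304.hm_inj b
  simp only [Blk304.hm_add, hm_br, smul_mul_assoc, mul_smul_comm, ← smul_sub, ← smul_add]
  congr 2
  noncomm_ring

theorem sum_mul_eq_trace (u v : Fin (N ^ 2 - 1) → ℝ) :
    ((∑ A, u A * v A : ℝ) : ℂ) = (hm b u * hm b v).trace :=
  (Blk304.trace_hm_mul_hm b u v).symm

theorem br_inv (u v w : Fin (N ^ 2 - 1) → ℝ) :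
    ∑ A, br b u v A * w A = ∑ A, u A * br b v w A := by
  apply Complex.ofReal_injective
  rw [sum_mul_eq_trace b, sum_mul_eq_trace b, hm_br, hm_br, smul_mul_assoc, mul_smul_comm,
    Matrix.trace_smul, Matrix.trace_smul]
  congr 1
  rw [Matrix.sub_mul, Matrix.mul_sub, Matrix.trace_sub, Matrix.trace_sub, Matrix.mul_assoc]
  congr 1
  rw [Matrix.mul_assoc, Matrix.trace_mul_comm (hm b v), Matrix.mul_assoc]

theorem inner_colg (u v : Colg N) : ⟪u, v⟫_ℝ = ∑ A, u A * v A := by
  rw [PiLp.inner_apply]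
  refine Finset.sum_congr rfl fun A _ => ?_
  simp [mul_comm]

theorem norm_colg_sq (u : Colg N) : ‖u‖ ^ 2 = hs (hm b u.ofLp) := by
  rw [Blk304.hs_hm, EuclideanSpace.norm_sq_eq]
  simp

/-- the colour algebra -/
def colAlg : ColAlg (Colg N) where
  br := LinearMap.mk₂ ℝ (fun u v => WithLp.toLp 2 (br b u.ofLp v.ofLp))
    (fun u u' v => by rw [WithLp.ofLp_add, br_add_left]; rfl)
    (fun t u v => by rw [WithLp.ofLp_smul, br_smul_left]; rfl)
    (fun u v v' => by rw [WithLp.ofLp_add, br_add_right]; rfl)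
    (fun t u v => by rw [WithLp.ofLp_smul, br_smul_right]; rfl)
  anti u v := by
    rw [LinearMap.mk₂_apply, LinearMap.mk₂_apply, br_anti]
    rfl
  jac u v w := by
    simp only [LinearMap.mk₂_apply]
    rw [br_jac]
    rfl
  inv u v w := by
    rw [inner_colg, inner_colg]
    exact br_inv b u.ofLp v.ofLp w.ofLp

theorem colAlg_br (u v : Colg N) : (colAlg b).br u v = WithLp.toLp 2 (br b u.ofLp v.ofLp) := rfl

/-- Cauchy-Schwarz for the Hilbert-Schmidt norm -/
theorem hs_mul_le (X Y : Matrix (Fin N) (Fin N) ℂ) : hs (X * Y) ≤ hs X * hs Y := by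
  unfold Blk304.hs
  rw [Finset.sum_mul]
  refine Finset.sum_le_sum fun a _ => ?_
  have h1 : ∀ c, ‖(X * Y) a c‖ ^ 2 ≤ (∑ k, ‖X a k‖ ^ 2) * ∑ k, ‖Y k c‖ ^ 2 := by
    intro c
    rw [Matrix.mul_apply]
    have h2 : ‖∑ k, X a k * Y k c‖ ≤ ∑ k, ‖X a k‖ * ‖Y k c‖ :=
      (norm_sum_le _ _).trans (Finset.sum_le_sum fun k _ => by rw [norm_mul])
    calc ‖∑ k, X a k * Y k c‖ ^ 2 ≤ (∑ k, ‖X a k‖ * ‖Y k c‖) ^ 2 := by gcongr
      _ ≤ _ := Finset.sum_mul_sq_le_sq_mul_sq _ _ _
  calc ∑ c, ‖(X * Y) a c‖ ^ 2 ≤ ∑ c, (∑ k, ‖X a k‖ ^ 2) * ∑ k, ‖Y k c‖ ^ 2 :=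
        Finset.sum_le_sum fun c _ => h1 c
    _ = (∑ k, ‖X a k‖ ^ 2) * ∑ k, ∑ c, ‖Y k c‖ ^ 2 := by
        rw [← Finset.mul_sum, Finset.sum_comm]

theorem hs_sub_le (X Y : Matrix (Fin N) (Fin N) ℂ) : hs (X - Y) ≤ 2 * hs X + 2 * hs Y := by
  unfold Blk304.hs
  rw [Finset.mul_sum, Finset.mul_sum, ← Finset.sum_add_distrib]
  refine Finset.sum_le_sum fun a _ => ?_
  rw [Finset.mul_sum, Finset.mul_sum, ← Finset.sum_add_distrib]
  refine Finset.sum_le_sum fun c _ => ?_
  rw [Matrix.sub_apply]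
  have := norm_sub_le (X a c) (Y a c)
  have h0 := norm_nonneg (X a c - Y a c)
  nlinarith [sq_nonneg (‖X a c‖ - ‖Y a c‖), norm_nonneg (X a c), norm_nonneg (Y a c)]

theorem brBound : (colAlg b).BrBound 2 := by
  intro u v
  have h1 : ‖(colAlg b).br u v‖ ^ 2 ≤ (2 * ‖u‖ * ‖v‖) ^ 2 := by
    rw [norm_colg_sq b, colAlg_br, hm_br, Blk304.hs_neg_I_smul, mul_pow, mul_pow, norm_colg_sq b u,
      norm_colg_sq b v]
    have h2 := hs_sub_le (hm b u.ofLp * hm b v.ofLp) (hm b v.ofLp * hm b u.ofLp)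
    have h3 := hs_mul_le (hm b u.ofLp) (hm b v.ofLp)
    have h4 := hs_mul_le (hm b v.ofLp) (hm b u.ofLp)
    nlinarith
  exact (pow_le_pow_iff_left₀ (norm_nonneg _) (by positivity) two_ne_zero).1 h1

/-! ## Rows -/

/-- the `i`-th colour vector of a configuration -/
def row (x : Cfg N) (i : Fin 9) : Colg N := WithLp.toLp 2 (fun A => x (i, A))

theorem mat_row (x : Cfg N) (i : Fin 9) : Blk304.mat b x i = hm b (row x i).ofLp := rfl


theorem row_brx (om : Fin (N ^ 2 - 1) → ℝ) (x : Cfg N) (i : Fin 9) :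
    row (brx b om x) i = (colAlg b).br (WithLp.toLp 2 om) (row x i) := rfl

theorem V4_row (x : Cfg N) : (colAlg b).V4 (row x) = Cone741.V4 b x := by
  unfold ColAlg.V4 Cone741.V4
  congr 1
  refine Finset.sum_congr rfl fun i _ => Finset.sum_congr rfl fun j _ => ?_
  rw [EuclideanSpace.norm_sq_eq]
  refine Finset.sum_congr rfl fun A _ => ?_
  rw [Real.norm_eq_abs, sq_abs]
  rfl

theorem comm_dg {p : Fin N → EuclideanSpace ℝ (Fin 9)} (hp : ∑ a, p a = 0) :
    (colAlg b).Comm (row (dg b p)) := by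
  intro i j
  rw [colAlg_br]
  have h : br b (row (dg b p) i).ofLp (row (dg b p) j).ofLp = 0 := by
    apply Blk304.hm_inj b
    rw [hm_br, ← mat_row, ← mat_row, mat_dg b hp, mat_dg b hp, Matrix.diagonal_mul_diagonal,
      Matrix.diagonal_mul_diagonal, Blk304.hm_zero]
    have : (fun a => ((p a i : ℝ) : ℂ) * ((p a j : ℝ) : ℂ)) =
        fun a => ((p a j : ℝ) : ℂ) * ((p a i : ℝ) : ℂ) := by
      ext a; ring
    rw [this, sub_self, smul_zero]
  rw [h]
  rfl

theorem mem_kk_row {p : Fin N → EuclideanSpace ℝ (Fin 9)} (hp : ∑ a, p a = 0) (w : Colg N) :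
    w ∈ (colAlg b).kk (row (dg b p)) ↔ pk b p w.ofLp = w.ofLp := by
  rw [pk_eq_self_iff, ← brx_dg_eq_zero b hp, ColAlg.mem_kk]
  constructor
  · intro h
    ext ⟨i, A⟩
    have h1 := h i
    rw [(colAlg b).anti, neg_eq_zero] at h1
    exact congrArg (fun v : Colg N => v A) h1
  · intro h i
    rw [(colAlg b).anti, neg_eq_zero]
    have h1 := row_brx b w.ofLp (dg b p) i
    rw [h] at h1
    rw [← WithLp.toLp_ofLp 2 w, ← h1]
    rfl

theorem mem_perp_row {p : Fin N → EuclideanSpace ℝ (Fin 9)} (hp : ∑ a, p a = 0) (w : Colg N) :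
    w ∈ ((colAlg b).kk (row (dg b p)))ᗮ ↔ pk b p w.ofLp = 0 := by
  rw [Submodule.mem_orthogonal]
  constructor
  · intro h
    have h1 := h (WithLp.toLp 2 (pk b p w.ofLp)) ((mem_kk_row b hp _).2 (pk_pk b p _))
    rw [inner_colg] at h1
    have h2 : ∑ A, pk b p w.ofLp A * pk b p w.ofLp A = 0 := by
      have h3 := pk_symm b p (pk b p w.ofLp) w.ofLp
      rw [pk_pk] at h3
      rw [← h3]
      exact h1
    funext A
    have h4 := (Finset.sum_eq_zero_iff_of_nonneg (fun A _ => mul_self_nonneg _)).1 h2 A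
      (Finset.mem_univ _)
    exact mul_self_eq_zero.1 h4
  · intro h u hu
    rw [mem_kk_row b hp] at hu
    rw [inner_colg]
    have h1 := pk_symm b p u.ofLp w.ofLp
    rw [hu, h] at h1
    rw [h1]
    simp




/-! ## Block and transverse configurations -/

/-- `R⁹ ⊗ k` : block-diagonal configurations -/
def BlkC (p : Fin N → EuclideanSpace ℝ (Fin 9)) : Submodule ℝ (Cfg N) where
  carrier := {y | ∀ i a a', p a ≠ p a' → Blk304.mat b y i a a' = 0}
  add_mem' h1 h2 i a a' h := by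
    rw [Blk304.mat_add, Matrix.add_apply, h1 i a a' h, h2 i a a' h, add_zero]
  zero_mem' i a a' _ := by rw [Blk304.mat_zero]; rfl
  smul_mem' t y h1 i a a' h := by
    rw [Blk304.mat_smul, Matrix.smul_apply, h1 i a a' h, smul_zero]

/-- `Z_c` : off-diagonal configurations transverse to the gauge directions -/
def Zt (p : Fin N → EuclideanSpace ℝ (Fin 9)) : Submodule ℝ (Cfg N) where
  carrier := {z | (∀ i a a', p a = p a' → Blk304.mat b z i a a' = 0) ∧
    ∀ a a', ∑ i, ((p a' i - p a i : ℝ) : ℂ) * Blk304.mat b z i a a' = 0}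
  add_mem' h1 h2 := by
    refine ⟨fun i a a' h => ?_, fun a a' => ?_⟩
    · rw [Blk304.mat_add, Matrix.add_apply, h1.1 i a a' h, h2.1 i a a' h, add_zero]
    · simp only [Blk304.mat_add, Matrix.add_apply, mul_add, Finset.sum_add_distrib]
      rw [h1.2 a a', h2.2 a a', add_zero]
  zero_mem' := by
    refine ⟨fun i a a' _ => by rw [Blk304.mat_zero]; rfl, fun a a' => ?_⟩
    simp [Blk304.mat_zero]
  smul_mem' t y h1 := by
    refine ⟨fun i a a' h => ?_, fun a a' => ?_⟩
    · rw [Blk304.mat_smul, Matrix.smul_apply, h1.1 i a a' h, smul_zero]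
    · have : ∀ i, ((p a' i - p a i : ℝ) : ℂ) * Blk304.mat b (t • y) i a a' =
          (t : ℂ) * (((p a' i - p a i : ℝ) : ℂ) * Blk304.mat b y i a a') := by
        intro i
        rw [Blk304.mat_smul, Matrix.smul_apply, smul_eq_mul]
        ring
      simp only [this]
      rw [← Finset.mul_sum, h1.2 a a', mul_zero]

theorem mem_BlkC {p : Fin N → EuclideanSpace ℝ (Fin 9)} {y : Cfg N} :
    y ∈ BlkC b p ↔ ∀ i a a', p a ≠ p a' → Blk304.mat b y i a a' = 0 := Iff.rfl

theorem mem_Zt {p : Fin N → EuclideanSpace ℝ (Fin 9)} {z : Cfg N} :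
    z ∈ Zt b p ↔ (∀ i a a', p a = p a' → Blk304.mat b z i a a' = 0) ∧
      ∀ a a', ∑ i, ((p a' i - p a i : ℝ) : ℂ) * Blk304.mat b z i a a' = 0 := Iff.rfl

theorem BlkC_row {p : Fin N → EuclideanSpace ℝ (Fin 9)} (hp : ∑ a, p a = 0) {y : Cfg N} :
    y ∈ BlkC b p ↔ ∀ i, row y i ∈ (colAlg b).kk (row (dg b p)) := by
  rw [mem_BlkC]
  refine forall_congr' fun i => ?_
  rw [mem_kk_row b hp, pk_eq_self_iff]
  rfl


/-- block part of a configuration -/
def prB (p : Fin N → EuclideanSpace ℝ (Fin 9)) (x : Cfg N) : Cfg N :=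
  Blk304.mk b (fun i => blk p (Blk304.mat b x i))

theorem mat_prB (p : Fin N → EuclideanSpace ℝ (Fin 9)) (x : Cfg N) (i : Fin 9) :
    Blk304.mat b (prB b p x) i = blk p (Blk304.mat b x i) :=
  Blk304.mat_mk b (fun i => blk_herm (Blk304.mat_herm b x i))
    (fun i => by rw [blk_trace, Blk304.mat_trace]) i

theorem prB_mem (p : Fin N → EuclideanSpace ℝ (Fin 9)) (x : Cfg N) : prB b p x ∈ BlkC b p := by
  intro i a a' h
  rw [mat_prB, blk_of_ne h]

theorem sub_prB_mem {p : Fin N → EuclideanSpace ℝ (Fin 9)} (hp : ∑ a, p a = 0) {x : Cfg N}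
    (hx : x ∈ Nor b (dg b p)) : x - prB b p x ∈ Zt b p := by
  rw [mem_Nor_dg b hp] at hx
  refine ⟨fun i a a' h => ?_, fun a a' => ?_⟩
  · rw [Blk304.mat_sub, Matrix.sub_apply, mat_prB, blk_of_eq h, sub_self]
  · by_cases h : p a = p a'
    · refine Finset.sum_eq_zero fun i _ => ?_
      rw [h, sub_self, Complex.ofReal_zero, zero_mul]
    · rw [← hx a a']
      refine Finset.sum_congr rfl fun i _ => ?_
      rw [Blk304.mat_sub, Matrix.sub_apply, mat_prB, blk_of_ne h, sub_zero]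

theorem BlkC_le_Nor {p : Fin N → EuclideanSpace ℝ (Fin 9)} (hp : ∑ a, p a = 0) :
    BlkC b p ≤ Nor b (dg b p) := by
  intro y hy
  rw [mem_Nor_dg b hp]
  intro a a'
  refine Finset.sum_eq_zero fun i _ => ?_
  by_cases h : p a = p a'
  · rw [h, sub_self, Complex.ofReal_zero, zero_mul]
  · rw [hy i a a' h, mul_zero]

theorem Zt_le_Nor {p : Fin N → EuclideanSpace ℝ (Fin 9)} (hp : ∑ a, p a = 0) :
    Zt b p ≤ Nor b (dg b p) := by
  intro z hz
  rw [mem_Nor_dg b hp]
  exact hz.2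

theorem inner_BlkC_Zt {p : Fin N → EuclideanSpace ℝ (Fin 9)} {y z : Cfg N}
    (hy : y ∈ BlkC b p) (hz : z ∈ Zt b p) : ⟪y, z⟫_ℝ = 0 := by
  rw [Blk304.inner_eq b]
  refine Finset.sum_eq_zero fun i _ => Finset.sum_eq_zero fun a _ => Finset.sum_eq_zero
    fun a' _ => ?_
  by_cases h : p a = p a'
  · rw [hz.1 i a a' h]; simp
  · rw [hy i a a' h]; simp




end Crest.Agent.R330.Diag304
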