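import Crest.Agent.R330.Rellich_893
import Crest.Agent.R330.IBP_837
import Crest.Agent.R330.Moll_596
import Crest.Agent.R330.VLowB_737
import Crest.Agent.R330.CoerCfg_87
import Crest.Agent.R330.Col_962
import Crest.Agent.R330.Gauge_406
import Crest.Agent.R330.SUgrp_596
import Crest.Agent.R330.S5Defs_798
import Crest.Agent.R330.Avg_798
import Crest.Agent.R330.RhoB_406
import Crest.Agent.R330.Lit_416
import Mathlib
import Crest.Prelude.Def_MatrixModel
import Crest.Agent.R330.WeitzG_726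
import Crest.Agent.R330.VId_87
import Crest.Agent.R330.Brid_837

-- ▼ part R330/UpLoc_8
section

/-!
# Row 330, S5d-UP: local limits along the hyperfilter (helper8)

* `lint_eq` : `∫⁻ ‖f‖ₑ² = ofReal ∫ ‖f‖²` on a set.
* `loc_hyper` : a sequence bounded in `H¹` of every ball converges in `L²` of every ball along the
  hyperfilter.
* `tendsto_inner_loc` : inner products with compactly supported continuous functions converge.
-/

set_option autoImplicit false
set_option linter.unusedSectionVars false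

open MeasureTheory Filter Set Metric
open scoped ENNReal Topology ContDiff InnerProductSpace

noncomputable section
namespace Crest.Agent.R330.UpLoc8

open Crest.Agent.R330.Rel893

variable {ι : Type*} [Fintype ι]
  {F : Type*} [NormedAddCommGroup F] [InnerProductSpace ℂ F] [FiniteDimensional ℂ F]

local notation "E" => EuclideanSpace ℝ ι

/-- the hyperfilter -/
local notation "𝓤" => (hyperfilter ℕ : Filter ℕ)

theorem hyper_le : 𝓤 ≤ atTop := by
  rw [← Nat.cofinite_eq_atTop]; exact hyperfilter_le_cofinite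

theorem setball (R : ℝ) : {x : E | ‖x‖ ≤ R} = closedBall 0 R := by
  ext x; simp

theorem lint_eq {X G : Type*} [MeasurableSpace X] {μ : Measure X} [NormedAddCommGroup G]
    {f : X → G} (hf : Integrable (fun x => ‖f x‖ ^ 2) μ) :
    ∫⁻ x, ‖f x‖ₑ ^ 2 ∂μ = ENNReal.ofReal (∫ x, ‖f x‖ ^ 2 ∂μ) := by
  rw [ofReal_integral_eq_lintegral_ofReal hf (Eventually.of_forall fun x => by positivity)]
  refine lintegral_congr fun x => ?_
  rw [ENNReal.ofReal_pow (norm_nonneg _), ofReal_norm]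

/-- the converse bound -/
theorem int_le_of_lint {X G : Type*} [MeasurableSpace X] {μ : Measure X} [NormedAddCommGroup G]
    {f : X → G} (hf : Integrable (fun x => ‖f x‖ ^ 2) μ) {C : ℝ} (hC : 0 ≤ C)
    (h : ∫⁻ x, ‖f x‖ₑ ^ 2 ∂μ ≤ ENNReal.ofReal C) : ∫ x, ‖f x‖ ^ 2 ∂μ ≤ C := by
  rw [lint_eq hf] at h
  exact (ENNReal.ofReal_le_ofReal_iff hC).1 h

theorem intOn_of_cont {f : E → F} (hf : Continuous f) (R : ℝ) :
    IntegrableOn (fun x => ‖f x‖ ^ 2) (closedBall 0 R) volume :=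
  (hf.norm.pow 2).continuousOn.integrableOn_compact (isCompact_closedBall 0 R)

theorem int_sub_le {S : Set E} {f g h : E → F}
    (hfg : IntegrableOn (fun x => ‖f x - g x‖ ^ 2) S volume)
    (hfh : IntegrableOn (fun x => ‖f x - h x‖ ^ 2) S volume)
    (hgh : IntegrableOn (fun x => ‖g x - h x‖ ^ 2) S volume) :
    ∫ x in S, ‖g x - h x‖ ^ 2 ≤
      2 * (∫ x in S, ‖f x - g x‖ ^ 2) + 2 * (∫ x in S, ‖f x - h x‖ ^ 2) := by
  rw [← integral_const_mul, ← integral_const_mul, ← integral_add (hfg.const_mul 2)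
    (hfh.const_mul 2)]
  refine integral_mono hgh ((hfg.const_mul 2).add (hfh.const_mul 2)) fun x => ?_
  have h1 : g x - h x = (f x - h x) - (f x - g x) := by abel
  have h2 : ‖g x - h x‖ ≤ ‖f x - h x‖ + ‖f x - g x‖ := by rw [h1]; exact norm_sub_le _ _
  have h3 : ‖g x - h x‖ ^ 2 ≤ (‖f x - h x‖ + ‖f x - g x‖) ^ 2 := by gcongr
  show ‖g x - h x‖ ^ 2 ≤ 2 * ‖f x - g x‖ ^ 2 + 2 * ‖f x - h x‖ ^ 2
  nlinarith [sq_nonneg (‖f x - h x‖ - ‖f x - g x‖)]

/-- smooth cut-offs -/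
theorem exists_chi (m : ℕ) : ∃ χ : E → ℝ, ContDiff ℝ ∞ χ ∧ HasCompactSupport χ ∧
    (∀ x, 0 ≤ χ x) ∧ (∀ x, χ x ≤ 1) ∧ (∀ x, ‖x‖ ≤ m + 1 → χ x = 1) ∧
    (∀ x, m + 2 < ‖x‖ → χ x = 0) := by
  let β : ContDiffBump (0 : E) := ⟨m + 1, m + 2, by positivity, by linarith⟩
  refine ⟨β, β.contDiff, β.hasCompactSupport, fun x => β.nonneg, fun x => β.le_one, ?_, ?_⟩
  · intro x hx
    exact β.one_of_mem_closedBall (by simpa [mem_closedBall, β] using hx)
  · intro x hx
    exact β.zero_of_le_dist (by simpa [β] using hx.le)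

set_option maxHeartbeats 1000000 in
/-- **local limits along the hyperfilter** -/
theorem loc_hyper {f : ℕ → E → F} (hs : ∀ n, ContDiff ℝ ∞ (f n))
    (hb : ∀ R : ℝ, ∃ C : ℝ, ∀ n, ∫ x in closedBall 0 R, ‖f n x‖ ^ 2 ≤ C ∧
      ∫ x in closedBall 0 R, ‖fderiv ℝ (f n) x‖ ^ 2 ≤ C) :
    ∃ f₀ : E → F, AEStronglyMeasurable f₀ volume ∧
      (∀ R : ℝ, IntegrableOn (fun x => ‖f₀ x‖ ^ 2) (closedBall 0 R) volume) ∧
      ∀ R : ℝ, Tendsto (fun n => ∫ x in closedBall 0 R, ‖f n x - f₀ x‖ ^ 2) 𝓤 (𝓝 0) := by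
  classical
  -- the limits of the cut-off functions
  have key : ∀ m : ℕ, ∃ Ψ : E → F, MemLp Ψ 2 volume ∧
      Tendsto (fun n => ∫ x in closedBall 0 (m + 1 : ℝ), ‖f n x - Ψ x‖ ^ 2) 𝓤 (𝓝 0) := by
    intro m
    obtain ⟨χ, hχs, hχc, hχ0, hχ1, hχe, hχz⟩ := exists_chi (ι := ι) m
    obtain ⟨C, hC⟩ := hb (m + 2)
    obtain ⟨K, hK⟩ : ∃ K : ℝ, ∀ x, ‖fderiv ℝ χ x‖ ≤ K := by
      have hcont : Continuous fun x => fderiv ℝ χ x := hχs.continuous_fderiv (by simp)
      obtain ⟨K, hK⟩ := (hχc.fderiv (𝕜 := ℝ)).exists_bound_of_continuous hcont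
      exact ⟨K, hK⟩
    have hK0 : 0 ≤ K := (norm_nonneg _).trans (hK 0)
    have hgs : ∀ n, ContDiff ℝ ∞ (fun x => χ x • f n x) := fun n => hχs.smul (hs n)
    have hgc : ∀ n, HasCompactSupport (fun x => χ x • f n x) := fun n => hχc.smul_right
    have hsupp : ∀ n, ∀ x, x ∉ closedBall (0 : E) (m + 2) → χ x • f n x = 0 := by
      intro n x hx
      rw [hχz x (by simpa using hx), zero_smul]
    have h0 : ∀ n, ∫ x, ‖χ x • f n x‖ ^ 2 ≤ C := by
      intro n
      have e1 : ∫ x, ‖χ x • f n x‖ ^ 2 = ∫ x in closedBall (0 : E) (m + 2), ‖χ x • f n x‖ ^ 2 := by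
        rw [setIntegral_eq_integral_of_forall_compl_eq_zero]
        intro x hx
        rw [hsupp n x hx]; simp
      rw [e1]
      refine le_trans ?_ (hC n).1
      refine integral_mono (intOn_of_cont (hgs n).continuous _) (intOn_of_cont (hs n).continuous _)
        fun x => ?_
      show ‖χ x • f n x‖ ^ 2 ≤ ‖f n x‖ ^ 2
      rw [norm_smul, Real.norm_of_nonneg (hχ0 x)]
      have : χ x * ‖f n x‖ ≤ 1 * ‖f n x‖ := by gcongr; exact hχ1 x
      rw [one_mul] at this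
      exact pow_le_pow_left₀ (mul_nonneg (hχ0 x) (norm_nonneg _)) this 2
    -- derivative
    set c : ℝ := (Fintype.card ι : ℝ) * (2 * K ^ 2 * C + 2 * C) with hc
    have hCn : 0 ≤ C := (integral_nonneg fun x => by positivity).trans (hC 0).1
    have hder : ∀ n x, ‖fderiv ℝ (fun y => χ y • f n y) x‖ ^ 2 ≤
        2 * K ^ 2 * ‖f n x‖ ^ 2 + 2 * ‖fderiv ℝ (f n) x‖ ^ 2 := by
      intro n x
      have hd1 : DifferentiableAt ℝ χ x := (hχs.differentiable (by simp)) x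
      have hd2 : DifferentiableAt ℝ (f n) x := ((hs n).differentiable (by simp)) x
      rw [fderiv_fun_smul hd1 hd2]
      have h1 : ‖χ x • fderiv ℝ (f n) x + (fderiv ℝ χ x).smulRight (f n x)‖ ≤
          ‖fderiv ℝ (f n) x‖ + K * ‖f n x‖ := by
        refine (norm_add_le _ _).trans (add_le_add ?_ ?_)
        · rw [norm_smul, Real.norm_of_nonneg (hχ0 x)]
          calc χ x * ‖fderiv ℝ (f n) x‖ ≤ 1 * ‖fderiv ℝ (f n) x‖ := by
                gcongr; exact hχ1 x
            _ = _ := one_mul _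
        · rw [ContinuousLinearMap.norm_smulRight_apply]
          gcongr
          exact hK x
      have h2 : ‖χ x • fderiv ℝ (f n) x + (fderiv ℝ χ x).smulRight (f n x)‖ ^ 2 ≤
          (‖fderiv ℝ (f n) x‖ + K * ‖f n x‖) ^ 2 := by gcongr
      nlinarith [sq_nonneg (‖fderiv ℝ (f n) x‖ - K * ‖f n x‖)]
    have h1 : ∀ n, ∫ x, ∑ i, ‖fderiv ℝ (fun y => χ y • f n y) x (EuclideanSpace.single i 1)‖ ^ 2
        ≤ c := by
      intro n
      have hcd : Continuous fun x => fderiv ℝ (f n) x := (hs n).continuous_fderiv (by simp)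
      have hcg : Continuous fun x => fderiv ℝ (fun y => χ y • f n y) x :=
        (hgs n).continuous_fderiv (by simp)
      have e1 : ∫ x, ∑ i, ‖fderiv ℝ (fun y => χ y • f n y) x (EuclideanSpace.single i 1)‖ ^ 2 =
          ∫ x in closedBall (0 : E) (m + 2),
            ∑ i, ‖fderiv ℝ (fun y => χ y • f n y) x (EuclideanSpace.single i 1)‖ ^ 2 := by
        rw [setIntegral_eq_integral_of_forall_compl_eq_zero]
        intro x hx
        have h2 : (fun y => χ y • f n y) =ᶠ[𝓝 x] fun _ => 0 := by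
          have : (closedBall (0 : E) (m + 2))ᶜ ∈ 𝓝 x :=
            isClosed_closedBall.isOpen_compl.mem_nhds hx
          filter_upwards [this] with y hy
          exact hsupp n y hy
        have h3 : fderiv ℝ (fun y => χ y • f n y) x = 0 := by
          rw [h2.fderiv_eq]; simp
        simp [h3]
      rw [e1]
      have hi1 : IntegrableOn (fun x => ‖f n x‖ ^ 2) (closedBall (0 : E) (m + 2)) volume :=
        intOn_of_cont (hs n).continuous _
      have hi2 : IntegrableOn (fun x => ‖fderiv ℝ (f n) x‖ ^ 2) (closedBall (0 : E) (m + 2))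
          volume :=
        (hcd.norm.pow 2).continuousOn.integrableOn_compact (isCompact_closedBall 0 _)
      have hi3 : IntegrableOn (fun x => ∑ i : ι,
          ‖fderiv ℝ (fun y => χ y • f n y) x (EuclideanSpace.single i 1)‖ ^ 2)
          (closedBall (0 : E) (m + 2)) volume := by
        have hc3 : Continuous fun x => ∑ i : ι,
            ‖fderiv ℝ (fun y => χ y • f n y) x (EuclideanSpace.single i 1)‖ ^ 2 :=
          continuous_finsetSum _ fun i _ => (hcg.clm_apply continuous_const).norm.pow 2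
        exact hc3.continuousOn.integrableOn_compact (isCompact_closedBall 0 _)
      calc ∫ x in closedBall (0 : E) (m + 2),
            ∑ i, ‖fderiv ℝ (fun y => χ y • f n y) x (EuclideanSpace.single i 1)‖ ^ 2
          ≤ ∫ x in closedBall (0 : E) (m + 2),
            ((Fintype.card ι : ℝ) * (2 * K ^ 2 * ‖f n x‖ ^ 2 + 2 * ‖fderiv ℝ (f n) x‖ ^ 2)) := by
            refine integral_mono hi3 ?_ fun x => ?_
            · exact (((hi1.const_mul (2 * K ^ 2)).add (hi2.const_mul 2))).const_mul _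
            · show ∑ i, ‖fderiv ℝ (fun y => χ y • f n y) x (EuclideanSpace.single i 1)‖ ^ 2 ≤ _
              have h4 : ∀ i ∈ (Finset.univ : Finset ι),
                  ‖fderiv ℝ (fun y => χ y • f n y) x (EuclideanSpace.single i 1)‖ ^ 2 ≤
                  2 * K ^ 2 * ‖f n x‖ ^ 2 + 2 * ‖fderiv ℝ (f n) x‖ ^ 2 := by
                intro i _
                refine le_trans ?_ (hder n x)
                have h5 := (fderiv ℝ (fun y => χ y • f n y) x).le_opNorm
                  (EuclideanSpace.single i (1 : ℝ))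
                rw [EuclideanSpace.norm_single, norm_one, mul_one] at h5
                gcongr
              have h6 := Finset.sum_le_card_nsmul _ _ _ h4
              rwa [nsmul_eq_mul, Finset.card_univ] at h6
        _ = (Fintype.card ι : ℝ) * (2 * K ^ 2 * (∫ x in closedBall (0 : E) (m + 2), ‖f n x‖ ^ 2) +
            2 * (∫ x in closedBall (0 : E) (m + 2), ‖fderiv ℝ (f n) x‖ ^ 2)) := by
            rw [integral_const_mul, integral_add (hi1.const_mul _) (hi2.const_mul _),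
              integral_const_mul, integral_const_mul]
        _ ≤ c := by
            rw [hc]
            have := hC n
            gcongr
            · exact this.1
            · exact this.2
    obtain ⟨Ψ, hΨ, hR⟩ := rellich_hyper (C := max C c) hgs hgc
      (fun n => (h0 n).trans (le_max_left _ _)) (fun n => (h1 n).trans (le_max_right _ _))
    refine ⟨Ψ, hΨ, (hR (m + 1)).congr fun n => ?_⟩
    rw [setball]
    refine setIntegral_congr_fun measurableSet_closedBall fun x hx => ?_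
    have hx' : ‖x‖ ≤ m + 1 := by simpa using hx
    show ‖χ x • f n x - Ψ x‖ ^ 2 = ‖f n x - Ψ x‖ ^ 2
    rw [hχe x hx', one_smul]
  choose Ψ hΨ hlim using key
  -- agreement
  have hagree : ∀ k m : ℕ, k ≤ m → ∀ᵐ x ∂volume, ‖x‖ < k + 1 → Ψ k x = Ψ m x := by
    intro k m hkm
    have hS : closedBall (0 : E) (k + 1 : ℝ) ⊆ closedBall (0 : E) (m + 1 : ℝ) := by
      refine closedBall_subset_closedBall ?_
      have : (k : ℝ) ≤ m := by exact_mod_cast hkm
      linarith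
    have hi : ∀ n j, IntegrableOn (fun x => ‖f n x - Ψ j x‖ ^ 2) (closedBall (0 : E) (m + 1))
        volume := by
      intro n j
      have hc1 : MemLp (f n) 2 (volume.restrict (closedBall (0 : E) (m + 1))) :=
        (memLp_two_iff_integrable_sq_norm (hs n).continuous.aestronglyMeasurable).2
          (intOn_of_cont (hs n).continuous _)
      have := hc1.sub ((hΨ j).restrict (closedBall (0 : E) (m + 1)))
      exact (memLp_two_iff_integrable_sq_norm this.1).1 this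
    have hkm' : IntegrableOn (fun x => ‖Ψ k x - Ψ m x‖ ^ 2) (closedBall (0 : E) (k + 1))
        volume := by
      have := ((hΨ k).sub (hΨ m)).restrict (closedBall (0 : E) (k + 1))
      exact (memLp_two_iff_integrable_sq_norm this.1).1 this
    have h1 : ∫ x in closedBall (0 : E) (k + 1), ‖Ψ k x - Ψ m x‖ ^ 2 ≤ 0 := by
      have h2 : Tendsto (fun n => 2 * (∫ x in closedBall (0 : E) (k + 1), ‖f n x - Ψ k x‖ ^ 2) +
          2 * (∫ x in closedBall (0 : E) (m + 1), ‖f n x - Ψ m x‖ ^ 2)) 𝓤 (𝓝 (2 * 0 + 2 * 0)) :=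
        ((hlim k).const_mul 2).add ((hlim m).const_mul 2)
      rw [mul_zero, add_zero] at h2
      refine ge_of_tendsto h2 (Eventually.of_forall fun n => ?_)
      refine (int_sub_le ((hi n k).mono_set hS) ((hi n m).mono_set hS) hkm').trans ?_
      have h3 : ∫ x in closedBall (0 : E) (k + 1), ‖f n x - Ψ m x‖ ^ 2 ≤
          ∫ x in closedBall (0 : E) (m + 1), ‖f n x - Ψ m x‖ ^ 2 :=
        setIntegral_mono_set (hi n m) (Eventually.of_forall fun x => by positivity)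
          (Eventually.of_forall hS)
      linarith
    have h4 : ∫ x in closedBall (0 : E) (k + 1), ‖Ψ k x - Ψ m x‖ ^ 2 = 0 :=
      le_antisymm h1 (integral_nonneg fun x => by positivity)
    rw [setIntegral_eq_zero_iff_of_nonneg_ae (Eventually.of_forall fun x => by positivity) hkm']
      at h4
    rw [Filter.EventuallyEq, ae_restrict_iff' measurableSet_closedBall] at h4
    filter_upwards [h4] with x hx hlt
    have h5 := hx (by simpa using hlt.le)
    have h6 : ‖Ψ k x - Ψ m x‖ = 0 := by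
      have : ‖Ψ k x - Ψ m x‖ ^ 2 = 0 := h5
      exact pow_eq_zero_iff (two_ne_zero) |>.1 this
    exact sub_eq_zero.1 (norm_eq_zero.1 h6)
  set f₀ : E → F := fun x => Ψ ⌊‖x‖⌋₊ x with hf₀
  have hae : ∀ m : ℕ, ∀ᵐ x ∂volume, ‖x‖ < m + 1 → f₀ x = Ψ m x := by
    intro m
    have h1 : ∀ᵐ x ∂(volume : Measure E), ∀ k : ℕ, k ≤ m → ‖x‖ < k + 1 → Ψ k x = Ψ m x := by
      rw [ae_all_iff]
      intro k
      by_cases hk : k ≤ m
      · filter_upwards [hagree k m hk] with x hx _ using hx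
      · exact Eventually.of_forall fun x h => absurd h hk
    filter_upwards [h1] with x hx hlt
    refine hx _ ?_ (Nat.lt_floor_add_one _)
    have h2 : (⌊‖x‖⌋₊ : ℝ) ≤ ‖x‖ := Nat.floor_le (norm_nonneg _)
    have h3 : (⌊‖x‖⌋₊ : ℝ) < m + 1 := h2.trans_lt hlt
    exact_mod_cast Nat.lt_succ_iff.1 (by exact_mod_cast h3)
  have hball : ∀ R : ℝ, ∃ m : ℕ, closedBall (0 : E) R ⊆ ball (0 : E) (m + 1) := by
    intro R
    obtain ⟨m, hm⟩ := exists_nat_ge R
    exact ⟨m, closedBall_subset_ball (by linarith)⟩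
  have hrest : ∀ R : ℝ, ∃ m : ℕ, closedBall (0 : E) R ⊆ closedBall (0 : E) (m + 1) ∧
      f₀ =ᵐ[volume.restrict (closedBall (0 : E) R)] Ψ m := by
    intro R
    obtain ⟨m, hm⟩ := hball R
    refine ⟨m, hm.trans ball_subset_closedBall, ?_⟩
    rw [Filter.EventuallyEq, ae_restrict_iff' measurableSet_closedBall]
    filter_upwards [hae m] with x hx hxR
    exact hx (by simpa using hm hxR)
  have hmeas : AEStronglyMeasurable f₀ volume := by
    have h1 : ∀ m : ℕ, AEStronglyMeasurable f₀ (volume.restrict (closedBall (0 : E) m)) := by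
      intro m
      obtain ⟨k, -, hk⟩ := hrest m
      exact ((hΨ k).1.restrict).congr hk.symm
    have h2 : (⋃ m : ℕ, closedBall (0 : E) m) = univ := by
      refine eq_univ_of_forall fun x => ?_
      obtain ⟨m, hm⟩ := exists_nat_ge ‖x‖
      exact mem_iUnion.2 ⟨m, by simpa using hm⟩
    rw [← Measure.restrict_univ (μ := volume), ← h2]
    exact aestronglyMeasurable_iUnion_iff.2 h1
  refine ⟨f₀, hmeas, fun R => ?_, fun R => ?_⟩
  · obtain ⟨m, -, hm⟩ := hrest R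
    have h1 : Integrable (fun x => ‖Ψ m x‖ ^ 2) (volume.restrict (closedBall (0 : E) R)) :=
      (memLp_two_iff_integrable_sq_norm ((hΨ m).restrict _).1).1 ((hΨ m).restrict _)
    refine h1.congr ?_
    filter_upwards [hm] with x hx
    rw [hx]
  · obtain ⟨m, hsub, hm⟩ := hrest R
    have h1 : ∀ n, IntegrableOn (fun x => ‖f n x - Ψ m x‖ ^ 2) (closedBall (0 : E) (m + 1))
        volume := by
      intro n
      have hc1 : MemLp (f n) 2 (volume.restrict (closedBall (0 : E) (m + 1))) :=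
        (memLp_two_iff_integrable_sq_norm (hs n).continuous.aestronglyMeasurable).2
          (intOn_of_cont (hs n).continuous _)
      have := hc1.sub ((hΨ m).restrict (closedBall (0 : E) (m + 1)))
      exact (memLp_two_iff_integrable_sq_norm this.1).1 this
    refine squeeze_zero (fun n => integral_nonneg fun x => by positivity) (fun n => ?_) (hlim m)
    have h2 : ∫ x in closedBall (0 : E) R, ‖f n x - f₀ x‖ ^ 2 =
        ∫ x in closedBall (0 : E) R, ‖f n x - Ψ m x‖ ^ 2 := by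
      refine integral_congr_ae ?_
      filter_upwards [hm] with x hx
      rw [hx]
    rw [h2]
    exact setIntegral_mono_set (h1 n) (Eventually.of_forall fun x => by positivity)
      (Eventually.of_forall hsub)

end Crest.Agent.R330.UpLoc8

end
end

-- ▼ part R330/VLowC_737
section

/-!
# Row 330, section 5a (helper737): the global lower bound for generic structure constants

* `first_order` : the nearest point of a set invariant under a flow.
* `lower_glob` : `c * dist(x, Z)^2 ≤ |Res f x|^2` for all `x`.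
* `lower_near` : `(κ/2) dist(x, S) ≤ |Res f x|` for `S ⊆ Z` closed invariant, near `S`.
* `orbit_gap` : two invariant closed pieces: a zero close to an invariant closed `S ⊆ Z` is in `S`.
-/

set_option autoImplicit false
set_option linter.unusedSectionVars false

open Metric Set Topology Filter
open scoped InnerProductSpace

namespace Crest.Agent.R330.VLow737

noncomputable section

theorem first_order {E : Type*} [NormedAddCommGroup E] [InnerProductSpace ℝ E] {S : Set E}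
    {c y v : E} (hmin : dist y c = infDist y S) (γ : ℝ → E) (h0 : γ 0 = c)
    (hd : HasDerivAt γ v 0) (hS : ∀ t, γ t ∈ S) : ⟪v, y - c⟫_ℝ = 0 := by
  have h1 : HasDerivAt (fun t => ‖y - γ t‖ ^ 2) (2 * ⟪y - γ 0, 0 - v⟫_ℝ) 0 :=
    ((hasDerivAt_const (0 : ℝ) y).sub hd).norm_sq
  have h2 : IsLocalMin (fun t => ‖y - γ t‖ ^ 2) 0 := by
    refine Filter.Eventually.of_forall fun t => ?_
    have h3 : ‖y - γ 0‖ ≤ ‖y - γ t‖ := by
      rw [h0, ← dist_eq_norm, ← dist_eq_norm, hmin]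
      exact infDist_le_dist_of_mem (hS t)
    exact pow_le_pow_left₀ (norm_nonneg _) h3 2
  have h3 := h2.hasDerivAt_eq_zero h1
  rw [h0, zero_sub, inner_neg_right] at h3
  rw [real_inner_comm]
  linarith

variable {n : Type*} [Fintype n] [DecidableEq n] {f : n → n → n → ℝ}

/-- `S` is invariant under flows with generators the gauge directions. -/
def FlowInv (f : n → n → n → ℝ) (S : Set (EuclideanSpace ℝ (Fin 9 × n))) : Prop :=
  ∀ ω, ∀ c ∈ S, ∃ γ : ℝ → EuclideanSpace ℝ (Fin 9 × n), γ 0 = c ∧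
    HasDerivAt γ (gd f ω c) 0 ∧ ∀ t, γ t ∈ S

theorem FlowInv.first {S : Set (EuclideanSpace ℝ (Fin 9 × n))} (h : FlowInv f S) :
    ∀ c ∈ S, ∀ y, dist y c = infDist y S → (c, y - c) ∈ Tr f := by
  intro c hc y hy ω
  obtain ⟨γ, h0, hd, hS⟩ := h ω c hc
  exact first_order hy γ h0 hd hS

/-- Coercivity of the residual map. -/
def Coer (f : n → n → n → ℝ) : Prop :=
  ∃ c > 0, ∃ C, ∀ x : EuclideanSpace ℝ (Fin 9 × n), c * ‖x‖ ^ 2 - C ≤ ‖Res f x‖ ^ 2

theorem zero_mem_Zs (f : n → n → n → ℝ) : (0 : EuclideanSpace ℝ (Fin 9 × n)) ∈ Zs f := by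
  change Res f 0 = 0
  ext1 i
  change Res f 0 i = 0
  rw [Res_apply]
  split_ifs
  · simp only [map_zero, smul_zero, sub_zero]
  · rw [map_zero, smul_zero]

theorem isCompact_Zs (hco : Coer f) : IsCompact (Zs f) := by
  obtain ⟨c, hc, C, h⟩ := hco
  refine isCompact_of_isClosed_isBounded (isClosed_Zs f) ?_
  refine (Metric.isBounded_closedBall (x := (0 : EuclideanSpace ℝ (Fin 9 × n)))
    (r := Real.sqrt (C / c))).subset fun x hx => ?_
  rw [mem_closedBall_zero_iff]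
  refine Real.le_sqrt_of_sq_le ?_
  have h1 := h x
  have hx' : Res f x = 0 := hx
  rw [hx', norm_zero] at h1
  rw [le_div_iff₀ hc]
  nlinarith

/-- The transversal constant. -/
theorem exists_kappa (hf : IsStr f) (hco : Coer f) :
    ∃ κ > 0, ∀ c ∈ Zs f, ∀ z, (c, z) ∈ Tr f → κ * ‖z‖ ≤ ‖DRes f c z‖ := by
  refine compact_bound (Zs f) (isCompact_Zs hco) (Tr f) (isClosed_Tr f) ?_ (DRes f)
    (continuous_DRes f) (fun c z s => DRes_smul f c z s) ?_
  · intro c z hz s ω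
    have h1 := hz ω
    change ⟪gd f ω c, s • z⟫_ℝ = 0
    rw [inner_smul_right]
    change ⟪gd f ω c, z⟫_ℝ = 0 at h1
    rw [h1, mul_zero]
  · intro c hc z hz h0 hD
    exact h0 (DRes_inj hf hc hz hD)

/-- Morse-Bott bound near any closed flow invariant subset of the zero set. -/
theorem exists_near (hf : IsStr f) (hco : Coer f) :
    ∃ κ > 0, ∃ C > 0, ∀ S : Set (EuclideanSpace ℝ (Fin 9 × n)), S ⊆ Zs f → IsClosed S →
      S.Nonempty → FlowInv f S → ∀ y, κ * infDist y S - C * infDist y S ^ 2 ≤ ‖Res f y‖ := by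
  obtain ⟨κ, hκ0, hκ⟩ := exists_kappa hf hco
  obtain ⟨C, hC0, hC⟩ := BRes_bound f
  refine ⟨κ, hκ0, C, hC0, fun S hS hSc hne hinv y => ?_⟩
  exact near_bound (Zs f) (R := Res f) (D := DRes f) (B := BRes f) (fun c hc => hc)
    (Res_add f) hC hκ hS hSc hne hinv.first y

/-- **Linear lower bound near** a closed flow invariant subset of the zero set. -/
theorem lower_near (hf : IsStr f) (hco : Coer f) :
    ∃ κ > 0, ∃ r > 0, ∀ S : Set (EuclideanSpace ℝ (Fin 9 × n)), S ⊆ Zs f → IsClosed S →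
      S.Nonempty → FlowInv f S → ∀ y, infDist y S ≤ r → κ * infDist y S ≤ ‖Res f y‖ := by
  obtain ⟨κ, hκ0, C, hC0, h⟩ := exists_near hf hco
  refine ⟨κ / 2, by positivity, κ / (2 * C), by positivity, fun S hS hSc hne hinv y hy => ?_⟩
  have h1 := h S hS hSc hne hinv y
  have h2 : C * infDist y S ≤ κ / 2 := by
    rw [le_div_iff₀ (by positivity)] at hy
    linarith
  have h3 : 0 ≤ infDist y S := infDist_nonneg
  nlinarith


/-- **The global lower bound.** -/
theorem lower_glob (hf : IsStr f) (hco : Coer f) (hinv : FlowInv f (Zs f)) :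
    ∃ c > 0, ∀ y, c * infDist y (Zs f) ^ 2 ≤ ‖Res f y‖ ^ 2 := by
  have hne : (Zs f).Nonempty := ⟨0, zero_mem_Zs f⟩
  obtain ⟨κ, hκ0, r, hr, hnear⟩ := lower_near hf hco
  have hnear' := hnear (Zs f) subset_rfl (isClosed_Zs f) hne hinv
  obtain ⟨c, hc, C, hcoer⟩ := hco
  -- radius beyond which coercivity suffices
  set R : ℝ := Real.sqrt (2 * |C| / c) with hR
  set A : Set (EuclideanSpace ℝ (Fin 9 × n)) := closedBall 0 R ∩ {y | r ≤ infDist y (Zs f)} with hA
  have hAc : IsCompact A := (isCompact_closedBall _ _).inter_right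
    (isClosed_le continuous_const (continuous_infDist_pt _))
  have hA' : ∃ a > 0, ∀ y ∈ A, a ≤ ‖Res f y‖ := by
    rcases A.eq_empty_or_nonempty with h0 | h0
    · exact ⟨1, one_pos, fun y hy => by rw [h0] at hy; exact absurd hy (notMem_empty _)⟩
    · obtain ⟨y₀, hy₀, hmin⟩ := hAc.exists_isMinOn h0 (continuous_Res f).norm.continuousOn
      refine ⟨‖Res f y₀‖, norm_pos_iff.2 ?_, fun y hy => hmin hy⟩
      intro h1
      have h2 : y₀ ∈ Zs f := h1
      have h3 := hy₀.2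
      rw [mem_ofPred_eq, infDist_zero_of_mem h2] at h3
      linarith
  obtain ⟨a, ha, haA⟩ := hA'
  have hd : ∀ y, infDist y (Zs f) ≤ ‖y‖ := fun y => by
    have := infDist_le_dist_of_mem (x := y) (zero_mem_Zs f)
    rwa [dist_zero_right] at this
  refine ⟨min (min (κ ^ 2) (c / 2)) (a ^ 2 / (R ^ 2 + 1)), by positivity, fun y => ?_⟩
  have hd0 : 0 ≤ infDist y (Zs f) := infDist_nonneg
  rcases le_total (infDist y (Zs f)) r with h1 | h1
  · calc _ ≤ κ ^ 2 * infDist y (Zs f) ^ 2 :=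
          mul_le_mul_of_nonneg_right ((min_le_left _ _).trans (min_le_left _ _)) (sq_nonneg _)
      _ = (κ * infDist y (Zs f)) ^ 2 := by ring
      _ ≤ _ := pow_le_pow_left₀ (by positivity) (hnear' y h1) 2
  · rcases le_total ‖y‖ R with h2 | h2
    · have hyA : y ∈ A := ⟨mem_closedBall_zero_iff.2 h2, h1⟩
      have h3 := haA y hyA
      have h4 : infDist y (Zs f) ^ 2 ≤ R ^ 2 + 1 := by
        have := pow_le_pow_left₀ hd0 ((hd y).trans h2) 2
        linarith
      calc _ ≤ a ^ 2 / (R ^ 2 + 1) * infDist y (Zs f) ^ 2 :=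
            mul_le_mul_of_nonneg_right (min_le_right _ _) (sq_nonneg _)
        _ ≤ a ^ 2 / (R ^ 2 + 1) * (R ^ 2 + 1) := mul_le_mul_of_nonneg_left h4 (by positivity)
        _ = a ^ 2 := by field_simp
        _ ≤ _ := pow_le_pow_left₀ ha.le h3 2
    · have h3 : 2 * |C| / c ≤ ‖y‖ ^ 2 := by
        have h4 : R ^ 2 ≤ ‖y‖ ^ 2 := pow_le_pow_left₀ (Real.sqrt_nonneg _) h2 2
        rwa [hR, Real.sq_sqrt (by positivity)] at h4
      rw [div_le_iff₀ hc] at h3
      have h5 := hcoer y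
      have h6 := le_abs_self C
      have h7 : infDist y (Zs f) ^ 2 ≤ ‖y‖ ^ 2 := pow_le_pow_left₀ hd0 (hd y) 2
      calc _ ≤ c / 2 * infDist y (Zs f) ^ 2 :=
            mul_le_mul_of_nonneg_right ((min_le_left _ _).trans (min_le_right _ _)) (sq_nonneg _)
        _ ≤ c / 2 * ‖y‖ ^ 2 := mul_le_mul_of_nonneg_left h7 (by positivity)
        _ ≤ _ := by nlinarith

end

end Crest.Agent.R330.VLow737
end

-- ▼ part R330/VLow_737
section

/-!
# Row 330, section 5a (helper737): literal lower bound of the mass deformed potential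

`VR b g x = ½ Σ_cyc |x_i/3 - g [x_{i+1}, x_{i+2}]|² + (1/72) Σ_{j ≥ 3} |x_j|²` (the part of
`V_{g,1}` without the other commutators), `Crit b g` its zero set.

* `VR_lower`   : `∃ c > 0, ∀ g > 0, ∀ x, c * infDist x (Crit b g)^2 ≤ VR b g x`;
* `VR_orbit`   : near one orbit: `∃ c > 0, ∃ r > 0, ∀ g > 0, ∀ x₀ ∈ Crit b g, ∀ x,
  infDist x (orb b x₀) ≤ r / g → c * infDist x (orb b x₀)^2 ≤ VR b g x`;
* `orbit_isol` : `∃ r > 0, ∀ g > 0, ∀ x₀ x₁ ∈ Crit b g, infDist x₁ (orb b x₀) ≤ r / g → x₁ ∈ orb b x₀`;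
* `crit_finite` : `Crit b 1` is a finite union of orbits; `isCompact_Crit`; `Crit_scale`.
-/

set_option autoImplicit false
set_option linter.unusedSectionVars false

open Metric Set Topology Filter Crest.MathPhysics.MatrixQM
open scoped InnerProductSpace Pointwise

namespace Crest.Agent.R330.VLow737

noncomputable section

variable {N : ℕ} (b : ColorBasis N)

/-- The structure constants satisfy the generic hypotheses. -/
theorem isStr (b : ColorBasis N) : IsStr b.structConst where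
  a12 A B C := Col962.f_swap12 b B A C
  a23 A B C := Col962.f_swap23 b A C B
  jac A B C D := Col962.jacobi b A B C D

/-- The part of the potential which vanishes exactly on the vacua. -/
def VR (g : ℝ) (x : Cfg N) : ℝ := 1 / 2 * CoerCfg87.Vcyc b g 1 x + 1 / 72 * CoerCfg87.Vhi x

theorem sum_fin9 {M : Type*} [AddCommMonoid M] (h : Fin 9 → M) :
    ∑ i, h i = (h 0 + h 1 + h 2) + ∑ i : Fin 6, h ⟨i + 3, by omega⟩ := by
  rw [Fin.sum_univ_succ, Fin.sum_univ_succ, Fin.sum_univ_succ]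
  simp only [add_assoc]
  rfl

theorem normsq_Res (x : Cfg N) : ‖Res b.structConst x‖ ^ 2 = 2 * VR b 1 x := by
  rw [tgt_normsq, sum_fin9]
  have h0 : ∀ i : Fin 9, (i : ℕ) < 3 → ‖Res b.structConst x i‖ ^ 2 =
      ∑ A, (1 * x (i, A) / 3 - 1 * CoerCfg87.br b (CoerCfg87.comp x (nx i))
        (CoerCfg87.comp x (nx (nx i))) A) ^ 2 := by
    intro i hi
    rw [Res_apply, if_pos hi, EuclideanSpace.norm_sq_eq]
    refine Finset.sum_congr rfl fun A _ => ?_
    rw [Real.norm_eq_abs, sq_abs]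
    congr 1
    rw [PiLp.sub_apply, PiLp.smul_apply, col_apply, brL_apply, smul_eq_mul]
    unfold CoerCfg87.br CoerCfg87.comp
    simp only [col_apply]
    ring
  have h1 : ∀ i : Fin 6, ‖Res b.structConst x (⟨i + 3, by omega⟩ : Fin 9)‖ ^ 2 =
      1 / 36 * ∑ A, (CoerCfg87.comp x ⟨i + 3, by omega⟩ A) ^ 2 := by
    intro i
    rw [Res_apply, if_neg (by simp), EuclideanSpace.norm_sq_eq, Finset.mul_sum]
    refine Finset.sum_congr rfl fun A _ => ?_
    rw [Real.norm_eq_abs, sq_abs, PiLp.smul_apply, col_apply, smul_eq_mul]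
    unfold CoerCfg87.comp
    ring
  rw [Finset.sum_congr rfl fun i _ => h1 i, h0 0 (by decide), h0 1 (by decide), h0 2 (by decide)]
  unfold VR CoerCfg87.Vcyc CoerCfg87.Vhi
  rw [Fin.sum_univ_three, ← Finset.mul_sum]
  have e : ∀ a c : ℝ, a + 1 / 36 * c = 2 * (1 / 2 * a + 1 / 72 * c) := fun a c => by ring
  exact e _ _

theorem VR_nonneg (g : ℝ) (x : Cfg N) : 0 ≤ VR b g x := by
  unfold VR CoerCfg87.Vcyc CoerCfg87.Vhi
  positivity

theorem VR_scale {g : ℝ} (hg : 0 < g) (x : Cfg N) : VR b g x = (1 / g ^ 2) * VR b 1 (g • x) := by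
  unfold VR
  have h1 : CoerCfg87.Vcyc b 1 1 (g • x) = g ^ 2 * CoerCfg87.Vcyc b g 1 x := by
    unfold CoerCfg87.Vcyc
    rw [Finset.mul_sum]
    refine Finset.sum_congr rfl fun i _ => ?_
    rw [Finset.mul_sum]
    refine Finset.sum_congr rfl fun A _ => ?_
    have e : ∀ j, CoerCfg87.comp (g • x) j = fun B => g * CoerCfg87.comp x j B := fun j => rfl
    rw [e, e, e, CoerCfg87.br_smul_smul]
    ring
  have h2 : CoerCfg87.Vhi (g • x) = g ^ 2 * CoerCfg87.Vhi x := by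
    unfold CoerCfg87.Vhi
    rw [Finset.mul_sum]
    refine Finset.sum_congr rfl fun i _ => ?_
    rw [Finset.mul_sum]
    refine Finset.sum_congr rfl fun A _ => ?_
    have e : CoerCfg87.comp (g • x) ⟨i + 3, by omega⟩ A =
      g * CoerCfg87.comp x ⟨i + 3, by omega⟩ A := rfl
    rw [e]
    ring
  rw [h1, h2]
  field_simp

/-- The vacua at coupling `g`. -/
def Crit (g : ℝ) : Set (Cfg N) := {x | VR b g x = 0}

theorem Crit_one : Crit b 1 = Zs b.structConst := by
  ext x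
  change VR b 1 x = 0 ↔ Res b.structConst x = 0
  have e : Res b.structConst x = 0 ↔ ‖Res b.structConst x‖ ^ 2 = 0 := by
    rw [pow_eq_zero_iff two_ne_zero, norm_eq_zero]
  rw [e, normsq_Res]
  constructor
  · intro h; rw [h, mul_zero]
  · intro h; linarith

theorem mem_Crit_iff {g : ℝ} (hg : 0 < g) (x : Cfg N) : x ∈ Crit b g ↔ g • x ∈ Crit b 1 := by
  change VR b g x = 0 ↔ VR b 1 (g • x) = 0
  rw [VR_scale b hg]
  have : (1 : ℝ) / g ^ 2 ≠ 0 := by positivity
  rw [mul_eq_zero, or_iff_right this]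

theorem Crit_scale {g : ℝ} (hg : 0 < g) : Crit b g = (fun x => g⁻¹ • x) '' Crit b 1 := by
  ext x
  rw [mem_Crit_iff b hg]
  constructor
  · intro h
    exact ⟨g • x, h, by simp [smul_smul, inv_mul_cancel₀ hg.ne']⟩
  · rintro ⟨y, hy, rfl⟩
    simpa [smul_smul, mul_inv_cancel₀ hg.ne'] using hy

theorem coer (hN : 0 < N) : Coer b.structConst := by
  have hN' : (0 : ℝ) < N := by exact_mod_cast hN
  refine ⟨2 / (432 * (N : ℝ) ^ 3), by positivity, 2 * (1152 * (N : ℝ) ^ 10), fun x => ?_⟩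
  have h := CoerCfg87.coercivity b hN one_pos x
  rw [one_pow, div_one] at h
  rw [normsq_Res]
  unfold VR
  have e : 2 / (432 * (N : ℝ) ^ 3) * ‖x‖ ^ 2 = 2 * (‖x‖ ^ 2 / (432 * (N : ℝ) ^ 3)) := by ring
  rw [e]
  linarith

theorem isCompact_Crit_one (hN : 0 < N) : IsCompact (Crit b 1) := by
  rw [Crit_one]
  exact isCompact_Zs (coer b hN)

theorem isCompact_Crit (hN : 0 < N) {g : ℝ} (hg : 0 < g) : IsCompact (Crit b g) := by
  rw [Crit_scale b hg]
  exact (isCompact_Crit_one b hN).image (continuous_const_smul _)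

/-! ### Flows -/

/-- The orbit of a configuration. -/
def orb (x : Cfg N) : Set (Cfg N) := range fun h => b.act h x

/-- The flow of a gauge direction. -/
theorem flow (ω : EuclideanSpace ℝ (Fin (N ^ 2 - 1))) (c : Cfg N) :
    b.act (Lift406.gSU b ω 0) c = c ∧
      HasDerivAt (fun t => b.act (Lift406.gSU b ω t) c) (gd b.structConst ω c) 0 := by
  refine ⟨by rw [Lift406.gSU_zero, Col962.act_one], ?_⟩
  have h1 : ∀ t, b.act (Lift406.gSU b ω t) c = WithLp.toLp 2 fun p : Fin 9 × Fin (N ^ 2 - 1) =>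
      NormedSpace.exp (t • Lift406.adL b ω) (fun B => c (p.1, B)) p.2 := by
    intro t
    ext p
    change b.act (Lift406.gSU b ω t) c p = _
    rw [Col962.act_apply]
    exact Lift406.adjMat_gSU_sum b ω t _ _
  have h2 : (fun t => b.act (Lift406.gSU b ω t) c) =
      fun t => WithLp.toLp 2 fun p : Fin 9 × Fin (N ^ 2 - 1) =>
      NormedSpace.exp (t • Lift406.adL b ω) (fun B => c (p.1, B)) p.2 := funext h1
  rw [h2]
  have h3 : HasDerivAt (fun t : ℝ => NormedSpace.exp (t • Lift406.adL b ω))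
      (Lift406.adL b ω) 0 := by
    have := hasDerivAt_exp_smul_const (𝕂 := ℝ) (Lift406.adL b ω) (0 : ℝ)
    simpa using this
  have h4 : ∀ v : Fin (N ^ 2 - 1) → ℝ, HasDerivAt
      (fun t : ℝ => NormedSpace.exp (t • Lift406.adL b ω) v) (Lift406.adL b ω v) 0 := by
    intro v
    have := h3.clm_apply (hasDerivAt_const (0 : ℝ) v)
    simpa using this
  have h5 : HasDerivAt (fun t : ℝ => fun p : Fin 9 × Fin (N ^ 2 - 1) =>
      NormedSpace.exp (t • Lift406.adL b ω) (fun B => c (p.1, B)) p.2)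
      (fun p => Lift406.adL b ω (fun B => c (p.1, B)) p.2) 0 := by
    rw [hasDerivAt_pi]
    intro p
    exact (hasDerivAt_pi.1 (h4 fun B => c (p.1, B))) p.2
  have h6 := ((PiLp.continuousLinearEquiv 2 ℝ
    (fun _ : Fin 9 × Fin (N ^ 2 - 1) => ℝ)).symm.toContinuousLinearMap.hasFDerivAt
      (x := fun p : Fin 9 × Fin (N ^ 2 - 1) =>
        NormedSpace.exp ((0 : ℝ) • Lift406.adL b ω) (fun B => c (p.1, B)) p.2)).comp_hasDerivAt
        (0 : ℝ) h5
  have h7 : gd b.structConst ω c = (PiLp.continuousLinearEquiv 2 ℝ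
      (fun _ : Fin 9 × Fin (N ^ 2 - 1) => ℝ)).symm.toContinuousLinearMap
      (fun p => Lift406.adL b ω (fun B => c (p.1, B)) p.2) := by
    ext p
    change brL b.structConst ω (col p.1 c) p.2 = Lift406.adL b ω (fun B => c (p.1, B)) p.2
    rw [brL_apply, Lift406.adL_apply]
    refine Finset.sum_congr rfl fun B _ => Finset.sum_congr rfl fun C _ => ?_
    rw [col_apply, Col962.f_cyc b p.2 B C]
  rw [h7]
  exact h6

theorem flowInv_of {S : Set (Cfg N)} (hS : ∀ h, ∀ c ∈ S, b.act h c ∈ S) :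
    FlowInv b.structConst S := fun ω c hc =>
  ⟨fun t => b.act (Lift406.gSU b ω t) c, (flow b ω c).1, (flow b ω c).2, fun _ => hS _ c hc⟩

/-- The bracket is equivariant. -/
theorem brL_act (h : Matrix.specialUnitaryGroup (Fin N) ℂ) (x y : Cfg N) (i j : Fin 9)
    (A : Fin (N ^ 2 - 1)) :
    brL b.structConst (col i (b.act h x)) (col j (b.act h y)) A =
      ∑ D, b.adjMat h A D * brL b.structConst (col i x) (col j y) D := by
  simp only [brL_apply, col_apply, Col962.act_apply]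
  have h1 : ∀ B C, b.structConst A B C * (∑ B', b.adjMat h B B' * x (i, B')) *
      (∑ C', b.adjMat h C C' * y (j, C')) =
      ∑ B', ∑ C', b.adjMat h B B' * b.adjMat h C C' * b.structConst B C A *
        (x (i, B') * y (j, C')) := by
    intro B C
    rw [mul_assoc, Finset.sum_mul_sum, Finset.mul_sum]
    refine Finset.sum_congr rfl fun B' _ => ?_
    rw [Finset.mul_sum]
    refine Finset.sum_congr rfl fun C' _ => ?_
    rw [Col962.f_cyc b A B C]
    ring
  simp only [h1]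
  have h2 : ∑ B, ∑ C, ∑ B', ∑ C', b.adjMat h B B' * b.adjMat h C C' * b.structConst B C A *
        (x (i, B') * y (j, C')) = ∑ B', ∑ C', (∑ B, ∑ C, b.adjMat h B B' * b.adjMat h C C' *
          b.structConst B C A) * (x (i, B') * y (j, C')) := by
    calc _ = ∑ B, ∑ B', ∑ C, ∑ C', b.adjMat h B B' * b.adjMat h C C' * b.structConst B C A *
        (x (i, B') * y (j, C')) := Finset.sum_congr rfl fun B _ => Finset.sum_comm
      _ = ∑ B', ∑ B, ∑ C, ∑ C', b.adjMat h B B' * b.adjMat h C C' * b.structConst B C A *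
        (x (i, B') * y (j, C')) := Finset.sum_comm
      _ = ∑ B', ∑ B, ∑ C', ∑ C, b.adjMat h B B' * b.adjMat h C C' * b.structConst B C A *
        (x (i, B') * y (j, C')) := Finset.sum_congr rfl fun B' _ =>
          Finset.sum_congr rfl fun B _ => Finset.sum_comm
      _ = ∑ B', ∑ C', ∑ B, ∑ C, b.adjMat h B B' * b.adjMat h C C' * b.structConst B C A *
        (x (i, B') * y (j, C')) := Finset.sum_congr rfl fun B' _ => Finset.sum_comm
      _ = _ := by simp only [Finset.sum_mul]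
  rw [h2]
  have h3 : ∀ B' C', (∑ B, ∑ C, b.adjMat h B B' * b.adjMat h C C' * b.structConst B C A) =
      ∑ D, b.structConst B' C' D * b.adjMat h A D := fun B' C' => Col962.adjMat_struct b h B' C' A
  simp only [h3]
  have h4 : ∑ B', ∑ C', (∑ D, b.structConst B' C' D * b.adjMat h A D) * (x (i, B') * y (j, C')) =
      ∑ D, ∑ B', ∑ C', b.adjMat h A D * (b.structConst D B' C' * x (i, B') * y (j, C')) := by
    calc _ = ∑ B', ∑ C', ∑ D, b.adjMat h A D * (b.structConst D B' C' * x (i, B') * y (j, C')) := by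
          refine Finset.sum_congr rfl fun B' _ => Finset.sum_congr rfl fun C' _ => ?_
          rw [Finset.sum_mul]
          refine Finset.sum_congr rfl fun D _ => ?_
          rw [← Col962.f_cyc b D B' C']
          ring
      _ = ∑ B', ∑ D, ∑ C', b.adjMat h A D * (b.structConst D B' C' * x (i, B') * y (j, C')) :=
          Finset.sum_congr rfl fun B' _ => Finset.sum_comm
      _ = _ := Finset.sum_comm
  rw [h4]
  simp only [Finset.mul_sum]

/-- The residual as a configuration. -/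
def resC (x : Cfg N) : Cfg N := WithLp.toLp 2 fun p => Res b.structConst x p.1 p.2

theorem resC_act (h : Matrix.specialUnitaryGroup (Fin N) ℂ) (x : Cfg N) :
    resC b (b.act h x) = b.act h (resC b x) := by
  ext ⟨i, A⟩
  rw [Col962.act_apply]
  change Res b.structConst (b.act h x) i A = ∑ B, b.adjMat h A B * Res b.structConst x i B
  rw [Res_apply, Res_apply]
  split_ifs with hi
  · rw [PiLp.sub_apply, PiLp.smul_apply, brL_act, col_apply, Col962.act_apply, smul_eq_mul,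
      Finset.mul_sum, ← Finset.sum_sub_distrib]
    refine Finset.sum_congr rfl fun B _ => ?_
    rw [PiLp.sub_apply, PiLp.smul_apply, col_apply, smul_eq_mul]
    ring
  · rw [PiLp.smul_apply, col_apply, Col962.act_apply, smul_eq_mul, Finset.mul_sum]
    refine Finset.sum_congr rfl fun B _ => ?_
    rw [PiLp.smul_apply, col_apply, smul_eq_mul]
    ring

theorem norm_resC (x : Cfg N) : ‖resC b x‖ ^ 2 = ‖Res b.structConst x‖ ^ 2 := by
  rw [normsq_eq_col, tgt_normsq]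
  rfl

/-- The potential is invariant. -/
theorem VR_act_one (h : Matrix.specialUnitaryGroup (Fin N) ℂ) (x : Cfg N) :
    VR b 1 (b.act h x) = VR b 1 x := by
  have h1 := normsq_Res b (b.act h x)
  have h2 := normsq_Res b x
  rw [← norm_resC] at h1 h2
  rw [resC_act, Col962.norm_act, h2] at h1
  linarith

theorem VR_act {g : ℝ} (hg : 0 < g) (h : Matrix.specialUnitaryGroup (Fin N) ℂ) (x : Cfg N) :
    VR b g (b.act h x) = VR b g x := by
  rw [VR_scale b hg, VR_scale b hg x, ← Col962.act_smul, VR_act_one]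

theorem Crit_act {g : ℝ} (hg : 0 < g) (h : Matrix.specialUnitaryGroup (Fin N) ℂ) {x : Cfg N}
    (hx : x ∈ Crit b g) : b.act h x ∈ Crit b g := by
  change VR b g (b.act h x) = 0
  rw [VR_act b hg]
  exact hx

theorem infDist_smul_inv {g : ℝ} (hg : 0 < g) (S : Set (Cfg N)) (x : Cfg N) :
    infDist x ((fun y => g⁻¹ • y) '' S) = g⁻¹ * infDist (g • x) S := by
  have h1 : (fun y : Cfg N => g⁻¹ • y) '' S = g⁻¹ • S := rfl
  have h2 : x = g⁻¹ • (g • x) := by rw [smul_smul, inv_mul_cancel₀ hg.ne', one_smul]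
  conv_lhs => rw [h1, h2]
  rw [infDist_smul₀ (inv_ne_zero hg.ne'), norm_inv, Real.norm_of_nonneg hg.le]

/-- **The global lower bound** (V4): the potential dominates the squared distance to the vacua,
with a constant independent of the coupling. -/
theorem VR_lower (hN : 0 < N) :
    ∃ c > 0, ∀ g : ℝ, 0 < g → ∀ x, c * infDist x (Crit b g) ^ 2 ≤ VR b g x := by
  obtain ⟨c, hc, h⟩ := lower_glob (isStr b) (coer b hN) (flowInv_of b fun h y hy => by
    rw [← Crit_one] at hy ⊢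
    exact Crit_act b one_pos h hy)
  refine ⟨c / 2, by positivity, fun g hg x => ?_⟩
  have h1 := h (g • x)
  rw [← Crit_one, normsq_Res] at h1
  rw [Crit_scale b hg, infDist_smul_inv hg, VR_scale b hg x, mul_pow, inv_pow]
  have h2 : c / 2 * infDist (g • x) (Crit b 1) ^ 2 ≤ VR b 1 (g • x) := by linarith
  calc c / 2 * ((g ^ 2)⁻¹ * infDist (g • x) (Crit b 1) ^ 2)
      = (1 / g ^ 2) * (c / 2 * infDist (g • x) (Crit b 1) ^ 2) := by ring
    _ ≤ _ := mul_le_mul_of_nonneg_left h2 (by positivity)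

theorem mem_orb_self (x : Cfg N) : x ∈ orb b x := ⟨1, Col962.act_one b x⟩



theorem orb_nonempty (x : Cfg N) : (orb b x).Nonempty := ⟨x, mem_orb_self b x⟩









end

end Crest.Agent.R330.VLow737
end

-- ▼ part R330/UpHyp_8
section

/-!
# Row 330, S5d-UP: the two energy hypotheses (helper8; to be proved by helper682)

* `EnProp` : `¼ ∫ ‖Dφ‖² + ½ ∫ VR ‖φ‖² ≤ q_{g,1}(φ) + C ∫ ‖φ‖²`, `C` independent of `0 < g ≤ 1`.
* `VzProp` : `c₀ r² ≤ VR` off the tubes of radius `r` about the orbits `SU(N)·g⁻¹ c_l`.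
-/

set_option autoImplicit false

open MeasureTheory Crest.MathPhysics.MatrixQM
open scoped ContDiff InnerProductSpace ENNReal

noncomputable section

namespace Crest.Agent.R330.UpHyp8

open Crest.Agent.R330.Defs478 Crest.Agent.R330.S5Defs798

/-- (EN) -/
def EnProp (N : ℕ) : Prop :=
  ∀ (F : Type) [NormedAddCommGroup F] [InnerProductSpace ℂ F] [FiniteDimensional ℂ F]
    [Nontrivial F] (b : ColorBasis N) (M : FermionRep N F) (R : GaugeAction b M) (G : GammaNine),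
    ∃ C : ℝ, ∀ g : ℝ, 0 < g → g ≤ 1 → ∀ φ : Cfg N → F, IsCoreVec b R φ →
      (1 / 4) * (∫ x, ‖fderiv ℝ φ x‖ ^ 2) + (1 / 2) * (∫ x, VLow737.VR b g x * ‖φ x‖ ^ 2) ≤
        qf b M G g 1 φ + C * ∫ x, ‖φ x‖ ^ 2

/-- (VZ) -/
def VzProp (N : ℕ) : Prop :=
  ∀ (b : ColorBasis N) (c : Nat.Partition N → Cfg N), OrbitList b c →
    ∃ c₀ : ℝ, 0 < c₀ ∧ ∀ g : ℝ, 0 < g → ∀ r : ℝ, 0 ≤ r → ∀ x : Cfg N,
      (∀ l h, r ≤ ‖x - b.act h (g⁻¹ • c l)‖) → c₀ * r ^ 2 ≤ VLow737.VR b g x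

end Crest.Agent.R330.UpHyp8

end
end

-- ▼ part R330/UpA_8
section

/-!
# Row 330, S5d-UP, part A (helper8): localisation of invariant integrals about `p`

* `isoAct` : `b.act` is a continuous isometric action.
* `norm_core`, `norm_fderiv_core` : invariance of `‖φ‖`, `‖Dφ‖` for core vectors.
* `mu1 b p` : Haar measure of `{h | |act h p - p| ≤ 1}`.
* `loc_upper`, `loc_lower` : integrals over balls about `p` against invariant integrals.
-/

set_option autoImplicit false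
set_option linter.unusedSectionVars false

open MeasureTheory Filter Set Metric Topology Crest.MathPhysics.MatrixQM
open scoped ContDiff InnerProductSpace ENNReal

noncomputable section

namespace Crest.Agent.R330.UpA8

open Crest.Agent.R330.Defs478 Crest.Agent.R330.S5Defs798 Crest.Agent.R330.Dbl798
  Crest.Agent.R330.Avg798 Crest.Agent.R330.SUgrp596 Crest.Agent.R330.UpLoc8

variable {N : ℕ} {F : Type*} [NormedAddCommGroup F] [InnerProductSpace ℂ F]
  [FiniteDimensional ℂ F]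

/-- the gauge action -/
theorem isoAct (b : ColorBasis N) : IsoAct (G := SU N) b.act where
  one := Cov837.act_one b
  mul := Cov837.act_mul b
  dist_eq h x y := (Cov837.actL b h).dist_map x y
  cont := Cov837.act_continuous₂ b

theorem norm_core {b : ColorBasis N} {M : FermionRep N F} {R : GaugeAction b M}
    {φ : Cfg N → F} (hφ : IsCoreVec b R φ) (h : SU N) (x : Cfg N) :
    ‖φ (b.act h x)‖ = ‖φ x‖ := by
  rw [hφ.2.2 h x, Cov837.norm_rho]

theorem norm_fderiv_core {b : ColorBasis N} {M : FermionRep N F} {R : GaugeAction b M}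
    {φ : Cfg N → F} (hφ : IsCoreVec b R φ) (h : SU N) (x : Cfg N) :
    ‖fderiv ℝ φ (b.act h x)‖ = ‖fderiv ℝ φ x‖ := by
  have hle : ∀ (h : SU N) (x : Cfg N), ‖fderiv ℝ φ x‖ ≤ ‖fderiv ℝ φ (b.act h x)‖ := by
    intro h x
    refine ContinuousLinearMap.opNorm_le_bound _ (norm_nonneg _) fun v => ?_
    have h1 := Cov837.fderiv_tg R h (x := x) (cv_diff hφ (b.act h x)) v
    rw [((Cov837.isCoreVec_iff R φ).1 hφ).2.2 h] at h1
    rw [h1, Cov837.norm_rho]
    refine (ContinuousLinearMap.le_opNorm _ _).trans (le_of_eq ?_)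
    rw [Cov837.norm_act]
  refine le_antisymm ?_ (hle h x)
  have h2 := hle h⁻¹ (b.act h x)
  rwa [Cov837.act_inv_act] at h2

/-- the measure of the group elements moving `p` by at most `1` -/
def mu1 (b : ColorBasis N) (p : Cfg N) : ℝ := (haarSU N).real (near (G := SU N) b.act p 1)

theorem mu1_pos (b : ColorBasis N) (p : Cfg N) : 0 < mu1 b p :=
  ENNReal.toReal_pos (near_pos (haarSU N) (isoAct b) p one_pos).ne' (measure_ne_top _ _)

theorem ofReal_mu1 (b : ColorBasis N) (p : Cfg N) :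
    ENNReal.ofReal (mu1 b p) = (haarSU N) (near (G := SU N) b.act p 1) :=
  ENNReal.ofReal_toReal (measure_ne_top _ _)

/-- growth function -/
def gr (N : ℕ) (r : ℝ) : ℝ := (1 + 4 * r) ^ Module.finrank ℝ (Cfg N)

theorem gr_nonneg {r : ℝ} (hr : 0 ≤ r) : 0 ≤ gr N r := by unfold gr; positivity

section loc

variable {V : Type*} [NormedAddCommGroup V] {u : Cfg N → V}

theorem ball_shift (u : Cfg N → V) (p : Cfg N) (r : ℝ) :
    ∫ y in closedBall (0 : Cfg N) r, ‖u (p + y)‖ ^ 2 = ∫ x in closedBall p r, ‖u x‖ ^ 2 := by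
  have h1 : (fun y : Cfg N => p + y) ⁻¹' (closedBall p r) = closedBall 0 r := by
    ext y
    simp [dist_eq_norm]
  have hmp : MeasurePreserving (fun y : Cfg N => p + y) volume volume :=
    measurePreserving_add_left volume p
  have hemb : MeasurableEmbedding (fun y : Cfg N => p + y) :=
    (MeasurableEquiv.addLeft p).measurableEmbedding
  have h2 := hmp.setIntegral_preimage_emb hemb (fun x => ‖u x‖ ^ 2) (closedBall p r)
  rw [h1] at h2
  exact h2

theorem intOn_ball (hu : Continuous u) (p : Cfg N) (r : ℝ) :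
    IntegrableOn (fun x => ‖u x‖ ^ 2) (closedBall p r) volume :=
  (hu.norm.pow 2).continuousOn.integrableOn_compact (isCompact_closedBall p r)

theorem int_cc (hu : Continuous u) (hc : HasCompactSupport u) :
    Integrable (fun x => ‖u x‖ ^ 2) volume := by
  have h1 : Continuous fun x => ‖u x‖ ^ 2 := hu.norm.pow 2
  have h2 : HasCompactSupport fun x => ‖u x‖ ^ 2 := by
    refine hc.mono fun x hx => ?_
    rw [Function.mem_support] at hx ⊢
    intro h0
    exact hx (by rw [h0, norm_zero]; norm_num)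
  exact h1.integrable_of_hasCompactSupport h2

/-- upper bound on balls about `p` -/
theorem loc_upper {b : ColorBasis N} (hu : Continuous u) (hc : HasCompactSupport u)
    (hinv : ∀ h x, ‖u (b.act h x)‖ = ‖u x‖) (p : Cfg N) {r : ℝ} (hr : 0 ≤ r) :
    ∫ y in closedBall (0 : Cfg N) r, ‖u (p + y)‖ ^ 2 ≤ gr N r * mu1 b p * ∫ x, ‖u x‖ ^ 2 := by
  have hi : Integrable (fun x => ‖u x‖ ^ 2) volume := int_cc hu hc
  rw [ball_shift]
  have h0 : 0 ≤ ∫ x, ‖u x‖ ^ 2 := integral_nonneg fun x => by positivity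
  have hg := gr_nonneg (N := N) hr
  have hm := (mu1_pos b p).le
  refine int_le_of_lint (intOn_ball hu p r) (by positivity) ?_
  have hF : Measurable fun x => ‖u x‖ₑ ^ 2 := hu.enorm.measurable.pow_const 2
  have h1 := ball_le (haarSU N) (volume : Measure (Cfg N)) (isoAct b)
    (fun g => Cov837.act_measurePreserving b g) hF (fun g x => by
      show ‖u (b.act g x)‖ₑ ^ 2 = ‖u x‖ₑ ^ 2
      rw [← ofReal_norm, ← ofReal_norm, hinv]) p r
  have e1 : ∫⁻ x, ‖u x‖ₑ ^ 2 = ENNReal.ofReal (∫ x, ‖u x‖ ^ 2) := lint_eq hi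
  have h2 := doubling (haarSU N) (isoAct b) p one_pos (show (0 : ℝ) ≤ 2 * r by positivity)
  have e2 : (1 + 2 * (2 * r) / 1) ^ Module.finrank ℝ (Cfg N) = gr N r := by
    unfold gr
    congr 1
    ring
  rw [e2] at h2
  calc ∫⁻ x in closedBall p r, ‖u x‖ₑ ^ 2
      ≤ (haarSU N) (near (G := SU N) b.act p (2 * r)) * ∫⁻ x, ‖u x‖ₑ ^ 2 := h1
    _ = (haarSU N) (near (G := SU N) b.act p (2 * r)) * ENNReal.ofReal (∫ x, ‖u x‖ ^ 2) := by
        rw [e1]
    _ ≤ (ENNReal.ofReal (gr N r) * (haarSU N) (near (G := SU N) b.act p 1)) *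
          ENNReal.ofReal (∫ x, ‖u x‖ ^ 2) := mul_le_mul_left h2 _
    _ = ENNReal.ofReal (gr N r * mu1 b p * ∫ x, ‖u x‖ ^ 2) := by
        rw [ENNReal.ofReal_mul (by positivity), ENNReal.ofReal_mul hg, ofReal_mu1]

/-- lower bound on balls about `p` -/
theorem loc_lower {b : ColorBasis N} (hu : Continuous u) (hc : HasCompactSupport u)
    (hinv : ∀ h x, ‖u (b.act h x)‖ = ‖u x‖) (p : Cfg N) (r : ℝ) {S : Set (Cfg N)}
    (hSm : MeasurableSet S) (hS : ∀ x ∈ S, ∃ h : SU N, dist x (b.act h p) ≤ r) :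
    mu1 b p * ∫ x in S, ‖u x‖ ^ 2 ≤ ∫ y in closedBall (0 : Cfg N) (r + 1), ‖u (p + y)‖ ^ 2 := by
  have hi : Integrable (fun x => ‖u x‖ ^ 2) volume := int_cc hu hc
  rw [ball_shift]
  have hF : Measurable fun x => ‖u x‖ₑ ^ 2 := hu.enorm.measurable.pow_const 2
  have h1 := le_ball (haarSU N) (volume : Measure (Cfg N)) (isoAct b)
    (fun g => Cov837.act_measurePreserving b g) hF (fun g x => by
      show ‖u (b.act g x)‖ₑ ^ 2 = ‖u x‖ₑ ^ 2
      rw [← ofReal_norm, ← ofReal_norm, hinv]) p r 1 hSm hS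
  have e1 : ∫⁻ x in S, ‖u x‖ₑ ^ 2 = ENNReal.ofReal (∫ x in S, ‖u x‖ ^ 2) :=
    lint_eq hi.integrableOn
  have e2 : ∫⁻ x in closedBall p (r + 1), ‖u x‖ₑ ^ 2 =
      ENNReal.ofReal (∫ x in closedBall p (r + 1), ‖u x‖ ^ 2) := lint_eq (intOn_ball hu p (r + 1))
  have h2 : ENNReal.ofReal (mu1 b p * ∫ x in S, ‖u x‖ ^ 2) ≤
      ENNReal.ofReal (∫ x in closedBall p (r + 1), ‖u x‖ ^ 2) := by
    rw [ENNReal.ofReal_mul (mu1_pos b p).le, ofReal_mu1, ← e1, ← e2]
    exact h1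
  exact (ENNReal.ofReal_le_ofReal_iff (integral_nonneg fun x => by positivity)).1 h2

end loc

end Crest.Agent.R330.UpA8

end
end

-- ▼ part R330/UpB_8
section

/-!
# Row 330, S5d-UP, part B (helper8): the shifted vectors and their weak equations

* `cs_ball` : Cauchy–Schwarz against a function supported in a ball.
* `lf φ p s y = s • φ (p + y)`.
* `int_lcharge`, `int_brk` : the weak equations of `lf φ (g⁻¹ c) s` up to errors of order `g`.
-/

set_option autoImplicit false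
set_option linter.unusedSectionVars false

open MeasureTheory Filter Set Metric Topology Crest.MathPhysics.MatrixQM
open scoped ContDiff InnerProductSpace ENNReal

noncomputable section

namespace Crest.Agent.R330.UpB8

open Crest.Agent.R330.Defs478 Crest.Agent.R330.S5Defs798 Crest.Agent.R330.IBP837
  Crest.Agent.R330.UpLoc8 Crest.Agent.R330.UpA8

/-! ### Cauchy–Schwarz -/

section cs

variable {ι : Type*} [Fintype ι]
  {F : Type*} [NormedAddCommGroup F] [InnerProductSpace ℂ F]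

local notation "E" => EuclideanSpace ℝ ι

theorem cs_ball {h ψ : E → F} {r : ℝ}
    (hm : AEStronglyMeasurable h (volume.restrict (closedBall (0 : E) r)))
    (hh : IntegrableOn (fun x => ‖h x‖ ^ 2) (closedBall 0 r) volume)
    (hψ : Continuous ψ) (hψ0 : ∀ x, x ∉ closedBall (0 : E) r → ψ x = 0) :
    ‖∫ x, ⟪h x, ψ x⟫_ℂ‖ ^ 2 ≤
      (∫ x in closedBall (0 : E) r, ‖h x‖ ^ 2) * ∫ x in closedBall (0 : E) r, ‖ψ x‖ ^ 2 := by
  set B := closedBall (0 : E) r with hB
  have hp : IntegrableOn (fun x => ‖ψ x‖ ^ 2) B volume :=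
    (hψ.norm.pow 2).continuousOn.integrableOn_compact (isCompact_closedBall 0 r)
  have hmul : IntegrableOn (fun x => ‖h x‖ * ‖ψ x‖) B volume := by
    refine Integrable.mono' (hh.add hp) (hm.norm.mul hψ.norm.aestronglyMeasurable)
      (Eventually.of_forall fun x => ?_)
    rw [Real.norm_of_nonneg (by positivity)]
    show ‖h x‖ * ‖ψ x‖ ≤ ‖h x‖ ^ 2 + ‖ψ x‖ ^ 2
    nlinarith [sq_nonneg (‖h x‖ - ‖ψ x‖), sq_nonneg (‖h x‖), sq_nonneg (‖ψ x‖)]
  have e1 : ∫ x, ⟪h x, ψ x⟫_ℂ = ∫ x in B, ⟪h x, ψ x⟫_ℂ := by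
    rw [setIntegral_eq_integral_of_forall_compl_eq_zero]
    intro x hx
    rw [hψ0 x hx, inner_zero_right]
  have e2 : ‖∫ x, ⟪h x, ψ x⟫_ℂ‖ ≤ ∫ x in B, ‖h x‖ * ‖ψ x‖ := by
    rw [e1]
    refine (norm_integral_le_integral_norm _).trans ?_
    refine integral_mono_of_nonneg (Eventually.of_forall fun x => norm_nonneg _) hmul
      (Eventually.of_forall fun x => norm_inner_le_norm _ _)
  have e3 : ∀ t : ℝ, 0 ≤ (∫ x in B, ‖ψ x‖ ^ 2) * (t * t) +
      (-2 * ∫ x in B, ‖h x‖ * ‖ψ x‖) * t + ∫ x in B, ‖h x‖ ^ 2 := by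
    intro t
    have e4 : 0 ≤ ∫ x in B, (‖h x‖ - t * ‖ψ x‖) ^ 2 := integral_nonneg fun x => sq_nonneg _
    have e5 : ∫ x in B, (‖h x‖ - t * ‖ψ x‖) ^ 2 =
        ∫ x in B, ((t * t) * ‖ψ x‖ ^ 2 + (-2 * t) * (‖h x‖ * ‖ψ x‖) + ‖h x‖ ^ 2) := by
      refine integral_congr_ae (Eventually.of_forall fun x => ?_)
      show (‖h x‖ - t * ‖ψ x‖) ^ 2 = _
      ring
    have i1 : Integrable (fun x => (t * t) * ‖ψ x‖ ^ 2) (volume.restrict B) := hp.const_mul _
    have i2 : Integrable (fun x => (-2 * t) * (‖h x‖ * ‖ψ x‖)) (volume.restrict B) :=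
      hmul.const_mul _
    have i12 : Integrable (fun x => (t * t) * ‖ψ x‖ ^ 2 + (-2 * t) * (‖h x‖ * ‖ψ x‖))
      (volume.restrict B) := i1.add i2
    rw [e5, integral_add i12 hh, integral_add i1 i2, integral_const_mul, integral_const_mul] at e4
    linarith
  have e6 := discrim_le_zero e3
  rw [discrim] at e6
  have e7 : 0 ≤ ∫ x in B, ‖h x‖ * ‖ψ x‖ := integral_nonneg fun x => by positivity
  calc ‖∫ x, ⟪h x, ψ x⟫_ℂ‖ ^ 2 ≤ (∫ x in B, ‖h x‖ * ‖ψ x‖) ^ 2 :=
        pow_le_pow_left₀ (norm_nonneg _) e2 2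
    _ ≤ _ := by nlinarith

theorem tendsto_of_sq {X : Type*} {l : Filter X} {V : Type*} [NormedAddCommGroup V] {z : X → V}
    (h : Tendsto (fun n => ‖z n‖ ^ 2) l (𝓝 0)) : Tendsto z l (𝓝 0) := by
  rw [tendsto_zero_iff_norm_tendsto_zero]
  have h1 := (Real.continuous_sqrt.tendsto 0).comp h
  simp only [Real.sqrt_zero] at h1
  refine h1.congr fun n => ?_
  exact Real.sqrt_sq (norm_nonneg _)

theorem exists_ball_supp {V : Type*} [NormedAddCommGroup V] {ψ : E → V}
    (hc : HasCompactSupport ψ) : ∃ r : ℝ, 0 ≤ r ∧ ∀ x, x ∉ closedBall (0 : E) r → ψ x = 0 := by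
  obtain ⟨r, hr⟩ := (isBounded_iff_subset_closedBall (0 : E)).1 hc.isCompact.isBounded
  refine ⟨max r 0, le_max_right _ _, fun x hx => image_eq_zero_of_notMem_tsupport fun h => ?_⟩
  exact hx (closedBall_subset_closedBall (le_max_left _ _) (hr h))

/-- pairing of a sequence tending to zero locally -/
theorem tendsto_pair_zero {X : Type*} {l : Filter X} {h : X → E → F} {ψ : E → F}
    (hψ : Continuous ψ) (hc : HasCompactSupport ψ)
    (hm : ∀ n r, AEStronglyMeasurable (h n) (volume.restrict (closedBall (0 : E) r)))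
    (hh : ∀ n r, IntegrableOn (fun x => ‖h n x‖ ^ 2) (closedBall (0 : E) r) volume)
    (ht : ∀ r : ℝ, 0 ≤ r → Tendsto (fun n => ∫ x in closedBall (0 : E) r, ‖h n x‖ ^ 2) l (𝓝 0)) :
    Tendsto (fun n => ∫ x, ⟪h n x, ψ x⟫_ℂ) l (𝓝 0) := by
  obtain ⟨r, hr, hψ0⟩ := exists_ball_supp hc
  refine tendsto_of_sq ?_
  have h2 := (ht r hr).mul_const (∫ x in closedBall (0 : E) r, ‖ψ x‖ ^ 2)
  rw [zero_mul] at h2
  exact squeeze_zero (fun n => by positivity) (fun n => cs_ball (hm n r) (hh n r) hψ hψ0) h2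

end cs

variable {N : ℕ} {F : Type*} [NormedAddCommGroup F] [InnerProductSpace ℂ F]
  [FiniteDimensional ℂ F]

/-! ### the shifted vectors -/

/-- `y ↦ s • φ (p + y)` -/
def lf (φ : Cfg N → F) (p : Cfg N) (s : ℝ) (y : Cfg N) : F := (s : ℂ) • φ (p + y)

theorem contDiff_lf {φ : Cfg N → F} (hφ : ContDiff ℝ ∞ φ) (p : Cfg N) (s : ℝ) :
    ContDiff ℝ ∞ (lf φ p s) :=
  contDiff_const.smul (hφ.comp (contDiff_const.add contDiff_id))

theorem fderiv_lf {φ : Cfg N → F} (hφ : Differentiable ℝ φ) (p : Cfg N) (s : ℝ) (y v : Cfg N) :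
    fderiv ℝ (lf φ p s) y v = (s : ℂ) • fderiv ℝ φ (p + y) v := by
  have h1 : HasFDerivAt (fun y : Cfg N => p + y) (ContinuousLinearMap.id ℝ (Cfg N)) y :=
    (hasFDerivAt_id y).const_add p
  have h2 := ((hφ (p + y)).hasFDerivAt.comp y h1).const_smul (s : ℂ)
  have h3 : fderiv ℝ (lf φ p s) y = _ := h2.fderiv
  rw [h3]
  rfl

theorem norm_lf (φ : Cfg N → F) (p : Cfg N) (s : ℝ) (y : Cfg N) :
    ‖lf φ p s y‖ ^ 2 = s ^ 2 * ‖φ (p + y)‖ ^ 2 := by
  unfold lf
  rw [norm_smul, mul_pow, Complex.norm_real, Real.norm_eq_abs, sq_abs]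

theorem norm_fderiv_lf {φ : Cfg N → F} (hφ : Differentiable ℝ φ) (p : Cfg N) (s : ℝ)
    (y : Cfg N) : ‖fderiv ℝ (lf φ p s) y‖ ^ 2 ≤ s ^ 2 * ‖fderiv ℝ φ (p + y)‖ ^ 2 := by
  have h1 : ‖fderiv ℝ (lf φ p s) y‖ ≤ |s| * ‖fderiv ℝ φ (p + y)‖ := by
    refine ContinuousLinearMap.opNorm_le_bound _ (by positivity) fun v => ?_
    rw [fderiv_lf hφ, norm_smul, Complex.norm_real, Real.norm_eq_abs, mul_assoc]
    exact mul_le_mul_of_nonneg_left (ContinuousLinearMap.le_opNorm _ _) (abs_nonneg _)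
  calc ‖fderiv ℝ (lf φ p s) y‖ ^ 2 ≤ (|s| * ‖fderiv ℝ φ (p + y)‖) ^ 2 :=
        pow_le_pow_left₀ (norm_nonneg _) h1 2
    _ = _ := by rw [mul_pow, sq_abs]

/-! ### the linearised charge -/

section lin

variable (b : ColorBasis N) (M : FermionRep N F) (G : GammaNine) (c : Cfg N) (α : Fin 16)

theorem lcharge_eq (φ : Cfg N → F) :
    lcharge b M G c α φ = chargeW M G (wlin b G c) α φ := by
  funext x
  rw [chargeW_apply]
  unfold lcharge kin
  congr 1
  · rw [Fintype.sum_prod_type]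
    refine Finset.sum_congr rfl fun i _ => Finset.sum_congr rfl fun A _ => ?_
    rw [dco_apply, Finset.smul_sum]
    refine Finset.sum_congr rfl fun β _ => ?_
    rw [smul_smul]
  · rw [vco_apply]

theorem wlin_continuous (β : Fin 16) (A : Fin (N ^ 2 - 1)) : Continuous (wlin b G c α β A) := by
  unfold wlin
  have h1 := Brid837.wpot_continuous (b := b) (G := G) (g := 1) (m := 1) (α := α) β A
  have h2 := Brid837.wpot_continuous (b := b) (G := G) (g := 1) (m := 0) (α := α) β A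
  exact ((h1.comp (continuous_const.add continuous_id)).sub continuous_const).sub h2

theorem continuous_lcharge {ψ : Cfg N → F} (hψ : ContDiff ℝ 1 ψ) :
    Continuous (lcharge b M G c α ψ) := by
  rw [lcharge_eq]
  exact continuous_chargeW (wlin_continuous b G c α) hψ

theorem hcs_lcharge {ψ : Cfg N → F} (hψ : HasCompactSupport ψ) :
    HasCompactSupport (lcharge b M G c α ψ) := by
  rw [lcharge_eq]
  exact hasCompactSupport_chargeW hψ

/-- the quadratic part -/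
def vq (ψ : Cfg N → F) (y : Cfg N) : F := vco M (fun β A => wpot b G 1 0 α β A y) (ψ y)

theorem continuous_vq {ψ : Cfg N → F} (hψ : Continuous ψ) : Continuous (vq b M G α ψ) := by
  unfold vq
  simp only [vco_apply]
  refine continuous_finsetSum _ fun A _ => continuous_finsetSum _ fun β _ => ?_
  exact (Complex.continuous_ofReal.comp (continuous_wpot b G 1 0 α β A)).smul
    ((continuous_theta M β A).comp hψ)

theorem hcs_vq {ψ : Cfg N → F} (hψ : HasCompactSupport ψ) :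
    HasCompactSupport (vq b M G α ψ) := by
  refine hψ.mono fun x hx => ?_
  rw [Function.mem_support] at hx ⊢
  intro h0
  exact hx (by unfold vq; rw [h0, map_zero])

end lin

theorem chargeW_shift {M : FermionRep N F} {G : GammaNine}
    {W : Fin 16 → Fin 16 → Fin (N ^ 2 - 1) → Cfg N → ℝ} {α : Fin 16} {φ : Cfg N → F}
    (hφ : Differentiable ℝ φ) (p : Cfg N) (s : ℝ) (y : Cfg N) :
    chargeW M G (fun α β A y => W α β A (p + y)) α (lf φ p s) y =
      (s : ℂ) • chargeW M G W α φ (p + y) := by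
  rw [chargeW_apply, chargeW_apply, smul_add, Finset.smul_sum]
  congr 1
  · refine Finset.sum_congr rfl fun k _ => ?_
    rw [fderiv_lf hφ, map_smul, smul_comm]
  · rw [lf, map_smul]

/-- the linearised charge as shifted charge minus the quadratic part -/
theorem lcharge_split {b : ColorBasis N} (M : FermionRep N F) {G : GammaNine} {c : Cfg N}
    (hc : ∀ α β A, wpot b G 1 1 α β A c = 0) {g : ℝ} (hg : g ≠ 0) (α : Fin 16)
    (ψ : Cfg N → F) (y : Cfg N) :
    lcharge b M G c α ψ y =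
      chargeW M G (fun α β A y => wpot b G g 1 α β A (g⁻¹ • c + y)) α ψ y -
        (g : ℂ) • vq b M G α ψ y := by
  rw [lcharge_eq]
  have h1 := chargeW_sub_chargeW (M := M) (G := G) (α := α) (φ := ψ)
    (W := fun α β A y => wpot b G g 1 α β A (g⁻¹ • c + y)) (wlin b G c) y
  have h2 : vco M (fun β A => wpot b G g 1 α β A (g⁻¹ • c + y) - wlin b G c α β A y) (ψ y) =
      (g : ℂ) • vq b M G α ψ y := by
    unfold vq
    rw [vco_apply, vco_apply, Finset.smul_sum]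
    refine Finset.sum_congr rfl fun A _ => ?_
    rw [Finset.smul_sum]
    refine Finset.sum_congr rfl fun β _ => ?_
    rw [wpot_shift b G (hc α β A) hg, smul_smul]
    congr 1
    push_cast
    ring
  rw [← h2, ← h1]
  abel

/-- the weak linearised equation with its error -/
theorem int_lcharge {b : ColorBasis N} {M : FermionRep N F} {G : GammaNine} {c : Cfg N}
    (hc : ∀ α β A, wpot b G 1 1 α β A c = 0) {g : ℝ} (hg : g ≠ 0) (α : Fin 16) {φ : Cfg N → F}
    (hφ : ContDiff ℝ ∞ φ) (s : ℝ) {ψ : Cfg N → F} (hψ : ContDiff ℝ ∞ ψ)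
    (hψc : HasCompactSupport ψ) :
    ∫ y, ⟪lf φ (g⁻¹ • c) s y, lcharge b M G c α ψ y⟫_ℂ =
      (∫ y, ⟪lf (dcharge b M G g 1 α φ) (g⁻¹ • c) s y, ψ y⟫_ℂ) -
        (g : ℂ) * ∫ y, ⟪lf φ (g⁻¹ • c) s y, vq b M G α ψ y⟫_ℂ := by
  set p := g⁻¹ • c with hp
  have hWc : ∀ β A, Continuous fun y : Cfg N => wpot b G g 1 α β A (p + y) := fun β A =>
    (Brid837.wpot_continuous (b := b) (G := G) (g := g) (m := 1) (α := α) β A).comp
      (continuous_const.add continuous_id)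
  have hlf := contDiff_lf hφ p s
  have hψ1 : ContDiff ℝ 1 ψ := hψ.of_le (by simp)
  have h1 : Integrable fun y => ⟪lf φ p s y, chargeW M G
      (fun α β A y => wpot b G g 1 α β A (p + y)) α ψ y⟫_ℂ :=
    integrable_inner_of_cont hlf.continuous (continuous_chargeW hWc hψ1)
      (Or.inr (hasCompactSupport_chargeW hψc))
  have h2 : Integrable fun y => ⟪lf φ p s y, (g : ℂ) • vq b M G α ψ y⟫_ℂ := by
    refine integrable_inner_of_cont hlf.continuous
      (continuous_const.smul (continuous_vq b M G α hψ.continuous)) (Or.inr ?_)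
    exact (hcs_vq b M G α hψc).smul_left (f := fun _ => (g : ℂ))
  have h3 : ∫ y, ⟪lf φ p s y, lcharge b M G c α ψ y⟫_ℂ =
      ∫ y, (⟪lf φ p s y, chargeW M G (fun α β A y => wpot b G g 1 α β A (p + y)) α ψ y⟫_ℂ -
        ⟪lf φ p s y, (g : ℂ) • vq b M G α ψ y⟫_ℂ) := by
    refine integral_congr_ae (Eventually.of_forall fun y => ?_)
    show ⟪lf φ p s y, lcharge b M G c α ψ y⟫_ℂ = _
    rw [lcharge_split M hc hg α ψ y, inner_sub_right]
  rw [h3, integral_sub h1 h2]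
  congr 1
  · rw [← chargeW_symm (W := fun α β A y => wpot b G g 1 α β A (p + y)) hWc
      (hlf.of_le (by simp)) hψ1 (Or.inr hψc)]
    refine integral_congr_ae (Eventually.of_forall fun y => ?_)
    show ⟪chargeW M G (fun α β A y => wpot b G g 1 α β A (p + y)) α (lf φ p s) y, ψ y⟫_ℂ = _
    rw [chargeW_shift (hφ.differentiable (by simp)), ← Brid837.dcharge_eq]
    rfl
  · rw [← integral_const_mul]
    refine integral_congr_ae (Eventually.of_forall fun y => ?_)
    show ⟪lf φ p s y, (g : ℂ) • vq b M G α ψ y⟫_ℂ = _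
    rw [inner_smul_right]

/-! ### the gauge direction -/

theorem brk_eq (b : ColorBasis N) (om : Fin (N ^ 2 - 1) → ℝ) (x : Cfg N) :
    brk b om x = Lift406.brC b om x := by
  unfold brk Lift406.brC
  congr 1
  funext iA
  rw [Lift406.adL_apply, CoerCfg87.br]
  refine Finset.sum_congr rfl fun A _ => Finset.sum_congr rfl fun B _ => ?_
  rw [Lift406.structConst_cyc b iA.2 A B]
  rfl

/-- the gauge direction as a linear map of the configuration -/
def brkL (b : ColorBasis N) (om : Fin (N ^ 2 - 1) → ℝ) : Cfg N →L[ℝ] Cfg N :=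
  LinearMap.toContinuousLinearMap
    { toFun := brk b om
      map_add' := fun x y => by
        rw [brk_eq, brk_eq, brk_eq]
        ext iA
        show Lift406.adL b om (fun B => (x + y) (iA.1, B)) iA.2 = _
        have h : (fun B => (x + y) (iA.1, B)) = (fun B => x (iA.1, B)) + fun B => y (iA.1, B) := rfl
        rw [h, map_add]
        rfl
      map_smul' := fun r x => by
        rw [brk_eq, brk_eq]
        ext iA
        show Lift406.adL b om (fun B => (r • x) (iA.1, B)) iA.2 = _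
        have h : (fun B => (r • x) (iA.1, B)) = r • (fun B => x (iA.1, B)) := rfl
        rw [h, map_smul]
        rfl }

theorem brkL_apply (b : ColorBasis N) (om : Fin (N ^ 2 - 1) → ℝ) (x : Cfg N) :
    brkL b om x = brk b om x := rfl

theorem fderiv_lf_brk [Nontrivial F] {b : ColorBasis N} {M : FermionRep N F}
    {R : GaugeAction b M} {φ : Cfg N → F} (hφ : IsCoreVec b R φ) (c : Cfg N) {g : ℝ}
    (hg : g ≠ 0) (s : ℝ) (om : Fin (N ^ 2 - 1) → ℝ) (y : Cfg N) :
    fderiv ℝ (lf φ (g⁻¹ • c) s) y (brk b om c) =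
      g • (Lift406.Bop b M om (lf φ (g⁻¹ • c) s y) -
        fderiv ℝ (lf φ (g⁻¹ • c) s) y (brk b om y)) := by
  have h1 : brk b om c = g • (brk b om (g⁻¹ • c + y) - brk b om y) := by
    rw [← brkL_apply, ← brkL_apply, ← brkL_apply, map_add, map_smul, add_sub_cancel_right,
      smul_smul, mul_inv_cancel₀ hg, one_smul]
  have h2 : fderiv ℝ (lf φ (g⁻¹ • c) s) y (brk b om (g⁻¹ • c + y)) =
      Lift406.Bop b M om (lf φ (g⁻¹ • c) s y) := by
    rw [fderiv_lf (cv_diff hφ), brk_eq, Lift406.fderiv_equivariant R φ hφ.2.2 om _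
      (cv_diff hφ _), lf, map_smul]
  conv_lhs => rw [h1]
  rw [map_smul, map_sub, h2]

/-- the error in the gauge direction -/
def be (b : ColorBasis N) (M : FermionRep N F) (om : Fin (N ^ 2 - 1) → ℝ) (f : Cfg N → F)
    (y : Cfg N) : F := Lift406.Bop b M om (f y) - fderiv ℝ f y (brk b om y)

theorem continuous_be (b : ColorBasis N) (M : FermionRep N F) (om : Fin (N ^ 2 - 1) → ℝ)
    {f : Cfg N → F} (hf : ContDiff ℝ ∞ f) : Continuous (be b M om f) := by
  unfold be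
  refine ((Lift406.Bop b M om).continuous.comp hf.continuous).sub ?_
  exact (hf.continuous_fderiv (by simp)).clm_apply (brkL b om).continuous

/-- the weak gauge equation with its error -/
theorem int_brk [Nontrivial F] {b : ColorBasis N} {M : FermionRep N F} {R : GaugeAction b M}
    {φ : Cfg N → F} (hφ : IsCoreVec b R φ) (c : Cfg N) {g : ℝ} (hg : g ≠ 0) (s : ℝ)
    (om : Fin (N ^ 2 - 1) → ℝ) {ψ : Cfg N → F} (hψ : ContDiff ℝ ∞ ψ)
    (hψc : HasCompactSupport ψ) :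
    ∫ y, ⟪lf φ (g⁻¹ • c) s y, fderiv ℝ ψ y (brk b om c)⟫_ℂ =
      -((g : ℂ) * ∫ y, ⟪be b M om (lf φ (g⁻¹ • c) s) y, ψ y⟫_ℂ) := by
  have hl1 : ContDiff ℝ 1 (lf φ (g⁻¹ • c) s) := (contDiff_lf hφ.1 (g⁻¹ • c) s).of_le (by simp)
  have h1 := ibp (μ := (volume : Measure (Cfg N))) hl1 (hψ.of_le (by simp)) (Or.inr hψc)
    (brk b om c)
  have h2 : ∫ y, ⟪fderiv ℝ (lf φ (g⁻¹ • c) s) y (brk b om c), ψ y⟫_ℂ =
      (g : ℂ) * ∫ y, ⟪be b M om (lf φ (g⁻¹ • c) s) y, ψ y⟫_ℂ := by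
    rw [← integral_const_mul]
    refine integral_congr_ae (Eventually.of_forall fun y => ?_)
    show ⟪fderiv ℝ (lf φ (g⁻¹ • c) s) y (brk b om c), ψ y⟫_ℂ = _
    rw [fderiv_lf_brk hφ c hg s om y, ← be]
    show ⟪g • be b M om (lf φ (g⁻¹ • c) s) y, ψ y⟫_ℂ = _
    rw [← Complex.coe_smul, inner_smul_left, Complex.conj_ofReal]
  rw [h2] at h1
  rw [h1, neg_neg]

theorem norm_be_sq (b : ColorBasis N) (M : FermionRep N F) (om : Fin (N ^ 2 - 1) → ℝ)
    (f : Cfg N → F) (y : Cfg N) :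
    ‖be b M om f y‖ ^ 2 ≤ 2 * ‖Lift406.Bop b M om‖ ^ 2 * ‖f y‖ ^ 2 +
      2 * (‖brkL b om‖ * ‖y‖) ^ 2 * ‖fderiv ℝ f y‖ ^ 2 := by
  have h1 : ‖be b M om f y‖ ≤ ‖Lift406.Bop b M om‖ * ‖f y‖ +
      ‖fderiv ℝ f y‖ * (‖brkL b om‖ * ‖y‖) := by
    unfold be
    refine (norm_sub_le _ _).trans (add_le_add (ContinuousLinearMap.le_opNorm _ _) ?_)
    refine (ContinuousLinearMap.le_opNorm _ _).trans ?_
    exact mul_le_mul_of_nonneg_left (ContinuousLinearMap.le_opNorm (brkL b om) y) (norm_nonneg _)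
  have h2 := pow_le_pow_left₀ (norm_nonneg _) h1 2
  nlinarith [sq_nonneg (‖Lift406.Bop b M om‖ * ‖f y‖ - ‖fderiv ℝ f y‖ * (‖brkL b om‖ * ‖y‖))]

end Crest.Agent.R330.UpB8

end
end

-- ▼ part R330/UpC_8
section

/-!
# Row 330, S5d-UP, part C (helper8): the local limit of a low energy sequence

`local_limit` : for core vectors `φ n` with `∫ ‖φ n‖² = 1`, bounded `∫ ‖Dφ n‖²` and
`qf (g n) 1 (φ n) → 0`, `g n → 0`, the functions `lf (φ n) ((g n)⁻¹ c) (μ₁)^(-1/2)` converge in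
`L²_loc` along the hyperfilter to a weak solution of the linearised equations of moderate growth.
-/

set_option autoImplicit false
set_option linter.unusedSectionVars false

open MeasureTheory Filter Set Metric Topology Crest.MathPhysics.MatrixQM
open scoped ContDiff InnerProductSpace ENNReal

noncomputable section

namespace Crest.Agent.R330.UpC8

open Crest.Agent.R330.Defs478 Crest.Agent.R330.S5Defs798 Crest.Agent.R330.IBP837
  Crest.Agent.R330.UpLoc8 Crest.Agent.R330.UpA8 Crest.Agent.R330.UpB8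

local notation "𝓤" => (hyperfilter ℕ : Filter ℕ)

/-! ### analysis on `ℝ^ι` -/

section an

variable {ι : Type*} [Fintype ι] {F : Type*} [NormedAddCommGroup F] [InnerProductSpace ℂ F]

local notation "E" => EuclideanSpace ℝ ι

theorem int_pair {h χ : E → F} (hm : AEStronglyMeasurable h volume)
    (hh : ∀ r : ℝ, IntegrableOn (fun x => ‖h x‖ ^ 2) (closedBall (0 : E) r) volume)
    (hχ : Continuous χ) (hc : HasCompactSupport χ) :
    Integrable (fun x => ⟪h x, χ x⟫_ℂ) volume := by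
  obtain ⟨r, hr, hχ0⟩ := exists_ball_supp hc
  have hp : IntegrableOn (fun x => ‖χ x‖ ^ 2) (closedBall (0 : E) r) volume :=
    (hχ.norm.pow 2).continuousOn.integrableOn_compact (isCompact_closedBall 0 r)
  have h1 : IntegrableOn (fun x => ⟪h x, χ x⟫_ℂ) (closedBall (0 : E) r) volume := by
    refine Integrable.mono' ((hh r).add hp) (hm.restrict.inner hχ.aestronglyMeasurable)
      (Eventually.of_forall fun x => ?_)
    refine (norm_inner_le_norm _ _).trans ?_
    show ‖h x‖ * ‖χ x‖ ≤ ‖h x‖ ^ 2 + ‖χ x‖ ^ 2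
    nlinarith [sq_nonneg (‖h x‖ - ‖χ x‖), sq_nonneg (‖h x‖), sq_nonneg (‖χ x‖)]
  refine (integrableOn_iff_integrable_of_support_subset ?_).1 h1
  intro x hx
  by_contra hx'
  exact hx (by
    show ⟪h x, χ x⟫_ℂ = 0
    rw [hχ0 x hx', inner_zero_right])

theorem tendsto_pair {f : ℕ → E → F} {f₀ χ : E → F} (hf : ∀ n, Continuous (f n))
    (hm : AEStronglyMeasurable f₀ volume)
    (hh : ∀ r : ℝ, IntegrableOn (fun x => ‖f₀ x‖ ^ 2) (closedBall (0 : E) r) volume)
    (ht : ∀ r : ℝ, Tendsto (fun n => ∫ x in closedBall (0 : E) r, ‖f n x - f₀ x‖ ^ 2) 𝓤 (𝓝 0))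
    (hχ : Continuous χ) (hc : HasCompactSupport χ) :
    Tendsto (fun n => ∫ x, ⟪f n x, χ x⟫_ℂ) 𝓤 (𝓝 (∫ x, ⟪f₀ x, χ x⟫_ℂ)) := by
  have hfi : ∀ n (r : ℝ), IntegrableOn (fun x => ‖f n x‖ ^ 2) (closedBall (0 : E) r) volume :=
    fun n r => ((hf n).norm.pow 2).continuousOn.integrableOn_compact (isCompact_closedBall 0 r)
  have hdi : ∀ n (r : ℝ), IntegrableOn (fun x => ‖f n x - f₀ x‖ ^ 2) (closedBall (0 : E) r)
      volume := by
    intro n r
    refine Integrable.mono' (((hfi n r).const_mul 2).add ((hh r).const_mul 2))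
      (((hf n).aestronglyMeasurable.sub hm.restrict).norm.pow 2) (Eventually.of_forall fun x => ?_)
    rw [Real.norm_of_nonneg (by positivity)]
    show ‖f n x - f₀ x‖ ^ 2 ≤ 2 * ‖f n x‖ ^ 2 + 2 * ‖f₀ x‖ ^ 2
    have h1 := norm_sub_le (f n x) (f₀ x)
    have h2 := pow_le_pow_left₀ (norm_nonneg _) h1 2
    nlinarith [sq_nonneg (‖f n x‖ - ‖f₀ x‖)]
  have h1 := tendsto_pair_zero (l := 𝓤) (h := fun n x => f n x - f₀ x) hχ hc
    (fun n r => (hf n).aestronglyMeasurable.sub hm.restrict) hdi (fun r _ => ht r)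
  have h2 : ∀ n, ∫ x, ⟪f n x - f₀ x, χ x⟫_ℂ = (∫ x, ⟪f n x, χ x⟫_ℂ) - ∫ x, ⟪f₀ x, χ x⟫_ℂ := by
    intro n
    rw [← integral_sub (int_pair (hf n).aestronglyMeasurable (hfi n) hχ hc)
      (int_pair hm hh hχ hc)]
    refine integral_congr_ae (Eventually.of_forall fun x => ?_)
    show ⟪f n x - f₀ x, χ x⟫_ℂ = _
    rw [inner_sub_left]
  simp only [h2] at h1
  exact tendsto_sub_nhds_zero_iff.1 h1

/-- norms pass to the limit up to a factor `2` -/
theorem limit_le {f : ℕ → E → F} {f₀ : E → F} (hf : ∀ n, Continuous (f n))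
    (hm : AEStronglyMeasurable f₀ volume)
    (hh : ∀ r : ℝ, IntegrableOn (fun x => ‖f₀ x‖ ^ 2) (closedBall (0 : E) r) volume)
    {r : ℝ}
    (ht : Tendsto (fun n => ∫ x in closedBall (0 : E) r, ‖f n x - f₀ x‖ ^ 2) 𝓤 (𝓝 0)) {K : ℝ}
    (hK : ∀ n, ∫ x in closedBall (0 : E) r, ‖f n x‖ ^ 2 ≤ K) :
    ∫ x in closedBall (0 : E) r, ‖f₀ x‖ ^ 2 ≤ 2 * K := by
  have hfi : ∀ n, IntegrableOn (fun x => ‖f n x‖ ^ 2) (closedBall (0 : E) r) volume :=
    fun n => ((hf n).norm.pow 2).continuousOn.integrableOn_compact (isCompact_closedBall 0 r)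
  have hdi : ∀ n, IntegrableOn (fun x => ‖f n x - f₀ x‖ ^ 2) (closedBall (0 : E) r)
      volume := by
    intro n
    refine Integrable.mono' (((hfi n).const_mul 2).add ((hh r).const_mul 2))
      (((hf n).aestronglyMeasurable.sub hm.restrict).norm.pow 2) (Eventually.of_forall fun x => ?_)
    rw [Real.norm_of_nonneg (by positivity)]
    show ‖f n x - f₀ x‖ ^ 2 ≤ 2 * ‖f n x‖ ^ 2 + 2 * ‖f₀ x‖ ^ 2
    have h1 := norm_sub_le (f n x) (f₀ x)
    have h2 := pow_le_pow_left₀ (norm_nonneg _) h1 2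
    nlinarith [sq_nonneg (‖f n x‖ - ‖f₀ x‖)]
  have h1 : ∀ n, ∫ x in closedBall (0 : E) r, ‖f₀ x‖ ^ 2 ≤
      2 * K + 2 * ∫ x in closedBall (0 : E) r, ‖f n x - f₀ x‖ ^ 2 := by
    intro n
    calc ∫ x in closedBall (0 : E) r, ‖f₀ x‖ ^ 2
        ≤ ∫ x in closedBall (0 : E) r, (2 * ‖f n x‖ ^ 2 + 2 * ‖f n x - f₀ x‖ ^ 2) := by
          refine integral_mono (hh r) (((hfi n).const_mul 2).add ((hdi n).const_mul 2))
            fun x => ?_
          show ‖f₀ x‖ ^ 2 ≤ 2 * ‖f n x‖ ^ 2 + 2 * ‖f n x - f₀ x‖ ^ 2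
          have h1 : ‖f₀ x‖ ≤ ‖f n x‖ + ‖f n x - f₀ x‖ := by
            have := norm_sub_le (f n x) (f n x - f₀ x)
            rwa [sub_sub_cancel] at this
          have h2 := pow_le_pow_left₀ (norm_nonneg _) h1 2
          nlinarith [sq_nonneg (‖f n x‖ - ‖f n x - f₀ x‖)]
      _ = 2 * (∫ x in closedBall (0 : E) r, ‖f n x‖ ^ 2) +
          2 * ∫ x in closedBall (0 : E) r, ‖f n x - f₀ x‖ ^ 2 := by
          rw [integral_add ((hfi n).const_mul 2) ((hdi n).const_mul 2), integral_const_mul,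
            integral_const_mul]
      _ ≤ _ := by linarith [hK n]
  have h2 : Tendsto (fun n => 2 * K + 2 * ∫ x in closedBall (0 : E) r, ‖f n x - f₀ x‖ ^ 2) 𝓤
      (𝓝 (2 * K + 2 * 0)) := (ht.const_mul 2).const_add _
  have h3 := ge_of_tendsto' h2 h1
  linarith

theorem limit_ge {f : ℕ → E → F} {f₀ : E → F} (hf : ∀ n, Continuous (f n))
    (hm : AEStronglyMeasurable f₀ volume)
    (hh : ∀ r : ℝ, IntegrableOn (fun x => ‖f₀ x‖ ^ 2) (closedBall (0 : E) r) volume)
    {r : ℝ}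
    (ht : Tendsto (fun n => ∫ x in closedBall (0 : E) r, ‖f n x - f₀ x‖ ^ 2) 𝓤 (𝓝 0)) {K : ℝ}
    (hK : ∀ᶠ n in 𝓤, K ≤ ∫ x in closedBall (0 : E) r, ‖f n x‖ ^ 2) :
    K ≤ 2 * ∫ x in closedBall (0 : E) r, ‖f₀ x‖ ^ 2 := by
  have hfi : ∀ n, IntegrableOn (fun x => ‖f n x‖ ^ 2) (closedBall (0 : E) r) volume :=
    fun n => ((hf n).norm.pow 2).continuousOn.integrableOn_compact (isCompact_closedBall 0 r)
  have hdi : ∀ n, IntegrableOn (fun x => ‖f n x - f₀ x‖ ^ 2) (closedBall (0 : E) r)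
      volume := by
    intro n
    refine Integrable.mono' (((hfi n).const_mul 2).add ((hh r).const_mul 2))
      (((hf n).aestronglyMeasurable.sub hm.restrict).norm.pow 2) (Eventually.of_forall fun x => ?_)
    rw [Real.norm_of_nonneg (by positivity)]
    show ‖f n x - f₀ x‖ ^ 2 ≤ 2 * ‖f n x‖ ^ 2 + 2 * ‖f₀ x‖ ^ 2
    have h1 := norm_sub_le (f n x) (f₀ x)
    have h2 := pow_le_pow_left₀ (norm_nonneg _) h1 2
    nlinarith [sq_nonneg (‖f n x‖ - ‖f₀ x‖)]
  have h1 : ∀ n, ∫ x in closedBall (0 : E) r, ‖f n x‖ ^ 2 ≤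
      2 * (∫ x in closedBall (0 : E) r, ‖f₀ x‖ ^ 2) +
      2 * ∫ x in closedBall (0 : E) r, ‖f n x - f₀ x‖ ^ 2 := by
    intro n
    calc ∫ x in closedBall (0 : E) r, ‖f n x‖ ^ 2
        ≤ ∫ x in closedBall (0 : E) r, (2 * ‖f₀ x‖ ^ 2 + 2 * ‖f n x - f₀ x‖ ^ 2) := by
          refine integral_mono (hfi n) (((hh r).const_mul 2).add ((hdi n).const_mul 2))
            fun x => ?_
          show ‖f n x‖ ^ 2 ≤ 2 * ‖f₀ x‖ ^ 2 + 2 * ‖f n x - f₀ x‖ ^ 2
          have h1 : ‖f n x‖ ≤ ‖f₀ x‖ + ‖f n x - f₀ x‖ := by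
            have := norm_add_le (f₀ x) (f n x - f₀ x)
            rwa [add_sub_cancel] at this
          have h2 := pow_le_pow_left₀ (norm_nonneg _) h1 2
          nlinarith [sq_nonneg (‖f₀ x‖ - ‖f n x - f₀ x‖)]
      _ = _ := by
          rw [integral_add ((hh r).const_mul 2) ((hdi n).const_mul 2), integral_const_mul,
            integral_const_mul]
  have h2 : Tendsto (fun n => 2 * (∫ x in closedBall (0 : E) r, ‖f₀ x‖ ^ 2) +
      2 * ∫ x in closedBall (0 : E) r, ‖f n x - f₀ x‖ ^ 2) 𝓤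
      (𝓝 (2 * (∫ x in closedBall (0 : E) r, ‖f₀ x‖ ^ 2) + 2 * 0)) := (ht.const_mul 2).const_add _
  have h3 := ge_of_tendsto h2 (hK.mono fun n hn => hn.trans (h1 n))
  linarith

/-- polynomial growth of the mass of balls gives the exponential weight -/
theorem exp_weight {f₀ : E → F} (hm : AEStronglyMeasurable f₀ volume)
    (hh : ∀ r : ℝ, IntegrableOn (fun x => ‖f₀ x‖ ^ 2) (closedBall (0 : E) r) volume)
    (d : ℕ) (hK : ∀ r : ℝ, 0 ≤ r → ∫ x in closedBall (0 : E) r, ‖f₀ x‖ ^ 2 ≤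
      2 * (1 + 4 * r) ^ d) :
    ∫⁻ x, ENNReal.ofReal (Real.exp (-2 * ‖x‖)) * ‖f₀ x‖ₑ ^ 2 < ⊤ := by
  have hcov : (⋃ k : ℕ, (closedBall (0 : E) (k + 1) \ ball 0 k)) = univ := by
    refine eq_univ_of_forall fun x => ?_
    refine mem_iUnion.2 ⟨⌊‖x‖⌋₊, ?_, ?_⟩
    · rw [mem_closedBall_zero_iff]
      exact (Nat.lt_floor_add_one _).le
    · rw [mem_ball_zero_iff, not_lt]
      exact Nat.floor_le (norm_nonneg _)
  have h1 : ∫⁻ x, ENNReal.ofReal (Real.exp (-2 * ‖x‖)) * ‖f₀ x‖ₑ ^ 2 ≤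
      ∑' k : ℕ, ENNReal.ofReal (Real.exp (-2 * k) * (2 * (1 + 4 * ((k : ℝ) + 1)) ^ d)) := by
    rw [← setLIntegral_univ, ← hcov]
    refine (lintegral_iUnion_le _ _).trans (ENNReal.tsum_le_tsum fun k => ?_)
    calc ∫⁻ x in closedBall (0 : E) (k + 1) \ ball 0 k,
          ENNReal.ofReal (Real.exp (-2 * ‖x‖)) * ‖f₀ x‖ₑ ^ 2
        ≤ ∫⁻ x in closedBall (0 : E) (k + 1) \ ball 0 k,
          ENNReal.ofReal (Real.exp (-2 * k)) * ‖f₀ x‖ₑ ^ 2 := by
          refine setLIntegral_mono' (measurableSet_closedBall.diff measurableSet_ball)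
            fun x hx => ?_
          refine mul_le_mul_left (ENNReal.ofReal_le_ofReal (Real.exp_le_exp.2 ?_)) _
          have : (k : ℝ) ≤ ‖x‖ := by
            have := hx.2
            rwa [mem_ball_zero_iff, not_lt] at this
          linarith
      _ ≤ ∫⁻ x in closedBall (0 : E) (k + 1),
          ENNReal.ofReal (Real.exp (-2 * k)) * ‖f₀ x‖ₑ ^ 2 :=
          lintegral_mono_set sdiff_subset
      _ = ENNReal.ofReal (Real.exp (-2 * k)) * ∫⁻ x in closedBall (0 : E) (k + 1),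
          ‖f₀ x‖ₑ ^ 2 := lintegral_const_mul' _ _ ENNReal.ofReal_ne_top
      _ = ENNReal.ofReal (Real.exp (-2 * k)) *
          ENNReal.ofReal (∫ x in closedBall (0 : E) (k + 1), ‖f₀ x‖ ^ 2) := by
          rw [show ∫⁻ x in closedBall (0 : E) (k + 1), ‖f₀ x‖ₑ ^ 2 =
            ENNReal.ofReal (∫ x in closedBall (0 : E) (k + 1), ‖f₀ x‖ ^ 2) from lint_eq (hh _)]
      _ ≤ ENNReal.ofReal (Real.exp (-2 * k)) *
          ENNReal.ofReal (2 * (1 + 4 * ((k : ℝ) + 1)) ^ d) := by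
          gcongr
          exact hK _ (by positivity)
      _ = _ := by rw [ENNReal.ofReal_mul (Real.exp_pos _).le]
  refine h1.trans_lt ?_
  have hs : Summable fun k : ℕ => Real.exp (-2 * k) * (2 * (1 + 4 * ((k : ℝ) + 1)) ^ d) := by
    have h2 := (summable_nat_add_iff 1).2
      (Real.summable_pow_mul_exp_neg_nat_mul d (show (0 : ℝ) < 2 by norm_num))
    have h3 := h2.mul_left (2 * 5 ^ d * Real.exp 2)
    refine Summable.of_nonneg_of_le (fun k => by positivity) (fun k => ?_) h3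
    have h4 : (1 + 4 * ((k : ℝ) + 1)) ^ d ≤ 5 ^ d * ((k : ℝ) + 1) ^ d := by
      rw [← mul_pow]
      refine pow_le_pow_left₀ (by positivity) ?_ d
      have : (0 : ℝ) ≤ k := Nat.cast_nonneg k
      linarith
    have h5 : Real.exp (-2 * (k : ℝ)) = Real.exp 2 * Real.exp (-2 * ((k + 1 : ℕ) : ℝ)) := by
      rw [← Real.exp_add]
      congr 1
      push_cast
      ring
    rw [h5]
    push_cast
    calc Real.exp 2 * Real.exp (-2 * ((k : ℝ) + 1)) * (2 * (1 + 4 * ((k : ℝ) + 1)) ^ d)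
        ≤ Real.exp 2 * Real.exp (-2 * ((k : ℝ) + 1)) * (2 * (5 ^ d * ((k : ℝ) + 1) ^ d)) := by
          gcongr
      _ = _ := by ring
  rw [← ENNReal.ofReal_tsum_of_nonneg (fun k => by positivity) hs]
  exact ENNReal.ofReal_lt_top

end an

/-! ### the normalised shifted vectors -/

variable {N : ℕ} {F : Type*} [NormedAddCommGroup F] [InnerProductSpace ℂ F]
  [FiniteDimensional ℂ F]

/-- the normalisation -/
def sn (b : ColorBasis N) (p : Cfg N) : ℝ := (Real.sqrt (mu1 b p))⁻¹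

theorem sn_sq (b : ColorBasis N) (p : Cfg N) : sn b p ^ 2 * mu1 b p = 1 := by
  unfold sn
  rw [inv_pow, Real.sq_sqrt (mu1_pos b p).le, inv_mul_cancel₀ (mu1_pos b p).ne']

theorem sn_sq_nonneg (b : ColorBasis N) (p : Cfg N) : 0 ≤ sn b p ^ 2 := sq_nonneg _

/-- the upper bound in normalised form -/
theorem norm_upper {V : Type*} [NormedAddCommGroup V] {u : Cfg N → V} {b : ColorBasis N}
    (hu : Continuous u) (hc : HasCompactSupport u)
    (hinv : ∀ h x, ‖u (b.act h x)‖ = ‖u x‖) (p : Cfg N) {r : ℝ} (hr : 0 ≤ r) :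
    sn b p ^ 2 * ∫ y in closedBall (0 : Cfg N) r, ‖u (p + y)‖ ^ 2 ≤
      gr N r * ∫ x, ‖u x‖ ^ 2 := by
  have h1 := mul_le_mul_of_nonneg_left (loc_upper hu hc hinv p hr) (sn_sq_nonneg b p)
  refine h1.trans (le_of_eq ?_)
  calc sn b p ^ 2 * (gr N r * mu1 b p * ∫ x, ‖u x‖ ^ 2) =
      (sn b p ^ 2 * mu1 b p) * (gr N r * ∫ x, ‖u x‖ ^ 2) := by ring
    _ = _ := by rw [sn_sq, one_mul]

/-- the lower bound in normalised form -/
theorem norm_lower {V : Type*} [NormedAddCommGroup V] {u : Cfg N → V} {b : ColorBasis N}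
    (hu : Continuous u) (hc : HasCompactSupport u)
    (hinv : ∀ h x, ‖u (b.act h x)‖ = ‖u x‖) (p : Cfg N) (r : ℝ) {S : Set (Cfg N)}
    (hSm : MeasurableSet S) (hS : ∀ x ∈ S, ∃ h : SUgrp596.SU N, dist x (b.act h p) ≤ r) :
    ∫ x in S, ‖u x‖ ^ 2 ≤
      sn b p ^ 2 * ∫ y in closedBall (0 : Cfg N) (r + 1), ‖u (p + y)‖ ^ 2 := by
  have h1 := mul_le_mul_of_nonneg_left (loc_lower hu hc hinv p r hSm hS) (sn_sq_nonneg b p)
  refine le_trans (le_of_eq ?_) h1
  rw [← mul_assoc, sn_sq, one_mul]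

section bounds

variable {b : ColorBasis N} {M : FermionRep N F} {R : GaugeAction b M} {φ : Cfg N → F}

theorem lf_int (φ : Cfg N → F) (p : Cfg N) (s r : ℝ) :
    ∫ y in closedBall (0 : Cfg N) r, ‖lf φ p s y‖ ^ 2 =
      s ^ 2 * ∫ y in closedBall (0 : Cfg N) r, ‖φ (p + y)‖ ^ 2 := by
  rw [← integral_const_mul]
  exact integral_congr_ae (Eventually.of_forall fun y => norm_lf φ p s y)

theorem bound_lf (hφ : IsCoreVec b R φ) (p : Cfg N) {r : ℝ} (hr : 0 ≤ r) :
    ∫ y in closedBall (0 : Cfg N) r, ‖lf φ p (sn b p) y‖ ^ 2 ≤ gr N r * ∫ x, ‖φ x‖ ^ 2 := by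
  rw [lf_int]
  exact norm_upper hφ.1.continuous hφ.2.1 (norm_core hφ) p hr

theorem bound_fderiv (hφ : IsCoreVec b R φ) (p : Cfg N) {r : ℝ} (hr : 0 ≤ r) :
    ∫ y in closedBall (0 : Cfg N) r, ‖fderiv ℝ (lf φ p (sn b p)) y‖ ^ 2 ≤
      gr N r * ∫ x, ‖fderiv ℝ φ x‖ ^ 2 := by
  have hcd : Continuous (fderiv ℝ φ) := hφ.1.continuous_fderiv (by simp)
  have h1 := norm_upper (u := fderiv ℝ φ) hcd (hφ.2.1.fderiv (𝕜 := ℝ))
    (norm_fderiv_core hφ) p hr
  refine le_trans ?_ h1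
  rw [← integral_const_mul]
  have hcl : Continuous (fderiv ℝ (lf φ p (sn b p))) :=
    (contDiff_lf hφ.1 p (sn b p)).continuous_fderiv (by simp)
  refine integral_mono
    ((hcl.norm.pow 2).continuousOn.integrableOn_compact (isCompact_closedBall 0 r)) ?_
    fun y => norm_fderiv_lf (cv_diff hφ) p (sn b p) y
  exact ((continuous_const.mul ((hcd.comp (continuous_const.add continuous_id)).norm.pow
    2)).continuousOn.integrableOn_compact (isCompact_closedBall 0 r))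

theorem bound_charge (hφ : IsCoreVec b R φ) (G : GammaNine) (g : ℝ) (α : Fin 16) (p : Cfg N)
    {r : ℝ} (hr : 0 ≤ r) :
    ∫ y in closedBall (0 : Cfg N) r, ‖lf (dcharge b M G g 1 α φ) p (sn b p) y‖ ^ 2 ≤
      gr N r * (16 * qf b M G g 1 φ) := by
  have hQ : IsCoreVec b R (dcharge b M G g 1 α φ) := Brid837.core_dcharge hφ
  refine (bound_lf hQ p hr).trans (mul_le_mul_of_nonneg_left ?_ (gr_nonneg hr))
  unfold qf
  have h1 : ∫ x, ‖dcharge b M G g 1 α φ x‖ ^ 2 ≤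
      ∑ α : Fin 16, ∫ x, ‖dcharge b M G g 1 α φ x‖ ^ 2 :=
    Finset.single_le_sum (f := fun α => ∫ x, ‖dcharge b M G g 1 α φ x‖ ^ 2)
      (fun α _ => integral_nonneg fun x => by positivity) (Finset.mem_univ α)
  linarith

end bounds

/-- **the local limit** -/
theorem local_limit [Nontrivial F] {b : ColorBasis N} {M : FermionRep N F}
    {R : GaugeAction b M} {G : GammaNine} {c : Cfg N}
    (hc : ∀ α β A, wpot b G 1 1 α β A c = 0) {g : ℕ → ℝ} (hg : ∀ n, 0 < g n)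
    (hg0 : Tendsto g atTop (𝓝 0)) {φ : ℕ → Cfg N → F} (hφ : ∀ n, IsCoreVec b R (φ n))
    (h1 : ∀ n, ∫ x, ‖φ n x‖ ^ 2 ≤ 1) {C : ℝ} (hD : ∀ n, ∫ x, ‖fderiv ℝ (φ n) x‖ ^ 2 ≤ C)
    (hq : Tendsto (fun n => qf b M G (g n) 1 (φ n)) atTop (𝓝 0)) :
    ∃ f₀ : Cfg N → F, AEStronglyMeasurable f₀ volume ∧
      (∀ r : ℝ, IntegrableOn (fun x => ‖f₀ x‖ ^ 2) (closedBall 0 r) volume) ∧
      (∀ r : ℝ, Tendsto (fun n => ∫ x in closedBall (0 : Cfg N) r,
        ‖lf (φ n) ((g n)⁻¹ • c) (sn b ((g n)⁻¹ • c)) x - f₀ x‖ ^ 2) 𝓤 (𝓝 0)) ∧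
      (∫⁻ x, ENNReal.ofReal (Real.exp (-2 * ‖x‖)) * ‖f₀ x‖ₑ ^ 2 < ⊤) ∧
      (∀ ψ : Cfg N → F, ContDiff ℝ ∞ ψ → HasCompactSupport ψ →
        ∀ α, ∫ x, ⟪f₀ x, lcharge b M G c α ψ x⟫_ℂ = 0) ∧
      (∀ ψ : Cfg N → F, ContDiff ℝ ∞ ψ → HasCompactSupport ψ →
        ∀ om, ∫ x, ⟪f₀ x, fderiv ℝ ψ x (brk b om c)⟫_ℂ = 0) := by
  set p : ℕ → Cfg N := fun n => (g n)⁻¹ • c with hp
  set f : ℕ → Cfg N → F := fun n => lf (φ n) (p n) (sn b (p n)) with hf
  have hfs : ∀ n, ContDiff ℝ ∞ (f n) := fun n => contDiff_lf (hφ n).1 _ _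
  have hC : 0 ≤ C := (integral_nonneg fun x => by positivity).trans (hD 0)
  have hf1 : ∀ (r : ℝ), 0 ≤ r → ∀ n, ∫ y in closedBall (0 : Cfg N) r, ‖f n y‖ ^ 2 ≤ gr N r := by
    intro r hr n
    refine (bound_lf (hφ n) (p n) hr).trans ?_
    calc gr N r * ∫ x, ‖φ n x‖ ^ 2 ≤ gr N r * 1 :=
          mul_le_mul_of_nonneg_left (h1 n) (gr_nonneg hr)
      _ = _ := mul_one _
  have hf2 : ∀ (r : ℝ), 0 ≤ r → ∀ n, ∫ y in closedBall (0 : Cfg N) r,
      ‖fderiv ℝ (f n) y‖ ^ 2 ≤ gr N r * C := by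
    intro r hr n
    exact (bound_fderiv (hφ n) (p n) hr).trans
      (mul_le_mul_of_nonneg_left (hD n) (gr_nonneg hr))
  have hi1 : ∀ n (r : ℝ), IntegrableOn (fun y => ‖f n y‖ ^ 2) (closedBall (0 : Cfg N) r) volume :=
    fun n r => intOn_of_cont (hfs n).continuous r
  have hi2 : ∀ n (r : ℝ), IntegrableOn (fun y => ‖fderiv ℝ (f n) y‖ ^ 2)
      (closedBall (0 : Cfg N) r) volume := fun n r =>
    (((hfs n).continuous_fderiv (by simp)).norm.pow 2).continuousOn.integrableOn_compact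
      (isCompact_closedBall 0 r)
  obtain ⟨f₀, hm, hh, ht⟩ := loc_hyper hfs fun r => by
    refine ⟨max (gr N (max r 0)) (gr N (max r 0) * C), fun n => ⟨?_, ?_⟩⟩
    · refine le_trans ?_ ((hf1 (max r 0) (le_max_right _ _) n).trans (le_max_left _ _))
      exact setIntegral_mono_set (hi1 n _) (Eventually.of_forall fun y => by positivity)
        (closedBall_subset_closedBall (le_max_left _ _)).eventuallyLE
    · refine le_trans ?_ ((hf2 (max r 0) (le_max_right _ _) n).trans (le_max_right _ _))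
      exact setIntegral_mono_set (hi2 n _) (Eventually.of_forall fun y => by positivity)
        (closedBall_subset_closedBall (le_max_left _ _)).eventuallyLE
  have hcont : ∀ n, Continuous (f n) := fun n => (hfs n).continuous
  have hgu : Tendsto g 𝓤 (𝓝 0) := hg0.mono_left hyper_le
  have hqu : Tendsto (fun n => qf b M G (g n) 1 (φ n)) 𝓤 (𝓝 0) := hq.mono_left hyper_le
  refine ⟨f₀, hm, hh, ht, ?_, ?_, ?_⟩
  · refine exp_weight hm hh (Module.finrank ℝ (Cfg N)) fun r hr => ?_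
    exact limit_le hcont hm hh (ht r) (hf1 r hr)
  · intro ψ hψ hψc α
    have hψ1 : ContDiff ℝ 1 ψ := hψ.of_le (by simp)
    have t1 := tendsto_pair hcont hm hh ht (continuous_lcharge b M G c α hψ1)
      (hcs_lcharge b M G c α hψc)
    have t2 := tendsto_pair hcont hm hh ht (continuous_vq b M G α hψ.continuous)
      (hcs_vq b M G α hψc)
    have hQs : ∀ n, ContDiff ℝ ∞ (lf (dcharge b M G (g n) 1 α (φ n)) (p n) (sn b (p n))) :=
      fun n => contDiff_lf (Brid837.contDiff_dcharge (hφ n).1) _ _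
    have t3 : Tendsto (fun n => ∫ y, ⟪lf (dcharge b M G (g n) 1 α (φ n)) (p n) (sn b (p n)) y,
        ψ y⟫_ℂ) 𝓤 (𝓝 0) := by
      refine tendsto_pair_zero hψ.continuous hψc (fun n r => (hQs n).continuous.aestronglyMeasurable)
        (fun n r => intOn_of_cont (hQs n).continuous r) fun r hr => ?_
      have h4 : Tendsto (fun n => gr N r * (16 * qf b M G (g n) 1 (φ n))) 𝓤 (𝓝 0) := by
        have := (hqu.const_mul 16).const_mul (gr N r)
        simpa using this
      exact squeeze_zero (fun n => integral_nonneg fun y => by positivity)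
        (fun n => bound_charge (hφ n) G (g n) α (p n) hr) h4
    have t4 : Tendsto (fun n => ((g n : ℝ) : ℂ) * ∫ y, ⟪f n y, vq b M G α ψ y⟫_ℂ) 𝓤 (𝓝 0) := by
      have h5 : Tendsto (fun n => ((g n : ℝ) : ℂ)) 𝓤 (𝓝 0) := by
        have := (Complex.continuous_ofReal.tendsto 0).comp hgu
        simpa [Function.comp_def] using this
      have := h5.mul t2
      simpa using this
    have t5 := t3.sub t4
    have t6 : Tendsto (fun n => ∫ y, ⟪f n y, lcharge b M G c α ψ y⟫_ℂ) 𝓤 (𝓝 (0 - 0)) := by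
      refine t5.congr fun n => ?_
      exact (int_lcharge hc (hg n).ne' α (hφ n).1 (sn b (p n)) hψ hψc).symm
    rw [sub_zero] at t6
    exact tendsto_nhds_unique t1 t6
  · intro ψ hψ hψc om
    have hψ1 : ContDiff ℝ 1 ψ := hψ.of_le (by simp)
    have t1 := tendsto_pair hcont hm hh ht (fderiv_apply_continuous hψ1 (brk b om c))
      (hasCompactSupport_fderiv_apply hψc (brk b om c))
    set K : ℝ → ℝ := fun r => 2 * ‖Lift406.Bop b M om‖ ^ 2 * gr N r +
      2 * (‖brkL b om‖ * r) ^ 2 * (gr N r * C) with hK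
    have hbc : ∀ n, Continuous (be b M om (f n)) := fun n => continuous_be b M om (hfs n)
    have hbe : ∀ n r, 0 ≤ r → ∫ y in closedBall (0 : Cfg N) r, ‖be b M om (f n) y‖ ^ 2 ≤ K r := by
      intro n r hr
      calc ∫ y in closedBall (0 : Cfg N) r, ‖be b M om (f n) y‖ ^ 2
          ≤ ∫ y in closedBall (0 : Cfg N) r, (2 * ‖Lift406.Bop b M om‖ ^ 2 * ‖f n y‖ ^ 2 +
              2 * (‖brkL b om‖ * r) ^ 2 * ‖fderiv ℝ (f n) y‖ ^ 2) := by
            refine setIntegral_mono_on (intOn_of_cont (hbc n) r)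
              (((hi1 n r).const_mul _).add ((hi2 n r).const_mul _)) measurableSet_closedBall
              fun y hy => ?_
            refine (norm_be_sq b M om (f n) y).trans ?_
            have : ‖y‖ ≤ r := by rwa [mem_closedBall_zero_iff] at hy
            gcongr
        _ = 2 * ‖Lift406.Bop b M om‖ ^ 2 * (∫ y in closedBall (0 : Cfg N) r, ‖f n y‖ ^ 2) +
              2 * (‖brkL b om‖ * r) ^ 2 *
                ∫ y in closedBall (0 : Cfg N) r, ‖fderiv ℝ (f n) y‖ ^ 2 := by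
            rw [integral_add ((hi1 n r).const_mul _) ((hi2 n r).const_mul _),
              integral_const_mul, integral_const_mul]
        _ ≤ K r := by
            exact add_le_add
              (mul_le_mul_of_nonneg_left (hf1 r hr n) (by positivity))
              (mul_le_mul_of_nonneg_left (hf2 r hr n) (by positivity))
    have hgbc : ∀ n, Continuous fun y => ((g n : ℝ) : ℂ) • be b M om (f n) y := fun n =>
      continuous_const.smul (hbc n)
    have t2 : Tendsto (fun n => ∫ y, ⟪((g n : ℝ) : ℂ) • be b M om (f n) y, ψ y⟫_ℂ) 𝓤 (𝓝 0) := by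
      refine tendsto_pair_zero hψ.continuous hψc (fun n r => (hgbc n).aestronglyMeasurable)
        (fun n r => intOn_of_cont (hgbc n) r) fun r hr => ?_
      have h4 : Tendsto (fun n => g n ^ 2 * K r) 𝓤 (𝓝 0) := by
        have := (hgu.pow 2).mul_const (K r)
        simpa using this
      refine squeeze_zero (fun n => integral_nonneg fun y => by positivity) (fun n => ?_) h4
      have h5 : ∫ y in closedBall (0 : Cfg N) r, ‖((g n : ℝ) : ℂ) • be b M om (f n) y‖ ^ 2 =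
          g n ^ 2 * ∫ y in closedBall (0 : Cfg N) r, ‖be b M om (f n) y‖ ^ 2 := by
        rw [← integral_const_mul]
        refine integral_congr_ae (Eventually.of_forall fun y => ?_)
        show ‖((g n : ℝ) : ℂ) • be b M om (f n) y‖ ^ 2 = _
        rw [norm_smul, mul_pow, Complex.norm_real, Real.norm_eq_abs, sq_abs]
      rw [h5]
      exact mul_le_mul_of_nonneg_left (hbe n r hr) (sq_nonneg _)
    have t3 : Tendsto (fun n => ∫ y, ⟪f n y, fderiv ℝ ψ y (brk b om c)⟫_ℂ) 𝓤 (𝓝 (-0)) := by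
      refine t2.neg.congr fun n => ?_
      have h6 := int_brk (hφ n) c (hg n).ne' (sn b (p n)) om hψ hψc
      have h7 : ∫ y, ⟪((g n : ℝ) : ℂ) • be b M om (f n) y, ψ y⟫_ℂ =
          ((g n : ℝ) : ℂ) * ∫ y, ⟪be b M om (f n) y, ψ y⟫_ℂ := by
        rw [← integral_const_mul]
        refine integral_congr_ae (Eventually.of_forall fun y => ?_)
        show ⟪((g n : ℝ) : ℂ) • be b M om (f n) y, ψ y⟫_ℂ = _
        rw [inner_smul_left, Complex.conj_ofReal]
      rw [h7]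
      exact h6.symm
    rw [neg_zero] at t3
    exact tendsto_nhds_unique t1 t3

end Crest.Agent.R330.UpC8

end
end

-- ▼ part R330/Up_8
section

/-!
# Row 330, S5d-UP (helper8): `dim ker Q^{g,1} ≤ p(N)` for small coupling

`upper_of` : `Upper N` from the leaves `OrbitsProp`, `VacPackProp`, `VacWpot`, `LiouvilleProp`
(S5Defs_798) and `EnProp`, `VzProp` (UpHyp_8).
-/

set_option autoImplicit false
set_option linter.unusedSectionVars false

open MeasureTheory Filter Set Metric Topology Crest.MathPhysics.MatrixQM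
open scoped ContDiff InnerProductSpace ENNReal Cardinal

noncomputable section

namespace Crest.Agent.R330.Up8

open Crest.Agent.R330.Defs478 Crest.Agent.R330.Top478 Crest.Agent.R330.S5Defs798
  Crest.Agent.R330.IBP837 Crest.Agent.R330.UpLoc8 Crest.Agent.R330.UpA8 Crest.Agent.R330.UpB8
  Crest.Agent.R330.UpC8 Crest.Agent.R330.UpHyp8

local notation "𝓤" => (hyperfilter ℕ : Filter ℕ)

variable {N : ℕ} {F : Type*} [NormedAddCommGroup F] [InnerProductSpace ℂ F]
  [FiniteDimensional ℂ F]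

/-! ### normalisation -/

section norm

variable {b : ColorBasis N} {M : FermionRep N F} {R : GaugeAction b M} {G : GammaNine} {g m : ℝ}

theorem qf_smul (t : ℝ) {φ : Cfg N → F} (hφ : Differentiable ℝ φ) :
    qf b M G g m ((t : ℂ) • φ) = t ^ 2 * qf b M G g m φ := by
  unfold qf
  have h1 : ∀ α : Fin 16, ∫ x, ‖dcharge b M G g m α ((t : ℂ) • φ) x‖ ^ 2 =
      t ^ 2 * ∫ x, ‖dcharge b M G g m α φ x‖ ^ 2 := by
    intro α
    rw [dcharge_smul b M G g m α (t : ℂ) hφ, ← integral_const_mul]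
    refine integral_congr_ae (Eventually.of_forall fun x => ?_)
    show ‖(t : ℂ) • dcharge b M G g m α φ x‖ ^ 2 = _
    rw [norm_smul, mul_pow, Complex.norm_real, Real.norm_eq_abs, sq_abs]
  simp only [h1, ← Finset.mul_sum]
  ring

/-- a normalised core vector violating the lower bound -/
theorem exists_unit {k : ℕ} (v : Fin k → Cfg N → F) {c C : ℝ} (hC : 0 ≤ C)
    (h : ¬ ∀ φ : Cfg N → F, IsCoreVec b R φ → c * ∫ x, ‖φ x‖ ^ 2 ≤
      qf b M G g m φ + C * ∑ i, ‖∫ x, ⟪v i x, φ x⟫_ℂ‖ ^ 2) (hc : 0 < c) :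
    ∃ φ : Cfg N → F, IsCoreVec b R φ ∧ ∫ x, ‖φ x‖ ^ 2 = 1 ∧
      qf b M G g m φ + C * ∑ i, ‖∫ x, ⟪v i x, φ x⟫_ℂ‖ ^ 2 < c := by
  push Not at h
  obtain ⟨φ, hφ, hlt⟩ := h
  set a := ∫ x, ‖φ x‖ ^ 2 with ha
  have hq := Lit416.qf_nonneg (b := b) (M := M) (G := G) (g := g) (m := m) φ
  have hs : 0 ≤ C * ∑ i, ‖∫ x, ⟪v i x, φ x⟫_ℂ‖ ^ 2 := by positivity
  have ha0 : 0 < a := by
    by_contra hn
    have : c * a ≤ 0 := mul_nonpos_of_nonneg_of_nonpos hc.le (not_lt.1 hn)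
    linarith
  set t : ℝ := (Real.sqrt a)⁻¹ with ht
  have ht2 : t ^ 2 = a⁻¹ := by rw [ht, inv_pow, Real.sq_sqrt ha0.le]
  refine ⟨(t : ℂ) • φ, cv_smul _ hφ, ?_, ?_⟩
  · have : ∫ x, ‖((t : ℂ) • φ) x‖ ^ 2 = t ^ 2 * a := by
      rw [ha, ← integral_const_mul]
      refine integral_congr_ae (Eventually.of_forall fun x => ?_)
      show ‖(t : ℂ) • φ x‖ ^ 2 = _
      rw [norm_smul, mul_pow, Complex.norm_real, Real.norm_eq_abs, sq_abs]
    rw [this, ht2, inv_mul_cancel₀ ha0.ne']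
  · have h1 : ∀ i, ‖∫ x, ⟪v i x, ((t : ℂ) • φ) x⟫_ℂ‖ ^ 2 = t ^ 2 * ‖∫ x, ⟪v i x, φ x⟫_ℂ‖ ^ 2 := by
      intro i
      have : ∫ x, ⟪v i x, ((t : ℂ) • φ) x⟫_ℂ = (t : ℂ) * ∫ x, ⟪v i x, φ x⟫_ℂ := by
        rw [← integral_const_mul]
        refine integral_congr_ae (Eventually.of_forall fun x => ?_)
        show ⟪v i x, (t : ℂ) • φ x⟫_ℂ = _
        rw [inner_smul_right]
      rw [this, norm_mul, mul_pow, Complex.norm_real, Real.norm_eq_abs, sq_abs]
    rw [qf_smul t (cv_diff hφ)]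
    simp only [h1, ← Finset.mul_sum]
    have h2 : t ^ 2 * (qf b M G g m φ + C * ∑ i, ‖∫ x, ⟪v i x, φ x⟫_ℂ‖ ^ 2) < t ^ 2 * (c * a) := by
      refine mul_lt_mul_of_pos_left hlt ?_
      rw [ht2]
      exact inv_pos.2 ha0
    calc t ^ 2 * qf b M G g m φ + C * (t ^ 2 * ∑ i, ‖∫ x, ⟪v i x, φ x⟫_ℂ‖ ^ 2) =
        t ^ 2 * (qf b M G g m φ + C * ∑ i, ‖∫ x, ⟪v i x, φ x⟫_ℂ‖ ^ 2) := by ring
      _ < t ^ 2 * (c * a) := h2
      _ = c := by rw [ht2]; field_simp

end norm

/-! ### the test functions -/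

/-- the cut-off vacuum -/
def wt (χ : Cfg N → ℝ) (A : Cfg N →ₗ[ℝ] Cfg N) (Ω : F) (y : Cfg N) : F :=
  (χ y : ℂ) • gau A Ω y

theorem continuous_gau (A : Cfg N →ₗ[ℝ] Cfg N) (Ω : F) : Continuous (gau A Ω) := by
  unfold gau
  have hA : Continuous A := A.continuous_of_finiteDimensional
  exact (Real.continuous_exp.comp (continuous_const.mul (continuous_id.inner hA))).smul
    continuous_const

theorem continuous_wt {χ : Cfg N → ℝ} (hχ : Continuous χ) (A : Cfg N →ₗ[ℝ] Cfg N) (Ω : F) :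
    Continuous (wt χ A Ω) :=
  (Complex.continuous_ofReal.comp hχ).smul (continuous_gau A Ω)

theorem hcs_wt {χ : Cfg N → ℝ} (hχ : HasCompactSupport χ) (A : Cfg N →ₗ[ℝ] Cfg N) (Ω : F) :
    HasCompactSupport (wt χ A Ω) := by
  refine hχ.mono fun x hx => ?_
  rw [Function.mem_support] at hx ⊢
  intro h0
  exact hx (by unfold wt; rw [h0, Complex.ofReal_zero, zero_smul])

theorem pair_ne_zero {χ : Cfg N → ℝ} (hχ : Continuous χ) (hχc : HasCompactSupport χ)
    (hχ0 : ∀ x, 0 ≤ χ x) (hχ1 : χ 0 = 1) (A : Cfg N →ₗ[ℝ] Cfg N) {Ω : F} (hΩ : ‖Ω‖ = 1)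
    {k : ℂ} (hk : k ≠ 0) {f₀ : Cfg N → F} (hf : f₀ =ᵐ[volume] fun x => k • gau A Ω x) :
    ∫ x, ⟪f₀ x, wt χ A Ω x⟫_ℂ ≠ 0 := by
  have h1 : ∫ x, ⟪f₀ x, wt χ A Ω x⟫_ℂ =
      (starRingEnd ℂ) k * ((∫ x, χ x * ‖gau A Ω x‖ ^ 2 : ℝ) : ℂ) := by
    rw [← integral_complex_ofReal, ← integral_const_mul]
    refine integral_congr_ae ?_
    filter_upwards [hf] with x hx
    rw [hx, wt, inner_smul_left, inner_smul_right, inner_self_eq_norm_sq_to_K]
    push_cast
    rfl
  have h2 : 0 < ∫ x, χ x * ‖gau A Ω x‖ ^ 2 := by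
    refine Continuous.integral_pos_of_hasCompactSupport_nonneg_nonzero (x := 0)
      (hχ.mul ((continuous_gau A Ω).norm.pow 2)) hχc.mul_right
      (fun x => mul_nonneg (hχ0 x) (sq_nonneg _)) ?_
    have : gau A Ω 0 = Ω := by
      unfold gau
      simp
    rw [this, hχ1, hΩ]
    norm_num
  rw [h1]
  exact mul_ne_zero (by simpa using hk) (by exact_mod_cast h2.ne')

/-- overlaps of the shifted vector -/
theorem pair_shift (w φ : Cfg N → F) (p : Cfg N) (s : ℝ) :
    ‖∫ y, ⟪lf φ p s y, w y⟫_ℂ‖ ^ 2 = s ^ 2 * ‖∫ x, ⟪w (x - p), φ x⟫_ℂ‖ ^ 2 := by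
  have h1 : ∫ x, ⟪w (x - p), φ x⟫_ℂ = ∫ y, ⟪w y, φ (p + y)⟫_ℂ := by
    rw [← integral_add_left_eq_self (fun x => ⟪w (x - p), φ x⟫_ℂ) p]
    refine integral_congr_ae (Eventually.of_forall fun y => ?_)
    show ⟪w (p + y - p), φ (p + y)⟫_ℂ = _
    rw [add_sub_cancel_left]
  have h2 : ∫ y, ⟪lf φ p s y, w y⟫_ℂ = (s : ℂ) * (starRingEnd ℂ) (∫ y, ⟪w y, φ (p + y)⟫_ℂ) := by
    rw [← integral_conj, ← integral_const_mul]
    refine integral_congr_ae (Eventually.of_forall fun y => ?_)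
    show ⟪lf φ p s y, w y⟫_ℂ = (s : ℂ) * (starRingEnd ℂ) ⟪w y, φ (p + y)⟫_ℂ
    rw [lf, inner_smul_left, Complex.conj_ofReal, inner_conj_symm]
  rw [h2, h1, norm_mul, mul_pow, Complex.norm_real, Real.norm_eq_abs, sq_abs, Complex.norm_conj]

/-! ### mass near the orbits -/

/-- tube about the orbit of `p` -/
def tb (b : ColorBasis N) (p : Cfg N) (r : ℝ) : Set (Cfg N) :=
  {x | ∃ h : SUgrp596.SU N, dist x (b.act h p) ≤ r}

theorem isClosed_tb (b : ColorBasis N) (p : Cfg N) (r : ℝ) : IsClosed (tb b p r) := by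
  have hK : IsCompact (range fun h : SUgrp596.SU N => b.act h p) :=
    isCompact_range ((isoAct b).cont_left p)
  have hne : (range fun h : SUgrp596.SU N => b.act h p).Nonempty := ⟨_, mem_range_self 1⟩
  have h2 : tb b p r = {x | infDist x (range fun h : SUgrp596.SU N => b.act h p) ≤ r} := by
    ext x
    constructor
    · rintro ⟨h, hh⟩
      exact (infDist_le_dist_of_mem (mem_range_self h)).trans hh
    · intro hx
      obtain ⟨y, ⟨h, rfl⟩, hy⟩ := hK.exists_infDist_eq_dist hne x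
      exact ⟨h, by rw [← hy]; exact hx⟩
  rw [h2]
  exact isClosed_le (continuous_infDist_pt _) continuous_const

theorem eventually_exists {ι : Type*} [Finite ι] {P : ι → ℕ → Prop} (h : ∀ n, ∃ i, P i n) :
    ∃ i, ∀ᶠ n in 𝓤, P i n := by
  by_contra hcon
  push Not at hcon
  have h2 : ∀ᶠ n in 𝓤, ∀ i, ¬ P i n := eventually_all.2 fun i => by
    have := hcon i
    first
      | exact Ultrafilter.eventually_not.2 this
      | exact this
  obtain ⟨n, hn⟩ := h2.exists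
  obtain ⟨i, hi⟩ := h n
  exact hn i hi

/-- at least half of the mass is near the orbits -/
theorem mass_near {b : ColorBasis N} {M : FermionRep N F} {R : GaugeAction b M}
    {c : Nat.Partition N → Cfg N} {c₀ : ℝ} (hc₀ : 0 < c₀) {g : ℝ} {r : ℝ}
    (hV : ∀ x : Cfg N, (∀ l h, r ≤ ‖x - b.act h (g⁻¹ • c l)‖) → c₀ * r ^ 2 ≤ VLow737.VR b g x)
    {φ : Cfg N → F} (hφ : IsCoreVec b R φ) (h1 : ∫ x, ‖φ x‖ ^ 2 = 1) {C : ℝ}
    (hE : ∫ x, VLow737.VR b g x * ‖φ x‖ ^ 2 ≤ C) (hr : 2 * C ≤ c₀ * r ^ 2) (hr0 : 0 < r) :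
    ∃ l, 1 / (2 * (pN N : ℝ)) ≤ ∫ x in tb b (g⁻¹ • c l) r, ‖φ x‖ ^ 2 := by
  have hi : Integrable (fun x => ‖φ x‖ ^ 2) volume := int_cc hφ.1.continuous hφ.2.1
  set U : Set (Cfg N) := ⋃ l, tb b (g⁻¹ • c l) r with hU
  have hUm : MeasurableSet U := MeasurableSet.iUnion fun l => (isClosed_tb b _ r).measurableSet
  have hVRc : Continuous fun x => VLow737.VR b g x := by
    unfold VLow737.VR CoerCfg87.Vcyc CoerCfg87.Vhi CoerCfg87.br CoerCfg87.comp
    fun_prop
  have hVi : Integrable (fun x => VLow737.VR b g x * ‖φ x‖ ^ 2) volume := by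
    have hcc : Continuous fun x => VLow737.VR b g x * ‖φ x‖ ^ 2 :=
      hVRc.mul (hφ.1.continuous.norm.pow 2)
    refine hcc.integrable_of_hasCompactSupport ?_
    refine hφ.2.1.mono fun x hx => ?_
    rw [Function.mem_support] at hx ⊢
    intro h0
    exact hx (by rw [h0, norm_zero]; norm_num)
  have hoff : ∫ x in Uᶜ, ‖φ x‖ ^ 2 ≤ 1 / 2 := by
    have h2 : c₀ * r ^ 2 * ∫ x in Uᶜ, ‖φ x‖ ^ 2 ≤ C := by
      rw [← integral_const_mul]
      calc ∫ x in Uᶜ, c₀ * r ^ 2 * ‖φ x‖ ^ 2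
          ≤ ∫ x in Uᶜ, VLow737.VR b g x * ‖φ x‖ ^ 2 := by
            refine setIntegral_mono_on (hi.const_mul _).integrableOn hVi.integrableOn hUm.compl
              fun x hx => ?_
            refine mul_le_mul_of_nonneg_right (hV x fun l h => ?_) (sq_nonneg _)
            by_contra hlt
            refine hx (mem_iUnion.2 ⟨l, h, ?_⟩)
            rw [dist_eq_norm]
            exact (not_le.1 hlt).le
        _ ≤ ∫ x, VLow737.VR b g x * ‖φ x‖ ^ 2 :=
            setIntegral_le_integral hVi (Eventually.of_forall fun x =>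
              mul_nonneg (VLow737.VR_nonneg b g x) (sq_nonneg _))
        _ ≤ C := hE
    have h3 : 0 < c₀ * r ^ 2 := by positivity
    have h4 : 0 ≤ ∫ x in Uᶜ, ‖φ x‖ ^ 2 := integral_nonneg fun x => sq_nonneg _
    by_contra hlt
    have h5 : c₀ * r ^ 2 * (1 / 2) < c₀ * r ^ 2 * ∫ x in Uᶜ, ‖φ x‖ ^ 2 :=
      mul_lt_mul_of_pos_left (not_le.1 hlt) h3
    linarith
  have hon : 1 / 2 ≤ ∫ x in U, ‖φ x‖ ^ 2 := by
    have := integral_add_compl hUm hi
    linarith
  by_contra hcon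
  push Not at hcon
  have hsum : ∫ x in U, ‖φ x‖ ^ 2 ≤ ∑ l, ∫ x in tb b (g⁻¹ • c l) r, ‖φ x‖ ^ 2 := by
    have e1 : ∀ S : Set (Cfg N), ∫⁻ x in S, ‖φ x‖ₑ ^ 2 =
        ENNReal.ofReal (∫ x in S, ‖φ x‖ ^ 2) := fun S => lint_eq hi.integrableOn
    have e2 : ∫⁻ x in U, ‖φ x‖ₑ ^ 2 ≤ ∑ l, ∫⁻ x in tb b (g⁻¹ • c l) r, ‖φ x‖ₑ ^ 2 := by
      rw [hU]
      refine (lintegral_iUnion_le _ _).trans ?_
      rw [tsum_fintype]
    simp only [e1] at e2
    rw [← ENNReal.ofReal_sum_of_nonneg (fun l _ => integral_nonneg fun x => sq_nonneg _)] at e2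
    exact (ENNReal.ofReal_le_ofReal_iff (Finset.sum_nonneg fun l _ =>
      integral_nonneg fun x => sq_nonneg _)).1 e2
  have hK : (0 : ℝ) < pN N := by exact_mod_cast one_le_pN N
  have hlt : ∑ l, ∫ x in tb b (g⁻¹ • c l) r, ‖φ x‖ ^ 2 <
      ∑ _l : Nat.Partition N, 1 / (2 * (pN N : ℝ)) :=
    Finset.sum_lt_sum_of_nonempty Finset.univ_nonempty fun l _ => hcon l
  rw [Finset.sum_const, Finset.card_univ, nsmul_eq_mul] at hlt
  have : ((Fintype.card (Nat.Partition N) : ℕ) : ℝ) * (1 / (2 * (pN N : ℝ))) = 1 / 2 := by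
    show (pN N : ℝ) * (1 / (2 * (pN N : ℝ))) = 1 / 2
    field_simp
  rw [this] at hlt
  linarith

/-! ### the upper bound -/

theorem succ_le {r : Cardinal} {p : ℕ} (h : (p : Cardinal) < r) : ((p + 1 : ℕ) : Cardinal) ≤ r := by
  by_contra hcon
  have h3 : r < ((p + 1 : ℕ) : Cardinal) := not_le.1 hcon
  obtain ⟨n, rfl⟩ := Cardinal.lt_aleph0.1 (h3.trans (Cardinal.natCast_lt_aleph0 (n := p + 1)))
  have h4 : p < n := by exact_mod_cast h
  have h5 : n < p + 1 := by exact_mod_cast h3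
  omega

/-- the contradiction sequence of one vacuum -/
theorem no_seq [Nontrivial F] {b : ColorBasis N} {M : FermionRep N F}
    {R : GaugeAction b M} {G : GammaNine} {c : Cfg N}
    (hc : ∀ α β A, wpot b G 1 1 α β A c = 0) {A : Cfg N →ₗ[ℝ] Cfg N} {Ω : F} (hΩ : ‖Ω‖ = 1)
    (hL : ∀ f : Cfg N → F, AEStronglyMeasurable f volume →
      (∫⁻ x, ENNReal.ofReal (Real.exp (-2 * ‖x‖)) * ‖f x‖ₑ ^ 2 < ⊤) →
      (∀ ψ : Cfg N → F, ContDiff ℝ ∞ ψ → HasCompactSupport ψ →
        ∀ α, ∫ x, ⟪f x, lcharge b M G c α ψ x⟫_ℂ = 0) →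
      (∀ ψ : Cfg N → F, ContDiff ℝ ∞ ψ → HasCompactSupport ψ →
        ∀ om, ∫ x, ⟪f x, fderiv ℝ ψ x (brk b om c)⟫_ℂ = 0) →
      ∃ k : ℂ, f =ᵐ[volume] fun x => k • gau A Ω x)
    {g : ℕ → ℝ} (hg : ∀ n, 0 < g n)
    (hg0 : Tendsto g atTop (𝓝 0)) {φ : ℕ → Cfg N → F} (hφ : ∀ n, IsCoreVec b R (φ n))
    (h1 : ∀ n, ∫ x, ‖φ n x‖ ^ 2 ≤ 1) {C : ℝ} (hD : ∀ n, ∫ x, ‖fderiv ℝ (φ n) x‖ ^ 2 ≤ C)
    (hq : Tendsto (fun n => qf b M G (g n) 1 (φ n)) atTop (𝓝 0))
    {χ : Cfg N → ℝ} (hχ : Continuous χ) (hχc : HasCompactSupport χ)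
    (hχ0 : ∀ x, 0 ≤ χ x) (hχ1 : χ 0 = 1)
    (hov : Tendsto (fun n => sn b ((g n)⁻¹ • c) ^ 2 *
      ‖∫ x, ⟪wt χ A Ω (x - (g n)⁻¹ • c), φ n x⟫_ℂ‖ ^ 2) atTop (𝓝 0))
    {κ r : ℝ} (hκ : 0 < κ)
    (hmass : ∀ᶠ n in 𝓤, κ ≤ ∫ x in tb b ((g n)⁻¹ • c) r, ‖φ n x‖ ^ 2) : False := by
  obtain ⟨f₀, hm, hh, ht, hexp, hlc, hbr⟩ := local_limit hc hg hg0 hφ h1 hD hq
  obtain ⟨k, hk⟩ := hL f₀ hm hexp hlc hbr
  have hcont : ∀ n, Continuous (lf (φ n) ((g n)⁻¹ • c) (sn b ((g n)⁻¹ • c))) := fun n =>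
    (contDiff_lf (hφ n).1 _ _).continuous
  -- the limit is not zero
  have hk0 : k ≠ 0 := by
    intro hk0
    have h2 : κ ≤ 2 * ∫ x in closedBall (0 : Cfg N) (r + 1), ‖f₀ x‖ ^ 2 := by
      refine limit_ge hcont hm hh (ht (r + 1)) (hmass.mono fun n hn => hn.trans ?_)
      rw [lf_int]
      exact norm_lower (hφ n).1.continuous (hφ n).2.1 (norm_core (hφ n)) _ r
        (isClosed_tb b _ r).measurableSet fun x hx => hx
    have h3 : ∫ x in closedBall (0 : Cfg N) (r + 1), ‖f₀ x‖ ^ 2 = 0 := by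
      rw [integral_eq_zero_of_ae]
      refine ae_restrict_of_ae ?_
      filter_upwards [hk] with x hx
      rw [hx, hk0]
      simp
    linarith
  -- the overlap of the limit
  have h4 := tendsto_pair hcont hm hh ht (continuous_wt hχ A Ω) (hcs_wt hχc A Ω)
  have h5 : Tendsto (fun n => ∫ x, ⟪lf (φ n) ((g n)⁻¹ • c) (sn b ((g n)⁻¹ • c)) x,
      wt χ A Ω x⟫_ℂ) 𝓤 (𝓝 0) := by
    refine tendsto_of_sq ?_
    simp only [pair_shift]
    exact hov.mono_left hyper_le
  exact pair_ne_zero hχ hχc hχ0 hχ1 A hΩ hk0 hk (tendsto_nhds_unique h4 h5)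

set_option maxHeartbeats 1000000 in
/-- **`dim ker Q^{g,1} ≤ p(N)` for small `g`** -/
theorem upper_of {N : ℕ} (hO : OrbitsProp N) (hP : VacPackProp N) (hW : VacWpot N)
    (hL : LiouvilleProp N) (hE : EnProp N) (hV : VzProp N) : Upper N := by
  intro F _ _ _ _ b M R G
  obtain ⟨c, hc⟩ := hO b
  have hvac : ∀ l α β A, wpot b G 1 1 α β A (c l) = 0 := fun l => (hW b G (c l)).1 (hc.vac l)
  choose A Ω hpack using fun l => hP F b M R G (c l) (hc.vac l)
  obtain ⟨C, hC⟩ := hE F b M R G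
  obtain ⟨c₀, hc₀, hVz⟩ := hV b c hc
  obtain ⟨χ, hχs, hχc, hχ0, hχ1, hχe, -⟩ := exists_chi (ι := Fin 9 × Fin (N ^ 2 - 1)) 0
  by_contra hcon
  push Not at hcon
  -- the sequence of couplings
  choose g hg hglt hrank using fun n : ℕ => hcon (1 / ((n : ℝ) + 1)) (by positivity)
  have hg1 : ∀ n, g n ≤ 1 := fun n => (hglt n).le.trans (by
    rw [div_le_one (by positivity)]
    have : (0 : ℝ) ≤ n := Nat.cast_nonneg n
    linarith)
  have hg0 : Tendsto g atTop (𝓝 0) :=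
    squeeze_zero (fun n => (hg n).le) (fun n => (hglt n).le) tendsto_one_div_add_atTop_nhds_zero_nat
  -- the test functions
  let e : Fin (pN N) ≃ Nat.Partition N := (Fintype.equivFin (Nat.Partition N)).symm
  let v : ℕ → Fin (pN N) → Cfg N → F := fun n i x =>
    wt χ (A (e i)) (Ω (e i)) (x - (g n)⁻¹ • c (e i))
  have hv : ∀ n i, MemLp (v n i) 2 volume := by
    intro n i
    have h1 : Continuous (v n i) :=
      (continuous_wt hχs.continuous (A (e i)) (Ω (e i))).comp (continuous_id.sub continuous_const)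
    have h2 : HasCompactSupport (v n i) :=
      (hcs_wt hχc (A (e i)) (Ω (e i))).comp_homeomorph (Homeomorph.subRight ((g n)⁻¹ • c (e i)))
    exact h1.memLp_of_hasCompactSupport h2
  let Cn : ℕ → ℝ := fun n => ∑ l, sn b ((g n)⁻¹ • c l) ^ 2
  have hCn : ∀ n, 0 ≤ Cn n := fun n => Finset.sum_nonneg fun l _ => sq_nonneg _
  have hex : ∀ n : ℕ, ∃ φ : Cfg N → F, IsCoreVec b R φ ∧ ∫ x, ‖φ x‖ ^ 2 = 1 ∧
      qf b M G (g n) 1 φ + Cn n * ∑ i, ‖∫ x, ⟪v n i x, φ x⟫_ℂ‖ ^ 2 < 1 / ((n : ℝ) + 1) := by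
    intro n
    refine exists_unit (v n) (hCn n) (fun h => ?_) (by positivity)
    have h1 := Lit416.not_dimGe_of_functionals (v n) (hv n) (c := 1 / ((n : ℝ) + 1)) (C := Cn n)
      (by positivity) h
    refine h1 ?_
    exact succ_le (hrank n)
  choose φ hφ hφ1 hφlt using hex
  have hq0 : ∀ n, 0 ≤ qf b M G (g n) 1 (φ n) := fun n => Lit416.qf_nonneg _
  have hov0 : ∀ n, 0 ≤ Cn n * ∑ i, ‖∫ x, ⟪v n i x, φ n x⟫_ℂ‖ ^ 2 := fun n =>
    mul_nonneg (hCn n) (Finset.sum_nonneg fun i _ => sq_nonneg _)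
  have hqle : ∀ n : ℕ, qf b M G (g n) 1 (φ n) ≤ 1 / ((n : ℝ) + 1) := fun n => by
    linarith [hφlt n, hov0 n]
  have hq1 : ∀ n : ℕ, (1 : ℝ) / ((n : ℝ) + 1) ≤ 1 := fun n => by
    rw [div_le_one (by positivity)]
    have : (0 : ℝ) ≤ n := Nat.cast_nonneg n
    linarith
  have hq : Tendsto (fun n => qf b M G (g n) 1 (φ n)) atTop (𝓝 0) :=
    squeeze_zero hq0 hqle tendsto_one_div_add_atTop_nhds_zero_nat
  -- energy
  have hEn : ∀ n, (1 / 4) * (∫ x, ‖fderiv ℝ (φ n) x‖ ^ 2) +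
      (1 / 2) * (∫ x, VLow737.VR b (g n) x * ‖φ n x‖ ^ 2) ≤ 1 + |C| := by
    intro n
    have h1 := hC (g n) (hg n) (hg1 n) (φ n) (hφ n)
    rw [hφ1 n, mul_one] at h1
    linarith [hqle n, hq1 n, le_abs_self C]
  have hD0 : ∀ n, 0 ≤ ∫ x, ‖fderiv ℝ (φ n) x‖ ^ 2 := fun n =>
    integral_nonneg fun x => sq_nonneg _
  have hV0 : ∀ n, 0 ≤ ∫ x, VLow737.VR b (g n) x * ‖φ n x‖ ^ 2 := fun n =>
    integral_nonneg fun x => mul_nonneg (VLow737.VR_nonneg b (g n) x) (sq_nonneg _)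
  have hD : ∀ n, ∫ x, ‖fderiv ℝ (φ n) x‖ ^ 2 ≤ 4 * (1 + |C|) := fun n => by
    linarith [hEn n, hV0 n]
  have hVb : ∀ n, ∫ x, VLow737.VR b (g n) x * ‖φ n x‖ ^ 2 ≤ 2 * (1 + |C|) := fun n => by
    linarith [hEn n, hD0 n]
  -- the radius
  set r : ℝ := Real.sqrt (4 * (1 + |C|) / c₀) with hr
  have hpos : 0 < 4 * (1 + |C|) / c₀ := by positivity
  have hr0 : 0 < r := Real.sqrt_pos.2 hpos
  have hr2 : 2 * (2 * (1 + |C|)) ≤ c₀ * r ^ 2 := by
    rw [hr, Real.sq_sqrt hpos.le]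
    field_simp
    linarith
  have hmass : ∀ n, ∃ l, 1 / (2 * (pN N : ℝ)) ≤ ∫ x in tb b ((g n)⁻¹ • c l) r, ‖φ n x‖ ^ 2 :=
    fun n => mass_near hc₀ (fun x hx => hVz (g n) (hg n) r hr0.le x hx) (hφ n) (hφ1 n) (hVb n)
      hr2 hr0
  obtain ⟨l, hl⟩ := eventually_exists hmass
  have hK : (0 : ℝ) < pN N := by exact_mod_cast one_le_pN N
  -- the overlap with the vacuum `l`
  have hov : Tendsto (fun n => sn b ((g n)⁻¹ • c l) ^ 2 *
      ‖∫ x, ⟪wt χ (A l) (Ω l) (x - (g n)⁻¹ • c l), φ n x⟫_ℂ‖ ^ 2) atTop (𝓝 0) := by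
    refine squeeze_zero (fun n => by positivity) (fun n => ?_)
      tendsto_one_div_add_atTop_nhds_zero_nat
    have h1 : sn b ((g n)⁻¹ • c l) ^ 2 ≤ Cn n :=
      Finset.single_le_sum (f := fun l => sn b ((g n)⁻¹ • c l) ^ 2) (fun l _ => sq_nonneg _)
        (Finset.mem_univ l)
    have h2 : ‖∫ x, ⟪wt χ (A l) (Ω l) (x - (g n)⁻¹ • c l), φ n x⟫_ℂ‖ ^ 2 ≤
        ∑ i, ‖∫ x, ⟪v n i x, φ n x⟫_ℂ‖ ^ 2 := by
      have h3 := Finset.single_le_sum (f := fun i => ‖∫ x, ⟪v n i x, φ n x⟫_ℂ‖ ^ 2)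
        (fun i _ => sq_nonneg _) (Finset.mem_univ (e.symm l))
      have h4 : v n (e.symm l) = fun x => wt χ (A l) (Ω l) (x - (g n)⁻¹ • c l) := by
        show (fun x => wt χ (A (e (e.symm l))) (Ω (e (e.symm l)))
          (x - (g n)⁻¹ • c (e (e.symm l)))) = _
        rw [Equiv.apply_symm_apply]
      simp only [h4] at h3
      exact h3
    calc sn b ((g n)⁻¹ • c l) ^ 2 *
        ‖∫ x, ⟪wt χ (A l) (Ω l) (x - (g n)⁻¹ • c l), φ n x⟫_ℂ‖ ^ 2
        ≤ Cn n * ∑ i, ‖∫ x, ⟪v n i x, φ n x⟫_ℂ‖ ^ 2 :=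
          mul_le_mul h1 h2 (sq_nonneg _) (hCn n)
      _ ≤ 1 / ((n : ℝ) + 1) := by linarith [hφlt n, hq0 n]
  exact no_seq (hvac l) (hpack l).unit
    (fun f h1 h2 h3 h4 => hL F b M R G (c l) (A l) (Ω l) (hc.vac l) (hpack l) f h1 h2 h3 h4)
    hg hg0 hφ (fun n => (hφ1 n).le) hD hq hχs.continuous hχc hχ0 (hχe 0 (by simp)) hov
    (show (0 : ℝ) < 1 / (2 * (pN N : ℝ)) by positivity) hl

end Crest.Agent.R330.Up8

end
end

-- ▼ part R330/VLowD_737
section

/-!
# Row 330, section 5a (helper737): link with the frozen statements of section 5 (S5Defs_798)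

* `isVac_iff` : `IsVacCfg b c ↔ c ∈ Crit b 1`.
* `lin_ker` : at a vacuum `c`, `DRes c u = 0 ↔ ∃ om, u = [om, c]`.
* `near_one_orbit` : for an `OrbitList`, points with small potential are near one of the orbits.
-/

set_option autoImplicit false
set_option linter.unusedSectionVars false

open Metric Set Topology Filter Crest.MathPhysics.MatrixQM
open scoped InnerProductSpace Pointwise

namespace Crest.Agent.R330.VLow737

noncomputable section

variable {N : ℕ} (b : ColorBasis N)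

theorem Vcyc_nonneg (g m : ℝ) (x : Cfg N) : 0 ≤ CoerCfg87.Vcyc b g m x := by
  unfold CoerCfg87.Vcyc
  positivity

theorem Vhi_nonneg (x : Cfg N) : 0 ≤ CoerCfg87.Vhi x := by
  unfold CoerCfg87.Vhi
  positivity

theorem isVac_iff (c : Cfg N) : S5Defs798.IsVacCfg b c ↔ c ∈ Crit b 1 := by
  change _ ↔ VR b 1 c = 0
  unfold VR S5Defs798.IsVacCfg
  have h1 := Vcyc_nonneg b 1 1 c
  have h2 := Vhi_nonneg c
  constructor
  · rintro ⟨h3, h4⟩
    rw [h3, h4]; norm_num
  · intro h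
    constructor <;> linarith







/-- Points of small potential are near one of the listed orbits, quantitatively. -/
theorem near_list (hN : 0 < N) {c : Nat.Partition N → Cfg N} (hc : S5Defs798.OrbitList b c) :
    ∃ a > 0, ∀ g : ℝ, 0 < g → ∀ x : Cfg N, ∃ l : Nat.Partition N,
      a * infDist x (orb b (g⁻¹ • c l)) ^ 2 ≤ VR b g x := by
  obtain ⟨a, ha, h⟩ := VR_lower b hN
  refine ⟨a, ha, fun g hg x => ?_⟩
  have h1 := h g hg x
  obtain ⟨y, hy, hyx⟩ := (isCompact_Crit b hN hg).exists_infDist_eq_dist (by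
    refine ⟨0, ?_⟩
    rw [mem_Crit_iff b hg, smul_zero, Crit_one]
    exact zero_mem_Zs _) x
  have hy1 : S5Defs798.IsVacCfg b (g • y) := (isVac_iff b _).2 ((mem_Crit_iff b hg y).1 hy)
  obtain ⟨l, k, hk⟩ := hc.all _ hy1
  refine ⟨l, le_trans ?_ h1⟩
  have h2 : y ∈ orb b (g⁻¹ • c l) := by
    refine ⟨k, ?_⟩
    change b.act k (g⁻¹ • c l) = y
    rw [Col962.act_smul, ← hk, smul_smul, inv_mul_cancel₀ hg.ne', one_smul]
  have h3 : infDist x (orb b (g⁻¹ • c l)) ≤ infDist x (Crit b g) := by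
    rw [hyx]
    exact infDist_le_dist_of_mem h2
  exact mul_le_mul_of_nonneg_left (pow_le_pow_left₀ infDist_nonneg h3 2) ha.le

end

end Crest.Agent.R330.VLow737
end

-- ▼ part R330/Bar_963
section

/-!
Row 330, S0513 (helper963): the deterministic barrier lemma for the sector
`J^R_a f = 0`, `J^L_3 f = i m f` of SO(4) acting on the first four spatial indices, and the
`N = 2` potential bound.
-/

set_option autoImplicit false
set_option linter.unusedSectionVars false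
set_option linter.unusedSimpArgs false
set_option linter.unusedVariables false

noncomputable section

namespace Crest.Agent.R330.Bar963

open Crest.MathPhysics.MatrixQM
open scoped InnerProductSpace

/-! ### 1. Structure constants for two colours -/

/-- bosonic potential `(1/4) Σ_{jk} |[x_j,x_k]|²` -/
def V {N : ℕ} (b : ColorBasis N) (x : Cfg N) : ℝ :=
  (1 / 4 : ℝ) * ∑ j : Fin 9, ∑ k : Fin 9, ∑ A : Fin (N ^ 2 - 1),
    (∑ B : Fin (N ^ 2 - 1), ∑ C : Fin (N ^ 2 - 1),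
      b.structConst A B C * x (j, B) * x (k, C)) ^ 2

section Two

variable (b : ColorBasis 2)

def ta (A : Fin (2 ^ 2 - 1)) : ℝ := (b.T A 0 0).re
def tb (A : Fin (2 ^ 2 - 1)) : ℝ := (b.T A 0 1).re







def k1 : Fin (2 ^ 2 - 1) := ⟨1, by decide⟩
def k2 : Fin (2 ^ 2 - 1) := ⟨2, by decide⟩





end Two

/-! ### 2. The potential for two colours -/






/-! ### 3. Rotation fields -/

/-- the vector field of `L_ij = Σ_A (x_i^A ∂_{jA} - x_j^A ∂_{iA})` -/
def rot {N : ℕ} (i j : Fin 9) (x : Cfg N) : Cfg N :=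
  ∑ A : Fin (N ^ 2 - 1), (x (i, A) • EuclideanSpace.single (j, A) (1 : ℝ) -
    x (j, A) • EuclideanSpace.single (i, A) (1 : ℝ))




/-- right directions -/
def Km {N : ℕ} (a : Fin 3) (x : Cfg N) : Cfg N :=
  match a with
  | 0 => rot 0 1 x - rot 2 3 x
  | 1 => rot 0 2 x + rot 1 3 x
  | 2 => rot 0 3 x - rot 1 2 x






/-! ### 4. The barrier lemma -/




/-- operator norm against the coordinate gradient -/
theorem opNorm_sq_le {κ : Type*} [Fintype κ] [DecidableEq κ] {F : Type*} [NormedAddCommGroup F]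
    [NormedSpace ℝ F] (D : EuclideanSpace ℝ κ →L[ℝ] F) :
    ‖D‖ ^ 2 ≤ ∑ k, ‖D (EuclideanSpace.single k (1 : ℝ))‖ ^ 2 := by
  set G : ℝ := ∑ k, ‖D (EuclideanSpace.single k (1 : ℝ))‖ ^ 2 with hG
  have hG0 : 0 ≤ G := Finset.sum_nonneg fun k _ => sq_nonneg _
  have h : ‖D‖ ≤ Real.sqrt G := by
    refine D.opNorm_le_bound (Real.sqrt_nonneg _) fun y => ?_
    have hy : y = ∑ k, y k • EuclideanSpace.single k (1 : ℝ) := by
      ext k
      simp [Pi.single_apply]
    have h1 : ‖D y‖ ≤ ∑ k, |y k| * ‖D (EuclideanSpace.single k (1 : ℝ))‖ := by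
      conv_lhs => rw [hy, map_sum]
      refine norm_sum_le_of_le _ fun k _ => ?_
      rw [map_smul, norm_smul, Real.norm_eq_abs]
    have h2 : (∑ k, |y k| * ‖D (EuclideanSpace.single k (1 : ℝ))‖) ^ 2 ≤
        (∑ k, |y k| ^ 2) * G :=
      Finset.sum_mul_sq_le_sq_mul_sq _ _ _
    have h3 : ∑ k, |y k| ^ 2 = ‖y‖ ^ 2 := by
      rw [EuclideanSpace.real_norm_sq_eq]
      simp only [sq_abs]
    rw [h3] at h2
    have h4 : ∑ k, |y k| * ‖D (EuclideanSpace.single k (1 : ℝ))‖ ≤ Real.sqrt G * ‖y‖ := by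
      apply le_of_sq_le_sq _ (by positivity)
      rw [mul_pow, Real.sq_sqrt hG0]
      linarith
    exact h1.trans h4
  calc ‖D‖ ^ 2 ≤ Real.sqrt G ^ 2 := by gcongr
    _ = G := Real.sq_sqrt hG0

end Crest.Agent.R330.Bar963
end
private theorem rz_07b5de3a63 : type_of% @_root_.Crest.Agent.R330.Bar963.Km.eq_1 := @_root_.Crest.Agent.R330.Bar963.Km.eq_1 -- L281
end

-- ▼ part R330/En_682

/-!
# Row 330, S5d-UP: the energy inequality uniform in the coupling (helper682)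

* `norm_Th_le`, `norm_dco_le` : norm bounds of the Clifford map.
* `norm_dW_wpot_le` : `|∂_k w^{g,m}| ≤ C (g ‖x‖ + m)`.
* `norm_Zop_le` : the Yukawa bound `‖Z^{g,m}(x) v‖ ≤ C (g ‖x‖ + m) ‖v‖`.
* `qf_eq` : the literal energy identity (1.1)
  `q_{g,m}(φ) = ½ Σ_k ∫ ‖∂_k φ‖² + ∫ V_{g,m} ‖φ‖² + (1/16) ∫ re ⟨φ, Z φ⟩`.
* `en_sum`, `en_prop` : (EN); `vz_prop` : (VZ).
-/

set_option autoImplicit false
set_option linter.unusedSectionVars false

open MeasureTheory Filter Topology Metric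
open scoped ContDiff InnerProductSpace ENNReal
open Crest.MathPhysics.MatrixQM

noncomputable section

namespace Crest.Agent.R330.En682

open Crest.Agent.R330.IBP837 Crest.Agent.R330.Weitz726
open Crest.Agent.R330.Defs478 (cc Gam wpot dcharge qf)

variable {N : ℕ}

/-! ## norm bounds -/

section norms

variable {F : Type*} [NormedAddCommGroup F] [InnerProductSpace ℂ F]

theorem norm_Th_sq (M : FermionRep N F) (u : Fin 16 → Fin (N ^ 2 - 1) → ℝ) (v : F) :
    ‖Th M u v‖ ^ 2 = dp u u / 2 * ‖v‖ ^ 2 := by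
  have h : ⟪Th M u v, Th M u v⟫_ℂ = ((dp u u / 2 : ℝ) : ℂ) * ⟪v, v⟫_ℂ := by
    rw [Th_symm, Th_sq, inner_smul_right]
  have n2 : ∀ w : F, ⟪w, w⟫_ℂ = ((‖w‖ ^ 2 : ℝ) : ℂ) := fun w => by
    rw [inner_self_eq_norm_sq_to_K]; norm_cast
  rw [n2, n2, ← Complex.ofReal_mul] at h
  exact Complex.ofReal_injective h

theorem norm_Th_le (M : FermionRep N F) {u : Fin 16 → Fin (N ^ 2 - 1) → ℝ} {K : ℝ} (hK : 0 ≤ K)
    (hu : ∀ β A, |u β A| ≤ K) (v : F) :
    ‖Th M u v‖ ≤ (8 * (N ^ 2 - 1 : ℕ) + 1) * K * ‖v‖ := by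
  set n : ℝ := ((N ^ 2 - 1 : ℕ) : ℝ) with hn
  have hn0 : 0 ≤ n := Nat.cast_nonneg _
  have h1 : dp u u ≤ 16 * n * K ^ 2 := by
    unfold dp
    calc ∑ β, ∑ A, u β A * u β A ≤ ∑ _β : Fin 16, ∑ _A : Fin (N ^ 2 - 1), K ^ 2 := by
          refine Finset.sum_le_sum fun β _ => Finset.sum_le_sum fun A _ => ?_
          rw [← sq, ← sq_abs]
          exact pow_le_pow_left₀ (abs_nonneg _) (hu β A) 2
      _ = 16 * n * K ^ 2 := by
          simp only [Finset.sum_const, Finset.card_univ, Fintype.card_fin, nsmul_eq_mul]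
          push_cast
          ring
  have h2 : ‖Th M u v‖ ^ 2 ≤ ((8 * n + 1) * K * ‖v‖) ^ 2 := by
    rw [norm_Th_sq]
    have h3 : dp u u / 2 * ‖v‖ ^ 2 ≤ 8 * n * K ^ 2 * ‖v‖ ^ 2 :=
      mul_le_mul_of_nonneg_right (by linarith) (sq_nonneg _)
    refine h3.trans ?_
    have h4 : ((8 * n + 1) * K * ‖v‖) ^ 2 = (8 * n + 1) ^ 2 * (K ^ 2 * ‖v‖ ^ 2) := by ring
    rw [h4, mul_assoc]
    refine mul_le_mul_of_nonneg_right ?_ (by positivity)
    nlinarith
  exact le_of_sq_le_sq h2 (by positivity)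
where
  le_of_sq_le_sq {a b : ℝ} (h : a ^ 2 ≤ b ^ 2) (hb : 0 ≤ b) : a ≤ b :=
    (pow_le_pow_iff_left₀' h hb)
  pow_le_pow_iff_left₀' {a b : ℝ} (h : a ^ 2 ≤ b ^ 2) (hb : 0 ≤ b) : a ≤ b := abs_le_of_sq_le' h hb |>.2
  abs_le_of_sq_le' {a b : ℝ} (h : a ^ 2 ≤ b ^ 2) (hb : 0 ≤ b) : -b ≤ a ∧ a ≤ b := by
    exact abs_le.1 (by rw [← sq_abs a] at h; exact (pow_le_pow_iff_left₀ (abs_nonneg a) hb two_ne_zero).1 h)

variable [FiniteDimensional ℂ F]

theorem norm_dco_le (M : FermionRep N F) (G : GammaNine) (α : Fin 16)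
    (k : Fin 9 × Fin (N ^ 2 - 1)) (v : F) : ‖dco M G α k v‖ ≤ ‖v‖ := by
  rw [dco_eq]
  have h := norm_Th_sq M (ug G α k.1 k.2) v
  rw [dp_ug_ug, if_pos rfl, gamma_sq, Matrix.one_apply_eq] at h
  have h2 : ‖Th M (ug G α k.1 k.2) v‖ ^ 2 ≤ ‖v‖ ^ 2 := by
    rw [h]; nlinarith [sq_nonneg ‖v‖]
  exact (pow_le_pow_iff_left₀ (norm_nonneg _) (norm_nonneg _) two_ne_zero).1 h2

end norms

/-! ## the derivative of the potential coefficients -/

/-- the constant of one coefficient -/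
def Cw1 (b : ColorBasis N) (G : GammaNine) (α β : Fin 16) (A : Fin (N ^ 2 - 1)) : ℝ :=
  (∑ B : Fin (N ^ 2 - 1), ∑ C : Fin (N ^ 2 - 1), ∑ i : Fin 9, ∑ j : Fin 9,
      |1 / 2 * b.structConst A B C * G.γ2 i j α β|) +
    ∑ j : Fin 9, |cc j * (Gam G * G.γ j) α β|

theorem Cw1_nonneg (b : ColorBasis N) (G : GammaNine) (α β : Fin 16) (A : Fin (N ^ 2 - 1)) :
    0 ≤ Cw1 b G α β A := by
  unfold Cw1; positivity

/-- the constant -/
def Cw (b : ColorBasis N) (G : GammaNine) : ℝ :=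
  ∑ p : Fin 16 × Fin 16 × Fin (N ^ 2 - 1), Cw1 b G p.1 p.2.1 p.2.2

theorem Cw_nonneg (b : ColorBasis N) (G : GammaNine) : 0 ≤ Cw b G :=
  Finset.sum_nonneg fun _ _ => Cw1_nonneg b G _ _ _

theorem Cw1_le (b : ColorBasis N) (G : GammaNine) (α β : Fin 16) (A : Fin (N ^ 2 - 1)) :
    Cw1 b G α β A ≤ Cw b G := by
  have h := Finset.single_le_sum (s := Finset.univ) (a := ((α, β, A) : Fin 16 × Fin 16 ×
    Fin (N ^ 2 - 1))) (f := fun p : Fin 16 × Fin 16 × Fin (N ^ 2 - 1) =>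
    Cw1 b G p.1 p.2.1 p.2.2) (fun p _ => Cw1_nonneg b G p.1 p.2.1 p.2.2) (Finset.mem_univ _)
  exact h

theorem abs_coord_le (x : Cfg N) (k : Fin 9 × Fin (N ^ 2 - 1)) : |x k| ≤ ‖x‖ := by
  rw [← Real.norm_eq_abs]; exact PiLp.norm_apply_le x k

theorem wpot_lip (b : ColorBasis N) (G : GammaNine) {g m : ℝ} (hg : 0 ≤ g) (hm : 0 ≤ m)
    (α β : Fin 16) (A : Fin (N ^ 2 - 1)) (x y : Cfg N) :
    |wpot b G g m α β A y - wpot b G g m α β A x| ≤
      Cw b G * (g * (‖x‖ + ‖y‖) + m) * ‖y - x‖ := by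
  set S : ℝ := ∑ B : Fin (N ^ 2 - 1), ∑ C : Fin (N ^ 2 - 1), ∑ i : Fin 9, ∑ j : Fin 9,
      |1 / 2 * b.structConst A B C * G.γ2 i j α β| with hS
  set T : ℝ := ∑ j : Fin 9, |cc j * (Gam G * G.γ j) α β| with hT
  have hS0 : 0 ≤ S := by positivity
  have hT0 : 0 ≤ T := by positivity
  have hST : S + T ≤ Cw b G := Cw1_le b G α β A
  have h1 : |(∑ B : Fin (N ^ 2 - 1), ∑ C : Fin (N ^ 2 - 1), ∑ i : Fin 9, ∑ j : Fin 9,
      1 / 2 * b.structConst A B C * y (i, B) * y (j, C) * G.γ2 i j α β) -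
      (∑ B : Fin (N ^ 2 - 1), ∑ C : Fin (N ^ 2 - 1), ∑ i : Fin 9, ∑ j : Fin 9,
      1 / 2 * b.structConst A B C * x (i, B) * x (j, C) * G.γ2 i j α β)| ≤
      S * ((‖x‖ + ‖y‖) * ‖y - x‖) := by
    simp only [← Finset.sum_sub_distrib]
    rw [hS, Finset.sum_mul]
    refine (Finset.abs_sum_le_sum_abs _ _).trans (Finset.sum_le_sum fun B _ => ?_)
    rw [Finset.sum_mul]
    refine (Finset.abs_sum_le_sum_abs _ _).trans (Finset.sum_le_sum fun C _ => ?_)
    rw [Finset.sum_mul]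
    refine (Finset.abs_sum_le_sum_abs _ _).trans (Finset.sum_le_sum fun i _ => ?_)
    rw [Finset.sum_mul]
    refine (Finset.abs_sum_le_sum_abs _ _).trans (Finset.sum_le_sum fun j _ => ?_)
    have e : 1 / 2 * b.structConst A B C * y (i, B) * y (j, C) * G.γ2 i j α β -
        1 / 2 * b.structConst A B C * x (i, B) * x (j, C) * G.γ2 i j α β =
        (1 / 2 * b.structConst A B C * G.γ2 i j α β) *
          (y (i, B) * (y - x) (j, C) + (y - x) (i, B) * x (j, C)) := by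
      simp only [PiLp.sub_apply]; ring
    rw [e, abs_mul]
    refine mul_le_mul_of_nonneg_left ?_ (abs_nonneg _)
    refine (abs_add_le _ _).trans ?_
    rw [abs_mul, abs_mul]
    have a1 := abs_coord_le y (i, B)
    have a2 := abs_coord_le (y - x) (j, C)
    have a3 := abs_coord_le (y - x) (i, B)
    have a4 := abs_coord_le x (j, C)
    have b1 := mul_le_mul a1 a2 (abs_nonneg _) (norm_nonneg y)
    have b2 := mul_le_mul a3 a4 (abs_nonneg _) (norm_nonneg (y - x))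
    linarith
  have h2 : |(∑ j : Fin 9, cc j * y (j, A) * (Gam G * G.γ j) α β) -
      ∑ j : Fin 9, cc j * x (j, A) * (Gam G * G.γ j) α β| ≤ T * ‖y - x‖ := by
    rw [← Finset.sum_sub_distrib, hT, Finset.sum_mul]
    refine (Finset.abs_sum_le_sum_abs _ _).trans (Finset.sum_le_sum fun j _ => ?_)
    have e : cc j * y (j, A) * (Gam G * G.γ j) α β - cc j * x (j, A) * (Gam G * G.γ j) α β =
        (cc j * (Gam G * G.γ j) α β) * (y - x) (j, A) := by
      simp only [PiLp.sub_apply]; ring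
    rw [e, abs_mul]
    exact mul_le_mul_of_nonneg_left (abs_coord_le _ _) (abs_nonneg _)
  have h3 : wpot b G g m α β A y - wpot b G g m α β A x =
      g * ((∑ B : Fin (N ^ 2 - 1), ∑ C : Fin (N ^ 2 - 1), ∑ i : Fin 9, ∑ j : Fin 9,
      1 / 2 * b.structConst A B C * y (i, B) * y (j, C) * G.γ2 i j α β) -
      (∑ B : Fin (N ^ 2 - 1), ∑ C : Fin (N ^ 2 - 1), ∑ i : Fin 9, ∑ j : Fin 9,
      1 / 2 * b.structConst A B C * x (i, B) * x (j, C) * G.γ2 i j α β)) -
      m * ((∑ j : Fin 9, cc j * y (j, A) * (Gam G * G.γ j) α β) -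
      ∑ j : Fin 9, cc j * x (j, A) * (Gam G * G.γ j) α β) := by
    unfold wpot; ring
  rw [h3]
  refine (abs_sub _ _).trans ?_
  rw [abs_mul, abs_mul, abs_of_nonneg hg, abs_of_nonneg hm]
  have k1 := mul_le_mul_of_nonneg_left h1 hg
  have k2 := mul_le_mul_of_nonneg_left h2 hm
  have hxy : 0 ≤ ‖x‖ + ‖y‖ := by positivity
  have k3 : g * (S * ((‖x‖ + ‖y‖) * ‖y - x‖)) ≤ g * (Cw b G * ((‖x‖ + ‖y‖) * ‖y - x‖)) := by
    refine mul_le_mul_of_nonneg_left (mul_le_mul_of_nonneg_right (by linarith) (by positivity)) hg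
  have k4 : m * (T * ‖y - x‖) ≤ m * (Cw b G * ‖y - x‖) := by
    refine mul_le_mul_of_nonneg_left (mul_le_mul_of_nonneg_right (by linarith) (by positivity)) hm
  calc _ ≤ g * (S * ((‖x‖ + ‖y‖) * ‖y - x‖)) + m * (T * ‖y - x‖) := add_le_add k1 k2
    _ ≤ g * (Cw b G * ((‖x‖ + ‖y‖) * ‖y - x‖)) + m * (Cw b G * ‖y - x‖) := add_le_add k3 k4
    _ = _ := by ring

theorem norm_fderiv_wpot_le (b : ColorBasis N) (G : GammaNine) {g m : ℝ} (hg : 0 ≤ g)
    (hm : 0 ≤ m) (α β : Fin 16) (A : Fin (N ^ 2 - 1)) (x : Cfg N) :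
    ‖fderiv ℝ (wpot b G g m α β A) x‖ ≤ Cw b G * (2 * g * ‖x‖ + m) := by
  have hC := Cw_nonneg b G
  refine le_of_forall_pos_le_add fun ε hε => ?_
  -- a radius
  obtain ⟨δ, hδ, hδε⟩ : ∃ δ > 0, Cw b G * (g * δ) ≤ ε := by
    refine ⟨ε / (Cw b G * g + 1), by positivity, ?_⟩
    rw [← mul_assoc, mul_div_assoc', div_le_iff₀ (by positivity)]
    nlinarith [mul_nonneg hC hg]
  refine norm_fderiv_le_of_lip' ℝ (by positivity) ?_
  filter_upwards [Metric.ball_mem_nhds x hδ] with y hy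
  rw [Real.norm_eq_abs]
  refine (wpot_lip b G hg hm α β A x y).trans ?_
  refine mul_le_mul_of_nonneg_right ?_ (norm_nonneg _)
  have h1 : ‖y‖ ≤ ‖x‖ + δ := by
    have h2 : ‖y - x‖ < δ := by rwa [mem_ball, dist_eq_norm] at hy
    have h3 := norm_le_norm_add_norm_sub' y x
    linarith
  have h4 : Cw b G * (g * (‖x‖ + ‖y‖) + m) ≤ Cw b G * (g * (‖x‖ + (‖x‖ + δ)) + m) := by
    gcongr
  refine h4.trans ?_
  linarith [h4, hδε]

theorem abs_dW_wpot_le (b : ColorBasis N) (G : GammaNine) {g m : ℝ} (hg : 0 ≤ g)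
    (hm : 0 ≤ m) (α β : Fin 16) (A : Fin (N ^ 2 - 1)) (k : Fin 9 × Fin (N ^ 2 - 1)) (x : Cfg N) :
    |dW (wpot b G g m) α k x β A| ≤ Cw b G * (2 * g * ‖x‖ + m) := by
  unfold dW
  rw [← Real.norm_eq_abs]
  refine (ContinuousLinearMap.le_opNorm _ _).trans ?_
  rw [PiLp.norm_single, norm_one, mul_one]
  exact norm_fderiv_wpot_le b G hg hm α β A x

section

variable {F : Type*} [NormedAddCommGroup F] [InnerProductSpace ℂ F] [FiniteDimensional ℂ F]

/-- the constant of the Yukawa bound -/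
def CZ (b : ColorBasis N) (G : GammaNine) : ℝ :=
  16 * (9 * ((N ^ 2 - 1 : ℕ) : ℝ)) * (8 * ((N ^ 2 - 1 : ℕ) : ℝ) + 1) * Cw b G

theorem CZ_nonneg (b : ColorBasis N) (G : GammaNine) : 0 ≤ CZ b G := by
  have := Cw_nonneg b G
  unfold CZ; positivity

/-- **The Yukawa bound.** -/
theorem norm_Zop_le (b : ColorBasis N) (M : FermionRep N F) (G : GammaNine) {g m : ℝ}
    (hg : 0 ≤ g) (hm : 0 ≤ m) (x : Cfg N) (v : F) :
    ‖Zop M G (wpot b G g m) x v‖ ≤ CZ b G * (2 * g * ‖x‖ + m) * ‖v‖ := by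
  rw [Zop_apply]
  have hC := Cw_nonneg b G
  have h0 : 0 ≤ Cw b G * (2 * g * ‖x‖ + m) := by positivity
  calc ‖∑ α, ∑ k : Fin 9 × Fin (N ^ 2 - 1),
        (-Complex.I) • dco M G α k (Th M (dW (wpot b G g m) α k x) v)‖
      ≤ ∑ _α : Fin 16, ∑ _k : Fin 9 × Fin (N ^ 2 - 1),
          (8 * ((N ^ 2 - 1 : ℕ) : ℝ) + 1) * (Cw b G * (2 * g * ‖x‖ + m)) * ‖v‖ := by
        refine (norm_sum_le _ _).trans (Finset.sum_le_sum fun α _ => ?_)
        refine (norm_sum_le _ _).trans (Finset.sum_le_sum fun k _ => ?_)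
        rw [norm_smul, norm_neg, Complex.norm_I, one_mul]
        exact (norm_dco_le M G α k _).trans
          (norm_Th_le M h0 (fun β A => abs_dW_wpot_le b G hg hm α β A k x) v)
    _ = CZ b G * (2 * g * ‖x‖ + m) * ‖v‖ := by
        simp only [Finset.sum_const, Finset.card_univ, Fintype.card_fin, Fintype.card_prod,
          nsmul_eq_mul]
        unfold CZ
        push_cast
        ring

/-! ## the literal energy identity -/

theorem Wsq_wpot (b : ColorBasis N) (G : GammaNine) (g m : ℝ) (x : Cfg N) :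
    Wsq (wpot b G g m) x = 32 * VId87.Vsq G b g m x := by
  unfold Wsq dp VId87.Vsq
  rw [← mul_assoc, show (32 : ℝ) * (1 / 32) = 1 by norm_num, one_mul]
  exact Finset.sum_congr rfl fun α _ => Finset.sum_congr rfl fun β _ =>
    Finset.sum_congr rfl fun A _ => by ring

/-- **(1.1)**, literally. -/
theorem qf_eq (b : ColorBasis N) (M : FermionRep N F) (G : GammaNine) (g m : ℝ)
    {φ : Cfg N → F} (hφ : ContDiff ℝ 2 φ) (hc : HasCompactSupport φ) :
    qf b M G g m φ =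
      1 / 2 * (∑ k : Fin 9 × Fin (N ^ 2 - 1),
        ∫ x, ‖fderiv ℝ φ x (EuclideanSpace.single k 1)‖ ^ 2) +
      (∫ x, VId87.Vsq G b g m x * ‖φ x‖ ^ 2) +
      1 / 16 * ∫ x, (⟪φ x, Zop M G (wpot b G g m) x (φ x)⟫_ℂ).re := by
  have h := weitz (M := M) (G := G) (W := wpot b G g m) (φ := φ)
    (fun α β A => Brid837.wpot_contDiff β A) (trZ_wpot b G g m) hφ hc
  unfold qf
  simp only [Brid837.dcharge_eq]
  rw [h]
  have h1 : (∫ x, Wsq (wpot b G g m) x / 2 * ‖φ x‖ ^ 2) =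
      16 * ∫ x, VId87.Vsq G b g m x * ‖φ x‖ ^ 2 := by
    rw [← integral_const_mul]
    refine integral_congr_ae (Eventually.of_forall fun x => ?_)
    simp only [Wsq_wpot]
    ring
  rw [h1]
  ring

/-! ## (EN) -/

theorem Vsq_nonneg (b : ColorBasis N) (G : GammaNine) (g m : ℝ) (x : Cfg N) :
    0 ≤ VId87.Vsq G b g m x := by
  unfold VId87.Vsq
  refine mul_nonneg (by norm_num) (Finset.sum_nonneg fun _ _ => Finset.sum_nonneg fun _ _ =>
    Finset.sum_nonneg fun _ _ => sq_nonneg _)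

theorem VR_le_Vsq (b : ColorBasis N) (G : GammaNine) (g : ℝ) (x : Cfg N) :
    VLow737.VR b g x ≤ VId87.Vsq G b g 1 x := by
  rw [VId87.Vsq_eq]
  unfold VLow737.VR
  have h := mul_nonneg (sq_nonneg g) (VId87.Voth_nonneg b x)
  linarith

/-- the Yukawa term is dominated by half of the potential, uniformly for `0 < g ≤ 1` -/
theorem yukawa_dom (hN : 0 < N) (b : ColorBasis N) (M : FermionRep N F) (G : GammaNine) :
    ∃ C : ℝ, 0 ≤ C ∧ ∀ g : ℝ, 0 < g → g ≤ 1 → ∀ (x : Cfg N) (v : F),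
      |1 / 16 * (⟪v, Zop M G (wpot b G g 1) x v⟫_ℂ).re| ≤
        (1 / 2 * VId87.Vsq G b g 1 x + C) * ‖v‖ ^ 2 := by
  set K : ℝ := CZ b G / 16 with hK
  have hK0 : 0 ≤ K := div_nonneg (CZ_nonneg b G) (by norm_num)
  set c : ℝ := 1 / (432 * (N : ℝ) ^ 3) with hc
  set C1 : ℝ := 1152 * (N : ℝ) ^ 10 with hC1
  have hN' : (0 : ℝ) < N := by exact_mod_cast hN
  have hc0 : 0 < c := by positivity
  have hC10 : 0 ≤ C1 := by positivity
  refine ⟨1 / 2 * C1 + 2 * K ^ 2 / c + K, by positivity, fun g hg hg1 x v => ?_⟩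
  have hco := VId87.Vsq_coer G hN b hg x
  have hV := Vsq_nonneg b G g 1 x
  have hg2 : g ^ 2 ≤ 1 := pow_le_one₀ hg.le hg1
  have h1 : c * (g * ‖x‖) ^ 2 ≤ VId87.Vsq G b g 1 x + C1 := by
    have h2 : g ^ 2 * (‖x‖ ^ 2 / (432 * (N : ℝ) ^ 3) - C1 / g ^ 2) ≤
        g ^ 2 * VId87.Vsq G b g 1 x := mul_le_mul_of_nonneg_left hco (sq_nonneg g)
    have h3 : g ^ 2 * (‖x‖ ^ 2 / (432 * (N : ℝ) ^ 3) - C1 / g ^ 2) =
        c * (g * ‖x‖) ^ 2 - C1 := by
      rw [hc]; field_simp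
    have h4 : g ^ 2 * VId87.Vsq G b g 1 x ≤ 1 * VId87.Vsq G b g 1 x :=
      mul_le_mul_of_nonneg_right hg2 hV
    linarith
  have h5 : K * (2 * g * ‖x‖ + 1) ≤
      1 / 2 * VId87.Vsq G b g 1 x + (1 / 2 * C1 + 2 * K ^ 2 / c + K) := by
    have h6 : 2 * K * (g * ‖x‖) ≤ c / 2 * (g * ‖x‖) ^ 2 + 2 * K ^ 2 / c := by
      have h7 : 0 ≤ (c * (g * ‖x‖) - 2 * K) ^ 2 / (2 * c) := by positivity
      have h8 : (c * (g * ‖x‖) - 2 * K) ^ 2 / (2 * c) =
          c / 2 * (g * ‖x‖) ^ 2 + 2 * K ^ 2 / c - 2 * K * (g * ‖x‖) := by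
        field_simp; ring
      linarith
    linarith
  rw [abs_mul, abs_of_pos (by norm_num : (0 : ℝ) < 1 / 16)]
  have h9 : |(⟪v, Zop M G (wpot b G g 1) x v⟫_ℂ).re| ≤ ‖v‖ * (CZ b G * (2 * g * ‖x‖ + 1) * ‖v‖) :=
    (Complex.abs_re_le_norm _).trans ((norm_inner_le_norm _ _).trans
      (mul_le_mul_of_nonneg_left (norm_Zop_le b M G hg.le zero_le_one x v) (norm_nonneg _)))
  calc 1 / 16 * |(⟪v, Zop M G (wpot b G g 1) x v⟫_ℂ).re|
      ≤ 1 / 16 * (‖v‖ * (CZ b G * (2 * g * ‖x‖ + 1) * ‖v‖)) := by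
        exact mul_le_mul_of_nonneg_left h9 (by norm_num)
    _ = K * (2 * g * ‖x‖ + 1) * ‖v‖ ^ 2 := by rw [hK]; ring
    _ ≤ _ := mul_le_mul_of_nonneg_right h5 (sq_nonneg _)

theorem continuous_Vsq (b : ColorBasis N) (G : GammaNine) (g m : ℝ) :
    Continuous (VId87.Vsq G b g m) := by
  unfold VId87.Vsq
  refine continuous_const.mul (continuous_finsetSum _ fun α _ => continuous_finsetSum _ fun β _ =>
    continuous_finsetSum _ fun A _ => ?_)
  exact (Brid837.wpot_continuous β A).pow 2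

theorem continuous_VR (b : ColorBasis N) (g : ℝ) : Continuous (VLow737.VR b g) := by
  unfold VLow737.VR CoerCfg87.Vcyc CoerCfg87.Vhi CoerCfg87.br CoerCfg87.comp
  fun_prop

theorem integrable_mul_sq {V : Cfg N → ℝ} (hV : Continuous V) {φ : Cfg N → F}
    (hφ : Continuous φ) (hc : HasCompactSupport φ) : Integrable fun x => V x * ‖φ x‖ ^ 2 := by
  refine (hV.mul (hφ.norm.pow 2)).integrable_of_hasCompactSupport ?_
  refine hc.mono fun x hx => ?_
  rw [Function.mem_support] at hx ⊢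
  intro h
  apply hx
  simp [h]

theorem integrable_fderiv_sq {φ : Cfg N → F} (hφ : ContDiff ℝ 1 φ) (hc : HasCompactSupport φ) :
    Integrable fun x => ‖fderiv ℝ φ x‖ ^ 2 := by
  have h1 : Continuous (fderiv ℝ φ) := hφ.continuous_fderiv one_ne_zero
  refine (h1.norm.pow 2).integrable_of_hasCompactSupport ?_
  refine (hc.fderiv (𝕜 := ℝ)).mono fun x hx => ?_
  rw [Function.mem_support] at hx ⊢
  intro h
  apply hx
  simp [h]

theorem integrable_pd_sq {φ : Cfg N → F} (hφ : ContDiff ℝ 1 φ) (hc : HasCompactSupport φ)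
    (k : Fin 9 × Fin (N ^ 2 - 1)) :
    Integrable fun x => ‖fderiv ℝ φ x (EuclideanSpace.single k 1)‖ ^ 2 := by
  have h1 : Continuous fun x => fderiv ℝ φ x (EuclideanSpace.single k 1) :=
    (hφ.continuous_fderiv one_ne_zero).clm_apply continuous_const
  refine (h1.norm.pow 2).integrable_of_hasCompactSupport ?_
  refine (hc.fderiv (𝕜 := ℝ)).mono fun x hx => ?_
  rw [Function.mem_support] at hx ⊢
  intro h
  apply hx
  simp [h]

/-- **(EN)** for `C²` functions of compact support. -/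
theorem en_full (hN : 0 < N) (b : ColorBasis N) (M : FermionRep N F) (G : GammaNine) :
    ∃ C : ℝ, 0 ≤ C ∧ ∀ g : ℝ, 0 < g → g ≤ 1 → ∀ φ : Cfg N → F, ContDiff ℝ 2 φ →
      HasCompactSupport φ →
      1 / 2 * (∫ x, ‖fderiv ℝ φ x‖ ^ 2) + 1 / 2 * (∫ x, VId87.Vsq G b g 1 x * ‖φ x‖ ^ 2) ≤
        qf b M G g 1 φ + C * ∫ x, ‖φ x‖ ^ 2 := by
  obtain ⟨C, hC, hdom⟩ := yukawa_dom hN b M G
  refine ⟨C, hC, fun g hg hg1 φ hφ hc => ?_⟩
  have hφ1 : ContDiff ℝ 1 φ := hφ.of_le (by norm_num)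
  rw [qf_eq b M G g 1 hφ hc]
  have hV := integrable_mul_sq (continuous_Vsq b G g 1) hφ.continuous hc
  have hn : Integrable fun x => ‖φ x‖ ^ 2 := by
    have := integrable_mul_sq (continuous_const (y := (1 : ℝ))) hφ.continuous hc
    simpa using this
  -- gradient
  have h1 : ∫ x, ‖fderiv ℝ φ x‖ ^ 2 ≤ ∑ k : Fin 9 × Fin (N ^ 2 - 1),
      ∫ x, ‖fderiv ℝ φ x (EuclideanSpace.single k 1)‖ ^ 2 := by
    rw [← integral_finsetSum _ fun k _ => integrable_pd_sq hφ1 hc k]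
    refine integral_mono (integrable_fderiv_sq hφ1 hc)
      (integrable_finsetSum _ fun k _ => integrable_pd_sq hφ1 hc k) fun x => ?_
    exact Bar963.opNorm_sq_le (fderiv ℝ φ x)
  -- Yukawa
  have hZ : Integrable fun x => 1 / 16 * (⟪φ x, Zop M G (wpot b G g 1) x (φ x)⟫_ℂ).re := by
    refine Integrable.const_mul ?_ _
    have h2 : Integrable fun x => ⟪φ x, Zop M G (wpot b G g 1) x (φ x)⟫_ℂ := by
      simp only [Zop_apply]
      refine integrable_inner_of_cont hφ1.continuous ?_ (Or.inl hc)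
      exact continuous_finsetSum _ fun α _ => continuous_finsetSum _ fun k _ =>
        Continuous.const_smul ((cont_lin _).comp
          (continuous_Th (continuous_dW (fun β A => Brid837.wpot_contDiff β A) k)
            hφ1.continuous)) _
    exact h2.re
  have h3 : -(1 / 2 * (∫ x, VId87.Vsq G b g 1 x * ‖φ x‖ ^ 2) + C * ∫ x, ‖φ x‖ ^ 2) ≤
      1 / 16 * ∫ x, (⟪φ x, Zop M G (wpot b G g 1) x (φ x)⟫_ℂ).re := by
    rw [← integral_const_mul, ← integral_const_mul, ← integral_const_mul,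
      ← integral_add (hV.const_mul _) (hn.const_mul _), ← integral_neg]
    refine integral_mono ((hV.const_mul _).add (hn.const_mul _)).neg hZ fun x => ?_
    have h4 := (abs_le.1 (hdom g hg hg1 x (φ x))).1
    simp only
    linarith
  linarith

/-- **(EN)**, as frozen by helper8. -/
theorem en_prop (hN : 0 < N) : UpHyp8.EnProp N := by
  intro F _ _ _ _ b M R G
  obtain ⟨C, hC, h⟩ := en_full hN b M G
  refine ⟨C, fun g hg hg1 φ hφ => ?_⟩
  have h1 := h g hg hg1 φ (contDiff_infty.1 hφ.1 2) hφ.2.1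
  have h2 : ∫ x, VLow737.VR b g x * ‖φ x‖ ^ 2 ≤ ∫ x, VId87.Vsq G b g 1 x * ‖φ x‖ ^ 2 := by
    refine integral_mono (integrable_mul_sq (continuous_VR b g) hφ.1.continuous hφ.2.1)
      (integrable_mul_sq (continuous_Vsq b G g 1) hφ.1.continuous hφ.2.1) fun x => ?_
    exact mul_le_mul_of_nonneg_right (VR_le_Vsq b G g x) (sq_nonneg _)
  have h3 : 0 ≤ ∫ x, ‖fderiv ℝ φ x‖ ^ 2 := integral_nonneg fun x => sq_nonneg _
  linarith

/-- **(VZ)**, as frozen by helper8. -/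
theorem vz_prop (hN : 0 < N) : UpHyp8.VzProp N := by
  intro b c hc
  obtain ⟨a, ha, h⟩ := VLow737.near_list b hN hc
  refine ⟨a, ha, fun g hg r hr x hx => ?_⟩
  obtain ⟨l, hl⟩ := h g hg x
  refine le_trans (mul_le_mul_of_nonneg_left (pow_le_pow_left₀ hr ?_ 2) ha.le) hl
  refine (le_infDist (VLow737.orb_nonempty b _)).2 ?_
  rintro _ ⟨k, rfl⟩
  rw [dist_eq_norm]
  exact hx l k

end

end Crest.Agent.R330.En682

end
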