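import Crest.Agent.R330.FA_416
import Mathlib.Analysis.InnerProductSpace.PiL2
import Mathlib.Analysis.InnerProductSpace.GramSchmidtOrtho
import Mathlib.LinearAlgebra.Dimension.Finite

/-!
# Row 330 (helper416): counting zero modes

* `Gr ι Q` : the closed graph (form domain); `kerF_gr`, `Gap.gr` : all statements on the core apply to it.
* `DimGe ι Q k` : the kernel has dimension at least `k`; `dimGe_iff_rank`, `finrank_kerF_iff`.
* `dimGe_of_small` : `k` core vectors with form below the gap; `DimGe.exists_approx` : converse.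
* `not_dimGe_of_lower` : upper bound of the dimension from a lower bound of the form.
* `dimGe_iff_of_close`, `dimGe_const` : constancy in a parameter.
-/

set_option autoImplicit false
set_option linter.unusedSectionVars false

open Filter Topology Set
open scoped InnerProductSpace

noncomputable section

namespace Crest.Agent.R330.FA416

variable {V H H' : Type*} [AddCommGroup V] [Module ℂ V]
  [NormedAddCommGroup H] [InnerProductSpace ℂ H]
  [NormedAddCommGroup H'] [InnerProductSpace ℂ H']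
  {ι : V →ₗ[ℂ] H} {Q : V →ₗ[ℂ] H'}

/-! ### The closed graph -/

/-- The closed graph of the charge (form domain with the value of the charge). -/
def Gr (ι : V →ₗ[ℂ] H) (Q : V →ₗ[ℂ] H') : Submodule ℂ (H × H') :=
  (LinearMap.range (ι.prod Q)).topologicalClosure

theorem mem_gr {x : H × H'} : x ∈ Gr ι Q ↔ ∃ φ : ℕ → V,
    Tendsto (fun n => ι (φ n)) atTop (𝓝 x.1) ∧ Tendsto (fun n => Q (φ n)) atTop (𝓝 x.2) := by
  unfold Gr
  rw [← SetLike.mem_coe, Submodule.topologicalClosure_coe, mem_closure_iff_seq_limit]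
  constructor
  · rintro ⟨y, hy, hlim⟩
    choose φ hφ using hy
    refine ⟨φ, ?_, ?_⟩
    · have h1 := (continuous_fst.tendsto _).comp hlim
      refine h1.congr fun n => ?_
      rw [Function.comp_apply, ← hφ n]
      rfl
    · have h1 := (continuous_snd.tendsto _).comp hlim
      refine h1.congr fun n => ?_
      rw [Function.comp_apply, ← hφ n]
      rfl
  · rintro ⟨φ, h1, h2⟩
    exact ⟨fun n => (ι (φ n), Q (φ n)), fun n => ⟨φ n, rfl⟩, by
      have := h1.prodMk_nhds h2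
      simpa using this⟩



/-- Embedding of the form domain. -/
abbrev ιG (ι : V →ₗ[ℂ] H) (Q : V →ₗ[ℂ] H') : Gr ι Q →ₗ[ℂ] H :=
  (LinearMap.fst ℂ H H') ∘ₗ (Gr ι Q).subtype

/-- The closed charge. -/
abbrev QG (ι : V →ₗ[ℂ] H) (Q : V →ₗ[ℂ] H') : Gr ι Q →ₗ[ℂ] H' :=
  (LinearMap.snd ℂ H H') ∘ₗ (Gr ι Q).subtype

theorem kerF_gr : kerF (ιG ι Q) (QG ι Q) = kerF ι Q := by
  have h1 : LinearMap.range ((ιG ι Q).prod (QG ι Q)) = Gr ι Q := by
    ext x
    constructor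
    · rintro ⟨y, rfl⟩
      exact y.2
    · intro hx
      exact ⟨⟨x, hx⟩, rfl⟩
  unfold kerF
  rw [h1]
  congr 1
  exact (Submodule.isClosed_topologicalClosure _).submodule_topologicalClosure_eq

/-- **The gap on the form domain.** -/
theorem Gap.gr [CompleteSpace H] {δ : ℝ} (h : Gap ι Q δ) (hδ : 0 ≤ δ) :
    Gap (ιG ι Q) (QG ι Q) δ := by
  rintro ⟨x, hx⟩
  rw [kerF_gr]
  refine ⟨(kerF ι Q).starProjection x.1, Submodule.starProjection_apply_mem _ _, ?_⟩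
  obtain ⟨φ, h1, h2⟩ := mem_gr.1 hx
  have h3 : Tendsto (fun n => δ * ‖ι (φ n) - (kerF ι Q).starProjection (ι (φ n))‖ ^ 2) atTop
      (𝓝 (δ * ‖x.1 - (kerF ι Q).starProjection x.1‖ ^ 2)) :=
    ((h1.sub (((kerF ι Q).starProjection.continuous.tendsto _).comp h1)).norm.pow 2).const_mul δ
  exact le_of_tendsto_of_tendsto' h3 (h2.norm.pow 2) fun n => h.proj hδ (φ n)

/-! ### Dimension -/

/-- The kernel has dimension at least `k`. -/
def DimGe (ι : V →ₗ[ℂ] H) (Q : V →ₗ[ℂ] H') (k : ℕ) : Prop :=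
  ∃ e : Fin k → H, Orthonormal ℂ e ∧ ∀ i, e i ∈ kerF ι Q

theorem dimGe_of_li {k : ℕ} {e : Fin k → H} (he : LinearIndependent ℂ e)
    (hm : ∀ i, e i ∈ kerF ι Q) : DimGe ι Q k := by
  set W : Submodule ℂ H := Submodule.span ℂ (Set.range e) with hW
  have hWle : W ≤ kerF ι Q := by
    rw [hW, Submodule.span_le]
    rintro _ ⟨i, rfl⟩
    exact hm i
  have hfd : FiniteDimensional ℂ W := FiniteDimensional.span_of_finite ℂ (Set.finite_range _)
  have hfr : Module.finrank ℂ W = k := by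
    rw [hW, finrank_span_eq_card he, Fintype.card_fin]
  let b := stdOrthonormalBasis ℂ W
  refine ⟨fun i => (b (Fin.cast hfr.symm i) : H), ?_, fun i => hWle (b _).2⟩
  have h1 := b.orthonormal.comp (Fin.cast hfr.symm) (Fin.cast_injective _)
  exact h1.comp_linearIsometry W.subtypeₗᵢ

theorem DimGe.rank {k : ℕ} (h : DimGe ι Q k) : (k : Cardinal) ≤ Module.rank ℂ (kerF ι Q) := by
  obtain ⟨e, he, hm⟩ := h
  have h1 : LinearIndependent ℂ (fun i => (⟨e i, hm i⟩ : kerF ι Q)) := by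
    refine LinearIndependent.of_comp (kerF ι Q).subtype ?_
    exact he.linearIndependent
  have h2 := h1.cardinal_lift_le_rank
  simpa using h2

theorem dimGe_of_rank {k : ℕ} (h : (k : Cardinal) ≤ Module.rank ℂ (kerF ι Q)) :
    DimGe ι Q k := by
  obtain ⟨s, hs, hli⟩ := le_rank_iff_exists_linearIndependent.1 h
  have hfin : Finite s := by
    have h1 : Cardinal.mk s < Cardinal.aleph0 := by
      rw [hs]
      exact Cardinal.natCast_lt_aleph0
    exact Cardinal.lt_aleph0_iff_finite.1 h1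
  have := Fintype.ofFinite s
  have hcard : Fintype.card s = k := by
    have h1 : (Fintype.card s : Cardinal) = k := by rw [← Cardinal.mk_fintype, hs]
    exact_mod_cast h1
  have hli' : LinearIndependent ℂ (fun i : s => ((i : kerF ι Q) : H)) :=
    hli.map' (kerF ι Q).subtype (Submodule.ker_subtype _)
  have e := (Fintype.equivFinOfCardEq hcard).symm
  exact dimGe_of_li (hli'.comp e e.injective) fun i => (e i : kerF ι Q).2

theorem dimGe_iff_rank {k : ℕ} : DimGe ι Q k ↔ (k : Cardinal) ≤ Module.rank ℂ (kerF ι Q) :=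
  ⟨DimGe.rank, dimGe_of_rank⟩

theorem DimGe.mono {k l : ℕ} (h : DimGe ι Q k) (hl : l ≤ k) : DimGe ι Q l :=
  dimGe_of_rank ((Nat.cast_le.2 hl).trans h.rank)

theorem dimGe_zero : DimGe ι Q 0 := dimGe_of_rank (by simp)

/-- The dimension is `k`. -/
theorem finrank_kerF_iff {k : ℕ} : (Module.rank ℂ (kerF ι Q) = k) ↔
    DimGe ι Q k ∧ ¬ DimGe ι Q (k + 1) := by
  rw [dimGe_iff_rank, dimGe_iff_rank]
  constructor
  · intro h
    rw [h]
    refine ⟨le_rfl, ?_⟩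
    rw [Nat.cast_le]
    omega
  · rintro ⟨h1, h2⟩
    refine le_antisymm ?_ h1
    rw [not_le] at h2
    have h3 : Module.rank ℂ (kerF ι Q) < Order.succ (k : Cardinal) := by
      rw [Cardinal.succ_natCast]
      exact_mod_cast h2
    exact Order.lt_succ_iff.1 h3


/-! ### Counting -/

/-- **COUNTING, lower bound**: `k` core vectors with form below the gap. -/
theorem dimGe_of_small [CompleteSpace H] {δ : ℝ} (hG : Gap ι Q δ) (hδ : 0 ≤ δ) {k : ℕ}
    (w : Fin k → V) (hw : ∀ c : Fin k → ℂ, c ≠ 0 →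
      ‖Q (∑ i, c i • w i)‖ ^ 2 < δ * ‖ι (∑ i, c i • w i)‖ ^ 2) : DimGe ι Q k := by
  set T : (Fin k → ℂ) →ₗ[ℂ] V := Fintype.linearCombination ℂ w with hT
  have hTc : ∀ c, T c = ∑ i, c i • w i := fun c => Fintype.linearCombination_apply ℂ w c
  set L : (Fin k → ℂ) →ₗ[ℂ] kerF ι Q :=
    ((kerF ι Q).orthogonalProjectionOnto.toLinearMap ∘ₗ ι) ∘ₗ T with hL
  have hinj : Function.Injective L := by
    rw [injective_iff_map_eq_zero]
    intro c hc
    by_contra hne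
    have h1 := hw c hne
    have h2 : ι (∑ i, c i • w i) ∈ (kerF ι Q)ᗮ := by
      have h3 : (kerF ι Q).orthogonalProjectionOnto (ι (T c)) = 0 := hc
      rw [hTc] at h3
      exact Submodule.orthogonalProjectionOnto_eq_zero_iff.1 h3
    exact absurd (hG.orth hδ h2) (not_le.2 h1)
  have h4 := ((Pi.basisFun ℂ (Fin k)).linearIndependent.map' L (LinearMap.ker_eq_bot.2 hinj)).map'
    (kerF ι Q).subtype (Submodule.ker_subtype _)
  exact dimGe_of_li h4 fun i => (L _).2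

/-- **COUNTING, converse**: approximation of the kernel by core vectors. -/
theorem DimGe.exists_approx {k : ℕ} (h : DimGe ι Q k) {τ : ℝ} (hτ : 0 < τ) :
    ∃ w : Fin k → V, ∀ c : Fin k → ℂ, ‖Q (∑ i, c i • w i)‖ ≤ τ * Real.sqrt (∑ i, ‖c i‖ ^ 2) ∧
      (1 - τ) * Real.sqrt (∑ i, ‖c i‖ ^ 2) ≤ ‖ι (∑ i, c i • w i)‖ ∧
      ‖ι (∑ i, c i • w i)‖ ≤ (1 + τ) * Real.sqrt (∑ i, ‖c i‖ ^ 2) := by
  obtain ⟨e, he, hm⟩ := h
  set s : ℝ := τ / (Real.sqrt k + 1) with hs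
  have hs0 : 0 < s := div_pos hτ (by positivity)
  have h1 : ∀ i, ∃ w : V, ‖ι w - e i‖ ≤ s ∧ ‖Q w‖ ≤ s := by
    intro i
    obtain ⟨φ, h1, h2⟩ := mem_kerF.1 (hm i)
    have h3 : ∀ᶠ n in atTop, ‖ι (φ n) - e i‖ < s := by
      have := (tendsto_iff_norm_sub_tendsto_zero.1 h1)
      exact this.eventually (gt_mem_nhds hs0)
    have h4 : ∀ᶠ n in atTop, ‖Q (φ n)‖ < s := by
      have := h2.norm
      rw [norm_zero] at this
      exact this.eventually (gt_mem_nhds hs0)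
    obtain ⟨n, h5, h6⟩ := (h3.and h4).exists
    exact ⟨φ n, h5.le, h6.le⟩
  choose w hw1 hw2 using h1
  refine ⟨w, fun c => ?_⟩
  set S : ℝ := Real.sqrt (∑ i, ‖c i‖ ^ 2) with hS
  have hS0 : 0 ≤ S := Real.sqrt_nonneg _
  have hl1 : ∑ i, ‖c i‖ ≤ Real.sqrt k * S := by
    have h2 := Finset.sum_mul_sq_le_sq_mul_sq (Finset.univ : Finset (Fin k)) (fun _ => (1 : ℝ))
      (fun i => ‖c i‖)
    simp only [one_mul, one_pow, Finset.sum_const, Finset.card_univ, Fintype.card_fin,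
      nsmul_eq_mul, mul_one] at h2
    have h3 : ∑ i, ‖c i‖ ≤ Real.sqrt (k * ∑ i, ‖c i‖ ^ 2) := Real.le_sqrt_of_sq_le h2
    rwa [Real.sqrt_mul (Nat.cast_nonneg k)] at h3
  have hbd : s * ∑ i, ‖c i‖ ≤ τ * S := by
    calc s * ∑ i, ‖c i‖ ≤ s * (Real.sqrt k * S) := mul_le_mul_of_nonneg_left hl1 hs0.le
      _ ≤ s * ((Real.sqrt k + 1) * S) := by
          refine mul_le_mul_of_nonneg_left ?_ hs0.le
          exact mul_le_mul_of_nonneg_right (by linarith) hS0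
      _ = τ * S := by
          rw [hs]
          field_simp
  have hQ : ‖Q (∑ i, c i • w i)‖ ≤ s * ∑ i, ‖c i‖ := by
    rw [map_sum, Finset.mul_sum]
    refine (norm_sum_le _ _).trans (Finset.sum_le_sum fun i _ => ?_)
    rw [map_smul, norm_smul, mul_comm]
    exact mul_le_mul_of_nonneg_right (hw2 i) (norm_nonneg _)
  have hι : ‖ι (∑ i, c i • w i) - ∑ i, c i • e i‖ ≤ s * ∑ i, ‖c i‖ := by
    rw [map_sum, ← Finset.sum_sub_distrib, Finset.mul_sum]
    refine (norm_sum_le _ _).trans (Finset.sum_le_sum fun i _ => ?_)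
    rw [map_smul, ← smul_sub, norm_smul, mul_comm]
    exact mul_le_mul_of_nonneg_right (hw1 i) (norm_nonneg _)
  have hn : ‖∑ i, c i • e i‖ = S := by
    have h2 := he.inner_sum c c Finset.univ
    have h3 : ‖∑ i, c i • e i‖ ^ 2 = ∑ i, ‖c i‖ ^ 2 := by
      rw [inner_self_eq_norm_sq_to_K] at h2
      have h4 : ∀ i, (starRingEnd ℂ) (c i) * c i = ((‖c i‖ ^ 2 : ℝ) : ℂ) := fun i => by
        rw [Complex.conj_mul']
        norm_cast
      simp only [h4] at h2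
      refine Complex.ofReal_injective ?_
      rw [Complex.ofReal_sum, ← h2, Complex.ofReal_pow]
      rfl
    rw [hS, ← h3, Real.sqrt_sq (norm_nonneg _)]
  refine ⟨hQ.trans hbd, ?_, ?_⟩
  · have h2 := norm_sub_norm_le (∑ i, c i • e i) (ι (∑ i, c i • w i))
    rw [norm_sub_rev, hn] at h2
    have h3 := hι.trans hbd
    linarith
  · have h2 := norm_sub_norm_le (ι (∑ i, c i • w i)) (∑ i, c i • e i)
    rw [hn] at h2
    have h3 := hι.trans hbd
    linarith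

/-- **COUNTING, upper bound**: `k` functionals. -/
theorem not_dimGe_of_lower {k : ℕ} (v : Fin k → H) {c C : ℝ} (hc : 0 < c)
    (h : ∀ φ : V, c * ‖ι φ‖ ^ 2 ≤ ‖Q φ‖ ^ 2 + C * ∑ i, ‖⟪v i, ι φ⟫_ℂ‖ ^ 2) :
    ¬ DimGe ι Q (k + 1) := by
  rintro ⟨e, he, hm⟩
  -- the inequality on the kernel
  have h1 : ∀ Ψ ∈ kerF ι Q, c * ‖Ψ‖ ^ 2 ≤ C * ∑ i, ‖⟪v i, Ψ⟫_ℂ‖ ^ 2 := by
    intro Ψ hΨ
    obtain ⟨φ, h1, h2⟩ := mem_kerF.1 hΨ
    have h3 : Tendsto (fun n => c * ‖ι (φ n)‖ ^ 2) atTop (𝓝 (c * ‖Ψ‖ ^ 2)) :=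
      (h1.norm.pow 2).const_mul c
    have h4 : Tendsto (fun n => ‖Q (φ n)‖ ^ 2 + C * ∑ i, ‖⟪v i, ι (φ n)⟫_ℂ‖ ^ 2) atTop
        (𝓝 (‖(0 : H')‖ ^ 2 + C * ∑ i, ‖⟪v i, Ψ⟫_ℂ‖ ^ 2)) := by
      refine (h2.norm.pow 2).add (Tendsto.const_mul C ?_)
      exact tendsto_finsetSum _ fun i _ => ((tendsto_const_nhds.inner h1).norm.pow 2)
    have h5 := le_of_tendsto_of_tendsto' h3 h4 fun n => h (φ n)
    simpa using h5
  -- a vector of the kernel orthogonal to the functionals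
  set L : (Fin (k + 1) → ℂ) →ₗ[ℂ] (Fin k → ℂ) :=
    LinearMap.pi fun i => (innerSL ℂ (v i)).toLinearMap ∘ₗ Fintype.linearCombination ℂ e with hL
  have h2 : ¬ Function.Injective L := by
    intro hinj
    have h3 := LinearMap.finrank_le_finrank_of_injective hinj
    simp at h3
  rw [injective_iff_map_eq_zero] at h2
  push Not at h2
  obtain ⟨a, ha, hne⟩ := h2
  set Ψ : H := ∑ i, a i • e i with hΨ
  have hΨk : Ψ ∈ kerF ι Q := Submodule.sum_mem _ fun i _ => Submodule.smul_mem _ _ (hm i)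
  have h4 : ∀ i, ⟪v i, Ψ⟫_ℂ = 0 := fun i => by
    have h5 : L a i = 0 := by rw [ha]; rfl
    rw [hL] at h5
    simp only [LinearMap.pi_apply, LinearMap.comp_apply, Fintype.linearCombination_apply] at h5
    exact h5
  have h5 := h1 Ψ hΨk
  simp only [h4, norm_zero] at h5
  have h6 : ‖Ψ‖ ^ 2 ≤ 0 := by
    have h7 : c * ‖Ψ‖ ^ 2 ≤ 0 := by simpa using h5
    by_contra hcon
    rw [not_le] at hcon
    exact absurd h7 (not_le.2 (mul_pos hc hcon))
  have h7 : Ψ = 0 := by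
    have := sq_nonneg ‖Ψ‖
    exact norm_eq_zero.1 (pow_eq_zero_iff two_ne_zero |>.1 (le_antisymm h6 this))
  refine hne ?_
  have h8 := Fintype.linearIndependent_iff.1 he.linearIndependent a h7
  funext i
  exact h8 i

/-! ### Constancy -/

/-- **Two charges which are close** have kernels of the same dimension. -/
theorem DimGe.of_close [CompleteSpace H] {Q' : V →ₗ[ℂ] H'} {δ κ : ℝ} (hG' : Gap ι Q' δ)
    (hδ : 0 < δ) (hκ0 : 0 ≤ κ) (hκ : 2 * κ < Real.sqrt δ)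
    (h : ∀ φ, ‖Q φ - Q' φ‖ ≤ κ * (‖Q φ‖ + ‖ι φ‖)) {k : ℕ} (hk : DimGe ι Q k) :
    DimGe ι Q' k := by
  set τ : ℝ := min (1 / 2) ((Real.sqrt δ - 2 * κ) / (8 * (1 + κ))) with hτ
  have h1 : 0 < Real.sqrt δ - 2 * κ := by linarith
  have hτ0 : 0 < τ := lt_min (by norm_num) (div_pos h1 (by positivity))
  have hτ2 : τ ≤ 1 / 2 := min_le_left _ _
  have hτ3 : τ * (8 * (1 + κ)) ≤ Real.sqrt δ - 2 * κ := by
    have := min_le_right (1 / 2) ((Real.sqrt δ - 2 * κ) / (8 * (1 + κ)))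
    rw [← hτ] at this
    rwa [le_div_iff₀ (by positivity)] at this
  obtain ⟨w, hw⟩ := hk.exists_approx hτ0
  refine dimGe_of_small hG' hδ.le w fun c hc => ?_
  obtain ⟨h2, h3, -⟩ := hw c
  set x : V := ∑ i, c i • w i with hx
  set s : ℝ := Real.sqrt (∑ i, ‖c i‖ ^ 2) with hs
  have hs0 : 0 < s := by
    refine Real.sqrt_pos.2 ?_
    obtain ⟨i, hi⟩ := Function.ne_iff.1 hc
    refine Finset.sum_pos' (fun i _ => sq_nonneg _) ⟨i, Finset.mem_univ i, ?_⟩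
    have : 0 < ‖c i‖ := norm_pos_iff.2 hi
    positivity
  have hι : 0 < ‖ι x‖ := lt_of_lt_of_le (by
    have : 0 < 1 - τ := by linarith
    positivity) h3
  have hsι : s ≤ 2 * ‖ι x‖ := by
    have : (1 / 2) * s ≤ (1 - τ) * s := mul_le_mul_of_nonneg_right (by linarith) hs0.le
    linarith
  have hQx : ‖Q x‖ ≤ 2 * τ * ‖ι x‖ := by
    calc ‖Q x‖ ≤ τ * s := h2
      _ ≤ τ * (2 * ‖ι x‖) := mul_le_mul_of_nonneg_left hsι hτ0.le
      _ = _ := by ring
  have hQ' : ‖Q' x‖ ≤ (2 * τ * (1 + κ) + κ) * ‖ι x‖ := by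
    have h4 : ‖Q' x‖ ≤ ‖Q x‖ + ‖Q x - Q' x‖ := by
      have := norm_sub_norm_le (Q' x) (Q x)
      rw [norm_sub_rev] at this
      linarith
    have h5 := h x
    nlinarith [norm_nonneg (Q x)]
  have h6 : 2 * τ * (1 + κ) + κ < Real.sqrt δ := by nlinarith
  have h7 : ‖Q' x‖ < Real.sqrt δ * ‖ι x‖ :=
    hQ'.trans_lt (mul_lt_mul_of_pos_right h6 hι)
  have h8 : ‖Q' x‖ ^ 2 < (Real.sqrt δ * ‖ι x‖) ^ 2 :=
    pow_lt_pow_left₀ h7 (norm_nonneg _) two_ne_zero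
  rwa [mul_pow, Real.sq_sqrt hδ.le] at h8

/-- The closeness hypothesis with the other charge on the right. -/
theorem close_symm {Q' : V →ₗ[ℂ] H'} {κ : ℝ} (hκ0 : 0 ≤ κ) (hκ : κ ≤ 1 / 2)
    (h : ∀ φ, ‖Q φ - Q' φ‖ ≤ κ * (‖Q φ‖ + ‖ι φ‖)) (φ : V) :
    ‖Q' φ - Q φ‖ ≤ (2 * κ) * (‖Q' φ‖ + ‖ι φ‖) := by
  have h1 := h φ
  have h2 : ‖Q φ‖ ≤ ‖Q' φ‖ + ‖Q φ - Q' φ‖ := by
    have := norm_sub_norm_le (Q φ) (Q' φ)
    linarith
  rw [norm_sub_rev]
  have h3 : ‖Q φ‖ ≤ ‖Q' φ‖ + κ * (‖Q φ‖ + ‖ι φ‖) := h2.trans (by linarith)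
  have h4 : (1 - κ) * ‖Q φ‖ ≤ ‖Q' φ‖ + κ * ‖ι φ‖ := by linarith
  have h5 : κ * ‖Q φ‖ ≤ 2 * κ * ‖Q' φ‖ + κ * ‖ι φ‖ := by
    have h6 : ‖Q φ‖ ≤ 2 * (‖Q' φ‖ + κ * ‖ι φ‖) := by
      nlinarith [norm_nonneg (Q φ)]
    calc κ * ‖Q φ‖ ≤ κ * (2 * (‖Q' φ‖ + κ * ‖ι φ‖)) := mul_le_mul_of_nonneg_left h6 hκ0
      _ = 2 * κ * ‖Q' φ‖ + (2 * κ) * (κ * ‖ι φ‖) := by ring
      _ ≤ _ := by
          have : (2 * κ) * (κ * ‖ι φ‖) ≤ 1 * (κ * ‖ι φ‖) :=
            mul_le_mul_of_nonneg_right (by linarith) (by positivity)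
          linarith
  calc ‖Q φ - Q' φ‖ ≤ κ * (‖Q φ‖ + ‖ι φ‖) := h1
    _ = κ * ‖Q φ‖ + κ * ‖ι φ‖ := by ring
    _ ≤ _ := by linarith

/-- **CONSTANCY**: a family of charges with a uniform gap, locally Lipschitz relative to the form,
has kernels of constant dimension over a preconnected set of parameters. -/
theorem dimGe_const [CompleteSpace H] {Qf : ℝ → V →ₗ[ℂ] H'} {S : Set ℝ} (hS : IsPreconnected S)
    {δ : ℝ} (hδ : 0 < δ) (hG : ∀ t ∈ S, Gap ι (Qf t) δ)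
    (hloc : ∀ s ∈ S, ∃ C r : ℝ, 0 < r ∧ ∀ t ∈ S, |t - s| < r → ∀ φ,
      ‖Qf t φ - Qf s φ‖ ≤ C * |t - s| * (‖Qf s φ‖ + ‖ι φ‖)) {k : ℕ} {s t : ℝ} (hs : s ∈ S)
    (ht : t ∈ S) : DimGe ι (Qf s) k ↔ DimGe ι (Qf t) k := by
  refine hS.induction₂ (fun x y => DimGe ι (Qf x) k ↔ DimGe ι (Qf y) k) (fun x hx => ?_)
    (fun x y z _ _ _ h1 h2 => h1.trans h2) (fun x y _ _ h => h.symm) hs ht
  obtain ⟨C, r, hr, h⟩ := hloc x hx
  have hsq : 0 < Real.sqrt δ := Real.sqrt_pos.2 hδ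
  set C' : ℝ := max C 1 with hC'
  have hC'0 : 0 < C' := lt_of_lt_of_le one_pos (le_max_right _ _)
  set r' : ℝ := min r (min (1 / 2) (Real.sqrt δ / 8) / C') with hr'
  have hr'0 : 0 < r' := lt_min hr (div_pos (lt_min (by norm_num) (by positivity)) hC'0)
  have hev : ∀ᶠ y in 𝓝[S] x, y ∈ S ∧ |y - x| < r' := by
    refine (eventually_mem_nhdsWithin).and ?_
    refine nhdsWithin_le_nhds (Metric.eventually_nhds_iff.2 ⟨r', hr'0, fun y hy => ?_⟩)
    rwa [Real.dist_eq] at hy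
  filter_upwards [hev] with y hy
  set κ : ℝ := C' * |y - x| with hκ
  have hκ0 : 0 ≤ κ := by positivity
  have h1 : κ < min (1 / 2) (Real.sqrt δ / 8) := by
    have h2 : |y - x| < min (1 / 2) (Real.sqrt δ / 8) / C' := hy.2.trans_le (min_le_right _ _)
    rw [lt_div_iff₀ hC'0] at h2
    rw [hκ, mul_comm]
    exact h2
  have h2 : κ < 1 / 2 := h1.trans_le (min_le_left _ _)
  have h3 : κ < Real.sqrt δ / 8 := h1.trans_le (min_le_right _ _)
  have h4 : ∀ φ, ‖Qf x φ - Qf y φ‖ ≤ κ * (‖Qf x φ‖ + ‖ι φ‖) := fun φ => by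
    rw [norm_sub_rev]
    refine (h y hy.1 (hy.2.trans_le (min_le_left _ _)) φ).trans ?_
    refine mul_le_mul_of_nonneg_right ?_ (by positivity)
    exact mul_le_mul_of_nonneg_right (le_max_left _ _) (abs_nonneg _)
  constructor
  · exact DimGe.of_close (hG y hy.1) hδ hκ0 (by linarith) h4
  · exact DimGe.of_close (hG x hx) hδ (by positivity) (by linarith)
      (close_symm hκ0 h2.le h4)

end Crest.Agent.R330.FA416

end
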