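import Crest.Agent.R330.FA2_416

/-!
# Row 330 (helper416): gap on a core with sectors

* `dense_of_weak` : `(ι + A) V` is dense in the closure of `ι V` if no vector of the closure is
  orthogonal to it (weak = strong).
* `gap_of_core_closure` : the gap from `‖A φ‖² ≥ δ ‖Q φ‖²`, density only in the closure of `ι V`.
* `gap_of_sectors` : a symmetric idempotent `p` of the core commuting with `A` ; inequality
  `‖A φ‖² ≥ δ ‖Q φ‖²` on the range of `p`, inequality `‖Q φ‖² ≥ δ ‖ι φ‖²` on the range of `1 - p`.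
-/

set_option autoImplicit false
set_option linter.unusedSectionVars false

open Filter Topology Set
open scoped InnerProductSpace

noncomputable section

namespace Crest.Agent.R330.FA416

variable {V H H' : Type*} [AddCommGroup V] [Module ℂ V]
  [NormedAddCommGroup H] [InnerProductSpace ℂ H]
  [NormedAddCommGroup H'] [InnerProductSpace ℂ H']
  {ι : V →ₗ[ℂ] H} {Q : V →ₗ[ℂ] H'}

/-- The closure of the core in the Hilbert space. -/
def clo (ι : V →ₗ[ℂ] H) : Submodule ℂ H := (LinearMap.range ι).topologicalClosure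

theorem isClosed_clo (ι : V →ₗ[ℂ] H) : IsClosed (clo ι : Set H) :=
  Submodule.isClosed_topologicalClosure _

theorem mem_clo (φ : V) : ι φ ∈ clo ι :=
  Submodule.le_topologicalClosure _ ⟨φ, rfl⟩

theorem mem_clo_iff {x : H} : x ∈ clo ι ↔ ∃ φ : ℕ → V, Tendsto (fun n => ι (φ n)) atTop (𝓝 x) := by
  unfold clo
  rw [← SetLike.mem_coe, Submodule.topologicalClosure_coe, mem_closure_iff_seq_limit]
  constructor
  · rintro ⟨y, hy, hlim⟩
    choose φ hφ using hy
    exact ⟨φ, by simpa only [hφ] using hlim⟩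
  · rintro ⟨φ, h⟩
    exact ⟨fun n => ι (φ n), fun n => ⟨φ n, rfl⟩, h⟩

theorem kerF_le_clo : kerF ι Q ≤ clo ι := fun Ψ hΨ => by
  obtain ⟨φ, h1, -⟩ := mem_kerF.1 hΨ
  exact mem_clo_iff.2 ⟨φ, h1⟩

/-- **Weak = strong gives density**: `T : V → clo ι`-valued. -/
theorem dense_of_weak [CompleteSpace H] (T : V →ₗ[ℂ] H) (hT : ∀ φ, T φ ∈ clo ι)
    (h : ∀ χ ∈ clo ι, (∀ φ, ⟪χ, T φ⟫_ℂ = 0) → χ = 0) (x : H) (hx : x ∈ clo ι) :
    x ∈ clo T := by
  have : CompleteSpace (clo T) := (isClosed_clo T).completeSpace_coe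
  have hle : clo T ≤ clo ι := by
    unfold clo
    refine Submodule.topologicalClosure_minimal _ ?_ (Submodule.isClosed_topologicalClosure _)
    rintro y ⟨φ, rfl⟩
    exact hT φ
  obtain ⟨y, hy, z, hz, hyz⟩ := (clo T).exists_add_mem_mem_orthogonal x
  have h1 : z ∈ clo ι := by
    have : z = x - y := by rw [hyz]; abel
    rw [this]
    exact sub_mem hx (hle hy)
  have h2 : z = 0 := h z h1 fun φ => by
    have h3 := hz (T φ) (mem_clo φ)
    rw [← inner_conj_symm, h3, map_zero]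
  rw [hyz, h2, add_zero]
  exact hy

/-- The core as a map into its closure. -/
def ιc (ι : V →ₗ[ℂ] H) : V →ₗ[ℂ] clo ι := ι.codRestrict (clo ι) mem_clo


theorem kerF_ιc (x : clo ι) : x ∈ kerF (ιc ι) Q ↔ (x : H) ∈ kerF ι Q := by
  rw [mem_kerF, mem_kerF]
  constructor
  · rintro ⟨φ, h1, h2⟩
    exact ⟨φ, (continuous_subtype_val.tendsto _).comp h1, h2⟩
  · rintro ⟨φ, h1, h2⟩
    exact ⟨φ, tendsto_subtype_rng.2 h1, h2⟩




end Crest.Agent.R330.FA416

end
namespace Crest.Agent.R330.FA416.Gap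
end Crest.Agent.R330.FA416.Gap
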