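import Mathlib.Analysis.CStarAlgebra.ContinuousFunctionalCalculus.Instances
import Mathlib.Analysis.InnerProductSpace.Positive
import Mathlib.Analysis.InnerProductSpace.StarOrder
import Mathlib.Analysis.InnerProductSpace.Adjoint
import Mathlib.Analysis.Normed.Operator.Extend

/-!
# Row 330 (helper416): abstract calculus of forms on a core

`V` : core (complex vector space), `ι : V → H` (wave functions in `L²`), `Q : V → H'` (supercharges).

* `kerF ι Q` : limits of core vectors `φ_n` with `Q φ_n → 0`, a closed submodule.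
* `Gap ι Q δ` : `δ ‖ι φ - ψ‖² ≤ ‖Q φ‖²` for some `ψ` in the kernel; `Gap.proj`, `gap_of_proj` : the
  form with the orthogonal projection.
* `gap_of_core` : the gap from `‖A φ‖² ≥ δ ‖Q φ‖²` on the core, when `ι + A` has dense range.
-/

set_option autoImplicit false
set_option linter.unusedSectionVars false

open Filter Topology Set
open scoped InnerProductSpace

noncomputable section

namespace Crest.Agent.R330.FA416

variable {V H H' : Type*} [AddCommGroup V] [Module ℂ V]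
  [NormedAddCommGroup H] [InnerProductSpace ℂ H]
  [NormedAddCommGroup H'] [InnerProductSpace ℂ H']

/-- The kernel of the closure of the form `‖Q φ‖²`. -/
def kerF (ι : V →ₗ[ℂ] H) (Q : V →ₗ[ℂ] H') : Submodule ℂ H :=
  (LinearMap.range (ι.prod Q)).topologicalClosure.comap (LinearMap.inl ℂ H H')

variable {ι : V →ₗ[ℂ] H} {Q : V →ₗ[ℂ] H'}

theorem mem_kerF {Ψ : H} : Ψ ∈ kerF ι Q ↔ ∃ φ : ℕ → V,
    Tendsto (fun n => ι (φ n)) atTop (𝓝 Ψ) ∧ Tendsto (fun n => Q (φ n)) atTop (𝓝 0) := by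
  unfold kerF
  rw [Submodule.mem_comap, ← SetLike.mem_coe, Submodule.topologicalClosure_coe,
    mem_closure_iff_seq_limit]
  constructor
  · rintro ⟨x, hx, hlim⟩
    choose φ hφ using hx
    refine ⟨φ, ?_, ?_⟩
    · have h1 := (continuous_fst.tendsto _).comp hlim
      refine h1.congr fun n => ?_
      rw [Function.comp_apply, ← hφ n]
      rfl
    · have h1 := (continuous_snd.tendsto _).comp hlim
      refine h1.congr fun n => ?_
      rw [Function.comp_apply, ← hφ n]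
      rfl
  · rintro ⟨φ, h1, h2⟩
    exact ⟨fun n => (ι (φ n), Q (φ n)), fun n => ⟨φ n, rfl⟩, h1.prodMk_nhds h2⟩

theorem isClosed_kerF (ι : V →ₗ[ℂ] H) (Q : V →ₗ[ℂ] H') : IsClosed (kerF ι Q : Set H) := by
  have h1 : Continuous (LinearMap.inl ℂ H H') := continuous_id.prodMk continuous_const
  exact (Submodule.isClosed_topologicalClosure _).preimage h1

instance instCompleteSpaceKerF [CompleteSpace H] (ι : V →ₗ[ℂ] H) (Q : V →ₗ[ℂ] H') :
    CompleteSpace (kerF ι Q) := (isClosed_kerF ι Q).completeSpace_coe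

/-- **The gap** of the form above its kernel. -/
def Gap (ι : V →ₗ[ℂ] H) (Q : V →ₗ[ℂ] H') (δ : ℝ) : Prop :=
  ∀ φ : V, ∃ ψ ∈ kerF ι Q, δ * ‖ι φ - ψ‖ ^ 2 ≤ ‖Q φ‖ ^ 2

theorem Gap.mono {δ δ' : ℝ} (h : Gap ι Q δ) (hδ : δ' ≤ δ) : Gap ι Q δ' := fun φ => by
  obtain ⟨ψ, h1, h2⟩ := h φ
  exact ⟨ψ, h1, (mul_le_mul_of_nonneg_right hδ (sq_nonneg _)).trans h2⟩


theorem Gap.proj [CompleteSpace H] {δ : ℝ} (h : Gap ι Q δ) (hδ : 0 ≤ δ) (φ : V) :
    δ * ‖ι φ - (kerF ι Q).starProjection (ι φ)‖ ^ 2 ≤ ‖Q φ‖ ^ 2 := by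
  obtain ⟨ψ, h1, h2⟩ := h φ
  refine le_trans (mul_le_mul_of_nonneg_left ?_ hδ) h2
  have h3 : ‖ι φ - (kerF ι Q).starProjection (ι φ)‖ ≤ ‖ι φ - ψ‖ := by
    rw [Submodule.starProjection_minimal]
    exact ciInf_le ⟨0, by rintro _ ⟨x, rfl⟩; exact norm_nonneg _⟩ (⟨ψ, h1⟩ : kerF ι Q)
  gcongr

/-- On vectors orthogonal to the kernel. -/
theorem Gap.orth {δ : ℝ} (h : Gap ι Q δ) (hδ : 0 ≤ δ) {φ : V} (ho : ι φ ∈ (kerF ι Q)ᗮ) :
    δ * ‖ι φ‖ ^ 2 ≤ ‖Q φ‖ ^ 2 := by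
  obtain ⟨ψ, h1, h2⟩ := h φ
  refine le_trans (mul_le_mul_of_nonneg_left ?_ hδ) h2
  have h3 : ⟪ι φ, ψ⟫_ℂ = 0 := (Submodule.mem_orthogonal' _ _).1 ho ψ h1
  have h4 := norm_sub_sq (𝕜 := ℂ) (ι φ) ψ
  rw [h3] at h4
  simp only [map_zero, mul_zero, sub_zero] at h4
  rw [h4]
  linarith [sq_nonneg ‖ψ‖]

/-! ### Positive operators -/

section pos

variable [CompleteSpace H]

theorem nonneg_of_re {T : H →L[ℂ] H} (hs : ∀ x y, ⟪T x, y⟫_ℂ = ⟪x, T y⟫_ℂ)
    (hp : ∀ x, 0 ≤ (⟪T x, x⟫_ℂ).re) : 0 ≤ T :=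
  (ContinuousLinearMap.nonneg_iff_isPositive T).2 ⟨fun x y => hs x y, fun x => hp x⟩

theorem re_nonneg {T : H →L[ℂ] H} (h : 0 ≤ T) (x : H) : 0 ≤ (⟪T x, x⟫_ℂ).re :=
  ((ContinuousLinearMap.nonneg_iff_isPositive T).1 h).2 x

/-- **The operator inequality behind the gap.** `N = 1 - B ≥ 0`, `B ≥ 0`, `N (N - δ B) ≥ 0`. -/
theorem re_inner_of_range {B : H →L[ℂ] H} (hB : ∀ x y, ⟪B x, y⟫_ℂ = ⟪x, B y⟫_ℂ)
    (hB0 : ∀ x, 0 ≤ (⟪B x, x⟫_ℂ).re) (hN0 : ∀ x, 0 ≤ (⟪x - B x, x⟫_ℂ).re) {δ : ℝ}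
    (hC : ∀ x, 0 ≤ (⟪x - B x, (x - B x) - (δ : ℂ) • B x⟫_ℂ).re) (g : H) :
    0 ≤ (⟪((g - B g) - B (g - B g)) - (δ : ℂ) • B (g - B g), B (g - B g)⟫_ℂ).re := by
  set N : H →L[ℂ] H := 1 - B with hN
  have hNx : ∀ x, N x = x - B x := fun x => rfl
  have hNs : ∀ x y, ⟪N x, y⟫_ℂ = ⟪x, N y⟫_ℂ := fun x y => by
    rw [hNx, hNx, inner_sub_left, inner_sub_right, hB]
  set C : H →L[ℂ] H := N - (δ : ℂ) • B with hCd
  have hCx : ∀ x, C x = (x - B x) - (δ : ℂ) • B x := fun x => rfl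
  have hCs : ∀ x y, ⟪C x, y⟫_ℂ = ⟪x, C y⟫_ℂ := fun x y => by
    rw [hCx, hCx, ← hNx, ← hNx, inner_sub_left, inner_sub_right, hNs, inner_smul_left,
      inner_smul_right, hB, Complex.conj_ofReal]
  have hBp : 0 ≤ B := nonneg_of_re hB hB0
  have hNp : 0 ≤ N := nonneg_of_re hNs hN0
  have hNB : Commute N B := by
    show N * B = B * N
    rw [hN, sub_mul, mul_sub, one_mul, mul_one]
  have hNC : Commute N C := by
    refine (Commute.refl N).sub_right ?_
    exact hNB.smul_right _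
  have hBC : Commute B C := by
    refine hNB.symm.sub_right ?_
    exact (Commute.refl B).smul_right _
  have hNCp : 0 ≤ N * C := by
    refine nonneg_of_re (fun x y => ?_) fun x => ?_
    · rw [hNC.eq]
      show ⟪C (N x), y⟫_ℂ = ⟪x, C (N y)⟫_ℂ
      have e : C (N y) = N (C y) := congrArg (fun T : H →L[ℂ] H => T y) hNC.eq.symm
      rw [hCs, hNs, e]
    · rw [hNC.eq]
      show 0 ≤ (⟪C (N x), x⟫_ℂ).re
      rw [hCs, hNx]
      exact hC x
  have hNBp : 0 ≤ N * B := Commute.mul_nonneg hNp hBp hNB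
  have hcomm : Commute (N * C) (N * B) :=
    ((Commute.refl N).mul_left hNC.symm).mul_right (hNB.mul_left hBC.symm)
  have h1 := re_nonneg (Commute.mul_nonneg hNCp hNBp hcomm) g
  have h2 : ⟪((g - B g) - B (g - B g)) - (δ : ℂ) • B (g - B g), B (g - B g)⟫_ℂ =
      ⟪(N * C * (N * B)) g, g⟫_ℂ := by
    show ⟪C (N g), B (N g)⟫_ℂ = ⟪N (C (N (B g))), g⟫_ℂ
    have e1 : N (B g) = B (N g) := congrArg (fun T : H →L[ℂ] H => T g) hNB.eq
    have e3 : C (B (N g)) = B (C (N g)) := congrArg (fun T : H →L[ℂ] H => T (N g)) hBC.eq.symm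
    rw [hNs, e1, e3, hB]
  rw [h2]
  exact h1

/-- **THE GAP FROM THE CORE.** `A` : the Hamiltonian on the core, `⟪Q φ, Q ψ⟫ = ⟪A φ, ι ψ⟫`, and
`ι + A` has dense range (essential self-adjointness). -/
theorem gap_of_core (A : V →ₗ[ℂ] H) (hA : ∀ φ ψ, ⟪Q φ, Q ψ⟫_ℂ = ⟪A φ, ι ψ⟫_ℂ)
    (hd : DenseRange (ι + A)) {δ : ℝ} (hδ : ∀ φ, δ * ‖Q φ‖ ^ 2 ≤ ‖A φ‖ ^ 2) : Gap ι Q δ := by
  have hA' : ∀ φ ψ, ⟪ι φ, A ψ⟫_ℂ = ⟪A φ, ι ψ⟫_ℂ := fun φ ψ => by
    rw [← hA, ← inner_conj_symm, ← hA, inner_conj_symm]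
  have hAr : ∀ φ, (⟪A φ, ι φ⟫_ℂ).re = ‖Q φ‖ ^ 2 := fun φ => by
    rw [← hA, inner_self_eq_norm_sq_to_K]
    norm_cast
  have hnorm : ∀ φ, ‖(ι + A) φ‖ ^ 2 = ‖ι φ‖ ^ 2 + 2 * ‖Q φ‖ ^ 2 + ‖A φ‖ ^ 2 := fun φ => by
    rw [LinearMap.add_apply, norm_add_sq (𝕜 := ℂ), hA']
    have := hAr φ
    simp only [RCLike.re_to_complex]
    rw [this]
  have hle : ∀ φ, ‖ι φ‖ ≤ 1 * ‖(ι + A) φ‖ := fun φ => by
    rw [one_mul]
    refine le_of_sq_le_sq ?_ (norm_nonneg _)
    rw [hnorm]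
    nlinarith [sq_nonneg ‖Q φ‖, sq_nonneg ‖A φ‖]
  set B : H →L[ℂ] H := ι.extendOfNorm (ι + A) with hBd
  have hBe : ∀ φ, B (ι φ + A φ) = ι φ := fun φ =>
    LinearMap.extendOfNorm_eq hd ⟨1, hle⟩ φ
  have hBs : ∀ x y, ⟪B x, y⟫_ℂ = ⟪x, B y⟫_ℂ := by
    intro x y
    refine hd.induction_on₂ (p := fun x y => ⟪B x, y⟫_ℂ = ⟪x, B y⟫_ℂ) ?_ (fun φ ψ => ?_) x y
    · exact isClosed_eq (by fun_prop) (by fun_prop)
    · simp only [LinearMap.add_apply]
      rw [hBe, hBe, inner_add_right, inner_add_left, hA']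
  have hB0 : ∀ x, 0 ≤ (⟪B x, x⟫_ℂ).re := by
    intro x
    refine hd.induction_on (p := fun x => 0 ≤ (⟪B x, x⟫_ℂ).re) x ?_ fun φ => ?_
    · exact isClosed_le continuous_const (Complex.continuous_re.comp (by fun_prop))
    · simp only [LinearMap.add_apply]
      rw [hBe, inner_add_right, hA', Complex.add_re, hAr, inner_self_eq_norm_sq_to_K]
      have : (((‖ι φ‖ : ℂ)) ^ 2).re = ‖ι φ‖ ^ 2 := by norm_cast
      simp only [RCLike.ofReal_eq_complex_ofReal] at *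
      rw [this]
      positivity
  have hN0 : ∀ x, 0 ≤ (⟪x - B x, x⟫_ℂ).re := by
    intro x
    refine hd.induction_on (p := fun x => 0 ≤ (⟪x - B x, x⟫_ℂ).re) x ?_ fun φ => ?_
    · exact isClosed_le continuous_const (Complex.continuous_re.comp (by fun_prop))
    · simp only [LinearMap.add_apply]
      rw [hBe, add_sub_cancel_left, inner_add_right, Complex.add_re, hAr,
        inner_self_eq_norm_sq_to_K]
      have : (((‖A φ‖ : ℂ)) ^ 2).re = ‖A φ‖ ^ 2 := by norm_cast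
      simp only [RCLike.ofReal_eq_complex_ofReal] at *
      rw [this]
      positivity
  have hC : ∀ x, 0 ≤ (⟪x - B x, (x - B x) - (δ : ℂ) • B x⟫_ℂ).re := by
    intro x
    refine hd.induction_on
      (p := fun x => 0 ≤ (⟪x - B x, (x - B x) - (δ : ℂ) • B x⟫_ℂ).re) x ?_ fun φ => ?_
    · exact isClosed_le continuous_const (Complex.continuous_re.comp (by fun_prop))
    · simp only [LinearMap.add_apply]
      rw [hBe, add_sub_cancel_left, inner_sub_right, inner_smul_right, Complex.sub_re,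
        Complex.re_ofReal_mul, hAr, inner_self_eq_norm_sq_to_K]
      have : (((‖A φ‖ : ℂ)) ^ 2).re = ‖A φ‖ ^ 2 := by norm_cast
      simp only [RCLike.ofReal_eq_complex_ofReal] at *
      rw [this]
      linarith [hδ φ]
  set N : H →L[ℂ] H := 1 - B with hN
  have hNx : ∀ x, N x = x - B x := fun x => rfl
  have hNs : ∀ x y, ⟪N x, y⟫_ℂ = ⟪x, N y⟫_ℂ := fun x y => by
    rw [hNx, hNx, inner_sub_left, inner_sub_right, hBs]
  have hNsa : ContinuousLinearMap.adjoint N = N := by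
    refine ContinuousLinearMap.ext fun x => ext_inner_left ℂ fun y => ?_
    rw [ContinuousLinearMap.adjoint_inner_right, hNs]
  -- the kernel
  have hker : ∀ x, N x = 0 → x ∈ kerF ι Q := by
    intro x hx
    have hx' : B x = x := by
      rw [hNx, sub_eq_zero] at hx
      exact hx.symm
    obtain ⟨u, hu, hlim⟩ := mem_closure_iff_seq_limit.1 (hd.closure_eq ▸ mem_univ x :
      x ∈ closure (Set.range (ι + A)))
    choose φ hφ using hu
    have h1 : Tendsto (fun n => ι (φ n)) atTop (𝓝 x) := by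
      have h2 := (B.continuous.tendsto x).comp hlim
      rw [hx'] at h2
      refine h2.congr fun n => ?_
      rw [Function.comp_apply, ← hφ n, LinearMap.add_apply, hBe]
    refine mem_kerF.2 ⟨φ, h1, ?_⟩
    have h3 : Tendsto (fun n => ‖Q (φ n)‖ ^ 2) atTop (𝓝 0) := by
      have h4 : ∀ n, ‖Q (φ n)‖ ^ 2 = (⟪u n - ι (φ n), ι (φ n)⟫_ℂ).re := fun n => by
        rw [← hφ n, LinearMap.add_apply, add_sub_cancel_left, hAr]
      simp only [h4]
      have h5 : Tendsto (fun n => (⟪u n - ι (φ n), ι (φ n)⟫_ℂ).re) atTop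
          (𝓝 (⟪x - x, x⟫_ℂ).re) :=
        (Complex.continuous_re.tendsto _).comp ((hlim.sub h1).inner h1)
      rwa [sub_self, inner_zero_left, Complex.zero_re] at h5
    rw [tendsto_zero_iff_norm_tendsto_zero]
    have h6 := h3.sqrt
    rw [Real.sqrt_zero] at h6
    refine h6.congr fun n => ?_
    rw [Real.sqrt_sq (norm_nonneg _)]
  -- orthogonal decomposition
  intro φ
  set f : H := ι φ + A φ with hf
  set K : Submodule ℂ H := LinearMap.ker N.toLinearMap with hK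
  have hKc : CompleteSpace K := (ContinuousLinearMap.isClosed_ker N).completeSpace_coe
  set p : H := K.starProjection f with hp
  have hpK : p ∈ K := Submodule.starProjection_apply_mem _ _
  have hNp : N p = 0 := hpK
  have hBp : B p = p := by
    rw [hNx, sub_eq_zero] at hNp
    exact hNp.symm
  set f' : H := f - p with hf'
  have hf'K : f' ∈ Kᗮ := Submodule.sub_starProjection_mem_orthogonal _
  refine ⟨p, hker p hNp, ?_⟩
  have hpos : 0 ≤ (⟪(f' - B f') - (δ : ℂ) • B f', B f'⟫_ℂ).re := by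
    have h1 : f' ∈ (LinearMap.range N.toLinearMap).topologicalClosure := by
      have h2 := ContinuousLinearMap.orthogonal_ker N
      rw [hNsa] at h2
      exact h2 ▸ hf'K
    rw [← SetLike.mem_coe, Submodule.topologicalClosure_coe] at h1
    refine closure_minimal (s := (LinearMap.range N.toLinearMap : Set H))
      (t := {f' | 0 ≤ (⟪(f' - B f') - (δ : ℂ) • B f', B f'⟫_ℂ).re}) ?_ ?_ h1
    · rintro _ ⟨g, rfl⟩
      exact re_inner_of_range hBs hB0 hN0 hC g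
    · exact isClosed_le continuous_const (Complex.continuous_re.comp (by fun_prop))
  have hιφ : ι φ = p + B f' := by
    rw [hf', map_sub, hBp, hf, hBe]
    abel
  have hAφ : A φ = N f' := by
    have h1 : N f = A φ := by rw [hNx, hf, hBe, add_sub_cancel_left]
    rw [hf', map_sub, hNp, sub_zero, h1]
  have h7 : ‖Q φ‖ ^ 2 = (⟪N f', B f'⟫_ℂ).re := by
    rw [← hAr, hAφ, hιφ, inner_add_right, hNs f' p, hNp, inner_zero_right, zero_add]
  have h8 : ι φ - p = B f' := by rw [hιφ, add_sub_cancel_left]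
  rw [h8, h7]
  rw [inner_sub_left, inner_smul_left, Complex.conj_ofReal, Complex.sub_re,
    Complex.re_ofReal_mul, inner_self_eq_norm_sq_to_K, ← hNx] at hpos
  have h9 : (((‖B f'‖ : ℂ)) ^ 2).re = ‖B f'‖ ^ 2 := by norm_cast
  simp only [RCLike.ofReal_eq_complex_ofReal] at hpos
  rw [h9] at hpos
  linarith

end pos

end Crest.Agent.R330.FA416

end
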