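import Crest.Agent.R330.Cliff3_442
import Crest.Agent.R330.DirG_837
import Crest.Agent.R330.Hardy_151
import Mathlib
import Crest.Agent.R330.Cliff5_442
import Crest.Agent.R330.GPar_984

-- ▼ part R330/FibA_892
section

/-!
# Row 330, S8-FIB (helper892), part A: systems of linear charges

`B_α f (z) = -i Σ_s θ(Γ_α e_s) ∂_s f(z) + g θ(T Γ_α z) f(z)` on a Euclidean space `E` with values in a
module `F` of the Clifford relations over `V`.  `Lin Γ T P A c e` : `T` skew, `P = |T|`,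
`P Γ_α = Γ_α A`, and the frame identities.

* `energy` : `Σ_α ∫ ‖B_α f‖² = 2c (½ ∫ |∇f|² + ½ g² ∫ |A z|²|f|² + g ∫ ⟨f, quad T f⟩)`.
* `energy_sq` : `= 2c (½ ∫ |∇f + g A z f|² + g Σ_k (lam_k/2) ∫ ‖ann_k f‖²)`.
* `kill` : `B_α (exp (-g/2 ⟨A z, z⟩) v) = 0` for `v` in the vacuum space.
* `grad_le`, `pot_le` : `½∫|∇f|²`, `½g²∫|Az|²|f|² ≤ (2c)⁻¹ Σ ∫‖B_α f‖² + (g/2) tr A ∫‖f‖²`.
-/

set_option autoImplicit false
set_option linter.unusedSectionVars false
set_option linter.unusedVariables false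
set_option linter.deprecated false

open MeasureTheory Filter Topology
open scoped InnerProductSpace ContDiff
open Crest.Agent.R330.Cliff442 Crest.Agent.R330.DirG837

noncomputable section

namespace Crest.Agent.R330.Fib892

variable {E V F ι κ : Type*} [NormedAddCommGroup E] [InnerProductSpace ℝ E] [FiniteDimensional ℝ E]
  [NormedAddCommGroup V] [InnerProductSpace ℝ V] [FiniteDimensional ℝ V]
  [NormedAddCommGroup F] [InnerProductSpace ℂ F] [FiniteDimensional ℂ F]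
  [Fintype ι] [Fintype κ]

/-- Systems of linear charges. -/
structure Lin (Γ : ι → E →ₗ[ℝ] V) (T P : V →ₗ[ℝ] V) (A : E →L[ℝ] E) (c : ℝ)
    (e : OrthonormalBasis κ ℝ E) : Prop where
  skew : Skew T
  psym : ∀ x y, ⟪P x, y⟫_ℝ = ⟪x, P y⟫_ℝ
  ppos : ∀ x, 0 ≤ ⟪P x, x⟫_ℝ
  psq : ∀ x, P (P x) = -T (T x)
  inter : ∀ α z, P (Γ α z) = Γ α (A z)
  cpos : 0 < c
  fr1 : ∀ z w, ∑ α, ⟪Γ α z, Γ α w⟫_ℝ = 2 * c * ⟪z, w⟫_ℝ
  mix : ∀ z w, ∑ α, ⟪Γ α z, T (Γ α w)⟫_ℝ = 0
  fr2 : ∀ v, ∑ α, ∑ s, ⟪Γ α (e s), v⟫_ℝ • T (Γ α (e s)) = c • T v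

/-- The linear charges. -/
def chg (M : CRep V F) (Γ : ι → E →ₗ[ℝ] V) (T : V →ₗ[ℝ] V) (e : OrthonormalBasis κ ℝ E) (g : ℝ)
    (α : ι) (f : E → F) : E → F :=
  dirG (fun s => e s) (fun s _ => M.θ (Γ α (e s))) (fun z => (g : ℂ) • M.θ (T (Γ α z))) f

variable {M : CRep V F} {Γ : ι → E →ₗ[ℝ] V} {T P : V →ₗ[ℝ] V} {A : E →L[ℝ] E} {c g : ℝ}
  {e : OrthonormalBasis κ ℝ E} {f : E → F}

theorem chg_apply (α : ι) (z : E) : chg M Γ T e g α f z =
    (∑ s, (-Complex.I) • M.θ (Γ α (e s)) (fderiv ℝ f z (e s))) +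
      (g : ℂ) • M.θ (T (Γ α z)) (f z) := rfl

/-- `θ x` depends linearly on `x`. -/
def thL (M : CRep V F) (v : F) : V →ₗ[ℝ] F where
  toFun x := M.θ x v
  map_add' x y := by rw [M.add]; rfl
  map_smul' r x := by rw [M.smul]; exact Complex.coe_smul _ _


theorem contDiff_thL {n : WithTop ℕ∞} (L : E →ₗ[ℝ] V) (v : F) :
    ContDiff ℝ n (fun z => M.θ (L z) v) := by
  have h : (fun z => M.θ (L z) v) = fun z => (LinearMap.toContinuousLinearMap (thL M v ∘ₗ L)) z := by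
    funext z
    rfl
  rw [h]
  exact (LinearMap.toContinuousLinearMap (thL M v ∘ₗ L)).contDiff

theorem fderiv_thL (L : E →ₗ[ℝ] V) (v : F) (z w : E) :
    fderiv ℝ (fun z => M.θ (L z) v) z w = M.θ (L w) v := by
  have h : (fun z => M.θ (L z) v) = fun z => (LinearMap.toContinuousLinearMap (thL M v ∘ₗ L)) z := by
    funext z
    rfl
  rw [h, ContinuousLinearMap.fderiv]
  rfl

theorem contDiff_chg {n m : WithTop ℕ∞} (hmn : m + 1 ≤ n) (α : ι) (hf : ContDiff ℝ n f) :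
    ContDiff ℝ m (chg M Γ T e g α f) := by
  refine contDiff_dirG hmn (fun s v => contDiff_const) (fun v => ?_) hf
  have h : (fun z => ((g : ℂ) • M.θ (T (Γ α z))) v) = fun z => (g : ℂ) • M.θ ((T ∘ₗ Γ α) z) v := rfl
  rw [h]
  exact (contDiff_thL (T ∘ₗ Γ α) v).const_smul _


theorem chg_symm [MeasurableSpace E] [BorelSpace E] {φ ψ : E → F} (α : ι) (hφ : ContDiff ℝ 1 φ)
    (hψ : ContDiff ℝ 1 ψ) (hc : HasCompactSupport φ ∨ HasCompactSupport ψ) :
    ∫ z, ⟪chg M Γ T e g α φ z, ψ z⟫_ℂ = ∫ z, ⟪φ z, chg M Γ T e g α ψ z⟫_ℂ := by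
  refine dirG_symm (fun s _ => M.symm _) (fun z => ?_) (fun s v => contDiff_const) (fun v => ?_)
    (fun x v => by simp) hφ hψ hc
  · intro a b
    rw [LinearMap.smul_apply, LinearMap.smul_apply, inner_smul_left, inner_smul_right, M.symm,
      Complex.conj_ofReal]
  · have h : (fun z => ((g : ℂ) • M.θ (T (Γ α z))) v) =
        fun z => (g : ℂ) • M.θ ((T ∘ₗ Γ α) z) v := rfl
    rw [h]
    exact ((contDiff_thL (n := 0) (T ∘ₗ Γ α) v).const_smul _).continuous

namespace Lin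

variable (h : Lin Γ T P A c e)
include h

theorem asym (z w : E) : ⟪A z, w⟫_ℝ = ⟪z, A w⟫_ℝ := by
  have h1 : 2 * c * ⟪A z, w⟫_ℝ = 2 * c * ⟪z, A w⟫_ℝ := by
    rw [← h.fr1, ← h.fr1]
    refine Finset.sum_congr rfl fun α _ => ?_
    rw [← h.inter, ← h.inter, h.psym]
  have h2 : (2 * c) ≠ 0 := by have := h.cpos; positivity
  exact mul_left_cancel₀ h2 h1

theorem sum_T_sq (z : E) : ∑ α, ‖T (Γ α z)‖ ^ 2 = 2 * c * ‖A z‖ ^ 2 := by
  rw [← real_inner_self_eq_norm_sq, ← h.fr1]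
  refine Finset.sum_congr rfl fun α _ => ?_
  rw [← h.inter, ← real_inner_self_eq_norm_sq, h.skew, h.psym, h.psq, inner_neg_right]

theorem norm_P (x : V) : ‖P x‖ ^ 2 = ‖T x‖ ^ 2 := by
  rw [← real_inner_self_eq_norm_sq, ← real_inner_self_eq_norm_sq, h.skew, h.psym, h.psq,
    inner_neg_right]

theorem P_eq_zero {x : V} (hx : T x = 0) : P x = 0 := by
  have h1 := h.norm_P x
  rw [hx, norm_zero] at h1
  have h2 : ‖P x‖ = 0 := by
    have : ‖P x‖ ^ 2 = 0 := by rw [h1]; norm_num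
    exact pow_eq_zero_iff two_ne_zero |>.1 this
  exact norm_eq_zero.1 h2

/-- The second frame identity for `P`. -/
theorem fr2P (v : V) : ∑ α, ∑ s, ⟪Γ α (e s), v⟫_ℝ • P (Γ α (e s)) = c • P v := by
  have h1 : T (∑ α, ∑ s, ⟪Γ α (e s), v⟫_ℝ • Γ α (e s) - c • v) = 0 := by
    rw [map_sub, map_sum, map_smul, ← h.fr2 v, sub_eq_zero]
    refine Finset.sum_congr rfl fun α _ => ?_
    rw [map_sum]
    exact Finset.sum_congr rfl fun s _ => map_smul _ _ _
  have h2 := h.P_eq_zero h1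
  rw [map_sub, map_sum, map_smul, sub_eq_zero] at h2
  rw [← h2]
  refine Finset.sum_congr rfl fun α _ => ?_
  rw [map_sum]
  exact Finset.sum_congr rfl fun s _ => (map_smul _ _ _).symm

/-- `tr A = Σ lam`. -/
theorem trace {τ : Type*} [Fintype τ] (b : OrthonormalBasis τ ℝ V) {ν : Type*} {s : Finset ν}
    {u v : ν → V} {lam : ν → ℝ} (hn : NF T s u v lam) :
    ∑ s, ⟪A (e s), e s⟫_ℝ = ∑ k ∈ s, lam k := by
  have h1 := hn.trace_abs b h.psym h.ppos h.psq
  have h2 : 2 * c * ∑ s, ⟪A (e s), e s⟫_ℝ = c * ∑ j, ⟪P (b j), b j⟫_ℝ := by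
    rw [Finset.mul_sum]
    have e1 : ∀ s, 2 * c * ⟪A (e s), e s⟫_ℝ = ∑ α, ∑ j, ⟪P (Γ α (e s)), b j⟫_ℝ *
        ⟪b j, Γ α (e s)⟫_ℝ := by
      intro s
      rw [← h.fr1]
      refine Finset.sum_congr rfl fun α _ => ?_
      rw [← h.inter, b.sum_inner_mul_inner]
    simp only [e1]
    rw [Finset.sum_comm]
    have e2 : ∀ α, ∑ s, ∑ j, ⟪P (Γ α (e s)), b j⟫_ℝ * ⟪b j, Γ α (e s)⟫_ℝ =
        ∑ j, ∑ s, ⟪P (Γ α (e s)), b j⟫_ℝ * ⟪b j, Γ α (e s)⟫_ℝ := fun α => Finset.sum_comm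
    simp only [e2]
    rw [Finset.sum_comm, Finset.mul_sum]
    refine Finset.sum_congr rfl fun j _ => ?_
    rw [← real_inner_smul_left, ← h.fr2P (b j), sum_inner]
    refine Finset.sum_congr rfl fun α _ => ?_
    rw [sum_inner]
    refine Finset.sum_congr rfl fun s _ => ?_
    rw [real_inner_smul_left, real_inner_comm (Γ α (e s)) (b j)]
    ring
  rw [h1] at h2
  have h3 := h.cpos
  have h4 : c * (2 * ∑ s, ⟪A (e s), e s⟫_ℝ) = c * (2 * ∑ k ∈ s, lam k) := by linarith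
  have h5 := mul_left_cancel₀ h3.ne' h4
  linarith

end Lin

/-! ### The square of the charges -/

theorem fderiv_const_lin {n : WithTop ℕ∞} (L : F →ₗ[ℂ] F) {ψ : E → F} (hψ : ContDiff ℝ 1 ψ)
    (z w : E) : fderiv ℝ (fun y => L (ψ y)) z w = L (fderiv ℝ ψ z w) := by
  have h := fderiv_lin (B := fun _ => L) (fun v => contDiff_const) hψ z w
  simpa using h

theorem fderiv_chg (α : ι) (hf : ContDiff ℝ 2 f) (z w : E) :
    fderiv ℝ (chg M Γ T e g α f) z w =
      (∑ s, (-Complex.I) • M.θ (Γ α (e s)) (fderiv ℝ (fun y => fderiv ℝ f y (e s)) z w)) +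
        ((g : ℂ) • M.θ (T (Γ α z)) (fderiv ℝ f z w) + (g : ℂ) • M.θ (T (Γ α w)) (f z)) := by
  have hf1 : ContDiff ℝ 1 f := hf.of_le (by norm_num)
  have hd : ∀ s, ContDiff ℝ 1 (fun y => fderiv ℝ f y (e s)) := fun s =>
    (hf.fderiv_right (m := 1) (by norm_num)).clm_apply contDiff_const
  have h1 : chg M Γ T e g α f = fun z => (∑ s, (-Complex.I) • M.θ (Γ α (e s)) (fderiv ℝ f z (e s))) +
      ((g : ℂ) • M.θ (T (Γ α z))) (f z) := rfl
  have hB : ∀ v, ContDiff ℝ 1 (fun z => ((g : ℂ) • M.θ (T (Γ α z))) v) := by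
    intro v
    have h : (fun z => ((g : ℂ) • M.θ (T (Γ α z))) v) =
        fun z => (g : ℂ) • M.θ ((T ∘ₗ Γ α) z) v := rfl
    rw [h]
    exact (contDiff_thL (T ∘ₗ Γ α) v).const_smul _
  have hs : ∀ s, ContDiff ℝ 1 (fun z => (-Complex.I) • M.θ (Γ α (e s)) (fderiv ℝ f z (e s))) :=
    fun s => (contDiff_lin (B := fun _ => M.θ (Γ α (e s))) (fun v => contDiff_const) (hd s)).const_smul _
  have hV : ContDiff ℝ 1 (fun z => ((g : ℂ) • M.θ (T (Γ α z))) (f z)) := contDiff_lin hB hf1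
  rw [h1, fderiv_fun_add ((ContDiff.sum fun s _ => hs s).differentiable (by norm_num) z)
    (hV.differentiable (by norm_num) z), fderiv_fun_sum
    (fun s _ => (hs s).differentiable (by norm_num) z)]
  rw [ContinuousLinearMap.add_apply, ContinuousLinearMap.sum_apply, fderiv_lin hB hf1]
  congr 1
  · refine Finset.sum_congr rfl fun s _ => ?_
    rw [fderiv_fun_const_smul ((contDiff_lin (B := fun _ => M.θ (Γ α (e s)))
      (fun v => contDiff_const) (hd s)).differentiable (by norm_num) z),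
      ContinuousLinearMap.smul_apply, fderiv_const_lin (n := 1) _ (hd s)]
  · congr 1
    have h : (fun y => ((g : ℂ) • M.θ (T (Γ α y))) (f z)) =
        fun y => (g : ℂ) • M.θ ((T ∘ₗ Γ α) y) (f z) := rfl
    rw [h, fderiv_fun_const_smul ((contDiff_thL (n := 1) (T ∘ₗ Γ α) (f z)).differentiable
      (by norm_num) z), ContinuousLinearMap.smul_apply, fderiv_thL]
    rfl

theorem d2_symm (hf : ContDiff ℝ 2 f) (z v w : E) :
    fderiv ℝ (fun y => fderiv ℝ f y v) z w = fderiv ℝ (fun y => fderiv ℝ f y w) z v := by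
  have hd : DifferentiableAt ℝ (fderiv ℝ f) z :=
    ((hf.fderiv_right (m := 1) (by norm_num)).differentiable (by norm_num)) z
  have e1 : ∀ u u' : E, fderiv ℝ (fun y => fderiv ℝ f y u) z u' = fderiv ℝ (fderiv ℝ f) z u' u := by
    intro u u'
    have := (hd.hasFDerivAt.clm_apply (hasFDerivAt_const u z)).fderiv
    rw [this]
    simp
  rw [e1, e1]
  exact (hf.contDiffAt.isSymmSndFDerivAt (by simp)) w v

/-! ### The sum of the squares, algebra -/

namespace Lin

variable (h : Lin Γ T P A c e)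
include h

theorem L1 {D : κ → κ → F} (hD : ∀ s t, D s t = D t s) :
    ∑ α, ∑ t, ∑ s, M.θ (Γ α (e t)) (M.θ (Γ α (e s)) (D t s)) = (c : ℂ) • ∑ s, D s s := by
  classical
  set X := ∑ α, ∑ t, ∑ s, M.θ (Γ α (e t)) (M.θ (Γ α (e s)) (D t s)) with hX
  have h1 : X = ∑ α, ∑ t, ∑ s, M.θ (Γ α (e s)) (M.θ (Γ α (e t)) (D t s)) := by
    rw [hX]
    refine Finset.sum_congr rfl fun α _ => ?_
    rw [Finset.sum_comm]
    refine Finset.sum_congr rfl fun t _ => Finset.sum_congr rfl fun s _ => ?_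
    rw [hD]
  have h2 : X + X = (2 : ℂ) • ((c : ℂ) • ∑ s, D s s) := by
    conv_lhs => lhs; rw [hX]
    conv_lhs => rhs; rw [h1]
    rw [← Finset.sum_add_distrib]
    have e1 : ∀ α, ∑ t, ∑ s, M.θ (Γ α (e t)) (M.θ (Γ α (e s)) (D t s)) +
        ∑ t, ∑ s, M.θ (Γ α (e s)) (M.θ (Γ α (e t)) (D t s)) =
        ∑ t, ∑ s, ((⟪Γ α (e t), Γ α (e s)⟫_ℝ : ℝ) : ℂ) • D t s := by
      intro α
      rw [← Finset.sum_add_distrib]
      refine Finset.sum_congr rfl fun t _ => ?_
      rw [← Finset.sum_add_distrib]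
      exact Finset.sum_congr rfl fun s _ => M.anti_apply _ _ _
    simp only [e1]
    rw [Finset.sum_comm]
    have e2 : ∀ t, ∑ α, ∑ s, ((⟪Γ α (e t), Γ α (e s)⟫_ℝ : ℝ) : ℂ) • D t s =
        ((2 * c : ℝ) : ℂ) • D t t := by
      intro t
      rw [Finset.sum_comm]
      have e3 : ∀ s, ∑ α, ((⟪Γ α (e t), Γ α (e s)⟫_ℝ : ℝ) : ℂ) • D t s =
          ((2 * c * ⟪e t, e s⟫_ℝ : ℝ) : ℂ) • D t s := by
        intro s
        rw [← Finset.sum_smul, ← Complex.ofReal_sum, h.fr1]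
      simp only [e3]
      rw [Finset.sum_eq_single t]
      · rw [real_inner_self_eq_norm_sq, e.orthonormal.1 t]
        simp
      · intro s _ hs
        rw [e.orthonormal.2 hs.symm]
        simp
      · intro hn
        exact absurd (Finset.mem_univ t) hn
    simp only [e2]
    rw [← Finset.smul_sum, smul_smul]
    push_cast
    rfl
  rw [← two_smul ℂ X] at h2
  exact smul_right_injective F (two_ne_zero (α := ℂ)) h2

theorem L2 (D : κ → F) (z : E) :
    ∑ α, ∑ t, (M.θ (Γ α (e t)) (M.θ (T (Γ α z)) (D t)) +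
      M.θ (T (Γ α z)) (M.θ (Γ α (e t)) (D t))) = 0 := by
  simp only [M.anti_apply]
  rw [Finset.sum_comm]
  refine Finset.sum_eq_zero fun t _ => ?_
  rw [← Finset.sum_smul, ← Complex.ofReal_sum, h.mix]
  simp

theorem L3 {τ : Type*} [Fintype τ] (b : OrthonormalBasis τ ℝ V) (v : F) :
    ∑ α, ∑ t, M.θ (T (Γ α (e t))) (M.θ (Γ α (e t)) v) =
      (c : ℂ) • ∑ j, M.θ (T (b j)) (M.θ (b j) v) := by
  have e1 : ∀ α t, M.θ (T (Γ α (e t))) (M.θ (Γ α (e t)) v) =
      ∑ j, M.θ (⟪Γ α (e t), b j⟫_ℝ • T (Γ α (e t))) (M.θ (b j) v) := by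
    intro α t
    rw [← M.expand_basis b (Γ α (e t)) v, map_sum]
    refine Finset.sum_congr rfl fun j _ => ?_
    rw [map_smul, M.smul, real_inner_comm]
    rfl
  simp only [e1]
  have e2 : ∀ α, ∑ t, ∑ j, M.θ (⟪Γ α (e t), b j⟫_ℝ • T (Γ α (e t))) (M.θ (b j) v) =
      ∑ j, ∑ t, M.θ (⟪Γ α (e t), b j⟫_ℝ • T (Γ α (e t))) (M.θ (b j) v) := fun α =>
    Finset.sum_comm
  simp only [e2]
  rw [Finset.sum_comm, Finset.smul_sum]
  refine Finset.sum_congr rfl fun j _ => ?_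
  have e3 := congrArg (fun x => M.θ x (M.θ (b j) v)) (h.fr2 (b j))
  simp only [M.sum, M.smul, LinearMap.sum_apply, LinearMap.smul_apply] at e3
  simp only [M.smul, LinearMap.smul_apply]
  exact e3

theorem L3' {τ : Type*} [Fintype τ] (b : OrthonormalBasis τ ℝ V) (v : F) :
    ∑ α, ∑ t, M.θ (Γ α (e t)) (M.θ (T (Γ α (e t))) v) =
      -((c : ℂ) • ∑ j, M.θ (T (b j)) (M.θ (b j) v)) := by
  rw [← h.L3 b v, ← Finset.sum_neg_distrib]
  refine Finset.sum_congr rfl fun α _ => ?_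
  rw [← Finset.sum_neg_distrib]
  refine Finset.sum_congr rfl fun t _ => M.comm_apply ?_ v
  rw [real_inner_comm, h.skew.inner_self]

theorem L4 (z : E) (v : F) :
    ∑ α, M.θ (T (Γ α z)) (M.θ (T (Γ α z)) v) = ((c * ‖A z‖ ^ 2 : ℝ) : ℂ) • v := by
  have h1 : (2 : ℂ) • ∑ α, M.θ (T (Γ α z)) (M.θ (T (Γ α z)) v) =
      (2 : ℂ) • (((c * ‖A z‖ ^ 2 : ℝ) : ℂ) • v) := by
    rw [Finset.smul_sum]
    simp only [M.sq_apply]
    rw [← Finset.sum_smul, ← Complex.ofReal_sum, h.sum_T_sq, smul_smul]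
    congr 1
    push_cast
    ring
  exact smul_right_injective F (two_ne_zero (α := ℂ)) h1

/-- **The sum of the squares of the charges.** -/
theorem sum_sq {τ : Type*} [Fintype τ] (b : OrthonormalBasis τ ℝ V) (hf : ContDiff ℝ 2 f) (z : E) :
    ∑ α, chg M Γ T e g α (chg M Γ T e g α f) z =
      (c : ℂ) • (-(∑ s, fderiv ℝ (fun y => fderiv ℝ f y (e s)) z (e s)) +
        ((g ^ 2 * ‖A z‖ ^ 2 : ℝ) : ℂ) • f z + ((2 * g : ℝ) : ℂ) • M.quad b T (f z)) := by
  have e1 : ∀ α, chg M Γ T e g α (chg M Γ T e g α f) z =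
      -(∑ t, ∑ s, M.θ (Γ α (e t)) (M.θ (Γ α (e s))
        (fderiv ℝ (fun y => fderiv ℝ f y (e s)) z (e t)))) -
      (Complex.I * g) • (∑ t, (M.θ (Γ α (e t)) (M.θ (T (Γ α z)) (fderiv ℝ f z (e t))) +
        M.θ (T (Γ α z)) (M.θ (Γ α (e t)) (fderiv ℝ f z (e t))))) -
      (Complex.I * g) • (∑ t, M.θ (Γ α (e t)) (M.θ (T (Γ α (e t))) (f z))) +
      ((g ^ 2 : ℝ) : ℂ) • M.θ (T (Γ α z)) (M.θ (T (Γ α z)) (f z)) := by
    intro α
    rw [chg_apply]
    simp only [fderiv_chg α hf, chg_apply, map_add, map_sum, map_smul, smul_add, Finset.smul_sum,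
      Finset.sum_add_distrib, smul_smul]
    have i1 : (-Complex.I * -Complex.I : ℂ) = -1 := by
      rw [neg_mul_neg, Complex.I_mul_I]
    rw [i1]
    simp only [neg_smul, one_smul, Finset.sum_neg_distrib]
    have i2 : ((g : ℂ) * g) = ((g ^ 2 : ℝ) : ℂ) := by push_cast; ring
    have i3 : (g : ℂ) * (-Complex.I) = -(Complex.I * g) := by ring
    have i4 : (-Complex.I * g : ℂ) = -(Complex.I * g) := by ring
    rw [i2, i3]
    simp only [i4, neg_smul, Finset.sum_neg_distrib]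
    abel
  simp only [e1]
  rw [Finset.sum_add_distrib, Finset.sum_sub_distrib, Finset.sum_sub_distrib,
    Finset.sum_neg_distrib, ← Finset.smul_sum, ← Finset.smul_sum, ← Finset.smul_sum, h.L2, h.L3' b,
    h.L4, h.L1 (D := fun t s => fderiv ℝ (fun y => fderiv ℝ f y (e s)) z (e t))
      (fun s t => d2_symm hf z (e t) (e s)), M.quad_apply]
  rw [smul_zero, sub_zero, smul_neg, sub_neg_eq_add]
  simp only [smul_add, smul_neg, smul_smul]
  have j1 : (Complex.I * g * c : ℂ) = (c * (((2 * g : ℝ) : ℂ) * (Complex.I / 2))) := by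
    push_cast; ring
  have j2 : (((g ^ 2 : ℝ) : ℂ) * ((c * ‖A z‖ ^ 2 : ℝ) : ℂ)) =
      ((c : ℂ) * ((g ^ 2 * ‖A z‖ ^ 2 : ℝ) : ℂ)) := by
    push_cast; ring
  rw [j1, j2]
  abel

end Lin

/-! ### The energy identity -/

theorem inner_self_c' (x : F) : ⟪x, x⟫_ℂ = ((‖x‖ ^ 2 : ℝ) : ℂ) := Cliff442.inner_self_c x

section energy

variable [MeasurableSpace E] [BorelSpace E]

theorem integrable_cs {G : Type*} [NormedAddCommGroup G] {u : E → G} (hu : Continuous u)
    (hc : HasCompactSupport u) : Integrable u := hu.integrable_of_hasCompactSupport hc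

theorem cs_of_zero {G : Type*} [NormedAddCommGroup G] {u : E → G} (hc : HasCompactSupport f)
    (h0 : ∀ z, f z = 0 → u z = 0) : HasCompactSupport u :=
  hc.mono' fun z hz => subset_tsupport _ (fun h1 => hz (h0 z h1))

theorem cs_pd (hc : HasCompactSupport f) (w : E) :
    HasCompactSupport (fun z => fderiv ℝ f z w) :=
  IBP837.hasCompactSupport_fderiv_apply hc w

theorem continuous_lin (L : F →ₗ[ℂ] F) : Continuous L := L.continuous_of_finiteDimensional

namespace Lin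

variable (h : Lin Γ T P A c e)
include h

/-- **Energy identity.** -/
theorem energy {τ : Type*} [Fintype τ] (b : OrthonormalBasis τ ℝ V) (hf : ContDiff ℝ 2 f)
    (hc : HasCompactSupport f) :
    ∑ α, ∫ z, ‖chg M Γ T e g α f z‖ ^ 2 =
      2 * c * (1 / 2 * (∫ z, ∑ s, ‖fderiv ℝ f z (e s)‖ ^ 2) +
        1 / 2 * g ^ 2 * (∫ z, ‖A z‖ ^ 2 * ‖f z‖ ^ 2) +
        g * ∫ z, (⟪f z, M.quad b T (f z)⟫_ℂ).re) := by
  have hf1 : ContDiff ℝ 1 f := hf.of_le (by norm_num)
  have hfc : Continuous f := hf.continuous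
  have hB1 : ∀ α, ContDiff ℝ 1 (chg M Γ T e g α f) := fun α => contDiff_chg (by norm_num) α hf
  have hB2 : ∀ α, Continuous (chg M Γ T e g α (chg M Γ T e g α f)) := fun α =>
    (contDiff_chg (m := 0) (n := 1) (by norm_num) α (hB1 α)).continuous
  have hd : ∀ s, ContDiff ℝ 1 (fun y => fderiv ℝ f y (e s)) := fun s =>
    (hf.fderiv_right (m := 1) (by norm_num)).clm_apply contDiff_const
  -- the left side
  have e1 : ∀ α, ((∫ z, ‖chg M Γ T e g α f z‖ ^ 2 : ℝ) : ℂ) =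
      ∫ z, ⟪f z, chg M Γ T e g α (chg M Γ T e g α f) z⟫_ℂ := by
    intro α
    rw [← chg_symm α hf1 (hB1 α) (Or.inl hc), ← integral_complex_ofReal]
    exact integral_congr_ae (Eventually.of_forall fun z => (inner_self_c' _).symm)
  have i1 : ∀ α, Integrable fun z => ⟪f z, chg M Γ T e g α (chg M Γ T e g α f) z⟫_ℂ := by
    intro α
    refine integrable_cs (hfc.inner (hB2 α)) (cs_of_zero hc fun z hz => ?_)
    rw [hz, inner_zero_left]
  have e2 : ((∑ α, ∫ z, ‖chg M Γ T e g α f z‖ ^ 2 : ℝ) : ℂ) =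
      ∫ z, ⟪f z, ∑ α, chg M Γ T e g α (chg M Γ T e g α f) z⟫_ℂ := by
    push_cast
    simp only [e1]
    rw [← integral_finset_sum _ fun α _ => i1 α]
    exact integral_congr_ae (Eventually.of_forall fun z => (inner_sum _ _ _).symm)
  -- the terms on the right
  have iD : ∀ s, Integrable fun z => ⟪f z, fderiv ℝ (fun y => fderiv ℝ f y (e s)) z (e s)⟫_ℂ := by
    intro s
    refine integrable_cs (hfc.inner (IBP837.fderiv_apply_continuous (hd s) _))
      (cs_of_zero hc fun z hz => ?_)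
    rw [hz, inner_zero_left]
  have iA : Integrable fun z => ‖A z‖ ^ 2 * ‖f z‖ ^ 2 := by
    refine integrable_cs (by fun_prop) (cs_of_zero hc fun z hz => ?_)
    rw [hz]; simp
  have iQ : Integrable fun z => ⟪f z, M.quad b T (f z)⟫_ℂ := by
    refine integrable_cs (hfc.inner ((continuous_lin _).comp hfc)) (cs_of_zero hc fun z hz => ?_)
    rw [hz, inner_zero_left]
  have iP : ∀ s, Integrable fun z => ‖fderiv ℝ f z (e s)‖ ^ 2 := by
    intro s
    refine integrable_cs ((hd s).continuous.norm.pow 2) ((cs_pd hc (e s)).mono'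
      fun z hz => subset_tsupport _ fun h1 => hz ?_)
    simp only [h1, norm_zero]
    norm_num
  have e3 : ∀ s, ∫ z, ⟪f z, fderiv ℝ (fun y => fderiv ℝ f y (e s)) z (e s)⟫_ℂ =
      -((∫ z, ‖fderiv ℝ f z (e s)‖ ^ 2 : ℝ) : ℂ) := by
    intro s
    have h1 := IBP837.ibp (μ := volume) hf1 (hd s) (Or.inl hc) (e s)
    rw [← integral_complex_ofReal, eq_neg_iff_add_eq_zero, add_comm, ← eq_neg_iff_add_eq_zero, ← h1]
    exact integral_congr_ae (Eventually.of_forall fun z => (inner_self_c' _).symm)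
  have e4 : ∫ z, ⟪f z, ∑ α, chg M Γ T e g α (chg M Γ T e g α f) z⟫_ℂ =
      (c : ℂ) * (-(∑ s, ∫ z, ⟪f z, fderiv ℝ (fun y => fderiv ℝ f y (e s)) z (e s)⟫_ℂ) +
        ((g ^ 2 * ∫ z, ‖A z‖ ^ 2 * ‖f z‖ ^ 2 : ℝ) : ℂ) +
        ((2 * g : ℝ) : ℂ) * ∫ z, ⟪f z, M.quad b T (f z)⟫_ℂ) := by
    simp only [h.sum_sq b hf]
    have j1 : ∀ z, ⟪f z, (c : ℂ) • (-(∑ s, fderiv ℝ (fun y => fderiv ℝ f y (e s)) z (e s)) +
        ((g ^ 2 * ‖A z‖ ^ 2 : ℝ) : ℂ) • f z + ((2 * g : ℝ) : ℂ) • M.quad b T (f z))⟫_ℂ =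
        (c : ℂ) * ((-(∑ s, ⟪f z, fderiv ℝ (fun y => fderiv ℝ f y (e s)) z (e s)⟫_ℂ) +
        ((g ^ 2 : ℝ) : ℂ) * ((‖A z‖ ^ 2 * ‖f z‖ ^ 2 : ℝ) : ℂ)) +
        ((2 * g : ℝ) : ℂ) * ⟪f z, M.quad b T (f z)⟫_ℂ) := by
      intro z
      rw [inner_smul_right, inner_add_right, inner_add_right, inner_neg_right, inner_sum,
        inner_smul_right, inner_smul_right, inner_self_c']
      push_cast
      ring
    simp only [j1]
    have k1 : Integrable fun z => (∑ s, ⟪f z, fderiv ℝ (fun y => fderiv ℝ f y (e s)) z (e s)⟫_ℂ) :=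
      integrable_finset_sum _ fun s _ => iD s
    have k2 : Integrable fun z => ((g ^ 2 : ℝ) : ℂ) * ((‖A z‖ ^ 2 * ‖f z‖ ^ 2 : ℝ) : ℂ) :=
      iA.ofReal.const_mul _
    have l1 := integral_add (k1.neg.add k2) (iQ.const_mul ((2 * g : ℝ) : ℂ))
    have l2 := integral_add k1.neg k2
    simp only [Pi.add_apply, Pi.neg_apply] at l1 l2
    rw [integral_const_mul, l1, l2, integral_neg, integral_const_mul, integral_const_mul,
      integral_finset_sum _ fun s _ => iD s, integral_complex_ofReal]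
    push_cast
    ring
  have e5 : (∫ z, ⟪f z, M.quad b T (f z)⟫_ℂ).re = ∫ z, (⟪f z, M.quad b T (f z)⟫_ℂ).re := by
    exact (Complex.reCLM.integral_comp_comm iQ).symm
  have e6 : ∑ α, ∫ z, ‖chg M Γ T e g α f z‖ ^ 2 =
      c * ((∑ s, ∫ z, ‖fderiv ℝ f z (e s)‖ ^ 2) + g ^ 2 * (∫ z, ‖A z‖ ^ 2 * ‖f z‖ ^ 2) +
        2 * g * ∫ z, (⟪f z, M.quad b T (f z)⟫_ℂ).re) := by
    have h1 := congrArg Complex.re (e2.trans e4)
    simp only [e3] at h1
    rw [Complex.ofReal_re, Complex.re_ofReal_mul, Complex.add_re, Complex.add_re,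
      Complex.ofReal_re, Complex.re_ofReal_mul, e5] at h1
    rw [h1]
    congr 3
    rw [Finset.sum_neg_distrib, neg_neg, ← Complex.ofReal_sum, Complex.ofReal_re]
  rw [e6, integral_finset_sum _ fun s _ => iP s]
  ring

end Lin

end energy

end Crest.Agent.R330.Fib892

end
end

-- ▼ part R330/Gauss1_151
section

/-!
# The sharp Gaussian Poincaré inequality in dimension one (helper151)

`gs l x = √(l/π) exp (-l x²)` (a probability density).  For `g : ℝ → F` of class `C¹` with compact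
support, `F` a complete real inner product space,
`∫ gs ‖g‖² - ‖∫ gs g‖² ≤ (1/2l) ∫ gs ‖g'‖²` (`poincare1`).
-/

set_option autoImplicit false
set_option linter.unusedSectionVars false

open MeasureTheory Filter Topology Set Real
open scoped InnerProductSpace ENNReal

noncomputable section

namespace Crest.Agent.R330.Gauss151

/-- Gaussian probability density of variance `1/(2l)`. -/
def gs (l x : ℝ) : ℝ := √(l / π) * exp (-l * x ^ 2)

variable {l : ℝ}

theorem gs_pos (hl : 0 < l) (x : ℝ) : 0 < gs l x :=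
  mul_pos (Real.sqrt_pos.2 (div_pos hl pi_pos)) (exp_pos _)

theorem continuous_gs : Continuous (gs l) := by
  unfold gs
  fun_prop


theorem integrable_gs (hl : 0 < l) : Integrable (gs l) :=
  (integrable_exp_neg_mul_sq hl).const_mul _

theorem integral_gs (hl : 0 < l) : ∫ x, gs l x = 1 := by
  unfold gs
  rw [integral_const_mul, integral_gaussian, ← Real.sqrt_mul (div_pos hl pi_pos).le,
    div_mul_div_comm, mul_comm π l, div_self (mul_pos hl pi_pos).ne', Real.sqrt_one]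

theorem integrable_mul_gs (hl : 0 < l) : Integrable fun x => x * gs l x := by
  have h1 := (integrable_mul_exp_neg_mul_sq hl).const_mul (√(l / π))
  refine h1.congr (ae_of_all _ fun x => ?_)
  unfold gs
  ring

theorem hasDerivAt_gs (x : ℝ) : HasDerivAt (gs l) (-(2 * l) * (x * gs l x)) x := by
  unfold gs
  have h1 : HasDerivAt (fun x : ℝ => -l * x ^ 2) (-l * (2 * x)) x := by
    simpa using (hasDerivAt_pow 2 x).const_mul (-l)
  have h2 := (h1.exp).const_mul (√(l / π))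
  refine h2.congr_deriv ?_
  ring

theorem tendsto_gs (hl : 0 < l) : Tendsto (gs l) (cocompact ℝ) (𝓝 0) := by
  unfold gs
  have h1 : Tendsto (fun x : ℝ => l * x ^ 2) (cocompact ℝ) atTop := by
    have h2 : Tendsto (fun x : ℝ => ‖x‖ ^ 2) (cocompact ℝ) atTop :=
      (tendsto_pow_atTop two_ne_zero).comp tendsto_norm_cocompact_atTop
    refine (h2.const_mul_atTop hl).congr fun x => ?_
    rw [Real.norm_eq_abs, sq_abs]
  have h3 : Tendsto (fun x : ℝ => √(l / π) * exp (-(l * x ^ 2))) (cocompact ℝ)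
      (𝓝 (√(l / π) * 0)) := (Real.tendsto_exp_neg_atTop_nhds_zero.comp h1).const_mul _
  rw [mul_zero] at h3
  refine h3.congr fun x => ?_
  rw [neg_mul]

theorem tail_right (hl : 0 < l) (t : ℝ) : ∫ x in Ioi t, x * gs l x = gs l t / (2 * l) := by
  have h1 : ∀ x ∈ Ici t, HasDerivAt (fun x => -(gs l x) / (2 * l)) (x * gs l x) x := by
    intro x _
    refine ((hasDerivAt_gs x).neg.div_const (2 * l)).congr_deriv ?_
    field_simp
  have h2 : Tendsto (fun x => -(gs l x) / (2 * l)) atTop (𝓝 0) := by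
    have h3 : Tendsto (gs l) atTop (𝓝 0) :=
      (tendsto_gs hl).mono_left atTop_le_cocompact
    have h4 := (h3.neg).div_const (2 * l)
    simpa using h4
  have h3 := integral_Ioi_of_hasDerivAt_of_tendsto' h1 (integrable_mul_gs hl).integrableOn h2
  rw [h3]
  ring

theorem tail_left (hl : 0 < l) (t : ℝ) : ∫ x in Iic t, x * gs l x = -(gs l t / (2 * l)) := by
  have h1 : ∀ x ∈ Iic t, HasDerivAt (fun x => -(gs l x) / (2 * l)) (x * gs l x) x := by
    intro x _
    refine ((hasDerivAt_gs x).neg.div_const (2 * l)).congr_deriv ?_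
    field_simp
  have h2 : Tendsto (fun x => -(gs l x) / (2 * l)) atBot (𝓝 0) := by
    have h3 : Tendsto (gs l) atBot (𝓝 0) :=
      (tendsto_gs hl).mono_left atBot_le_cocompact
    have h4 := (h3.neg).div_const (2 * l)
    simpa using h4
  have h3 := integral_Iic_of_hasDerivAt_of_tendsto' h1 (integrable_mul_gs hl).integrableOn h2
  rw [h3]
  ring

/-- The kernel of the double integral. -/
def kf (l t x y : ℝ) : ℝ≥0∞ :=
  (Ioi t).indicator (fun x => (Iic t).indicator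
    (fun y => ENNReal.ofReal (gs l x * gs l y * (x - y))) y) x

theorem kf_integral (hl : 0 < l) (t : ℝ) :
    ∫⁻ x, ∫⁻ y, kf l t x y = ENNReal.ofReal (gs l t / (2 * l)) := by
  set p : ℝ := ∫ x in Ioi t, gs l x with hp
  set n : ℝ := ∫ x in Iic t, gs l x with hn
  have hpn : n + p = 1 := by
    rw [hn, hp, ← integral_gs hl, ← intervalIntegral.integral_Iic_add_Ioi
      (integrable_gs hl).integrableOn (integrable_gs hl).integrableOn]
  have hi1 : IntegrableOn (fun x => x * gs l x) (Ioi t) := (integrable_mul_gs hl).integrableOn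
  have hi2 : IntegrableOn (fun x => x * gs l x) (Iic t) := (integrable_mul_gs hl).integrableOn
  have hg1 : IntegrableOn (gs l) (Ioi t) := (integrable_gs hl).integrableOn
  have hg2 : IntegrableOn (gs l) (Iic t) := (integrable_gs hl).integrableOn
  -- inner integral
  have e1 : ∀ x, t < x → ∫⁻ y, kf l t x y =
      ENNReal.ofReal (gs l x * (x * n + gs l t / (2 * l))) := by
    intro x hx
    have h1 : ∀ y, kf l t x y = (Iic t).indicator
        (fun y => ENNReal.ofReal (gs l x * gs l y * (x - y))) y := fun y =>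
      indicator_of_mem (s := Ioi t) hx _
    simp only [h1]
    rw [lintegral_indicator measurableSet_Iic, ← ofReal_integral_eq_lintegral_ofReal]
    · congr 1
      have h2 : ∀ y, gs l x * gs l y * (x - y) = gs l x * (x * gs l y - y * gs l y) := fun y => by
        ring
      simp only [h2]
      rw [integral_const_mul, integral_sub (hg2.const_mul x) hi2, integral_const_mul,
        tail_left hl, ← hn]
      ring
    · have h3 : Integrable (fun y => gs l x * (x * gs l y - y * gs l y))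
          (volume.restrict (Iic t)) := ((hg2.const_mul x).sub hi2).const_mul _
      refine h3.congr (ae_of_all _ fun y => ?_)
      ring
    · refine (ae_restrict_iff' measurableSet_Iic).2 (ae_of_all _ fun y hy => ?_)
      have : y ≤ t := hy
      exact mul_nonneg (mul_nonneg (gs_pos hl _).le (gs_pos hl _).le) (by linarith)
  have e2 : ∀ x, ∫⁻ y, kf l t x y = (Ioi t).indicator
      (fun x => ENNReal.ofReal (gs l x * (x * n + gs l t / (2 * l)))) x := by
    intro x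
    by_cases hx : x ∈ Ioi t
    · rw [indicator_of_mem hx]
      exact e1 x hx
    · rw [indicator_of_notMem hx]
      have h1 : ∀ y, kf l t x y = 0 := fun y => indicator_of_notMem (s := Ioi t) hx _
      simp only [h1, lintegral_zero]
  simp only [e2]
  have hnn : ∀ x, t < x → 0 ≤ gs l x * (x * n + gs l t / (2 * l)) := by
    intro x hx
    refine mul_nonneg (gs_pos hl _).le ?_
    have h4 : x * n + gs l t / (2 * l) = ∫ y in Iic t, (x - y) * gs l y := by
      have h2 : ∀ y, (x - y) * gs l y = x * gs l y - y * gs l y := fun y => by ring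
      simp only [h2]
      rw [integral_sub (hg2.const_mul x) hi2, integral_const_mul, tail_left hl, ← hn]
      ring
    rw [h4]
    refine setIntegral_nonneg measurableSet_Iic fun y hy => ?_
    have : y ≤ t := hy
    exact mul_nonneg (by linarith) (gs_pos hl _).le
  rw [lintegral_indicator measurableSet_Ioi, ← ofReal_integral_eq_lintegral_ofReal]
  · congr 1
    have h2 : ∀ x, gs l x * (x * n + gs l t / (2 * l)) =
        n * (x * gs l x) + gs l t / (2 * l) * gs l x := fun x => by ring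
    simp only [h2]
    rw [integral_add (hi1.const_mul n) (hg1.const_mul _), integral_const_mul, integral_const_mul,
      tail_right hl, ← hp]
    have : n * (gs l t / (2 * l)) + gs l t / (2 * l) * p = (n + p) * (gs l t / (2 * l)) := by ring
    rw [this, hpn, one_mul]
  · have h3 : Integrable (fun x => n * (x * gs l x) + gs l t / (2 * l) * gs l x)
        (volume.restrict (Ioi t)) := (hi1.const_mul n).add (hg1.const_mul _)
    refine h3.congr (ae_of_all _ fun x => ?_)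
    ring
  · exact (ae_restrict_iff' measurableSet_Ioi).2 (ae_of_all _ fun x hx => hnn x hx)

theorem measurable_kf : Measurable fun q : (ℝ × ℝ) × ℝ => kf l q.1.1 q.1.2 q.2 := by
  have h1 : (fun q : (ℝ × ℝ) × ℝ => kf l q.1.1 q.1.2 q.2) =
      fun q => {q : (ℝ × ℝ) × ℝ | q.1.1 < q.1.2}.indicator ({q : (ℝ × ℝ) × ℝ | q.2 ≤ q.1.1}.indicator
        (fun q => ENNReal.ofReal (gs l q.1.2 * gs l q.2 * (q.1.2 - q.2)))) q := by
    funext q
    unfold kf
    by_cases h : q.1.1 < q.1.2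
    · rw [indicator_of_mem (s := Ioi q.1.1) h,
        indicator_of_mem (s := {q : (ℝ × ℝ) × ℝ | q.1.1 < q.1.2}) h]
      by_cases h' : q.2 ≤ q.1.1
      · rw [indicator_of_mem (s := Iic q.1.1) h',
          indicator_of_mem (s := {q : (ℝ × ℝ) × ℝ | q.2 ≤ q.1.1}) h']
      · rw [indicator_of_notMem (s := Iic q.1.1) h',
          indicator_of_notMem (s := {q : (ℝ × ℝ) × ℝ | q.2 ≤ q.1.1}) h']
    · rw [indicator_of_notMem (s := Ioi q.1.1) h,
        indicator_of_notMem (s := {q : (ℝ × ℝ) × ℝ | q.1.1 < q.1.2}) h]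
  rw [h1]
  have hgs : Measurable (gs l) := continuous_gs.measurable
  refine Measurable.indicator (Measurable.indicator ?_ ?_) ?_
  · exact ENNReal.measurable_ofReal.comp (((hgs.comp measurable_fst.snd).mul
      (hgs.comp measurable_snd)).mul (measurable_fst.snd.sub measurable_snd))
  · exact measurableSet_le measurable_snd measurable_fst.fst
  · exact measurableSet_lt measurable_fst.fst measurable_fst.snd

section vector

variable {F : Type*} [NormedAddCommGroup F] [InnerProductSpace ℝ F] [CompleteSpace F]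

/-- Increments. -/
theorem increment {g : ℝ → F} (hg : ContDiff ℝ 1 g) {x y : ℝ} (hxy : y ≤ x) :
    ‖g x - g y‖ ^ 2 ≤ (x - y) * ∫ t in y..x, ‖deriv g t‖ ^ 2 := by
  have hd : Continuous (deriv g) := hg.continuous_deriv le_rfl
  have h1 : ∫ t in y..x, deriv g t = g x - g y :=
    intervalIntegral.integral_deriv_eq_sub (fun t _ => hg.differentiable one_ne_zero t)
      (hd.intervalIntegrable _ _)
  rcases hxy.eq_or_lt with rfl | hlt
  · simp
  have h2 : ‖g x - g y‖ ≤ ∫ t in y..x, ‖deriv g t‖ := by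
    rw [← h1]
    exact intervalIntegral.norm_integral_le_integral_norm hxy
  have h3 : (∫ t in y..x, ‖deriv g t‖) ^ 2 ≤ (x - y) * ∫ t in y..x, ‖deriv g t‖ ^ 2 := by
    set m : ℝ := (∫ t in y..x, ‖deriv g t‖) / (x - y) with hm
    have hba : 0 < x - y := sub_pos.2 hlt
    have h0 : 0 ≤ ∫ t in y..x, (‖deriv g t‖ - m) ^ 2 :=
      intervalIntegral.integral_nonneg hlt.le fun t _ => sq_nonneg _
    have h1 : ∫ t in y..x, (‖deriv g t‖ - m) ^ 2 =
        (∫ t in y..x, ‖deriv g t‖ ^ 2) - 2 * m * (∫ t in y..x, ‖deriv g t‖) + m ^ 2 * (x - y) := by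
      have e : ∀ t, (‖deriv g t‖ - m) ^ 2 = (‖deriv g t‖ ^ 2 - 2 * m * ‖deriv g t‖) + m ^ 2 := by
        intro t; ring
      simp_rw [e]
      rw [intervalIntegral.integral_add, intervalIntegral.integral_sub,
        intervalIntegral.integral_const_mul, intervalIntegral.integral_const]
      · simp only [smul_eq_mul]; ring
      all_goals apply Continuous.intervalIntegrable; fun_prop
    rw [h1] at h0
    have h2 : m * (x - y) = ∫ t in y..x, ‖deriv g t‖ := by rw [hm]; field_simp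
    have h3 : 0 ≤ (x - y) * ((∫ t in y..x, ‖deriv g t‖ ^ 2) -
        2 * m * (∫ t in y..x, ‖deriv g t‖) + m ^ 2 * (x - y)) := mul_nonneg hba.le h0
    rw [← h2] at h3 ⊢
    nlinarith
  exact (pow_le_pow_left₀ (norm_nonneg _) h2 2).trans h3

/-- The double integral. -/
theorem double_le {g : ℝ → F} (hg : ContDiff ℝ 1 g) (hl : 0 < l) :
    ∫⁻ x, ∫⁻ y, (Iio x).indicator (fun y => ENNReal.ofReal (gs l x * gs l y * ‖g x - g y‖ ^ 2)) y ≤
      ∫⁻ t, ENNReal.ofReal (gs l t / (2 * l)) * ENNReal.ofReal (‖deriv g t‖ ^ 2) := by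
  have hd : Continuous (deriv g) := hg.continuous_deriv le_rfl
  have hmd : Measurable fun t => ENNReal.ofReal (‖deriv g t‖ ^ 2) :=
    ENNReal.measurable_ofReal.comp (hd.norm.pow 2).measurable
  have h1 : ∀ x y, (Iio x).indicator
      (fun y => ENNReal.ofReal (gs l x * gs l y * ‖g x - g y‖ ^ 2)) y ≤
      ∫⁻ t, kf l t x y * ENNReal.ofReal (‖deriv g t‖ ^ 2) := by
    intro x y
    by_cases hy : y ∈ Iio x
    swap
    · rw [indicator_of_notMem hy]
      exact bot_le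
    rw [indicator_of_mem hy]
    have hyx : y < x := hy
    have h2 : ∀ t, kf l t x y * ENNReal.ofReal (‖deriv g t‖ ^ 2) =
        (Ico y x).indicator (fun t => ENNReal.ofReal (gs l x * gs l y * (x - y)) *
          ENNReal.ofReal (‖deriv g t‖ ^ 2)) t := by
      intro t
      unfold kf
      by_cases h : t < x
      · rw [indicator_of_mem (s := Ioi t) h]
        by_cases h' : y ≤ t
        · rw [indicator_of_mem (s := Iic t) h', indicator_of_mem (s := Ico y x) ⟨h', h⟩]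
        · rw [indicator_of_notMem (s := Iic t) h', zero_mul,
            indicator_of_notMem (s := Ico y x) fun h'' => h' h''.1]
      · rw [indicator_of_notMem (s := Ioi t) h, zero_mul,
          indicator_of_notMem (s := Ico y x) fun h'' => h h''.2]
    simp only [h2]
    rw [lintegral_indicator measurableSet_Ico, lintegral_const_mul _ hmd,
      ← ofReal_integral_eq_lintegral_ofReal, ← ENNReal.ofReal_mul]
    · refine ENNReal.ofReal_le_ofReal ?_
      rw [mul_assoc (gs l x * gs l y)]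
      refine mul_le_mul_of_nonneg_left ?_ (mul_nonneg (gs_pos hl _).le (gs_pos hl _).le)
      have h3 := increment hg hyx.le
      rw [intervalIntegral.integral_of_le hyx.le, integral_Ioc_eq_integral_Ioo,
        ← integral_Ico_eq_integral_Ioo] at h3
      exact h3
    · exact mul_nonneg (mul_nonneg (gs_pos hl _).le (gs_pos hl _).le) (by linarith)
    · exact ((hd.norm.pow 2).continuousOn.integrableOn_compact isCompact_Icc).mono_set
        Ico_subset_Icc_self
    · exact ae_of_all _ fun t => sq_nonneg _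
  have hm1 : Measurable fun q : (ℝ × ℝ) × ℝ =>
      kf l q.1.1 q.1.2 q.2 * ENNReal.ofReal (‖deriv g q.1.1‖ ^ 2) :=
    measurable_kf.mul (hmd.comp measurable_fst.fst)
  calc ∫⁻ x, ∫⁻ y, (Iio x).indicator
        (fun y => ENNReal.ofReal (gs l x * gs l y * ‖g x - g y‖ ^ 2)) y
      ≤ ∫⁻ x, ∫⁻ y, ∫⁻ t, kf l t x y * ENNReal.ofReal (‖deriv g t‖ ^ 2) :=
        lintegral_mono fun x => lintegral_mono fun y => h1 x y
    _ = ∫⁻ x, ∫⁻ t, ∫⁻ y, kf l t x y * ENNReal.ofReal (‖deriv g t‖ ^ 2) := by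
        refine lintegral_congr fun x => ?_
        rw [lintegral_lintegral_swap]
        refine Measurable.aemeasurable ?_
        exact hm1.comp ((measurable_snd.prodMk measurable_const).prodMk measurable_fst)
    _ = ∫⁻ t, ∫⁻ x, ∫⁻ y, kf l t x y * ENNReal.ofReal (‖deriv g t‖ ^ 2) := by
        rw [lintegral_lintegral_swap]
        refine Measurable.aemeasurable ?_
        have h3 : Measurable fun q : ℝ × ℝ =>
            ∫⁻ y, kf l q.1 q.2 y * ENNReal.ofReal (‖deriv g q.1‖ ^ 2) := hm1.lintegral_prod_right'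
        exact h3.comp measurable_swap
    _ = ∫⁻ t, ENNReal.ofReal (gs l t / (2 * l)) * ENNReal.ofReal (‖deriv g t‖ ^ 2) := by
        refine lintegral_congr fun t => ?_
        have h4 : ∀ x, ∫⁻ y, kf l t x y * ENNReal.ofReal (‖deriv g t‖ ^ 2) =
            (∫⁻ y, kf l t x y) * ENNReal.ofReal (‖deriv g t‖ ^ 2) := fun x =>
          lintegral_mul_const _ (measurable_kf.comp
            ((measurable_const.prodMk measurable_const).prodMk measurable_id))
        simp only [h4]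
        rw [lintegral_mul_const, kf_integral hl]
        have h5 : Measurable fun q : ℝ × ℝ => ∫⁻ y, kf l q.1 q.2 y :=
          measurable_kf.lintegral_prod_right'
        exact h5.comp (measurable_const.prodMk measurable_id)

theorem sym_double {Φ : ℝ → ℝ → ℝ≥0∞} (hsym : ∀ x y, Φ x y = Φ y x)
    (hΦm : Measurable fun q : ℝ × ℝ => Φ q.1 q.2) :
    ∫⁻ x, ∫⁻ y, Φ x y = 2 * ∫⁻ x, ∫⁻ y, (Iio x).indicator (fun y => Φ x y) y := by
  have m1 : Measurable fun q : ℝ × ℝ => (Iio q.1).indicator (fun y => Φ q.1 y) q.2 := by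
    have h1 : (fun q : ℝ × ℝ => (Iio q.1).indicator (fun y => Φ q.1 y) q.2) =
        {q : ℝ × ℝ | q.2 < q.1}.indicator fun q => Φ q.1 q.2 := by
      funext q
      by_cases h : q.2 < q.1
      · rw [indicator_of_mem (s := Iio q.1) h, indicator_of_mem (s := {q : ℝ × ℝ | q.2 < q.1}) h]
      · rw [indicator_of_notMem (s := Iio q.1) h,
          indicator_of_notMem (s := {q : ℝ × ℝ | q.2 < q.1}) h]
    rw [h1]
    exact hΦm.indicator (measurableSet_lt measurable_snd measurable_fst)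
  have e4 : ∀ x, ∫⁻ y, Φ x y = (∫⁻ y, (Iio x).indicator (fun y => Φ x y) y) +
      ∫⁻ y, (Ioi x).indicator (fun y => Φ x y) y := by
    intro x
    rw [lintegral_indicator measurableSet_Iio, lintegral_indicator measurableSet_Ioi,
      setLIntegral_congr (Ioi_ae_eq_Ici (a := x)), ← compl_Iio]
    exact (lintegral_add_compl _ measurableSet_Iio).symm
  have e5 : ∫⁻ x, ∫⁻ y, (Ioi x).indicator (fun y => Φ x y) y =
      ∫⁻ x, ∫⁻ y, (Iio x).indicator (fun y => Φ x y) y := by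
    have h1 : ∀ x y, (Ioi x).indicator (fun y => Φ x y) y =
        (Iio y).indicator (fun z => Φ y z) x := by
      intro x y
      by_cases h : x < y
      · rw [indicator_of_mem (s := Ioi x) h, indicator_of_mem (s := Iio y) h, hsym]
      · rw [indicator_of_notMem (s := Ioi x) h, indicator_of_notMem (s := Iio y) h]
    simp only [h1]
    rw [lintegral_lintegral_swap]
    exact (m1.comp measurable_swap).aemeasurable
  simp only [e4]
  have m2 : Measurable fun x => ∫⁻ y, (Iio x).indicator (fun y => Φ x y) y :=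
    m1.lintegral_prod_right'
  rw [lintegral_add_left m2, e5, two_mul]

theorem var_lintegral {g : ℝ → F} (hgc : Continuous g) (hc : HasCompactSupport g) (hl : 0 < l) :
    ∫⁻ x, ∫⁻ y, ENNReal.ofReal (gs l x * gs l y * ‖g x - g y‖ ^ 2) =
      ENNReal.ofReal (2 * ((∫ x, gs l x * ‖g x‖ ^ 2) - ‖∫ x, gs l x • g x‖ ^ 2)) := by
  obtain ⟨m, hm⟩ : ∃ m : F, m = ∫ x, gs l x • g x := ⟨_, rfl⟩
  obtain ⟨S, hS⟩ : ∃ S : ℝ, S = ∫ x, gs l x * ‖g x‖ ^ 2 := ⟨_, rfl⟩
  rw [← hm, ← hS]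
  have i1 : Integrable (fun x => gs l x * ‖g x‖ ^ 2) :=
    (continuous_gs.mul (hgc.norm.pow 2)).integrable_of_hasCompactSupport
      (by
        refine hc.mono fun x hx h => hx ?_
        show gs l x * ‖g x‖ ^ 2 = 0
        rw [h]
        simp)
  have i2 : Integrable (fun x => gs l x • g x) :=
    (continuous_gs.smul hgc).integrable_of_hasCompactSupport
      (by
        refine hc.mono fun x hx h => hx ?_
        show gs l x • g x = 0
        rw [h, smul_zero])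
  have i4 : Integrable (gs l) := integrable_gs hl
  -- inner integral
  have e1 : ∀ x y, gs l x * gs l y * ‖g x - g y‖ ^ 2 =
      gs l x * (gs l y * ‖g x‖ ^ 2 - 2 * ⟪g x, gs l y • g y⟫_ℝ + gs l y * ‖g y‖ ^ 2) := by
    intro x y
    rw [norm_sub_sq_real, inner_smul_right]
    ring
  have j1 : ∀ x, Integrable (fun y => gs l y * ‖g x‖ ^ 2) := fun x => i4.mul_const _
  have j2 : ∀ x, Integrable (fun y => 2 * ⟪g x, gs l y • g y⟫_ℝ) := fun x =>
    (i2.const_inner (g x)).const_mul 2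
  have j12 : ∀ x, Integrable (fun y => gs l y * ‖g x‖ ^ 2 - 2 * ⟪g x, gs l y • g y⟫_ℝ) := fun x =>
    (j1 x).sub (j2 x)
  have j3 : ∀ x, Integrable
      (fun y => gs l y * ‖g x‖ ^ 2 - 2 * ⟪g x, gs l y • g y⟫_ℝ + gs l y * ‖g y‖ ^ 2) := fun x =>
    (j12 x).add i1
  have e2 : ∀ x, ∫ y, gs l x * gs l y * ‖g x - g y‖ ^ 2 =
      gs l x * ‖g x‖ ^ 2 - 2 * ⟪m, gs l x • g x⟫_ℝ + gs l x * S := by
    intro x
    simp only [e1]
    rw [integral_const_mul, integral_add (j12 x) i1, integral_sub (j1 x) (j2 x),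
      integral_mul_const, integral_gs hl, integral_const_mul, integral_inner i2, inner_smul_right,
      real_inner_comm, ← hm, ← hS]
    ring
  have hnn : ∀ x y, 0 ≤ gs l x * gs l y * ‖g x - g y‖ ^ 2 := fun x y =>
    mul_nonneg (mul_nonneg (gs_pos hl _).le (gs_pos hl _).le) (sq_nonneg _)
  have h1 : ∀ x, ∫⁻ y, ENNReal.ofReal (gs l x * gs l y * ‖g x - g y‖ ^ 2) =
      ENNReal.ofReal (∫ y, gs l x * gs l y * ‖g x - g y‖ ^ 2) := fun x =>
    (ofReal_integral_eq_lintegral_ofReal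
      (((j3 x).const_mul (gs l x)).congr (ae_of_all _ fun y => (e1 x y).symm))
      (ae_of_all _ fun y => hnn x y)).symm
  have h2 : Integrable (fun x => gs l x * ‖g x‖ ^ 2 - 2 * ⟪m, gs l x • g x⟫_ℝ) :=
    i1.sub ((i2.const_inner m).const_mul 2)
  have h3 : Integrable (fun x => gs l x * ‖g x‖ ^ 2 - 2 * ⟪m, gs l x • g x⟫_ℝ + gs l x * S) :=
    h2.add (i4.mul_const _)
  simp only [h1]
  rw [← ofReal_integral_eq_lintegral_ofReal]
  · congr 1
    simp only [e2]
    rw [integral_add h2 (i4.mul_const _),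
      integral_sub i1 ((i2.const_inner m).const_mul 2), integral_mul_const, integral_gs hl,
      integral_const_mul, integral_inner i2, ← hm, ← hS, real_inner_self_eq_norm_sq]
    ring
  · exact h3.congr (ae_of_all _ fun x => (e2 x).symm)
  · exact ae_of_all _ fun x => integral_nonneg fun y => hnn x y

/-- **Gaussian Poincaré inequality** (sharp, dimension one). -/
theorem poincare1 {g : ℝ → F} (hg : ContDiff ℝ 1 g) (hc : HasCompactSupport g) (hl : 0 < l) :
    2 * l * ((∫ x, gs l x * ‖g x‖ ^ 2) - ‖∫ x, gs l x • g x‖ ^ 2) ≤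
      ∫ x, gs l x * ‖deriv g x‖ ^ 2 := by
  have hd : Continuous (deriv g) := hg.continuous_deriv le_rfl
  have hgc : Continuous g := hg.continuous
  have i3 : Integrable (fun x => gs l x * ‖deriv g x‖ ^ 2) :=
    (continuous_gs.mul (hd.norm.pow 2)).integrable_of_hasCompactSupport
      (by
        refine hc.deriv.mono fun x hx h => hx ?_
        show gs l x * ‖deriv g x‖ ^ 2 = 0
        rw [h]
        simp)
  have e3 := var_lintegral hgc hc hl
  have hΦm : Measurable fun q : ℝ × ℝ =>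
      ENNReal.ofReal (gs l q.1 * gs l q.2 * ‖g q.1 - g q.2‖ ^ 2) := by
    refine ENNReal.measurable_ofReal.comp (Continuous.measurable ?_)
    exact ((continuous_gs.comp continuous_fst).mul (continuous_gs.comp continuous_snd)).mul
      (((hgc.comp continuous_fst).sub (hgc.comp continuous_snd)).norm.pow 2)
  have e6 := sym_double (Φ := fun x y => ENNReal.ofReal (gs l x * gs l y * ‖g x - g y‖ ^ 2))
    (fun x y => by rw [norm_sub_rev, mul_comm (gs l x)]) hΦm
  have h7 := double_le hg hl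
  have h8 : ∫⁻ t, ENNReal.ofReal (gs l t / (2 * l)) * ENNReal.ofReal (‖deriv g t‖ ^ 2) =
      ENNReal.ofReal ((∫ x, gs l x * ‖deriv g x‖ ^ 2) / (2 * l)) := by
    rw [← integral_div, ofReal_integral_eq_lintegral_ofReal (i3.div_const _)
      (ae_of_all _ fun x => div_nonneg (mul_nonneg (gs_pos hl _).le (sq_nonneg _)) (by positivity))]
    refine lintegral_congr fun t => ?_
    rw [← ENNReal.ofReal_mul (div_nonneg (gs_pos hl _).le (by positivity))]
    congr 1
    ring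
  obtain ⟨V, hV⟩ : ∃ V : ℝ, V = (∫ x, gs l x * ‖g x‖ ^ 2) - ‖∫ x, gs l x • g x‖ ^ 2 := ⟨_, rfl⟩
  obtain ⟨D, hD⟩ : ∃ D : ℝ, D = ∫ x, gs l x * ‖deriv g x‖ ^ 2 := ⟨_, rfl⟩
  rw [← hV] at e3 ⊢
  rw [← hD] at h8 ⊢
  have h9 : ENNReal.ofReal (2 * V) ≤ ENNReal.ofReal (2 * (D / (2 * l))) := by
    rw [← e3, e6, ENNReal.ofReal_mul (by norm_num : (0 : ℝ) ≤ 2), ← h8, ENNReal.ofReal_ofNat]
    exact mul_le_mul_right h7 _
  have hI : 0 ≤ D := by
    rw [hD]
    exact integral_nonneg fun x => mul_nonneg (gs_pos hl _).le (sq_nonneg _)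
  have h10 := (ENNReal.ofReal_le_ofReal_iff (by positivity)).1 h9
  have h11 : V ≤ D / (2 * l) := by linarith
  rw [le_div_iff₀ (by positivity)] at h11
  linarith

end vector

/-! ### The ground state form -/

/-- Square root of the density. -/
def hs (l x : ℝ) : ℝ := √√(l / π) * exp (-(l / 2) * x ^ 2)

theorem hs_pos (hl : 0 < l) (x : ℝ) : 0 < hs l x :=
  mul_pos (Real.sqrt_pos.2 (Real.sqrt_pos.2 (div_pos hl pi_pos))) (exp_pos _)

theorem hs_sq (x : ℝ) : hs l x ^ 2 = gs l x := by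
  unfold hs gs
  rw [mul_pow, Real.sq_sqrt (Real.sqrt_nonneg _), ← Real.exp_nat_mul]
  congr 2
  push_cast
  ring

theorem contDiff_hs {n : WithTop ℕ∞} : ContDiff ℝ n (hs l) := by
  unfold hs
  fun_prop

theorem continuous_hs : Continuous (hs l) := contDiff_hs (n := 0) |>.continuous

theorem hasDerivAt_hs (x : ℝ) : HasDerivAt (hs l) (-(l * x) * hs l x) x := by
  unfold hs
  have h1 : HasDerivAt (fun x : ℝ => -(l / 2) * x ^ 2) (-(l / 2) * (2 * x)) x := by
    simpa using (hasDerivAt_pow 2 x).const_mul (-(l / 2))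
  have h2 := (h1.exp).const_mul (√√(l / π))
  refine h2.congr_deriv ?_
  ring

theorem integrable_hs_sq (hl : 0 < l) : Integrable fun x => hs l x ^ 2 := by
  simp only [hs_sq]
  exact integrable_gs hl

theorem integral_hs_sq (hl : 0 < l) : ∫ x, hs l x ^ 2 = 1 := by
  simp only [hs_sq]
  exact integral_gs hl

variable {F : Type*} [NormedAddCommGroup F] [InnerProductSpace ℝ F] [CompleteSpace F]

/-- **Spectral gap of the oscillator**, dimension one. -/
theorem gap1 {f : ℝ → F} (hf : ContDiff ℝ 1 f) (hc : HasCompactSupport f) (hl : 0 < l) :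
    2 * l * ((∫ x, ‖f x‖ ^ 2) - ‖∫ x, hs l x • f x‖ ^ 2) ≤
      ∫ x, ‖fderiv ℝ f x 1 + (l * x) • f x‖ ^ 2 := by
  have hne : ∀ x, hs l x ≠ 0 := fun x => (hs_pos hl x).ne'
  set g : ℝ → F := fun x => (hs l x)⁻¹ • f x with hg
  have hgd : ContDiff ℝ 1 g := (contDiff_hs.inv hne).smul hf
  have hgc : HasCompactSupport g := by
    refine hc.mono fun x hx h => hx ?_
    simp only [hg, h, smul_zero]
  have hfg : ∀ x, f x = hs l x • g x := fun x => by
    simp only [hg]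
    rw [smul_smul, mul_inv_cancel₀ (hne x), one_smul]
  clear_value g
  have h1 := poincare1 hgd hgc hl
  have e1 : ∀ x, gs l x * ‖g x‖ ^ 2 = ‖f x‖ ^ 2 := fun x => by
    rw [hfg x, norm_smul, mul_pow, Real.norm_eq_abs, sq_abs, hs_sq]
  have e2 : ∀ x, gs l x • g x = hs l x • f x := fun x => by
    rw [hfg x, smul_smul, ← pow_two, hs_sq]
  have e3 : ∀ x, gs l x * ‖deriv g x‖ ^ 2 = ‖fderiv ℝ f x 1 + (l * x) • f x‖ ^ 2 := fun x => by
    have hgx : HasDerivAt g (deriv g x) x := (hgd.differentiable one_ne_zero x).hasDerivAt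
    have h2 : HasDerivAt f (hs l x • deriv g x + (-(l * x) * hs l x) • g x) x := by
      have h3 := (hasDerivAt_hs (l := l) x).smul hgx
      refine h3.congr_of_eventuallyEq (Eventually.of_forall fun y => ?_)
      exact hfg y
    have h4 : fderiv ℝ f x 1 = hs l x • deriv g x + (-(l * x) * hs l x) • g x := by
      rw [fderiv_apply_one_eq_deriv, h2.deriv]
    have h5 : fderiv ℝ f x 1 + (l * x) • f x = hs l x • deriv g x := by
      rw [h4, hfg x, smul_smul, add_assoc, ← add_smul]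
      have : -(l * x) * hs l x + l * x * hs l x = 0 := by ring
      rw [this, zero_smul, add_zero]
    rw [h5, norm_smul, mul_pow, Real.norm_eq_abs, sq_abs, hs_sq]
  simp only [e1, e2, e3] at h1
  exact h1

end Crest.Agent.R330.Gauss151

end
end

-- ▼ part R330/Poinc_151
section

/-!
# Tensorisation of spectral gaps (helper151)

`Poinc F μ v a H C`: for all `C¹_c` functions `f : E → F`
`C (∫ ‖f‖² - ‖∫ H f‖²) ≤ ∫ ∑ k, ‖∂_{v k} f + a k f‖²`.

* `Poinc.prod` : products.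
* `Poinc.equiv` : transport along measure preserving linear equivalences.
-/

set_option autoImplicit false
set_option linter.unusedSectionVars false

open MeasureTheory Filter Topology Set Real
open scoped InnerProductSpace ENNReal

noncomputable section

namespace Crest.Agent.R330.Poinc151

section one

variable {E F : Type*} [NormedAddCommGroup E] [MeasurableSpace E] [BorelSpace E] {μ : Measure E}
  [IsFiniteMeasureOnCompacts μ] [NormedAddCommGroup F] [InnerProductSpace ℝ F] [CompleteSpace F]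

theorem integrable_cc {G : Type*} [NormedAddCommGroup G] {u : E → F} (hc : HasCompactSupport u)
    {g : E → G} (hg : Continuous g) (h0 : ∀ x, u x = 0 → g x = 0) : Integrable g μ :=
  hg.integrable_of_hasCompactSupport (hc.mono fun x hx h => hx (h0 x h))

/-- Distance to the line of `h`. -/
theorem dist_line {h : E → ℝ} {u : E → F} (hh : Continuous h) (hu : Continuous u)
    (hc : HasCompactSupport u) (h2 : Integrable (fun x => h x ^ 2) μ)
    (h1 : ∫ x, h x ^ 2 ∂μ = 1) :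
    ∫ x, ‖u x - h x • ∫ y, h y • u y ∂μ‖ ^ 2 ∂μ =
      (∫ x, ‖u x‖ ^ 2 ∂μ) - ‖∫ y, h y • u y ∂μ‖ ^ 2 := by
  obtain ⟨m, hm⟩ : ∃ m : F, m = ∫ x, h x • u x ∂μ := ⟨_, rfl⟩
  rw [← hm]
  have i1 : Integrable (fun x => ‖u x‖ ^ 2) μ :=
    integrable_cc hc (hu.norm.pow 2) fun x hx => by rw [hx]; simp
  have i2 : Integrable (fun x => h x • u x) μ :=
    integrable_cc hc (hh.smul hu) fun x hx => by rw [hx, smul_zero]
  have e1 : ∀ x, ‖u x - h x • m‖ ^ 2 = ‖u x‖ ^ 2 - 2 * ⟪m, h x • u x⟫_ℝ + h x ^ 2 * ‖m‖ ^ 2 := by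
    intro x
    rw [norm_sub_sq_real, inner_smul_right, inner_smul_right, norm_smul, mul_pow,
      Real.norm_eq_abs, sq_abs, real_inner_comm]
  have i12 : Integrable (fun x => ‖u x‖ ^ 2 - 2 * ⟪m, h x • u x⟫_ℝ) μ :=
    i1.sub ((i2.const_inner m).const_mul 2)
  simp only [e1]
  rw [integral_add i12 (h2.mul_const _), integral_sub i1 ((i2.const_inner m).const_mul 2),
    integral_mul_const, h1, integral_const_mul, integral_inner i2, ← hm,
    real_inner_self_eq_norm_sq]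
  ring

/-- Cauchy–Schwarz. -/
theorem norm_integral_smul_le {h : E → ℝ} {u : E → F}
    (h2 : Integrable (fun x => h x ^ 2) μ) (hu : Integrable (fun x => ‖u x‖ ^ 2) μ)
    (h3 : Integrable (fun x => h x • u x) μ)
    (h1 : ∫ x, h x ^ 2 ∂μ = 1) :
    ‖∫ x, h x • u x ∂μ‖ ^ 2 ≤ ∫ x, ‖u x‖ ^ 2 ∂μ := by
  obtain ⟨m, hm⟩ : ∃ m : F, m = ∫ x, h x • u x ∂μ := ⟨_, rfl⟩
  rw [← hm]
  have e1 : ∀ x, ‖u x - h x • m‖ ^ 2 = ‖u x‖ ^ 2 - 2 * ⟪m, h x • u x⟫_ℝ + h x ^ 2 * ‖m‖ ^ 2 := by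
    intro x
    rw [norm_sub_sq_real, inner_smul_right, inner_smul_right, norm_smul, mul_pow,
      Real.norm_eq_abs, sq_abs, real_inner_comm]
  have i12 : Integrable (fun x => ‖u x‖ ^ 2 - 2 * ⟪m, h x • u x⟫_ℝ) μ :=
    hu.sub ((h3.const_inner m).const_mul 2)
  have h0 : 0 ≤ ∫ x, ‖u x - h x • m‖ ^ 2 ∂μ := integral_nonneg fun x => sq_nonneg _
  simp only [e1] at h0
  rw [integral_add i12 (h2.mul_const _), integral_sub hu ((h3.const_inner m).const_mul 2),
    integral_mul_const, h1, integral_const_mul, integral_inner h3, ← hm,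
    real_inner_self_eq_norm_sq] at h0
  linarith

end one

section two

variable {E₁ E₂ F : Type*} [NormedAddCommGroup E₁] [NormedSpace ℝ E₁] [FiniteDimensional ℝ E₁]
  [MeasurableSpace E₁] [BorelSpace E₁]
  [NormedAddCommGroup E₂] [NormedSpace ℝ E₂] [FiniteDimensional ℝ E₂]
  [MeasurableSpace E₂] [BorelSpace E₂]
  {μ₁ : Measure E₁} {μ₂ : Measure E₂} [IsFiniteMeasureOnCompacts μ₁] [IsFiniteMeasureOnCompacts μ₂]
  [SigmaFinite μ₁] [SigmaFinite μ₂]
  [NormedAddCommGroup F] [InnerProductSpace ℝ F] [CompleteSpace F]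

/-- Slices of compactly supported functions. -/
theorem slice_left {f : E₁ × E₂ → F} (hc : HasCompactSupport f) (y : E₂) :
    HasCompactSupport fun x => f (x, y) := by
  refine HasCompactSupport.of_support_subset_isCompact (hc.image continuous_fst)
    fun x hx => ⟨(x, y), subset_tsupport f hx, rfl⟩

theorem slice_right {f : E₁ × E₂ → F} (hc : HasCompactSupport f) (x : E₁) :
    HasCompactSupport fun y => f (x, y) := by
  refine HasCompactSupport.of_support_subset_isCompact (hc.image continuous_snd)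
    fun y hy => ⟨(x, y), subset_tsupport f hy, rfl⟩

/-- Partial averages are continuous with compact support. -/
theorem continuous_avg {f : E₁ × E₂ → F} (hf : Continuous f) (hc : HasCompactSupport f) {H : E₁ → ℝ}
    (hH : Continuous H) : Continuous fun y => ∫ x, H x • f (x, y) ∂μ₁ := by
  have : ProperSpace E₂ := FiniteDimensional.proper ℝ E₂
  have hK : IsCompact (Prod.fst '' tsupport f) := hc.image continuous_fst
  have h1 : (fun y => ∫ x, H x • f (x, y) ∂μ₁) =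
      fun y => ∫ x in Prod.fst '' tsupport f, H x • f (x, y) ∂μ₁ := by
    funext y
    refine (setIntegral_eq_integral_of_forall_compl_eq_zero fun x hx => ?_).symm
    have : f (x, y) = 0 := by
      by_contra h
      exact hx ⟨(x, y), subset_tsupport f h, rfl⟩
    rw [this, smul_zero]
  rw [h1]
  have h2 : Continuous (Function.uncurry fun (y : E₂) (x : E₁) => H x • f (x, y)) := by
    have h3 : (Function.uncurry fun (y : E₂) (x : E₁) => H x • f (x, y)) =
        fun q : E₂ × E₁ => H q.2 • f (q.2, q.1) := by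
      funext q
      rfl
    rw [h3]
    exact (hH.comp continuous_snd).smul (hf.comp (continuous_snd.prodMk continuous_fst))
  exact continuous_parametric_integral_of_continuous h2 hK

theorem compact_avg {f : E₁ × E₂ → F} (hc : HasCompactSupport f) {H : E₁ → ℝ} :
    HasCompactSupport fun y => ∫ x, H x • f (x, y) ∂μ₁ := by
  refine HasCompactSupport.of_support_subset_isCompact (hc.image continuous_snd) fun y hy => ?_
  by_contra h
  refine hy ?_
  have h1 : ∀ x, f (x, y) = 0 := fun x => by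
    by_contra h2
    exact h ⟨(x, y), subset_tsupport f h2, rfl⟩
  simp only [h1, smul_zero, integral_zero]

/-- **Tensorisation** of the variance. -/
theorem tens {f : E₁ × E₂ → F} (hf : Continuous f) (hc : HasCompactSupport f)
    {H₁ : E₁ → ℝ} {H₂ : E₂ → ℝ} (hH₁ : Continuous H₁) (hH₂ : Continuous H₂)
    (i₁ : Integrable (fun x => H₁ x ^ 2) μ₁) (i₂ : Integrable (fun x => H₂ x ^ 2) μ₂)
    (n₁ : ∫ x, H₁ x ^ 2 ∂μ₁ = 1) (n₂ : ∫ x, H₂ x ^ 2 ∂μ₂ = 1) :
    (∫ p, ‖f p‖ ^ 2 ∂(μ₁.prod μ₂)) - ‖∫ p, (H₁ p.1 * H₂ p.2) • f p ∂(μ₁.prod μ₂)‖ ^ 2 ≤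
      (∫ y, ((∫ x, ‖f (x, y)‖ ^ 2 ∂μ₁) - ‖∫ x, H₁ x • f (x, y) ∂μ₁‖ ^ 2) ∂μ₂) +
      ∫ x, ((∫ y, ‖f (x, y)‖ ^ 2 ∂μ₂) - ‖∫ y, H₂ y • f (x, y) ∂μ₂‖ ^ 2) ∂μ₁ := by
  -- the swapped function
  have hfs : Continuous fun q : E₂ × E₁ => f (q.2, q.1) :=
    hf.comp (continuous_snd.prodMk continuous_fst)
  have hcs : HasCompactSupport fun q : E₂ × E₁ => f (q.2, q.1) := by
    refine HasCompactSupport.of_support_subset_isCompact
      (hc.image (continuous_snd.prodMk continuous_fst)) fun q hq =>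
        ⟨(q.2, q.1), subset_tsupport f hq, rfl⟩
  have hA1 : Continuous fun y => ∫ x, H₁ x • f (x, y) ∂μ₁ := continuous_avg hf hc hH₁
  have hB1 : HasCompactSupport fun y => ∫ x, H₁ x • f (x, y) ∂μ₁ := compact_avg hc
  have hA2 : Continuous fun x => ∫ y, H₂ y • f (x, y) ∂μ₂ := continuous_avg hfs hcs hH₂
  have hB2 : HasCompactSupport fun x => ∫ y, H₂ y • f (x, y) ∂μ₂ := compact_avg hcs
  obtain ⟨F1, hF1⟩ : ∃ F1 : E₂ → F, F1 = fun y => ∫ x, H₁ x • f (x, y) ∂μ₁ := ⟨_, rfl⟩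
  obtain ⟨F2, hF2⟩ : ∃ F2 : E₁ → F, F2 = fun x => ∫ y, H₂ y • f (x, y) ∂μ₂ := ⟨_, rfl⟩
  rw [← hF1] at hA1 hB1
  rw [← hF2] at hA2 hB2
  have e1 : ∀ y, ∫ x, H₁ x • f (x, y) ∂μ₁ = F1 y := fun y => by rw [hF1]
  have e2 : ∀ x, ∫ y, H₂ y • f (x, y) ∂μ₂ = F2 x := fun x => by rw [hF2]
  simp only [e1, e2]
  -- integrability
  have hsl : ∀ y, Continuous fun x => f (x, y) := fun y => hf.comp (continuous_id.prodMk continuous_const)
  have hsr : ∀ x, Continuous fun y => f (x, y) := fun x => hf.comp (continuous_const.prodMk continuous_id)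
  have j0 : Integrable (fun p => ‖f p‖ ^ 2) (μ₁.prod μ₂) :=
    integrable_cc hc (hf.norm.pow 2) fun x hx => by rw [hx]; simp
  have hHH : Continuous fun p : E₁ × E₂ => H₁ p.1 * H₂ p.2 :=
    (hH₁.comp continuous_fst).mul (hH₂.comp continuous_snd)
  have j1 : Integrable (fun p => (H₁ p.1 * H₂ p.2) • f p) (μ₁.prod μ₂) :=
    integrable_cc hc (hHH.smul hf) fun x hx => by rw [hx, smul_zero]
  have j2 : Integrable (fun y => ‖F1 y‖ ^ 2) μ₂ :=
    integrable_cc hB1 (hA1.norm.pow 2) fun x hx => by rw [hx]; simp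
  have j3 : Integrable (fun x => ‖F2 x‖ ^ 2) μ₁ :=
    integrable_cc hB2 (hA2.norm.pow 2) fun x hx => by rw [hx]; simp
  have j4 : Integrable (fun y => ∫ x, ‖f (x, y)‖ ^ 2 ∂μ₁) μ₂ := j0.integral_prod_right
  have j5 : Integrable (fun x => ∫ y, ‖f (x, y)‖ ^ 2 ∂μ₂) μ₁ := j0.integral_prod_left
  -- the total mean
  have hm1 : ∫ p, (H₁ p.1 * H₂ p.2) • f p ∂(μ₁.prod μ₂) = ∫ y, H₂ y • F1 y ∂μ₂ := by
    rw [integral_prod_symm _ j1]
    refine integral_congr_ae (ae_of_all _ fun y => ?_)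
    simp only [← e1, ← integral_smul, smul_smul]
    refine integral_congr_ae (ae_of_all _ fun x => ?_)
    show (H₁ x * H₂ y) • f (x, y) = (H₂ y * H₁ x) • f (x, y)
    rw [mul_comm]
  have hm2 : ∫ p, (H₁ p.1 * H₂ p.2) • f p ∂(μ₁.prod μ₂) = ∫ x, H₁ x • F2 x ∂μ₁ := by
    rw [integral_prod _ j1]
    refine integral_congr_ae (ae_of_all _ fun x => ?_)
    simp only [← e2, ← integral_smul, smul_smul]
  obtain ⟨m, hm⟩ : ∃ m : F, m = ∫ p, (H₁ p.1 * H₂ p.2) • f p ∂(μ₁.prod μ₂) := ⟨_, rfl⟩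
  rw [← hm] at hm1 hm2 ⊢
  -- distances
  have d1 := dist_line hH₂ hA1 hB1 i₂ n₂
  rw [← hm1] at d1
  have d2 : ∀ x, ∫ y, ‖f (x, y) - H₂ y • F2 x‖ ^ 2 ∂μ₂ =
      (∫ y, ‖f (x, y)‖ ^ 2 ∂μ₂) - ‖F2 x‖ ^ 2 := by
    intro x
    have h := dist_line hH₂ (hsr x) (slice_right hc x) i₂ n₂
    rw [e2 x] at h
    exact h
  have k1 : ∀ y, Continuous fun x => f (x, y) - H₂ y • F2 x := fun y =>
    (hsl y).sub (continuous_const.smul hA2)
  have k2 : ∀ y, HasCompactSupport fun x => f (x, y) - H₂ y • F2 x := fun y =>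
    (slice_left hc y).sub (hB2.mono fun x hx h => hx (by
      show H₂ y • F2 x = 0
      rw [h, smul_zero]))
  have d3 : ∀ y, ‖F1 y - H₂ y • m‖ ^ 2 ≤ ∫ x, ‖f (x, y) - H₂ y • F2 x‖ ^ 2 ∂μ₁ := by
    intro y
    have h1 : F1 y - H₂ y • m = ∫ x, H₁ x • (f (x, y) - H₂ y • F2 x) ∂μ₁ := by
      simp only [smul_sub]
      rw [integral_sub, e1, hm2, ← integral_smul]
      · congr 1
        refine integral_congr_ae (ae_of_all _ fun x => ?_)
        show H₂ y • H₁ x • F2 x = H₁ x • H₂ y • F2 x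
        rw [smul_smul, smul_smul, mul_comm]
      · exact integrable_cc (slice_left hc y) (hH₁.smul (hsl y)) fun x hx => by rw [hx, smul_zero]
      · exact integrable_cc hB2 (hH₁.smul (continuous_const.smul hA2)) fun x hx => by
          rw [hx, smul_zero, smul_zero]
    rw [h1]
    refine norm_integral_smul_le i₁ ?_ ?_ n₁
    · exact integrable_cc (k2 y) ((k1 y).norm.pow 2) fun x hx => by rw [hx]; simp
    · exact integrable_cc (k2 y) (hH₁.smul (k1 y)) fun x hx => by rw [hx, smul_zero]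
  -- integrability on the product
  have hcross : Continuous fun p : E₁ × E₂ => 2 * ⟪f p, H₂ p.2 • F2 p.1⟫_ℝ :=
    continuous_const.mul (hf.inner ((hH₂.comp continuous_snd).smul (hA2.comp continuous_fst)))
  have j6 : Integrable (fun p : E₁ × E₂ => 2 * ⟪f p, H₂ p.2 • F2 p.1⟫_ℝ) (μ₁.prod μ₂) :=
    integrable_cc hc hcross fun p hp => by rw [hp, inner_zero_left, mul_zero]
  have j7 : Integrable (fun p : E₁ × E₂ => ‖F2 p.1‖ ^ 2 * H₂ p.2 ^ 2) (μ₁.prod μ₂) :=
    j3.mul_prod i₂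
  have j8 : Integrable (fun p : E₁ × E₂ => ‖f p - H₂ p.2 • F2 p.1‖ ^ 2) (μ₁.prod μ₂) := by
    refine ((j0.sub j6).add j7).congr (ae_of_all _ fun p => ?_)
    show ‖f p‖ ^ 2 - 2 * ⟪f p, H₂ p.2 • F2 p.1⟫_ℝ + ‖F2 p.1‖ ^ 2 * H₂ p.2 ^ 2 =
      ‖f p - H₂ p.2 • F2 p.1‖ ^ 2
    rw [norm_sub_sq_real, norm_smul, mul_pow, Real.norm_eq_abs, sq_abs]
    ring
  have s1 : ∫ y, ‖F1 y - H₂ y • m‖ ^ 2 ∂μ₂ ≤
      ∫ x, ((∫ y, ‖f (x, y)‖ ^ 2 ∂μ₂) - ‖F2 x‖ ^ 2) ∂μ₁ := by
    calc ∫ y, ‖F1 y - H₂ y • m‖ ^ 2 ∂μ₂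
        ≤ ∫ y, ∫ x, ‖f (x, y) - H₂ y • F2 x‖ ^ 2 ∂μ₁ ∂μ₂ := by
          refine integral_mono_of_nonneg (ae_of_all _ fun y => sq_nonneg _)
            j8.integral_prod_right (ae_of_all _ d3)
      _ = ∫ x, ∫ y, ‖f (x, y) - H₂ y • F2 x‖ ^ 2 ∂μ₂ ∂μ₁ :=
          (integral_prod_symm _ j8).symm.trans (integral_prod _ j8)
      _ = _ := by simp only [d2]
  rw [d1] at s1
  rw [integral_sub j4 j2, integral_prod_symm _ j0]
  linarith

/-- Spectral gap `C` above the line of `H` for the operators `∂_{v k} + a k`. -/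
def Poinc (F : Type*) [NormedAddCommGroup F] [InnerProductSpace ℝ F]
    {E : Type*} [NormedAddCommGroup E] [NormedSpace ℝ E] [MeasurableSpace E] (μ : Measure E)
    {κ : Type*} [Fintype κ] (v : κ → E) (a : κ → E → ℝ) (H : E → ℝ) (C : ℝ) : Prop :=
  ∀ f : E → F, ContDiff ℝ 1 f → HasCompactSupport f →
    C * ((∫ x, ‖f x‖ ^ 2 ∂μ) - ‖∫ x, H x • f x ∂μ‖ ^ 2) ≤
      ∫ x, ∑ k, ‖fderiv ℝ f x (v k) + a k x • f x‖ ^ 2 ∂μ

variable {κ₁ κ₂ : Type*} [Fintype κ₁] [Fintype κ₂] {v₁ : κ₁ → E₁} {v₂ : κ₂ → E₂}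
  {a₁ : κ₁ → E₁ → ℝ} {a₂ : κ₂ → E₂ → ℝ} {H₁ : E₁ → ℝ} {H₂ : E₂ → ℝ} {C : ℝ}

/-- **Products.** -/
theorem Poinc.prod (hC : 0 ≤ C) (h₁ : Poinc F μ₁ v₁ a₁ H₁ C) (h₂ : Poinc F μ₂ v₂ a₂ H₂ C)
    (ha₁ : ∀ k, Continuous (a₁ k)) (ha₂ : ∀ k, Continuous (a₂ k))
    (hH₁ : Continuous H₁) (hH₂ : Continuous H₂)
    (i₁ : Integrable (fun x => H₁ x ^ 2) μ₁) (i₂ : Integrable (fun x => H₂ x ^ 2) μ₂)
    (n₁ : ∫ x, H₁ x ^ 2 ∂μ₁ = 1) (n₂ : ∫ x, H₂ x ^ 2 ∂μ₂ = 1) :
    Poinc F (μ₁.prod μ₂) (Sum.elim (fun k => (v₁ k, (0 : E₂))) fun k => ((0 : E₁), v₂ k))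
      (Sum.elim (fun k p => a₁ k p.1) fun k p => a₂ k p.2) (fun p => H₁ p.1 * H₂ p.2) C := by
  intro f hf hc
  have hfc : Continuous f := hf.continuous
  have hfd : ∀ v, Continuous fun p => fderiv ℝ f p v := fun v =>
    (hf.continuous_fderiv one_ne_zero).clm_apply continuous_const
  have h0 : ∀ p, p ∉ tsupport f → f p = 0 ∧ fderiv ℝ f p = 0 := fun p hp =>
    ⟨image_eq_zero_of_notMem_tsupport hp, by
      by_contra h'
      exact hp (support_fderiv_subset ℝ h')⟩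
  -- derivatives of slices
  have dl : ∀ x y v, fderiv ℝ (fun x => f (x, y)) x v = fderiv ℝ f (x, y) (v, 0) := by
    intro x y v
    have h1 : HasFDerivAt f (fderiv ℝ f (x, y)) (x, y) :=
      (hf.differentiable one_ne_zero (x, y)).hasFDerivAt
    have h2 := HasFDerivAt.comp (𝕜 := ℝ) (g := f) (f := fun x' : E₁ => (x', y)) x h1
      (hasFDerivAt_prodMk_left (𝕜 := ℝ) x y)
    have h3 : fderiv ℝ (fun x => f (x, y)) x =
        (fderiv ℝ f (x, y)).comp (ContinuousLinearMap.inl ℝ E₁ E₂) := h2.fderiv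
    rw [h3]
    simp
  have dr : ∀ x y v, fderiv ℝ (fun y => f (x, y)) y v = fderiv ℝ f (x, y) (0, v) := by
    intro x y v
    have h1 : HasFDerivAt f (fderiv ℝ f (x, y)) (x, y) :=
      (hf.differentiable one_ne_zero (x, y)).hasFDerivAt
    have h2 := HasFDerivAt.comp (𝕜 := ℝ) (g := f) (f := fun y' : E₂ => (x, y')) y h1
      (hasFDerivAt_prodMk_right (𝕜 := ℝ) x y)
    have h3 : fderiv ℝ (fun y => f (x, y)) y =
        (fderiv ℝ f (x, y)).comp (ContinuousLinearMap.inr ℝ E₁ E₂) := h2.fderiv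
    rw [h3]
    simp
  have cl : ∀ y, ContDiff ℝ 1 fun x => f (x, y) := fun y =>
    hf.comp (contDiff_id.prodMk contDiff_const)
  have cr : ∀ x, ContDiff ℝ 1 fun y => f (x, y) := fun x =>
    hf.comp (contDiff_const.prodMk contDiff_id)
  -- the two energies
  have c1 : Continuous fun p : E₁ × E₂ => ∑ k, ‖fderiv ℝ f p (v₁ k, 0) + a₁ k p.1 • f p‖ ^ 2 :=
    continuous_finsetSum _ fun k _ =>
      ((hfd _).add (((ha₁ k).comp continuous_fst).smul hfc)).norm.pow 2
  have c2 : Continuous fun p : E₁ × E₂ => ∑ k, ‖fderiv ℝ f p (0, v₂ k) + a₂ k p.2 • f p‖ ^ 2 :=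
    continuous_finsetSum _ fun k _ =>
      ((hfd _).add (((ha₂ k).comp continuous_snd).smul hfc)).norm.pow 2
  have g1 : Integrable (fun p : E₁ × E₂ =>
      ∑ k, ‖fderiv ℝ f p (v₁ k, 0) + a₁ k p.1 • f p‖ ^ 2) (μ₁.prod μ₂) := by
    refine c1.integrable_of_hasCompactSupport
      (HasCompactSupport.of_support_subset_isCompact hc fun p hp => ?_)
    by_contra h
    refine hp ?_
    show ∑ k, ‖fderiv ℝ f p (v₁ k, 0) + a₁ k p.1 • f p‖ ^ 2 = 0
    rw [(h0 p h).1, (h0 p h).2]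
    simp
  have g2 : Integrable (fun p : E₁ × E₂ =>
      ∑ k, ‖fderiv ℝ f p (0, v₂ k) + a₂ k p.2 • f p‖ ^ 2) (μ₁.prod μ₂) := by
    refine c2.integrable_of_hasCompactSupport
      (HasCompactSupport.of_support_subset_isCompact hc fun p hp => ?_)
    by_contra h
    refine hp ?_
    show ∑ k, ‖fderiv ℝ f p (0, v₂ k) + a₂ k p.2 • f p‖ ^ 2 = 0
    rw [(h0 p h).1, (h0 p h).2]
    simp
  have e0 : ∀ p : E₁ × E₂, ∑ k : κ₁ ⊕ κ₂, ‖fderiv ℝ f p
      (Sum.elim (fun k => (v₁ k, (0 : E₂))) (fun k => ((0 : E₁), v₂ k)) k) +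
      (Sum.elim (fun k (p : E₁ × E₂) => a₁ k p.1) (fun k p => a₂ k p.2) k) p • f p‖ ^ 2 =
      (∑ k, ‖fderiv ℝ f p (v₁ k, 0) + a₁ k p.1 • f p‖ ^ 2) +
        ∑ k, ‖fderiv ℝ f p (0, v₂ k) + a₂ k p.2 • f p‖ ^ 2 := by
    intro p
    rw [Fintype.sum_sum_type]
    simp only [Sum.elim_inl, Sum.elim_inr]
  simp only [e0]
  rw [integral_add g1 g2]
  -- integrability of slices
  have hc1 : HasCompactSupport fun y => ∫ x, H₁ x • f (x, y) ∂μ₁ := compact_avg hc
  have ht1 : Continuous fun y => ∫ x, H₁ x • f (x, y) ∂μ₁ := continuous_avg hfc hc hH₁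
  have hfs : Continuous fun q : E₂ × E₁ => f (q.2, q.1) :=
    hfc.comp (continuous_snd.prodMk continuous_fst)
  have hcs : HasCompactSupport fun q : E₂ × E₁ => f (q.2, q.1) := by
    refine HasCompactSupport.of_support_subset_isCompact
      (hc.image (continuous_snd.prodMk continuous_fst)) fun q hq =>
        ⟨(q.2, q.1), subset_tsupport f hq, rfl⟩
  have hc2 : HasCompactSupport fun x => ∫ y, H₂ y • f (x, y) ∂μ₂ := compact_avg hcs
  have ht2 : Continuous fun x => ∫ y, H₂ y • f (x, y) ∂μ₂ := continuous_avg hfs hcs hH₂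
  have j0 : Integrable (fun p => ‖f p‖ ^ 2) (μ₁.prod μ₂) :=
    integrable_cc hc (hfc.norm.pow 2) fun x hx => by rw [hx]; simp
  have j1 : Integrable (fun y => (∫ x, ‖f (x, y)‖ ^ 2 ∂μ₁) - ‖∫ x, H₁ x • f (x, y) ∂μ₁‖ ^ 2) μ₂ :=
    j0.integral_prod_right.sub (integrable_cc hc1 (ht1.norm.pow 2) fun x hx => by rw [hx]; simp)
  have j2 : Integrable (fun x => (∫ y, ‖f (x, y)‖ ^ 2 ∂μ₂) - ‖∫ y, H₂ y • f (x, y) ∂μ₂‖ ^ 2) μ₁ :=
    j0.integral_prod_left.sub (integrable_cc hc2 (ht2.norm.pow 2) fun x hx => by rw [hx]; simp)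
  have t := tens (μ₁ := μ₁) (μ₂ := μ₂) hfc hc hH₁ hH₂ i₁ i₂ n₁ n₂
  have b1 : C * ∫ y, ((∫ x, ‖f (x, y)‖ ^ 2 ∂μ₁) - ‖∫ x, H₁ x • f (x, y) ∂μ₁‖ ^ 2) ∂μ₂ ≤
      ∫ p : E₁ × E₂, ∑ k, ‖fderiv ℝ f p (v₁ k, 0) + a₁ k p.1 • f p‖ ^ 2 ∂(μ₁.prod μ₂) := by
    rw [integral_prod_symm _ g1, ← integral_const_mul]
    refine integral_mono (j1.const_mul C) g1.integral_prod_right fun y => ?_
    have h := h₁ (fun x => f (x, y)) (cl y) (slice_left hc y)
    simp only [dl] at h
    exact h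
  have b2 : C * ∫ x, ((∫ y, ‖f (x, y)‖ ^ 2 ∂μ₂) - ‖∫ y, H₂ y • f (x, y) ∂μ₂‖ ^ 2) ∂μ₁ ≤
      ∫ p : E₁ × E₂, ∑ k, ‖fderiv ℝ f p (0, v₂ k) + a₂ k p.2 • f p‖ ^ 2 ∂(μ₁.prod μ₂) := by
    rw [integral_prod _ g2, ← integral_const_mul]
    refine integral_mono (j2.const_mul C) g2.integral_prod_left fun x => ?_
    have h := h₂ (fun y => f (x, y)) (cr x) (slice_right hc x)
    simp only [dr] at h
    exact h
  have t2 := mul_le_mul_of_nonneg_left t hC
  rw [mul_add] at t2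
  linarith

/-- Transport along a measure preserving linear equivalence. -/
theorem Poinc.equiv (e : E₁ ≃L[ℝ] E₂) (he : MeasurePreserving e μ₁ μ₂)
    (h : Poinc F μ₂ v₂ a₂ H₂ C) :
    Poinc F μ₁ (fun k => e.symm (v₂ k)) (fun k x => a₂ k (e x)) (fun x => H₂ (e x)) C := by
  intro f hf hc
  have hemb : MeasurableEmbedding e := e.toHomeomorph.measurableEmbedding
  have h1 := h (fun y => f (e.symm y)) (hf.comp e.symm.contDiff)
    (hc.comp_homeomorph e.symm.toHomeomorph)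
  have e1 : ∫ y, ‖f (e.symm y)‖ ^ 2 ∂μ₂ = ∫ x, ‖f x‖ ^ 2 ∂μ₁ := by
    rw [← he.integral_comp hemb]
    simp
  have e2 : ∫ y, H₂ y • f (e.symm y) ∂μ₂ = ∫ x, H₂ (e x) • f x ∂μ₁ := by
    rw [← he.integral_comp hemb]
    simp
  have e3 : ∀ x, ∀ v, fderiv ℝ (fun y => f (e.symm y)) (e x) v = fderiv ℝ f x (e.symm v) := by
    intro x v
    have h2 : HasFDerivAt f (fderiv ℝ f x) (e.symm (e x)) := by
      rw [e.symm_apply_apply]
      exact (hf.differentiable one_ne_zero x).hasFDerivAt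
    have h3 := h2.comp (e x) e.symm.hasFDerivAt
    have h4 : fderiv ℝ (fun y => f (e.symm y)) (e x) =
        (fderiv ℝ f x).comp (e.symm : E₂ →L[ℝ] E₁) := h3.fderiv
    rw [h4]
    simp
  have e4 : ∫ y, ∑ k, ‖fderiv ℝ (fun y => f (e.symm y)) y (v₂ k) + a₂ k y • f (e.symm y)‖ ^ 2 ∂μ₂ =
      ∫ x, ∑ k, ‖fderiv ℝ f x (e.symm (v₂ k)) + a₂ k (e x) • f x‖ ^ 2 ∂μ₁ := by
    rw [← he.integral_comp hemb]
    simp only [e3, e.symm_apply_apply]
  rw [e1, e2, e4] at h1
  exact h1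

/-- Reindexing. -/
theorem Poinc.reindex (σ : κ₁ ≃ κ₂) (h : Poinc F μ₂ v₂ a₂ H₂ C) :
    Poinc F μ₂ (fun k => v₂ (σ k)) (fun k => a₂ (σ k)) H₂ C := by
  intro f hf hc
  have h1 := h f hf hc
  have e : ∀ x, ∑ k, ‖fderiv ℝ f x (v₂ k) + a₂ k x • f x‖ ^ 2 =
      ∑ k, ‖fderiv ℝ f x (v₂ (σ k)) + a₂ (σ k) x • f x‖ ^ 2 := fun x =>
    (Equiv.sum_comp σ fun k => ‖fderiv ℝ f x (v₂ k) + a₂ k x • f x‖ ^ 2).symm
  simp only [e] at h1
  exact h1

end two

end Crest.Agent.R330.Poinc151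

end
end

-- ▼ part R330/Osc_151
section

/-!
# The harmonic oscillator in `n` dimensions, vector valued (helper151)

* `pi_gap` : spectral gap of `∂_i + λ_i x_i` on `Fin n → ℝ`, ground state `∏ hs (λ_i) (x_i)`.
* `gap_onb` : `C (∫ ‖f‖² - ‖∫ h f‖²) ≤ ∫ ∑ ‖∂_i f + λ_i ⟪b_i, x - x₀⟫ f‖²` for an orthonormal basis `b`,
  `0 ≤ C ≤ 2 λ_i`, `h = gsE b λ x₀` (`gsE_eq`, `contDiff_gsE`, `hasFDerivAt_gsE`, `normSq_gsE`, `dist_gsE`).
* `lin_identity`, `osc_identity` : completing the square.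
* `osc_gap` : `(∑ λ) ∫ ‖f‖² + C (∫ ‖f‖² - ‖∫ h f‖²) ≤ ∫ ∑ ‖∂_i f‖² + ∫ (∑ λ_i² y_i²) ‖f‖²`.
* `gsOp`, `gap_op`, `op_identity` : the same for a positive symmetric operator `A`,
  `h = Z exp (-⟪A (x - x₀), x - x₀⟫ / 2)`, any orthonormal basis.
-/

set_option autoImplicit false
set_option linter.unusedSectionVars false

open MeasureTheory Filter Topology Set Real
open scoped InnerProductSpace ENNReal

noncomputable section

namespace Crest.Agent.R330.Osc151

open Gauss151 Poinc151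

/-- `Fin (n+1) → ℝ` as a product. -/
def consL (n : ℕ) : (Fin (n + 1) → ℝ) ≃ₗ[ℝ] ℝ × (Fin n → ℝ) where
  toFun x := (x 0, fun j => x j.succ)
  invFun p := Fin.cons p.1 p.2
  map_add' _ _ := rfl
  map_smul' _ _ := rfl
  left_inv x := by
    funext j
    refine Fin.cases ?_ (fun i => ?_) j
    · rfl
    · rfl
  right_inv p := by
    ext
    · rfl
    · rfl

def consE (n : ℕ) : (Fin (n + 1) → ℝ) ≃L[ℝ] ℝ × (Fin n → ℝ) := (consL n).toContinuousLinearEquiv

theorem consE_apply (n : ℕ) (x : Fin (n + 1) → ℝ) : consE n x = (x 0, fun j => x j.succ) := rfl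

theorem consE_symm_apply (n : ℕ) (p : ℝ × (Fin n → ℝ)) : (consE n).symm p = Fin.cons p.1 p.2 := rfl

theorem consE_symm_one (n : ℕ) :
    (consE n).symm ((1 : ℝ), (0 : Fin n → ℝ)) = Pi.single 0 1 := by
  rw [consE_symm_apply]
  funext j
  refine Fin.cases ?_ (fun i => ?_) j
  · simp
  · simp

theorem consE_symm_single (n : ℕ) (k : Fin n) :
    (consE n).symm ((0 : ℝ), (Pi.single k 1 : Fin n → ℝ)) = Pi.single k.succ 1 := by
  rw [consE_symm_apply]
  funext j
  refine Fin.cases ?_ (fun i => ?_) j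
  · simp
  · simp [Pi.single_apply, Fin.succ_inj]

theorem measurePreserving_consE (n : ℕ) :
    MeasurePreserving (consE n) (volume : Measure (Fin (n + 1) → ℝ))
      ((volume : Measure ℝ).prod (volume : Measure (Fin n → ℝ))) := by
  have h := volume_preserving_piFinSuccAbove (fun _ : Fin (n + 1) => ℝ) 0
  have h2 : (MeasurableEquiv.piFinSuccAbove (fun _ : Fin (n + 1) => ℝ) 0 :
      (Fin (n + 1) → ℝ) → ℝ × (Fin n → ℝ)) = consE n := by
    funext x
    rfl
  rw [h2] at h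
  exact h

/-- The ground state. -/
def gst {ι : Type*} [Fintype ι] (lam : ι → ℝ) (x : ι → ℝ) : ℝ := ∏ i, hs (lam i) (x i)

theorem continuous_gst {ι : Type*} [Fintype ι] (lam : ι → ℝ) : Continuous (gst lam) :=
  continuous_finsetProd _ fun i _ => continuous_hs.comp (continuous_apply i)

theorem integrable_gst_sq {ι : Type*} [Fintype ι] {lam : ι → ℝ} (hl : ∀ i, 0 < lam i) :
    Integrable (fun x : ι → ℝ => gst lam x ^ 2) := by
  have h1 : ∀ x : ι → ℝ, gst lam x ^ 2 = ∏ i, hs (lam i) (x i) ^ 2 := fun x =>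
    (Finset.prod_pow _ _ _).symm
  simp only [h1]
  exact Integrable.fintype_prod fun i => integrable_hs_sq (hl i)

theorem integral_gst_sq {ι : Type*} [Fintype ι] {lam : ι → ℝ} (hl : ∀ i, 0 < lam i) :
    ∫ x : ι → ℝ, gst lam x ^ 2 = 1 := by
  have h1 : ∀ x : ι → ℝ, gst lam x ^ 2 = ∏ i, hs (lam i) (x i) ^ 2 := fun x =>
    (Finset.prod_pow _ _ _).symm
  simp only [h1]
  rw [integral_fintype_prod_volume_eq_prod (fun i (y : ℝ) => hs (lam i) y ^ 2)]
  exact Finset.prod_eq_one fun i _ => integral_hs_sq (hl i)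

variable {F : Type*} [NormedAddCommGroup F] [InnerProductSpace ℝ F] [CompleteSpace F]

/-- **Spectral gap** on `Fin n → ℝ`. -/
theorem pi_gap {C : ℝ} (hC : 0 ≤ C) : ∀ (n : ℕ) (lam : Fin n → ℝ), (∀ i, 0 < lam i) →
    (∀ i, C ≤ 2 * lam i) →
    Poinc F (volume : Measure (Fin n → ℝ)) (fun i : Fin n => (Pi.single i 1 : Fin n → ℝ))
      (fun i x => lam i * x i) (gst lam) C := by
  intro n
  induction n with
  | zero =>
    intro lam _ _ f _ _
    have h1 : ∀ x : Fin 0 → ℝ, gst lam x = 1 := fun x => by simp [gst]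
    have h2 : (volume : Measure (Fin 0 → ℝ)) = Measure.dirac (fun i => i.elim0) := by
      rw [volume_pi]
      exact Measure.pi_of_empty _ _
    simp [h1, h2]
  | succ n ih =>
    intro lam hl hl2
    have h1 : Poinc F (volume : Measure ℝ) (fun _ : Unit => (1 : ℝ)) (fun _ x => lam 0 * x)
        (hs (lam 0)) C := by
      intro f hf hc
      have h2 := gap1 hf hc (hl 0)
      have h3 : 0 ≤ (∫ x, ‖f x‖ ^ 2) - ‖∫ x, hs (lam 0) x • f x‖ ^ 2 := by
        rw [← dist_line continuous_hs hf.continuous hc (integrable_hs_sq (hl 0))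
          (integral_hs_sq (hl 0))]
        exact integral_nonneg fun x => sq_nonneg _
      have h4 := mul_le_mul_of_nonneg_right (hl2 0) h3
      simpa using h4.trans h2
    have h2 := ih (fun j => lam j.succ) (fun j => hl _) fun j => hl2 _
    have h3 := Poinc.prod hC h1 h2 (fun _ => by fun_prop) (fun _ => by fun_prop) continuous_hs
      (continuous_gst _) (integrable_hs_sq (hl 0)) (integrable_gst_sq fun j => hl _)
      (integral_hs_sq (hl 0)) (integral_gst_sq fun j => hl _)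
    have h4 := (h3.equiv (consE n) (measurePreserving_consE n))
    intro f hf hc
    have h6 := h4 f hf hc
    have e1 : ∀ x : Fin (n + 1) → ℝ, hs (lam 0) (consE n x).1 *
        gst (fun j => lam j.succ) (consE n x).2 = gst lam x := by
      intro x
      unfold gst
      rw [Fin.prod_univ_succ]
      rfl
    have e2 : ∀ x : Fin (n + 1) → ℝ, ∑ k : Unit ⊕ Fin n, ‖fderiv ℝ f x ((consE n).symm
        (Sum.elim (fun _ : Unit => ((1 : ℝ), (0 : Fin n → ℝ)))
          (fun k => ((0 : ℝ), (Pi.single k 1 : Fin n → ℝ))) k)) +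
        (Sum.elim (fun _ (p : ℝ × (Fin n → ℝ)) => lam 0 * p.1)
          (fun k p => lam k.succ * p.2 k) k) (consE n x) • f x‖ ^ 2 =
        ∑ i, ‖fderiv ℝ f x (Pi.single i 1) + (lam i * x i) • f x‖ ^ 2 := by
      intro x
      rw [Fintype.sum_sum_type, Fin.sum_univ_succ]
      simp only [Sum.elim_inl, Sum.elim_inr, consE_symm_one, consE_symm_single, consE_apply,
        Finset.univ_unique, Finset.sum_singleton]
    rw [integral_congr_ae (ae_of_all _ e2)] at h6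
    simp only [e1] at h6
    exact h6

/-! ### Inner product spaces -/

section inner

variable {E : Type*} [NormedAddCommGroup E] [InnerProductSpace ℝ E] [FiniteDimensional ℝ E]
  [MeasurableSpace E] [BorelSpace E] {ι : Type*} [Fintype ι]

/-- Coordinates. -/
def crd {n : ℕ} (b : OrthonormalBasis (Fin n) ℝ E) : E ≃L[ℝ] (Fin n → ℝ) :=
  b.repr.toContinuousLinearEquiv.trans (EuclideanSpace.equiv (Fin n) ℝ)

theorem crd_apply {n : ℕ} (b : OrthonormalBasis (Fin n) ℝ E) (x : E) (i : Fin n) :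
    crd b x i = ⟪b i, x⟫_ℝ := by
  show (b.repr x) i = _
  exact b.repr_apply_apply x i

theorem crd_symm_single {n : ℕ} (b : OrthonormalBasis (Fin n) ℝ E) (i : Fin n) :
    (crd b).symm (Pi.single i 1) = b i := by
  rw [ContinuousLinearEquiv.symm_apply_eq]
  funext j
  rw [crd_apply, orthonormal_iff_ite.1 b.orthonormal j i, Pi.single_apply]

theorem measurePreserving_crd {n : ℕ} (b : OrthonormalBasis (Fin n) ℝ E) :
    MeasurePreserving (crd b) (volume : Measure E) (volume : Measure (Fin n → ℝ)) :=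
  (PiLp.volume_preserving_ofLp (Fin n)).comp b.measurePreserving_repr

/-- The ground state `∏ (λ_i/π)^{1/4} exp (-λ_i ⟪b_i, x - x₀⟫² / 2)`. -/
def gsE (b : OrthonormalBasis ι ℝ E) (lam : ι → ℝ) (x₀ x : E) : ℝ :=
  ∏ i, hs (lam i) ⟪b i, x - x₀⟫_ℝ



/-- Exponential form. -/
theorem gsE_eq (b : OrthonormalBasis ι ℝ E) (lam : ι → ℝ) (x₀ x : E) :
    gsE b lam x₀ x = (∏ i, √√(lam i / π)) * exp (-(∑ i, lam i * ⟪b i, x - x₀⟫_ℝ ^ 2) / 2) := by
  unfold gsE hs
  rw [Finset.prod_mul_distrib, ← Real.exp_sum]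
  congr 2
  rw [neg_div, Finset.sum_div, ← Finset.sum_neg_distrib]
  exact Finset.sum_congr rfl fun i _ => by ring


theorem gap_fin {n : ℕ} {C : ℝ} (hC : 0 ≤ C) (b : OrthonormalBasis (Fin n) ℝ E) {lam : Fin n → ℝ}
    (hl : ∀ i, 0 < lam i) (h2 : ∀ i, C ≤ 2 * lam i) :
    Poinc F (volume : Measure E) (fun i : Fin n => b i) (fun i x => lam i * ⟪b i, x⟫_ℝ)
      (fun x => ∏ i, hs (lam i) ⟪b i, x⟫_ℝ) C := by
  have h := (pi_gap (F := F) hC n lam hl h2).equiv (crd b) (measurePreserving_crd b)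
  simp only [crd_symm_single, crd_apply, gst] at h
  exact h

theorem normSq_fin {n : ℕ} (b : OrthonormalBasis (Fin n) ℝ E) {lam : Fin n → ℝ}
    (hl : ∀ i, 0 < lam i) :
    Integrable (fun x : E => (∏ i, hs (lam i) ⟪b i, x⟫_ℝ) ^ 2) ∧
    ∫ x : E, (∏ i, hs (lam i) ⟪b i, x⟫_ℝ) ^ 2 = 1 := by
  have hemb : MeasurableEmbedding (crd b) := (crd b).toHomeomorph.measurableEmbedding
  have h1 := ((measurePreserving_crd b).integrable_comp_emb hemb).2 (integrable_gst_sq hl)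
  have h2 := (measurePreserving_crd b).integral_comp hemb (fun y => gst lam y ^ 2)
  rw [integral_gst_sq hl] at h2
  have e : ∀ x, gst lam (crd b x) ^ 2 = (∏ i, hs (lam i) ⟪b i, x⟫_ℝ) ^ 2 := fun x => by
    simp only [gst, crd_apply]
  constructor
  · exact h1.congr (ae_of_all _ e)
  · rw [← h2]
    exact integral_congr_ae (ae_of_all _ fun x => (e x).symm)

/-- Translations. -/
theorem translate {κ : Type*} [Fintype κ] {v : κ → E} {a : κ → E → ℝ} {H : E → ℝ} {C : ℝ}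
    (h : Poinc F (volume : Measure E) v a H C) (x₀ : E) :
    Poinc F (volume : Measure E) v (fun k x => a k (x - x₀)) (fun x => H (x - x₀)) C := by
  intro f hf hc
  have h1 := h (fun y => f (y + x₀)) (hf.comp (contDiff_id.add contDiff_const))
    (hc.comp_homeomorph (Homeomorph.addRight x₀))
  have e1 : ∀ x v, fderiv ℝ (fun y => f (y + x₀)) x v = fderiv ℝ f (x + x₀) v := by
    intro x v
    rw [fderiv_comp_add_right]
  simp only [e1] at h1
  have e2 := integral_sub_right_eq_self (μ := (volume : Measure E))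
    (fun x => ‖f (x + x₀)‖ ^ 2) x₀
  have e3 := integral_sub_right_eq_self (μ := (volume : Measure E))
    (fun x => H x • f (x + x₀)) x₀
  have e4 := integral_sub_right_eq_self (μ := (volume : Measure E))
    (fun x => ∑ k, ‖fderiv ℝ f (x + x₀) (v k) + a k x • f (x + x₀)‖ ^ 2) x₀
  simp only [sub_add_cancel] at e2 e3 e4
  rw [← e2, ← e3, ← e4] at h1
  exact h1

/-- **Spectral gap of the oscillator** along an orthonormal basis, centre `x₀`. -/
theorem gap_onb {C : ℝ} (hC : 0 ≤ C) (b : OrthonormalBasis ι ℝ E) {lam : ι → ℝ}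
    (hl : ∀ i, 0 < lam i) (h2 : ∀ i, C ≤ 2 * lam i) (x₀ : E) :
    Poinc F (volume : Measure E) (fun i : ι => b i) (fun i x => lam i * ⟪b i, x - x₀⟫_ℝ)
      (gsE b lam x₀) C := by
  set σ : ι ≃ Fin (Fintype.card ι) := Fintype.equivFin ι
  have h := gap_fin (F := F) hC (b.reindex σ) (lam := fun i => lam (σ.symm i)) (fun i => hl _)
    fun i => h2 _
  have h3 := translate h x₀
  have e1 : (fun x : E => ∏ i, hs (lam (σ.symm i)) ⟪b.reindex σ i, x - x₀⟫_ℝ) =
      gsE b lam x₀ := by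
    funext x
    unfold gsE
    rw [← Equiv.prod_comp σ]
    simp
  rw [e1] at h3
  have h4 := h3.reindex σ
  simp only [OrthonormalBasis.reindex_apply, Equiv.symm_apply_apply] at h4
  exact h4

theorem normSq_gsE (b : OrthonormalBasis ι ℝ E) {lam : ι → ℝ} (hl : ∀ i, 0 < lam i) (x₀ : E) :
    Integrable (fun x : E => gsE b lam x₀ x ^ 2) ∧ ∫ x : E, gsE b lam x₀ x ^ 2 = 1 := by
  set σ : ι ≃ Fin (Fintype.card ι) := Fintype.equivFin ι
  have h := normSq_fin (b.reindex σ) (lam := fun i => lam (σ.symm i)) (fun i => hl _)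
  have e1 : ∀ x : E, ∏ i, hs (lam (σ.symm i)) ⟪b.reindex σ i, x - x₀⟫_ℝ = gsE b lam x₀ x := by
    intro x
    unfold gsE
    rw [← Equiv.prod_comp σ]
    simp
  constructor
  · have h1 := h.1.comp_sub_right x₀
    simp only [e1] at h1
    exact h1
  · have h1 := integral_sub_right_eq_self (μ := (volume : Measure E))
      (fun x => (∏ i, hs (lam (σ.symm i)) ⟪b.reindex σ i, x⟫_ℝ) ^ 2) x₀
    simp only [e1] at h1
    rw [h1]
    exact h.2

/-! ### Identities -/

section ident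

variable {μ : Measure E} [μ.IsAddHaarMeasure] {κ : Type*} [Fintype κ] {f : E → F}

/-- General first order linear fields: `∫ ∑ ‖∂_k f + (L_k (x - x₀)) f‖²`. -/
theorem lin_identity (hf : ContDiff ℝ 1 f) (hc : HasCompactSupport f) (v : κ → E)
    (L : κ → E →L[ℝ] ℝ) (x₀ : E) :
    ∫ x, ∑ k, ‖fderiv ℝ f x (v k) + (L k (x - x₀)) • f x‖ ^ 2 ∂μ =
      (∫ x, ∑ k, ‖fderiv ℝ f x (v k)‖ ^ 2 ∂μ) +
      (∫ x, (∑ k, L k (x - x₀) ^ 2) * ‖f x‖ ^ 2 ∂μ) -
      (∑ k, L k (v k)) * ∫ x, ‖f x‖ ^ 2 ∂μ := by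
  have hX : ∀ k, ContDiff ℝ 1 fun x => L k (x - x₀) := fun k =>
    (L k).contDiff.comp (contDiff_id.sub contDiff_const)
  have h := Hardy151.expand (μ := μ) hf hc (v := v) (X := fun k x => L k (x - x₀)) (w := fun _ => 1)
    (fun k x _ => (hX k).contDiffAt) (fun x _ => contDiffAt_const)
  simp only [one_mul] at h
  rw [h]
  have e1 : ∀ x k, fderiv ℝ (fun y => L k (y - x₀)) x (v k) = L k (v k) := by
    intro x k
    have h1 : HasFDerivAt (fun y => L k (y - x₀)) (L k) x := by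
      have h2 := (L k).hasFDerivAt.comp x ((hasFDerivAt_id x).sub_const x₀)
      exact h2
    rw [h1.fderiv]
  simp only [e1]
  have hfc : Continuous f := hf.continuous
  have hs : ∀ x, f x = 0 → ‖f x‖ ^ 2 = 0 := fun x hx => by rw [hx]; simp
  have i1 : Integrable (fun x => (∑ k, L k (v k)) * ‖f x‖ ^ 2) μ :=
    integrable_cc hc (continuous_const.mul (hfc.norm.pow 2)) fun x hx => by rw [hs x hx, mul_zero]
  have i2 : Integrable (fun x => (∑ k, L k (x - x₀) ^ 2) * ‖f x‖ ^ 2) μ :=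
    integrable_cc hc ((continuous_finsetSum _ fun k _ => ((hX k).continuous).pow 2).mul
      (hfc.norm.pow 2)) fun x hx => by rw [hs x hx, mul_zero]
  have e2 : ∀ x, (∑ k, L k (v k) - ∑ k, L k (x - x₀) ^ 2) * ‖f x‖ ^ 2 =
      (∑ k, L k (v k)) * ‖f x‖ ^ 2 - (∑ k, L k (x - x₀) ^ 2) * ‖f x‖ ^ 2 := fun x => by ring
  simp only [e2]
  rw [integral_sub i1 i2, integral_const_mul]
  ring


end ident

section gaps

variable {f : E → F}



omit [FiniteDimensional ℝ E] [MeasurableSpace E] [BorelSpace E] [CompleteSpace F] in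
/-- The Hilbert–Schmidt norm does not depend on the orthonormal basis. -/
theorem hs_indep {κ : Type*} [Fintype κ] (b : OrthonormalBasis ι ℝ E)
    (w : OrthonormalBasis κ ℝ E) (L : E →ₗ[ℝ] F) : ∑ i, ‖L (b i)‖ ^ 2 = ∑ k, ‖L (w k)‖ ^ 2 := by
  have h1 : ∀ i, L (b i) = ∑ k, ⟪w k, b i⟫_ℝ • L (w k) := fun i => by
    conv_lhs => rw [← w.sum_repr' (b i)]
    rw [map_sum]
    exact Finset.sum_congr rfl fun k _ => by rw [map_smul]
  have h2 : ∀ i, ‖L (b i)‖ ^ 2 = ∑ k, ∑ j, (⟪w k, b i⟫_ℝ * ⟪w j, b i⟫_ℝ) * ⟪L (w k), L (w j)⟫_ℝ := by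
    intro i
    rw [← real_inner_self_eq_norm_sq, h1 i, sum_inner]
    refine Finset.sum_congr rfl fun k _ => ?_
    rw [inner_sum]
    refine Finset.sum_congr rfl fun j _ => ?_
    rw [inner_smul_left, inner_smul_right]
    simp
    ring
  simp only [h2]
  rw [Finset.sum_comm]
  refine Finset.sum_congr rfl fun k _ => ?_
  rw [Finset.sum_comm]
  have h3 : ∀ j, ∑ i, ⟪w k, b i⟫_ℝ * ⟪w j, b i⟫_ℝ * ⟪L (w k), L (w j)⟫_ℝ =
      ⟪w k, w j⟫_ℝ * ⟪L (w k), L (w j)⟫_ℝ := by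
    intro j
    rw [← Finset.sum_mul]
    congr 1
    have h4 := b.sum_inner_mul_inner (w k) (w j)
    rw [← h4]
    exact Finset.sum_congr rfl fun i _ => by rw [real_inner_comm (b i) (w j)]
  simp only [h3]
  classical
  rw [Finset.sum_eq_single k]
  · rw [real_inner_self_eq_norm_sq, w.orthonormal.1 k, real_inner_self_eq_norm_sq]
    ring
  · intro j _ hj
    rw [w.orthonormal.2 (Ne.symm hj), zero_mul]
  · intro h
    exact absurd (Finset.mem_univ k) h

/-! ### Oscillators given by a positive operator -/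

variable {A : E →ₗ[ℝ] E} (hA : A.IsSymmetric)

/-- Ground state `Z exp (-⟪A (x - x₀), x - x₀⟫ / 2)`. -/
def gsOp (x₀ x : E) : ℝ := gsE (hA.eigenvectorBasis rfl) (hA.eigenvalues rfl) x₀ x

/-- Its normalisation. -/
def zOp : ℝ := ∏ i, √√(hA.eigenvalues rfl i / π)

omit [MeasurableSpace E] [BorelSpace E] in
theorem eig_apply (i) : A (hA.eigenvectorBasis rfl i) =
    (hA.eigenvalues rfl i) • hA.eigenvectorBasis rfl i := hA.apply_eigenvectorBasis rfl i

omit [MeasurableSpace E] [BorelSpace E] in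
theorem quad_eq (x : E) : ∑ i, hA.eigenvalues rfl i * ⟪hA.eigenvectorBasis rfl i, x⟫_ℝ ^ 2 =
    ⟪A x, x⟫_ℝ := by
  have h1 := (hA.eigenvectorBasis rfl).sum_inner_mul_inner (A x) x
  rw [← h1]
  refine Finset.sum_congr rfl fun i _ => ?_
  rw [hA x, eig_apply, inner_smul_right, real_inner_comm]
  ring

theorem gsOp_eq (x₀ x : E) : gsOp hA x₀ x = zOp hA * exp (-⟪A (x - x₀), x - x₀⟫_ℝ / 2) := by
  unfold gsOp zOp
  rw [gsE_eq, quad_eq]

omit [MeasurableSpace E] [BorelSpace E] in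
theorem eig_ge {c : ℝ} (h : ∀ x, c * ‖x‖ ^ 2 ≤ ⟪A x, x⟫_ℝ) (i) : c ≤ hA.eigenvalues rfl i := by
  have h1 := h (hA.eigenvectorBasis rfl i)
  rw [(hA.eigenvectorBasis rfl).orthonormal.1 i, eig_apply, inner_smul_left,
    real_inner_self_eq_norm_sq, (hA.eigenvectorBasis rfl).orthonormal.1 i] at h1
  simpa using h1

omit [MeasurableSpace E] [BorelSpace E] in
theorem zOp_pos {c : ℝ} (hc0 : 0 < c) (h : ∀ x, c * ‖x‖ ^ 2 ≤ ⟪A x, x⟫_ℝ) : 0 < zOp hA :=
  Finset.prod_pos fun i _ => Real.sqrt_pos.2 (Real.sqrt_pos.2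
    (div_pos (hc0.trans_le (eig_ge hA h i)) pi_pos))

theorem normSq_gsOp {c : ℝ} (hc0 : 0 < c) (h : ∀ x, c * ‖x‖ ^ 2 ≤ ⟪A x, x⟫_ℝ) (x₀ : E) :
    Integrable (fun x : E => gsOp hA x₀ x ^ 2) ∧ ∫ x : E, gsOp hA x₀ x ^ 2 = 1 :=
  normSq_gsE _ (fun i => hc0.trans_le (eig_ge hA h i)) x₀



/-- **Spectral gap**, operator form, any orthonormal basis `w`. -/
theorem gap_op {κ : Type*} [Fintype κ] (w : OrthonormalBasis κ ℝ E) {c : ℝ} (hc0 : 0 < c)
    (h : ∀ x, c * ‖x‖ ^ 2 ≤ ⟪A x, x⟫_ℝ) (x₀ : E) :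
    Poinc F (volume : Measure E) (fun k => w k) (fun k x => ⟪A (x - x₀), w k⟫_ℝ)
      (gsOp hA x₀) (2 * c) := by
  intro f hf hc
  have h1 := gap_onb (F := F) (C := 2 * c) (by positivity) (hA.eigenvectorBasis rfl)
    (fun i => hc0.trans_le (eig_ge hA h i))
    (fun i => mul_le_mul_of_nonneg_left (eig_ge hA h i) (by norm_num)) x₀ f hf hc
  have e1 : ∀ x, ∑ i, ‖fderiv ℝ f x (hA.eigenvectorBasis rfl i) +
      (hA.eigenvalues rfl i * ⟪hA.eigenvectorBasis rfl i, x - x₀⟫_ℝ) • f x‖ ^ 2 =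
      ∑ k, ‖fderiv ℝ f x (w k) + ⟪A (x - x₀), w k⟫_ℝ • f x‖ ^ 2 := by
    intro x
    have h2 := hs_indep (F := F) (hA.eigenvectorBasis rfl) w
      ((fderiv ℝ f x : E →ₗ[ℝ] F) +
        ((innerSL ℝ (A (x - x₀)) : E →L[ℝ] ℝ) : E →ₗ[ℝ] ℝ).smulRight (f x))
    simp only [LinearMap.add_apply, LinearMap.smulRight_apply, ContinuousLinearMap.coe_coe,
      innerSL_apply_apply] at h2
    rw [← h2]
    refine Finset.sum_congr rfl fun i _ => ?_
    rw [hA (x - x₀), eig_apply, inner_smul_right, real_inner_comm (hA.eigenvectorBasis rfl i)]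
  simp only [e1] at h1
  exact h1

/-- Identity, operator form. -/
theorem op_identity {μ : Measure E} [μ.IsAddHaarMeasure] {κ : Type*} [Fintype κ]
    (w : OrthonormalBasis κ ℝ E) (A : E →ₗ[ℝ] E) (x₀ : E)
    (hf : ContDiff ℝ 1 f) (hc : HasCompactSupport f) :
    ∫ x, ∑ k, ‖fderiv ℝ f x (w k) + ⟪A (x - x₀), w k⟫_ℝ • f x‖ ^ 2 ∂μ =
      (∫ x, ∑ k, ‖fderiv ℝ f x (w k)‖ ^ 2 ∂μ) + (∫ x, ‖A (x - x₀)‖ ^ 2 * ‖f x‖ ^ 2 ∂μ) -
      (∑ k, ⟪A (w k), w k⟫_ℝ) * ∫ x, ‖f x‖ ^ 2 ∂μ := by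
  have h := lin_identity (μ := μ) hf hc (fun k => w k)
    (fun k => (innerSL ℝ (w k)).comp (LinearMap.toContinuousLinearMap A)) x₀
  simp only [ContinuousLinearMap.comp_apply, innerSL_apply_apply,
    LinearMap.coe_toContinuousLinearMap'] at h
  have e1 : ∀ x : E, ∑ k, ⟪w k, A (x - x₀)⟫_ℝ ^ 2 = ‖A (x - x₀)‖ ^ 2 := by
    intro x
    rw [← real_inner_self_eq_norm_sq, ← w.sum_inner_mul_inner]
    exact Finset.sum_congr rfl fun k _ => by rw [real_inner_comm, pow_two]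
  have e2 : ∀ x y : E, ⟪A x, y⟫_ℝ = ⟪y, A x⟫_ℝ := fun x y => real_inner_comm _ _
  simp only [e1] at h
  simp only [e2]
  exact h

end gaps

end inner

end Crest.Agent.R330.Osc151

end
end

-- ▼ part R330/FibB_892

/-!
# Row 330, S8-FIB (helper892), part B: ground states and gap of a system of linear charges

Over `FibA_892.Lin Γ T P A c e`.

* `energy_sq` : `Σ_α ∫ ‖B_α f‖² = 2c (½ ∫ Σ_s |∂_s f + g ⟨A z, e_s⟩ f|² + g Σ_k (lam_k/2) ∫ |ann_k f|²)`.
* `grad_pot_le` : `½∫|∇f|² + ½g²∫|Az|²|f|² ≤ (2c)⁻¹ Σ ∫‖B_α f‖² + (g/2) tr A ∫‖f‖²`.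
* `LinJ J T P` : `J` the partial complex structure of `T = J P`.
* `kill` : `B_α (χ v) = 0` for `v ∈ vacJ J`, `∂χ = -g ⟨A z, ·⟩ χ`.
* `gap` : `g a ∫ ‖f - G ⊗ P_J f‖² ≤ (2c)⁻¹ Σ ∫‖B_α f‖²`.
-/

set_option autoImplicit false
set_option linter.unusedSectionVars false
set_option linter.unusedVariables false
set_option linter.deprecated false

open MeasureTheory Filter Topology
open scoped InnerProductSpace ContDiff
open Crest.Agent.R330.Cliff442 Crest.Agent.R330.DirG837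

noncomputable section

namespace Crest.Agent.R330.Fib892

variable {E V F ι κ : Type*} [NormedAddCommGroup E] [InnerProductSpace ℝ E] [FiniteDimensional ℝ E]
  [NormedAddCommGroup V] [InnerProductSpace ℝ V] [FiniteDimensional ℝ V]
  [NormedAddCommGroup F] [InnerProductSpace ℂ F] [FiniteDimensional ℂ F]
  [Fintype ι] [Fintype κ]

variable {M : CRep V F} {Γ : ι → E →ₗ[ℝ] V} {T P J : V →ₗ[ℝ] V} {A : E →L[ℝ] E} {c g : ℝ}
  {e : OrthonormalBasis κ ℝ E} {f : E → F}

/-- `J` is the partial complex structure of `T = J P`. -/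
structure LinJ (J T P : V →ₗ[ℝ] V) : Prop where
  pcs : PCS J
  hT : ∀ x, T x = J (P x)
  hP : ∀ x, P x = -J (T x)
  hker : ∀ x, T x = 0 → J x = 0

section alg

variable (h : Lin Γ T P A c e)
include h

theorem Lin.P_u {ν : Type*} {s : Finset ν} {u v : ν → V} {lam : ν → ℝ} (hn : NF T s u v lam)
    {k : ν} (hk : k ∈ s) : P (u k) = lam k • u k ∧ P (v k) = lam k • v k := by
  have hev : ∀ (w : V) (l : ℝ), 0 < l → T (T w) = -(l ^ 2) • w → P w = l • w := by
    intro w l hl hw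
    have h1 : P (P w - l • w) = -(l • (P w - l • w)) := by
      rw [map_sub, h.psq, hw, map_smul]
      module
    have h2 := h.ppos (P w - l • w)
    rw [h1, inner_neg_left, inner_smul_left, real_inner_self_eq_norm_sq] at h2
    have h3 : ‖P w - l • w‖ ^ 2 ≤ 0 := by
      have : 0 ≤ -(l * ‖P w - l • w‖ ^ 2) := by simpa using h2
      nlinarith [sq_nonneg ‖P w - l • w‖]
    have h4 : ‖P w - l • w‖ = 0 := by
      have := sq_nonneg ‖P w - l • w‖
      exact pow_eq_zero_iff two_ne_zero |>.1 (le_antisymm h3 this)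
    exact sub_eq_zero.1 (norm_eq_zero.1 h4)
  constructor
  · exact hev _ _ (hn.pos k hk) (by
      rw [hn.au k hk, map_smul, hn.av k hk, smul_smul]; congr 1; ring)
  · exact hev _ _ (hn.pos k hk) (by
      rw [hn.av k hk, map_smul, hn.au k hk, smul_smul]; congr 1; ring)

/-- The frequencies of `T` are bounded below by the lower bound of `A`. -/
theorem Lin.lam_ge {ν : Type*} {s : Finset ν} {u v : ν → V} {lam : ν → ℝ} (hn : NF T s u v lam)
    {a : ℝ} (hA : ∀ z, a * ‖z‖ ^ 2 ≤ ⟪A z, z⟫_ℝ) {k : ν} (hk : k ∈ s) : a ≤ lam k := by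
  set x := u k with hx
  set y : ι → E := fun α => ∑ s, ⟪Γ α (e s), x⟫_ℝ • e s with hy
  have hyi : ∀ α w, ⟪y α, w⟫_ℝ = ⟪Γ α w, x⟫_ℝ := by
    intro α w
    rw [hy]
    simp only [sum_inner, real_inner_smul_left]
    conv_rhs => rw [← e.sum_repr' w, map_sum, sum_inner]
    refine Finset.sum_congr rfl fun s _ => ?_
    rw [map_smul, real_inner_smul_left]
    ring
  have h1 : ∀ α, ⟪A (y α), y α⟫_ℝ = lam k * ‖y α‖ ^ 2 := by
    intro α
    rw [h.asym, hyi, ← h.inter, h.psym, (h.P_u hn hk).1, real_inner_smul_right, ← hyi,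
      real_inner_self_eq_norm_sq]
  have h2 : ∑ α, ‖y α‖ ^ 2 = c := by
    have h3 : ∀ α, ‖y α‖ ^ 2 = ∑ s, ⟪Γ α (e s), x⟫_ℝ * ⟪Γ α (e s), x⟫_ℝ := by
      intro α
      rw [← real_inner_self_eq_norm_sq, hyi, hy]
      simp only [map_sum, map_smul, sum_inner, real_inner_smul_left]
    simp only [h3]
    have h4 := congrArg (fun w => ⟪w, v k⟫_ℝ) (h.fr2 x)
    simp only [sum_inner, real_inner_smul_left] at h4
    have h5 : ∀ w, ⟪T w, v k⟫_ℝ = -(lam k * ⟪w, x⟫_ℝ) := by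
      intro w
      rw [h.skew, hn.av k hk, real_inner_smul_right]
    simp only [h5] at h4
    have h6 : ⟪x, x⟫_ℝ = 1 := by
      rw [real_inner_self_eq_norm_sq, (hn.prs.pr k hk).1]; norm_num
    rw [h6] at h4
    have h7 : -(lam k) * ∑ α, ∑ s, ⟪Γ α (e s), x⟫_ℝ * ⟪Γ α (e s), x⟫_ℝ = -(lam k) * c := by
      rw [Finset.mul_sum]
      calc ∑ α, -(lam k) * ∑ s, ⟪Γ α (e s), x⟫_ℝ * ⟪Γ α (e s), x⟫_ℝ
          = ∑ α, ∑ s, ⟪Γ α (e s), x⟫_ℝ * -(lam k * ⟪Γ α (e s), x⟫_ℝ) := by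
            refine Finset.sum_congr rfl fun α _ => ?_
            rw [Finset.mul_sum]
            refine Finset.sum_congr rfl fun s _ => ?_
            ring
        _ = c * -(lam k * 1) := h4
        _ = -(lam k) * c := by ring
    have h8 : -(lam k) ≠ 0 := neg_ne_zero.2 (hn.pos k hk).ne'
    exact mul_left_cancel₀ h8 h7
  have h3 : a * c ≤ lam k * c := by
    rw [← h2, Finset.mul_sum, Finset.mul_sum]
    exact Finset.sum_le_sum fun α _ => by rw [← h1]; exact hA _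
  exact le_of_mul_le_mul_right h3 h.cpos

/-- `J` has the normal form of `T`, with frequencies `1`. -/
theorem Lin.NF_J (hJ : LinJ J T P) {ν : Type*} {s : Finset ν} {u v : ν → V} {lam : ν → ℝ}
    (hn : NF T s u v lam) : NF J s u v (fun _ => 1) := by
  refine ⟨hn.prs, fun _ _ => one_pos, fun k hk => ?_, fun k hk => ?_, fun x hx => ?_⟩
  · have h1 := hJ.hT (u k)
    rw [(h.P_u hn hk).1, map_smul, hn.au k hk] at h1
    have h2 : lam k • (J (u k) + v k) = 0 := by
      rw [smul_add, ← h1]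
      module
    have h3 := (smul_eq_zero.1 h2).resolve_left (hn.pos k hk).ne'
    rw [neg_one_smul]
    exact eq_neg_of_add_eq_zero_left h3
  · have h1 := hJ.hT (v k)
    rw [(h.P_u hn hk).2, map_smul, hn.av k hk] at h1
    rw [one_smul]
    exact (smul_right_injective V (hn.pos k hk).ne' h1).symm
  · exact hJ.hker x (hn.ker x hx)

end alg


section energy

variable [MeasurableSpace E] [BorelSpace E]

/-- **Energy identity, completed squares.** -/
theorem energy_sq (h : Lin Γ T P A c e) {ν : Type*} {s : Finset ν} {u v : ν → V} {lam : ν → ℝ}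
    (hn : NF T s u v lam) (hf : ContDiff ℝ 2 f) (hc : HasCompactSupport f) :
    ∑ α, ∫ z, ‖chg M Γ T e g α f z‖ ^ 2 =
      2 * c * (1 / 2 * (∫ z, ∑ s, ‖fderiv ℝ f z (e s) + ⟪(g • (A : E →ₗ[ℝ] E)) (z - 0), e s⟫_ℝ • f z‖ ^ 2) +
        g * ∫ z, ∑ k ∈ s, lam k / 2 * ‖M.ann (u k) (v k) (f z)‖ ^ 2) := by
  have hfc : Continuous f := hf.continuous
  set b := stdOrthonormalBasis ℝ V with hb
  let _ : InnerProductSpace ℝ F := InnerProductSpace.complexToReal
  have hf1 : ContDiff ℝ 1 f := hf.of_le (by norm_num)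
  have h1 := Osc151.op_identity (μ := (volume : Measure E)) e (g • (A : E →ₗ[ℝ] E)) 0 hf1 hc
  have i1 : Integrable fun z => ‖f z‖ ^ 2 :=
    integrable_cs (hfc.norm.pow 2) (cs_of_zero hc fun z hz => by rw [hz]; simp)
  have i2 : Integrable fun z => (⟪f z, M.quad b T (f z)⟫_ℂ).re := by
    have i3 : Integrable fun z => ⟪f z, M.quad b T (f z)⟫_ℂ := by
      refine integrable_cs (hfc.inner ((continuous_lin (M.quad b T)).comp hfc))
        (cs_of_zero hc fun z hz => ?_)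
      rw [hz, inner_zero_left]
    exact i3.re
  have h2 : (∫ z, (⟪f z, M.quad b T (f z)⟫_ℂ).re) + 1 / 2 * (∑ k ∈ s, lam k) * ∫ z, ‖f z‖ ^ 2 =
      ∫ z, ∑ k ∈ s, lam k / 2 * ‖M.ann (u k) (v k) (f z)‖ ^ 2 := by
    rw [← integral_const_mul, ← integral_add i2 (i1.const_mul _)]
    exact integral_congr_ae (Eventually.of_forall fun z => M.re_inner_quad b hn (f z))
  have h3 : ∑ s, ⟪(g • (A : E →ₗ[ℝ] E)) (e s), e s⟫_ℝ = g * ∑ k ∈ s, lam k := by
    rw [← h.trace b hn, Finset.mul_sum]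
    refine Finset.sum_congr rfl fun s _ => ?_
    rw [LinearMap.smul_apply, real_inner_smul_left]
    rfl
  have h4 : ∫ z, ‖(g • (A : E →ₗ[ℝ] E)) (z - 0)‖ ^ 2 * ‖f z‖ ^ 2 =
      g ^ 2 * ∫ z, ‖A z‖ ^ 2 * ‖f z‖ ^ 2 := by
    rw [← integral_const_mul]
    refine integral_congr_ae (Eventually.of_forall fun z => ?_)
    simp only [sub_zero, LinearMap.smul_apply, norm_smul, mul_pow, Real.norm_eq_abs, sq_abs]
    rw [mul_assoc]
    rfl
  rw [h3, h4] at h1
  rw [h.energy b hf hc, ← h2, h1]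
  ring

/-- Gradient and potential are controlled. -/
theorem grad_pot_le (h : Lin Γ T P A c e) (hg : 0 ≤ g) (hf : ContDiff ℝ 2 f)
    (hc : HasCompactSupport f) :
    1 / 2 * (∫ z, ∑ s, ‖fderiv ℝ f z (e s)‖ ^ 2) +
        1 / 2 * g ^ 2 * (∫ z, ‖A z‖ ^ 2 * ‖f z‖ ^ 2) ≤
      (2 * c)⁻¹ * ∑ α, (∫ z, ‖chg M Γ T e g α f z‖ ^ 2) +
        g / 2 * (∑ s, ⟪A (e s), e s⟫_ℝ) * ∫ z, ‖f z‖ ^ 2 := by
  have hfc : Continuous f := hf.continuous
  set b := stdOrthonormalBasis ℝ V with hb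
  obtain ⟨m, u, v, lam, hn⟩ := h.skew.exists_NF
  have i1 : Integrable fun z => ‖f z‖ ^ 2 :=
    integrable_cs (hfc.norm.pow 2) (cs_of_zero hc fun z hz => by rw [hz]; simp)
  have i2 : Integrable fun z => (⟪f z, M.quad b T (f z)⟫_ℂ).re := by
    have i3 : Integrable fun z => ⟪f z, M.quad b T (f z)⟫_ℂ := by
      refine integrable_cs (hfc.inner ((continuous_lin (M.quad b T)).comp hfc))
        (cs_of_zero hc fun z hz => ?_)
      rw [hz, inner_zero_left]
    exact i3.re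
  have h1 : -(1 / 2 * (∑ k ∈ Finset.range m, lam k) * ∫ z, ‖f z‖ ^ 2) ≤
      ∫ z, (⟪f z, M.quad b T (f z)⟫_ℂ).re := by
    rw [← integral_const_mul, ← integral_neg]
    exact integral_mono (i1.const_mul _).neg i2 fun z => M.quad_ge b hn (f z)
  have h2 := h.energy (M := M) (g := g) b hf hc
  have h3 := h.cpos
  rw [h2, h.trace b hn, ← mul_assoc (2 * c)⁻¹, inv_mul_cancel₀ (by positivity), one_mul]
  have h4 := mul_le_mul_of_nonneg_left h1 hg
  linarith

/-- `A` is positive. -/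
theorem Lin.pd (h : Lin Γ T P A c e) {a : ℝ} (ha : 0 < a) (hA : ∀ z, a * ‖z‖ ^ 2 ≤ ⟪A z, z⟫_ℝ) :
    SqrtPD984.PD A := by
  refine ⟨h.asym, fun v hv => lt_of_lt_of_le ?_ (hA v)⟩
  have : 0 < ‖v‖ := norm_pos_iff.2 hv
  positivity

theorem Lin.symG (h : Lin Γ T P A c e) (g : ℝ) : (g • (A : E →ₗ[ℝ] E)).IsSymmetric := by
  intro x y
  simp only [LinearMap.smul_apply, ContinuousLinearMap.coe_coe, real_inner_smul_left,
    real_inner_smul_right]
  rw [h.asym]

/-- The two normalised Gaussians agree. -/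
theorem Lin.gs_eq (h : Lin Γ T P A c e) {a : ℝ} (ha : 0 < a) (hg : 0 < g)
    (hA : ∀ z, a * ‖z‖ ^ 2 ≤ ⟪A z, z⟫_ℝ) : Osc151.gsOp (h.symG g) 0 = GPar984.G g A := by
  have hpd := h.pd ha hA
  have hA' : ∀ z, (g * a) * ‖z‖ ^ 2 ≤ ⟪(g • (A : E →ₗ[ℝ] E)) z, z⟫_ℝ := by
    intro z
    rw [LinearMap.smul_apply, real_inner_smul_left, mul_assoc]
    exact mul_le_mul_of_nonneg_left (hA z) hg.le
  have hga : 0 < g * a := mul_pos hg ha
  set C : ℝ := (g / Real.pi) ^ (Module.finrank ℝ E / 4 : ℝ) *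
    Real.sqrt |GPar984.dt (SqrtPD984.psq A)| with hC
  have e1 : ∀ z, GPar984.G g A z = C * Real.exp (-(g / 2) * ⟪A z, z⟫_ℝ) := fun z => rfl
  have e2 : ∀ z, Osc151.gsOp (h.symG g) 0 z =
      Osc151.zOp (h.symG g) * Real.exp (-(g / 2) * ⟪A z, z⟫_ℝ) := by
    intro z
    rw [Osc151.gsOp_eq]
    congr 2
    rw [sub_zero, LinearMap.smul_apply, real_inner_smul_left]
    simp only [ContinuousLinearMap.coe_coe]
    ring
  have hz : 0 < Osc151.zOp (h.symG g) := Osc151.zOp_pos (h.symG g) hga hA'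
  have hCp : 0 < C := by
    have h1 := GPar984.G_pos hg hpd (0 : E)
    rw [e1] at h1
    exact (pos_iff_pos_of_mul_pos h1).2 (Real.exp_pos _)
  have h1 := (Osc151.normSq_gsOp (h.symG g) hga hA' 0).2
  have h2 := GPar984.integral_G_sq hg hpd
  simp only [e1, e2, mul_pow] at h1 h2
  rw [integral_const_mul] at h1 h2
  have h3 : Osc151.zOp (h.symG g) ^ 2 = C ^ 2 := by
    have h4 : (∫ z : E, Real.exp (-(g / 2) * ⟪A z, z⟫_ℝ) ^ 2) ≠ 0 := by
      intro h0
      rw [h0, mul_zero] at h1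
      exact zero_ne_one h1
    exact mul_right_cancel₀ h4 (h1.trans h2.symm)
  have h4 : Osc151.zOp (h.symG g) = C := (pow_left_inj₀ hz.le hCp.le two_ne_zero).1 h3
  funext z
  rw [e1, e2, h4]

/-- The fibre projection on `G ⊗ vacJ J`. -/
def fib (M : CRep V F) (J : V →ₗ[ℝ] V) (g : ℝ) (A : E →L[ℝ] E) (f : E → F) (z : E) : F :=
  GPar984.G g A z • M.proj J (∫ w, GPar984.G g A w • f w)

/-- **Gap of a system of linear charges.** -/
theorem gap (h : Lin Γ T P A c e) (hJ : LinJ J T P) {a : ℝ} (ha : 0 < a) (hg : 0 < g)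
    (hA : ∀ z, a * ‖z‖ ^ 2 ≤ ⟪A z, z⟫_ℝ) (hf : ContDiff ℝ 2 f) (hc : HasCompactSupport f) :
    g * a * ∫ z, ‖f z - fib M J g A f z‖ ^ 2 ≤
      (2 * c)⁻¹ * ∑ α, (∫ z, ‖chg M Γ T e g α f z‖ ^ 2) := by
  let _ : InnerProductSpace ℝ F := InnerProductSpace.complexToReal
  have hpd := h.pd ha hA
  have hga : 0 < g * a := mul_pos hg ha
  have hfc : Continuous f := hf.continuous
  have hf1 : ContDiff ℝ 1 f := hf.of_le (by norm_num)
  have hA' : ∀ z, (g * a) * ‖z‖ ^ 2 ≤ ⟪(g • (A : E →ₗ[ℝ] E)) z, z⟫_ℝ := by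
    intro z
    rw [LinearMap.smul_apply, real_inner_smul_left, mul_assoc]
    exact mul_le_mul_of_nonneg_left (hA z) hg.le
  obtain ⟨n, u, v, lam, hn⟩ := h.skew.exists_NF
  set G := GPar984.G g A with hG
  have hGc : Continuous G := GPar984.continuous_G g A
  have hG1 : ∫ z, G z ^ 2 = 1 := GPar984.integral_G_sq hg hpd
  have hG2 : Integrable fun z => G z ^ 2 := by
    by_contra hcon
    rw [integral_undef hcon] at hG1
    exact zero_ne_one hG1
  -- bosonic gap
  have b1 := Osc151.gap_op (F := F) (h.symG g) e hga hA' 0 f hf1 hc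
  rw [h.gs_eq ha hg hA, ← hG] at b1
  -- energy
  have b2 := energy_sq (M := M) (g := g) h hn hf hc
  set m₀ : F := ∫ w, G w • f w with hm₀
  have hB0 : 0 ≤ ∫ z, ∑ k ∈ Finset.range n, lam k / 2 * ‖M.ann (u k) (v k) (f z)‖ ^ 2 :=
    integral_nonneg fun z => Finset.sum_nonneg fun k hk =>
      mul_nonneg (by linarith [hn.pos k hk]) (sq_nonneg _)
  -- projection in the fibre
  have i1 : Integrable fun z => ‖f z‖ ^ 2 :=
    integrable_cs (hfc.norm.pow 2) (cs_of_zero hc fun z hz => by rw [hz]; simp)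
  have hPc : Continuous fun z => M.proj J (f z) := (continuous_lin _).comp hfc
  have i2 : Integrable fun z => G z • f z :=
    integrable_cs (hGc.smul hfc) (cs_of_zero hc fun z hz => by rw [hz, smul_zero])
  have i3 : Integrable fun z => G z • (f z - M.proj J (f z)) :=
    integrable_cs (hGc.smul (hfc.sub hPc)) (cs_of_zero hc fun z hz => by
      rw [hz, map_zero, sub_zero, smul_zero])
  have i4 : Integrable fun z => ‖f z - M.proj J (f z)‖ ^ 2 :=
    integrable_cs ((hfc.sub hPc).norm.pow 2) (cs_of_zero hc fun z hz => by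
      rw [hz, map_zero, sub_zero, norm_zero]; norm_num)
  have c1 : m₀ - M.proj J m₀ = ∫ w, G w • (f w - M.proj J (f w)) := by
    have h1 : (∫ w, G w • (f w - M.proj J (f w))) = (LinearMap.toContinuousLinearMap
        ((1 : Module.End ℂ F) - M.proj J)) (∫ w, G w • f w) := by
      rw [← ContinuousLinearMap.integral_comp_comm _ i2]
      refine integral_congr_ae (Eventually.of_forall fun z => ?_)
      simp only [LinearMap.coe_toContinuousLinearMap', LinearMap.sub_apply, Module.End.one_apply]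
      have h2 : (G z • f z : F) = ((G z : ℝ) : ℂ) • f z := (Complex.coe_smul _ _).symm
      rw [h2, map_smul, ← smul_sub, Complex.coe_smul]
    rw [h1]
    rfl
  have c2 : ‖m₀ - M.proj J m₀‖ ^ 2 ≤ ∫ z, ‖f z - M.proj J (f z)‖ ^ 2 := by
    rw [c1]
    exact Poinc151.norm_integral_smul_le hG2 i4 i3 hG1
  have c3 : a * ∫ z, ‖f z - M.proj J (f z)‖ ^ 2 ≤
      ∫ z, ∑ k ∈ Finset.range n, lam k / 2 * ‖M.ann (u k) (v k) (f z)‖ ^ 2 := by
    rw [← integral_const_mul]
    refine integral_mono (i4.const_mul a) ?_ fun z => ?_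
    · refine integrable_cs (continuous_finsetSum _ fun k _ => continuous_const.mul
        (((continuous_lin _).comp hfc).norm.pow 2)) (cs_of_zero hc fun z hz => ?_)
      refine Finset.sum_eq_zero fun k _ => ?_
      rw [hz, map_zero, norm_zero]; norm_num
    · have h1 := M.num_gap hJ.pcs (f z)
      rw [M.re_inner_num hJ.pcs (h.NF_J hJ hn)] at h1
      simp only
      calc a * ‖f z - M.proj J (f z)‖ ^ 2 ≤
            a * ∑ k ∈ Finset.range n, 1 / 2 * ‖M.ann (u k) (v k) (f z)‖ ^ 2 :=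
            mul_le_mul_of_nonneg_left h1 ha.le
        _ ≤ _ := by
            rw [Finset.mul_sum]
            refine Finset.sum_le_sum fun k hk => ?_
            have h2 := h.lam_ge hn hA hk
            nlinarith [sq_nonneg ‖M.ann (u k) (v k) (f z)‖]
  -- distance
  have d1 : ∫ z, ‖f z - fib M J g A f z‖ ^ 2 =
      ((∫ z, ‖f z‖ ^ 2) - ‖m₀‖ ^ 2) + ‖m₀ - M.proj J m₀‖ ^ 2 := by
    have e1 : ∀ z, ‖f z - fib M J g A f z‖ ^ 2 = ‖f z‖ ^ 2 - 2 * ⟪M.proj J m₀, G z • f z⟫_ℝ +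
        G z ^ 2 * ‖M.proj J m₀‖ ^ 2 := by
      intro z
      have h1 : fib M J g A f z = G z • M.proj J m₀ := rfl
      rw [h1, norm_sub_sq_real, inner_smul_right, inner_smul_right, norm_smul, mul_pow,
        Real.norm_eq_abs, sq_abs, real_inner_comm]
    have e2 : ⟪M.proj J m₀, m₀⟫_ℝ = ‖M.proj J m₀‖ ^ 2 := by
      have h1 : ⟪M.proj J m₀, m₀⟫_ℝ = (⟪M.proj J m₀, m₀⟫_ℂ).re := rfl
      rw [h1, M.proj_symm hJ.pcs, M.inner_proj_self hJ.pcs, Complex.ofReal_re]
    have i12 : Integrable (fun z => ‖f z‖ ^ 2 - 2 * ⟪M.proj J m₀, G z • f z⟫_ℝ) :=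
      i1.sub ((i2.const_inner _).const_mul 2)
    simp only [e1]
    rw [integral_add i12 (hG2.mul_const _), integral_sub i1 ((i2.const_inner _).const_mul 2),
      integral_mul_const, hG1, integral_const_mul, integral_inner i2, ← hm₀, e2]
    have h3 := M.norm_sq_split hJ.pcs m₀
    linarith
  have hc0 := h.cpos
  rw [d1, b2, ← mul_assoc (2 * c)⁻¹, inv_mul_cancel₀ (by positivity), one_mul, mul_add]
  have f1 : g * a * ((∫ z, ‖f z‖ ^ 2) - ‖m₀‖ ^ 2) ≤
      1 / 2 * ∫ z, ∑ s, ‖fderiv ℝ f z (e s) + ⟪(g • (A : E →ₗ[ℝ] E)) (z - 0), e s⟫_ℝ • f z‖ ^ 2 := by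
    linarith
  have f2 : g * a * ‖m₀ - M.proj J m₀‖ ^ 2 ≤
      g * ∫ z, ∑ k ∈ Finset.range n, lam k / 2 * ‖M.ann (u k) (v k) (f z)‖ ^ 2 := by
    rw [mul_assoc]
    exact mul_le_mul_of_nonneg_left
      ((mul_le_mul_of_nonneg_left c2 ha.le).trans c3) hg.le
  linarith

end energy

end Crest.Agent.R330.Fib892

end
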