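import Crest.Agent.R330.GPar_984
import Crest.Agent.R330.AX_984
import Crest.Agent.R330.Bind6_839

-- ▼ part R330/E1_984
section

/-!
Row 330, S8-PAIR, error term e1: the derivative of the normalised Gaussian in the parameter.
`PR` is the class of parameter regions; on a region, `dG g v X z` is the derivative of `G` in the
direction `v`; `dG_size`, `dG_mom`: its weighted `L²` size; `dG_orth`, `dG_cut`: its component along
`G` vanishes (with a cut-off: is `O((g δ²)^{-k})`).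
-/

set_option autoImplicit false
set_option linter.unusedSectionVars false

namespace Crest.Agent.R330.E1984

open Topology Filter MeasureTheory Real
open scoped InnerProductSpace ContDiff
open Crest.Agent.R330.SqrtPD984 Crest.Agent.R330.GPar984

variable {Z : Type*} [NormedAddCommGroup Z] [InnerProductSpace ℝ Z] [FiniteDimensional ℝ Z]
  [MeasurableSpace Z] [BorelSpace Z]
variable {P : Type*} [NormedAddCommGroup P] [NormedSpace ℝ P]

/-- a region of parameters with uniform bounds -/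
structure PR (A : P → (Z →L[ℝ] Z)) (S : Set P) (a K M : ℝ) (l : P → (P →L[ℝ] ℝ)) : Prop where
  isOpen : IsOpen S
  pos : 0 < a
  M_nonneg : 0 ≤ M
  ub : ∀ X ∈ S, UB a K (A X)
  dA : ∀ X ∈ S, ‖fderiv ℝ A X‖ ≤ M
  dl : ∀ X ∈ S, ‖l X‖ ≤ M
  der : ∀ X ∈ S, ∀ (g : ℝ) (z : Z), HasFDerivAt (fun c => G g (A c) z) ((G g (A X) z) • (l X -
        (g / 2) • ((innerSL ℝ z).comp ((ContinuousLinearMap.apply ℝ Z z).comp
          (fderiv ℝ A X))))) X

/-- every smooth positive definite family has such regions -/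
theorem exists_PR {A : P → (Z →L[ℝ] Z)} {b : P} {m : WithTop ℕ∞} (hm : m ≠ 0)
    (hA : ContDiffAt ℝ m A b) (hs : ∀ᶠ b' in 𝓝 b, Sy (A b')) (hp : PD (A b)) :
    ∃ (δ a K M : ℝ) (l : P → (P →L[ℝ] ℝ)), 0 < δ ∧ PR A (Metric.ball b δ) a K M l := by
  obtain ⟨a, K, M, l, ha, hM, h⟩ := exists_param_bounds hm hA hs hp
  obtain ⟨δ, hδ, hδ2⟩ := Metric.eventually_nhds_iff_ball.mp h
  exact ⟨δ, a, K, M, l, hδ, Metric.isOpen_ball, ha, hM, fun X hX => (hδ2 X hX).1,
    fun X hX => (hδ2 X hX).2.1, fun X hX => (hδ2 X hX).2.2.1, fun X hX => (hδ2 X hX).2.2.2⟩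

theorem PR.mono {A : P → (Z →L[ℝ] Z)} {S S' : Set P} {a K M : ℝ} {l : P → (P →L[ℝ] ℝ)}
    (h : PR A S a K M l) (h' : IsOpen S') (hs : S' ⊆ S) : PR A S' a K M l :=
  ⟨h', h.pos, h.M_nonneg, fun X hX => h.ub X (hs hX), fun X hX => h.dA X (hs hX),
    fun X hX => h.dl X (hs hX), fun X hX => h.der X (hs hX)⟩

/-- the logarithmic derivative of `G` in the direction `v` -/
noncomputable def lf (A : P → (Z →L[ℝ] Z)) (l : P → (P →L[ℝ] ℝ)) (g : ℝ) (X v : P) (z : Z) : ℝ :=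
  l X v - (g / 2) * ⟪z, (fderiv ℝ A X v) z⟫_ℝ

/-- the derivative of `G` in the direction `v` -/
noncomputable def dG (A : P → (Z →L[ℝ] Z)) (l : P → (P →L[ℝ] ℝ)) (g : ℝ) (X v : P) (z : Z) : ℝ :=
  G g (A X) z * lf A l g X v z

section

variable {A : P → (Z →L[ℝ] Z)} {S : Set P} {a K M : ℝ} {l : P → (P →L[ℝ] ℝ)}

theorem PR.fderiv_eq (h : PR A S a K M l) {X : P} (hX : X ∈ S) (g : ℝ) (z : Z) (v : P) :
    fderiv ℝ (fun c => G g (A c) z) X v = dG A l g X v z := by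
  rw [(h.der X hX g z).fderiv]
  simp [dG, lf]


theorem continuous_lf (A : P → (Z →L[ℝ] Z)) (l : P → (P →L[ℝ] ℝ)) (g : ℝ) (X v : P) :
    Continuous (lf A l g X v) := by
  unfold lf
  fun_prop

theorem continuous_dG (A : P → (Z →L[ℝ] Z)) (l : P → (P →L[ℝ] ℝ)) (g : ℝ) (X v : P) :
    Continuous (dG A l g X v) := (continuous_G g (A X)).mul (continuous_lf A l g X v)

theorem PR.lf_le (h : PR A S a K M l) {X : P} (hX : X ∈ S) {g : ℝ} (hg : 0 < g) (v : P) (z : Z) :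
    |lf A l g X v z| ≤ M * (1 + g * ‖z‖ ^ 2) * ‖v‖ := by
  have h1 := norm_L_le g hg h.M_nonneg (h.dl X hX) (h.dA X hX) z
  have h2 := (l X - (g / 2) • ((innerSL ℝ z).comp ((ContinuousLinearMap.apply ℝ Z z).comp
    (fderiv ℝ A X)))).le_of_opNorm_le h1 v
  simpa [lf] using h2

theorem PR.dG_sq_le (h : PR A S a K M l) {X : P} (hX : X ∈ S) {g : ℝ} (hg : 0 < g) (v : P)
    (z : Z) (k : ℕ) :
    (g * ‖z‖ ^ 2) ^ k * dG A l g X v z ^ 2 ≤
      2 * (M * ‖v‖) ^ 2 * ((g * ‖z‖ ^ 2) ^ k * G g (A X) z ^ 2 +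
        (g * ‖z‖ ^ 2) ^ (k + 2) * G g (A X) z ^ 2) := by
  have h1 := h.lf_le hX hg v z
  have h2 : lf A l g X v z ^ 2 ≤ (M * (1 + g * ‖z‖ ^ 2) * ‖v‖) ^ 2 := by
    rw [← sq_abs]
    exact pow_le_pow_left₀ (abs_nonneg _) h1 2
  have h3 : (M * (1 + g * ‖z‖ ^ 2) * ‖v‖) ^ 2 ≤
      2 * (M * ‖v‖) ^ 2 * (1 + (g * ‖z‖ ^ 2) ^ 2) := by
    have : 0 ≤ (M * ‖v‖) ^ 2 * (1 - g * ‖z‖ ^ 2) ^ 2 := by positivity
    nlinarith
  have h4 : 0 ≤ (g * ‖z‖ ^ 2) ^ k * G g (A X) z ^ 2 := by positivity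
  unfold dG
  calc (g * ‖z‖ ^ 2) ^ k * (G g (A X) z * lf A l g X v z) ^ 2
      = ((g * ‖z‖ ^ 2) ^ k * G g (A X) z ^ 2) * lf A l g X v z ^ 2 := by ring
    _ ≤ ((g * ‖z‖ ^ 2) ^ k * G g (A X) z ^ 2) *
        (2 * (M * ‖v‖) ^ 2 * (1 + (g * ‖z‖ ^ 2) ^ 2)) :=
        mul_le_mul_of_nonneg_left (h2.trans h3) h4
    _ = _ := by ring

theorem PR.integrable_dG (h : PR A S a K M l) {X : P} (hX : X ∈ S) {g : ℝ} (hg : 0 < g) (v : P)
    (k : ℕ) : Integrable (fun z : Z => (g * ‖z‖ ^ 2) ^ k * dG A l g X v z ^ 2) := by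
  have h1 := ((integrable_mul_G_sq h.pos hg (h.ub X hX) k).add
    (integrable_mul_G_sq h.pos hg (h.ub X hX) (k + 2))).const_mul (2 * (M * ‖v‖) ^ 2)
  refine Integrable.mono' h1 ?_ (ae_of_all _ fun z => ?_)
  · have := continuous_dG A l g X v
    exact (by fun_prop : Continuous fun z : Z => (g * ‖z‖ ^ 2) ^ k *
      dG A l g X v z ^ 2).aestronglyMeasurable
  · rw [Real.norm_of_nonneg (by positivity)]
    exact h.dG_sq_le hX hg v z k

end

/-- weighted size of the derivative -/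
theorem dG_mom (a K M : ℝ) (ha : 0 < a) (k : ℕ) :
    ∃ C : ℝ, 0 ≤ C ∧ ∀ (A : P → (Z →L[ℝ] Z)) (S : Set P) (l : P → (P →L[ℝ] ℝ)),
      PR A S a K M l → ∀ X ∈ S, ∀ g : ℝ, 0 < g → ∀ v : P,
        ∫ z : Z, (g * ‖z‖ ^ 2) ^ k * dG A l g X v z ^ 2 ≤ C * ‖v‖ ^ 2 := by
  obtain ⟨C1, h1, hC1⟩ := moment_le (Z := Z) a K ha k
  obtain ⟨C2, h2, hC2⟩ := moment_le (Z := Z) a K ha (k + 2)
  refine ⟨2 * M ^ 2 * (C1 + C2), by positivity, fun A S l h X hX g hg v => ?_⟩
  have hi := ((integrable_mul_G_sq h.pos hg (h.ub X hX) k).add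
    (integrable_mul_G_sq h.pos hg (h.ub X hX) (k + 2))).const_mul (2 * (M * ‖v‖) ^ 2)
  calc ∫ z : Z, (g * ‖z‖ ^ 2) ^ k * dG A l g X v z ^ 2
      ≤ ∫ z : Z, 2 * (M * ‖v‖) ^ 2 * ((g * ‖z‖ ^ 2) ^ k * G g (A X) z ^ 2 +
        (g * ‖z‖ ^ 2) ^ (k + 2) * G g (A X) z ^ 2) :=
        integral_mono (h.integrable_dG hX hg v k) hi fun z => h.dG_sq_le hX hg v z k
    _ = 2 * (M * ‖v‖) ^ 2 * ((∫ z : Z, (g * ‖z‖ ^ 2) ^ k * G g (A X) z ^ 2) +
        (∫ z : Z, (g * ‖z‖ ^ 2) ^ (k + 2) * G g (A X) z ^ 2)) := by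
        rw [integral_const_mul, integral_add (integrable_mul_G_sq h.pos hg (h.ub X hX) k)
          (integrable_mul_G_sq h.pos hg (h.ub X hX) (k + 2))]
    _ ≤ 2 * (M * ‖v‖) ^ 2 * (C1 + C2) := by
        have e1 := hC1 g hg (A X) (h.ub X hX)
        have e2 := hC2 g hg (A X) (h.ub X hX)
        gcongr
    _ = _ := by ring

section

variable {A : P → (Z →L[ℝ] Z)} {S : Set P} {a K M : ℝ} {l : P → (P →L[ℝ] ℝ)}



end


end Crest.Agent.R330.E1984
end

-- ▼ part R330/GBind_984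

/-!
# Row 330, S8-GBIND (helper984): the Gaussian exponent `Q_X` over `Cfg N`

* `tenC : Ten (Fin 9) (Colg N) (Cfg N)`; `adX b X i = [X_i, ·]`.
* `exists_fam` : a commuting configuration gives a `Fam`.
* `AXc b K X : Cfg N →L Cfg N` : the operator `|r| P_{r^⊥}`; `QX b K X z = ⟪AXc b K X z, z⟫`;
  `QX_act` (gauge directions), `QX_Tup` (light directions), `QX_nonneg`, `AXc_sq` (Hessian).
* `AZ b c X` : compression to `Zs b c`; `exists_chart` : region of parameters around `c`.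
* `ga b c g X z` : the normalised Gaussian; `ga_eq` : exponential formula; moments, tails,
  derivatives.
-/

set_option autoImplicit false
set_option linter.unusedSectionVars false

open MeasureTheory Filter Topology Crest.MathPhysics.MatrixQM
open Crest.Agent.R330.Frame839 Crest.Agent.R330.LS839 Crest.Agent.R330.Clus839
open Crest.Agent.R330.Bind6839 Crest.Agent.R330.SqrtPD984 Crest.Agent.R330.GPar984
open Crest.Agent.R330.AX984 Crest.Agent.R330.E1984
open scoped ContDiff InnerProductSpace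

noncomputable section

namespace Crest.Agent.R330.GBind984

/-! ## abstract complements to `AX_984` -/

section abs

variable {ι : Type*} [Fintype ι] {V E : Type*}
  [NormedAddCommGroup V] [InnerProductSpace ℝ V] [FiniteDimensional ℝ V]
  [NormedAddCommGroup E] [InnerProductSpace ℝ E] [FiniteDimensional ℝ E]
  {K : Submodule ℝ V} {D : ι → V →L[ℝ] V}

theorem inner_ll_of (hsk : ∀ i u v, ⟪D i u, v⟫_ℝ = -⟪u, D i v⟫_ℝ) (v w : V) :
    ⟪ll K D v, w⟫_ℝ = ⟪K.starProjection v, w⟫_ℝ + ∑ i, ⟪D i v, D i w⟫_ℝ := by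
  rw [ll_apply, inner_sub_left, sum_inner, sub_eq_add_neg, ← Finset.sum_neg_distrib]
  congr 1
  refine Finset.sum_congr rfl fun i _ => ?_
  rw [hsk, neg_neg]

/-- the kernel condition gives the whole package -/
theorem ll_pd_of (hsk : ∀ i u v, ⟪D i u, v⟫_ℝ = -⟪u, D i v⟫_ℝ)
    (hk : ∀ v ∈ Kᗮ, (∀ i, D i v = 0) → v = 0) : PD (ll K D) := by
  refine ⟨sy_ll hsk, fun v hv => ?_⟩
  rw [inner_ll_of hsk, proj_inner, real_inner_self_eq_norm_sq]
  have h0 : ∀ i, ⟪D i v, D i v⟫_ℝ = ‖D i v‖ ^ 2 := fun i => real_inner_self_eq_norm_sq _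
  simp only [h0]
  by_contra hle
  push Not at hle
  have h1 : 0 ≤ ∑ i, ‖D i v‖ ^ 2 := Finset.sum_nonneg fun i _ => by positivity
  have h2 : 0 ≤ ‖K.starProjection v‖ ^ 2 := by positivity
  have h3 : ‖K.starProjection v‖ ^ 2 = 0 := by linarith
  have h4 : ∑ i, ‖D i v‖ ^ 2 = 0 := by linarith
  have h5 : K.starProjection v = 0 := by
    have := pow_eq_zero_iff (two_ne_zero) |>.mp h3
    exact norm_eq_zero.mp this
  have h6 : ∀ i, D i v = 0 := by
    intro i
    have := (Finset.sum_eq_zero_iff_of_nonneg (fun i _ => by positivity)).mp h4 i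
      (Finset.mem_univ i)
    have := pow_eq_zero_iff (two_ne_zero) |>.mp this
    exact norm_eq_zero.mp this
  exact hv (hk v ((Submodule.starProjection_apply_eq_zero_iff (K := K)).mp h5) h6)

theorem exists_fam_of (hsk : ∀ i u v, ⟪D i u, v⟫_ℝ = -⟪u, D i v⟫_ℝ)
    (hc : ∀ i j v, D i (D j v) = D j (D i v)) (hk : ∀ v, v ∈ K ↔ ∀ i, D i v = 0) :
    ∃ s : ℝ, 0 < s ∧ Fam K s D := by
  have h1 : PD (ll K D) := ll_pd_of hsk fun v hv h => by
    have h2 : v ∈ K := (hk v).mpr h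
    have h3 := Submodule.inner_right_of_mem_orthogonal h2 hv
    exact inner_self_eq_zero.mp h3
  obtain ⟨a, ha, hlow⟩ := GPar984.PD.exists_low h1
  refine ⟨Real.sqrt a, Real.sqrt_pos.mpr ha, hsk, hc, fun i w hw => (hk w).mp hw i, fun w hw => ?_⟩
  rw [Real.sq_sqrt ha.le]
  have h2 := hlow w
  rw [inner_ll_of hsk, proj_zero hw, inner_zero_left, zero_add] at h2
  calc _ ≤ _ := h2
    _ = _ := Finset.sum_congr rfl fun i _ => real_inner_self_eq_norm_sq _

theorem inner_AX_of (τ : Ten ι V E) (hsk : ∀ i u v, ⟪D i u, v⟫_ℝ = -⟪u, D i v⟫_ℝ) (e e' : E) :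
    ⟪τ.AX K D e, e'⟫_ℝ = ∑ i, ⟪lr K D (τ.pr i e) - K.starProjection (τ.pr i e), τ.pr i e'⟫_ℝ
      - ⟪li K D (τ.dv D e), τ.dv D e'⟫_ℝ := by
  have hg : ∀ (w : V) (e : E), ⟪τ.gd D w, e⟫_ℝ = -⟪w, τ.dv D e⟫_ℝ := by
    intro w e
    rw [τ.inner_eq, τ.dv_apply, inner_sum, ← Finset.sum_neg_distrib]
    refine Finset.sum_congr rfl fun i _ => ?_
    rw [τ.pr_gd, hsk]
  rw [τ.AX_def, inner_add_left, hg, τ.inner_eq, ← sub_eq_add_neg]
  congr 1
  refine Finset.sum_congr rfl fun i _ => ?_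
  rw [τ.pr_ten]
  simp

/-- `AX` is symmetric for every skew family with `ll` positive definite -/
theorem AX_sy_of (τ : Ten ι V E) (hsk : ∀ i u v, ⟪D i u, v⟫_ℝ = -⟪u, D i v⟫_ℝ)
    (hp : PD (ll K D)) : Sy (τ.AX K D) := by
  have h1 : PD (lr K D) := psq_pd hp
  have h2 : PD (li K D) := inverse_pd h1
  intro e e'
  rw [inner_AX_of τ hsk, real_inner_comm (τ.AX K D e') e, inner_AX_of τ hsk]
  congr 1
  · refine Finset.sum_congr rfl fun i _ => ?_
    rw [inner_sub_left, inner_sub_left, h1.1, proj_inner K (τ.pr i e),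
      proj_inner K (τ.pr i e'), real_inner_comm (lr K D (τ.pr i e')),
      real_inner_comm (K.starProjection (τ.pr i e'))]
  · rw [h2.1, real_inner_comm]

theorem cmp_pd_of (τ : Ten ι V E) {s : ℝ} (h : Fam K s D) (hs : 0 < s) {Z : Submodule ℝ E}
    (hZ : ∀ z ∈ Z, (∀ i, τ.pr i z ∈ Kᗮ) ∧ τ.dv D z = 0) : PD (cmp Z (τ.AX K D)) := by
  refine ⟨cmp_sy (h.AX_sy τ hs), fun z hz => ?_⟩
  rw [inner_cmp]
  have h1 := h.AX_low τ hs (hZ z z.2).1 (hZ z z.2).2
  have h2 : 0 < ‖(z : E)‖ := by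
    rw [norm_pos_iff]
    exact fun h0 => hz (Subtype.ext h0)
  have h3 : 0 < s * ‖(z : E)‖ ^ 2 := by positivity
  linarith

end abs

/-! ## literal objects -/

variable {N : ℕ} (b : ColorBasis N)

/-- component map -/
def rowL (i : Fin 9) : Cfg N →L[ℝ] Colg N :=
  LinearMap.toContinuousLinearMap
    { toFun := fun x => comp x i
      map_add' := fun x y => comp_add x y i
      map_smul' := fun r x => comp_smul r x i }

theorem rowL_apply (i : Fin 9) (x : Cfg N) : rowL i x = comp x i := rfl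

/-- insertion map -/
def insL (i : Fin 9) : Colg N →L[ℝ] Cfg N :=
  LinearMap.toContinuousLinearMap
    { toFun := fun v => mkc (fun j => if j = i then v else 0)
      map_add' := fun v w => by
        refine ext_comp fun j => ?_
        rw [comp_add, comp_mkc, comp_mkc, comp_mkc]
        by_cases h : j = i <;> simp [h]
      map_smul' := fun r v => by
        refine ext_comp fun j => ?_
        rw [RingHom.id_apply, comp_smul, comp_mkc, comp_mkc]
        by_cases h : j = i <;> simp [h] }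

theorem comp_insL (i j : Fin 9) (v : Colg N) : comp (insL i v) j = if j = i then v else 0 := rfl

theorem comp_sum {κ : Type*} (s : Finset κ) (f : κ → Cfg N) (i : Fin 9) :
    comp (∑ k ∈ s, f k) i = ∑ k ∈ s, comp (f k) i := by
  exact map_sum (rowL (N := N) i) f s

/-- `Cfg N = ℝ⁹ ⊗ su(N)` -/
def tenC : Ten (Fin 9) (Colg N) (Cfg N) where
  pr := rowL
  ij := insL
  pr_same i v := by rw [rowL_apply, comp_insL, if_pos rfl]
  pr_ne i j v h := by rw [rowL_apply, comp_insL, if_neg h]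
  sum_ij e := by
    refine ext_comp fun i => ?_
    rw [comp_sum, Finset.sum_eq_single i]
    · rw [comp_insL, if_pos rfl, rowL_apply]
    · intro j _ hj
      rw [comp_insL, if_neg (Ne.symm hj)]
    · intro h; exact absurd (Finset.mem_univ i) h
  adj i v e := by
    rw [inner_comp, rowL_apply, Finset.sum_eq_single i]
    · rw [comp_insL, if_pos rfl]
    · intro j _ hj
      rw [comp_insL, if_neg hj, inner_zero_left]
    · intro h; exact absurd (Finset.mem_univ i) h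

theorem pr_tenC (i : Fin 9) (x : Cfg N) : (tenC (N := N)).pr i x = comp x i := rfl

/-- `[X_i, ·]` -/
def adX (X : Cfg N) (i : Fin 9) : Colg N →L[ℝ] Colg N :=
  LinearMap.toContinuousLinearMap ((colAlg b).br (comp X i))

theorem adX_apply (X : Cfg N) (i : Fin 9) (v : Colg N) :
    adX b X i v = (colAlg b).br (comp X i) v := rfl

theorem adX_skew (X : Cfg N) (i : Fin 9) (u v : Colg N) :
    ⟪adX b X i u, v⟫_ℝ = -⟪u, adX b X i v⟫_ℝ := (colAlg b).skew _ _ _

/-- `adX` as a linear map of the configuration -/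
def adXL (i : Fin 9) : Cfg N →ₗ[ℝ] (Colg N →L[ℝ] Colg N) where
  toFun X := adX b X i
  map_add' X Y := by
    ext1 v
    rw [adX_apply, comp_add, map_add, LinearMap.add_apply, add_apply,
      adX_apply, adX_apply]
  map_smul' r X := by
    ext1 v
    rw [adX_apply, comp_smul, map_smul, LinearMap.smul_apply, RingHom.id_apply,
      smul_apply, adX_apply]

theorem contDiff_adX {m : WithTop ℕ∞} (i : Fin 9) : ContDiff ℝ m (fun X : Cfg N => adX b X i) :=
  (LinearMap.toContinuousLinearMap (adXL b i)).contDiff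

theorem mem_kc_iff' {X : Cfg N} {w : Colg N} :
    w ∈ kc (actB b) X ↔ ∀ i, adX b X i w = 0 := by
  rw [kc_eq]
  rfl

/-- a commuting configuration gives a commuting skew family with a gap -/
theorem exists_fam {X : Cfg N} (hX : Comc b X) :
    ∃ s : ℝ, 0 < s ∧ Fam (kc (actB b) X) s (adX b X) :=
  exists_fam_of (adX_skew b X) (fun i j v => (colAlg b).comm_ad hX i j v)
    (fun _ => mem_kc_iff' b)

/-- the operator `|r| P_{r^⊥}` on `Cfg N` -/
def AXc (K : Submodule ℝ (Colg N)) (X : Cfg N) : Cfg N →L[ℝ] Cfg N := tenC.AX K (adX b X)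

/-- the quadratic form of the Gaussian -/
def QX (K : Submodule ℝ (Colg N)) (X z : Cfg N) : ℝ := ⟪AXc b K X z, z⟫_ℝ

theorem gd_adX (X : Cfg N) (w : Colg N) : tenC.gd (adX b X) w = -actB b w X := by
  refine ext_comp fun i => ?_
  have h1 : comp (tenC.gd (adX b X) w) i = adX b X i w := tenC.pr_gd (adX b X) w i
  have h2 : comp (-actB b w X) i = -comp (actB b w X) i := rfl
  rw [h1, h2, comp_act, adX_apply]
  exact (colAlg b).anti _ _

theorem dv_adX (X z : Cfg N) : tenC.dv (adX b X) z = ∑ i, (colAlg b).br (comp X i) (comp z i) := by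
  rw [tenC.dv_apply]
  rfl

section fixed

variable {b} {K : Submodule ℝ (Colg N)} {X : Cfg N}

theorem fam_of_eq (hX : Comc b X) (hK : kc (actB b) X = K) : ∃ s : ℝ, 0 < s ∧ Fam K s (adX b X) := by
  rw [← hK]; exact exists_fam b hX

theorem AXc_sy (hX : Comc b X) (hK : kc (actB b) X = K) (z w : Cfg N) :
    ⟪AXc b K X z, w⟫_ℝ = ⟪z, AXc b K X w⟫_ℝ := by
  obtain ⟨s, hs, h⟩ := fam_of_eq hX hK
  exact h.AX_sy tenC hs z w

/-- gauge directions are in the kernel -/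
theorem AXc_act (hX : Comc b X) (hK : kc (actB b) X = K) (w : Colg N) :
    AXc b K X (actB b w X) = 0 := by
  obtain ⟨s, hs, h⟩ := fam_of_eq hX hK
  have h1 := h.AX_gd tenC hs w
  rw [gd_adX, map_neg, neg_eq_zero] at h1
  exact h1


theorem comp_AXc_mem (hX : Comc b X) (hK : kc (actB b) X = K) (z : Cfg N) (i : Fin 9) :
    comp (AXc b K X z) i ∈ Kᗮ := by
  obtain ⟨s, hs, h⟩ := fam_of_eq hX hK
  exact h.pr_AX_mem tenC hs z i


theorem QX_nonneg (hX : Comc b X) (hK : kc (actB b) X = K) (z : Cfg N) : 0 ≤ QX b K X z := by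
  obtain ⟨s, hs, h⟩ := fam_of_eq hX hK
  exact (h.AX_ps tenC hs).2 z

theorem QX_add_of_ker (hX : Comc b X) (hK : kc (actB b) X = K) (z : Cfg N) {y : Cfg N}
    (hy : AXc b K X y = 0) : QX b K X (z + y) = QX b K X z := by
  unfold QX
  rw [map_add, hy, add_zero, inner_add_right, AXc_sy hX hK z y, hy, inner_zero_right, add_zero]

/-- `Q_X` does not see gauge directions -/
theorem QX_act (hX : Comc b X) (hK : kc (actB b) X = K) (z : Cfg N) (w : Colg N) :
    QX b K X (z + actB b w X) = QX b K X z := QX_add_of_ker hX hK z (AXc_act hX hK w)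





end fixed

/-! ## the chart -/

theorem mem_Zs_iff {c z : Cfg N} : z ∈ Zs b c ↔
    (∀ i, comp z i ∈ (kc (actB b) c)ᗮ) ∧ tenC.dv (adX b c) z = 0 := by
  constructor
  · rintro ⟨h1, h2⟩
    refine ⟨h1, ?_⟩
    have h3 : ∀ w, ⟪w, tenC.dv (adX b c) z⟫_ℝ = 0 := by
      intro w
      have h4 : ⟪tenC.gd (adX b c) w, z⟫_ℝ = -⟪w, tenC.dv (adX b c) z⟫_ℝ := by
        rw [tenC.inner_eq, tenC.dv_apply, inner_sum, ← Finset.sum_neg_distrib]
        refine Finset.sum_congr rfl fun i _ => ?_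
        rw [tenC.pr_gd, adX_skew]
      rw [gd_adX, inner_neg_left] at h4
      have h5 := Submodule.inner_right_of_mem_orthogonal (mem_Tn (A := actB b) (c := c) w) h2
      linarith
    exact inner_self_eq_zero.mp (h3 _)
  · rintro ⟨h1, h2⟩
    refine ⟨h1, ?_⟩
    show z ∈ (Tn (actB b) c)ᗮ
    rw [Submodule.mem_orthogonal]
    rintro x ⟨w, rfl⟩
    have h4 : ⟪tenC.gd (adX b c) w, z⟫_ℝ = -⟪w, tenC.dv (adX b c) z⟫_ℝ := by
      rw [tenC.inner_eq, tenC.dv_apply, inner_sum, ← Finset.sum_neg_distrib]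
      refine Finset.sum_congr rfl fun i _ => ?_
      rw [tenC.pr_gd, adX_skew]
    rw [gd_adX, inner_neg_left, h2, inner_zero_right, neg_zero] at h4
    have h5 : ⟪actB b w c, z⟫_ℝ = 0 := by linarith
    exact h5

/-- the compression of `AXc` to `Zs b c` -/
def AZ (c X : Cfg N) : Zs b c →L[ℝ] Zs b c := cmp (Zs b c) (AXc b (kc (actB b) c) X)


theorem inner_AZ_self (c X : Cfg N) (z : Zs b c) :
    ⟪AZ b c X z, z⟫_ℝ = QX b (kc (actB b) c) X z := inner_cmp _ _ _ _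

theorem ll_pd_self {c : Cfg N} (hc : Comc b c) : PD (ll (kc (actB b) c) (adX b c)) := by
  obtain ⟨s, hs, h⟩ := exists_fam b hc
  exact h.ll_pd hs

theorem AZ_pd {c : Cfg N} (hc : Comc b c) : PD (AZ b c c) := by
  obtain ⟨s, hs, h⟩ := exists_fam b hc
  exact cmp_pd_of tenC h hs fun z hz => (mem_Zs_iff b).mp hz

theorem eventually_ll {K : Submodule ℝ (Colg N)} {X : Cfg N} (hX : PD (ll K (adX b X))) :
    ∀ᶠ Y in 𝓝 X, PD (ll K (adX b Y)) := by
  have h1 : ContinuousAt (fun Y : Cfg N => ll K (adX b Y)) X :=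
    (contDiffAt_ll (m := 0) (K := K) (D := adX b)
      fun i => (contDiff_adX b i).contDiffAt).continuousAt
  filter_upwards [h1.eventually hX.eventually] with Y hY
  exact hY (sy_ll (adX_skew b Y))

theorem contDiffAt_AXc {K : Submodule ℝ (Colg N)} {X : Cfg N} (hX : PD (ll K (adX b X))) :
    ContDiffAt ℝ ∞ (fun Y => AXc b K Y) X :=
  contDiffAt_AX (D := adX b) tenC (by simp) hX (Eventually.of_forall fun Y => adX_skew b Y)
    fun i => (contDiff_adX b i).contDiffAt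

theorem contDiffAt_AZ {c X : Cfg N} (hX : PD (ll (kc (actB b) c) (adX b X))) :
    ContDiffAt ℝ ∞ (fun Y => AZ b c Y) X := contDiffAt_cmp _ (contDiffAt_AXc b hX)

theorem eventually_AZ_sy {c X : Cfg N} (hX : PD (ll (kc (actB b) c) (adX b X))) :
    ∀ᶠ Y in 𝓝 X, Sy (AZ b c Y) := by
  filter_upwards [eventually_ll b hX] with Y hY
  exact cmp_sy (AX_sy_of tenC (adX_skew b Y) hY)

/-- **the parameter region of the chart at `c`** -/
theorem exists_chart {c : Cfg N} (hc : Comc b c) :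
    ∃ (δ a K M : ℝ) (l : Cfg N → (Cfg N →L[ℝ] ℝ)), 0 < δ ∧
      PR (AZ b c) (Metric.ball c δ) a K M l ∧
      ∀ X ∈ Metric.ball c δ, PD (ll (kc (actB b) c) (adX b X)) := by
  have h0 := ll_pd_self b hc
  obtain ⟨δ, a, K, M, l, hδ, h⟩ := exists_PR (m := ∞) (by simp) (contDiffAt_AZ b h0)
    (eventually_AZ_sy b h0) (AZ_pd b hc)
  obtain ⟨δ', hδ', h'⟩ := Metric.eventually_nhds_iff_ball.mp (eventually_ll b h0)
  refine ⟨min δ δ', a, K, M, l, lt_min hδ hδ', h.mono Metric.isOpen_ball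
    (Metric.ball_subset_ball (min_le_left _ _)), fun X hX => h' X ?_⟩
  exact Metric.ball_subset_ball (min_le_right _ _) hX

/-- the normalised Gaussian on `Zs b c` -/
def ga (c : Cfg N) (g : ℝ) (X : Cfg N) (z : Zs b c) : ℝ := G g (AZ b c X) z

/-- coercivity of `Q_X` on `Zs b c`, uniform in the chart -/
theorem QX_low {c : Cfg N} {δ a K M : ℝ} {l : Cfg N → (Cfg N →L[ℝ] ℝ)}
    (h : PR (AZ b c) (Metric.ball c δ) a K M l) {X : Cfg N} (hX : X ∈ Metric.ball c δ)
    {z : Cfg N} (hz : z ∈ Zs b c) : a * ‖z‖ ^ 2 ≤ QX b (kc (actB b) c) X z := by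
  have h1 := (h.ub X hX).2.1 ⟨z, hz⟩
  rw [inner_AZ_self] at h1
  exact h1

section gaussian

variable {b} {c : Cfg N}





end gaussian

end Crest.Agent.R330.GBind984
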