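import Crest.Agent.R330.Bind6b_839
import Crest.Agent.R330.Transp_491
import Crest.Agent.R330.Bind6_839

-- ▼ part R330/F1b_581
section

/-!
# Row 330, CAP binding (helper581): the fibre inequalities (F1), (F1 odd), (F2) at `p = X + y'`

Abstract part: a family of first order operators `B α` on a finite dimensional Euclidean space `Z`
(fibre), close to a second family `B0 α` in the sense of (F3).  If (F1), (F2) hold for `B0` then
they hold for `B`.

* `dens v g f z = Σ_i ‖∂_{v i} f z‖² + g² ‖z‖² ‖f z‖²`, `Dn` its integral;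
* `hop v β w f z = Σ_i β i (∂_{v i} f z) + w z (f z)`;
* `Close` : (F3); `int_close` : `Σ_α ∫ ‖B α f - B0 α f‖² ≤ 2 |A| ε² Dn`;
* `F1_of`, `F1odd_of`, `F2_of`.
-/

set_option autoImplicit false
set_option linter.unusedSectionVars false

open MeasureTheory Filter Topology
open scoped ContDiff InnerProductSpace ENNReal

noncomputable section

namespace Crest.Agent.R330.F1b581

section abstr

variable {Z : Type*} [NormedAddCommGroup Z] [InnerProductSpace ℝ Z] [FiniteDimensional ℝ Z]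
  [MeasurableSpace Z] [BorelSpace Z] {μ : Measure Z} [IsFiniteMeasureOnCompacts μ]
  {F : Type*} [NormedAddCommGroup F] [InnerProductSpace ℂ F] [FiniteDimensional ℂ F]
  {κ A : Type*} [Fintype κ] [Fintype A]

/-- the density `|∂ f|² + g² |z|² |f|²` -/
def dens (v : OrthonormalBasis κ ℝ Z) (g : ℝ) (f : Z → F) (z : Z) : ℝ :=
  ∑ i, ‖fderiv ℝ f z (v i)‖ ^ 2 + g ^ 2 * ‖z‖ ^ 2 * ‖f z‖ ^ 2

/-- its integral -/
def Dn (μ : Measure Z) (v : OrthonormalBasis κ ℝ Z) (g : ℝ) (f : Z → F) : ℝ :=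
  ∫ z, dens v g f z ∂μ

/-- first order operator -/
def hop (v : OrthonormalBasis κ ℝ Z) (β : κ → F →ₗ[ℂ] F) (w : Z → F →ₗ[ℂ] F) (f : Z → F)
    (z : Z) : F :=
  ∑ i, β i (fderiv ℝ f z (v i)) + w z (f z)

/-- (F3): the two families are close -/
def Close (v : OrthonormalBasis κ ℝ Z) (g ε : ℝ) (β β0 : A → κ → F →ₗ[ℂ] F)
    (w w0 : A → Z → F →ₗ[ℂ] F) : Prop :=
  ∀ (α : A) (z : Z) (D : Z →L[ℝ] F) (x : F),
    ‖(∑ i, β α i (D (v i)) + w α z x) - (∑ i, β0 α i (D (v i)) + w0 α z x)‖ ≤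
      ε * (‖D‖ + g * ‖z‖ * ‖x‖)

theorem dens_nonneg (v : OrthonormalBasis κ ℝ Z) (g : ℝ) (f : Z → F) (z : Z) :
    0 ≤ dens v g f z := by unfold dens; positivity

/-- operator norm and the orthonormal basis -/
theorem opNorm_sq_le (v : OrthonormalBasis κ ℝ Z) (D : Z →L[ℝ] F) :
    ‖D‖ ^ 2 ≤ ∑ i, ‖D (v i)‖ ^ 2 := by
  have h0 : 0 ≤ ∑ i, ‖D (v i)‖ ^ 2 := Finset.sum_nonneg fun i _ => by positivity
  have h1 : ‖D‖ ≤ Real.sqrt (∑ i, ‖D (v i)‖ ^ 2) := by
    refine D.opNorm_le_bound (Real.sqrt_nonneg _) fun x => ?_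
    have h2 : D x = ∑ i, ⟪v i, x⟫_ℝ • D (v i) := by
      conv_lhs => rw [← v.sum_repr' x]
      rw [map_sum]
      exact Finset.sum_congr rfl fun i _ => map_smul _ _ _
    rw [h2]
    refine (norm_sum_le _ _).trans ?_
    have h3 : ∀ i, ‖⟪v i, x⟫_ℝ • D (v i)‖ = |⟪v i, x⟫_ℝ| * ‖D (v i)‖ := fun i => by
      rw [norm_smul, Real.norm_eq_abs]
    simp only [h3]
    have h4 := Finset.sum_mul_sq_le_sq_mul_sq Finset.univ (fun i => |⟪v i, x⟫_ℝ|)
      (fun i => ‖D (v i)‖)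
    have h5 : ∑ i, |⟪v i, x⟫_ℝ| ^ 2 = ‖x‖ ^ 2 := by
      have h6 := v.sum_sq_norm_inner_right x
      simpa [sq_abs] using h6
    rw [h5] at h4
    have h7 : 0 ≤ ∑ i, |⟪v i, x⟫_ℝ| * ‖D (v i)‖ := Finset.sum_nonneg fun i _ => by positivity
    refine (pow_le_pow_iff_left₀ h7 (by positivity) two_ne_zero).1 ?_
    rw [mul_pow, Real.sq_sqrt h0]
    linarith
  calc ‖D‖ ^ 2 ≤ Real.sqrt (∑ i, ‖D (v i)‖ ^ 2) ^ 2 := by gcongr
    _ = _ := Real.sq_sqrt h0

theorem close_sq {v : OrthonormalBasis κ ℝ Z} {g ε : ℝ} {β β0 : A → κ → F →ₗ[ℂ] F}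
    {w w0 : A → Z → F →ₗ[ℂ] F} (hc : Close v g ε β β0 w w0) (f : Z → F) (α : A) (z : Z) :
    ‖hop v (β α) (w α) f z - hop v (β0 α) (w0 α) f z‖ ^ 2 ≤ 2 * ε ^ 2 * dens v g f z := by
  have h1 := hc α z (fderiv ℝ f z) (f z)
  have h2 := opNorm_sq_le v (fderiv ℝ f z)
  have h3 : ‖hop v (β α) (w α) f z - hop v (β0 α) (w0 α) f z‖ ≤
      ε * (‖fderiv ℝ f z‖ + g * ‖z‖ * ‖f z‖) := h1
  calc ‖hop v (β α) (w α) f z - hop v (β0 α) (w0 α) f z‖ ^ 2
      ≤ (ε * (‖fderiv ℝ f z‖ + g * ‖z‖ * ‖f z‖)) ^ 2 := by gcongr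
    _ ≤ 2 * ε ^ 2 * (‖fderiv ℝ f z‖ ^ 2 + (g * ‖z‖ * ‖f z‖) ^ 2) := by
        nlinarith [mul_nonneg (sq_nonneg ε) (sq_nonneg (‖fderiv ℝ f z‖ - g * ‖z‖ * ‖f z‖))]
    _ ≤ 2 * ε ^ 2 * dens v g f z := by
        unfold dens
        have : (g * ‖z‖ * ‖f z‖) ^ 2 = g ^ 2 * ‖z‖ ^ 2 * ‖f z‖ ^ 2 := by ring
        rw [this]
        gcongr

/-! ### integrability -/

theorem cont_fderiv {f : Z → F} (hf : ContDiff ℝ 1 f) (w : Z) :
    Continuous fun z => fderiv ℝ f z w :=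
  (hf.continuous_fderiv (by norm_num)).clm_apply continuous_const

theorem cont_dens (v : OrthonormalBasis κ ℝ Z) (g : ℝ) {f : Z → F} (hf : ContDiff ℝ 1 f) :
    Continuous (dens v g f) := by
  unfold dens
  refine Continuous.add (continuous_finsetSum _ fun i _ => ((cont_fderiv hf _).norm.pow 2)) ?_
  exact (continuous_const.mul (continuous_norm.pow 2)).mul (hf.continuous.norm.pow 2)

theorem supp_zero {f : Z → F} {z : Z} (hz : z ∉ tsupport f) : fderiv ℝ f z = 0 ∧ f z = 0 := by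
  have h1 : f =ᶠ[𝓝 z] 0 := notMem_tsupport_iff_eventuallyEq.mp hz
  refine ⟨?_, h1.eq_of_nhds⟩
  rw [h1.fderiv_eq]
  simp

theorem supp_dens (v : OrthonormalBasis κ ℝ Z) (g : ℝ) {f : Z → F} (hf : HasCompactSupport f) :
    HasCompactSupport (dens v g f) := by
  refine hf.mono' fun x hx => ?_
  by_contra h0
  apply hx
  obtain ⟨h1, h2⟩ := supp_zero h0
  simp [dens, h1, h2]

theorem int_dens (v : OrthonormalBasis κ ℝ Z) (g : ℝ) {f : Z → F} (hf : ContDiff ℝ 1 f)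
    (hc : HasCompactSupport f) : Integrable (dens v g f) μ :=
  (cont_dens v g hf).integrable_of_hasCompactSupport (supp_dens v g hc)

theorem cont_hop (v : OrthonormalBasis κ ℝ Z) {β : κ → F →ₗ[ℂ] F} {w : Z → F →ₗ[ℂ] F}
    (hw : ∀ φ : Z → F, Continuous φ → Continuous fun z => w z (φ z))
    {f : Z → F} (hf : ContDiff ℝ 1 f) : Continuous (hop v β w f) := by
  unfold hop
  refine Continuous.add (continuous_finsetSum _ fun i _ => ?_) (hw _ hf.continuous)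
  exact (β i).continuous_of_finiteDimensional.comp (cont_fderiv hf _)

theorem supp_hop (v : OrthonormalBasis κ ℝ Z) (β : κ → F →ₗ[ℂ] F) (w : Z → F →ₗ[ℂ] F)
    {f : Z → F} (hf : HasCompactSupport f) : HasCompactSupport (hop v β w f) := by
  refine hf.mono' fun x hx => ?_
  by_contra h0
  apply hx
  obtain ⟨h1, h2⟩ := supp_zero h0
  simp [hop, h1, h2]

theorem int_sq {h : Z → F} (hh : Continuous h) (hc : HasCompactSupport h) :
    Integrable (fun z => ‖h z‖ ^ 2) μ := by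
  refine (hh.norm.pow 2).integrable_of_hasCompactSupport ?_
  exact hc.mono' fun x hx => subset_tsupport _ (by intro h0; apply hx; simp [h0])

/-- sum of the energies -/
def Sn (μ : Measure Z) (v : OrthonormalBasis κ ℝ Z) (β : A → κ → F →ₗ[ℂ] F)
    (w : A → Z → F →ₗ[ℂ] F) (f : Z → F) : ℝ :=
  ∑ α, ∫ z, ‖hop v (β α) (w α) f z‖ ^ 2 ∂μ

theorem Sn_nonneg (v : OrthonormalBasis κ ℝ Z) (β : A → κ → F →ₗ[ℂ] F)
    (w : A → Z → F →ₗ[ℂ] F) (f : Z → F) : 0 ≤ Sn μ v β w f :=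
  Finset.sum_nonneg fun _ _ => integral_nonneg fun _ => by positivity

theorem Dn_nonneg (v : OrthonormalBasis κ ℝ Z) (g : ℝ) (f : Z → F) : 0 ≤ Dn μ v g f :=
  integral_nonneg fun z => dens_nonneg v g f z

/-- `S0 ≤ 2 S + 4 |A| ε² D` -/
theorem Sn_le {v : OrthonormalBasis κ ℝ Z} {g ε : ℝ} {β β0 : A → κ → F →ₗ[ℂ] F}
    {w w0 : A → Z → F →ₗ[ℂ] F} (hc : Close v g ε β β0 w w0)
    (hw : ∀ α, ∀ φ : Z → F, Continuous φ → Continuous fun z => w α z (φ z))
    (hw0 : ∀ α, ∀ φ : Z → F, Continuous φ → Continuous fun z => w0 α z (φ z))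
    {f : Z → F} (hf : ContDiff ℝ 1 f) (hcs : HasCompactSupport f) :
    Sn μ v β0 w0 f ≤ 2 * Sn μ v β w f + 4 * (Fintype.card A : ℝ) * ε ^ 2 * Dn μ v g f := by
  have h1 : ∀ α, ∫ z, ‖hop v (β0 α) (w0 α) f z‖ ^ 2 ∂μ ≤
      2 * ∫ z, ‖hop v (β α) (w α) f z‖ ^ 2 ∂μ + 4 * ε ^ 2 * Dn μ v g f := by
    intro α
    have i0 : Integrable (fun z => ‖hop v (β0 α) (w0 α) f z‖ ^ 2) μ :=
      int_sq (cont_hop v (hw0 α) hf) (supp_hop v _ _ hcs)
    have i1 : Integrable (fun z => ‖hop v (β α) (w α) f z‖ ^ 2) μ :=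
      int_sq (cont_hop v (hw α) hf) (supp_hop v _ _ hcs)
    have i2 := int_dens (μ := μ) v g hf hcs
    unfold Dn
    rw [← integral_const_mul, ← integral_const_mul, ← integral_add (i1.const_mul 2)
      (i2.const_mul _)]
    refine integral_mono i0 ((i1.const_mul 2).add (i2.const_mul _)) fun z => ?_
    have h2 := close_sq hc f α z
    have h3 : hop v (β0 α) (w0 α) f z = hop v (β α) (w α) f z -
        (hop v (β α) (w α) f z - hop v (β0 α) (w0 α) f z) := by abel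
    have h4 : ‖hop v (β0 α) (w0 α) f z‖ ≤ ‖hop v (β α) (w α) f z‖ +
        ‖hop v (β α) (w α) f z - hop v (β0 α) (w0 α) f z‖ := by
      conv_lhs => rw [h3]
      exact norm_sub_le _ _
    simp only
    have h5 : ‖hop v (β0 α) (w0 α) f z‖ ^ 2 ≤ (‖hop v (β α) (w α) f z‖ +
        ‖hop v (β α) (w α) f z - hop v (β0 α) (w0 α) f z‖) ^ 2 := by gcongr
    nlinarith [sq_nonneg (‖hop v (β α) (w α) f z‖ -
        ‖hop v (β α) (w α) f z - hop v (β0 α) (w0 α) f z‖)]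
  unfold Sn
  calc ∑ α, ∫ z, ‖hop v (β0 α) (w0 α) f z‖ ^ 2 ∂μ
      ≤ ∑ α, (2 * ∫ z, ‖hop v (β α) (w α) f z‖ ^ 2 ∂μ + 4 * ε ^ 2 * Dn μ v g f) :=
        Finset.sum_le_sum fun α _ => h1 α
    _ = _ := by
        rw [Finset.sum_add_distrib, ← Finset.mul_sum, Finset.sum_const, Finset.card_univ,
          nsmul_eq_mul]
        ring

/-! ### the three inequalities, abstract reals -/

/-- (F1) -/
theorem real_F1 {S S0 D Q K δ : ℝ} (hK : 0 ≤ K) (hδ : 4 * K * δ ≤ 1) (hD : 0 ≤ D)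
    (h1 : D ≤ K * (S0 + Q)) (h2 : S0 ≤ 2 * S + 2 * δ * D) (hQ : 0 ≤ Q) :
    D ≤ 4 * K * (S + Q) := by
  have h3 : K * S0 ≤ K * (2 * S + 2 * δ * D) := mul_le_mul_of_nonneg_left h2 hK
  have h4 : 4 * K * δ * D ≤ 1 * D := mul_le_mul_of_nonneg_right hδ hD
  have h5 : 0 ≤ K * Q := mul_nonneg hK hQ
  nlinarith

/-- (F2) -/
theorem real_F2 {S S0 D Q K δ T : ℝ} (hK : 0 ≤ K) (hδ : 4 * K * δ ≤ 1) (hδ0 : 0 ≤ δ)
    (hS : 0 ≤ S) (h1 : D ≤ 4 * K * (S + Q)) (h2 : S0 ≤ 2 * S + 2 * δ * D)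
    (h3 : T ≤ K * S0) : T ≤ 4 * K * S + 8 * K ^ 2 * δ * Q := by
  have h4 : K * S0 ≤ K * (2 * S + 2 * δ * D) := mul_le_mul_of_nonneg_left h2 hK
  have h5 : K * δ * D ≤ K * δ * (4 * K * (S + Q)) :=
    mul_le_mul_of_nonneg_left h1 (mul_nonneg hK hδ0)
  have h6 : 4 * K * δ * (K * S) ≤ 1 * (K * S) :=
    mul_le_mul_of_nonneg_right hδ (mul_nonneg hK hS)
  nlinarith

/-- (F1 odd) -/
theorem real_odd {S D Q K δ : ℝ} (hK : 0 ≤ K) (hδ2 : 16 * K ^ 2 * δ ≤ 1)
    (hQ : 0 ≤ Q) (h1 : D ≤ 4 * K * (S + Q)) (h3 : Q ≤ 4 * K * S + 8 * K ^ 2 * δ * Q) :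
    D + Q ≤ (32 * K ^ 2 + 12 * K) * S := by
  have h4 : 16 * K ^ 2 * δ * Q ≤ 1 * Q := mul_le_mul_of_nonneg_right hδ2 hQ
  have h5 : Q ≤ 8 * K * S := by nlinarith
  have h6 : 4 * K * Q ≤ 4 * K * (8 * K * S) := mul_le_mul_of_nonneg_left h5 (by linarith)
  nlinarith

/-! ### the fibre inequalities -/

section main

variable {v : OrthonormalBasis κ ℝ Z} {g ε K : ℝ} {β β0 : A → κ → F →ₗ[ℂ] F}
  {w w0 : A → Z → F →ₗ[ℂ] F}

/-- **(F1) at `p`.** -/
theorem F1_of (hc : Close v g ε β β0 w w0)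
    (hw : ∀ α, ∀ φ : Z → F, Continuous φ → Continuous fun z => w α z (φ z))
    (hw0 : ∀ α, ∀ φ : Z → F, Continuous φ → Continuous fun z => w0 α z (φ z))
    (hg : 0 ≤ g) (hK : 0 ≤ K) (hε : 8 * K * ((Fintype.card A : ℝ) * ε ^ 2) ≤ 1)
    {f : Z → F} (hf : ContDiff ℝ 1 f) (hcs : HasCompactSupport f)
    (h1 : Dn μ v g f ≤ K * (Sn μ v β0 w0 f + g * ∫ z, ‖f z‖ ^ 2 ∂μ)) :
    Dn μ v g f ≤ 4 * K * (Sn μ v β w f + g * ∫ z, ‖f z‖ ^ 2 ∂μ) := by
  have h2 := Sn_le (μ := μ) hc hw hw0 hf hcs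
  have hQ : 0 ≤ g * ∫ z, ‖f z‖ ^ 2 ∂μ :=
    mul_nonneg hg (integral_nonneg fun _ => by positivity)
  refine real_F1 (δ := 2 * ((Fintype.card A : ℝ) * ε ^ 2)) hK (by linarith)
    (Dn_nonneg v g f) h1 ?_ hQ
  calc _ ≤ _ := h2
    _ = _ := by ring

/-- **(F2) at `p`**; `T = g ∫ ‖f - P f‖²`. -/
theorem F2_of (hc : Close v g ε β β0 w w0)
    (hw : ∀ α, ∀ φ : Z → F, Continuous φ → Continuous fun z => w α z (φ z))
    (hw0 : ∀ α, ∀ φ : Z → F, Continuous φ → Continuous fun z => w0 α z (φ z))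
    (hg : 0 ≤ g) (hK : 0 ≤ K) (hε : 8 * K * ((Fintype.card A : ℝ) * ε ^ 2) ≤ 1)
    {f : Z → F} (hf : ContDiff ℝ 1 f) (hcs : HasCompactSupport f)
    (h1 : Dn μ v g f ≤ K * (Sn μ v β0 w0 f + g * ∫ z, ‖f z‖ ^ 2 ∂μ))
    {T : ℝ} (hT : T ≤ K * Sn μ v β0 w0 f) :
    T ≤ 4 * K * Sn μ v β w f +
      16 * K ^ 2 * ((Fintype.card A : ℝ) * ε ^ 2) * (g * ∫ z, ‖f z‖ ^ 2 ∂μ) := by
  have h2 := Sn_le (μ := μ) hc hw hw0 hf hcs
  have h3 := F1_of (μ := μ) hc hw hw0 hg hK hε hf hcs h1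
  have h4 := real_F2 (δ := 2 * ((Fintype.card A : ℝ) * ε ^ 2)) hK (by linarith)
    (by positivity) (Sn_nonneg v β w f) h3 (h2.trans (le_of_eq (by ring))) hT
  calc _ ≤ _ := h4
    _ = _ := by ring

/-- **(F1 odd) at `p`.** -/
theorem F1odd_of (hc : Close v g ε β β0 w w0)
    (hw : ∀ α, ∀ φ : Z → F, Continuous φ → Continuous fun z => w α z (φ z))
    (hw0 : ∀ α, ∀ φ : Z → F, Continuous φ → Continuous fun z => w0 α z (φ z))
    (hg : 0 ≤ g) (hK : 0 ≤ K) (hε : 8 * K * ((Fintype.card A : ℝ) * ε ^ 2) ≤ 1)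
    (hε2 : 32 * K ^ 2 * ((Fintype.card A : ℝ) * ε ^ 2) ≤ 1)
    {f : Z → F} (hf : ContDiff ℝ 1 f) (hcs : HasCompactSupport f)
    (h1 : Dn μ v g f ≤ K * (Sn μ v β0 w0 f + g * ∫ z, ‖f z‖ ^ 2 ∂μ))
    (hT : g * ∫ z, ‖f z‖ ^ 2 ∂μ ≤ K * Sn μ v β0 w0 f) :
    Dn μ v g f + g * ∫ z, ‖f z‖ ^ 2 ∂μ ≤ (32 * K ^ 2 + 12 * K) * Sn μ v β w f := by
  have hQ : 0 ≤ g * ∫ z, ‖f z‖ ^ 2 ∂μ :=
    mul_nonneg hg (integral_nonneg fun _ => by positivity)
  have h3 := F1_of (μ := μ) hc hw hw0 hg hK hε hf hcs h1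
  have h4 := F2_of (μ := μ) hc hw hw0 hg hK hε hf hcs h1 hT
  refine real_odd (δ := 2 * ((Fintype.card A : ℝ) * ε ^ 2)) hK (by linarith) hQ h3 ?_
  calc _ ≤ _ := h4
    _ = _ := by ring

end main

end abstr

/-! ## Literal form on the fixed slice -/

open Crest.MathPhysics.MatrixQM
open Crest.Agent.R330.IBP837 Crest.Agent.R330.Defs478 Crest.Agent.R330.Frame839
open Crest.Agent.R330.LS839 Crest.Agent.R330.Clus839 Crest.Agent.R330.Bind6839

section literal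

variable {N : ℕ} {F : Type*} [NormedAddCommGroup F] [InnerProductSpace ℂ F]
  [FiniteDimensional ℂ F]

/-- coefficients of the heavy charge at `p` on the fibre `Zs b c` -/
def bz (b : ColorBasis N) (c : Cfg N) (M : FermionRep N F) (G : GammaNine) {κ κ' : Type}
    [Fintype κ'] (v : κ → Zs b c) (t : OrthonormalBasis κ' ℝ (Tn (actB b) c)) (p : Cfg N)
    (α : Fin 16) (i : κ) : F →ₗ[ℂ] F := aB b c M G α t p (v i)

/-- potential of the heavy charge at `p` on the fibre `Zs b c` -/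
def wz (b : ColorBasis N) (c : Cfg N) (M : FermionRep N F) (G : GammaNine) (g : ℝ) (p : Cfg N)
    (α : Fin 16) (z : Zs b c) : F →ₗ[ℂ] F := wB b M G g α p z

theorem continuous_wz (b : ColorBasis N) (c : Cfg N) (M : FermionRep N F) (G : GammaNine)
    (g : ℝ) (p : Cfg N) (α : Fin 16) (φ : Zs b c → F) (hφ : Continuous φ) :
    Continuous fun z => wz b c M G g p α z (φ z) := by
  unfold wz wB
  simp only [vco_apply]
  refine continuous_finsetSum _ fun A _ => continuous_finsetSum _ fun β _ => ?_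
  refine Continuous.smul ?_ ?_
  · refine Complex.continuous_ofReal.comp ?_
    refine continuous_const.mul ?_
    unfold wb
    refine continuous_finsetSum _ fun B _ => continuous_finsetSum _ fun C _ =>
      continuous_finsetSum _ fun i _ => continuous_finsetSum _ fun j _ => ?_
    refine Continuous.mul (Continuous.mul continuous_const ?_) continuous_const
    fun_prop
  · exact (M.θ β A).continuous_of_finiteDimensional.comp hφ

/-- **(F3) on the fibre.** -/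
theorem close_of (b : ColorBasis N) (M : FermionRep N F) (G : GammaNine) {r B : ℝ}
    (hr0 : 0 < r) (hB0 : 0 ≤ B) (hB : ActBound (actB b) B) :
    ∃ C : ℝ, 0 ≤ C ∧ ∀ (g : ℝ), 0 ≤ g → ∀ (c : Cfg N), GapAt (actB b) c r →
      ∀ (κ κ' : Type) [Fintype κ] [Fintype κ']
      (v : OrthonormalBasis κ ℝ (Zs b c)) (t : OrthonormalBasis κ' ℝ (Tn (actB b) c))
      (p p' : Cfg N), B * ‖p - c‖ ≤ r / 2 → B * ‖p' - c‖ ≤ r / 2 →
      Close v g (C * ‖p - p'‖) (bz b c M G v t p) (bz b c M G v t p')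
        (wz b c M G g p) (wz b c M G g p') := by
  obtain ⟨C, hC, h⟩ := Bind6b839.F3 b M G hr0 hB0 hB
  refine ⟨C, hC, fun g hg c hr κ κ' _ _ v t p p' hp hp' α z D x => ?_⟩
  let D' : Cfg N →L[ℝ] F := D ∘L (Zs b c).orthogonalProjectionOnto
  have h1 : ∀ i, D' ((v i : Zs b c) : Cfg N) = D (v i) := by
    intro i
    change D ((Zs b c).orthogonalProjectionOnto ((v i : Zs b c) : Cfg N)) = _
    rw [Submodule.orthogonalProjectionOnto_mem_subspace_eq_self]
  have h2 : ‖D'‖ ≤ ‖D‖ := by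
    refine (D.opNorm_comp_le _).trans ?_
    have := (Zs b c).orthogonalProjectionOnto_norm_le
    calc ‖D‖ * ‖(Zs b c).orthogonalProjectionOnto‖ ≤ ‖D‖ * 1 := by gcongr
      _ = _ := mul_one _
  have h3 := h g hg α c hr κ κ' v t p p' z hp hp' D' x
  simp only [h1] at h3
  refine h3.trans ?_
  gcongr
  rfl

/-- heavy charges at `p` on the fibre, sum of the energies -/
def SB (b : ColorBasis N) (c : Cfg N) (M : FermionRep N F) (G : GammaNine) {κ κ' : Type}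
    [Fintype κ] [Fintype κ'] (v : OrthonormalBasis κ ℝ (Zs b c))
    (t : OrthonormalBasis κ' ℝ (Tn (actB b) c)) (g : ℝ) (p : Cfg N) (f : Zs b c → F) : ℝ :=
  Sn volume v (bz b c M G v t p) (wz b c M G g p) f


/-- **The fibre inequalities at `p = X + y'` from those at `X`** (uniform in `c`, `p`, `X`, `g`).
`T` is any number, e.g. `g ∫ ‖f - P_X f‖²`. -/
theorem fibre (b : ColorBasis N) (M : FermionRep N F) (G : GammaNine) {r B K : ℝ}
    (hr0 : 0 < r) (hB0 : 0 ≤ B) (hB : ActBound (actB b) B) (hK : 0 ≤ K) :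
    ∃ η : ℝ, 0 < η ∧ ∃ K' : ℝ, 0 ≤ K' ∧ ∀ (g : ℝ), 0 ≤ g → ∀ (c : Cfg N),
      GapAt (actB b) c r → ∀ (κ κ' : Type) [Fintype κ] [Fintype κ']
      (v : OrthonormalBasis κ ℝ (Zs b c)) (t : OrthonormalBasis κ' ℝ (Tn (actB b) c))
      (p X : Cfg N), B * ‖p - c‖ ≤ r / 2 → B * ‖X - c‖ ≤ r / 2 → ‖p - X‖ ≤ η →
      ∀ f : Zs b c → F, ContDiff ℝ 1 f → HasCompactSupport f →
      Dn volume v g f ≤ K * (SB b c M G v t g X f + g * ∫ z, ‖f z‖ ^ 2) →
      (Dn volume v g f ≤ K' * (SB b c M G v t g p f + g * ∫ z, ‖f z‖ ^ 2)) ∧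
      (∀ T : ℝ, T ≤ K * SB b c M G v t g X f →
        T ≤ K' * (SB b c M G v t g p f + ‖p - X‖ ^ 2 * (g * ∫ z, ‖f z‖ ^ 2))) ∧
      (g * ∫ z, ‖f z‖ ^ 2 ≤ K * SB b c M G v t g X f →
        Dn volume v g f + g * ∫ z, ‖f z‖ ^ 2 ≤ K' * SB b c M G v t g p f) := by
  obtain ⟨C, hC, hcl⟩ := close_of b M G hr0 hB0 hB
  -- choice of the constants
  set Q : ℝ := 16 * C ^ 2 with hQ
  have hQ0 : 0 ≤ Q := by positivity
  set η : ℝ := 1 / (1 + 8 * K * Q + 32 * K ^ 2 * Q) with hη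
  have hden : 0 < 1 + 8 * K * Q + 32 * K ^ 2 * Q := by positivity
  have hη0 : 0 < η := by positivity
  have hη1 : η ≤ 1 := by
    rw [hη, div_le_one hden]
    have : 0 ≤ 8 * K * Q + 32 * K ^ 2 * Q := by positivity
    linarith
  have hηd : η * (1 + 8 * K * Q + 32 * K ^ 2 * Q) = 1 := by
    rw [hη]
    field_simp
  refine ⟨η, hη0, 4 * K + 32 * K ^ 2 + 12 * K + 16 * K ^ 2 * Q, by positivity,
    fun g hg c hr κ κ' _ _ v t p X hp hX hpX f hf hcs h1 => ?_⟩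
  have hc := hcl g hg c hr κ κ' v t p X hp hX
  have hcw := fun α (φ : Zs b c → F) (hφ : Continuous φ) => continuous_wz b c M G g p α φ hφ
  have hcw0 := fun α (φ : Zs b c → F) (hφ : Continuous φ) => continuous_wz b c M G g X α φ hφ
  have hI : 0 ≤ g * ∫ z, ‖f z‖ ^ 2 := mul_nonneg hg (integral_nonneg fun _ => by positivity)
  have hS := Sn_nonneg (μ := volume) v (bz b c M G v t p) (wz b c M G g p) f
  have hcard : (Fintype.card (Fin 16) : ℝ) = 16 := by simp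
  have hε0 : (Fintype.card (Fin 16) : ℝ) * (C * ‖p - X‖) ^ 2 = Q * ‖p - X‖ ^ 2 := by
    rw [hcard, hQ]
    ring
  have hn0 := norm_nonneg (p - X)
  have hsq : ‖p - X‖ ^ 2 ≤ η := by
    calc ‖p - X‖ ^ 2 ≤ η ^ 2 := by gcongr
      _ ≤ η := by nlinarith
  have hKQ : 0 ≤ K * Q := mul_nonneg hK hQ0
  have hKQ2 : 0 ≤ K ^ 2 * Q := by positivity
  have hε : 8 * K * ((Fintype.card (Fin 16) : ℝ) * (C * ‖p - X‖) ^ 2) ≤ 1 := by
    rw [hε0]
    have : K * Q * ‖p - X‖ ^ 2 ≤ K * Q * η := mul_le_mul_of_nonneg_left hsq hKQ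
    nlinarith
  have hε2 : 32 * K ^ 2 * ((Fintype.card (Fin 16) : ℝ) * (C * ‖p - X‖) ^ 2) ≤ 1 := by
    rw [hε0]
    have : K ^ 2 * Q * ‖p - X‖ ^ 2 ≤ K ^ 2 * Q * η := mul_le_mul_of_nonneg_left hsq hKQ2
    nlinarith
  have e1 : 0 ≤ K * Sn volume v (bz b c M G v t p) (wz b c M G g p) f := mul_nonneg hK hS
  have e2 : 0 ≤ K ^ 2 * Sn volume v (bz b c M G v t p) (wz b c M G g p) f := by positivity
  have e3 : 0 ≤ K ^ 2 * Q * Sn volume v (bz b c M G v t p) (wz b c M G g p) f := by positivity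
  have e4 : 0 ≤ K * (g * ∫ z, ‖f z‖ ^ 2) := mul_nonneg hK hI
  have e5 : 0 ≤ K ^ 2 * (g * ∫ z, ‖f z‖ ^ 2) := by positivity
  have e6 : 0 ≤ K ^ 2 * Q * (g * ∫ z, ‖f z‖ ^ 2) := by positivity
  refine ⟨?_, fun T hT => ?_, fun hodd => ?_⟩
  · have h2 := F1_of (μ := volume) hc hcw hcw0 hg hK hε hf hcs h1
    refine h2.trans ?_
    unfold SB
    nlinarith
  · have h2 := F2_of (μ := volume) hc hcw hcw0 hg hK hε hf hcs h1 hT
    refine h2.trans ?_
    rw [hε0]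
    unfold SB
    have e7 : 0 ≤ K * (‖p - X‖ ^ 2 * (g * ∫ z, ‖f z‖ ^ 2)) := by positivity
    have e8 : 0 ≤ K ^ 2 * (‖p - X‖ ^ 2 * (g * ∫ z, ‖f z‖ ^ 2)) := by positivity
    nlinarith
  · have h2 := F1odd_of (μ := volume) hc hcw hcw0 hg hK hε hε2 hf hcs h1 hodd
    refine h2.trans ?_
    unfold SB
    nlinarith

end literal

end Crest.Agent.R330.F1b581

end
end

-- ▼ part R330/Transp2_491

/-!
# Row 330, section 9.1(e) (helper491): heavy charges on the fixed slice, literal instance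

Over `Bind6_839` (`Uk b c = R⁹ ⊗ k`, `Mm b c = R⁹ ⊗ kᗮ`, `Zs b c = Mm ⊓ Nor`, `aB`, `wB`).

* `slice` : `Slice (actB b) c (Zs b c) p` for `p ∈ Uk b c`.
* `wB_act` : `wB p [v, p] = 0` for commuting `p`.
* `Bh b c M G g α v t p f z` : heavy charge of `lsMain_split` at `p` on functions `f : Zs b c → F`;
  `Bh_eq` : it is `Transp491.Bc`; `Hx b M G g α X e f` : heavy charge at `X` on `Zs b X → F`.
* `Zb_eq` : `Zb = Zs b p` if `p ∈ Uk b c` has the stabiliser algebra of `c`.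
* `F1_lit`, `F2_lit` : (F1), (F2) for `Bh b c .. p` from (F1), (F2) for `Hx b .. p`.
* `F3_lit` : `‖Bh p f z - Bh p' f z‖ ≤ C ‖p - p'‖ (‖∂f‖ + g ‖z‖ ‖f‖)`.
-/

set_option autoImplicit false
set_option linter.unusedSectionVars false

open MeasureTheory Filter Topology Crest.MathPhysics.MatrixQM
open Crest.Agent.R330.IBP837 Crest.Agent.R330.Defs478 Crest.Agent.R330.Frame839
open Crest.Agent.R330.LS839 Crest.Agent.R330.Clus839 Crest.Agent.R330.Bind6839
open Crest.Agent.R330.Transp491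
open scoped ContDiff InnerProductSpace ENNReal

noncomputable section

namespace Crest.Agent.R330.Transp2491

variable {N : ℕ} {b : ColorBasis N} {c : Cfg N}

theorem Mm_eq : Tn (actB b) c ⊔ Zs b c = Mm b c := by
  unfold Zs
  rw [inf_comm]
  exact Submodule.sup_orthogonal_inf_of_hasOrthogonalProjection Tn_le_Mm

theorem slice {p : Cfg N} (hp : p ∈ Uk b c) : Slice (actB b) c (Zs b c) p where
  perp := inf_le_right
  mem v hv := by
    rw [Mm_eq]
    exact act_mem_Mm hp hv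

theorem Tb_eq {p : Cfg N} (hk : kc (actB b) p = kc (actB b) c) :
    Tb (actB b) c p = Tn (actB b) p := by
  ext x
  constructor
  · rintro ⟨v, _, rfl⟩
    exact ⟨v, rfl⟩
  · rintro ⟨v, rfl⟩
    refine ⟨(kc (actB b) c)ᗮ.starProjection v, Submodule.starProjection_apply_mem _ _, ?_⟩
    have h1 : (kc (actB b) c).starProjection v ∈ kc (actB b) p := by
      rw [hk]
      exact Submodule.starProjection_apply_mem _ _
    rw [mem_kc] at h1
    have h2 := Submodule.starProjection_add_starProjection_orthogonal (K := kc (actB b) c) v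
    change actB b ((kc (actB b) c)ᗮ.starProjection v) p = actB b v p
    conv_rhs => rw [← h2, map_add, add_apply, h1, zero_add]

theorem Zb_eq {p : Cfg N} (hk : kc (actB b) p = kc (actB b) c) :
    Zs b p = Zb (actB b) c (Zs b c) p := by
  unfold Zb
  rw [Tb_eq hk, Mm_eq]
  unfold Zs Mm
  rw [hk]

variable {F : Type*} [NormedAddCommGroup F] [InnerProductSpace ℂ F] [FiniteDimensional ℂ F]

/-- `Theta` as a linear map. -/
def thL (M : FermionRep N F) (G : GammaNine) (α : Fin 16) : Cfg N →ₗ[ℝ] (F →ₗ[ℂ] F) where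
  toFun := Theta M G α
  map_add' := Theta_add M G α
  map_smul' r e := by
    rw [Theta_smul]
    rfl

variable (b) in
/-- `wB` as a linear map in `z`. -/
def wBL (M : FermionRep N F) (G : GammaNine) (g : ℝ) (α : Fin 16) (p : Cfg N) :
    Cfg N →ₗ[ℝ] (F →ₗ[ℂ] F) where
  toFun z := wB b M G g α p z
  map_add' := wB_add M G g α p
  map_smul' r z := by
    apply LinearMap.ext
    intro f
    have h : ∀ β A, wb b G α β A p (r • z) = r * wb b G α β A p z := by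
      intro β A
      unfold wb
      simp only [Finset.mul_sum]
      refine Finset.sum_congr rfl fun B _ => Finset.sum_congr rfl fun C _ =>
        Finset.sum_congr rfl fun i _ => Finset.sum_congr rfl fun j _ => ?_
      have : (r • z) (j, C) = r * z (j, C) := rfl
      rw [this]
      ring
    unfold wB
    rw [RingHom.id_apply, LinearMap.smul_apply, vco_apply, vco_apply, Finset.smul_sum]
    refine Finset.sum_congr rfl fun A _ => ?_
    rw [Finset.smul_sum]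
    refine Finset.sum_congr rfl fun β _ => ?_
    rw [h, ← Complex.coe_smul, smul_smul]
    congr 1
    push_cast
    ring

theorem wBL_apply (M : FermionRep N F) (G : GammaNine) (g : ℝ) (α : Fin 16) (p z : Cfg N) :
    wBL b M G g α p z = wB b M G g α p z := rfl

/-- The linear potential at a commuting configuration vanishes on the orbit directions. -/
theorem wb_act {p : Cfg N} (hc : Comc b p) (G : GammaNine) (α β : Fin 16) (v : Colg N) :
    (WithLp.toLp 2 (fun A => wb b G α β A p (actB b v p)) : Colg N) = 0 := by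
  rw [wbv_eq]
  set L := colAlg b
  have h1 : ∀ i j, L.br (comp p i) (comp (actB b v p) j) =
      L.br (comp p j) (comp (actB b v p) i) := by
    intro i j
    rw [comp_act, comp_act, L.anti v, L.anti v, map_neg, map_neg, L.comm_ad hc i j]
  have h2 : ∀ i j, G.γ2 i j α β = - G.γ2 j i α β := by
    intro i j
    unfold GammaNine.γ2
    simp only [Matrix.smul_apply, Matrix.sub_apply, smul_eq_mul]
    ring
  have h3 : ∑ i, ∑ j, (1 / 2 * G.γ2 i j α β) • L.br (comp p i) (comp (actB b v p) j) =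
      - ∑ i, ∑ j, (1 / 2 * G.γ2 i j α β) • L.br (comp p i) (comp (actB b v p) j) := by
    conv_lhs => rw [Finset.sum_comm]
    rw [← Finset.sum_neg_distrib]
    refine Finset.sum_congr rfl fun i _ => ?_
    rw [← Finset.sum_neg_distrib]
    refine Finset.sum_congr rfl fun j _ => ?_
    rw [h1 j i, h2 j i, mul_neg, neg_smul]
  generalize (∑ i, ∑ j, (1 / 2 * G.γ2 i j α β) • L.br (comp p i) (comp (actB b v p) j)) = S at h3 ⊢
  have h4 : (2 : ℝ) • S = 0 := by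
    rw [two_smul]
    nth_rw 1 [h3]
    exact neg_add_cancel S
  simpa using h4

theorem wB_act {p : Cfg N} (hc : Comc b p) (M : FermionRep N F) (G : GammaNine) (g : ℝ)
    (α : Fin 16) (v : Colg N) : wBL b M G g α p (actB b v p) = 0 := by
  rw [wBL_apply]
  unfold wB
  have h : ∀ β A, wb b G α β A p (actB b v p) = 0 := by
    intro β A
    have := congrArg (fun u : Colg N => u A) (wb_act hc G α β v)
    simpa using this
  apply LinearMap.ext
  intro f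
  rw [vco_apply]
  simp [h]

/-! ## The literal charges -/

/-- Heavy charge of `lsMain_split` at `p`, on functions of `z ∈ Zs b c`. -/
def Bh (M : FermionRep N F) (G : GammaNine) (g : ℝ) (α : Fin 16) {κ η : Type*} [Fintype κ]
    [Fintype η] (v : OrthonormalBasis κ ℝ (Zs b c)) (t : OrthonormalBasis η ℝ (Tn (actB b) c))
    (p : Cfg N) (f : Zs b c → F) (z : Zs b c) : F :=
  (∑ i, aB b c M G α t p (v i) (fderiv ℝ f z (v i))) + wB b M G g α p z (f z)


theorem Bh_eq (M : FermionRep N F) (G : GammaNine) (g : ℝ) (α : Fin 16) (p : Cfg N)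
    {κ η : Type*} [Fintype κ]
    [Fintype η] (v : OrthonormalBasis κ ℝ (Zs b c)) (t : OrthonormalBasis η ℝ (Tn (actB b) c))
    (f : Zs b c → F) (z : Zs b c) :
    Bc (actB b) c p (thL M G α) (wBL b M G g α p) v t f z = Bh M G g α v t p f z := by
  rw [Bc_eq]
  unfold Bh aB
  congr 1
  refine Finset.sum_congr rfl fun i _ => ?_
  rw [LinearMap.smul_apply, LinearMap.sub_apply, LinearMap.sum_apply]
  congr 2
  refine Finset.sum_congr rfl fun a _ => ?_
  rw [LinearMap.smul_apply, Complex.coe_smul, real_inner_comm]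
  rfl

/-! ## (F1) and (F2) on the fixed slice -/





/-! ## (F3) -/



end Crest.Agent.R330.Transp2491
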