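import Mathlib
import Crest.Agent.R330.LemA_342
import Crest.Agent.R330.Transp2_491_Mg

-- ▼ part R330/LemRb_149
section

/-!
# Row 330, leaf S7-R (helper149): integration of fibre inequalities over `U × Z`

* `bop`, `bfib` : first order operators in the fibre variable, coefficients depending on the base.
* `bop_eq` : `bop Φ (u, z) = bfib (Φ(u,·)) z`.
* `continuous_bop` : continuity when the coefficients are continuous near the support.
* `fib_ineq` : (B1) a fibre inequality `D(f) + g ∫ ‖f‖² ≤ K Σ ∫ ‖B_u f‖²` integrates.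
* `fib_proj` : (B2) `g ∫ ‖f - P_u f‖² ≤ K (Σ ∫ ‖B_u f‖² + ρ² g ∫ ‖f‖²)` integrates over `S × Z`.
-/

set_option autoImplicit false
set_option linter.unusedSectionVars false

open MeasureTheory Filter Topology Set
open scoped ContDiff InnerProductSpace ENNReal

noncomputable section

namespace Crest.Agent.R330.LemRb149

variable {U Z F : Type*} [NormedAddCommGroup U] [NormedSpace ℝ U]
  [NormedAddCommGroup Z] [NormedSpace ℝ Z]
  [NormedAddCommGroup F] [InnerProductSpace ℂ F] {ι τ : Type*} [Fintype ι] [Fintype τ]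

/-- First order operator in the fibre variable. -/
def bop (a : U → ι → F →ₗ[ℂ] F) (w : U → Z → F →ₗ[ℂ] F) (v : ι → Z) (Φ : U × Z → F)
    (x : U × Z) : F :=
  (∑ i, a x.1 i (fderiv ℝ Φ x (0, v i))) + w x.1 x.2 (Φ x)

/-- The operator on one fibre. -/
def bfib (a : ι → F →ₗ[ℂ] F) (w : Z → F →ₗ[ℂ] F) (v : ι → Z) (f : Z → F) (z : Z) : F :=
  (∑ i, a i (fderiv ℝ f z (v i))) + w z (f z)

theorem fderiv_fib {Φ : U × Z → F} {u : U} {z : Z} (hΦ : DifferentiableAt ℝ Φ (u, z)) (v : Z) :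
    fderiv ℝ (fun z => Φ (u, z)) z v = fderiv ℝ Φ (u, z) (0, v) := by
  have h1 : HasFDerivAt (fun z : Z => (u, z)) (ContinuousLinearMap.inr ℝ U Z) z :=
    hasFDerivAt_prodMk_right u z
  have h2 : HasFDerivAt (fun z => Φ (u, z)) _ z := hΦ.hasFDerivAt.comp z h1
  rw [h2.fderiv]
  rfl

theorem bop_eq {a : U → ι → F →ₗ[ℂ] F} {w : U → Z → F →ₗ[ℂ] F} {v : ι → Z} {Φ : U × Z → F}
    {u : U} {z : Z} (hΦ : DifferentiableAt ℝ Φ (u, z)) :
    bop a w v Φ (u, z) = bfib (a u) (w u) v (fun z => Φ (u, z)) z := by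
  unfold bop bfib
  simp only [fderiv_fib hΦ]

theorem fib_contDiff {n : WithTop ℕ∞} {Φ : U × Z → F} (hΦ : ContDiff ℝ n Φ) (u : U) :
    ContDiff ℝ n (fun z => Φ (u, z)) := hΦ.comp (contDiff_const.prodMk contDiff_id)

theorem fib_hcs {Φ : U × Z → F} (hΦ : HasCompactSupport Φ) (u : U) :
    HasCompactSupport (fun z => Φ (u, z)) := by
  refine HasCompactSupport.intro (hΦ.isCompact.image continuous_snd) fun z hz => ?_
  by_contra h
  exact hz ⟨(u, z), subset_tsupport _ h, rfl⟩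

section cont

variable [FiniteDimensional ℂ F]

/-- Evaluation of a family of operators on a finite dimensional space. -/
theorem continuousWithinAt_apply {X : Type*} [TopologicalSpace X] {L : X → F →ₗ[ℂ] F}
    {y : X → F} {s : Set X} {x : X} (hL : ∀ f, ContinuousWithinAt (fun x => L x f) s x)
    (hy : ContinuousWithinAt y s x) : ContinuousWithinAt (fun x => L x (y x)) s x := by
  set e := stdOrthonormalBasis ℂ F with he
  have h1 : (fun x => L x (y x)) = fun x => ∑ k, ⟪e k, y x⟫_ℂ • L x (e k) := by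
    funext x
    conv_lhs => rw [← e.sum_repr' (y x)]
    rw [map_sum]
    exact Finset.sum_congr rfl fun k _ => map_smul _ _ _
  rw [h1]
  refine tendsto_finsetSum _ fun k _ => ?_
  exact (ContinuousWithinAt.inner (𝕜 := ℂ) continuousWithinAt_const hy).smul (hL (e k))

theorem continuousAt_apply {X : Type*} [TopologicalSpace X] {L : X → F →ₗ[ℂ] F}
    {y : X → F} {x : X} (hL : ∀ f, ContinuousAt (fun x => L x f) x)
    (hy : ContinuousAt y x) : ContinuousAt (fun x => L x (y x)) x := by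
  rw [← continuousWithinAt_univ] at *
  exact continuousWithinAt_apply (fun f => by
    have := hL f
    rwa [← continuousWithinAt_univ] at this) hy

/-- Continuity of `bop Φ` if `Φ` vanishes off `S × Z`, `S` closed, and the coefficients are
continuous at the points of `S`. -/
theorem continuous_bop {a : U → ι → F →ₗ[ℂ] F} {w : U → Z → F →ₗ[ℂ] F} {v : ι → Z}
    {Φ : U × Z → F} {S : Set U} (hS : IsClosed S) (hΦ : ContDiff ℝ 1 Φ)
    (h0 : ∀ x : U × Z, x.1 ∉ S → Φ x = 0)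
    (ha : ∀ i f, ∀ u ∈ S, ContinuousAt (fun u => a u i f) u)
    (hw : ∀ f, ∀ u ∈ S, ∀ z, ContinuousAt (fun x : U × Z => w x.1 x.2 f) (u, z)) :
    Continuous (bop a w v Φ) := by
  rw [continuous_iff_continuousAt]
  rintro ⟨u, z⟩
  by_cases hu : u ∈ S
  · have h1 : Continuous (fderiv ℝ Φ) := hΦ.continuous_fderiv one_ne_zero
    refine ContinuousAt.add ?_ ?_
    · refine tendsto_finsetSum _ fun i _ => ?_
      refine continuousAt_apply (L := fun x : U × Z => a x.1 i) (fun f => ?_) ?_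
      · exact ContinuousAt.comp (f := fun x : U × Z => x.1) (g := fun u => a u i f)
          (x := (u, z)) (ha i f u hu) continuousAt_fst
      · exact (h1.clm_apply continuous_const).continuousAt
    · exact continuousAt_apply (L := fun x : U × Z => w x.1 x.2) (fun f => hw f u hu z)
        hΦ.continuous.continuousAt
  · have hO : IsOpen {x : U × Z | x.1 ∉ S} := hS.isOpen_compl.preimage continuous_fst
    have h1 : bop a w v Φ =ᶠ[𝓝 (u, z)] fun _ => 0 := by
      filter_upwards [hO.mem_nhds (show (u, z) ∈ {x : U × Z | x.1 ∉ S} from hu)] with x hx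
      have h2 : Φ =ᶠ[𝓝 x] fun _ => 0 := by
        filter_upwards [hO.mem_nhds hx] with y hy
        exact h0 y hy
      unfold bop
      rw [h2.fderiv_eq, h0 x hx]
      simp
    exact (continuousAt_congr h1).2 continuousAt_const

end cont

theorem hcs_bop {a : U → ι → F →ₗ[ℂ] F} {w : U → Z → F →ₗ[ℂ] F} {v : ι → Z}
    {Φ : U × Z → F} (hc : HasCompactSupport Φ) : HasCompactSupport (bop a w v Φ) := by
  refine hc.of_isClosed_subset (isClosed_tsupport _) ?_
  refine closure_minimal (fun x hx => ?_) (isClosed_tsupport Φ)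
  by_contra h
  apply hx
  unfold bop
  have h1 : fderiv ℝ Φ x = 0 := by
    by_contra h2
    exact h (tsupport_fderiv_subset ℝ (subset_tsupport _ h2))
  rw [h1, image_eq_zero_of_notMem_tsupport h]
  simp

/-! ## Integration -/

section int

variable [MeasurableSpace U] [BorelSpace U] [FiniteDimensional ℝ U]
  [MeasurableSpace Z] [BorelSpace Z] [FiniteDimensional ℝ Z]
  {μU : Measure U} [μU.IsAddHaarMeasure] {μZ : Measure Z} [μZ.IsAddHaarMeasure]

theorem sq_int {E : Type*} [NormedAddCommGroup E] {f : U × Z → E} (hf : Continuous f)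
    (hc : HasCompactSupport f) : Integrable (fun x => ‖f x‖ ^ 2) (μU.prod μZ) :=
  (hf.norm.pow 2).integrable_of_hasCompactSupport
    (hc.mono' fun x hx => subset_tsupport _ (by
      intro h0; apply hx; have h00 : f x = 0 := h0; simp [h00]))



/-- The density `Σ ‖∂_{v_i} Φ‖² + (g ‖z‖)² ‖Φ‖²`. -/
def dens (g : ℝ) (v : ι → Z) (Φ : U × Z → F) (x : U × Z) : ℝ :=
  (∑ i, ‖fderiv ℝ Φ x (0, v i)‖ ^ 2) + (g * ‖x.2‖) ^ 2 * ‖Φ x‖ ^ 2

def densZ (g : ℝ) (v : ι → Z) (f : Z → F) (z : Z) : ℝ :=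
  (∑ i, ‖fderiv ℝ f z (v i)‖ ^ 2) + (g * ‖z‖) ^ 2 * ‖f z‖ ^ 2

theorem dens_eq (g : ℝ) (v : ι → Z) {Φ : U × Z → F} {u : U} {z : Z}
    (hΦ : DifferentiableAt ℝ Φ (u, z)) : dens g v Φ (u, z) = densZ g v (fun z => Φ (u, z)) z := by
  unfold dens densZ
  simp only [fderiv_fib hΦ]


theorem continuous_dens (g : ℝ) (v : ι → Z) {Φ : U × Z → F} (hΦ : ContDiff ℝ 1 Φ) :
    Continuous (dens g v Φ) := by
  have h1 : Continuous (fderiv ℝ Φ) := hΦ.continuous_fderiv one_ne_zero
  unfold dens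
  refine Continuous.add (continuous_finsetSum _ fun i _ =>
    (h1.clm_apply continuous_const).norm.pow 2) ?_
  exact ((continuous_const.mul continuous_snd.norm).pow 2).mul (hΦ.continuous.norm.pow 2)

theorem hcs_dens (g : ℝ) (v : ι → Z) {Φ : U × Z → F} (hc : HasCompactSupport Φ) :
    HasCompactSupport (dens g v Φ) := by
  refine hc.mono' fun x hx => ?_
  by_contra h
  apply hx
  have h1 : fderiv ℝ Φ x = 0 := by
    by_contra h2
    exact h (tsupport_fderiv_subset ℝ (subset_tsupport _ h2))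
  unfold dens
  rw [h1, image_eq_zero_of_notMem_tsupport h]
  simp

/-- **(B1)** integration of a fibre inequality. -/
theorem fib_ineq_n {n : WithTop ℕ∞} (hn : 1 ≤ n) {a : τ → U → ι → F →ₗ[ℂ] F}
    {w : τ → U → Z → F →ₗ[ℂ] F} {v : ι → Z}
    {S : Set U} {h : U × Z → F} (hh' : ContDiff ℝ n h) (hc : HasCompactSupport h)
    (h0 : ∀ x : U × Z, x.1 ∉ S → h x = 0)
    (hB : ∀ α, Integrable (fun x => ‖bop (a α) (w α) v h x‖ ^ 2) (μU.prod μZ))
    {P : F → Prop} (hP : ∀ x, P (h x)) {g K : ℝ}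
    (hF : ∀ u ∈ S, ∀ f : Z → F, ContDiff ℝ n f → HasCompactSupport f → (∀ z, P (f z)) →
      ∫ z, densZ g v f z ∂μZ + g * ∫ z, ‖f z‖ ^ 2 ∂μZ ≤
        K * ∑ α, ∫ z, ‖bfib (a α u) (w α u) v f z‖ ^ 2 ∂μZ) :
    ∫ x, dens g v h x ∂(μU.prod μZ) + g * ∫ x, ‖h x‖ ^ 2 ∂(μU.prod μZ) ≤
      K * ∑ α, ∫ x, ‖bop (a α) (w α) v h x‖ ^ 2 ∂(μU.prod μZ) := by
  have hh : ContDiff ℝ 1 h := hh'.of_le hn
  have hd : Differentiable ℝ h := hh.differentiable one_ne_zero
  have i1 : Integrable (dens g v h) (μU.prod μZ) :=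
    (continuous_dens g v hh).integrable_of_hasCompactSupport (hcs_dens g v hc)
  have i2 : Integrable (fun x => ‖h x‖ ^ 2) (μU.prod μZ) := sq_int hh.continuous hc
  rw [integral_prod _ i1, integral_prod _ i2]
  simp only [integral_prod _ (hB _)]
  have j1 := i1.integral_prod_left
  have j2 := i2.integral_prod_left
  have j3 : ∀ α, Integrable (fun u => ∫ z, ‖bop (a α) (w α) v h (u, z)‖ ^ 2 ∂μZ) μU :=
    fun α => (hB α).integral_prod_left
  rw [← integral_const_mul, ← integral_add j1 (j2.const_mul g),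
    ← integral_finsetSum _ (fun α _ => j3 α), ← integral_const_mul]
  refine integral_mono (j1.add (j2.const_mul g))
    ((integrable_finsetSum _ fun α _ => j3 α).const_mul K) fun u => ?_
  show (∫ z, dens g v h (u, z) ∂μZ) + g * ∫ z, ‖h (u, z)‖ ^ 2 ∂μZ ≤
    K * ∑ α, ∫ z, ‖bop (a α) (w α) v h (u, z)‖ ^ 2 ∂μZ
  simp only [dens_eq g v (hd _), bop_eq (hd _)]
  by_cases hu : u ∈ S
  · exact hF u hu _ (fib_contDiff hh' u) (fib_hcs hc u) fun z => hP (u, z)
  · have h1 : ∀ z, h (u, z) = 0 := fun z => h0 (u, z) hu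
    simp [densZ, bfib, h1]


end int

end Crest.Agent.R330.LemRb149

end
end

-- ▼ part R330/LemRc_149
section

/-!
# Row 330, leaf S7-R (helper149): the fibre inequalities on the slice, literal coefficients

`aB`, `wB` of Bind6_839, slice coordinates `(u, z) ∈ Uk b c × Zs b c`.

* `contDiffAt_nn`, `contDiffAt_aB`, `contDiff_wB`.
* `continuous_Bop`, `integrable_Bop`, **`B1`**, **`B2`** for `Bop`, `Bfib`, `Dfib` of LemA_342.
-/

set_option autoImplicit false
set_option linter.unusedSectionVars false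

open MeasureTheory Filter Topology Crest.MathPhysics.MatrixQM Set
open Crest.Agent.R330.IBP837 Crest.Agent.R330.Defs478 Crest.Agent.R330.Frame839
open Crest.Agent.R330.LS839 Crest.Agent.R330.Clus839 Crest.Agent.R330.Bind6839
open Crest.Agent.R330.LemRb149 Crest.Agent.R330.LemA342
open scoped ContDiff InnerProductSpace ENNReal

noncomputable section

namespace Crest.Agent.R330.LemRc149

section nn

variable {V E : Type*} [NormedAddCommGroup V] [InnerProductSpace ℝ V] [FiniteDimensional ℝ V]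
  [NormedAddCommGroup E] [InnerProductSpace ℝ E] [FiniteDimensional ℝ E]
  {A : V →L[ℝ] E →L[ℝ] E} {c : E} {r B : ℝ}

theorem contDiffAt_nn (hr0 : 0 < r) (hr : GapAt A c r) (hB : ActBound A B) {x : E}
    (hx : B * ‖x - c‖ ≤ r / 2) (t : Tn A c) : ContDiffAt ℝ ∞ (fun x => nn A c x t) x := by
  unfold nn
  have h1 : ContDiffAt ℝ ∞ (fun x => om A c x t) x :=
    (contDiffAt_om hr0 hr hB hx).clm_apply contDiffAt_const
  have h2 : ContDiffAt ℝ ∞ (fun x => ((om A c x t : (kc A c)ᗮ) : V)) x :=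
    (((kc A c)ᗮ).subtypeL.contDiff.contDiffAt).comp x h1
  have h3 : ContDiffAt ℝ ∞ (fun x => A ((om A c x t : (kc A c)ᗮ) : V)) x :=
    (A.contDiff.contDiffAt).comp x h2
  exact (h3.clm_apply contDiffAt_id).sub contDiffAt_const

end nn

variable {N : ℕ} {F : Type*} [NormedAddCommGroup F] [InnerProductSpace ℂ F]
  [FiniteDimensional ℂ F] (b : ColorBasis N) (c : Cfg N) (M : FermionRep N F) (G : GammaNine)
  (g : ℝ) (α : Fin 16)

variable {b c} in
/-- The coefficient of the heavy charge is smooth in the base point. -/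
theorem contDiffAt_aB {κ : Type*} [Fintype κ] (t : OrthonormalBasis κ ℝ (Tn (actB b) c))
    {r B : ℝ} (hr0 : 0 < r) (hr : GapAt (actB b) c r) (hB : ActBound (actB b) B) {p : Cfg N}
    (hp : B * ‖p - c‖ ≤ r / 2) (e : Cfg N) (f : F) :
    ContDiffAt ℝ ∞ (fun p => aB b c M G α t p e f) p := by
  unfold aB
  simp only [LinearMap.smul_apply, LinearMap.sub_apply, LinearMap.sum_apply]
  refine contDiffAt_const.smul (contDiffAt_const.sub ?_)
  refine ContDiffAt.sum fun a _ => ?_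
  refine ContDiffAt.smul ?_ contDiffAt_const
  have h1 : ContDiffAt ℝ ∞ (fun p => ⟪e, nn (actB b) c p (t a)⟫_ℝ) p :=
    contDiffAt_const.inner ℝ (contDiffAt_nn hr0 hr hB hp (t a))
  exact (Complex.ofRealCLM.contDiff.contDiffAt).comp p h1

theorem contDiff_wB' (f : F) {n : WithTop ℕ∞} :
    ContDiff ℝ n (fun q : Cfg N × Cfg N => wB b M G g α q.1 q.2 f) := by
  unfold wB
  simp only [vco_apply]
  refine ContDiff.sum fun A _ => ContDiff.sum fun β _ => ?_
  refine ContDiff.smul ?_ contDiff_const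
  have h1 : ContDiff ℝ n (fun q : Cfg N × Cfg N => 2 * g * wb b G α β A q.1 q.2) := by
    unfold wb
    fun_prop
  exact Complex.ofRealCLM.contDiff.comp h1

variable {b c}
variable {κ η : Type*} [Fintype κ] [Fintype η]

theorem Bop_eq (v : OrthonormalBasis κ ℝ (Zs b c)) (t : OrthonormalBasis η ℝ (Tn (actB b) c))
    (Φ : Sc b c → F) :
    Bop b c M G g α v t Φ = bop (fun (u : Uk b c) i => aB b c M G α t (c + u) (v i))
      (fun (u : Uk b c) (z : Zs b c) => wB b M G g α (c + u) z) v Φ := rfl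

theorem Bfib_eq (v : OrthonormalBasis κ ℝ (Zs b c)) (t : OrthonormalBasis η ℝ (Tn (actB b) c))
    (p : Cfg N) (f : Zs b c → F) : Bfib b c M G g α v t p f =
      bfib (fun i => aB b c M G α t p (v i)) (fun z : Zs b c => wB b M G g α p z) v f := rfl

/-- The heavy charge of a slice function supported near `c` is continuous. -/
theorem continuous_Bop (v : OrthonormalBasis κ ℝ (Zs b c))
    (t : OrthonormalBasis η ℝ (Tn (actB b) c)) {r B ρ : ℝ}
    (hr0 : 0 < r) (hr : GapAt (actB b) c r) (hB : ActBound (actB b) B) (hρ : B * ρ ≤ r / 2)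
    (hB0 : 0 ≤ B) {Φ : Sc b c → F} (hΦ : ContDiff ℝ 1 Φ)
    (h0 : ∀ x : Sc b c, ρ < ‖x.1‖ → Φ x = 0) :
    Continuous (Bop b c M G g α v t Φ) := by
  rw [Bop_eq]
  refine continuous_bop (S := {u : Uk b c | ‖u‖ ≤ ρ}) (isClosed_le continuous_norm
    continuous_const) hΦ (fun x hx => h0 x (not_le.1 hx)) (fun i f u hu => ?_)
    fun f u _ z => ?_
  · have h1 : ContinuousAt (fun p => aB b c M G α t p (v i) f) (c + (u : Cfg N)) := by
      refine (contDiffAt_aB M G α t hr0 hr hB ?_ _ f).continuousAt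
      rw [add_sub_cancel_left]
      exact (mul_le_mul_of_nonneg_left hu hB0).trans hρ
    exact ContinuousAt.comp (f := fun u : Uk b c => c + (u : Cfg N)) (x := u) h1
      (by fun_prop)
  · exact ((contDiff_wB' b M G g α f (n := 0)).continuous.comp
      (by fun_prop : Continuous fun x : Uk b c × Zs b c =>
        (c + (x.1 : Cfg N), (x.2 : Cfg N)))).continuousAt

theorem hcs_Bop (v : OrthonormalBasis κ ℝ (Zs b c)) (t : OrthonormalBasis η ℝ (Tn (actB b) c))
    {Φ : Sc b c → F} (hc : HasCompactSupport Φ) :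
    HasCompactSupport (Bop b c M G g α v t Φ) := by
  rw [Bop_eq]
  exact hcs_bop hc

variable {μU : Measure (Uk b c)} [μU.IsAddHaarMeasure] {μZ : Measure (Zs b c)}
  [μZ.IsAddHaarMeasure]

theorem integrable_Bop (v : OrthonormalBasis κ ℝ (Zs b c))
    (t : OrthonormalBasis η ℝ (Tn (actB b) c)) {r B ρ : ℝ}
    (hr0 : 0 < r) (hr : GapAt (actB b) c r) (hB : ActBound (actB b) B) (hρ : B * ρ ≤ r / 2)
    (hB0 : 0 ≤ B) {Φ : Sc b c → F} (hΦ : ContDiff ℝ 1 Φ) (hc : HasCompactSupport Φ)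
    (h0 : ∀ x : Sc b c, ρ < ‖x.1‖ → Φ x = 0) :
    Integrable (fun x => ‖Bop b c M G g α v t Φ x‖ ^ 2) (μU.prod μZ) :=
  sq_int (continuous_Bop M G g α v t hr0 hr hB hρ hB0 hΦ h0) (hcs_Bop M G g α v t hc)

theorem dens_eq' {v : OrthonormalBasis κ ℝ (Zs b c)} {Φ : Sc b c → F} (x : Sc b c) :
    (∑ i, ‖fderiv ℝ Φ x (0, v i)‖ ^ 2) + g ^ 2 * ‖x.2‖ ^ 2 * ‖Φ x‖ ^ 2 = dens g v Φ x := by
  unfold dens
  rw [mul_pow]

theorem Dfib_eq {v : OrthonormalBasis κ ℝ (Zs b c)} {f : Zs b c → F} (z : Zs b c) :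
    Dfib g v f z = densZ g v f z := by
  unfold Dfib densZ
  rw [mul_pow]

/-- **(B1)** the fibre inequality on the odd part, integrated over the slice. -/
theorem B1 {n : WithTop ℕ∞} (hn : 1 ≤ n) (v : OrthonormalBasis κ ℝ (Zs b c))
    (t : OrthonormalBasis η ℝ (Tn (actB b) c))
    {r B ρ : ℝ}
    (hr0 : 0 < r) (hr : GapAt (actB b) c r) (hB : ActBound (actB b) B) (hρ : B * ρ ≤ r / 2)
    (hB0 : 0 ≤ B) {K : ℝ} {P : F → Prop}
    (hF : ∀ u : Uk b c, ‖u‖ ≤ ρ → ∀ f : Zs b c → F, ContDiff ℝ n f → HasCompactSupport f →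
      (∀ z, P (f z)) →
      ∫ z, Dfib g v f z ∂μZ + g * ∫ z, ‖f z‖ ^ 2 ∂μZ ≤
        K * ∑ α, ∫ z, ‖Bfib b c M G g α v t (c + u) f z‖ ^ 2 ∂μZ)
    {h : Sc b c → F} (hh : ContDiff ℝ n h) (hc : HasCompactSupport h)
    (h0 : ∀ x : Sc b c, ρ < ‖x.1‖ → h x = 0) (hP : ∀ x, P (h x)) :
    ∫ x, ((∑ i, ‖fderiv ℝ h x (0, v i)‖ ^ 2) + g ^ 2 * ‖x.2‖ ^ 2 * ‖h x‖ ^ 2)
        ∂(μU.prod μZ) + g * ∫ x, ‖h x‖ ^ 2 ∂(μU.prod μZ) ≤
      K * ∑ α, ∫ x, ‖Bop b c M G g α v t h x‖ ^ 2 ∂(μU.prod μZ) := by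
  have hI := fun α => integrable_Bop (μU := μU) (μZ := μZ) M G g α v t hr0 hr hB hρ hB0 (hh.of_le hn) hc h0
  simp only [Bop_eq] at hI
  have hF' : ∀ u ∈ {u : Uk b c | ‖u‖ ≤ ρ}, ∀ f : Zs b c → F, ContDiff ℝ n f →
      HasCompactSupport f → (∀ z, P (f z)) →
      ∫ z, densZ g v f z ∂μZ + g * ∫ z, ‖f z‖ ^ 2 ∂μZ ≤
        K * ∑ α, ∫ z, ‖bfib (fun i => aB b c M G α t (c + u) (v i))
          (fun z : Zs b c => wB b M G g α (c + u) z) v f z‖ ^ 2 ∂μZ := by
    intro u hu f hf hcf hPf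
    have := hF u hu f hf hcf hPf
    simp only [Dfib_eq, Bfib_eq] at this
    exact this
  have key := fib_ineq_n hn (U := Uk b c) (Z := Zs b c) (F := F) (τ := Fin 16) (ι := κ) (μU := μU)
    (μZ := μZ) (a := fun α (u : Uk b c) i => aB b c M G α t (c + u) (v i))
    (w := fun α (u : Uk b c) (z : Zs b c) => wB b M G g α (c + u) z) (v := v)
    (S := {u : Uk b c | ‖u‖ ≤ ρ}) hh hc (fun x hx => h0 x (not_le.1 hx)) hI (P := P) hP
    (g := g) (K := K) hF'
  simp only [dens_eq', Bop_eq]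
  exact key


end Crest.Agent.R330.LemRc149

end
end

-- ▼ part R330/LemRd_149

/-!
# Row 330, leaf S7-R (helper149): the odd part and the projection on the slice

* `integrable_prK` : `‖Φ - P Φ‖²` is integrable on the slice, `P` the fibrewise projection on
  `γ ⊗ ran p`.
* **`lemR_odd`** : (F1) and (F2) on the odd part at `c` give, near `c`, the estimate of the odd
  part on the slice.
* **`lemR_proj`** : (F1) and (F2) at `X` give `(R3)`.
-/
namespace Crest.Agent.R330.LemRd149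
end Crest.Agent.R330.LemRd149
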