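import Crest.Agent.R330.HvDef_442
import Crest.Agent.R330.Transp_491
import Crest.Agent.R330.FibC_892
import Crest.Agent.R330.GBind_984
import Crest.Agent.R330.LemA_342
import Crest.Agent.R330.FactI_161
import Crest.Agent.R330.Ctr_581
import Crest.Agent.R330.LemRd_149
import Crest.Agent.R330.CapSl_924
import Crest.Agent.R330.Transp2_491_Mg
import Crest.Agent.R330.FibB_892
import Crest.Agent.R330.AX_984
import Crest.Agent.R330.HMain_942

-- ▼ part R330/ParVac_581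
section

/-!
# Row 330, CAP binding (helper581): sign of the heavy parity on the heavy vacuum spaces

`M` an irreducible module, `J` a partial complex structure, `Γ` an involution which commutes with
the light generators and anticommutes with the heavy ones.

* `par_scalar` : `Γ = 1` or `Γ = -1` on `vacJ J`.
* `par_pos` : the sign is `+` as soon as some even vector has a nonzero projection.
* `par_near` : for a family `J t` continuous at `t₀`, `Γ = 1` on `vacJ (J t₀)` implies `Γ = 1` on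
  `vacJ (J t)` for `t` near `t₀`.
* `proj_odd` : odd vectors have no vacuum component; `PrK_odd` : the fibre projection of 491
  annihilates odd functions.
-/

set_option autoImplicit false
set_option linter.unusedSectionVars false

open MeasureTheory Filter Topology
open scoped InnerProductSpace ContDiff

noncomputable section

namespace Crest.Agent.R330.ParVac581

open Cliff442

variable {V F : Type*} [NormedAddCommGroup V] [InnerProductSpace ℝ V] [FiniteDimensional ℝ V]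
  [NormedAddCommGroup F] [InnerProductSpace ℂ F] [FiniteDimensional ℂ F]

/-- Heavy parity of the partial complex structure `J`. -/
structure Par (M : CRep V F) (J : V →ₗ[ℝ] V) (Γ : F →ₗ[ℂ] F) : Prop where
  light : ∀ x, J x = 0 → ∀ f, Γ (M.θ x f) = M.θ x (Γ f)
  heavy : ∀ x f, Γ (M.θ (J x) f) = -M.θ (J x) (Γ f)
  sq : ∀ f, Γ (Γ f) = f
  symm : ∀ f g, ⟪Γ f, g⟫_ℂ = ⟪f, Γ g⟫_ℂ

variable {M : CRep V F} {J : V →ₗ[ℝ] V} {Γ : F →ₗ[ℂ] F}

theorem Par.neg (h : Par M J Γ) : Par M J (-Γ) := by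
  refine ⟨fun x hx f => ?_, fun x f => ?_, fun f => ?_, fun f g => ?_⟩
  · rw [LinearMap.neg_apply, LinearMap.neg_apply, h.light x hx, map_neg]
  · rw [LinearMap.neg_apply, LinearMap.neg_apply, h.heavy x, map_neg]
  · rw [LinearMap.neg_apply, LinearMap.neg_apply, map_neg, h.sq, neg_neg]
  · rw [LinearMap.neg_apply, LinearMap.neg_apply, inner_neg_left, inner_neg_right, h.symm]

theorem Par.vac_mem (h : Par M J Γ) {f : F} (hf : f ∈ M.vacJ J) : Γ f ∈ M.vacJ J := by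
  intro x
  have h1 := congrArg Γ (hf x)
  rw [map_smul, h.heavy, h.heavy] at h1
  have h2 := congrArg Neg.neg h1
  rw [neg_neg, smul_neg, neg_neg] at h2
  exact h2

/-- **The parity is a sign on the vacuum space.** -/
theorem par_scalar (hI : M.Irr) (hJ : PCS J) (h : Par M J Γ) :
    (∀ f ∈ M.vacJ J, Γ f = f) ∨ (∀ f ∈ M.vacJ J, Γ f = -f) := by
  obtain ⟨c, hc⟩ := (hI.vacJ hJ).schur Γ (fun f hf => h.vac_mem hf)
    (fun x hx f _ => h.light x (CRep.mem_light.1 hx) f)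
  by_cases h0 : ∃ f ∈ M.vacJ J, f ≠ 0
  · obtain ⟨f, hf, hf0⟩ := h0
    have h1 : (c * c) • f = f := by
      have := h.sq f
      rw [hc f hf, map_smul, hc f hf, smul_smul] at this
      exact this
    have h2 : (c * c - 1) • f = 0 := by rw [sub_smul, h1, one_smul, sub_self]
    have h3 : c * c - 1 = 0 := (smul_eq_zero.1 h2).resolve_right hf0
    have h4 : (c - 1) * (c + 1) = 0 := by linear_combination h3
    rcases mul_eq_zero.1 h4 with h5 | h5
    · left
      intro g hg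
      rw [hc g hg, sub_eq_zero.1 h5, one_smul]
    · right
      intro g hg
      rw [hc g hg, eq_neg_of_add_eq_zero_left h5, neg_smul, one_smul]
  · left
    intro f hf
    by_contra hne
    have hf0 : f ≠ 0 := by
      intro e
      apply hne
      rw [e, map_zero]
    exact h0 ⟨f, hf, hf0⟩

/-- Orientation: one of `Γ`, `-Γ` is `1` on the vacuum space. -/
theorem exists_sign (hI : M.Irr) (hJ : PCS J) (h : Par M J Γ) :
    ∃ Γ' : F →ₗ[ℂ] F, (Γ' = Γ ∨ Γ' = -Γ) ∧ Par M J Γ' ∧ ∀ f ∈ M.vacJ J, Γ' f = f := by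
  rcases par_scalar hI hJ h with h1 | h1
  · exact ⟨Γ, Or.inl rfl, h, h1⟩
  · exact ⟨-Γ, Or.inr rfl, h.neg, fun f hf => by rw [LinearMap.neg_apply, h1 f hf, neg_neg]⟩

/-- The sign is `+` if some even vector has a nonzero vacuum component. -/
theorem par_pos (hI : M.Irr) (hJ : PCS J) (h : Par M J Γ) {f : F} (hf : Γ f = f)
    (hne : M.proj J f ≠ 0) : ∀ g ∈ M.vacJ J, Γ g = g := by
  rcases par_scalar hI hJ h with h1 | h1
  · exact h1
  · exfalso
    apply hne
    refine M.proj_eq_zero_of hJ fun g hg => ?_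
    have h2 : ⟪g, f⟫_ℂ = -⟪g, f⟫_ℂ := by
      calc ⟪g, f⟫_ℂ = ⟪g, Γ f⟫_ℂ := by rw [hf]
        _ = ⟪Γ g, f⟫_ℂ := (h.symm g f).symm
        _ = -⟪g, f⟫_ℂ := by rw [h1 g hg, inner_neg_left]
    have h3 : (2 : ℂ) * ⟪g, f⟫_ℂ = 0 := by linear_combination h2
    exact (mul_eq_zero.1 h3).resolve_left two_ne_zero

/-- **Odd vectors have no vacuum component.** -/
theorem proj_odd (hJ : PCS J) (hΓ : ∀ f g, ⟪Γ f, g⟫_ℂ = ⟪f, Γ g⟫_ℂ)
    (h : ∀ g ∈ M.vacJ J, Γ g = g) {f : F} (hf : Γ f = -f) : M.proj J f = 0 := by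
  refine M.proj_eq_zero_of hJ fun g hg => ?_
  have h2 : ⟪g, f⟫_ℂ = -⟪g, f⟫_ℂ := by
    calc ⟪g, f⟫_ℂ = ⟪Γ g, f⟫_ℂ := by rw [h g hg]
      _ = ⟪g, Γ f⟫_ℂ := hΓ g f
      _ = -⟪g, f⟫_ℂ := by rw [hf, inner_neg_right]
  have h3 : (2 : ℂ) * ⟪g, f⟫_ℂ = 0 := by linear_combination h2
  exact (mul_eq_zero.1 h3).resolve_left two_ne_zero

/-- **The sign is locally constant.** -/
theorem par_near [Nontrivial F] (hI : M.Irr) {T : Type*} [NormedAddCommGroup T] [NormedSpace ℝ T]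
    {Jt : T → V →ₗ[ℝ] V} {t₀ : T} (hc : ∀ y, ContDiffAt ℝ 0 (fun t => Jt t y) t₀)
    (h0 : PCS (Jt t₀)) (h1 : ∀ g ∈ M.vacJ (Jt t₀), Γ g = g) :
    ∀ᶠ t in 𝓝 t₀, PCS (Jt t) → Par M (Jt t) Γ → ∀ g ∈ M.vacJ (Jt t), Γ g = g := by
  obtain ⟨f, hf, hf0⟩ := (Submodule.ne_bot_iff _).1 (CRep.vacJ_ne_bot (M := M) h0)
  have h2 : ContinuousAt (fun t => M.proj (Jt t) f) t₀ :=
    (M.contDiffAt_proj (n := 0) hc contDiffAt_const).continuousAt
  have h3 : M.proj (Jt t₀) f ≠ 0 := by rwa [M.proj_of_mem h0 hf]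
  filter_upwards [h2.eventually_ne h3] with t ht hJ hP
  exact par_pos hI hJ hP (h1 f hf) ht

section fibre

variable {E : Type*} [NormedAddCommGroup E] [InnerProductSpace ℝ E] [FiniteDimensional ℝ E]
  [MeasurableSpace E] [BorelSpace E]

open Transp491

/-- **The fibre projection annihilates odd functions.** -/
theorem PrK_odd (hJ : PCS J) (hΓ : ∀ f g, ⟪Γ f, g⟫_ℂ = ⟪f, Γ g⟫_ℂ)
    (h : ∀ g ∈ M.vacJ J, Γ g = g) (K : Submodule ℝ E) (γ : E → ℝ) {f : K → F}
    (hi : Integrable fun y : K => γ y • f y) (hf : ∀ z, Γ (f z) = -f z) (z : K) :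
    PrK K γ (M.proj J) f z = 0 := by
  have h1 : Γ (∫ y : K, γ y • f y) = -∫ y : K, γ y • f y := by
    have h2 := ((LinearMap.toContinuousLinearMap Γ).restrictScalars ℝ).integral_comp_comm hi
    have h3 : ∀ y : K, ((LinearMap.toContinuousLinearMap Γ).restrictScalars ℝ) (γ y • f y) =
        -(γ y • f y) := by
      intro y
      rw [map_smul, ← smul_neg, ← hf y]
      rfl
    simp only [h3, integral_neg] at h2
    exact h2.symm
  unfold PrK
  rw [proj_odd hJ hΓ h h1, smul_zero]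

end fibre

end Crest.Agent.R330.ParVac581

end
end

-- ▼ part R330/FibJ_581
section

/-!
# Row 330, CAP binding (helper581): the literal heavy complex structure near a centre

`σ : Ten (Fin 16) (Colg N) (W16 N)` with `σ.pr β = row β`, `J_X = Jm G σ (kc c) (adX b X)`.

* `Jm_Jm`, `Jm_eq_zero_iff`, `pr_Jm_mem` : kernel and range of `Jm`.
* `par_of` : a heavy parity at `c` (342's `IsPar`) is a `Par` for `J_X`, `kc X = kc c`.
* `continuousAt_Jm` : `X ↦ J_X` is smooth at `c`.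
* `exists_sign`, `sign_near` : one sign of the parity for all commuting `X` near `c`.
-/

set_option autoImplicit false
set_option linter.unusedSectionVars false
set_option linter.unusedVariables false

open MeasureTheory Filter Topology Crest.MathPhysics.MatrixQM
open Crest.Agent.R330.IBP837 Crest.Agent.R330.Defs478 Crest.Agent.R330.Frame839
open Crest.Agent.R330.LS839 Crest.Agent.R330.Clus839 Crest.Agent.R330.Bind6839
open Crest.Agent.R330.Cliff442 Crest.Agent.R330.AX984 Crest.Agent.R330.GBind984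
open Crest.Agent.R330.Fib892 Crest.Agent.R330.FactI161 Crest.Agent.R330.ParVac581
open Crest.Agent.R330.SqrtPD984 Crest.Agent.R330.GPar984
open scoped ContDiff InnerProductSpace

noncomputable section

namespace Crest.Agent.R330.FibJ581

section abs

variable {V W : Type*}
  [NormedAddCommGroup V] [InnerProductSpace ℝ V] [FiniteDimensional ℝ V]
  [NormedAddCommGroup W] [InnerProductSpace ℝ W] [FiniteDimensional ℝ W]
  (G : GammaNine) (σ : Ten (Fin 16) V W)
  {K : Submodule ℝ V} {s : ℝ} {D : Fin 9 → V →L[ℝ] V}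

theorem Jm_Jm (h : Fam K s D) (hs : 0 < s) (x : W) (β : Fin 16) :
    σ.pr β (Jm G σ K D (Jm G σ K D x)) = K.starProjection (σ.pr β x) - σ.pr β x := by
  have e1 : ∀ x, Jm G σ K D x = -Sm G σ (fun i => (D i).comp (li K D)) x := fun _ => rfl
  rw [e1 x, map_neg, e1, neg_neg, pr_Sm_Sm G σ _ _ (fun i j v => by
    simp only [ContinuousLinearMap.comp_apply]
    rw [← h.D_li hs j, ← h.D_li hs i, h.comm i j])]
  simp only [ContinuousLinearMap.comp_apply]
  have h2 : ∀ i, D i (li K D (D i (li K D (σ.pr β x)))) =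
      D i (D i (li K D (li K D (σ.pr β x)))) := fun i => by rw [← h.D_li hs]
  simp only [h2]
  have h3 : ∑ i, D i (D i (li K D (li K D (σ.pr β x)))) =
      K.starProjection (li K D (li K D (σ.pr β x))) -
        lr K D (lr K D (li K D (li K D (σ.pr β x)))) := by
    rw [h.lr_lr hs]; abel
  have h4 : li K D (K.starProjection (σ.pr β x)) = K.starProjection (σ.pr β x) := by
    conv_lhs => rw [← h.lr_fix hs (Submodule.starProjection_apply_mem K (σ.pr β x))]
    exact h.li_lr hs _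
  rw [h3, h.lr_li hs, h.lr_li hs, h.proj_li hs, h.proj_li hs, h4, h4]

/-- The rows of `J x` are heavy. -/
theorem pr_Jm_mem (h : Fam K s D) (x : W) (β : Fin 16) : σ.pr β (Jm G σ K D x) ∈ Kᗮ := by
  rw [pr_Jm]
  refine Submodule.neg_mem _ (Submodule.sum_mem _ fun i _ => Submodule.sum_mem _ fun β' _ =>
    Submodule.smul_mem _ _ (h.D_mem i _))

/-- The kernel of `J`. -/
theorem Jm_eq_zero_iff (h : Fam K s D) (hs : 0 < s) (x : W) :
    Jm G σ K D x = 0 ↔ ∀ β, σ.pr β x ∈ K := by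
  constructor
  · intro hx β
    have h1 := Jm_Jm G σ h hs x β
    rw [hx, map_zero, map_zero] at h1
    rw [eq_comm, sub_eq_zero] at h1
    rw [← h1]
    exact Submodule.starProjection_apply_mem K _
  · intro hx
    refine σ.ext' fun β => ?_
    rw [pr_Jm, map_zero, neg_eq_zero]
    refine Finset.sum_eq_zero fun i _ => Finset.sum_eq_zero fun β' _ => ?_
    have h5 : li K D (σ.pr β' x) = σ.pr β' x := by
      conv_lhs => rw [← h.lr_fix hs (hx β')]
      exact h.li_lr hs _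
    rw [h5, h.ker i _ (hx β'), smul_zero]

theorem Jm_pcs (h : Fam K s D) (hs : 0 < s) : PCS (Jm G σ K D) := (linJ G σ h hs).pcs

/-- Smoothness of `J` in the family. -/
theorem contDiffAt_Jm {P : Type*} [NormedAddCommGroup P] [NormedSpace ℝ P] {m : WithTop ℕ∞}
    {D : P → Fin 9 → V →L[ℝ] V} {p : P} (hm : m ≠ 0) (hb : PD (ll K (D p)))
    (hsk : ∀ᶠ x in 𝓝 p, ∀ i u v, ⟪D x i u, v⟫_ℝ = -⟪u, D x i v⟫_ℝ)
    (hD : ∀ i, ContDiffAt ℝ m (fun x => D x i) p) (y : W) :
    ContDiffAt ℝ m (fun x => Jm G σ K (D x) y) p := by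
  have h1 := contDiffAt_li (K := K) hm hb hsk hD
  have e : ∀ x, Jm G σ K (D x) y =
      -∑ β, σ.ij β (∑ i, ∑ β', G.γ i β β' • D x i (li K (D x) (σ.pr β' y))) := fun x => rfl
  simp only [e]
  refine ContDiffAt.neg (ContDiffAt.sum fun β _ => ?_)
  refine ((σ.ij β).contDiff.contDiffAt (x := ∑ i, ∑ β', G.γ i β β' •
    D p i (li K (D p) (σ.pr β' y)))).comp p (f := fun x => ∑ i, ∑ β', G.γ i β β' •
    D x i (li K (D x) (σ.pr β' y))) ?_
  refine ContDiffAt.sum fun i _ => ContDiffAt.sum fun β' _ => ContDiffAt.const_smul _ ?_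
  exact (hD i).clm_apply (h1.clm_apply contDiffAt_const)

end abs

section lit

variable {N : ℕ} {b : ColorBasis N} {c : Cfg N} {G : GammaNine}
  {F : Type*} [NormedAddCommGroup F] [InnerProductSpace ℂ F] [FiniteDimensional ℂ F]
  {M : FermionRep N F} {σ : Ten (Fin 16) (Colg N) (W16 N)}

theorem cr_irr' : (cr M).Irr := cr_irr M


theorem cr_mem (hσ : ∀ β x, σ.pr β x = row β x) {K : Submodule ℝ (Colg N)} {x : W16 N}
    (hx : ∀ β, σ.pr β x ∈ K) : ((cr M).θ x : F →ₗ[ℂ] F) ∈ Od M K := by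
  have e : ((cr M).θ x : F →ₗ[ℂ] F) = ∑ β, thv M β (row β x) := by
    ext f
    rw [cr_eq_sum, LinearMap.sum_apply]
  rw [e]
  refine Submodule.sum_mem _ fun β _ => thv_mem M β ?_
  rw [← hσ]
  exact hx β

/-- A heavy parity at `c` is a parity for the heavy complex structure. -/
theorem par_of (hσ : ∀ β x, σ.pr β x = row β x) {s : ℝ} (hs : 0 < s)
    {D : Fin 9 → Colg N →L[ℝ] Colg N} (h : Fam (kc (actB b) c) s D) {Γ : F →ₗ[ℂ] F}
    (hΓ : LemA342.IsPar b c M Γ) : Par (cr M) (Jm G σ (kc (actB b) c) D) Γ where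
  light := fun x hx f => hΓ.comm _ (cr_mem hσ ((Jm_eq_zero_iff G σ h hs x).1 hx)) f
  heavy := fun x f => hΓ.anti _ (cr_mem hσ fun β => pr_Jm_mem G σ h x β) f
  sq := hΓ.inv
  symm := hΓ.symm

/-- Orientation of the parity at `c`. -/
theorem exists_sign [Nontrivial F] (hσ : ∀ β x, σ.pr β x = row β x) (hc : Comc b c) :
    ∃ Γ : F →ₗ[ℂ] F, LemA342.IsPar b c M Γ ∧
      ∀ f ∈ (cr M).vacJ (Jm G σ (kc (actB b) c) (adX b c)), Γ f = f := by
  obtain ⟨s, hs, h⟩ := exists_fam b hc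
  obtain ⟨Γ, hΓ⟩ := LemA342.exists_isPar b c M
  rcases par_scalar (cr_irr' (M := M)) (Jm_pcs G σ h hs) (par_of (G := G) hσ hs h hΓ) with h1 | h1
  · exact ⟨Γ, hΓ, h1⟩
  · refine ⟨-Γ, ⟨fun L hL f => ?_, fun L hL f => ?_, fun f => ?_, fun f f' => ?_⟩, fun f hf => ?_⟩
    · rw [LinearMap.neg_apply, LinearMap.neg_apply, hΓ.comm L hL, map_neg]
    · rw [LinearMap.neg_apply, LinearMap.neg_apply, hΓ.anti L hL, map_neg]
    · rw [LinearMap.neg_apply, LinearMap.neg_apply, map_neg, hΓ.inv, neg_neg]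
    · rw [LinearMap.neg_apply, LinearMap.neg_apply, inner_neg_left, inner_neg_right, hΓ.symm]
    · rw [LinearMap.neg_apply, h1 f hf, neg_neg]

/-- **One sign for the whole chart.** -/
theorem sign_near [Nontrivial F] (hσ : ∀ β x, σ.pr β x = row β x) (hc : Comc b c)
    {Γ : F →ₗ[ℂ] F} (hΓ : LemA342.IsPar b c M Γ)
    (h1 : ∀ f ∈ (cr M).vacJ (Jm G σ (kc (actB b) c) (adX b c)), Γ f = f) :
    ∃ η : ℝ, 0 < η ∧ ∀ X : Cfg N, Comc b X → kc (actB b) X = kc (actB b) c → ‖X - c‖ ≤ η →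
      ∀ f ∈ (cr M).vacJ (Jm G σ (kc (actB b) X) (adX b X)), Γ f = f := by
  obtain ⟨s, hs, h⟩ := exists_fam b hc
  have h2 : ∀ y, ContDiffAt ℝ 0 (fun X => Jm G σ (kc (actB b) c) (adX b X) y) c := fun y =>
    (contDiffAt_Jm G σ (m := 1) (by simp) (h.ll_pd hs)
      (Eventually.of_forall fun X => adX_skew b X)
      (fun i => (contDiff_adX b i).contDiffAt) y).of_le (by simp)
  have h3 := par_near (M := cr M) (Γ := Γ) (cr_irr' (M := M)) h2 (Jm_pcs G σ h hs) h1
  obtain ⟨η, hη, h4⟩ := Metric.eventually_nhds_iff_ball.1 h3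
  refine ⟨η / 2, half_pos hη, fun X hX hk hn f hf => ?_⟩
  obtain ⟨s', hs', h'⟩ := fam_of_eq hX hk
  rw [hk] at hf
  refine h4 X ?_ (Jm_pcs G σ h' hs') (par_of hσ hs' h' hΓ) f hf
  rw [Metric.mem_ball, dist_eq_norm]
  linarith

end lit

end Crest.Agent.R330.FibJ581

end
end

-- ▼ part R330/LemRe_149
section

/-!
# Row 330, leaf S7-R (helper149): the two output forms of (F2) on the slice

* `PrK_eq_gs` : `PrK` with the normalised weight `gs`.
* `F2u` : 581's (F2) at the commuting part of `c + u`, for all `u`.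
* **`h2`** : 383's fibrewise form, with `en`, `en_nonneg`, `integrable_en`, `integral_en`.
* **`I1`** : the form of `CapSl924.slice_est`.
* the literal weight `gsl` and projection `Lp` : continuity, normalisation, `F2u_nrm`.
-/

set_option autoImplicit false
set_option linter.unusedSectionVars false

open MeasureTheory Filter Topology Crest.MathPhysics.MatrixQM Set
open Crest.Agent.R330.IBP837 Crest.Agent.R330.Defs478 Crest.Agent.R330.Frame839
open Crest.Agent.R330.LS839 Crest.Agent.R330.Clus839 Crest.Agent.R330.Bind6839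
open Crest.Agent.R330.LemRb149 Crest.Agent.R330.LemA342 Crest.Agent.R330.LemRc149
open Crest.Agent.R330.LemRd149
open Crest.Agent.R330.Transp491 (PrK)
open Crest.Agent.R330.FibProj837 (fpj fpr)
open scoped ContDiff InnerProductSpace ENNReal

noncomputable section

namespace Crest.Agent.R330.LemRe149

section abstr

variable {E F : Type*} [NormedAddCommGroup E] [InnerProductSpace ℝ E] [FiniteDimensional ℝ E]
  [MeasurableSpace E] [BorelSpace E]
  [NormedAddCommGroup F] [InnerProductSpace ℂ F] [FiniteDimensional ℂ F]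

/-- `PrK` with the normalised weight. -/
theorem PrK_eq_gs {K : Submodule ℝ E} {γ : E → ℝ} {gs : K → ℝ} {C : ℝ}
    (hC : ∀ z : K, gs z = C * γ z) (h1 : ∫ z : K, gs z ^ 2 = 1) (p : F →ₗ[ℂ] F) (f : K → F)
    (z : K) : PrK K γ p f z = gs z • p (∫ y : K, gs y • f y) := by
  simp only [hC, mul_pow] at h1 ⊢
  rw [integral_const_mul] at h1
  unfold PrK
  have h2 : ∫ w : K, (C * γ w) • f w = C • ∫ w : K, γ w • f w := by
    rw [← integral_smul]
    refine integral_congr_ae (Eventually.of_forall fun w => ?_)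
    change (C * γ w) • f w = C • γ w • f w
    rw [smul_smul]
  rw [h2]
  have h4 : C ^ 2 = (∫ y : K, γ y ^ 2)⁻¹ := eq_inv_of_mul_eq_one_left h1
  rw [← Complex.coe_smul C (∫ w : K, γ w • f w), map_smul, Complex.coe_smul, smul_smul]
  congr 1
  rw [div_eq_mul_inv, ← h4]
  ring

end abstr

section lit

variable {N : ℕ} {F : Type*} [NormedAddCommGroup F] [InnerProductSpace ℂ F]
  [FiniteDimensional ℂ F] (b : ColorBasis N) (c : Cfg N) (M : FermionRep N F) (G : GammaNine)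
  {κ η : Type*} [Fintype κ] [Fintype η]

/-- **(F2)** for all `u` in the ball of radius `ρ`: weight `γ u`, projection `L u`, distance to the
commuting part `d u`. -/
def F2u (v : OrthonormalBasis κ ℝ (Zs b c)) (t : OrthonormalBasis η ℝ (Tn (actB b) c))
    (g ρ K : ℝ) (γ : Uk b c → Cfg N → ℝ) (L : Uk b c → F →ₗ[ℂ] F) (d : Uk b c → ℝ) : Prop :=
  ∀ u : Uk b c, ‖u‖ ≤ ρ → ∀ f : Zs b c → F, ContDiff ℝ 2 f → HasCompactSupport f →
    g * ∫ z, ‖f z - PrK (Zs b c) (γ u) (L u) f z‖ ^ 2 ≤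
      K * ((∑ α, ∫ z, ‖Bfib b c M G g α v t (c + u) f z‖ ^ 2) + d u ^ 2 * (g * ∫ z, ‖f z‖ ^ 2))

variable {b c}

/-- the weight `gs` is the normalised `γ` on the ball -/
def Nrm (ρ : ℝ) (γ : Uk b c → Cfg N → ℝ) (gs : Sc b c → ℝ) : Prop :=
  ∀ u : Uk b c, ‖u‖ ≤ ρ → (∃ C : ℝ, ∀ z : Zs b c, gs (u, z) = C * γ u z) ∧
    ∫ z : Zs b c, gs (u, z) ^ 2 = 1


variable (b c) in
/-- the fibre energy -/
def en (v : OrthonormalBasis κ ℝ (Zs b c)) (t : OrthonormalBasis η ℝ (Tn (actB b) c)) (g K : ℝ)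
    (Φ : Sc b c → F) (u : Uk b c) : ℝ :=
  K * ∑ α, ∫ z, ‖Bop b c M G g α v t Φ (u, z)‖ ^ 2

variable {M G}
variable {v : OrthonormalBasis κ ℝ (Zs b c)} {t : OrthonormalBasis η ℝ (Tn (actB b) c)}
  {g ρ K : ℝ} {γ : Uk b c → Cfg N → ℝ} {L : Uk b c → F →ₗ[ℂ] F} {d : Uk b c → ℝ}
  {gs : Sc b c → ℝ} {Φ : Sc b c → F}

theorem en_nonneg (hK : 0 ≤ K) (u : Uk b c) : 0 ≤ en b c M G v t g K Φ u :=
  mul_nonneg hK (Finset.sum_nonneg fun _ _ => integral_nonneg fun _ => by positivity)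

/-- the fibrewise estimate -/
theorem h2_pt (H : F2u b c M G v t g ρ K γ L d) (hN : Nrm ρ γ gs) (hΦ : ContDiff ℝ 2 Φ)
    (hc : HasCompactSupport Φ) {u : Uk b c} (hu : ‖u‖ ≤ ρ) :
    g * ∫ z, ‖Φ (u, z) - gs (u, z) • L u (∫ z', gs (u, z') • Φ (u, z'))‖ ^ 2 ≤
      K * ((∑ α, ∫ z, ‖Bop b c M G g α v t Φ (u, z)‖ ^ 2) + d u ^ 2 * (g * ∫ z, ‖Φ (u, z)‖ ^ 2)) := by
  obtain ⟨⟨C, hC⟩, h1⟩ := hN u hu
  have h := H u hu (fun z => Φ (u, z)) (fib_contDiff hΦ u) (fib_hcs hc u)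
  simp only [PrK_eq_gs (gs := fun z : Zs b c => gs (u, z)) hC h1] at h
  have hd : Differentiable ℝ Φ := hΦ.differentiable (by norm_num)
  have e : ∀ α (z : Zs b c), Bop b c M G g α v t Φ (u, z) =
      Bfib b c M G g α v t (c + u) (fun z => Φ (u, z)) z :=
    fun α z => Bop_eq_Bfib v t (hd (u, z))
  simp only [e]
  exact h

/-- **(h2)**: 383's form. -/
theorem h2 (hK : 0 ≤ K) (H : F2u b c M G v t g ρ K γ L d) (hN : Nrm ρ γ gs)
    (hΦ : ContDiff ℝ 2 Φ) (hc : HasCompactSupport Φ) (h0 : ∀ x : Sc b c, ρ < ‖x.1‖ → Φ x = 0)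
    (u : Uk b c) :
    g * ∫ z, ‖Φ (u, z) - gs (u, z) • L u (∫ z', gs (u, z') • Φ (u, z'))‖ ^ 2 ≤
      en b c M G v t g K Φ u + g * (Real.sqrt K * d u) ^ 2 * ∫ z, ‖Φ (u, z)‖ ^ 2 := by
  rcases le_or_gt ‖u‖ ρ with hu | hu
  · refine (h2_pt H hN hΦ hc hu).trans (le_of_eq ?_)
    unfold en
    rw [mul_pow, Real.sq_sqrt hK]
    ring
  · have h1 : ∀ z, Φ (u, z) = 0 := fun z => h0 (u, z) hu
    have h2 := en_nonneg (M := M) (G := G) (v := v) (t := t) (g := g) (Φ := Φ) hK u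
    simpa [h1] using h2

variable {μU : Measure (Uk b c)} [μU.IsAddHaarMeasure]

theorem integrable_en {r B : ℝ} (hr0 : 0 < r) (hr : GapAt (actB b) c r)
    (hB : ActBound (actB b) B) (hρ : B * ρ ≤ r / 2) (hB0 : 0 ≤ B) (hΦ : ContDiff ℝ 1 Φ)
    (hc : HasCompactSupport Φ) (h0 : ∀ x : Sc b c, ρ < ‖x.1‖ → Φ x = 0) :
    Integrable (en b c M G v t g K Φ) μU := by
  unfold en
  refine (integrable_finsetSum _ fun α _ => ?_).const_mul K
  exact (integrable_Bop (μU := μU) (μZ := volume) M G g α v t hr0 hr hB hρ hB0 hΦ hc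
    h0).integral_prod_left

theorem integral_en {r B : ℝ} (hr0 : 0 < r) (hr : GapAt (actB b) c r)
    (hB : ActBound (actB b) B) (hρ : B * ρ ≤ r / 2) (hB0 : 0 ≤ B) (hΦ : ContDiff ℝ 1 Φ)
    (hc : HasCompactSupport Φ) (h0 : ∀ x : Sc b c, ρ < ‖x.1‖ → Φ x = 0) :
    ∫ u, en b c M G v t g K Φ u ∂μU =
      K * ∑ α, ∫ x, ‖Bop b c M G g α v t Φ x‖ ^ 2 ∂(μU.prod volume) := by
  unfold en
  have hI := fun α => integrable_Bop (μU := μU) (μZ := volume) M G g α v t hr0 hr hB hρ hB0 hΦ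
    hc h0
  rw [integral_const_mul, integral_finsetSum _ fun α _ => (hI α).integral_prod_left]
  simp only [integral_prod _ (hI _)]

/-- **(I1)**: the form of `CapSl924.slice_est`. -/
theorem I1 {r B : ℝ} (hr0 : 0 < r) (hr : GapAt (actB b) c r)
    (hB : ActBound (actB b) B) (hρ : B * ρ ≤ r / 2) (hB0 : 0 ≤ B) (hg : 0 ≤ g) (hK : 0 ≤ K)
    (hd : ∀ u, 0 ≤ d u) (H : F2u b c M G v t g ρ K γ L d) (hN : Nrm ρ γ gs)
    (hΦ : ContDiff ℝ 2 Φ) (hc : HasCompactSupport Φ) (h0 : ∀ x : Sc b c, ρ < ‖x.1‖ → Φ x = 0)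
    {S : Set (Uk b c)} (hS : MeasurableSet S) {δ : ℝ} (hSd : ∀ u ∈ S, ‖u‖ ≤ ρ → d u ≤ δ) :
    g * ∫ u in S, ∫ z, ‖Φ (u, z) - fpj volume gs L Φ (u, z)‖ ^ 2 ∂volume ∂μU ≤
      K * (∑ α, ∫ x, ‖Bop b c M G g α v t Φ x‖ ^ 2 ∂(μU.prod volume) +
        δ ^ 2 * (g * ∫ x, ‖Φ x‖ ^ 2 ∂(μU.prod volume))) := by
  have hΦ1 : ContDiff ℝ 1 Φ := hΦ.of_le (by norm_num)
  have i0 : Integrable (fun x => ‖Φ x‖ ^ 2) (μU.prod volume) := sq_int hΦ.continuous hc
  have i1 : Integrable (en b c M G v t g K Φ) μU :=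
    integrable_en hr0 hr hB hρ hB0 hΦ1 hc h0
  have i2 : Integrable (fun u => K * (δ ^ 2 * (g * ∫ z, ‖Φ (u, z)‖ ^ 2))) μU :=
    ((i0.integral_prod_left.const_mul g).const_mul _).const_mul K
  have hR : K * (∑ α, ∫ x, ‖Bop b c M G g α v t Φ x‖ ^ 2 ∂(μU.prod volume) +
        δ ^ 2 * (g * ∫ x, ‖Φ x‖ ^ 2 ∂(μU.prod volume))) =
      ∫ u, (en b c M G v t g K Φ u + K * (δ ^ 2 * (g * ∫ z, ‖Φ (u, z)‖ ^ 2))) ∂μU := by
    rw [integral_add i1 i2, integral_en hr0 hr hB hρ hB0 hΦ1 hc h0, integral_const_mul,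
      integral_const_mul, integral_const_mul, integral_prod _ i0, mul_add]
  rw [hR, ← integral_const_mul]
  have hnn : ∀ u, 0 ≤ en b c M G v t g K Φ u + K * (δ ^ 2 * (g * ∫ z, ‖Φ (u, z)‖ ^ 2)) := by
    intro u
    have h1 := en_nonneg (M := M) (G := G) (v := v) (t := t) (g := g) (Φ := Φ) hK u
    have h2 : 0 ≤ ∫ z, ‖Φ (u, z)‖ ^ 2 := integral_nonneg fun _ => by positivity
    have h3 : 0 ≤ K * (δ ^ 2 * (g * ∫ z, ‖Φ (u, z)‖ ^ 2)) := by positivity
    linarith
  refine le_trans ?_ (setIntegral_le_integral (s := S) (i1.add i2)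
    (Eventually.of_forall hnn))
  refine integral_mono_of_nonneg (Eventually.of_forall fun u => ?_) (i1.add i2).integrableOn ?_
  · exact mul_nonneg hg (integral_nonneg fun _ => by positivity)
  · refine (ae_restrict_mem hS).mono fun u huS => ?_
    show g * ∫ z, ‖Φ (u, z) - fpj volume gs L Φ (u, z)‖ ^ 2 ≤
      en b c M G v t g K Φ u + K * (δ ^ 2 * (g * ∫ z, ‖Φ (u, z)‖ ^ 2))
    rcases le_or_gt ‖u‖ ρ with hu | hu
    · have h1 := h2_pt H hN hΦ hc hu
      have h3 : 0 ≤ g * ∫ z, ‖Φ (u, z)‖ ^ 2 :=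
        mul_nonneg hg (integral_nonneg fun _ => by positivity)
      have h4 : d u ^ 2 ≤ δ ^ 2 := pow_le_pow_left₀ (hd u) (hSd u huS hu) 2
      refine h1.trans ?_
      unfold en
      rw [mul_add]
      gcongr
    · have h1 : ∀ z, Φ (u, z) = 0 := fun z => h0 (u, z) hu
      have e : ∀ z, fpj volume gs L Φ (u, z) = 0 := fun z => by
        unfold fpj fpr
        simp [h1]
      have := hnn u
      simp only [h1, e, sub_zero, norm_zero] at this ⊢
      simpa using this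

end lit

/-! ## The literal weight and projection -/

section weight

open Crest.Agent.R330.GBind984 Crest.Agent.R330.GPar984 Crest.Agent.R330.E1984
open Crest.Agent.R330.SqrtPD984 Crest.Agent.R330.AX984 Crest.Agent.R330.FactI161
open Crest.Agent.R330.Fib892 Crest.Agent.R330.Cliff442

variable {N : ℕ} {F : Type*} [NormedAddCommGroup F] [InnerProductSpace ℂ F]
  [FiniteDimensional ℂ F] (b : ColorBasis N) (c : Cfg N)

/-- commuting part of `c + u` -/
def Xu (u : Uk b c) : Cfg N := Ctr581.X b c (c + (u : Cfg N))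

/-- distance to the commuting part -/
def du (u : Uk b c) : ℝ := ‖c + (u : Cfg N) - Xu b c u‖

/-- the Gaussian weight (not normalised) -/
def gam (g : ℝ) (u : Uk b c) (z : Cfg N) : ℝ :=
  Real.exp (-(g / 2) * QX b (kc (actB b) c) (Xu b c u) z)

/-- the normalised weight, cut off in `u` -/
def gsl (χ : Uk b c → ℝ) (g : ℝ) (x : Sc b c) : ℝ := χ x.1 * ga b c g (Xu b c x.1) x.2

/-- the projection on the heavy vacua at the commuting part -/
def Lp (M : FermionRep N F) (G : GammaNine) (σ : Ten (Fin 16) (Colg N) (W16 N)) (u : Uk b c) :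
    F →ₗ[ℂ] F :=
  (cr M).proj (Jm G σ (kc (actB b) c) (adX b (Xu b c u)))

variable {b c}






/-- **The literal data near `c`.** -/
structure Wt (b : ColorBasis N) (c : Cfg N) (M : FermionRep N F) (G : GammaNine)
    (σ : Ten (Fin 16) (Colg N) (W16 N)) (s : ℝ) : Prop where
  /-- smoothness of the normalised weight -/
  smooth : ∀ χ : Uk b c → ℝ, ContDiff ℝ ∞ χ → tsupport χ ⊆ Metric.ball 0 s → ∀ g : ℝ,
    ContDiff ℝ ∞ (gsl b c χ g)
  /-- normalisation -/
  nrm : ∀ χ : Uk b c → ℝ, ∀ ρ : ℝ, ρ < s → (∀ u, ‖u‖ ≤ ρ → χ u = 1) → ∀ g : ℝ, 0 < g →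
    Nrm ρ (gam b c g) (gsl b c χ g)
  sym : ∀ u : Uk b c, ‖u‖ < s → (Lp b c M G σ u).IsSymmetric
  idem : ∀ u : Uk b c, ‖u‖ < s → ∀ f, Lp b c M G σ u (Lp b c M G σ u f) = Lp b c M G σ u f
  le : ∀ u : Uk b c, ‖u‖ < s → ∀ f, ‖Lp b c M G σ u f‖ ≤ ‖f‖
  diff : ∀ (n : ℕ∞) (u : Uk b c), ‖u‖ < s → ∀ f : Uk b c → F, ContDiffAt ℝ n f u →
    ContDiffAt ℝ n (fun u => Lp b c M G σ u (f u)) u



end weight

end Crest.Agent.R330.LemRe149

end
namespace Crest.Agent.R330.LemRe149.Nrm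
end Crest.Agent.R330.LemRe149.Nrm
end

-- ▼ part R330/Transp3_491
section

/-!
# Row 330, section 9.1(e) (helper491): (F1), (F2) at `X` on the fixed slice, `C²` functions

* `F1_D`, `F2_D` : transport from `Zs b X` (as a submodule `K = Zb`) to `Zs b c`, in the shape
  `F1b581.Dn`, `F1b581.SB`.
* `F1_of_lin` : (F1) with explicit constant from `Fib892.Lin`.
* `fib_eq_PrK` : the fibre projection of 892 is `PrK` with the Gaussian weight of any extension
  of the form.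
-/

set_option autoImplicit false
set_option linter.unusedSectionVars false

open MeasureTheory Filter Topology Crest.MathPhysics.MatrixQM
open Crest.Agent.R330.IBP837 Crest.Agent.R330.Defs478 Crest.Agent.R330.Frame839
open Crest.Agent.R330.LS839 Crest.Agent.R330.Clus839 Crest.Agent.R330.Bind6839
open Crest.Agent.R330.Transp491 Crest.Agent.R330.Transp2491
open scoped ContDiff InnerProductSpace ENNReal

noncomputable section

namespace Crest.Agent.R330.Transp3491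

/-! ## Change of variables for `C¹` functions -/

section general

variable {F : Type*} [NormedAddCommGroup F] [InnerProductSpace ℂ F] [FiniteDimensional ℂ F]
  {E₁ E₂ : Type*}
    [NormedAddCommGroup E₁] [InnerProductSpace ℝ E₁]
    [FiniteDimensional ℝ E₁] [MeasurableSpace E₁] [BorelSpace E₁] [NormedAddCommGroup E₂]
    [InnerProductSpace ℝ E₂] [FiniteDimensional ℝ E₂] [MeasurableSpace E₂] [BorelSpace E₂]

/-- Pointwise comparison of the gradients. -/
theorem grad_comp_le {κ ι : Type*} [Fintype κ] [Fintype ι] (s : E₁ ≃L[ℝ] E₂)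
    (hs : ∀ z, ‖s.symm z‖ ≤ ‖z‖) (e : OrthonormalBasis ι ℝ E₁) (v : OrthonormalBasis κ ℝ E₂)
    (f : E₂ → F) (w : E₁) :
    ∑ i, ‖fderiv ℝ f (s w) (v i)‖ ^ 2 ≤
      Fintype.card κ * ∑ i, ‖fderiv ℝ (fun w => f (s w)) w (e i)‖ ^ 2 := by
  have h2 : fderiv ℝ f (s w) =
      (fderiv ℝ (fun w => f (s w)) w).comp (s.symm : E₂ →L[ℝ] E₁) := by
    rw [fderiv_sb s f w]
    ext v
    simp
  have h3 := F1b581.opNorm_sq_le e (fderiv ℝ (fun w => f (s w)) w)
  have h4 : ∀ i, ‖fderiv ℝ f (s w) (v i)‖ ^ 2 ≤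
      ∑ i, ‖fderiv ℝ (fun w => f (s w)) w (e i)‖ ^ 2 := by
    intro i
    refine le_trans ?_ h3
    refine pow_le_pow_left₀ (norm_nonneg _) ?_ 2
    rw [h2]
    change ‖(fderiv ℝ (fun w => f (s w)) w) (s.symm (v i))‖ ≤ _
    refine ((fderiv ℝ (fun w => f (s w)) w).le_opNorm _).trans ?_
    have h5 : ‖s.symm (v i)‖ ≤ 1 := (hs (v i)).trans (le_of_eq (v.orthonormal.1 i))
    calc _ ≤ ‖fderiv ℝ (fun w => f (s w)) w‖ * 1 := by gcongr
      _ = _ := mul_one _
  refine (Finset.sum_le_sum fun i _ => h4 i).trans (le_of_eq ?_)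
  rw [Finset.sum_const, Finset.card_univ, nsmul_eq_mul]

/-- Comparison of the `D` integrals. -/
theorem Dn_le {κ ι : Type*} [Fintype κ] [Fintype ι] (s : E₁ ≃L[ℝ] E₂) {J : ℝ} (hJ : 0 < J)
    (hJs : (volume : Measure E₁).map s = ENNReal.ofReal J • (volume : Measure E₂))
    (hs : ∀ z, ‖s.symm z‖ ≤ ‖z‖) (hs' : ∀ w, ‖s w‖ ≤ 2 * ‖w‖)
    (e : OrthonormalBasis ι ℝ E₁) (v : OrthonormalBasis κ ℝ E₂) (g : ℝ)
    {f : E₂ → F} (hf : ContDiff ℝ 1 f) (hfc : HasCompactSupport f) :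
    J * F1b581.Dn volume v g f ≤
      (Fintype.card κ + 4) * F1b581.Dn volume e g (fun w => f (s w)) := by
  have hf' : ContDiff ℝ 1 (fun w => f (s w)) := hf.comp s.contDiff
  have hfc' : HasCompactSupport (fun w => f (s w)) := hfc.comp_homeomorph s.toHomeomorph
  unfold F1b581.Dn
  rw [← smul_eq_mul, ← integral_sb s hJ hJs (fun z => F1b581.dens v g f z),
    ← integral_const_mul]
  refine integral_mono_of_nonneg (Filter.Eventually.of_forall fun w =>
    F1b581.dens_nonneg v g f (s w)) ?_ (Filter.Eventually.of_forall fun w => ?_)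
  · refine Integrable.const_mul ?_ _
    exact (F1b581.cont_dens e g hf').integrable_of_hasCompactSupport (F1b581.supp_dens e g hfc')
  · change F1b581.dens v g f (s w) ≤ (Fintype.card κ + 4) * F1b581.dens e g (fun w => f (s w)) w
    unfold F1b581.dens
    have h1 := grad_comp_le s hs e v f w
    have h2 := hs' w
    have h3 : ‖s w‖ ^ 2 ≤ 4 * ‖w‖ ^ 2 := by
      nlinarith [norm_nonneg (s w), norm_nonneg w]
    have h4 : 0 ≤ g ^ 2 * ‖f (s w)‖ ^ 2 := by positivity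
    have h5 : g ^ 2 * ‖s w‖ ^ 2 * ‖f (s w)‖ ^ 2 ≤ 4 * (g ^ 2 * ‖w‖ ^ 2 * ‖f (s w)‖ ^ 2) := by
      nlinarith
    have h6 : 0 ≤ ∑ i, ‖fderiv ℝ (fun w => f (s w)) w (e i)‖ ^ 2 :=
      Finset.sum_nonneg fun i _ => by positivity
    have h7 : 0 ≤ g ^ 2 * ‖w‖ ^ 2 * ‖f (s w)‖ ^ 2 := by positivity
    have h8 : (0 : ℝ) ≤ Fintype.card κ := Nat.cast_nonneg _
    nlinarith [mul_nonneg h8 h7]

end general

/-! ## Transport to the fixed slice -/

variable {N : ℕ} {b : ColorBasis N} {c : Cfg N}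
  {F : Type*} [NormedAddCommGroup F] [InnerProductSpace ℂ F] [FiniteDimensional ℂ F]

theorem SB_Bh (M : FermionRep N F) (G : GammaNine) {κ κ' : Type} [Fintype κ] [Fintype κ']
    (v : OrthonormalBasis κ ℝ (Zs b c)) (t : OrthonormalBasis κ' ℝ (Tn (actB b) c))
    (g : ℝ) (p : Cfg N) (f : Zs b c → F) :
    F1b581.SB b c M G v t g p f = ∑ α, ∫ z, ‖Bh M G g α v t p f z‖ ^ 2 := rfl

/-- **(F1) at `p` on the fixed slice**, `C²` functions, shape of `F1b_581`. -/
theorem F1_D (M : FermionRep N F) (G : GammaNine) {r B : ℝ}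
    (hr0 : 0 < r) (hr : GapAt (actB b) c r) (hB : ActBound (actB b) B) (hB0 : 0 ≤ B)
    {p : Cfg N} (hp : p ∈ Uk b c) (hc : Comc b p) (hx : B * ‖p - c‖ ≤ r / 2)
    {ι : Type*} {κ η : Type} [Fintype ι] [Fintype κ] [Fintype η] {K : Submodule ℝ (Cfg N)}
    (hK : K = Zb (actB b) c (Zs b c) p) (e : OrthonormalBasis ι ℝ K)
    (v : OrthonormalBasis κ ℝ (Zs b c)) (t : OrthonormalBasis η ℝ (Tn (actB b) c)) {C g : ℝ}
    (H : ∀ f : K → F, ContDiff ℝ 2 f → HasCompactSupport f →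
      F1b581.Dn volume e g f ≤
      C * (∑ α, (∫ w, ‖Bf (thL M G α) (wBL b M G g α p) e f w‖ ^ 2) + g * ∫ w, ‖f w‖ ^ 2))
    {f : Zs b c → F} (hf : ContDiff ℝ 2 f) (hfc : HasCompactSupport f) :
    F1b581.Dn volume v g f ≤
      ((Fintype.card κ + 4) * C) * (F1b581.SB b c M G v t g p f + g * ∫ z, ‖f z‖ ^ 2) := by
  subst hK
  have hM : ∀ α, ∀ w ∈ (kc (actB b) c)ᗮ, wBL b M G g α p (actB b w p) = 0 :=
    fun α w _ => wB_act hc M G g α w
  set s := sb hr0 hr hB hx (slice hp) with hsdef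
  obtain ⟨J, hJ, hJs⟩ := exists_map_smul s
  have hf' : ContDiff ℝ 2 (fun w => f (s w)) := hf.comp s.contDiff
  have hfc' : HasCompactSupport (fun w => f (s w)) := hfc.comp_homeomorph s.toHomeomorph
  have h := H (fun w => f (s w)) hf' hfc'
  simp only [hsdef, fun α => Bf_comp hr0 hr hB hx (slice hp) (hM α) e v t f] at h
  simp only [← hsdef] at h
  rw [integral_sb s hJ hJs (fun z => ‖f z‖ ^ 2)] at h
  simp only [fun α => integral_sb s hJ hJs
    (fun z => ‖Bc (actB b) c p (thL M G α) (wBL b M G g α p) v t f z‖ ^ 2), smul_eq_mul,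
    ← Finset.mul_sum] at h
  simp only [Bh_eq] at h
  have h1 := Dn_le s hJ hJs (sb_symm_norm hr0 hr hB hx (slice hp))
    (sb_norm hr0 hr hB hB0 hx (slice hp)) e v g (hf.of_le (by norm_num)) hfc
  have h8 : (0 : ℝ) ≤ Fintype.card κ := Nat.cast_nonneg _
  refine le_of_mul_le_mul_left (a := J) ?_ hJ
  rw [SB_Bh]
  have h2 := mul_le_mul_of_nonneg_left h (by linarith : (0 : ℝ) ≤ Fintype.card κ + 4)
  refine h1.trans (h2.trans (le_of_eq ?_))
  ring

/-- **(F2) at `p` on the fixed slice**, `C²` functions, shape of `F1b_581`. -/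
theorem F2_D (M : FermionRep N F) (G : GammaNine) {r B : ℝ}
    (hr0 : 0 < r) (hr : GapAt (actB b) c r) (hB : ActBound (actB b) B)
    {p : Cfg N} (hp : p ∈ Uk b c) (hc : Comc b p) (hx : B * ‖p - c‖ ≤ r / 2)
    {ι : Type*} {κ η : Type} [Fintype ι] [Fintype κ] [Fintype η] {K : Submodule ℝ (Cfg N)}
    (hK : K = Zb (actB b) c (Zs b c) p) (e : OrthonormalBasis ι ℝ K)
    (v : OrthonormalBasis κ ℝ (Zs b c)) (t : OrthonormalBasis η ℝ (Tn (actB b) c)) {C g : ℝ}
    {γ : Cfg N → ℝ} (hγ : ∀ w v, γ (w + actB b v p) = γ w) (P : F →ₗ[ℂ] F)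
    (H : ∀ f : K → F, ContDiff ℝ 2 f → HasCompactSupport f →
      g * ∫ w, ‖f w - PrK K γ P f w‖ ^ 2 ≤
      C * ∑ α, ∫ w, ‖Bf (thL M G α) (wBL b M G g α p) e f w‖ ^ 2)
    {f : Zs b c → F} (hf : ContDiff ℝ 2 f) (hfc : HasCompactSupport f) :
    g * ∫ z, ‖f z - PrK (Zs b c) γ P f z‖ ^ 2 ≤ C * F1b581.SB b c M G v t g p f := by
  subst hK
  have hM : ∀ α, ∀ w ∈ (kc (actB b) c)ᗮ, wBL b M G g α p (actB b w p) = 0 :=
    fun α w _ => wB_act hc M G g α w
  have h := H (fun w => f (sb hr0 hr hB hx (slice hp) w))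
    (hf.comp (sb hr0 hr hB hx (slice hp)).contDiff)
    (hfc.comp_homeomorph (sb hr0 hr hB hx (slice hp)).toHomeomorph)
  simp only [PrK_comp hr0 hr hB hx (slice hp) (fun w v _ => hγ w v)] at h
  have h2 := gapF2 hr0 hr hB hx (slice hp) (Th := thL M G)
    (Mz := fun α => wBL b M G g α p) hM e v t f (PrK (Zs b c) γ P f) h
  simp only [Bh_eq] at h2
  rw [SB_Bh]
  exact h2

/-! ## From the systems of linear charges of 892 -/

section lin

open Crest.Agent.R330.Cliff442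

variable {E V ι κ : Type*} [NormedAddCommGroup E] [InnerProductSpace ℝ E]
  [FiniteDimensional ℝ E] [MeasurableSpace E] [BorelSpace E]
  [NormedAddCommGroup V] [InnerProductSpace ℝ V] [FiniteDimensional ℝ V]
  [Fintype ι] [Fintype κ]
  {M : CRep V F} {Γ : ι → E →ₗ[ℝ] V} {T P : V →ₗ[ℝ] V} {A : E →L[ℝ] E} {c' g : ℝ}
  {e : OrthonormalBasis κ ℝ E} {f : E → F}

/-- (F1) with explicit constant. -/
theorem F1_of_lin (h : Fib892.Lin Γ T P A c' e) {a τ : ℝ} (ha : 0 < a)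
    (hA : ∀ z, a * ‖z‖ ^ 2 ≤ ⟪A z, z⟫_ℝ) (hτ : ∑ s, ⟪A (e s), e s⟫_ℝ ≤ τ) (hg : 0 ≤ g)
    (hf : ContDiff ℝ 2 f) (hc : HasCompactSupport f) :
    F1b581.Dn volume e g f ≤ (2 * (1 + (a⁻¹) ^ 2)) * ((2 * c')⁻¹ + τ / 2) *
      (∑ α, (∫ z, ‖Fib892.chg M Γ T e g α f z‖ ^ 2) + g * ∫ z, ‖f z‖ ^ 2) := by
  have h1 := Fib892.grad_pot_le (M := M) h hg hf hc
  have hcp := h.cpos
  have hf1 : ContDiff ℝ 1 f := hf.of_le (by norm_num)
  have hfc : Continuous f := hf.continuous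
  have ifz : Integrable fun z => ‖z‖ ^ 2 * ‖f z‖ ^ 2 := by
    refine Continuous.integrable_of_hasCompactSupport ?_ ?_
    · exact (continuous_norm.pow 2).mul (hfc.norm.pow 2)
    · refine HasCompactSupport.mul_left ?_
      exact hc.comp_left (g := fun v => ‖v‖ ^ 2) (by simp)
  have ifA : Integrable fun z => ‖A z‖ ^ 2 * ‖f z‖ ^ 2 := by
    refine Continuous.integrable_of_hasCompactSupport ?_ ?_
    · exact (A.continuous.norm.pow 2).mul (hfc.norm.pow 2)
    · refine HasCompactSupport.mul_left ?_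
      exact hc.comp_left (g := fun v => ‖v‖ ^ 2) (by simp)
  have ig : Integrable fun z => ∑ s, ‖fderiv ℝ f z (e s)‖ ^ 2 := by
    refine integrable_finsetSum _ fun s _ => ?_
    refine Continuous.integrable_of_hasCompactSupport ?_ ?_
    · exact (F1b581.cont_fderiv hf1 (e s)).norm.pow 2
    · refine HasCompactSupport.intro hc.isCompact fun z hz => ?_
      rw [(F1b581.supp_zero hz).1]
      simp
  have h2 : F1b581.Dn volume e g f = (∫ z, ∑ s, ‖fderiv ℝ f z (e s)‖ ^ 2) +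
      g ^ 2 * ∫ z, ‖z‖ ^ 2 * ‖f z‖ ^ 2 := by
    unfold F1b581.Dn F1b581.dens
    rw [← integral_const_mul, ← integral_add ig (ifz.const_mul _)]
    refine integral_congr_ae (Filter.Eventually.of_forall fun z => ?_)
    change _ + _ = _ + _
    ring
  have h3 : a ^ 2 * ∫ z, ‖z‖ ^ 2 * ‖f z‖ ^ 2 ≤ ∫ z, ‖A z‖ ^ 2 * ‖f z‖ ^ 2 := by
    rw [← integral_const_mul]
    refine integral_mono (ifz.const_mul _) ifA fun z => ?_
    change a ^ 2 * (‖z‖ ^ 2 * ‖f z‖ ^ 2) ≤ ‖A z‖ ^ 2 * ‖f z‖ ^ 2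
    have h4 : a * ‖z‖ ≤ ‖A z‖ := by
      rcases eq_or_ne z 0 with rfl | hz
      · simp
      · have hz' : 0 < ‖z‖ := norm_pos_iff.2 hz
        have h5 := (hA z).trans (real_inner_le_norm (A z) z)
        refine le_of_mul_le_mul_right (a := ‖z‖) ?_ hz'
        nlinarith
    have h5 : (a * ‖z‖) ^ 2 ≤ ‖A z‖ ^ 2 := pow_le_pow_left₀ (by positivity) h4 2
    nlinarith [sq_nonneg ‖f z‖]
  set G1 := ∫ z, ∑ s, ‖fderiv ℝ f z (e s)‖ ^ 2 with hG1
  set G2 := ∫ z, ‖A z‖ ^ 2 * ‖f z‖ ^ 2 with hG2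
  set G3 := ∫ z, ‖z‖ ^ 2 * ‖f z‖ ^ 2 with hG3
  set S := ∑ α, (∫ z, ‖Fib892.chg M Γ T e g α f z‖ ^ 2) with hS
  set Q := ∫ z, ‖f z‖ ^ 2 with hQ
  have p1 : 0 ≤ G1 := integral_nonneg fun z => Finset.sum_nonneg fun s _ => by positivity
  have p2 : 0 ≤ G2 := integral_nonneg fun z => by positivity
  have p3 : 0 ≤ G3 := integral_nonneg fun z => by positivity
  have p4 : 0 ≤ S := Finset.sum_nonneg fun α _ => integral_nonneg fun z => by positivity
  have p5 : 0 ≤ Q := integral_nonneg fun z => by positivity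
  have hτ0 : 0 ≤ τ := by
    refine le_trans (Finset.sum_nonneg fun s _ => ?_) hτ
    exact le_trans (by positivity) (hA (e s))
  set R := (2 * c')⁻¹ * S + τ / 2 * (g * Q) with hR
  have h6 : 1 / 2 * G1 + 1 / 2 * g ^ 2 * G2 ≤ R := by
    refine h1.trans ?_
    have : g / 2 * (∑ s, ⟪A (e s), e s⟫_ℝ) * Q ≤ g / 2 * τ * Q := by gcongr
    rw [hR]
    linarith
  have ha2 : 0 < a ^ 2 := by positivity
  have h7 : G3 ≤ (a⁻¹) ^ 2 * G2 := by
    rw [inv_pow]
    rw [← div_eq_inv_mul, le_div_iff₀ ha2]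
    linarith
  have h8 : G1 + g ^ 2 * G3 ≤ 2 * (1 + (a⁻¹) ^ 2) * R := by
    have e1 : g ^ 2 * G3 ≤ (a⁻¹) ^ 2 * (g ^ 2 * G2) := by
      calc g ^ 2 * G3 ≤ g ^ 2 * ((a⁻¹) ^ 2 * G2) := by gcongr
        _ = _ := by ring
    have e2 : g ^ 2 * G2 ≤ 2 * R := by nlinarith
    have e3 : G1 ≤ 2 * R := by
      have : 0 ≤ g ^ 2 * G2 := by positivity
      nlinarith
    have e4 : (a⁻¹) ^ 2 * (g ^ 2 * G2) ≤ (a⁻¹) ^ 2 * (2 * R) := by gcongr
    nlinarith
  have h9 : R ≤ ((2 * c')⁻¹ + τ / 2) * (S + g * Q) := by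
    have e1 : 0 ≤ (2 * c')⁻¹ := by positivity
    have e2 : 0 ≤ g * Q := by positivity
    rw [hR]
    nlinarith [mul_nonneg e1 e2, mul_nonneg hτ0 p4]
  rw [h2]
  refine h8.trans ?_
  calc 2 * (1 + (a⁻¹) ^ 2) * R ≤ 2 * (1 + (a⁻¹) ^ 2) * (((2 * c')⁻¹ + τ / 2) * (S + g * Q)) := by
        gcongr
    _ = _ := by ring

/-- The fibre projection of 892 is `PrK`. -/
theorem fib_eq_PrK {K : Submodule ℝ E} {J : V →ₗ[ℝ] V} {A : K →L[ℝ] K} (hA : SqrtPD984.PD A)
    (hg : 0 < g) {γ : E → ℝ} (hγ : ∀ z : K, γ z = Real.exp (-(g / 2) * ⟪A z, z⟫_ℝ))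
    (f : K → F) (z : K) :
    Fib892.fib M J g A f z = PrK K γ (M.proj J) f z := by
  set C : ℝ := (g / Real.pi) ^ (Module.finrank ℝ K / 4 : ℝ) *
    Real.sqrt |GPar984.dt (SqrtPD984.psq A)| with hC
  have e1 : ∀ z : K, GPar984.G g A z = C * γ z := fun z => by
    rw [hγ]
    rfl
  have h1 := GPar984.integral_G_sq hg hA
  simp only [e1, mul_pow] at h1
  rw [integral_const_mul] at h1
  unfold Fib892.fib PrK
  simp only [e1]
  have h2 : ∫ w : K, (C * γ w) • f w = C • ∫ w : K, γ w • f w := by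
    rw [← integral_smul]
    refine integral_congr_ae (Filter.Eventually.of_forall fun w => ?_)
    change (C * γ w) • f w = C • γ w • f w
    rw [smul_smul]
  rw [h2]
  have h3 : (∫ y : K, γ y ^ 2) ≠ 0 := by
    intro h0
    rw [h0, mul_zero] at h1
    exact zero_ne_one h1
  have h4 : C ^ 2 = (∫ y : K, γ y ^ 2)⁻¹ := eq_inv_of_mul_eq_one_left h1
  rw [← Complex.coe_smul C (∫ w : K, γ w • f w), map_smul, Complex.coe_smul, smul_smul]
  congr 1
  rw [div_eq_mul_inv, ← h4]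
  ring

/-- (F2) in the form with `PrK`. -/
theorem F2_of_lin {K : Submodule ℝ E} {Γ : ι → K →ₗ[ℝ] V} {A : K →L[ℝ] K}
    {e : OrthonormalBasis κ ℝ K} {J : V →ₗ[ℝ] V} (h : Fib892.Lin Γ T P A c' e)
    (hJ : Fib892.LinJ J T P) {a : ℝ} (ha : 0 < a) (hA : ∀ z, a * ‖z‖ ^ 2 ≤ ⟪A z, z⟫_ℝ)
    (hg : 0 < g) {γ : E → ℝ} (hγ : ∀ z : K, γ z = Real.exp (-(g / 2) * ⟪A z, z⟫_ℝ))
    {f : K → F} (hf : ContDiff ℝ 2 f) (hc : HasCompactSupport f) :
    g * ∫ z, ‖f z - PrK K γ (M.proj J) f z‖ ^ 2 ≤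
      (a⁻¹ * (2 * c')⁻¹) * ∑ α, (∫ z, ‖Fib892.chg M Γ T e g α f z‖ ^ 2) := by
  have h1 := Fib892.gap (M := M) h hJ ha hg hA hf hc
  simp only [fib_eq_PrK (M := M) (J := J) (h.pd ha hA) hg hγ f] at h1
  refine le_of_mul_le_mul_left (a := a) ?_ ha
  calc _ = g * a * ∫ z, ‖f z - PrK K γ (M.proj J) f z‖ ^ 2 := by ring
    _ ≤ _ := h1
    _ = _ := by field_simp

end lin

end Crest.Agent.R330.Transp3491
end
end

-- ▼ part R330/FibD_892
section

/-!
# Row 330, S8-FIB (helper892), part D: the literal heavy charges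

* `tenS N` : `W16 N = ℝ¹⁶ ⊗ Colg N`; `Jl b G K X : W16 N →ₗ W16 N` the complex structure
  (`row_Jl`), `pcs_Jl`.
* `lin_X`, `linJ_X` : the system of linear charges on `Zs b X`.
* `U_kill` : `i Θ_α(A z) v + wB_α(X, z) v = 0` on the heavy vacua, every `z`.
* `Bf_eq` : `Bf (Transp2491.thL M G α) (wBL b M G g α X) e f` is `chg` of the system.
* `H1`, `H2` : (F1), (F2) at `X` on `Zs b X`.
* `cr_T₀`, `Bf_eq₀` hold for every `X`.
-/

set_option autoImplicit false
set_option linter.unusedSectionVars false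
set_option linter.unusedVariables false

open MeasureTheory Filter Topology Crest.MathPhysics.MatrixQM
open scoped InnerProductSpace ContDiff
open Crest.Agent.R330.Cliff442 Crest.Agent.R330.AX984 Crest.Agent.R330.LS839
open Crest.Agent.R330.Frame839 Crest.Agent.R330.Clus839 Crest.Agent.R330.Bind6839
open Crest.Agent.R330.IBP837 Crest.Agent.R330.GBind984 Crest.Agent.R330.FactI161
open Crest.Agent.R330.HMain942 Crest.Agent.R330.Transp491 Crest.Agent.R330.Transp2491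
open Crest.Agent.R330.Transp3491 Crest.Agent.R330.E1984 Crest.Agent.R330.SqrtPD984

noncomputable section

namespace Crest.Agent.R330.Fib892

variable {N : ℕ}

/-- `W16 N = ℝ¹⁶ ⊗ Colg N`. -/
def tenS (N : ℕ) : Ten (Fin 16) (Colg N) (W16 N) where
  pr β := LinearMap.toContinuousLinearMap (row β)
  ij β := LinearMap.toContinuousLinearMap (ins β)
  pr_same β v := row_ins_self β v
  pr_ne β β' v h := by
    change row β (ins β' v) = 0
    rw [row_ins, if_neg h]
  sum_ij x := sum_ins_row x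
  adj β v x := inner_ins β v x

theorem tenS_pr (β : Fin 16) (x : W16 N) : (tenS N).pr β x = row β x := rfl


/-- `Γ_α z` is 942's `tv`. -/
theorem Gm_tv (G : GammaNine) (α : Fin 16) (z : Cfg N) :
    Gm G tenC (tenS N) α z = tv G α z := by
  refine ext_row fun β => ?_
  rw [row_tv]
  exact pr_Gm G tenC (tenS N) α β z

variable {F : Type*} [NormedAddCommGroup F] [InnerProductSpace ℂ F] [FiniteDimensional ℂ F]

theorem cr_Gm (M : FermionRep N F) (G : GammaNine) (α : Fin 16) (z : Cfg N) :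
    (cr M).θ (Gm G tenC (tenS N) α z) = Theta M G α z := by
  rw [Gm_tv, Theta_cr]

variable (b : ColorBasis N)

/-- The complex structure of the heavy vacuum, `J = -Σ γ^i ⊗ D_i |D|⁻¹`, `D_i = [X_i, ·]`. -/
def Jl (G : GammaNine) (K : Submodule ℝ (Colg N)) (X : Cfg N) : W16 N →ₗ[ℝ] W16 N :=
  Jm G (tenS N) K (adX b X)

theorem row_Jl (G : GammaNine) (K : Submodule ℝ (Colg N)) (X : Cfg N) (x : W16 N) (β : Fin 16) :
    row β (Jl b G K X x) =
      -∑ i, ∑ β', G.γ i β β' • adX b X i (li K (adX b X) (row β' x)) := by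
  have e1 := pr_Jm G (tenS N) (K := K) (D := adX b X) β x
  simp only [tenS_pr] at e1
  unfold Jl
  rw [e1]

variable {b}

/-- The transverse heavy space. -/
theorem ZZ_eq (X : Cfg N) : tenC.ZZ (kc (actB b) X) (adX b X) = Zs b X := by
  ext z
  rw [mem_Zs_iff]
  rfl

section com

variable {K : Submodule ℝ (Colg N)} {X : Cfg N} {s : ℝ}


/-- The intertwiner `T` on the transverse heavy space is the linear potential (every `X`). -/
theorem cr_T₀ (M : FermionRep N F) (G : GammaNine) (g : ℝ) (α : Fin 16) {z : Cfg N}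
    (hz : z ∈ tenC.ZZ K (adX b X)) :
    (g : ℂ) • (cr M).θ ((-Sm G (tenS N) (adX b X)) (Gm G tenC (tenS N) α z)) =
      wB b M G g α X z := by
  have h1 : wB b M G g α X z = vco M (fun β A => 2 * g * wb b G α β A X z) := rfl
  have h4 : wv (fun β A => 2 * g * wb b G α β A X z) =
      g • wv (N := N) (fun β A => 2 * wb b G α β A X z) := by
    ext p
    simp [wv]
    ring
  rw [h1, vco_eq, h4, (cr M).smul]
  congr 2
  refine ext_row fun β => ?_
  rw [row_wv, LinearMap.neg_apply, map_neg]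
  have h5 : row β (Sm G (tenS N) (adX b X) (Gm G tenC (tenS N) α z)) =
      ∑ i, ∑ β', G.γ i β β' • adX b X i (∑ j, G.γ j α β' • comp z j) := by
    have e1 := pr_Sm G (tenS N) (adX b X) β (Gm G tenC (tenS N) α z)
    rw [tenS_pr] at e1
    rw [e1]
    refine Finset.sum_congr rfl fun i _ => Finset.sum_congr rfl fun β' _ => ?_
    rw [pr_Gm]
    rfl
  have h6 : ∑ i, ∑ β', G.γ i β β' • adX b X i (∑ j, G.γ j α β' • comp z j) =
      ∑ i, ∑ j, (G.γ j * G.γ i) α β • adX b X i (comp z j) := by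
    refine Finset.sum_congr rfl fun i _ => ?_
    have h7 : ∀ β', G.γ i β β' • adX b X i (∑ j, G.γ j α β' • comp z j) =
        ∑ j, (G.γ j α β' * G.γ i β' β) • adX b X i (comp z j) := by
      intro β'
      rw [map_sum, Finset.smul_sum]
      refine Finset.sum_congr rfl fun j _ => ?_
      rw [map_smul, smul_smul, gam_sym G i β β', mul_comm]
    simp only [h7]
    rw [Finset.sum_comm]
    refine Finset.sum_congr rfl fun j _ => ?_
    rw [← Finset.sum_smul, Matrix.mul_apply]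
  have h8 : ∑ i, adX b X i (comp z i) = 0 := by
    have := hz.2
    rw [tenC.dv_apply] at this
    exact this
  rw [h5, h6]
  ext A
  change -((∑ i, ∑ j, (G.γ j * G.γ i) α β • adX b X i (comp z j) : Colg N) A) =
    2 * wb b G α β A X z
  have h9 : 2 * wb b G α β A X z =
      (∑ i, ∑ j, G.γ2 i j α β • adX b X i (comp z j) : Colg N) A := by
    rw [wb_eq, Finset.mul_sum]
    have : (∑ i, ∑ j, G.γ2 i j α β • adX b X i (comp z j) : Colg N) A =
        ∑ i, ∑ j, G.γ2 i j α β * (adX b X i (comp z j)) A := by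
      simp
    rw [this]
    refine Finset.sum_congr rfl fun i _ => ?_
    rw [Finset.mul_sum]
    refine Finset.sum_congr rfl fun j _ => ?_
    have h5 : (adX b X i (comp z j)) A =
        SlB314.br b (fun B => X (i, B)) (fun C => z (j, C)) A := rfl
    rw [h5]
    ring
  have h10 : ∑ i, ∑ j, G.γ2 i j α β • adX b X i (comp z j) =
      (1 : Matrix (Fin 16) (Fin 16) ℝ) α β • (∑ i, adX b X i (comp z i)) -
        ∑ i, ∑ j, (G.γ j * G.γ i) α β • adX b X i (comp z j) := by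
    rw [Finset.smul_sum, ← Finset.sum_sub_distrib]
    refine Finset.sum_congr rfl fun i _ => ?_
    simp only [gam2, sub_smul, Finset.sum_sub_distrib]
    congr 1
    rw [Finset.sum_eq_single i]
    · rw [if_pos rfl]
    · intro j _ hj
      rw [if_neg (Ne.symm hj), zero_smul]
    · intro hn
      exact absurd (Finset.mem_univ i) hn
  rw [h9, h10, h8, smul_zero, zero_sub]
  rfl

/-- **The heavy charge on the transverse heavy space is the charge of the system** (every `X`). -/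
theorem Bf_eq₀ (M : FermionRep N F) (G : GammaNine) (g : ℝ) (α : Fin 16)
    {Z : Submodule ℝ (Cfg N)} (hZ : Z = tenC.ZZ K (adX b X)) {κ : Type*} [Fintype κ]
    (e : OrthonormalBasis κ ℝ Z) (f : Z → F) (z : Z) :
    Bf (Transp2491.thL M G α) (wBL b M G g α X) e f z =
      chg (cr M) (fun α => Gm G tenC (tenS N) α ∘ₗ Z.subtype) (-Sm G (tenS N) (adX b X)) e g α
        f z := by
  subst hZ
  rw [chg_apply]
  unfold Bf
  have h1 := cr_T₀ M G g α z.2
  have h2 : wBL b M G g α X z (f z) = ((g : ℂ) • (cr M).θ ((-Sm G (tenS N) (adX b X))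
      (Gm G tenC (tenS N) α (z : Cfg N)))) (f z) := by
    rw [h1]
    rfl
  rw [h2]
  have h3 : ∀ i, Transp2491.thL M G α (e i) (fderiv ℝ f z (e i)) =
      (cr M).θ (Gm G tenC (tenS N) α (e i : Cfg N)) (fderiv ℝ f z (e i)) := by
    intro i
    rw [cr_Gm]
    rfl
  simp only [h3, LinearMap.comp_apply, Submodule.subtype_apply, Finset.smul_sum,
    LinearMap.smul_apply]

variable (h : Fam K s (adX b X)) (hs : 0 < s)
include h hs

theorem linJ_X (G : GammaNine) :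
    LinJ (Jl b G K X) (-Sm G (tenS N) (adX b X)) (Pm (tenS N) K (adX b X)) :=
  linJ G (tenS N) h hs

theorem pcs_Jl (G : GammaNine) : PCS (Jl b G K X) := (linJ_X h hs G).pcs

/-- **The system of linear charges**, on any submodule equal to the transverse heavy space. -/
theorem lin_of {Z : Submodule ℝ (Cfg N)} (hZ : Z = tenC.ZZ K (adX b X)) (G : GammaNine)
    {κ : Type*} [Fintype κ] (e : OrthonormalBasis κ ℝ Z) :
    Lin (fun α => Gm G tenC (tenS N) α ∘ₗ Z.subtype) (-Sm G (tenS N) (adX b X))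
      (Pm (tenS N) K (adX b X)) (cmp Z (AXc b K X)) 8 e := by
  subst hZ
  exact lin G tenC (tenS N) h hs e

/-- `A_X` is bounded below on the transverse heavy space. -/
theorem cmp_lower {Z : Submodule ℝ (Cfg N)} (hZ : Z = tenC.ZZ K (adX b X)) (z : Z) :
    s * ‖z‖ ^ 2 ≤ ⟪cmp Z (AXc b K X) z, z⟫_ℝ := by
  subst hZ
  rw [inner_cmp]
  exact h.AX_low tenC hs z.2.1 z.2.2

/-- **The heavy vacua kill the transverse charges**, every `z`. -/
theorem U_kill (M : FermionRep N F) (G : GammaNine) (α : Fin 16) (z : Cfg N) {v : F}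
    (hv : v ∈ (cr M).vacJ (Jl b G K X)) :
    Complex.I • Theta M G α (AXc b K X z) v + wB b M G 1 α X z v = 0 := by
  have h1 := heavy_main (row_Jl b G K X) b tenC (fun i x => rfl) (fun i u => rfl) M h hs 1 α z hv
  rw [Complex.ofReal_one, mul_one] at h1
  have h2 : wB b M G 1 α X z = vco M (fun β A => 2 * 1 * wb b G α β A X z) := rfl
  rw [h2]
  exact h1


theorem Bf_eq (M : FermionRep N F) (G : GammaNine) (g : ℝ) (α : Fin 16)
    {Z : Submodule ℝ (Cfg N)} (hZ : Z = tenC.ZZ K (adX b X)) {κ : Type*} [Fintype κ]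
    (e : OrthonormalBasis κ ℝ Z) (f : Z → F) (z : Z) :
    Bf (Transp2491.thL M G α) (wBL b M G g α X) e f z =
      chg (cr M) (fun α => Gm G tenC (tenS N) α ∘ₗ Z.subtype) (-Sm G (tenS N) (adX b X)) e g α
        f z := Bf_eq₀ M G g α hZ e f z

/-- **(H1)**: (F1) at `X` on the transverse heavy space. -/
theorem H1 (M : FermionRep N F) (G : GammaNine) {g : ℝ} (hg : 0 ≤ g) {Z : Submodule ℝ (Cfg N)}
    (hZ : Z = tenC.ZZ K (adX b X)) {κ : Type*} [Fintype κ] (e : OrthonormalBasis κ ℝ Z) {τ : ℝ}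
    (hτ : ∑ i, QX b K X (e i) ≤ τ) {f : Z → F} (hf : ContDiff ℝ 2 f)
    (hc : HasCompactSupport f) :
    F1b581.Dn volume e g f ≤ (2 * (1 + (s⁻¹) ^ 2)) * ((2 * 8)⁻¹ + τ / 2) *
      (∑ α, (∫ z, ‖Bf (Transp2491.thL M G α) (wBL b M G g α X) e f z‖ ^ 2) +
        g * ∫ z, ‖f z‖ ^ 2) := by
  have h1 := F1_of_lin (M := cr M) (lin_of h hs hZ G e) hs (cmp_lower h hs hZ) (τ := τ)
    (by
      refine le_trans (le_of_eq (Finset.sum_congr rfl fun i _ => ?_)) hτ
      exact inner_cmp _ _ _ _) hg hf hc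
  simp only [fun α => funext (Bf_eq h hs M G g α hZ e f)]
  exact h1

/-- **(H2)**: (F2) at `X` on the transverse heavy space. -/
theorem H2 (M : FermionRep N F) (G : GammaNine) {g : ℝ} (hg : 0 < g) {Z : Submodule ℝ (Cfg N)}
    (hZ : Z = tenC.ZZ K (adX b X)) {κ : Type*} [Fintype κ] (e : OrthonormalBasis κ ℝ Z)
    {f : Z → F} (hf : ContDiff ℝ 2 f) (hc : HasCompactSupport f) :
    g * ∫ z, ‖f z - PrK Z (fun w => Real.exp (-(g / 2) * QX b K X w))
      ((cr M).proj (Jl b G K X)) f z‖ ^ 2 ≤ (s⁻¹ * (2 * 8)⁻¹) *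
      ∑ α, (∫ z, ‖Bf (Transp2491.thL M G α) (wBL b M G g α X) e f z‖ ^ 2) := by
  have h1 := F2_of_lin (M := cr M) (lin_of h hs hZ G e) (linJ_X h hs G) hs (cmp_lower h hs hZ) hg
    (γ := fun w => Real.exp (-(g / 2) * QX b K X w))
    (fun z => by
      have e1 : ⟪cmp Z (AXc b K X) z, z⟫_ℝ = QX b K X z := inner_cmp _ _ _ _
      rw [e1]) hf hc
  simp only [fun α => funext (Bf_eq h hs M G g α hZ e f)]
  exact h1

end com

end Crest.Agent.R330.Fib892

end
end

-- ▼ part R330/FibP_581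

/-!
# Row 330, S9-F1P (helper581): the fibre inequalities on the fixed slice

* `at_X` : (F1), (F2) at commuting `X` near `c`, uniform constants.
* `fibP` : for `p` near `c`, `X = Ctr581.X b c p`:
  (F1), (F1o), (F2) in the literal form of `LemA_342`, for a parity `Γ` equal to `1` on the heavy
  vacua at `c`; `exists_par` : such a `Γ` exists.
-/

set_option autoImplicit false
set_option linter.unusedSectionVars false
set_option linter.unusedVariables false

open MeasureTheory Filter Topology Crest.MathPhysics.MatrixQM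
open Crest.Agent.R330.IBP837 Crest.Agent.R330.Defs478 Crest.Agent.R330.Frame839
open Crest.Agent.R330.LS839 Crest.Agent.R330.Clus839 Crest.Agent.R330.Bind6839
open Crest.Agent.R330.Cliff442 Crest.Agent.R330.AX984 Crest.Agent.R330.GBind984
open Crest.Agent.R330.Fib892 Crest.Agent.R330.FactI161 Crest.Agent.R330.ParVac581
open Crest.Agent.R330.SqrtPD984 Crest.Agent.R330.GPar984
open Crest.Agent.R330.Transp491 Crest.Agent.R330.Transp2491 Crest.Agent.R330.Transp3491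
open Crest.Agent.R330.FibJ581
open scoped ContDiff InnerProductSpace

noncomputable section

namespace Crest.Agent.R330.FibP581

variable {N : ℕ} {b : ColorBasis N} {G : GammaNine}
  {F : Type*} [NormedAddCommGroup F] [InnerProductSpace ℂ F] [FiniteDimensional ℂ F]
  {M : FermionRep N F}

/-- the heavy complex structure at `X`, stratum of `c` -/
def JX (b : ColorBasis N) (G : GammaNine) (c X : Cfg N) : W16 N →ₗ[ℝ] W16 N :=
  Jl b G (kc (actB b) c) X

/-- the Gaussian weight at `X`, stratum of `c` -/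
def gX (b : ColorBasis N) (c : Cfg N) (g : ℝ) (X z : Cfg N) : ℝ :=
  Real.exp (-(g / 2) * QX b (kc (actB b) c) X z)

/-- The transverse heavy space at `X`. -/
theorem ZZ_eq' {c X : Cfg N} (hk : kc (actB b) X = kc (actB b) c) :
    tenC.ZZ (kc (actB b) c) (adX b X) = Zb (actB b) c (Zs b c) X := by
  rw [← Zb_eq hk, ← hk]
  exact ZZ_eq X

section atX

variable {c : Cfg N} {r B : ℝ}

/-- Uniform gap and norm near `c`. -/
theorem uniform (b : ColorBasis N) {c : Cfg N} (hc : Comc b c) :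
    ∃ η : ℝ, 0 < η ∧ ∃ a τ : ℝ, 0 < a ∧ 0 ≤ τ ∧ ∀ X : Cfg N, Comc b X →
      kc (actB b) X = kc (actB b) c → ‖X - c‖ ≤ η →
      Fam (kc (actB b) c) a (adX b X) ∧ ‖tenC.AX (kc (actB b) c) (adX b X)‖ ≤ τ := by
  obtain ⟨s, hs, h⟩ := exists_fam b hc
  have h1 : ∀ᶠ X in 𝓝 c, ∑ i, ‖adX b X i - adX b c i‖ ^ 2 < s ^ 2 / 4 := by
    have hcont : Continuous fun X : Cfg N => ∑ i, ‖adX b X i - adX b c i‖ ^ 2 :=
      continuous_finsetSum _ fun i _ =>
        (((contDiff_adX (m := 0) b i).continuous.sub continuous_const).norm.pow 2)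
    refine hcont.continuousAt.eventually_lt continuousAt_const ?_
    simp only [sub_self, norm_zero]
    norm_num
    positivity
  have h2 : ∀ᶠ X in 𝓝 c, ‖tenC.AX (kc (actB b) c) (adX b X)‖ <
      ‖tenC.AX (kc (actB b) c) (adX b c)‖ + 1 := by
    have h3 : ContDiffAt ℝ 1 (fun X => (tenC (N := N)).AX (kc (actB b) c) (adX b X)) c :=
      contDiffAt_AX tenC (by simp) (h.ll_pd hs) (Eventually.of_forall fun X => adX_skew b X)
        fun i => (contDiff_adX b i).contDiffAt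
    refine h3.continuousAt.norm.eventually_lt continuousAt_const ?_
    linarith
  obtain ⟨η, hη, h4⟩ := Metric.eventually_nhds_iff_ball.1 (h1.and h2)
  refine ⟨η / 2, half_pos hη, s / 2, ‖tenC.AX (kc (actB b) c) (adX b c)‖ + 1, half_pos hs,
    by positivity, fun X hX hk hn => ?_⟩
  have h5 := h4 X (by rw [Metric.mem_ball, dist_eq_norm]; linarith)
  refine ⟨h.near hs.le (adX_skew b X) (fun i j v => (colAlg b).comm_ad hX i j v) ?_ h5.1.le,
    h5.2.le⟩
  intro i w hw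
  rw [← hk] at hw
  exact (mem_kc_iff' b).1 hw i

/-- **(F1), (F2) at commuting `X` near `c`.** -/
theorem at_X (M : FermionRep N F) (G : GammaNine) (hr0 : 0 < r) (hr : GapAt (actB b) c r)
    (hB : ActBound (actB b) B) (hB0 : 0 ≤ B) (hc : Comc b c) :
    ∃ η : ℝ, 0 < η ∧ ∃ K : ℝ, 0 ≤ K ∧ ∀ X ∈ Uk b c, Comc b X → kc (actB b) X = kc (actB b) c →
      ‖X - c‖ ≤ η → B * ‖X - c‖ ≤ r / 2 → ∀ (κ κ' : Type) [Fintype κ] [Fintype κ']
      (v : OrthonormalBasis κ ℝ (Zs b c)) (t : OrthonormalBasis κ' ℝ (Tn (actB b) c)) (g : ℝ),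
      0 < g → ∀ f : Zs b c → F, ContDiff ℝ 2 f → HasCompactSupport f →
      F1b581.Dn volume v g f ≤ K * (F1b581.SB b c M G v t g X f + g * ∫ z, ‖f z‖ ^ 2) ∧
      g * ∫ z, ‖f z - PrK (Zs b c) (gX b c g X) ((cr M).proj (JX b G c X)) f z‖ ^ 2 ≤
        K * F1b581.SB b c M G v t g X f := by
  obtain ⟨η, hη, a, τ, ha, hτ, hun⟩ := uniform b hc
  set n : ℝ := (Module.finrank ℝ (Cfg N) : ℝ) with hn
  set C1 : ℝ := (2 * (1 + (a⁻¹) ^ 2)) * ((2 * 8)⁻¹ + (n * τ) / 2) with hC1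
  set C2 : ℝ := a⁻¹ * (2 * 8)⁻¹ with hC2
  have hn0 : 0 ≤ n := Nat.cast_nonneg _
  have hC10 : 0 ≤ C1 := by positivity
  have hC20 : 0 ≤ C2 := by positivity
  refine ⟨η, hη, (n + 4) * C1 + C2, by positivity, fun X hXU hX hk hXc hXB κ κ' _ _ v t g hg f hf
    hfc => ?_⟩
  obtain ⟨hfam, hA⟩ := hun X hX hk hXc
  set K := tenC.ZZ (kc (actB b) c) (adX b X) with hK
  set e := stdOrthonormalBasis ℝ K with he
  have htr : ∑ s, QX b (kc (actB b) c) X (e s : Cfg N) ≤ n * τ := by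
    have h1 : ∀ s, QX b (kc (actB b) c) X (e s : Cfg N) ≤ τ := by
      intro s
      unfold QX AXc
      refine (real_inner_le_norm _ _).trans ?_
      have h2 : ‖((e s : K) : Cfg N)‖ = 1 := e.orthonormal.1 s
      have h3 := (tenC.AX (kc (actB b) c) (adX b X)).le_opNorm ((e s : K) : Cfg N)
      rw [h2, mul_one] at h3 ⊢
      exact h3.trans hA
    refine (Finset.sum_le_sum fun s _ => h1 s).trans ?_
    rw [Finset.sum_const, Finset.card_univ, nsmul_eq_mul, Fintype.card_fin]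
    refine mul_le_mul_of_nonneg_right ?_ hτ
    exact Nat.cast_le.2 (Submodule.finrank_le K)
  have hcard : (Fintype.card κ : ℝ) ≤ n := by
    have h1 : Fintype.card κ = Module.finrank ℝ (Zs b c) :=
      (Module.finrank_eq_card_basis v.toBasis).symm
    rw [h1]
    exact Nat.cast_le.2 (Submodule.finrank_le (Zs b c))
  have hSB : 0 ≤ F1b581.SB b c M G v t g X f := F1b581.Sn_nonneg v _ _ f
  have hI : 0 ≤ g * ∫ z, ‖f z‖ ^ 2 := mul_nonneg hg.le (integral_nonneg fun _ => by positivity)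
  constructor
  · have h1 := F1_D M G hr0 hr hB hB0 hXU hX hXB (K := K) (ZZ_eq' hk) e v t (C := C1) (g := g)
      (fun f hf hfc => H1 hfam ha M G hg.le rfl e htr hf hfc) hf hfc
    refine h1.trans ?_
    refine mul_le_mul_of_nonneg_right ?_ (add_nonneg hSB hI)
    have h3 : (Fintype.card κ + 4) * C1 ≤ (n + 4) * C1 := by gcongr
    linarith
  · have h1 := F2_D M G hr0 hr hB hXU hX hXB (K := K) (ZZ_eq' hk) e v t (C := C2) (g := g)
      (γ := gX b c g X) (fun w v => by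
        unfold gX
        rw [QX_act hX hk]) ((cr M).proj (JX b G c X))
      (fun f hf hfc => H2 hfam ha M G hg rfl e hf hfc) hf hfc
    refine h1.trans ?_
    refine mul_le_mul_of_nonneg_right ?_ hSB
    have h3 : 0 ≤ (n + 4) * C1 := by positivity
    linarith

end atX

/-! ## At `p = c + u` -/

section final

variable {c : Cfg N} {r B : ℝ}

/-- The three fibre inequalities in the literal form of `LemA_342`, at `p`. -/
structure Fibp (b : ColorBasis N) (c : Cfg N) (M : FermionRep N F) (G : GammaNine)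
    (Γ : F →ₗ[ℂ] F) (K : ℝ)
    {κ κ' : Type} [Fintype κ] [Fintype κ'] (v : OrthonormalBasis κ ℝ (Zs b c))
    (t : OrthonormalBasis κ' ℝ (Tn (actB b) c)) (g : ℝ) (p : Cfg N) (f : Zs b c → F) : Prop where
  F1 : ∫ z, LemA342.Dfib g v f z ≤
    K * ((∑ α, ∫ z, ‖LemA342.Bfib b c M G g α v t p f z‖ ^ 2) + g * ∫ z, ‖f z‖ ^ 2)
  F1o : (∀ z, Γ (f z) = -f z) → (∫ z, LemA342.Dfib g v f z) + g * ∫ z, ‖f z‖ ^ 2 ≤
    K * ∑ α, ∫ z, ‖LemA342.Bfib b c M G g α v t p f z‖ ^ 2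
  F2 : g * ∫ z, ‖f z - PrK (Zs b c) (gX b c g (Ctr581.X b c p))
      ((cr M).proj (JX b G c (Ctr581.X b c p))) f z‖ ^ 2 ≤
    K * ((∑ α, ∫ z, ‖LemA342.Bfib b c M G g α v t p f z‖ ^ 2) +
      ‖p - Ctr581.X b c p‖ ^ 2 * (g * ∫ z, ‖f z‖ ^ 2))


/-- A heavy parity equal to `1` on the heavy vacua at `c`. -/
theorem exists_par [Nontrivial F] (b : ColorBasis N) (G : GammaNine) (M : FermionRep N F)
    {c : Cfg N} (hc : Comc b c) :
    ∃ Γ : F →ₗ[ℂ] F, LemA342.IsPar b c M Γ ∧ ∀ f ∈ (cr M).vacJ (JX b G c c), Γ f = f := by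
  have eJ : JX b G c c = Jm G (tenS N) (kc (actB b) c) (adX b c) := rfl
  rw [eJ]
  exact FibJ581.exists_sign (b := b) (c := c) (G := G) (M := M) (σ := tenS N) tenS_pr hc

/-- **S9-F1P.** -/
theorem fibP (M : FermionRep N F) (G : GammaNine) (hr0 : 0 < r) (hr : GapAt (actB b) c r)
    (hB : ActBound (actB b) B) (hB0 : 0 ≤ B) (hc : Comc b c) {Γ : F →ₗ[ℂ] F}
    (hΓ : LemA342.IsPar b c M Γ) (hv : ∀ f ∈ (cr M).vacJ (JX b G c c), Γ f = f) [Nontrivial F] :
    ∃ η : ℝ, 0 < η ∧ ∃ K : ℝ, 0 ≤ K ∧ ∀ p : Cfg N, ‖p - c‖ ≤ η → B * ‖p - c‖ ≤ r / 2 →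
      ∀ (κ κ' : Type) [Fintype κ] [Fintype κ'] (v : OrthonormalBasis κ ℝ (Zs b c))
      (t : OrthonormalBasis κ' ℝ (Tn (actB b) c)) (g : ℝ), 0 < g →
      ∀ f : Zs b c → F, ContDiff ℝ 2 f → HasCompactSupport f →
      Fibp b c M G Γ K v t g p f := by
  obtain ⟨η1, hη1, K1, hK1, h1⟩ := at_X M G hr0 hr hB hB0 hc
  obtain ⟨η2, hη2, K', hK', h2⟩ := F1b581.fibre (F := F) b M G hr0 hB0 hB hK1
  have eJ : JX b G c c = Jm G (tenS N) (kc (actB b) c) (adX b c) := rfl
  rw [eJ] at hv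
  obtain ⟨η3, hη3, h3⟩ := sign_near (b := b) (c := c) (G := G) (M := M) (σ := tenS N) (Γ := Γ)
    tenS_pr hc hΓ hv
  refine ⟨min η1 (min η2 η3), lt_min hη1 (lt_min hη2 hη3), K', hK', fun p hp hpB κ κ' _ _ v t g hg
    f hf hfc => ?_⟩
  have hp1 : ‖p - c‖ ≤ η1 := hp.trans (min_le_left _ _)
  have hp2 : ‖p - c‖ ≤ η2 := hp.trans ((min_le_right _ _).trans (min_le_left _ _))
  have hp3 : ‖p - c‖ ≤ η3 := hp.trans ((min_le_right _ _).trans (min_le_right _ _))
  set X := Ctr581.X b c p with hX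
  have hXc : ‖X - c‖ ≤ ‖p - c‖ := Ctr581.norm_X_sub_le p
  have hXp : ‖p - X‖ ≤ ‖p - c‖ := Ctr581.norm_sub_X_le p
  have hXB : B * ‖X - c‖ ≤ r / 2 := (mul_le_mul_of_nonneg_left hXc hB0).trans hpB
  have hXm := Ctr581.X_mem hc p
  have hcX := Ctr581.comc_X hc p
  have hk := Ctr581.kc_eq_of hc hr0 hr hB hXm hXB
  obtain ⟨hF1, hF2⟩ := h1 X (Ctr581.X_mem_Uk hc p) hcX hk (hXc.trans hp1) hXB κ κ' v t g hg f hf
    hfc
  obtain ⟨a1, a2, a3⟩ := h2 g hg.le c hr κ κ' v t p X hpB hXB (hXp.trans hp2) f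
    (hf.of_le (by norm_num)) hfc hF1
  refine ⟨a1, fun hodd => a3 ?_, a2 _ hF2⟩
  -- the odd part has no vacuum component
  obtain ⟨s, hs, hfam⟩ := fam_of_eq hcX hk
  have hvX : ∀ f ∈ (cr M).vacJ (JX b G c X), Γ f = f := by
    have eX : JX b G c X = Jm G (tenS N) (kc (actB b) X) (adX b X) := by
      rw [hk]
      rfl
    rw [eX]
    exact h3 X hcX hk (hXc.trans hp3)
  have hcont : Continuous (gX b c g X) := by
    unfold gX QX
    fun_prop
  have hint : Integrable fun y : Zs b c => gX b c g X y • f y :=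
    Continuous.integrable_of_hasCompactSupport
      ((hcont.comp continuous_subtype_val).smul hf.continuous) (hfc.smul_left)
  have hz : ∀ z, PrK (Zs b c) (gX b c g X) ((cr M).proj (JX b G c X)) f z = 0 := fun z =>
    PrK_odd (J := JX b G c X) (pcs_Jl hfam hs G) hΓ.symm hvX (Zs b c)
      (gX b c g X) hint hodd z
  simpa only [hz, sub_zero] using hF2

end final

end Crest.Agent.R330.FibP581

end
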