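import Crest.Agent.R330.FibP_581_Mg
import Crest.Agent.R330.LemC_342

/-!
# Row 330, S7-R (helper581): the inputs of Lemma R, discharged

* `FibPack` : for all `g > 0`: 149's `F2u` (literal data `gam`, `Lp`, `du`), 342's `OddIneq`, and
  (F1) on every fibre.
* `exists_fibPack` : it holds near every commuting `c`.
-/

set_option autoImplicit false
set_option linter.unusedSectionVars false
set_option linter.unusedVariables false

open MeasureTheory Filter Topology Crest.MathPhysics.MatrixQM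
open Crest.Agent.R330.IBP837 Crest.Agent.R330.Defs478 Crest.Agent.R330.Frame839
open Crest.Agent.R330.LS839 Crest.Agent.R330.Clus839 Crest.Agent.R330.Bind6839
open Crest.Agent.R330.Cliff442 Crest.Agent.R330.AX984 Crest.Agent.R330.GBind984
open Crest.Agent.R330.FactI161 Crest.Agent.R330.LemA342 Crest.Agent.R330.LemB342
open Crest.Agent.R330.LemRe149 Crest.Agent.R330.FibP581
open scoped ContDiff InnerProductSpace

noncomputable section

namespace Crest.Agent.R330.FibQ581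

variable {N : ℕ} {b : ColorBasis N} {c : Cfg N}
  {F : Type*} [NormedAddCommGroup F] [InnerProductSpace ℂ F] [FiniteDimensional ℂ F]

/-- All fibre inequalities on `‖u‖ ≤ ρ`, uniformly in `g > 0` and in the frames. -/
structure FibPack (b : ColorBasis N) (c : Cfg N) (M : FermionRep N F) (G : GammaNine)
    (Γ : F →ₗ[ℂ] F) (ρ K : ℝ) : Prop where
  f2u : ∀ (κ κ' : Type) [Fintype κ] [Fintype κ'] (v : OrthonormalBasis κ ℝ (Zs b c))
    (t : OrthonormalBasis κ' ℝ (Tn (actB b) c)) (g : ℝ), 0 < g →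
    F2u b c M G v t g ρ K (gam b c g) (Lp b c M G (Fib892.tenS N)) (du b c)
  odd : ∀ (κ κ' : Type) [Fintype κ] [Fintype κ'] (v : OrthonormalBasis κ ℝ (Zs b c))
    (t : OrthonormalBasis κ' ℝ (Tn (actB b) c)) (g : ℝ), 0 < g →
    ∀ (μU : Measure (Uk b c)) [μU.IsAddHaarMeasure], OddIneq (μU.prod volume) M G v t Γ ρ g K
  f1 : ∀ (κ κ' : Type) [Fintype κ] [Fintype κ'] (v : OrthonormalBasis κ ℝ (Zs b c))
    (t : OrthonormalBasis κ' ℝ (Tn (actB b) c)) (g : ℝ), 0 < g → ∀ u : Uk b c, ‖u‖ ≤ ρ →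
    ∀ f : Zs b c → F, ContDiff ℝ 2 f → HasCompactSupport f →
    ∫ z, Dfib g v f z ≤
      K * ((∑ α, ∫ z, ‖Bfib b c M G g α v t (c + u) f z‖ ^ 2) + g * ∫ z, ‖f z‖ ^ 2)

theorem FibPack.mono {M : FermionRep N F} {G : GammaNine} {Γ : F →ₗ[ℂ] F} {ρ ρ' K : ℝ}
    (h : FibPack b c M G Γ ρ K) (hρ : ρ' ≤ ρ) : FibPack b c M G Γ ρ' K where
  f2u := fun κ κ' _ _ v t g hg u hu => h.f2u κ κ' v t g hg u (hu.trans hρ)
  odd := fun κ κ' _ _ v t g hg μU _ Φ hΦ hc h0 hP =>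
    h.odd κ κ' v t g hg μU Φ hΦ hc (fun x hx => h0 x (hρ.trans_lt hx)) hP
  f1 := fun κ κ' _ _ v t g hg u hu => h.f1 κ κ' v t g hg u (hu.trans hρ)

/-- **The inputs of Lemma R near a commuting `c`.** `Γ` is any heavy parity equal to `1` on the
heavy vacua at `c` (`FibP581.exists_par`). -/
theorem exists_fibPack [Nontrivial F] (M : FermionRep N F) (G : GammaNine) {r B : ℝ}
    (hr0 : 0 < r) (hr : GapAt (actB b) c r) (hB : ActBound (actB b) B) (hB0 : 0 ≤ B)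
    (hc : Comc b c) {Γ : F →ₗ[ℂ] F} (hΓ : IsPar b c M Γ)
    (hv : ∀ f ∈ (cr M).vacJ (JX b G c c), Γ f = f) :
    ∃ η : ℝ, 0 < η ∧ B * η ≤ r / 2 ∧ ∃ K : ℝ, 0 ≤ K ∧ FibPack b c M G Γ η K := by
  obtain ⟨η1, hη1, K, hK, H⟩ := fibP M G hr0 hr hB hB0 hc hΓ hv
  have hB1 : 0 < B + 1 := by linarith
  set η := min η1 (r / (2 * (B + 1))) with hη
  have hη0 : 0 < η := lt_min hη1 (by positivity)
  have hBη : B * η ≤ r / 2 := by
    have h1 : η ≤ r / (2 * (B + 1)) := min_le_right _ _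
    have h2 : B * η ≤ (B + 1) * (r / (2 * (B + 1))) := by
      have h3 : 0 ≤ r / (2 * (B + 1)) := by positivity
      nlinarith
    refine h2.trans (le_of_eq ?_)
    field_simp
  have hp : ∀ u : Uk b c, ‖u‖ ≤ η → ‖c + (u : Cfg N) - c‖ ≤ η1 ∧
      B * ‖c + (u : Cfg N) - c‖ ≤ r / 2 := by
    intro u hu
    rw [add_sub_cancel_left]
    exact ⟨hu.trans (min_le_left _ _), (mul_le_mul_of_nonneg_left hu hB0).trans hBη⟩
  refine ⟨η, hη0, hBη, K, hK, ⟨?_, ?_, ?_⟩⟩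
  · intro κ κ' _ _ v t g hg u hu f hf hfc
    obtain ⟨h1, h2⟩ := hp u hu
    exact (H (c + u) h1 h2 κ κ' v t g hg f hf hfc).F2
  · intro κ κ' _ _ v t g hg μU _
    refine LemC342.oddIneq_of_fibre v t hr0 hr hB hBη hB0 (μZ := volume) ?_
    intro u hu f hf hfc hodd
    obtain ⟨h1, h2⟩ := hp u hu
    exact (H (c + u) h1 h2 κ κ' v t g hg f hf hfc).F1o hodd
  · intro κ κ' _ _ v t g hg u hu f hf hfc
    obtain ⟨h1, h2⟩ := hp u hu
    exact (H (c + u) h1 h2 κ κ' v t g hg f hf hfc).F1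

end Crest.Agent.R330.FibQ581

end
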