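import Mathlib
import Crest.Prelude.Def_MatrixModel
import Crest.Agent.R330.Defs_478

/-!
Row 330, section 2 of `r330_doc` (gap of the mass deformed matrix model), the purely algebraic part.
-/

set_option autoImplicit false

namespace Crest.Agent.R330.GapAlg916

open Crest.MathPhysics.MatrixQM Matrix
open Crest.Agent.R330.Defs478 (cc Gam)

section Gamma

variable (G : GammaNine)

lemma γ_sq (i : Fin 9) : G.γ i * G.γ i = 1 := by
  have h := G.clifford i i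
  rw [if_pos rfl, ← two_mul] at h
  have h2 : (2 : Matrix (Fin 16) (Fin 16) ℝ) = (2 : ℝ) • 1 := by
    rw [two_smul]; norm_num
  have h3 : (2 : ℝ) • (G.γ i * G.γ i) = (2 : ℝ) • (1 : Matrix (Fin 16) (Fin 16) ℝ) := by
    rw [← h2, ← h, two_smul, two_mul]
  exact smul_right_injective _ (two_ne_zero) h3

lemma γ_ac {i j : Fin 9} (h : i ≠ j) : G.γ i * G.γ j = -(G.γ j * G.γ i) :=
  eq_neg_of_add_eq_zero_left (by simpa [h] using G.clifford i j)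

/-- product of the gamma matrices along a word -/
def W (w : List (Fin 9)) : Matrix (Fin 16) (Fin 16) ℝ := (w.map G.γ).prod

@[simp] lemma W_nil : W G [] = 1 := rfl

lemma W_cons (i : Fin 9) (w : List (Fin 9)) : W G (i :: w) = G.γ i * W G w := by
  simp [W]

lemma W_append (u w : List (Fin 9)) : W G (u ++ w) = W G u * W G w := by
  simp [W]

lemma W_sing (i : Fin 9) : W G [i] = G.γ i := by simp [W]

/-- sign of the commutation of a letter with a word -/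
def sg (i : Fin 9) (w : List (Fin 9)) : ℤ := (w.map (fun j => if i = j then (1 : ℤ) else -1)).prod

lemma sg_cons (i j : Fin 9) (w : List (Fin 9)) :
    sg i (j :: w) = (if i = j then (1 : ℤ) else -1) * sg i w := by
  simp [sg]

lemma sg_sq (i : Fin 9) (w : List (Fin 9)) : sg i w * sg i w = 1 := by
  induction w with
  | nil => simp [sg]
  | cons j w ih =>
    rw [sg_cons, mul_mul_mul_comm, ih]
    split_ifs <;> norm_num

lemma γ_W (i : Fin 9) (w : List (Fin 9)) : G.γ i * W G w = sg i w • (W G w * G.γ i) := by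
  induction w with
  | nil => simp [sg, W]
  | cons j w ih =>
    rw [W_cons, sg_cons, ← mul_assoc]
    by_cases h : i = j
    · subst h
      rw [if_pos rfl, one_mul]
      calc G.γ i * G.γ i * W G w = G.γ i * (G.γ i * W G w) := mul_assoc _ _ _
        _ = G.γ i * (sg i w • (W G w * G.γ i)) := by rw [ih]
        _ = sg i w • (G.γ i * W G w * G.γ i) := by rw [mul_smul_comm, mul_assoc]
    · rw [γ_ac G h, if_neg h, neg_mul, mul_assoc, ih, neg_one_mul, neg_smul, mul_smul_comm,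
        ← mul_assoc]

lemma W_γ (i : Fin 9) (w : List (Fin 9)) : W G w * G.γ i = sg i w • (G.γ i * W G w) := by
  rw [γ_W, smul_smul, sg_sq, one_smul]

/-- commutation sign of two words -/
def sgw (u w : List (Fin 9)) : ℤ := (u.map (fun i => sg i w)).prod

lemma W_W (u w : List (Fin 9)) : W G u * W G w = sgw u w • (W G w * W G u) := by
  induction u with
  | nil => simp [sgw]
  | cons i u ih =>
    have h : sgw (i :: u) w = sg i w * sgw u w := by simp [sgw]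
    rw [W_cons, mul_assoc, ih, h, mul_smul_comm, ← mul_assoc, γ_W, smul_mul_assoc, smul_smul,
      mul_assoc, mul_comm]

lemma W_comm {u w : List (Fin 9)} (h : sgw u w = 1) : W G u * W G w = W G w * W G u := by
  rw [W_W, h, one_smul]

lemma W_anti {u w : List (Fin 9)} (h : sgw u w = -1) : W G u * W G w = -(W G w * W G u) := by
  rw [W_W, h, neg_one_smul]

/-- reversal sign -/
def rsg : List (Fin 9) → ℤ
  | [] => 1
  | i :: w => rsg w * sg i w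

lemma W_transpose (w : List (Fin 9)) : (W G w)ᵀ = rsg w • W G w := by
  induction w with
  | nil => simp [rsg]
  | cons i w ih =>
    rw [W_cons, transpose_mul, ih, G.symm, rsg, smul_mul_assoc, W_γ, smul_smul]

lemma W_transpose_mul (w : List (Fin 9)) : (W G w)ᵀ * W G w = 1 := by
  induction w with
  | nil => simp
  | cons i w ih =>
    rw [W_cons, transpose_mul, G.symm, mul_assoc, ← mul_assoc (G.γ i), γ_sq, one_mul, ih]

lemma W_sq (w : List (Fin 9)) : rsg w • (W G w * W G w) = 1 := by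
  rw [← smul_mul_assoc, ← W_transpose, W_transpose_mul]

lemma Gam_eq : Gam G = W G [0, 1, 2] := by simp [Gam, W, mul_assoc]

lemma Gam_transpose : (Gam G)ᵀ = -Gam G := by
  rw [Gam_eq, W_transpose]
  have : rsg [0, 1, 2] = -1 := by decide
  rw [this, neg_one_smul]

lemma Gam_sq : Gam G * Gam G = -1 := by
  have h := W_sq G [0, 1, 2]
  have : rsg [0, 1, 2] = -1 := by decide
  rw [this, neg_one_smul] at h
  rw [Gam_eq, ← h, neg_neg]

/-- the admissible index pairs: `j < k` in the same block `{0,1,2}` or `{3,…,8}` -/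
def pairs : Finset (Fin 9 × Fin 9) :=
  Finset.univ.filter fun p => p.1 < p.2 ∧ (p.1.val < 3 ↔ p.2.val < 3)

/-- the matrix `γ^j γ^k` -/
def gg (p : Fin 9 × Fin 9) : Matrix (Fin 16) (Fin 16) ℝ := G.γ p.1 * G.γ p.2

lemma gg_eq (p : Fin 9 × Fin 9) : gg G p = W G [p.1, p.2] := by simp [gg, W]

lemma gg_transpose {p : Fin 9 × Fin 9} (h : p ∈ pairs) : (gg G p)ᵀ = -gg G p := by
  have hne : p.1 ≠ p.2 := by
    have := (Finset.mem_filter.1 h).2.1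
    exact this.ne
  rw [gg, transpose_mul, G.symm, G.symm, γ_ac G hne.symm]

lemma gg_comm_Gam {p : Fin 9 × Fin 9} (h : p ∈ pairs) : gg G p * Gam G = Gam G * gg G p := by
  rw [gg_eq, Gam_eq]
  apply W_comm
  revert p h
  decide

lemma trace_eq_zero {X : Matrix (Fin 16) (Fin 16) ℝ} {i : Fin 9}
    (h : G.γ i * X = -(X * G.γ i)) : X.trace = 0 := by
  have h1 : (G.γ i * X * G.γ i).trace = X.trace := by
    rw [trace_mul_comm, ← mul_assoc, γ_sq, one_mul]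
  have h2 : (G.γ i * X * G.γ i).trace = -X.trace := by
    rw [h, neg_mul, mul_assoc, γ_sq, mul_one, trace_neg]
  linarith

lemma trace_gg_Gam {p : Fin 9 × Fin 9} (h : p ∈ pairs) : (gg G p * Gam G).trace = 0 := by
  rw [gg_eq, Gam_eq, ← W_append]
  have hex : ∃ i : Fin 9, sgw [i] ([p.1, p.2] ++ [0, 1, 2]) = -1 := by
    revert p h
    decide
  obtain ⟨i, hi⟩ := hex
  apply trace_eq_zero G (i := i)
  have := W_anti G hi
  rwa [W_sing] at this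

end Gamma

section Eigen

variable (G : GammaNine)

/-- joint eigenvectors of the commuting involutions `γ³`, `-Γγ⁴γ⁵`, `-Γγ⁶γ⁷`, `-Γγ⁸γ⁹`
(indices are shifted by one in Lean) -/
structure Eig (a : Fin 16 → ℝ) (e0 e1 e2 e3 : ℝ) : Prop where
  norm : a ⬝ᵥ a = 1
  h0 : W G [2] *ᵥ a = e0 • a
  h1 : W G [0, 1, 2, 3, 4] *ᵥ a = (-e1) • a
  h2 : W G [0, 1, 2, 5, 6] *ᵥ a = (-e2) • a
  h3 : W G [0, 1, 2, 7, 8] *ᵥ a = (-e3) • a

lemma proj {K : Matrix (Fin 16) (Fin 16) ℝ} (hK : K * K = 1) {b : Fin 16 → ℝ} (hb : b ≠ 0) :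
    ∃ e : ℝ, (e = 1 ∨ e = -1) ∧ b + e • (K *ᵥ b) ≠ 0 ∧
      K *ᵥ (b + e • (K *ᵥ b)) = e • (b + e • (K *ᵥ b)) := by
  have hKK : K *ᵥ (K *ᵥ b) = b := by rw [mulVec_mulVec, hK, one_mulVec]
  have key : ∀ e : ℝ, e * e = 1 → K *ᵥ (b + e • (K *ᵥ b)) = e • (b + e • (K *ᵥ b)) := by
    intro e he
    rw [mulVec_add, mulVec_smul, hKK, smul_add, smul_smul, he, one_smul, add_comm]
  by_cases h : b + (1 : ℝ) • (K *ᵥ b) = 0
  · refine ⟨-1, Or.inr rfl, ?_, key _ (by norm_num)⟩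
    intro h2
    apply hb
    have h3 : (2 : ℝ) • b = 0 := by
      have : (2 : ℝ) • b = (b + (1 : ℝ) • (K *ᵥ b)) + (b + (-1 : ℝ) • (K *ᵥ b)) := by
        module
      rw [this, h, h2, add_zero]
    simpa using h3
  · exact ⟨1, Or.inl rfl, h, key _ (by norm_num)⟩

lemma proj_comm {K X : Matrix (Fin 16) (Fin 16) ℝ} (hc : X * K = K * X) {b : Fin 16 → ℝ} {x e : ℝ}
    (h : X *ᵥ b = x • b) : X *ᵥ (b + e • (K *ᵥ b)) = x • (b + e • (K *ᵥ b)) := by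
  rw [mulVec_add, mulVec_smul, mulVec_mulVec, hc, ← mulVec_mulVec, h, mulVec_smul]
  module

lemma W_sq_one {w : List (Fin 9)} (h : rsg w = 1) : W G w * W G w = 1 := by
  have := W_sq G w
  rwa [h, one_smul] at this

lemma exists_eig0 : ∃ (a : Fin 16 → ℝ) (e0 e1 e2 e3 : ℝ), (e0 = 1 ∨ e0 = -1) ∧ (e1 = 1 ∨ e1 = -1) ∧
    (e2 = 1 ∨ e2 = -1) ∧ (e3 = 1 ∨ e3 = -1) ∧ Eig G a e0 e1 e2 e3 := by
  have hb0 : (Pi.single 0 1 : Fin 16 → ℝ) ≠ 0 := by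
    intro h
    have := congrFun h 0
    simp at this
  obtain ⟨f0, hf0, hb1, h0⟩ := proj (W_sq_one G (w := [2]) (by decide)) hb0
  obtain ⟨f1, hf1, hb2, h1⟩ := proj (W_sq_one G (w := [0, 1, 2, 3, 4]) (by decide)) hb1
  replace h0 := proj_comm (e := f1) (W_comm G (u := [2]) (w := [0, 1, 2, 3, 4]) (by decide)) h0
  obtain ⟨f2, hf2, hb3, h2⟩ := proj (W_sq_one G (w := [0, 1, 2, 5, 6]) (by decide)) hb2
  replace h0 := proj_comm (e := f2) (W_comm G (u := [2]) (w := [0, 1, 2, 5, 6]) (by decide)) h0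
  replace h1 := proj_comm (e := f2) (W_comm G (u := [0, 1, 2, 3, 4]) (w := [0, 1, 2, 5, 6])
    (by decide)) h1
  obtain ⟨f3, hf3, hb4, h3⟩ := proj (W_sq_one G (w := [0, 1, 2, 7, 8]) (by decide)) hb3
  replace h0 := proj_comm (e := f3) (W_comm G (u := [2]) (w := [0, 1, 2, 7, 8]) (by decide)) h0
  replace h1 := proj_comm (e := f3) (W_comm G (u := [0, 1, 2, 3, 4]) (w := [0, 1, 2, 7, 8])
    (by decide)) h1
  replace h2 := proj_comm (e := f3) (W_comm G (u := [0, 1, 2, 5, 6]) (w := [0, 1, 2, 7, 8])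
    (by decide)) h2
  set b : Fin 16 → ℝ := _ + f3 • (W G [0, 1, 2, 7, 8] *ᵥ _) with hb
  have hpos : 0 < b ⬝ᵥ b := by
    have hn : 0 ≤ b ⬝ᵥ b := Finset.sum_nonneg fun i _ => mul_self_nonneg _
    rcases hn.lt_or_eq with h | h
    · exact h
    · exact absurd (dotProduct_self_eq_zero.1 h.symm) hb4
  set c : ℝ := (Real.sqrt (b ⬝ᵥ b))⁻¹ with hc
  have hcc : c * c * (b ⬝ᵥ b) = 1 := by
    rw [hc, ← mul_inv, Real.mul_self_sqrt hpos.le, inv_mul_cancel₀ hpos.ne']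
  have sm : ∀ {X : Matrix (Fin 16) (Fin 16) ℝ} {x : ℝ}, X *ᵥ b = x • b →
      X *ᵥ (c • b) = x • (c • b) := by
    intro X x h
    rw [mulVec_smul, h, smul_comm]
  refine ⟨c • b, f0, -f1, -f2, -f3, hf0, ?_, ?_, ?_, ?_, sm h0, ?_, ?_, ?_⟩
  · rcases hf1 with h | h <;> simp [h]
  · rcases hf2 with h | h <;> simp [h]
  · rcases hf3 with h | h <;> simp [h]
  · rw [smul_dotProduct, dotProduct_smul, smul_smul, smul_eq_mul, hcc]
  · rw [neg_neg]; exact sm h1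
  · rw [neg_neg]; exact sm h2
  · rw [neg_neg]; exact sm h3

variable {G}

lemma Eig.flip {a : Fin 16 → ℝ} {e0 e1 e2 e3 : ℝ} (h : Eig G a e0 e1 e2 e3) (w : List (Fin 9)) :
    Eig G (W G w *ᵥ a) (sgw [2] w * e0) (sgw [0, 1, 2, 3, 4] w * e1) (sgw [0, 1, 2, 5, 6] w * e2)
      (sgw [0, 1, 2, 7, 8] w * e3) := by
  have key : ∀ (u : List (Fin 9)) (x : ℝ), W G u *ᵥ a = x • a →
      W G u *ᵥ (W G w *ᵥ a) = ((sgw u w : ℝ) * x) • (W G w *ᵥ a) := by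
    intro u x hx
    rw [mulVec_mulVec, W_W, smul_mulVec, ← mulVec_mulVec, hx, mulVec_smul,
      ← Int.cast_smul_eq_zsmul ℝ, smul_smul]
  refine ⟨?_, key _ _ h.h0, ?_, ?_, ?_⟩
  · rw [dotProduct_mulVec, vecMul_mulVec, W_transpose_mul, vecMul_one, h.norm]
  · have := key _ _ h.h1
    rwa [mul_neg] at this
  · have := key _ _ h.h2
    rwa [mul_neg] at this
  · have := key _ _ h.h3
    rwa [mul_neg] at this

lemma Eig.flip0 {a : Fin 16 → ℝ} {e0 e1 e2 e3 : ℝ} (h : Eig G a e0 e1 e2 e3) :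
    ∃ a', Eig G a' (-e0) e1 e2 e3 := by
  · have := h.flip [0]
    have h0 : sgw [2] [0] = -1 := by decide
    have h1 : sgw [0, 1, 2, 3, 4] [0] = 1 := by decide
    have h2 : sgw [0, 1, 2, 5, 6] [0] = 1 := by decide
    have h3 : sgw [0, 1, 2, 7, 8] [0] = 1 := by decide
    simp only [h0, h1, h2, h3, Int.cast_neg, Int.cast_one, neg_one_mul, one_mul] at this
    exact ⟨_, this⟩

lemma Eig.flip12 {a : Fin 16 → ℝ} {e0 e1 e2 e3 : ℝ} (h : Eig G a e0 e1 e2 e3) :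
    ∃ a', Eig G a' e0 (-e1) (-e2) e3 := by
  · have := h.flip [4, 5]
    have h0 : sgw [2] [4, 5] = 1 := by decide
    have h1 : sgw [0, 1, 2, 3, 4] [4, 5] = -1 := by decide
    have h2 : sgw [0, 1, 2, 5, 6] [4, 5] = -1 := by decide
    have h3 : sgw [0, 1, 2, 7, 8] [4, 5] = 1 := by decide
    simp only [h0, h1, h2, h3, Int.cast_neg, Int.cast_one, neg_one_mul, one_mul] at this
    exact ⟨_, this⟩

lemma Eig.flip23 {a : Fin 16 → ℝ} {e0 e1 e2 e3 : ℝ} (h : Eig G a e0 e1 e2 e3) :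
    ∃ a', Eig G a' e0 e1 (-e2) (-e3) := by
  · have := h.flip [6, 7]
    have h0 : sgw [2] [6, 7] = 1 := by decide
    have h1 : sgw [0, 1, 2, 3, 4] [6, 7] = 1 := by decide
    have h2 : sgw [0, 1, 2, 5, 6] [6, 7] = -1 := by decide
    have h3 : sgw [0, 1, 2, 7, 8] [6, 7] = -1 := by decide
    simp only [h0, h1, h2, h3, Int.cast_neg, Int.cast_one, neg_one_mul, one_mul] at this
    exact ⟨_, this⟩

/-- All sign patterns with a fixed product `e1 e2 e3 = s` occur. -/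
theorem exists_eig (G : GammaNine) : ∃ s : ℝ, (s = 1 ∨ s = -1) ∧ ∀ e0 e1 e2 e3 : ℝ,
    (e0 = 1 ∨ e0 = -1) → (e1 = 1 ∨ e1 = -1) → (e2 = 1 ∨ e2 = -1) → (e3 = 1 ∨ e3 = -1) →
    e1 * e2 * e3 = s → ∃ a, Eig G a e0 e1 e2 e3 := by
  obtain ⟨a, f0, f1, f2, f3, hf0, hf1, hf2, hf3, ha⟩ := exists_eig0 G
  refine ⟨f1 * f2 * f3, ?_, ?_⟩
  · rcases hf1 with h1 | h1 <;> rcases hf2 with h2 | h2 <;> rcases hf3 with h3 | h3 <;>
      simp [h1, h2, h3]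
  intro e0 e1 e2 e3 he0 he1 he2 he3 hs
  -- first fix the sign of `e0`
  have key0 : ∃ a, Eig G a e0 f1 f2 f3 := by
    have : e0 = f0 ∨ e0 = -f0 := by
      rcases hf0 with h | h <;> rcases he0 with h' | h' <;> simp [h, h']
    rcases this with h | h
    · exact ⟨a, h ▸ ha⟩
    · exact h ▸ ha.flip0
  obtain ⟨a1, ha1⟩ := key0
  have c1 : e1 = f1 ∨ e1 = -f1 := by
    rcases hf1 with h | h <;> rcases he1 with h' | h' <;> simp [h, h']
  have c2 : e2 = f2 ∨ e2 = -f2 := by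
    rcases hf2 with h | h <;> rcases he2 with h' | h' <;> simp [h, h']
  have c3 : e3 = f3 ∨ e3 = -f3 := by
    rcases hf3 with h | h <;> rcases he3 with h' | h' <;> simp [h, h']
  have n0 : f1 * f2 * f3 ≠ 0 := by
    rcases hf1 with h1 | h1 <;> rcases hf2 with h2 | h2 <;> rcases hf3 with h3 | h3 <;>
      simp [h1, h2, h3]
  rcases c1 with c1 | c1 <;> rcases c2 with c2 | c2 <;> rcases c3 with c3 | c3 <;> subst c1 <;>
    subst c2 <;> subst c3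
  · exact ⟨a1, ha1⟩
  · exfalso; apply n0; linarith
  · exfalso; apply n0; linarith
  · exact ha1.flip23
  · exfalso; apply n0; linarith
  · obtain ⟨a2, ha2⟩ := ha1.flip12
    obtain ⟨a3, ha3⟩ := ha2.flip23
    rw [neg_neg] at ha3
    exact ⟨a3, ha3⟩
  · exact ha1.flip12
  · exfalso; apply n0; linarith

end Eigen

/-! ### the coefficients `⟨a, γ^j γ^k Γ a⟩` -/

section Coef

variable {G : GammaNine}

/-- the coefficient `⟨a, γ^j γ^k Γ b⟩` -/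
def cf (G : GammaNine) (p : Fin 9 × Fin 9) (a b : Fin 16 → ℝ) : ℝ :=
  a ⬝ᵥ ((gg G p * Gam G) *ᵥ b)

lemma dot_anti {K X : Matrix (Fin 16) (Fin 16) ℝ} (hK : Kᵀ = K) (hKX : K * X = -(X * K))
    {a : Fin 16 → ℝ} {e : ℝ} (he : e ≠ 0) (ha : K *ᵥ a = e • a) : a ⬝ᵥ (X *ᵥ a) = 0 := by
  have h1 : a ⬝ᵥ ((K * X) *ᵥ a) = e * (a ⬝ᵥ (X *ᵥ a)) := by
    rw [← mulVec_mulVec, dotProduct_mulVec, ← mulVec_transpose, hK, ha, smul_dotProduct,
      smul_eq_mul]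
  have h2 : a ⬝ᵥ ((X * K) *ᵥ a) = e * (a ⬝ᵥ (X *ᵥ a)) := by
    rw [← mulVec_mulVec, ha, mulVec_smul, dotProduct_smul, smul_eq_mul]
  rw [hKX, neg_mulVec, dotProduct_neg, h2] at h1
  have : e * (a ⬝ᵥ (X *ᵥ a)) = 0 := by linarith
  exact (mul_eq_zero.1 this).resolve_left he

lemma W_symm {w : List (Fin 9)} (h : rsg w = 1) : (W G w)ᵀ = W G w := by
  rw [W_transpose, h, one_smul]

/-- index pairs spanning the four planes -/
def planes : Finset (Fin 9 × Fin 9) := {(0, 1), (3, 4), (5, 6), (7, 8)}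

lemma gg_Gam (p : Fin 9 × Fin 9) : gg G p * Gam G = W G [p.1, p.2, 0, 1, 2] := by
  rw [gg_eq, Gam_eq, ← W_append]; rfl

lemma Eig.ne {e : ℝ} (h : e = 1 ∨ e = -1) : e ≠ 0 := by
  rcases h with h | h <;> rw [h] <;> norm_num

lemma Eig.cf_off {a : Fin 16 → ℝ} {e0 e1 e2 e3 : ℝ} (h : Eig G a e0 e1 e2 e3)
    (he0 : e0 = 1 ∨ e0 = -1) (he1 : e1 = 1 ∨ e1 = -1) (he2 : e2 = 1 ∨ e2 = -1)
    (he3 : e3 = 1 ∨ e3 = -1) {p : Fin 9 × Fin 9} (hp : p ∈ pairs) (hp' : p ∉ planes) :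
    cf G p a a = 0 := by
  rw [cf, gg_Gam]
  have hex : sgw [2] [p.1, p.2, 0, 1, 2] = -1 ∨ sgw [0, 1, 2, 3, 4] [p.1, p.2, 0, 1, 2] = -1 ∨
      sgw [0, 1, 2, 5, 6] [p.1, p.2, 0, 1, 2] = -1 ∨
      sgw [0, 1, 2, 7, 8] [p.1, p.2, 0, 1, 2] = -1 := by
    revert p
    decide
  rcases hex with hs | hs | hs | hs
  · exact dot_anti (W_symm (by decide)) (W_anti G hs) (Eig.ne he0) h.h0
  · exact dot_anti (W_symm (by decide)) (W_anti G hs) (neg_ne_zero.2 (Eig.ne he1)) h.h1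
  · exact dot_anti (W_symm (by decide)) (W_anti G hs) (neg_ne_zero.2 (Eig.ne he2)) h.h2
  · exact dot_anti (W_symm (by decide)) (W_anti G hs) (neg_ne_zero.2 (Eig.ne he3)) h.h3

lemma Eig.cf0 {a : Fin 16 → ℝ} {e0 e1 e2 e3 : ℝ} (h : Eig G a e0 e1 e2 e3) :
    cf G (0, 1) a a = -e0 := by
  have h1 : W G [0, 1, 0, 1, 2] = -W G [2] := by
    have e1 : W G [0, 1, 0, 1, 2] = W G [0, 1] * W G [0, 1] * W G [2] := by
      simp [W, mul_assoc]
    have e2 : W G [0, 1] * W G [0, 1] = -1 := by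
      have := W_sq G [0, 1]
      have h2 : rsg [0, 1] = -1 := by decide
      rw [h2, neg_one_smul] at this
      rw [← this, neg_neg]
    rw [e1, e2, neg_one_mul]
  rw [cf, gg_Gam, h1, neg_mulVec, h.h0, dotProduct_neg, dotProduct_smul, h.norm]
  simp

lemma Eig.cf1 {a : Fin 16 → ℝ} {e0 e1 e2 e3 : ℝ} (h : Eig G a e0 e1 e2 e3) :
    cf G (3, 4) a a = -e1 := by
  have h1 : W G [3, 4, 0, 1, 2] = W G [0, 1, 2, 3, 4] := by
    have := W_comm G (u := [3, 4]) (w := [0, 1, 2]) (by decide)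
    rwa [← W_append, ← W_append] at this
  rw [cf, gg_Gam, h1, h.h1, dotProduct_smul, h.norm]
  simp

lemma Eig.cf2 {a : Fin 16 → ℝ} {e0 e1 e2 e3 : ℝ} (h : Eig G a e0 e1 e2 e3) :
    cf G (5, 6) a a = -e2 := by
  have h1 : W G [5, 6, 0, 1, 2] = W G [0, 1, 2, 5, 6] := by
    have := W_comm G (u := [5, 6]) (w := [0, 1, 2]) (by decide)
    rwa [← W_append, ← W_append] at this
  rw [cf, gg_Gam, h1, h.h2, dotProduct_smul, h.norm]
  simp

lemma Eig.cf3 {a : Fin 16 → ℝ} {e0 e1 e2 e3 : ℝ} (h : Eig G a e0 e1 e2 e3) :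
    cf G (7, 8) a a = -e3 := by
  have h1 : W G [7, 8, 0, 1, 2] = W G [0, 1, 2, 7, 8] := by
    have := W_comm G (u := [7, 8]) (w := [0, 1, 2]) (by decide)
    rwa [← W_append, ← W_append] at this
  rw [cf, gg_Gam, h1, h.h3, dotProduct_smul, h.norm]
  simp

lemma dot_Gam (a : Fin 16 → ℝ) : a ⬝ᵥ (Gam G *ᵥ a) = 0 := by
  have h : a ⬝ᵥ (Gam G *ᵥ a) = -(a ⬝ᵥ (Gam G *ᵥ a)) := by
    conv_lhs => rw [dotProduct_mulVec, ← mulVec_transpose, Gam_transpose, neg_mulVec,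
      neg_dotProduct, dotProduct_comm]
  linarith

lemma dot_Gam_Gam (a b : Fin 16 → ℝ) : (Gam G *ᵥ a) ⬝ᵥ (Gam G *ᵥ b) = a ⬝ᵥ b := by
  rw [dotProduct_mulVec, vecMul_mulVec, Gam_transpose, neg_mul, Gam_sq, neg_neg, vecMul_one]

lemma dot_skew {X : Matrix (Fin 16) (Fin 16) ℝ} (hX : Xᵀ = -X) (a : Fin 16 → ℝ) :
    a ⬝ᵥ (X *ᵥ a) = 0 := by
  have h : a ⬝ᵥ (X *ᵥ a) = -(a ⬝ᵥ (X *ᵥ a)) := by
    conv_lhs => rw [dotProduct_mulVec, ← mulVec_transpose, hX, neg_mulVec,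
      neg_dotProduct, dotProduct_comm]
  linarith

lemma cf_Gam_Gam {p : Fin 9 × Fin 9} (hp : p ∈ pairs) (a : Fin 16 → ℝ) :
    cf G p (Gam G *ᵥ a) (Gam G *ᵥ a) = cf G p a a := by
  rw [cf, cf, mulVec_mulVec, dotProduct_mulVec, vecMul_mulVec, ← dotProduct_mulVec,
    Gam_transpose, mul_assoc, Gam_sq, neg_mul, mul_neg_one, mul_neg, neg_neg,
    gg_comm_Gam G hp]

lemma cf_Gam {p : Fin 9 × Fin 9} (hp : p ∈ pairs) (a : Fin 16 → ℝ) :
    cf G p a (Gam G *ᵥ a) = 0 := by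
  rw [cf, mulVec_mulVec, mul_assoc, Gam_sq, mul_neg_one, neg_mulVec, dotProduct_neg,
    dot_skew (gg_transpose G hp), neg_zero]

lemma Eig.gg0 {a : Fin 16 → ℝ} {e0 e1 e2 e3 : ℝ} (h : Eig G a e0 e1 e2 e3)
    (he0 : e0 = 1 ∨ e0 = -1) : gg G (0, 1) *ᵥ a = e0 • (Gam G *ᵥ a) := by
  have h1 : Gam G = gg G (0, 1) * W G [2] := by
    simp [Gam, gg, W, mul_assoc]
  rw [h1, ← mulVec_mulVec, h.h0, mulVec_smul, smul_smul]
  rcases he0 with h | h <;> simp [h]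

lemma gg_of {p : Fin 9 × Fin 9} {a : Fin 16 → ℝ} {e : ℝ}
    (h : (Gam G * gg G p) *ᵥ a = (-e) • a) : gg G p *ᵥ a = e • (Gam G *ᵥ a) := by
  have h2 : Gam G *ᵥ ((Gam G * gg G p) *ᵥ a) = (-e) • (Gam G *ᵥ a) := by
    rw [h, mulVec_smul]
  rw [mulVec_mulVec, ← mul_assoc, Gam_sq, neg_one_mul, neg_mulVec, neg_smul, neg_inj] at h2
  exact h2

lemma Eig.gg1 {a : Fin 16 → ℝ} {e0 e1 e2 e3 : ℝ} (h : Eig G a e0 e1 e2 e3) :
    gg G (3, 4) *ᵥ a = e1 • (Gam G *ᵥ a) := by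
  apply gg_of
  have : Gam G * gg G (3, 4) = W G [0, 1, 2, 3, 4] := by rw [gg_eq, Gam_eq, ← W_append]; rfl
  rw [this, h.h1]

lemma Eig.gg2 {a : Fin 16 → ℝ} {e0 e1 e2 e3 : ℝ} (h : Eig G a e0 e1 e2 e3) :
    gg G (5, 6) *ᵥ a = e2 • (Gam G *ᵥ a) := by
  apply gg_of
  have : Gam G * gg G (5, 6) = W G [0, 1, 2, 5, 6] := by rw [gg_eq, Gam_eq, ← W_append]; rfl
  rw [this, h.h2]

lemma Eig.gg3 {a : Fin 16 → ℝ} {e0 e1 e2 e3 : ℝ} (h : Eig G a e0 e1 e2 e3) :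
    gg G (7, 8) *ᵥ a = e3 • (Gam G *ᵥ a) := by
  apply gg_of
  have : Gam G * gg G (7, 8) = W G [0, 1, 2, 7, 8] := by rw [gg_eq, Gam_eq, ← W_append]; rfl
  rw [this, h.h3]

end Coef

/-! ### operators -/

section Ops

open scoped InnerProductSpace
open Complex (I)

variable {D H : Type*} [AddCommGroup D] [Module ℂ D] [SeminormedAddCommGroup H]
  [InnerProductSpace ℂ H]

/-- Abstract data of section 1.4 of `r330_doc`. -/
structure Susy (G : GammaNine) (m : ℝ) (ι : D →ₗ[ℂ] H) (Q : Fin 16 → D →ₗ[ℂ] D)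
    (Ham : D →ₗ[ℂ] D) (J : Fin 9 × Fin 9 → D →ₗ[ℂ] D) : Prop where
  symm : ∀ α φ ψ, ⟪ι (Q α φ), ι ψ⟫_ℂ = ⟪ι φ, ι (Q α ψ)⟫_ℂ
  master : ∀ α β φ, Q α (Q β φ) + Q β (Q α φ) = (if α = β then (2 : ℂ) • Ham φ else 0) +
    ∑ p ∈ pairs, (2 * I * ((m * cc p.1 * (gg G p * Gam G) α β : ℝ) : ℂ)) • J p φ
  comm : ∀ p ∈ pairs, ∀ α φ, J p (Q α φ) - Q α (J p φ) =
    (-(1 / 2 : ℂ)) • ∑ β, ((gg G p α β : ℝ) : ℂ) • Q β φ

variable {G : GammaNine} {m : ℝ} {ι : D →ₗ[ℂ] H} {Q : Fin 16 → D →ₗ[ℂ] D}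
  {Ham : D →ₗ[ℂ] D} {J : Fin 9 × Fin 9 → D →ₗ[ℂ] D}

/-- `Q(a) = Σ a_α Q_α` -/
noncomputable def Qa (Q : Fin 16 → D →ₗ[ℂ] D) (a : Fin 16 → ℝ) : D →ₗ[ℂ] D :=
  ∑ α, ((a α : ℝ) : ℂ) • Q α

lemma Qa_apply (a : Fin 16 → ℝ) (φ : D) : Qa Q a φ = ∑ α, ((a α : ℝ) : ℂ) • Q α φ := by
  simp [Qa, LinearMap.sum_apply]

lemma Qa_smul (a : Fin 16 → ℝ) (e : ℝ) (φ : D) : Qa Q (e • a) φ = (e : ℂ) • Qa Q a φ := by
  simp only [Qa_apply, Finset.smul_sum, smul_smul, Pi.smul_apply, smul_eq_mul, Complex.ofReal_mul]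

lemma Susy.symm_Qa (h : Susy G m ι Q Ham J) (a : Fin 16 → ℝ) (φ ψ : D) :
    ⟪ι (Qa Q a φ), ι ψ⟫_ℂ = ⟪ι φ, ι (Qa Q a ψ)⟫_ℂ := by
  simp only [Qa_apply, map_sum, map_smul, sum_inner, inner_sum, inner_smul_left, inner_smul_right,
    Complex.conj_ofReal, h.symm]

lemma Susy.master_Qa (h : Susy G m ι Q Ham J) (a b : Fin 16 → ℝ) (φ : D) :
    Qa Q a (Qa Q b φ) + Qa Q b (Qa Q a φ) = (((2 * (a ⬝ᵥ b) : ℝ)) : ℂ) • Ham φ +
      ∑ p ∈ pairs, (2 * I * ((m * cc p.1 * cf G p a b : ℝ) : ℂ)) • J p φ := by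
  have e1 : Qa Q a (Qa Q b φ) + Qa Q b (Qa Q a φ) =
      ∑ α, ∑ β, ((a α * b β : ℝ) : ℂ) • (Q α (Q β φ) + Q β (Q α φ)) := by
    have h1 : Qa Q a (Qa Q b φ) = ∑ α, ∑ β, ((a α * b β : ℝ) : ℂ) • Q α (Q β φ) := by
      rw [Qa_apply]
      refine Finset.sum_congr rfl fun α _ => ?_
      rw [Qa_apply, map_sum, Finset.smul_sum]
      refine Finset.sum_congr rfl fun β _ => ?_
      rw [map_smul, smul_smul, ← Complex.ofReal_mul]
    have h2 : Qa Q b (Qa Q a φ) = ∑ α, ∑ β, ((a α * b β : ℝ) : ℂ) • Q β (Q α φ) := by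
      rw [Finset.sum_comm, Qa_apply]
      refine Finset.sum_congr rfl fun β _ => ?_
      rw [Qa_apply, map_sum, Finset.smul_sum]
      refine Finset.sum_congr rfl fun α _ => ?_
      rw [map_smul, smul_smul, ← Complex.ofReal_mul, mul_comm]
    rw [h1, h2, ← Finset.sum_add_distrib]
    refine Finset.sum_congr rfl fun α _ => ?_
    rw [← Finset.sum_add_distrib]
    refine Finset.sum_congr rfl fun β _ => ?_
    rw [smul_add]
  rw [e1]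
  have e2 : ∀ α β, ((a α * b β : ℝ) : ℂ) • (Q α (Q β φ) + Q β (Q α φ)) =
      (if α = β then ((2 * (a α * b β) : ℝ) : ℂ) • Ham φ else 0) +
      ∑ p ∈ pairs, (2 * I * ((m * cc p.1 * (a α * (gg G p * Gam G) α β * b β) : ℝ) : ℂ)) • J p φ := by
    intro α β
    rw [h.master, smul_add, Finset.smul_sum]
    congr 1
    · split_ifs
      · rw [smul_smul]; congr 1; push_cast; ring
      · simp
    · refine Finset.sum_congr rfl fun p _ => ?_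
      rw [smul_smul]; congr 1; push_cast; ring
  simp_rw [e2, Finset.sum_add_distrib]
  congr 1
  · simp_rw [Finset.sum_ite_eq, Finset.mem_univ, if_true]
    rw [← Finset.sum_smul]
    congr 1
    rw [dotProduct, Finset.mul_sum]
    push_cast
    rfl
  · have : ∀ α, ∑ β, ∑ p ∈ pairs,
        (2 * I * ((m * cc p.1 * (a α * (gg G p * Gam G) α β * b β) : ℝ) : ℂ)) • J p φ =
        ∑ p ∈ pairs, ∑ β,
        (2 * I * ((m * cc p.1 * (a α * (gg G p * Gam G) α β * b β) : ℝ) : ℂ)) • J p φ := by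
      intro α; rw [Finset.sum_comm]
    simp_rw [this]
    rw [Finset.sum_comm]
    refine Finset.sum_congr rfl fun p _ => ?_
    simp_rw [← Finset.sum_smul]
    congr 1
    have hcf : m * cc p.1 * cf G p a b =
        ∑ α, ∑ β, m * cc p.1 * (a α * (gg G p * Gam G) α β * b β) := by
      rw [cf, dotProduct, Finset.mul_sum]
      refine Finset.sum_congr rfl fun α _ => ?_
      rw [mulVec, dotProduct, Finset.mul_sum, Finset.mul_sum]
      refine Finset.sum_congr rfl fun β _ => ?_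
      ring
    rw [hcf]
    push_cast
    simp_rw [Finset.mul_sum]

lemma Susy.comm_Qa (h : Susy G m ι Q Ham J) {p : Fin 9 × Fin 9} (hp : p ∈ pairs)
    (a : Fin 16 → ℝ) (φ : D) :
    J p (Qa Q a φ) = Qa Q a (J p φ) + (1 / 2 : ℂ) • Qa Q (gg G p *ᵥ a) φ := by
  have e1 : J p (Qa Q a φ) - Qa Q a (J p φ) = ∑ α, ((a α : ℝ) : ℂ) • (J p (Q α φ) - Q α (J p φ)) := by
    rw [Qa_apply, Qa_apply, map_sum, ← Finset.sum_sub_distrib]
    refine Finset.sum_congr rfl fun α _ => ?_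
    rw [map_smul, smul_sub]
  rw [← sub_eq_iff_eq_add', e1]
  simp_rw [h.comm p hp, Finset.smul_sum, smul_smul]
  rw [Finset.sum_comm, Qa_apply, Finset.smul_sum]
  refine Finset.sum_congr rfl fun β _ => ?_
  rw [← Finset.sum_smul, smul_smul]
  congr 1
  have ht : (gg G p *ᵥ a) β = -∑ α, gg G p α β * a α := by
    have := gg_transpose G hp
    have h2 : ∀ α, gg G p β α = -gg G p α β := by
      intro α
      have := congrFun (congrFun this α) β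
      simpa using this
    rw [mulVec, dotProduct]
    simp_rw [h2]
    simp
  rw [ht]
  push_cast
  rw [mul_neg, Finset.mul_sum, ← Finset.sum_neg_distrib]
  refine Finset.sum_congr rfl fun α _ => ?_
  ring

/-- `L_{aa}` for an eigenvector with signs `e` -/
noncomputable def Lop (J : Fin 9 × Fin 9 → D →ₗ[ℂ] D) (e0 e1 e2 e3 : ℝ) (φ : D) : D :=
  (-2 * I) • (((1 / 3 * e0 : ℝ) : ℂ) • J (0, 1) φ - (((1 / 6 * e1 : ℝ) : ℂ) • J (3, 4) φ +
    ((1 / 6 * e2 : ℝ) : ℂ) • J (5, 6) φ + ((1 / 6 * e3 : ℝ) : ℂ) • J (7, 8) φ))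

lemma Eig.sum_cf {a : Fin 16 → ℝ} {e0 e1 e2 e3 : ℝ} (h : Eig G a e0 e1 e2 e3)
    (he0 : e0 = 1 ∨ e0 = -1) (he1 : e1 = 1 ∨ e1 = -1) (he2 : e2 = 1 ∨ e2 = -1)
    (he3 : e3 = 1 ∨ e3 = -1) (φ : D) :
    ∑ p ∈ pairs, (2 * I * ((m * cc p.1 * cf G p a a : ℝ) : ℂ)) • J p φ =
      (m : ℂ) • Lop J e0 e1 e2 e3 φ := by
  have hsub : planes ⊆ pairs := by decide
  rw [← Finset.sum_subset hsub]
  · have h4 : ∑ p ∈ planes, (2 * I * ((m * cc p.1 * cf G p a a : ℝ) : ℂ)) • J p φ =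
        (2 * I * ((m * cc 0 * cf G (0, 1) a a : ℝ) : ℂ)) • J (0, 1) φ +
        ((2 * I * ((m * cc 3 * cf G (3, 4) a a : ℝ) : ℂ)) • J (3, 4) φ +
        ((2 * I * ((m * cc 5 * cf G (5, 6) a a : ℝ) : ℂ)) • J (5, 6) φ +
        (2 * I * ((m * cc 7 * cf G (7, 8) a a : ℝ) : ℂ)) • J (7, 8) φ)) := by
      rw [planes, Finset.sum_insert (by decide), Finset.sum_insert (by decide),
        Finset.sum_insert (by decide), Finset.sum_singleton]
    have c0 : cc 0 = 1 / 3 := by simp [cc]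
    have c3 : cc 3 = -(1 / 6) := by simp [cc]
    have c5 : cc 5 = -(1 / 6) := by simp [cc]
    have c7 : cc 7 = -(1 / 6) := by simp [cc]
    rw [h4, h.cf0, h.cf1, h.cf2, h.cf3, c0, c3, c5, c7, Lop]
    push_cast
    module
  · intro p hp hp'
    rw [h.cf_off he0 he1 he2 he3 hp hp']
    simp

variable (Q) in
/-- `Q_v = Q(a) + i Q(Γ a)` -/
noncomputable def Qp (G : GammaNine) (a : Fin 16 → ℝ) : D →ₗ[ℂ] D :=
  Qa Q a + I • Qa Q (Gam G *ᵥ a)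

variable (Q) in
/-- `Q_v† = Q(a) - i Q(Γ a)` -/
noncomputable def Qm (G : GammaNine) (a : Fin 16 → ℝ) : D →ₗ[ℂ] D :=
  Qa Q a - I • Qa Q (Gam G *ᵥ a)

lemma Qp_apply (a : Fin 16 → ℝ) (φ : D) :
    Qp Q G a φ = Qa Q a φ + I • Qa Q (Gam G *ᵥ a) φ := by simp [Qp]

lemma Qm_apply (a : Fin 16 → ℝ) (φ : D) :
    Qm Q G a φ = Qa Q a φ - I • Qa Q (Gam G *ᵥ a) φ := by simp [Qm]

lemma Susy.sq_a (h : Susy G m ι Q Ham J) {a : Fin 16 → ℝ} (φ : D) :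
    Qa Q (Gam G *ᵥ a) (Qa Q (Gam G *ᵥ a) φ) = Qa Q a (Qa Q a φ) := by
  have h1 := h.master_Qa a a φ
  have h2 := h.master_Qa (Gam G *ᵥ a) (Gam G *ᵥ a) φ
  rw [dot_Gam_Gam] at h2
  have h3 : ∑ p ∈ pairs, (2 * I * ((m * cc p.1 * cf G p (Gam G *ᵥ a) (Gam G *ᵥ a) : ℝ) : ℂ)) •
      J p φ = ∑ p ∈ pairs, (2 * I * ((m * cc p.1 * cf G p a a : ℝ) : ℂ)) • J p φ :=
    Finset.sum_congr rfl fun p hp => by rw [cf_Gam_Gam hp]
  rw [h3, ← h1, ← two_smul ℂ, ← two_smul ℂ (Qa Q a (Qa Q a φ))] at h2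
  exact smul_right_injective _ (two_ne_zero' ℂ) h2

lemma Susy.anti_a (h : Susy G m ι Q Ham J) {a : Fin 16 → ℝ} (φ : D) :
    Qa Q a (Qa Q (Gam G *ᵥ a) φ) = -Qa Q (Gam G *ᵥ a) (Qa Q a φ) := by
  have h1 := h.master_Qa a (Gam G *ᵥ a) φ
  have h3 : ∑ p ∈ pairs, (2 * I * ((m * cc p.1 * cf G p a (Gam G *ᵥ a) : ℝ) : ℂ)) • J p φ = 0 :=
    Finset.sum_eq_zero fun p hp => by rw [cf_Gam hp]; simp
  rw [h3, dot_Gam] at h1
  simp only [mul_zero, Complex.ofReal_zero, zero_smul, add_zero] at h1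
  exact eq_neg_of_add_eq_zero_left h1

lemma Susy.Qp_Qp (h : Susy G m ι Q Ham J) (a : Fin 16 → ℝ) (φ : D) :
    Qp Q G a (Qp Q G a φ) = 0 := by
  simp only [Qp_apply, map_add, map_smul]
  rw [h.anti_a, h.sq_a, smul_add, smul_smul, Complex.I_mul_I]
  module

lemma Susy.Qm_Qm (h : Susy G m ι Q Ham J) (a : Fin 16 → ℝ) (φ : D) :
    Qm Q G a (Qm Q G a φ) = 0 := by
  simp only [Qm_apply, map_sub, map_smul]
  rw [h.anti_a, h.sq_a, smul_sub, smul_smul, Complex.I_mul_I]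
  module

/-- `Q_v Q_v† + Q_v† Q_v = 4 H + 2 m L_aa` -/
lemma Susy.Hv (h : Susy G m ι Q Ham J) {a : Fin 16 → ℝ} {e0 e1 e2 e3 : ℝ}
    (ha : Eig G a e0 e1 e2 e3)
    (he0 : e0 = 1 ∨ e0 = -1) (he1 : e1 = 1 ∨ e1 = -1) (he2 : e2 = 1 ∨ e2 = -1)
    (he3 : e3 = 1 ∨ e3 = -1) (φ : D) :
    Qp Q G a (Qm Q G a φ) + Qm Q G a (Qp Q G a φ) =
      (4 : ℂ) • Ham φ + (2 * m : ℂ) • Lop J e0 e1 e2 e3 φ := by
  have h1 := h.master_Qa a a φ
  rw [ha.norm, ha.sum_cf he0 he1 he2 he3] at h1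
  have h2 : Qp Q G a (Qm Q G a φ) + Qm Q G a (Qp Q G a φ) =
      (2 : ℂ) • (Qa Q a (Qa Q a φ) + Qa Q a (Qa Q a φ)) := by
    simp only [Qp_apply, Qm_apply, map_sub, map_add, map_smul]
    rw [h.sq_a, smul_add, smul_sub, smul_smul, Complex.I_mul_I]
    module
  rw [h2, h1]
  push_cast
  module

lemma Susy.inner_Qp (h : Susy G m ι Q Ham J) (a : Fin 16 → ℝ) (φ ψ : D) :
    ⟪ι (Qp Q G a φ), ι ψ⟫_ℂ = ⟪ι φ, ι (Qm Q G a ψ)⟫_ℂ := by
  rw [Qp_apply, Qm_apply, map_add, map_sub, map_smul, map_smul, inner_add_left, inner_sub_right,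
    inner_smul_left, inner_smul_right, h.symm_Qa, h.symm_Qa, Complex.conj_I]
  ring

lemma Susy.inner_Qm (h : Susy G m ι Q Ham J) (a : Fin 16 → ℝ) (φ ψ : D) :
    ⟪ι (Qm Q G a φ), ι ψ⟫_ℂ = ⟪ι φ, ι (Qp Q G a ψ)⟫_ℂ := by
  rw [Qp_apply, Qm_apply, map_sub, map_add, map_smul, map_smul, inner_sub_left, inner_add_right,
    inner_smul_left, inner_smul_right, h.symm_Qa, h.symm_Qa, Complex.conj_I]
  ring

/-- commutation of `J` in an eigenplane with `Q_v` -/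
lemma Susy.J_Qp (h : Susy G m ι Q Ham J) {p : Fin 9 × Fin 9} (hp : p ∈ pairs)
    {a : Fin 16 → ℝ} {e : ℝ} (ha : gg G p *ᵥ a = e • (Gam G *ᵥ a)) (φ : D) :
    J p (Qp Q G a φ) = Qp Q G a (J p φ) + (-(I / 2) * e) • Qp Q G a φ := by
  have h2 : gg G p *ᵥ (Gam G *ᵥ a) = (-e) • a := by
    rw [mulVec_mulVec, gg_comm_Gam G hp, ← mulVec_mulVec, ha, mulVec_smul, mulVec_mulVec, Gam_sq,
      neg_mulVec, one_mulVec, smul_neg, neg_smul]
  simp only [Qp_apply, map_add, map_smul]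
  rw [h.comm_Qa hp, h.comm_Qa hp, ha, h2, Qa_smul, Qa_smul]
  have : I • ((1 / 2 : ℂ) • (((-e : ℝ) : ℂ) • Qa Q a φ)) = (-(I / 2) * e) • Qa Q a φ := by
    rw [smul_smul, smul_smul]; congr 1; push_cast; ring
  rw [smul_add I, this, smul_add, smul_smul (-(I / 2) * e) I]
  have h4 : -(I / 2) * e * I = 1 / 2 * e := by
    linear_combination (-(e : ℂ) / 2) * Complex.I_mul_I
  rw [h4, smul_smul]
  module

lemma Susy.J_Qm (h : Susy G m ι Q Ham J) {p : Fin 9 × Fin 9} (hp : p ∈ pairs)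
    {a : Fin 16 → ℝ} {e : ℝ} (ha : gg G p *ᵥ a = e • (Gam G *ᵥ a)) (φ : D) :
    J p (Qm Q G a φ) = Qm Q G a (J p φ) + ((I / 2) * e) • Qm Q G a φ := by
  have h2 : gg G p *ᵥ (Gam G *ᵥ a) = (-e) • a := by
    rw [mulVec_mulVec, gg_comm_Gam G hp, ← mulVec_mulVec, ha, mulVec_smul, mulVec_mulVec, Gam_sq,
      neg_mulVec, one_mulVec, smul_neg, neg_smul]
  simp only [Qm_apply, map_sub, map_smul]
  rw [h.comm_Qa hp, h.comm_Qa hp, ha, h2, Qa_smul, Qa_smul]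
  have : I • ((1 / 2 : ℂ) • (((-e : ℝ) : ℂ) • Qa Q a φ)) = -(((I / 2) * e) • Qa Q a φ) := by
    rw [smul_smul, smul_smul, ← neg_smul]; congr 1; push_cast; ring
  rw [smul_add I, this, smul_sub, smul_smul ((I / 2) * e) I]
  have h4 : (I / 2) * e * I = -(1 / 2 * e) := by
    linear_combination ((e : ℂ) / 2) * Complex.I_mul_I
  rw [h4, smul_smul]
  module

/-- `⟨u, H_v u⟩ = ‖Q_v u‖² + ‖Q_v† u‖²` -/
lemma Susy.inner_Hv (h : Susy G m ι Q Ham J) (a : Fin 16 → ℝ) (u : D) :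
    (⟪ι u, ι (Qp Q G a (Qm Q G a u) + Qm Q G a (Qp Q G a u))⟫_ℂ).re =
      ‖ι (Qm Q G a u)‖ ^ 2 + ‖ι (Qp Q G a u)‖ ^ 2 := by
  rw [map_add, inner_add_right, ← h.inner_Qm a u (Qm Q G a u), ← h.inner_Qp a u (Qp Q G a u),
    inner_self_eq_norm_sq_to_K, inner_self_eq_norm_sq_to_K]
  norm_cast

/-- positivity of `H_{v'}` on an arbitrary vector -/
lemma Susy.Hv_nonneg (h : Susy G m ι Q Ham J) {a : Fin 16 → ℝ} {e0 e1 e2 e3 : ℝ}
    (ha : Eig G a e0 e1 e2 e3)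
    (he0 : e0 = 1 ∨ e0 = -1) (he1 : e1 = 1 ∨ e1 = -1) (he2 : e2 = 1 ∨ e2 = -1)
    (he3 : e3 = 1 ∨ e3 = -1) (u : D) :
    0 ≤ (⟪ι u, ι ((4 : ℂ) • Ham u + (2 * m : ℂ) • Lop J e0 e1 e2 e3 u)⟫_ℂ).re := by
  rw [← h.Hv ha he0 he1 he2 he3, h.inner_Hv]
  positivity

lemma mem01 : ((0, 1) : Fin 9 × Fin 9) ∈ pairs := by decide
lemma mem34 : ((3, 4) : Fin 9 × Fin 9) ∈ pairs := by decide
lemma mem56 : ((5, 6) : Fin 9 × Fin 9) ∈ pairs := by decide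
lemma mem78 : ((7, 8) : Fin 9 × Fin 9) ∈ pairs := by decide

lemma sq_one {e : ℝ} (h : e = 1 ∨ e = -1) : ((e : ℂ)) * e = 1 := by
  rcases h with h | h <;> simp [h]

lemma neg_sign {e : ℝ} (h : e = 1 ∨ e = -1) : -e = 1 ∨ -e = -1 := by
  rcases h with h | h <;> simp [h]

lemma re_inner_real_smul (c : ℝ) (u : H) : (⟪u, (c : ℂ) • u⟫_ℂ).re = c * ‖u‖ ^ 2 := by
  rw [inner_smul_right, inner_self_eq_norm_sq_to_K, Complex.re_ofReal_mul]
  norm_cast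

/-- **(2.1)** the gap inequality on the weight zero sector -/
theorem Susy.gap_zero (h : Susy G m ι Q Ham J) {φ : D} (h01 : J (0, 1) φ = 0)
    (h34 : J (3, 4) φ = 0) (h56 : J (5, 6) φ = 0) (h78 : J (7, 8) φ = 0) :
    m / 3 * (⟪ι φ, ι (Ham φ)⟫_ℂ).re ≤ ‖ι (Ham φ)‖ ^ 2 := by
  obtain ⟨s, hs, hex⟩ := exists_eig G
  -- signs `e = (1, s, 1, 1)`
  have o1 : (1 : ℝ) = 1 ∨ (1 : ℝ) = -1 := Or.inl rfl
  obtain ⟨a, ha⟩ := hex 1 s 1 1 o1 hs o1 o1 (by ring)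
  obtain ⟨a', ha'⟩ := hex (-1) s 1 1 (Or.inr rfl) hs o1 o1 (by ring)
  obtain ⟨b', hb'⟩ := hex 1 (-s) (-1) 1 o1 (neg_sign hs) (Or.inr rfl) o1 (by ring)
  have g0 : gg G (0, 1) *ᵥ a = (1 : ℝ) • (Gam G *ᵥ a) := ha.gg0 o1
  have g1 := ha.gg1
  have g2 := ha.gg2
  set u := Qm Q G a φ with hu
  set u' := Qp Q G a φ with hu'
  -- the two key inequalities
  have k1 : 4 / 3 * m * ‖ι u‖ ^ 2 ≤ ‖ι (Qp Q G a u)‖ ^ 2 := by
    have p1 := h.Hv_nonneg ha' (Or.inr rfl) hs o1 o1 u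
    have hJ : J (0, 1) u = (I / 2) • u := by
      rw [hu, h.J_Qm mem01 g0, h01]; simp
    have hL : Lop J (-1) s 1 1 u = Lop J 1 s 1 1 u + ((-(2 / 3) : ℝ) : ℂ) • u := by
      simp only [Lop, hJ]
      have : (((-(2 / 3) : ℝ) : ℂ)) • u = ((-(2 / 3) : ℂ)) • u := by push_cast; rfl
      rw [this]
      have hI : (-(2 / 3) : ℂ) = (4 / 3 * I) * (I / 2) := by
        linear_combination (-(2 / 3 : ℂ)) * Complex.I_mul_I
      rw [hI]
      push_cast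
      module
    have e1 : (4 : ℂ) • Ham u + (2 * m : ℂ) • Lop J (-1) s 1 1 u =
        (Qp Q G a (Qm Q G a u) + Qm Q G a (Qp Q G a u)) + ((-(4 / 3) * m : ℝ) : ℂ) • u := by
      rw [h.Hv ha o1 hs o1 o1, hL]
      push_cast
      module
    rw [e1, map_add, inner_add_right, Complex.add_re, h.inner_Hv, map_smul,
      re_inner_real_smul] at p1
    have hz : Qm Q G a u = 0 := by rw [hu, h.Qm_Qm]
    rw [hz, map_zero, norm_zero] at p1
    nlinarith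
  have k2 : 4 / 3 * m * ‖ι u'‖ ^ 2 ≤ ‖ι (Qm Q G a u')‖ ^ 2 := by
    have p1 := h.Hv_nonneg hb' o1 (neg_sign hs) (Or.inr rfl) o1 u'
    have hJ1 : J (3, 4) u' = (-(I / 2) * s) • u' := by
      rw [hu', h.J_Qp mem34 g1, h34]; simp
    have hJ2 : J (5, 6) u' = (-(I / 2)) • u' := by
      rw [hu', h.J_Qp mem56 g2, h56]; simp
    have hL : Lop J 1 (-s) (-1) 1 u' = Lop J 1 s 1 1 u' + ((-(2 / 3) : ℝ) : ℂ) • u' := by
      simp only [Lop, hJ1, hJ2]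
      have : (((-(2 / 3) : ℝ) : ℂ)) • u' = ((-(2 / 3) : ℂ)) • u' := by push_cast; rfl
      rw [this]
      have hI : (-(2 / 3) : ℂ) = (-(2 / 3) * I) * (s * (-(I / 2) * s) + (-(I / 2))) := by
        have := sq_one hs
        linear_combination (-(1 / 3 : ℂ)) * Complex.I_mul_I * (1 + (s : ℂ) * s) +
          (1 / 3 : ℂ) * this
      rw [hI]
      push_cast
      module
    have e1 : (4 : ℂ) • Ham u' + (2 * m : ℂ) • Lop J 1 (-s) (-1) 1 u' =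
        (Qp Q G a (Qm Q G a u') + Qm Q G a (Qp Q G a u')) + ((-(4 / 3) * m : ℝ) : ℂ) • u' := by
      rw [h.Hv ha o1 hs o1 o1, hL]
      push_cast
      module
    rw [e1, map_add, inner_add_right, Complex.add_re, h.inner_Hv, map_smul,
      re_inner_real_smul] at p1
    have hz : Qp Q G a u' = 0 := by rw [hu', h.Qp_Qp]
    rw [hz, map_zero, norm_zero] at p1
    nlinarith
  -- `H_v φ = 4 H φ`
  have hLz : Lop J 1 s 1 1 φ = 0 := by simp [Lop, h01, h34, h56, h78]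
  have hH : Qp Q G a u + Qm Q G a u' = (4 : ℂ) • Ham φ := by
    rw [hu, hu', h.Hv ha o1 hs o1 o1, hLz, smul_zero, add_zero]
  have hq : 4 * (⟪ι φ, ι (Ham φ)⟫_ℂ).re = ‖ι u‖ ^ 2 + ‖ι u'‖ ^ 2 := by
    have := h.inner_Hv a φ
    rw [← hu, ← hu', hH, map_smul, inner_smul_right] at this
    rw [← this]
    simp
  have hcross : ⟪ι (Qp Q G a u), ι (Qm Q G a u')⟫_ℂ = 0 := by
    rw [← h.inner_Qp, h.Qp_Qp, map_zero, inner_zero_left]
  have hn : 16 * ‖ι (Ham φ)‖ ^ 2 = ‖ι (Qp Q G a u)‖ ^ 2 + ‖ι (Qm Q G a u')‖ ^ 2 := by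
    have e1 : ‖ι ((4 : ℂ) • Ham φ)‖ ^ 2 = 16 * ‖ι (Ham φ)‖ ^ 2 := by
      rw [map_smul, norm_smul, mul_pow]; norm_num
    rw [← e1, ← hH, map_add, @norm_add_sq ℂ, hcross]
    simp
  have hq' : m * (4 * (⟪ι φ, ι (Ham φ)⟫_ℂ).re) = m * (‖ι u‖ ^ 2 + ‖ι u'‖ ^ 2) := by rw [hq]
  linarith

/-- positivity of `H_v` on a weight vector, all admissible signs -/
lemma Susy.weight_ineq (h : Susy G m ι Q Ham J) {a : Fin 16 → ℝ} {e0 e1 e2 e3 : ℝ}
    (ha : Eig G a e0 e1 e2 e3)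
    (he0 : e0 = 1 ∨ e0 = -1) (he1 : e1 = 1 ∨ e1 = -1) (he2 : e2 = 1 ∨ e2 = -1)
    (he3 : e3 = 1 ∨ e3 = -1) {φ : D} {μ r1 r2 r3 : ℝ} (h01 : J (0, 1) φ = (I * μ) • φ)
    (h34 : J (3, 4) φ = (I * r1) • φ) (h56 : J (5, 6) φ = (I * r2) • φ)
    (h78 : J (7, 8) φ = (I * r3) • φ) :
    m * (1 / 6 * (e1 * r1 + e2 * r2 + e3 * r3) - 1 / 3 * (e0 * μ)) * ‖ι φ‖ ^ 2 ≤
      (⟪ι φ, ι (Ham φ)⟫_ℂ).re := by
  have p1 := h.Hv_nonneg ha he0 he1 he2 he3 φ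
  have hL : Lop J e0 e1 e2 e3 φ =
      ((2 * (1 / 3 * (e0 * μ) - 1 / 6 * (e1 * r1 + e2 * r2 + e3 * r3)) : ℝ) : ℂ) • φ := by
    simp only [Lop, h01, h34, h56, h78, smul_smul, ← sub_smul, ← add_smul]
    congr 1
    push_cast
    linear_combination (-2 * (1 / 3 * (e0 : ℂ) * μ - 1 / 6 * (e1 * r1 + e2 * r2 + e3 * r3))) *
      Complex.I_mul_I
  rw [hL, smul_smul, map_add, inner_add_right, Complex.add_re, map_smul, map_smul] at p1
  have e2' : (2 * (m : ℂ) * ((2 * (1 / 3 * (e0 * μ) - 1 / 6 * (e1 * r1 + e2 * r2 + e3 * r3)) : ℝ) : ℂ))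
      = ((2 * m * (2 * (1 / 3 * (e0 * μ) - 1 / 6 * (e1 * r1 + e2 * r2 + e3 * r3))) : ℝ) : ℂ) := by
    push_cast; ring
  rw [e2', re_inner_real_smul, inner_smul_right] at p1
  have e3' : ((4 : ℂ) * ⟪ι φ, ι (Ham φ)⟫_ℂ).re = 4 * (⟪ι φ, ι (Ham φ)⟫_ℂ).re := by simp
  rw [e3'] at p1
  nlinarith



/-- `(1/16) Σ ‖Q_α φ‖² = ⟨φ, H φ⟩` -/
theorem Susy.form_eq (h : Susy G m ι Q Ham J) (φ ψ : D) :
    (1 / 16 : ℂ) * ∑ α, ⟪ι (Q α φ), ι (Q α ψ)⟫_ℂ = ⟪ι φ, ι (Ham ψ)⟫_ℂ := by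
  have h1 : ∀ α, ⟪ι (Q α φ), ι (Q α ψ)⟫_ℂ = ⟪ι φ, ι (Ham ψ)⟫_ℂ +
      ∑ p ∈ pairs, (I * ((m * cc p.1 * (gg G p * Gam G) α α : ℝ) : ℂ)) * ⟪ι φ, ι (J p ψ)⟫_ℂ := by
    intro α
    have hm := h.master α α ψ
    rw [if_pos rfl, ← two_smul ℂ] at hm
    have h2 : Q α (Q α ψ) = Ham ψ +
        ∑ p ∈ pairs, (I * ((m * cc p.1 * (gg G p * Gam G) α α : ℝ) : ℂ)) • J p ψ := by
      apply smul_right_injective _ (two_ne_zero' ℂ)
      show (2 : ℂ) • _ = (2 : ℂ) • _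
      rw [hm, smul_add, Finset.smul_sum]
      congr 1
      refine Finset.sum_congr rfl fun p _ => ?_
      rw [smul_smul]; congr 1; ring
    rw [h.symm, h2, map_add, inner_add_right, map_sum, inner_sum]
    congr 1
    refine Finset.sum_congr rfl fun p _ => ?_
    rw [map_smul, inner_smul_right]
  simp_rw [h1, Finset.sum_add_distrib]
  rw [Finset.sum_comm]
  have h2 : ∀ p ∈ pairs, ∑ α, (I * ((m * cc p.1 * (gg G p * Gam G) α α : ℝ) : ℂ)) *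
      ⟪ι φ, ι (J p ψ)⟫_ℂ = 0 := by
    intro p hp
    rw [← Finset.sum_mul, ← Finset.mul_sum, ← Complex.ofReal_sum, ← Finset.mul_sum]
    have : ∑ α, (gg G p * Gam G) α α = 0 := trace_gg_Gam G hp
    rw [this]
    simp
  rw [Finset.sum_eq_zero h2]
  simp

/-- real form of `form_eq` -/
theorem Susy.form_self (h : Susy G m ι Q Ham J) (φ : D) :
    1 / 16 * ∑ α, ‖ι (Q α φ)‖ ^ 2 = (⟪ι φ, ι (Ham φ)⟫_ℂ).re := by
  rw [← h.form_eq]
  simp_rw [inner_self_eq_norm_sq_to_K]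
  have : (1 / 16 : ℂ) * ∑ α, (((‖ι (Q α φ)‖ : ℝ) : ℂ)) ^ 2 =
      ((1 / 16 * ∑ α, ‖ι (Q α φ)‖ ^ 2 : ℝ) : ℂ) := by push_cast; rfl
  exact (congrArg Complex.re this).symm

/-- the Hamiltonian is symmetric on `D` -/
theorem Susy.Ham_symm (h : Susy G m ι Q Ham J) (φ ψ : D) :
    ⟪ι (Ham φ), ι ψ⟫_ℂ = ⟪ι φ, ι (Ham ψ)⟫_ℂ := by
  rw [← h.form_eq φ ψ, ← inner_conj_symm, ← h.form_eq ψ φ, map_mul, map_sum]
  simp_rw [inner_conj_symm]
  congr 1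
  rw [map_div₀, map_one, map_ofNat]

end Ops

end Crest.Agent.R330.GapAlg916
private theorem rz_06b2f499d2 : type_of% @_root_.Crest.Agent.R330.GapAlg916.rsg.eq_def := @_root_.Crest.Agent.R330.GapAlg916.rsg.eq_def -- L94
private theorem rz_91da553b22 : type_of% @_root_.Crest.Agent.R330.GapAlg916.rsg.eq_1 := @_root_.Crest.Agent.R330.GapAlg916.rsg.eq_1 -- L94
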