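import Crest.Agent.R330.GapAbs_967
import Crest.Agent.R330.GapAlg_916
import Crest.Agent.R330.Dict_416
import Crest.Agent.R330.Sec_478
import Mathlib.MeasureTheory.Integral.IntervalIntegral.FundThmCalculus
import Mathlib.MeasureTheory.Integral.IntervalIntegral.IntegrationByParts

-- ▼ part R330/GapFin_967
section

/-!
# Row 330 (helper967): (GAP) from the algebra, the torus, and the graph core

* `gap_weight'` : (2.2) for weights in `η ℤ`.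
* `gap_of_susy` : abstract (GAP).
* `gapZ_of` : (GAP) for the literal charges, from the Susy algebra on the core, the four circle
  actions, and density of `(1 + Ham) core` in the core.
-/

set_option autoImplicit false
set_option linter.unusedSectionVars false

open Filter Topology Set MeasureTheory Crest.MathPhysics.MatrixQM
open scoped InnerProductSpace

noncomputable section

namespace Crest.Agent.R330.GapFin967

open Crest.Agent.R330.FA416 Crest.Agent.R330.GapAbs967 Crest.Agent.R330.GapAlg916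
open Complex (I)

/-! ## 1. Nonzero weights -/

/-- choice of signs, weights with absolute value at least `η` when nonzero -/
theorem exists_signs' {s : ℝ} (hs : s = 1 ∨ s = -1) {η : ℝ} (hη : 0 < η) (μ r1 r2 r3 : ℝ)
    (hμ : μ ≠ 0 → η ≤ |μ|) (h1 : r1 ≠ 0 → η ≤ |r1|) (h2 : r2 ≠ 0 → η ≤ |r2|)
    (h3 : r3 ≠ 0 → η ≤ |r3|) (hne : ¬ (μ = 0 ∧ r1 = 0 ∧ r2 = 0 ∧ r3 = 0)) :
    ∃ e0 e1 e2 e3 : ℝ, (e0 = 1 ∨ e0 = -1) ∧ (e1 = 1 ∨ e1 = -1) ∧ (e2 = 1 ∨ e2 = -1) ∧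
      (e3 = 1 ∨ e3 = -1) ∧ e1 * e2 * e3 = s ∧
      η / 6 ≤ 1 / 6 * (e1 * r1 + e2 * r2 + e3 * r3) - 1 / 3 * (e0 * μ) := by
  have habs : ∀ x : ℝ, ∃ e : ℝ, (e = 1 ∨ e = -1) ∧ e * x = |x| := by
    intro x
    rcases le_total 0 x with h | h
    · exact ⟨1, Or.inl rfl, by rw [abs_of_nonneg h, one_mul]⟩
    · exact ⟨-1, Or.inr rfl, by rw [abs_of_nonpos h, neg_one_mul]⟩
  obtain ⟨f0, hf0, hf0'⟩ := habs μ
  obtain ⟨f1, hf1, hf1'⟩ := habs r1
  obtain ⟨f2, hf2, hf2'⟩ := habs r2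
  obtain ⟨f3, hf3, hf3'⟩ := habs r3
  have hp : f1 * f2 * f3 = s ∨ f1 * f2 * f3 = -s := by
    rcases hf1 with h1 | h1 <;> rcases hf2 with h2 | h2 <;> rcases hf3 with h3 | h3 <;>
      rcases hs with h | h <;> simp [h1, h2, h3, h]
  have key : ∃ e1 e2 e3 : ℝ, (e1 = 1 ∨ e1 = -1) ∧ (e2 = 1 ∨ e2 = -1) ∧
      (e3 = 1 ∨ e3 = -1) ∧ e1 * e2 * e3 = s ∧ |r1| ≤ e1 * r1 + e2 * r2 + e3 * r3 ∧
      |r2| ≤ e1 * r1 + e2 * r2 + e3 * r3 ∧ |r3| ≤ e1 * r1 + e2 * r2 + e3 * r3 := by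
    have a1 := abs_nonneg r1
    have a2 := abs_nonneg r2
    have a3 := abs_nonneg r3
    rcases hp with hp | hp
    · exact ⟨f1, f2, f3, hf1, hf2, hf3, hp, by linarith, by linarith, by linarith⟩
    · by_cases c1 : |r1| ≤ |r2| ∧ |r1| ≤ |r3|
      · exact ⟨-f1, f2, f3, neg_sign hf1, hf2, hf3, by linarith, by linarith [c1.1, c1.2],
          by linarith [c1.1, c1.2], by linarith [c1.1, c1.2]⟩
      · by_cases c2 : |r2| ≤ |r1| ∧ |r2| ≤ |r3|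
        · exact ⟨f1, -f2, f3, hf1, neg_sign hf2, hf3, by linarith, by linarith [c2.1, c2.2],
            by linarith [c2.1, c2.2], by linarith [c2.1, c2.2]⟩
        · have c3 : |r3| ≤ |r1| ∧ |r3| ≤ |r2| := by
            by_contra c3
            rw [not_and_or, not_le, not_le] at c1 c2 c3
            rcases c1 with c1 | c1 <;> rcases c2 with c2 | c2 <;> rcases c3 with c3 | c3 <;>
              linarith
          exact ⟨f1, f2, -f3, hf1, hf2, neg_sign hf3, by linarith, by linarith [c3.1, c3.2],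
            by linarith [c3.1, c3.2], by linarith [c3.1, c3.2]⟩
  obtain ⟨e1, e2, e3, he1, he2, he3, hprod, k1, k2, k3⟩ := key
  refine ⟨-f0, e1, e2, e3, neg_sign hf0, he1, he2, he3, hprod, ?_⟩
  have h0' : -f0 * μ = -|μ| := by rw [neg_mul, hf0']
  rw [h0']
  have a0 := abs_nonneg μ
  have a1 := abs_nonneg r1
  by_cases c0 : μ = 0
  · by_cases c1 : r1 = 0
    · by_cases c2 : r2 = 0
      · have c3 : r3 ≠ 0 := fun c3 => hne ⟨c0, c1, c2, c3⟩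
        have := h3 c3
        linarith
      · have := h2 c2
        linarith
    · have := h1 c1
      linarith
  · have := hμ c0
    linarith

section abs

variable {V H H' : Type*} [AddCommGroup V] [Module ℂ V]
  [NormedAddCommGroup H] [InnerProductSpace ℂ H]
  [NormedAddCommGroup H'] [InnerProductSpace ℂ H']
  {G : GammaNine} {m : ℝ} {ι : V →ₗ[ℂ] H} {Q : Fin 16 → V →ₗ[ℂ] V} {Ham : V →ₗ[ℂ] V}
  {J : Fin 9 × Fin 9 → V →ₗ[ℂ] V}

/-- (2.2) for weights in `η ℤ`. -/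
theorem gap_weight' (h : Susy G m ι Q Ham J) (hm : 0 ≤ m) {η : ℝ} (hη : 0 < η) {φ : V}
    {n0 n1 n2 n3 : ℤ} (h01 : J (0, 1) φ = (I * ((η * n0 : ℝ) : ℂ)) • φ)
    (h34 : J (3, 4) φ = (I * ((η * n1 : ℝ) : ℂ)) • φ)
    (h56 : J (5, 6) φ = (I * ((η * n2 : ℝ) : ℂ)) • φ)
    (h78 : J (7, 8) φ = (I * ((η * n3 : ℝ) : ℂ)) • φ)
    (hne : ¬ (n0 = 0 ∧ n1 = 0 ∧ n2 = 0 ∧ n3 = 0)) :
    m * (η / 6) * ‖ι φ‖ ^ 2 ≤ (⟪ι φ, ι (Ham φ)⟫_ℂ).re := by
  obtain ⟨s, hs, hex⟩ := exists_eig G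
  have habs : ∀ n : ℤ, η * (n : ℝ) ≠ 0 → η ≤ |η * (n : ℝ)| := fun n hn => by
    have hn0 : n ≠ 0 := by
      rintro rfl
      simp at hn
    have h1 : (1 : ℝ) ≤ |(n : ℝ)| := by
      have := Int.one_le_abs hn0
      exact_mod_cast this
    rw [abs_mul, abs_of_pos hη]
    nlinarith
  have hz : ∀ n : ℤ, η * (n : ℝ) = 0 → n = 0 := fun n hn => by
    rcases mul_eq_zero.1 hn with h | h
    · exact absurd h hη.ne'
    · exact_mod_cast h
  obtain ⟨e0, e1, e2, e3, he0, he1, he2, he3, hp, hge⟩ := exists_signs' hs hη (η * n0) (η * n1)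
    (η * n2) (η * n3) (habs n0) (habs n1) (habs n2) (habs n3)
    (fun hc => hne ⟨hz _ hc.1, hz _ hc.2.1, hz _ hc.2.2.1, hz _ hc.2.2.2⟩)
  obtain ⟨a, ha⟩ := hex e0 e1 e2 e3 he0 he1 he2 he3 hp
  refine le_trans ?_ (h.weight_ineq ha he0 he1 he2 he3 h01 h34 h56 h78)
  exact mul_le_mul_of_nonneg_right (mul_le_mul_of_nonneg_left hge hm) (by positivity)

variable [CompleteSpace H]

/-- **(GAP), abstract.** The four circle actions with weights in `η ℤ`. -/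
theorem gap_of_susy (h : Susy G m ι Q Ham J) (hm : 0 ≤ m) {Qv : V →ₗ[ℂ] H'}
    (hQv : ∀ φ ψ, ⟪Qv φ, Qv ψ⟫_ℂ = ⟪ι (Ham φ), ι ψ⟫_ℂ) {η : ℝ} (hη : 0 < η) (hη' : η ≤ 2)
    {P : Fin 9 × Fin 9 → ℤ → V →ₗ[ℂ] V} (hP : ∀ p ∈ planes, Circ ι Ham (P p))
    (hJ : ∀ p ∈ planes, ∀ n φ, J p (P p n φ) = (I * ((η * n : ℝ) : ℂ)) • P p n φ)
    (hc : ∀ p ∈ planes, ∀ q ∈ planes, ∀ m n φ, P p m (P q n φ) = P q n (P p m φ))
    (hd : ∀ φ : V, ι φ ∈ closure (Set.range fun ψ => ι ψ + ι (Ham ψ))) :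
    Gap ι Qv (m * (η / 6)) := by
  have m1 : ((0, 1) : Fin 9 × Fin 9) ∈ planes := by decide
  have m2 : ((3, 4) : Fin 9 × Fin 9) ∈ planes := by decide
  have m3 : ((5, 6) : Fin 9 × Fin 9) ∈ planes := by decide
  have m4 : ((7, 8) : Fin 9 × Fin 9) ∈ planes := by decide
  set P1 := P (0, 1) with hP1
  set P2 := P (3, 4) with hP2
  set P3 := P (5, 6) with hP3
  set P4 := P (7, 8) with hP4
  have c1 : Circ ι Ham P1 := hP _ m1
  have c2 : Circ ι Ham P2 := hP _ m2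
  have c3 : Circ ι Ham P3 := hP _ m3
  have c4 : Circ ι Ham P4 := hP _ m4
  set Z : V →ₗ[ℂ] V := P4 0 ∘ₗ P3 0 ∘ₗ P2 0 ∘ₗ P1 0 with hZ
  have hZa : ∀ φ, Z φ = P4 0 (P3 0 (P2 0 (P1 0 φ))) := fun _ => rfl
  have c12 : ∀ m n φ, P1 m (P2 n φ) = P2 n (P1 m φ) := hc _ m1 _ m2
  have c13 : ∀ m n φ, P1 m (P3 n φ) = P3 n (P1 m φ) := hc _ m1 _ m3
  have c14 : ∀ m n φ, P1 m (P4 n φ) = P4 n (P1 m φ) := hc _ m1 _ m4
  have c23 : ∀ m n φ, P2 m (P3 n φ) = P3 n (P2 m φ) := hc _ m2 _ m3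
  have c24 : ∀ m n φ, P2 m (P4 n φ) = P4 n (P2 m φ) := hc _ m2 _ m4
  have c34 : ∀ m n φ, P3 m (P4 n φ) = P4 n (P3 m φ) := hc _ m3 _ m4
  -- the values of `J` on a joint image
  have w : ∀ n1 n2 n3 n4 φ, ∀ ψ, ψ = P4 n4 (P3 n3 (P2 n2 (P1 n1 φ))) →
      J (0, 1) ψ = (I * ((η * n1 : ℝ) : ℂ)) • ψ ∧ J (3, 4) ψ = (I * ((η * n2 : ℝ) : ℂ)) • ψ ∧
      J (5, 6) ψ = (I * ((η * n3 : ℝ) : ℂ)) • ψ ∧ J (7, 8) ψ = (I * ((η * n4 : ℝ) : ℂ)) • ψ := by
    intro n1 n2 n3 n4 φ ψ hψ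
    have e1 : P1 n1 ψ = ψ := by rw [hψ, c14, c13, c12, c1.idem]
    have e2 : P2 n2 ψ = ψ := by rw [hψ, c24, c23, c2.idem]
    have e3 : P3 n3 ψ = ψ := by rw [hψ, c34, c3.idem]
    have e4 : P4 n4 ψ = ψ := by rw [hψ, c4.idem]
    have j1 := hJ _ m1 n1 ψ
    have j2 := hJ _ m2 n2 ψ
    have j3 := hJ _ m3 n3 ψ
    have j4 := hJ _ m4 n4 ψ
    rw [← hP1, e1] at j1
    rw [← hP2, e2] at j2
    rw [← hP3, e3] at j3
    rw [← hP4, e4] at j4
    exact ⟨j1, j2, j3, j4⟩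
  have hZi : ∀ φ, Z (Z φ) = Z φ := fun φ => by
    simp only [hZa]
    rw [c14, c13, c12, c1.idem, c24, c23, c2.idem, c34, c3.idem, c4.idem]
  have hδ0 : 0 ≤ m * (η / 6) := by positivity
  refine gap_of_weight Ham hQv Z (fun φ ψ => ?_) hZi (fun φ => ?_) hd (fun φ hφ => ?_)
    fun φ hφ => ?_
  · -- symmetry
    simp only [hZa]
    rw [c4.symm, c3.symm, c2.symm, c1.symm, c34, c24, c14, c23, c13, c12]
  · simp only [hZa, c1.comm, c2.comm, c3.comm, c4.comm]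
  · -- the weight zero sector
    obtain ⟨j1, j2, j3, j4⟩ := w 0 0 0 0 φ φ (by rw [← hZa, hφ])
    simp only [Int.cast_zero, mul_zero, Complex.ofReal_zero, zero_smul] at j1 j2 j3 j4
    have h1 := h.gap_zero j1 j2 j3 j4
    have h2 : ‖Qv φ‖ ^ 2 = (⟪ι φ, ι (Ham φ)⟫_ℂ).re := by
      have h3 : ⟪Qv φ, Qv φ⟫_ℂ = ⟪ι φ, ι (Ham φ)⟫_ℂ := by rw [hQv, h.Ham_symm]
      rw [← h3, inner_self_eq_norm_sq_to_K]
      norm_cast
    rw [h2]
    refine le_trans ?_ h1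
    have h4 : 0 ≤ (⟪ι φ, ι (Ham φ)⟫_ℂ).re := by
      rw [← h2]
      positivity
    refine mul_le_mul_of_nonneg_right ?_ h4
    nlinarith
  · -- the complement
    have h2 : ‖Qv φ‖ ^ 2 = (⟪ι φ, ι (Ham φ)⟫_ℂ).re := by
      have h3 : ⟪Qv φ, Qv φ⟫_ℂ = ⟪ι φ, ι (Ham φ)⟫_ℂ := by rw [hQv, h.Ham_symm]
      rw [← h3, inner_self_eq_norm_sq_to_K]
      norm_cast
    rw [h2]
    have h5 : 0 ≤ K ι Ham (m * (η / 6)) φ := by
      refine K_nonneg_four c1 c2 c3 c4 fun n1 n2 n3 n4 => ?_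
      set ψ := P4 n4 (P3 n3 (P2 n2 (P1 n1 φ))) with hψ
      by_cases hn : n1 = 0 ∧ n2 = 0 ∧ n3 = 0 ∧ n4 = 0
      · obtain ⟨rfl, rfl, rfl, rfl⟩ := hn
        have h6 : ψ = 0 := by rw [hψ, ← hZa, hφ]
        rw [h6]
        simp [K]
      · obtain ⟨j1, j2, j3, j4⟩ := w n1 n2 n3 n4 φ ψ hψ
        have := gap_weight' h hm hη j1 j2 j3 j4 hn
        unfold K
        linarith
    unfold K at h5
    linarith

/-- (GAP), abstract, with the normalisation `‖Q φ‖² = 16 ⟨φ, H φ⟩`. -/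
theorem gap_of_susy16 (h : Susy G m ι Q Ham J) (hm : 0 ≤ m) {Qv : V →ₗ[ℂ] H'}
    (hQv : ∀ φ ψ, ⟪Qv φ, Qv ψ⟫_ℂ = 16 * ⟪ι (Ham φ), ι ψ⟫_ℂ) {η : ℝ} (hη : 0 < η) (hη' : η ≤ 2)
    {P : Fin 9 × Fin 9 → ℤ → V →ₗ[ℂ] V} (hP : ∀ p ∈ planes, Circ ι Ham (P p))
    (hJ : ∀ p ∈ planes, ∀ n φ, J p (P p n φ) = (I * ((η * n : ℝ) : ℂ)) • P p n φ)
    (hc : ∀ p ∈ planes, ∀ q ∈ planes, ∀ m n φ, P p m (P q n φ) = P q n (P p m φ))
    (hd : ∀ φ : V, ι φ ∈ closure (Set.range fun ψ => ι ψ + ι (Ham ψ))) :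
    Gap ι Qv (16 * (m * (η / 6))) := by
  have h1 : Gap ι ((1 / 4 : ℂ) • Qv) (m * (η / 6)) := by
    refine gap_of_susy h hm (fun φ ψ => ?_) hη hη' hP hJ hc hd
    rw [LinearMap.smul_apply, LinearMap.smul_apply, inner_smul_left, inner_smul_right, hQv]
    have : (starRingEnd ℂ) (1 / 4 : ℂ) = 1 / 4 := by
      rw [map_div₀, map_one, map_ofNat]
    rw [this]
    ring
  intro φ
  obtain ⟨ψ, h3, h4⟩ := h1 φ
  refine ⟨ψ, ?_, ?_⟩
  · obtain ⟨χ, h5, h6⟩ := mem_kerF.1 h3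
    refine mem_kerF.2 ⟨χ, h5, ?_⟩
    have h7 := h6.const_smul (4 : ℂ)
    rw [smul_zero] at h7
    refine h7.congr fun n => ?_
    rw [LinearMap.smul_apply, smul_smul]
    norm_num
  · rw [LinearMap.smul_apply, norm_smul, mul_pow] at h4
    have h8 : ‖(1 / 4 : ℂ)‖ ^ 2 = 1 / 16 := by norm_num
    rw [h8] at h4
    linarith

end abs

/-! ## 2. The literal charges -/

section literal

open Crest.Agent.R330.Defs478 Crest.Agent.R330.Dict416 Crest.Agent.R330.Sec478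

variable {N : ℕ} {F : Type*} [NormedAddCommGroup F] [InnerProductSpace ℂ F]
  [FiniteDimensional ℂ F] {b : ColorBasis N} {M : FermionRep N F} {R : GaugeAction b M}
  {G : GammaNine}

theorem ιC_injective : Function.Injective (ιC R) := by
  intro φ ψ h
  have h1 : ∫ x, ‖φ.1 x - ψ.1 x‖ ^ 2 = 0 := by
    rw [← norm_ιC_sub_sq φ (cv_memLp ψ.2), ← ιC_apply ψ, h, sub_self]
    simp
  have hcont : Continuous fun x => ‖φ.1 x - ψ.1 x‖ ^ 2 :=
    ((φ.2.1.continuous.sub ψ.2.1.continuous).norm.pow 2)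
  have hint : Integrable fun x => ‖φ.1 x - ψ.1 x‖ ^ 2 := by
    refine hcont.integrable_of_hasCompactSupport ?_
    refine (φ.2.2.1.sub ψ.2.2.1).mono' fun x hx => ?_
    refine subset_tsupport _ ?_
    rw [Function.mem_support] at hx ⊢
    intro h0
    apply hx
    have h2 : φ.1 x - ψ.1 x = 0 := h0
    show ‖φ.1 x - ψ.1 x‖ ^ 2 = 0
    rw [h2]
    simp
  have h2 := (integral_eq_zero_iff_of_nonneg (fun x => by positivity) hint).1 h1
  have h3 : (fun x => ‖φ.1 x - ψ.1 x‖ ^ 2) = fun _ => (0 : ℝ) :=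
    Continuous.ae_eq_iff_eq volume hcont continuous_const |>.1 h2
  apply Subtype.ext
  funext x
  have h4 := congrFun h3 x
  have h5 : φ.1 x - ψ.1 x = 0 := by simpa using h4
  exact sub_eq_zero.1 h5

/-- **(GAP)** for the literal charges. -/
theorem gapZ_of {g m : ℝ} (hm : 0 ≤ m) {Q : Fin 16 → core b R →ₗ[ℂ] core b R}
    (hQ : ∀ α φ, (Q α φ : Cfg N → F) = dcharge b M G g m α (φ : Cfg N → F))
    {Ham : core b R →ₗ[ℂ] core b R} {J : Fin 9 × Fin 9 → core b R →ₗ[ℂ] core b R}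
    (h : Susy G m (ιC R) Q Ham J) {η : ℝ} (hη : 0 < η) (hη' : η ≤ 2)
    {P : Fin 9 × Fin 9 → ℤ → core b R →ₗ[ℂ] core b R}
    (hP : ∀ p ∈ planes, Circ (ιC R) Ham (P p))
    (hJ : ∀ p ∈ planes, ∀ n φ, J p (P p n φ) = (I * ((η * n : ℝ) : ℂ)) • P p n φ)
    (hc : ∀ p ∈ planes, ∀ q ∈ planes, ∀ m n φ, P p m (P q n φ) = P q n (P p m φ))
    (hd : ∀ φ : core b R, ιC R φ ∈ closure (Set.range fun ψ => ιC R ψ + ιC R (Ham ψ))) :
    GapZ b M R G g m (m * (η / 6)) := by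
  have hq : ∀ α φ, qL R G g m α φ = ιC R (Q α φ) := fun α φ => by
    unfold qL
    rw [ιC_apply]
    congr 1
    exact (hQ α φ).symm
  have hQC : ∀ φ ψ, ⟪QC R G g m φ, QC R G g m ψ⟫_ℂ = 16 * ⟪ιC R (Ham φ), ιC R ψ⟫_ℂ := by
    intro φ ψ
    rw [h.Ham_symm, ← h.form_eq, PiLp.inner_apply, ← mul_assoc]
    simp only [QC_apply, hq]
    norm_num
  exact gapL_iff.2 (gap_of_susy16 h hm hQC hη hη' hP hJ hc hd)

end literal

end Crest.Agent.R330.GapFin967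

end
end

-- ▼ part R330/GapTor_967

/-!
# Row 330 (helper967): the circle actions from weak data on the core

`Rot ι Ham U J p` : a `p`-periodic one-parameter group `U` of isometries of the core, commuting with
the symmetric operator `Ham`, with skew generator `J` (weak derivative).
`HasProj ι U p` : for every `n` and every core vector `ψ` the weight component of `ψ` is a core
vector.

* `Rot.exists_circ` : the projections `P n`, with `Circ` and `J (P n ψ) = (2 π i n / p) P n ψ`.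
* `P_comm` : projections of commuting groups commute.
* `gap_of_rot`, `gapZ_of_rot` : (GAP) from four commuting rotation groups.
-/

set_option autoImplicit false
set_option linter.unusedSectionVars false

open Filter Topology Set MeasureTheory Crest.MathPhysics.MatrixQM
open scoped InnerProductSpace

noncomputable section

namespace Crest.Agent.R330.GapTor967

open Crest.Agent.R330.FA416 Crest.Agent.R330.GapAbs967 Crest.Agent.R330.GapAlg916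
open Crest.Agent.R330.GapFin967
open Complex (I)

section abs

variable {V H : Type*} [AddCommGroup V] [Module ℂ V]
  [NormedAddCommGroup H] [InnerProductSpace ℂ H]

/-- A periodic group of isometries of the core with generator `J`, commuting with `Ham`. -/
structure Rot (ι : V →ₗ[ℂ] H) (Ham : V →ₗ[ℂ] V) (U : ℝ → V →ₗ[ℂ] V) (J : V →ₗ[ℂ] V)
    (p : ℝ) : Prop where
  pos : 0 < p
  add : ∀ s t φ, U (s + t) φ = U s (U t φ)
  zero : ∀ φ, U 0 φ = φ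
  per : ∀ φ, U p φ = φ
  iso : ∀ t φ ψ, ⟪ι (U t φ), ι (U t ψ)⟫_ℂ = ⟪ι φ, ι ψ⟫_ℂ
  ham : ∀ t φ, U t (Ham φ) = Ham (U t φ)
  skew : ∀ φ ψ, ⟪ι (J φ), ι ψ⟫_ℂ = -⟪ι φ, ι (J ψ)⟫_ℂ
  deriv : ∀ φ ψ, HasDerivAt (fun t => ⟪ι φ, ι (U t ψ)⟫_ℂ) ⟪ι φ, ι (J ψ)⟫_ℂ 0

/-- The weight components of core vectors are core vectors. -/
def HasProj (ι : V →ₗ[ℂ] H) (U : ℝ → V →ₗ[ℂ] V) (p : ℝ) : Prop :=
  ∀ (n : ℤ) (ψ : V), ∃ χ : V, ∀ φ : V,
    ⟪ι φ, ι χ⟫_ℂ = mean p (fun t => ch p (-n) t * ⟪ι φ, ι (U t ψ)⟫_ℂ)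

variable {ι : V →ₗ[ℂ] H} {Ham : V →ₗ[ℂ] V} {U : ℝ → V →ₗ[ℂ] V} {J : V →ₗ[ℂ] V} {p : ℝ}

theorem Rot.neg_left (h : Rot ι Ham U J p) (t : ℝ) (φ ψ : V) :
    ⟪ι (U (-t) φ), ι ψ⟫_ℂ = ⟪ι φ, ι (U t ψ)⟫_ℂ := by
  rw [← h.iso t (U (-t) φ) ψ, ← h.add, add_neg_cancel, h.zero]

theorem Rot.deriv' (h : Rot ι Ham U J p) (φ ψ : V) (t : ℝ) :
    HasDerivAt (fun s => ⟪ι φ, ι (U s ψ)⟫_ℂ) ⟪ι φ, ι (J (U t ψ))⟫_ℂ t := by
  have h1 := h.deriv φ (U t ψ)
  have h2 : HasDerivAt (fun s => s - t) 1 t := (hasDerivAt_id t).sub_const t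
  have h4 := h1.scomp_of_eq t h2 (by simp)
  rw [one_smul] at h4
  refine h4.congr_of_eventuallyEq (Eventually.of_forall fun s => ?_)
  show _ = ⟪ι φ, ι (U (s - t) (U t ψ))⟫_ℂ
  rw [← h.add, sub_add_cancel]

theorem Rot.cont (h : Rot ι Ham U J p) (φ ψ : V) : Continuous fun t => ⟪ι φ, ι (U t ψ)⟫_ℂ :=
  continuous_iff_continuousAt.2 fun t => (h.deriv' φ ψ t).continuousAt

theorem eq_of_weak (hι : Function.Injective ι) {χ χ' : V}
    (h : ∀ φ, ⟪ι φ, ι χ⟫_ℂ = ⟪ι φ, ι χ'⟫_ℂ) : χ = χ' := by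
  apply hι
  have h1 := h (χ - χ')
  rw [← sub_eq_zero, ← inner_sub_right, map_sub] at h1
  exact sub_eq_zero.1 (inner_self_eq_zero.1 h1)

theorem mean_add {p : ℝ} {f f' : ℝ → ℂ} (hf : Continuous f) (hf' : Continuous f') :
    mean p (fun t => f t + f' t) = mean p f + mean p f' := by
  unfold mean
  rw [intervalIntegral.integral_add (hf.intervalIntegrable _ _) (hf'.intervalIntegrable _ _),
    mul_add]

/-- The mean of a derivative of a periodic function vanishes. -/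
theorem mean_deriv {p : ℝ} {f f' : ℝ → ℂ} (hf : ∀ t, HasDerivAt f (f' t) t)
    (hf' : Continuous f') (hp : Function.Periodic f p) : mean p f' = 0 := by
  unfold mean
  rw [intervalIntegral.integral_eq_sub_of_hasDerivAt (fun t _ => hf t)
    (hf'.intervalIntegrable _ _)]
  have h1 : f p = f 0 := by
    have := hp 0
    rwa [zero_add] at this
  rw [h1, sub_self, mul_zero]

theorem ch_deriv (p : ℝ) (n : ℤ) (t : ℝ) :
    HasDerivAt (ch p n) ((2 * Real.pi * I * n / p) * ch p n t) t := by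
  unfold ch
  have h1 : HasDerivAt (fun s : ℝ => (2 * (Real.pi : ℂ) * I * n * (s : ℂ) / p))
      (2 * Real.pi * I * n / p) t := by
    have h2 := ((hasDerivAt_id t).ofReal_comp.const_mul (2 * (Real.pi : ℂ) * I * n)).div_const
      (p : ℂ)
    simpa using h2
  exact h1.cexp.congr_deriv (mul_comm _ _)

/-- **The weight projections.** -/
theorem Rot.exists_circ (h : Rot ι Ham U J p) (hι : Function.Injective ι)
    (hs : ∀ φ ψ, ⟪ι (Ham φ), ι ψ⟫_ℂ = ⟪ι φ, ι (Ham ψ)⟫_ℂ) (hp : HasProj ι U p) :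
    ∃ P : ℤ → V →ₗ[ℂ] V, Grp ι U P p ∧ Circ ι Ham P ∧
      ∀ n φ, J (P n φ) = (2 * Real.pi * I * n / p) • P n φ := by
  choose P0 hP0 using hp
  have hcc : ∀ (n : ℤ) (φ ψ : V), Continuous fun t => ch p (-n) t * ⟪ι φ, ι (U t ψ)⟫_ℂ :=
    fun n φ ψ => (ch_cont p (-n)).mul (h.cont φ ψ)
  let P : ℤ → V →ₗ[ℂ] V := fun n =>
    { toFun := P0 n
      map_add' := fun ψ ψ' => eq_of_weak hι fun φ => by
        rw [map_add, inner_add_right, hP0, hP0, hP0, ← mean_add (hcc n φ ψ) (hcc n φ ψ')]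
        congr 1
        funext t
        rw [map_add, map_add, inner_add_right, mul_add]
      map_smul' := fun c ψ => eq_of_weak hι fun φ => by
        rw [RingHom.id_apply, map_smul, inner_smul_right, hP0, hP0, ← mean_mul_left]
        congr 1
        funext t
        rw [map_smul, map_smul, inner_smul_right]
        ring }
  have hP : ∀ n φ ψ, ⟪ι φ, ι (P n ψ)⟫_ℂ = mean p (fun t => ch p (-n) t * ⟪ι φ, ι (U t ψ)⟫_ℂ) :=
    fun n φ ψ => hP0 n ψ φ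
  have hg : Grp ι U P p := ⟨h.pos, h.add, h.zero, h.per, h.iso, h.cont, hP⟩
  refine ⟨P, hg, circ_of_group hg hι fun n φ => ?_, fun n ψ => ?_⟩
  · refine eq_of_weak hι fun χ => ?_
    rw [hP, ← hs, hP]
    congr 1
    funext t
    rw [h.ham, hs]
  · refine eq_of_weak hι fun φ => ?_
    have h1 : ⟪ι φ, ι (J (P n ψ))⟫_ℂ = -⟪ι (J φ), ι (P n ψ)⟫_ℂ := by
      rw [h.skew, neg_neg]
    rw [h1, hP, map_smul, inner_smul_right, hP]
    -- integration by parts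
    have h2 : ∀ t, HasDerivAt (fun t => ch p (-n) t * ⟪ι φ, ι (U t ψ)⟫_ℂ)
        ((2 * Real.pi * I * ((-n : ℤ) : ℂ) / p) * (ch p (-n) t * ⟪ι φ, ι (U t ψ)⟫_ℂ) +
          -(ch p (-n) t * ⟪ι (J φ), ι (U t ψ)⟫_ℂ)) t := fun t => by
      have h3 := (ch_deriv p (-n) t).mul (h.deriv' φ ψ t)
      have h4 : ⟪ι φ, ι (J (U t ψ))⟫_ℂ = -⟪ι (J φ), ι (U t ψ)⟫_ℂ := by
        rw [h.skew, neg_neg]
      rw [h4] at h3
      exact h3.congr_deriv (by ring)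
    have hc1 : Continuous fun t => (2 * Real.pi * I * ((-n : ℤ) : ℂ) / p) *
        (ch p (-n) t * ⟪ι φ, ι (U t ψ)⟫_ℂ) := continuous_const.mul (hcc n φ ψ)
    have hc2 : Continuous fun t => -(ch p (-n) t * ⟪ι (J φ), ι (U t ψ)⟫_ℂ) :=
      (hcc n (J φ) ψ).neg
    have h5 := mean_deriv h2 (hc1.add hc2) (hg.per_ch n φ ψ)
    rw [mean_add hc1 hc2, mean_mul_left] at h5
    have h6 : mean p (fun t => -(ch p (-n) t * ⟪ι (J φ), ι (U t ψ)⟫_ℂ)) =
        -mean p (fun t => ch p (-n) t * ⟪ι (J φ), ι (U t ψ)⟫_ℂ) := by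
      have h7 := mean_mul_left p (-1) (fun t => ch p (-n) t * ⟪ι (J φ), ι (U t ψ)⟫_ℂ)
      simp only [neg_mul, one_mul] at h7
      exact h7
    rw [h6] at h5
    push_cast at h5
    linear_combination h5

/-- **Projections of commuting groups commute.** -/
theorem P_comm {U' : ℝ → V →ₗ[ℂ] V} {P P' : ℤ → V →ₗ[ℂ] V} {p' : ℝ} (h : Grp ι U P p)
    (h' : Grp ι U' P' p') (hι : Function.Injective ι)
    (hc : ∀ s t φ, U s (U' t φ) = U' t (U s φ)) (m n : ℤ) (φ : V) :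
    P m (P' n φ) = P' n (P m φ) := by
  have h1 : ∀ t ψ, U' t (P m ψ) = P m (U' t ψ) := fun t ψ => eq_of_weak hι fun χ => by
    rw [← h'.neg_left, h.proj, h.proj]
    congr 1
    funext s
    rw [h'.neg_left, hc]
  refine eq_of_weak hι fun χ => ?_
  rw [h'.proj, ← h.P_symm, h'.proj]
  congr 1
  funext t
  rw [h1, h.P_symm]

variable {H' : Type*} [NormedAddCommGroup H'] [InnerProductSpace ℂ H'] [CompleteSpace H]
  {G : GammaNine} {m : ℝ} {Q : Fin 16 → V →ₗ[ℂ] V} {J : Fin 9 × Fin 9 → V →ₗ[ℂ] V}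

/-- The projections of four commuting rotation groups. -/
theorem exists_P (h : Susy G m ι Q Ham J) (hι : Function.Injective ι)
    {U : Fin 9 × Fin 9 → ℝ → V →ₗ[ℂ] V} (hU : ∀ q ∈ planes, Rot ι Ham (U q) (J q) p)
    (hp : ∀ q ∈ planes, HasProj ι (U q) p)
    (hc : ∀ q ∈ planes, ∀ r ∈ planes, ∀ s t φ, U q s (U r t φ) = U r t (U q s φ)) :
    ∃ P : Fin 9 × Fin 9 → ℤ → V →ₗ[ℂ] V, (∀ q ∈ planes, Circ ι Ham (P q)) ∧
      (∀ q ∈ planes, ∀ n φ, J q (P q n φ) = (I * ((2 * Real.pi / p * n : ℝ) : ℂ)) • P q n φ) ∧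
      ∀ q ∈ planes, ∀ r ∈ planes, ∀ m n φ, P q m (P r n φ) = P r n (P q m φ) := by
  have h1 : ∀ q, ∃ P : ℤ → V →ₗ[ℂ] V, q ∈ planes → Grp ι (U q) P p ∧ Circ ι Ham P ∧
      ∀ n φ, J q (P n φ) = (2 * Real.pi * I * n / p) • P n φ := fun q => by
    by_cases hq : q ∈ planes
    · obtain ⟨P, hP⟩ := (hU q hq).exists_circ hι h.Ham_symm (hp q hq)
      exact ⟨P, fun _ => hP⟩
    · exact ⟨fun _ => 0, fun h' => absurd h' hq⟩
  choose P hP using h1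
  refine ⟨P, fun q hq => (hP q hq).2.1, fun q hq n φ => ?_, fun q hq r hr m n φ => ?_⟩
  · rw [(hP q hq).2.2]
    congr 1
    push_cast
    ring
  · exact P_comm (hP q hq).1 (hP r hr).1 hι (hc q hq r hr) m n φ

end abs

section literal

open Crest.Agent.R330.Defs478 Crest.Agent.R330.Dict416 Crest.Agent.R330.Sec478

variable {N : ℕ} {F : Type*} [NormedAddCommGroup F] [InnerProductSpace ℂ F]
  [FiniteDimensional ℂ F] {b : ColorBasis N} {M : FermionRep N F} {R : GaugeAction b M}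
  {G : GammaNine}

/-- **(GAP)** for the literal charges, from four commuting rotation groups of period `8 π`. -/
theorem gapZ_of_rot {g m : ℝ} (hm : 0 ≤ m) {Q : Fin 16 → core b R →ₗ[ℂ] core b R}
    (hQ : ∀ α φ, (Q α φ : Cfg N → F) = dcharge b M G g m α (φ : Cfg N → F))
    {Ham : core b R →ₗ[ℂ] core b R} {J : Fin 9 × Fin 9 → core b R →ₗ[ℂ] core b R}
    (h : Susy G m (ιC R) Q Ham J) {U : Fin 9 × Fin 9 → ℝ → core b R →ₗ[ℂ] core b R}
    (hU : ∀ q ∈ planes, Rot (ιC R) Ham (U q) (J q) (8 * Real.pi))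
    (hp : ∀ q ∈ planes, HasProj (ιC R) (U q) (8 * Real.pi))
    (hc : ∀ q ∈ planes, ∀ r ∈ planes, ∀ s t φ, U q s (U r t φ) = U r t (U q s φ))
    (hd : ∀ φ : core b R, ιC R φ ∈ closure (Set.range fun ψ => ιC R ψ + ιC R (Ham ψ))) :
    GapZ b M R G g m (m / 24) := by
  obtain ⟨P, h1, h2, h3⟩ := exists_P h ιC_injective hU hp hc
  have e : 2 * Real.pi / (8 * Real.pi) = 1 / 4 := by
    have := Real.pi_pos.ne'
    field_simp
    norm_num
  rw [e] at h2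
  have h4 := gapZ_of hm hQ h (η := 1 / 4) (by norm_num) (by norm_num) h1 h2 h3 hd
  have e2 : m * (1 / 4 / 6) = m / 24 := by ring
  rwa [e2] at h4

end literal

end Crest.Agent.R330.GapTor967

end
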