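import Crest.Agent.R330.Defs_478
import Crest.Agent.R330.Gam_962
import Crest.Agent.R330.Col_962

/-!
# Row 330, section 2: plane rotations and their spin lifts (helper149)

* `rotM r` : a `9 × 9` matrix acting on the spatial index of configurations.
* `dcharge_cov` : covariance of the charges `Q_α^{g,m}` under a triple `(r, C, E)`,
  `Σ_i r_{li} γ^i C = C γ^l`, `θ_β E = E Σ_δ C_{βδ} θ_δ`.
* `rp j k t` : the rotation of the plane `(j,k)`, `Cp G j k t = cos(t/2) + sin(t/2) γ^j γ^k`.
-/

set_option autoImplicit false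
set_option linter.unusedSectionVars false

open MeasureTheory Filter Topology Crest.MathPhysics.MatrixQM
open scoped ContDiff InnerProductSpace ENNReal

noncomputable section

namespace Crest.Agent.R330.Rot149

open Crest.Agent.R330.Defs478

variable {N : ℕ} {F : Type*} [NormedAddCommGroup F] [InnerProductSpace ℂ F]
  [FiniteDimensional ℂ F]

/-! ## Matrices acting on configurations -/

/-- A `9 × 9` matrix acting on the spatial index. -/
def rotM (r : Matrix (Fin 9) (Fin 9) ℝ) : Cfg N →ₗ[ℝ] Cfg N where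
  toFun x := WithLp.toLp 2 (fun iA => ∑ j, r iA.1 j * x (j, iA.2))
  map_add' x y := by
    ext iA
    simp [mul_add, Finset.sum_add_distrib]
  map_smul' c x := by
    ext iA
    simp only [PiLp.smul_apply, smul_eq_mul, RingHom.id_apply, Finset.mul_sum]
    exact Finset.sum_congr rfl fun j _ => by ring

theorem rotM_apply (r : Matrix (Fin 9) (Fin 9) ℝ) (x : Cfg N) (l : Fin 9)
    (A : Fin (N ^ 2 - 1)) : rotM r x (l, A) = ∑ i, r l i * x (i, A) := rfl





theorem rotM_single (r : Matrix (Fin 9) (Fin 9) ℝ) (i : Fin 9) (A : Fin (N ^ 2 - 1)) :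
    rotM r (EuclideanSpace.single (i, A) (1 : ℝ)) =
      ∑ l, r l i • (EuclideanSpace.single (l, A) (1 : ℝ) : Cfg N) := by
  ext ⟨l, B⟩
  simp only [rotM_apply, PiLp.single_apply, Prod.mk.injEq, mul_ite, mul_one, mul_zero,
    WithLp.ofLp_sum, Finset.sum_apply, smul_eq_mul, WithLp.ofLp_smul,
    Pi.smul_apply]
  by_cases h : B = A
  · simp [h]
  · simp [h]






/-! ## Covariance of the charges -/

/-- `γ(u) = Σ_i u_i γ^i`. -/
def gu (G : GammaNine) (u : Fin 9 → ℝ) : Matrix (Fin 16) (Fin 16) ℝ := ∑ i, u i • G.γ i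

theorem gu_cov {G : GammaNine} {r : Matrix (Fin 9) (Fin 9) ℝ} {C : Matrix (Fin 16) (Fin 16) ℝ}
    (hr : r.transpose * r = 1) (hC : ∀ l, ∑ i, r l i • (G.γ i * C) = C * G.γ l)
    (u : Fin 9 → ℝ) : gu G u * C = C * gu G (r.mulVec u) := by
  have h : ∀ i j, ∑ l, r l i * r l j = if i = j then 1 else 0 := fun i j => by
    have := congrFun (congrFun hr i) j
    simpa [Matrix.mul_apply, Matrix.one_apply] using this
  unfold gu
  rw [Finset.sum_mul, Finset.mul_sum]
  simp only [Matrix.smul_mul, Matrix.mul_smul, ← hC, Finset.smul_sum, smul_smul]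
  rw [Finset.sum_comm]
  refine Finset.sum_congr rfl fun i _ => ?_
  rw [← Finset.sum_smul]
  congr 1
  simp only [Matrix.mulVec, dotProduct, Finset.sum_mul]
  rw [Finset.sum_comm]
  have h2 : ∀ j, ∑ l, r l j * u j * r l i = if j = i then u j else 0 := fun j => by
    have h3 : ∑ l, r l j * u j * r l i = (∑ l, r l j * r l i) * u j := by
      rw [Finset.sum_mul]
      exact Finset.sum_congr rfl fun l _ => by ring
    rw [h3, h]
    split_ifs <;> simp
  simp only [h2, Finset.sum_ite_eq', Finset.mem_univ, if_true]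

/-- The potential matrix in terms of `γ(u)`. -/
theorem wpot_eq (b : ColorBasis N) (G : GammaNine) (g m : ℝ) (A : Fin (N ^ 2 - 1)) (x : Cfg N) :
    (Matrix.of fun α β => wpot b G g m α β A x) =
      (g * (1 / 4)) • (∑ B, ∑ C, b.structConst A B C •
        (gu G (fun i => x (i, B)) * gu G (fun i => x (i, C)) -
          gu G (fun i => x (i, C)) * gu G (fun i => x (i, B)))) -
      m • (Gam G * gu G (fun i => cc i * x (i, A))) := by
  ext α β
  simp only [Matrix.of_apply, wpot, Matrix.sub_apply, Matrix.smul_apply, smul_eq_mul]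
  congr 1
  · rw [mul_assoc]
    congr 1
    simp only [Matrix.sum_apply, Finset.mul_sum, Matrix.smul_apply, smul_eq_mul]
    refine Finset.sum_congr rfl fun B _ => Finset.sum_congr rfl fun C _ => ?_
    have h1 : ∀ B C, (gu G (fun i => x (i, B)) * gu G (fun i => x (i, C))) α β =
        ∑ i, ∑ j, x (i, B) * x (j, C) * (G.γ i * G.γ j) α β := fun B C => by
      unfold gu
      rw [Finset.sum_mul, Matrix.sum_apply]
      refine Finset.sum_congr rfl fun i _ => ?_
      rw [Finset.mul_sum, Matrix.sum_apply]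
      refine Finset.sum_congr rfl fun j _ => ?_
      rw [Matrix.smul_mul, Matrix.mul_smul, Matrix.smul_apply, Matrix.smul_apply, smul_eq_mul,
        smul_eq_mul]
      ring
    rw [Matrix.sub_apply, h1, h1]
    rw [Finset.sum_comm (f := fun i j => x (i, C) * x (j, B) * (G.γ i * G.γ j) α β)]
    rw [← Finset.sum_sub_distrib, Finset.mul_sum, Finset.mul_sum]
    refine Finset.sum_congr rfl fun i _ => ?_
    rw [← Finset.sum_sub_distrib, Finset.mul_sum, Finset.mul_sum]
    refine Finset.sum_congr rfl fun j _ => ?_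
    simp only [GammaNine.γ2, Matrix.smul_apply, Matrix.sub_apply, smul_eq_mul]
    ring
  · congr 1
    unfold gu
    rw [Finset.mul_sum, Matrix.sum_apply]
    refine Finset.sum_congr rfl fun j _ => ?_
    rw [Matrix.mul_smul, Matrix.smul_apply, smul_eq_mul]

/-- Covariance of the potential matrix. -/
theorem wpot_cov (b : ColorBasis N) {G : GammaNine} (g m : ℝ) {r : Matrix (Fin 9) (Fin 9) ℝ}
    {C : Matrix (Fin 16) (Fin 16) ℝ}
    (hr : r.transpose * r = 1) (hC : ∀ l, ∑ i, r l i • (G.γ i * C) = C * G.γ l)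
    (hΓ : m = 0 ∨ Gam G * C = C * Gam G)
    (hc : m = 0 ∨ ∀ l i, cc l * r l i = r l i * cc i)
    (α δ : Fin 16) (A : Fin (N ^ 2 - 1)) (x : Cfg N) :
    ∑ β, wpot b G g m α β A x * C β δ = ∑ β, C α β * wpot b G g m β δ A (rotM r x) := by
  have key : (Matrix.of fun α β => wpot b G g m α β A x) * C =
      C * (Matrix.of fun α β => wpot b G g m α β A (rotM r x)) := by
    rw [wpot_eq, wpot_eq]
    have hg : ∀ B, gu G (fun i => x (i, B)) * C =
        C * gu G (fun i => (rotM r x : Cfg N) (i, B)) := fun B =>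
      gu_cov hr hC fun i => x (i, B)
    have hgg : ∀ B D, gu G (fun i => x (i, B)) * gu G (fun i => x (i, D)) * C =
        C * (gu G (fun i => (rotM r x : Cfg N) (i, B)) *
          gu G (fun i => (rotM r x : Cfg N) (i, D))) := fun B D => by
      rw [Matrix.mul_assoc, hg D, ← Matrix.mul_assoc, hg B, Matrix.mul_assoc]
    rw [Matrix.sub_mul, Matrix.mul_sub]
    congr 1
    · rw [Matrix.smul_mul, Matrix.mul_smul]
      congr 1
      rw [Finset.sum_mul, Finset.mul_sum]
      refine Finset.sum_congr rfl fun B _ => ?_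
      rw [Finset.sum_mul, Finset.mul_sum]
      refine Finset.sum_congr rfl fun D _ => ?_
      rw [Matrix.smul_mul, Matrix.mul_smul, Matrix.sub_mul, hgg B D, hgg D B, Matrix.mul_sub]
    · rw [Matrix.smul_mul, Matrix.mul_smul]
      rcases hΓ with h0 | hΓ
      · simp [h0]
      rcases hc with h0 | hc
      · simp [h0]
      congr 1
      rw [Matrix.mul_assoc, gu_cov hr hC, ← Matrix.mul_assoc, hΓ, Matrix.mul_assoc]
      congr 3
      funext l
      simp only [Matrix.mulVec, dotProduct, rotM_apply, Finset.mul_sum]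
      refine Finset.sum_congr rfl fun i _ => ?_
      rw [← mul_assoc, ← mul_assoc, hc]
  have := congrFun (congrFun key α) δ
  simpa [Matrix.mul_apply] using this

theorem sum4 {ι κ κ' μ : Type*} [Fintype ι] [Fintype κ] [Fintype κ'] [Fintype μ] {V : Type*}
    [AddCommMonoid V] (f : ι → κ → κ' → μ → V) :
    ∑ i, ∑ j, ∑ k, ∑ l, f i j k l = ∑ l, ∑ k, ∑ i, ∑ j, f i j k l := by
  calc ∑ i, ∑ j, ∑ k, ∑ l, f i j k l = ∑ i, ∑ k, ∑ j, ∑ l, f i j k l :=
        Finset.sum_congr rfl fun i _ => Finset.sum_comm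
    _ = ∑ k, ∑ i, ∑ j, ∑ l, f i j k l := Finset.sum_comm
    _ = ∑ k, ∑ i, ∑ l, ∑ j, f i j k l :=
        Finset.sum_congr rfl fun k _ => Finset.sum_congr rfl fun i _ => Finset.sum_comm
    _ = ∑ k, ∑ l, ∑ i, ∑ j, f i j k l := Finset.sum_congr rfl fun k _ => Finset.sum_comm
    _ = ∑ l, ∑ k, ∑ i, ∑ j, f i j k l := Finset.sum_comm

theorem sum4' {ι κ κ' μ : Type*} [Fintype ι] [Fintype κ] [Fintype κ'] [Fintype μ] {V : Type*}
    [AddCommMonoid V] (f : ι → κ → κ' → μ → V) :
    ∑ i, ∑ j, ∑ k, ∑ l, f i j k l = ∑ k, ∑ j, ∑ l, ∑ i, f i j k l := by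
  calc ∑ i, ∑ j, ∑ k, ∑ l, f i j k l = ∑ j, ∑ i, ∑ k, ∑ l, f i j k l := Finset.sum_comm
    _ = ∑ j, ∑ k, ∑ i, ∑ l, f i j k l := Finset.sum_congr rfl fun j _ => Finset.sum_comm
    _ = ∑ k, ∑ j, ∑ i, ∑ l, f i j k l := Finset.sum_comm
    _ = ∑ k, ∑ j, ∑ l, ∑ i, f i j k l :=
        Finset.sum_congr rfl fun k _ => Finset.sum_congr rfl fun j _ => Finset.sum_comm

/-- **Covariance of the charges** `Q_α^{g,m}`. -/
theorem dcharge_cov (b : ColorBasis N) (M : FermionRep N F) {G : GammaNine} (g m : ℝ)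
    {r : Matrix (Fin 9) (Fin 9) ℝ} {C : Matrix (Fin 16) (Fin 16) ℝ} {E : F →L[ℂ] F}
    (hr : r.transpose * r = 1) (hC : ∀ l, ∑ i, r l i • (G.γ i * C) = C * G.γ l)
    (hΓ : m = 0 ∨ Gam G * C = C * Gam G)
    (hc : m = 0 ∨ ∀ l i, cc l * r l i = r l i * cc i)
    (hE : ∀ β A v, M.θ β A (E v) = E (∑ δ, (C β δ : ℂ) • M.θ δ A v))
    {φ : Cfg N → F} {x : Cfg N} (hφ : DifferentiableAt ℝ φ (rotM r x)) (α : Fin 16) :
    dcharge b M G g m α (fun x => E (φ (rotM r x))) x =
      ∑ δ, (C α δ : ℂ) • E (dcharge b M G g m δ φ (rotM r x)) := by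
  have hfd : ∀ v, fderiv ℝ (fun x => E (φ (rotM r x))) x v =
      E (fderiv ℝ φ (rotM r x) (rotM r v)) := fun v => by
    have h1 : HasFDerivAt (fun x : Cfg N => rotM r x) (LinearMap.toContinuousLinearMap (rotM r)) x :=
      (LinearMap.toContinuousLinearMap (rotM r : Cfg N →ₗ[ℝ] Cfg N)).hasFDerivAt
    have h2 : HasFDerivAt (fun x : Cfg N => φ (rotM r x)) _ x :=
      hφ.hasFDerivAt.comp x h1
    have h3 : HasFDerivAt (fun x : Cfg N => E (φ (rotM r x))) _ x :=
      (E.restrictScalars ℝ).hasFDerivAt.comp x h2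
    rw [h3.fderiv]
    rfl
  unfold dcharge kin
  simp only [smul_add, map_add, Finset.sum_add_distrib]
  congr 1
  · -- kinetic part
    set D : Fin 9 → Fin (N ^ 2 - 1) → F :=
      fun l A => fderiv ℝ φ (rotM r x) (EuclideanSpace.single (l, A) 1) with hD
    have hL : ∀ i A, fderiv ℝ (fun x => E (φ (rotM r x))) x (EuclideanSpace.single (i, A) 1) =
        E (∑ l, (r l i : ℂ) • D l A) := fun i A => by
      rw [hfd, rotM_single, map_sum]
      congr 1
      refine Finset.sum_congr rfl fun l _ => ?_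
      rw [map_smul, hD]
      exact (Complex.coe_smul _ _).symm
    have hcoef : ∀ l δ, (∑ i, ∑ β, r l i * (G.γ i α β * C β δ)) = ∑ β, C α β * G.γ l β δ :=
      fun l δ => by
        have h := congrFun (congrFun (hC l) α) δ
        simpa only [Matrix.sum_apply, Matrix.smul_apply, smul_eq_mul, Matrix.mul_apply,
          Finset.mul_sum] using h
    have hLHS : (∑ i, ∑ A, ∑ β, (-Complex.I * (G.γ i α β : ℂ)) •
        M.θ β A (fderiv ℝ (fun x => E (φ (rotM r x))) x (EuclideanSpace.single (i, A) 1))) =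
        ∑ A, ∑ l, ∑ δ, (-Complex.I * ((∑ i, ∑ β, r l i * (G.γ i α β * C β δ) : ℝ) : ℂ)) •
          E (M.θ δ A (D l A)) := by
      rw [Finset.sum_comm]
      refine Finset.sum_congr rfl fun A _ => ?_
      simp only [hL, hE, map_sum, map_smul, Finset.smul_sum, smul_smul]
      rw [sum4, Finset.sum_comm]
      refine Finset.sum_congr rfl fun l _ => ?_
      refine Finset.sum_congr rfl fun δ _ => ?_
      push_cast
      simp only [Finset.mul_sum, Finset.sum_smul]
      refine Finset.sum_congr rfl fun i _ => Finset.sum_congr rfl fun β _ => ?_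
      congr 1
      ring
    have hRHS : (∑ δ, (C α δ : ℂ) • E (∑ i, ∑ A, ∑ β, (-Complex.I * (G.γ i δ β : ℂ)) •
        M.θ β A (D i A))) =
        ∑ A, ∑ l, ∑ δ, (-Complex.I * ((∑ β, C α β * G.γ l β δ : ℝ) : ℂ)) •
          E (M.θ δ A (D l A)) := by
      simp only [map_sum, map_smul, Finset.smul_sum, smul_smul]
      rw [sum4']
      refine Finset.sum_congr rfl fun A _ => Finset.sum_congr rfl fun l _ =>
        Finset.sum_congr rfl fun β _ => ?_
      push_cast
      simp only [Finset.mul_sum, Finset.sum_smul]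
      refine Finset.sum_congr rfl fun δ _ => ?_
      congr 1
      ring
    rw [hLHS, hRHS]
    simp only [hcoef]
  · simp only [map_sum, map_smul, Finset.smul_sum, smul_smul, hE]
    rw [Finset.sum_comm (s := Finset.univ (α := Fin 16)) (t := Finset.univ (α := Fin (N ^ 2 - 1)))]
    refine Finset.sum_congr rfl fun A _ => ?_
    rw [Finset.sum_comm]
    conv_rhs => rw [Finset.sum_comm]
    refine Finset.sum_congr rfl fun δ _ => ?_
    rw [← Finset.sum_smul, ← Finset.sum_smul]
    congr 1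
    have h := wpot_cov b g m hr hC hΓ hc α δ A x
    exact_mod_cast h

/-! ## Plane rotations -/

/-- Projection on the plane `(j,k)`. -/
def PP (j k : Fin 9) : Matrix (Fin 9) (Fin 9) ℝ := Matrix.single j j 1 + Matrix.single k k 1

/-- Generator of the rotations of the plane `(j,k)`. -/
def KK (j k : Fin 9) : Matrix (Fin 9) (Fin 9) ℝ := Matrix.single k j 1 - Matrix.single j k 1


section plane

variable {j k : Fin 9}


theorem PP_mul_KK (h : j ≠ k) : PP j k * KK j k = KK j k := by
  simp [PP, KK, add_mul, mul_sub, Matrix.single_mul_single_of_ne, h, h.symm]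


theorem KK_mul_KK (h : j ≠ k) : KK j k * KK j k = - PP j k := by
  simp [PP, KK, sub_mul, mul_sub, Matrix.single_mul_single_of_ne, h, h.symm]
  abel










end plane

/-- `cos(t/2) + sin(t/2) γ^j γ^k`. -/
def Cp (G : GammaNine) (j k : Fin 9) (t : ℝ) : Matrix (Fin 16) (Fin 16) ℝ :=
  Real.cos (t / 2) • 1 + Real.sin (t / 2) • (G.γ j * G.γ k)

section Cp

open Crest.Agent.R330.Gam962

variable (G : GammaNine) {j k : Fin 9}

theorem gjk_sq (h : j ≠ k) : (G.γ j * G.γ k) * (G.γ j * G.γ k) = -1 := by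
  calc (G.γ j * G.γ k) * (G.γ j * G.γ k) = G.γ j * (G.γ k * G.γ j) * G.γ k := by
        simp only [Matrix.mul_assoc]
    _ = - ((G.γ j * G.γ j) * (G.γ k * G.γ k)) := by
        rw [anti G h.symm]
        simp only [Matrix.mul_neg, Matrix.neg_mul, Matrix.mul_assoc]
    _ = -1 := by rw [sq_one, sq_one, Matrix.one_mul]

theorem gjk_transpose (h : j ≠ k) : (G.γ j * G.γ k).transpose = - (G.γ j * G.γ k) := by
  rw [Matrix.transpose_mul, G.symm, G.symm, anti G h.symm]





theorem gl_gjk {l : Fin 9} (hj : l ≠ j) (hk : l ≠ k) :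
    G.γ l * (G.γ j * G.γ k) = (G.γ j * G.γ k) * G.γ l := by
  rw [← Matrix.mul_assoc, anti G hj, Matrix.neg_mul, Matrix.mul_assoc, anti G hk, Matrix.mul_neg,
    neg_neg, Matrix.mul_assoc]

theorem Cp_zero : Cp G j k 0 = 1 := by
  simp [Cp]

theorem Cp_mul (h : j ≠ k) (s t : ℝ) : Cp G j k s * Cp G j k t = Cp G j k (s + t) := by
  simp only [Cp, add_mul, mul_add, one_mul, mul_one, smul_mul_assoc, mul_smul_comm,
    gjk_sq G h, add_div, Real.cos_add, Real.sin_add]
  module

theorem Cp_transpose (h : j ≠ k) (t : ℝ) : (Cp G j k t).transpose = Cp G j k (-t) := by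
  simp only [Cp, Matrix.transpose_add, Matrix.transpose_smul, Matrix.transpose_one,
    gjk_transpose G h, neg_div, Real.cos_neg, Real.sin_neg]
  module

theorem Cp_orth (h : j ≠ k) (t : ℝ) : (Cp G j k t).transpose * Cp G j k t = 1 := by
  rw [Cp_transpose G h, Cp_mul G h, neg_add_cancel, Cp_zero]



end Cp

end Crest.Agent.R330.Rot149

end
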