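import Crest.Agent.R330.Sym3_613
import Crest.Agent.R330.Haar_596
import Crest.Agent.R330.GapTor_967
import Crest.Agent.R330.Rot_149
import Crest.Agent.R330.SDefs_726
import Crest.Agent.R330.Lift_406
import Crest.Agent.R330.Per_967

-- ▼ part R330/Proj_967
section

/-!
# Row 330 (helper967): weight components of core vectors are core vectors

`hasProj_U` : `HasProj (ιC R) (Uc a) p` for the group `Uc a t φ = U M G a t φ` on the core.
-/

set_option autoImplicit false
set_option linter.unusedSectionVars false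

open MeasureTheory Filter Topology Set Crest.MathPhysics.MatrixQM
open scoped InnerProductSpace ContDiff ENNReal

noncomputable section

namespace Crest.Agent.R330.Proj967

open Crest.Agent.R330.SDefs726 Crest.Agent.R330.Sym613 Crest.Agent.R330.GapAbs967
open Crest.Agent.R330.Defs478 Crest.Agent.R330.Dict416 Crest.Agent.R330.GapTor967

variable {N : ℕ} {F : Type} [NormedAddCommGroup F] [InnerProductSpace ℂ F]
  [FiniteDimensional ℂ F] {b : ColorBasis N} {M : FermionRep N F} {R : GaugeAction b M}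
  {G : GammaNine} {a : Matrix (Fin 9) (Fin 9) ℝ}

/-! ## 1. Continuity -/

theorem continuous_eS : Continuous (eS M G a) :=
  continuous_clm_apply.2 fun v => eS_continuous v

/-- the rotation as a continuous linear map -/
def Lc (a : Matrix (Fin 9) (Fin 9) ℝ) (t : ℝ) : Cfg N →L[ℝ] Cfg N :=
  LinearMap.toContinuousLinearMap (vfL (me a t))


theorem continuous_Lc : Continuous (Lc (N := N) a) :=
  continuous_clm_apply.2 fun x =>
    continuous_iff_continuousAt.2 fun t => (vf_hasDerivAt (a := a) t x).continuousAt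

theorem continuous_U_joint {ψ : Cfg N → F} (h : Continuous ψ) :
    Continuous fun q : ℝ × Cfg N => U M G a q.1 ψ q.2 :=
  (continuous_eS.comp continuous_fst).clm_apply
    (h.comp ((continuous_Lc.comp continuous_fst).clm_apply continuous_snd))

/-- the weight component -/
def comp (M : FermionRep N F) (G : GammaNine) (a : Matrix (Fin 9) (Fin 9) ℝ) (p : ℝ) (n : ℤ)
    (ψ : Cfg N → F) (x : Cfg N) : F :=
  (1 / (p : ℂ)) • ∫ t in (0 : ℝ)..p, ch p (-n) t • U M G a t ψ x

theorem comp_contDiff {p : ℝ} (hp : 0 ≤ p) (n : ℤ) {ψ : Cfg N → F} (h : ContDiff ℝ ∞ ψ) :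
    ContDiff ℝ ∞ (comp M G a p n ψ) := by
  set μ : Measure (Set.Icc (0 : ℝ) p) := Measure.comap Subtype.val volume with hμ
  have hfin : IsFiniteMeasure μ := ⟨by
    rw [hμ, (MeasurableEmbedding.subtype_coe measurableSet_Icc).comap_apply]
    refine (measure_mono (Subtype.coe_image_subset _ _)).trans_lt ?_
    rw [Real.volume_Icc]
    exact ENNReal.ofReal_lt_top⟩
  have h1 : ContDiff ℝ ∞ fun x : Cfg N => ∫ t : Set.Icc (0 : ℝ) p,
      (ch p (-n) t • (eS M G a t).restrictScalars ℝ : F →L[ℝ] F) (ψ (Lc a (t : ℝ) x)) ∂μ := by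
    rw [contDiff_infty]
    intro k
    refine Haar596.contDiff_avgR (μ := μ)
      (fun t : Set.Icc (0 : ℝ) p => Lc a (t : ℝ)) (continuous_Lc.comp continuous_subtype_val) k
      (fun t : Set.Icc (0 : ℝ) p => ch p (-n) t • (eS M G a t).restrictScalars ℝ) ?_ ψ
      ((contDiff_infty.1 h) k)
    exact ((ch_cont p (-n)).comp continuous_subtype_val).smul
      (((ContinuousLinearMap.restrictScalarsL ℂ F F ℝ ℝ).continuous.comp continuous_eS).comp
        continuous_subtype_val)
  have h2 : comp M G a p n ψ = fun x => (1 / (p : ℂ)) • ∫ t : Set.Icc (0 : ℝ) p,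
      (ch p (-n) t • (eS M G a t).restrictScalars ℝ : F →L[ℝ] F) (ψ (Lc a (t : ℝ) x)) ∂μ := by
    funext x
    unfold comp
    rw [intervalIntegral.integral_of_le hp, ← integral_Icc_eq_integral_Ioc,
      ← integral_subtype_comap measurableSet_Icc (fun t : ℝ => ch p (-n) t • U M G a t ψ x)]
    rfl
  rw [h2]
  exact contDiff_const.smul h1

theorem comp_supp (ha : a.transpose = -a) {p : ℝ} (n : ℤ) {ψ : Cfg N → F}
    (h : HasCompactSupport ψ) : HasCompactSupport (comp M G a p n ψ) := by
  obtain ⟨r, hr⟩ := h.isCompact.isBounded.subset_closedBall (0 : Cfg N)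
  refine HasCompactSupport.of_support_subset_isCompact (isCompact_closedBall (0 : Cfg N) r) ?_
  intro x hx
  by_contra h'
  apply hx
  have h0 : ∀ t : ℝ, U M G a t ψ x = 0 := fun t => by
    rw [U_apply]
    have h1 : vf (me a t) x ∉ tsupport ψ := fun h2 => h' (by
      have h3 := hr h2
      rwa [mem_closedBall_zero_iff, norm_vf_me ha, ← mem_closedBall_zero_iff] at h3)
    rw [image_eq_zero_of_notMem_tsupport h1, map_zero]
  unfold comp
  simp only [h0, smul_zero, intervalIntegral.integral_zero]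

theorem comp_core (ha : a.transpose = -a) {p : ℝ} (hp : 0 ≤ p) (n : ℤ) {ψ : Cfg N → F}
    (h : IsCoreVec b R ψ) : IsCoreVec b R (comp M G a p n ψ) := by
  refine ⟨comp_contDiff hp n h.1, comp_supp ha n h.2.1, fun g x => ?_⟩
  unfold comp
  rw [map_smul]
  congr 1
  have hU : ∀ t, U M G a t ψ (b.act g x) = R.ρ g (U M G a t ψ x) := fun t =>
    (core_U ha t h).2.2 g x
  simp only [hU]
  have h1 := (LinearMap.toContinuousLinearMap (R.ρ g : F →ₗ[ℂ] F)).intervalIntegral_comp_comm
    (μ := volume) (a := (0 : ℝ)) (b := p) (f := fun t => ch p (-n) t • U M G a t ψ x) ?_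
  · rw [LinearMap.coe_toContinuousLinearMap'] at h1
    rw [← h1]
    refine intervalIntegral.integral_congr fun t _ => ?_
    show ch p (-n) t • R.ρ g (U M G a t ψ x) = R.ρ g (ch p (-n) t • U M G a t ψ x)
    rw [map_smul]
  · refine Continuous.intervalIntegrable ?_ _ _
    exact (ch_cont p (-n)).smul ((continuous_U_joint h.1.continuous).comp
      (continuous_id.prodMk continuous_const))

theorem comp_inner (ha : a.transpose = -a) {p : ℝ} (hp : 0 ≤ p) (n : ℤ) {φ ψ : Cfg N → F}
    (hφ : Continuous φ) (hφc : HasCompactSupport φ) (hψ : Continuous ψ) :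
    ∫ x, ⟪φ x, comp M G a p n ψ x⟫_ℂ =
      mean p (fun t => ch p (-n) t * ∫ x, ⟪φ x, U M G a t ψ x⟫_ℂ) := by
  have hf : Continuous fun q : Cfg N × ℝ => ch p (-n) q.2 * ⟪φ q.1, U M G a q.2 ψ q.1⟫_ℂ :=
    ((ch_cont p (-n)).comp continuous_snd).mul ((hφ.comp continuous_fst).inner
      ((continuous_U_joint hψ).comp continuous_swap))
  set K : Set (Cfg N) := tsupport φ with hK
  have hKc : IsCompact K := hφc
  have hz : ∀ x, x ∉ K → φ x = 0 := fun x hx => image_eq_zero_of_notMem_tsupport hx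
  have e1 : ∀ x, ⟪φ x, comp M G a p n ψ x⟫_ℂ =
      (1 / (p : ℂ)) * ∫ t in Set.Ioc (0 : ℝ) p, ch p (-n) t * ⟪φ x, U M G a t ψ x⟫_ℂ := by
    intro x
    unfold comp
    rw [inner_smul_right, intervalIntegral.integral_of_le hp]
    congr 1
    have h1 := (innerSL ℂ (φ x)).integral_comp_comm
      (μ := volume.restrict (Set.Ioc (0 : ℝ) p)) (φ := fun t => ch p (-n) t • U M G a t ψ x) ?_
    · simp only [innerSL_apply_apply] at h1
      rw [← h1]
      refine integral_congr_ae (Eventually.of_forall fun t => ?_)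
      show ⟪φ x, ch p (-n) t • U M G a t ψ x⟫_ℂ = _
      rw [inner_smul_right]
    · have h2 : Continuous fun t => ch p (-n) t • U M G a t ψ x :=
        (ch_cont p (-n)).smul ((continuous_U_joint hψ).comp
          (continuous_id.prodMk continuous_const))
      exact (h2.continuousOn.integrableOn_compact isCompact_Icc).mono_set Set.Ioc_subset_Icc_self
  have e2 : ∫ x, ⟪φ x, comp M G a p n ψ x⟫_ℂ = ∫ x in K, ⟪φ x, comp M G a p n ψ x⟫_ℂ :=
    (setIntegral_eq_integral_of_forall_compl_eq_zero fun x hx => by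
      rw [hz x hx, inner_zero_left]).symm
  have e3 : ∀ t, ∫ x in K, ch p (-n) t * ⟪φ x, U M G a t ψ x⟫_ℂ =
      ch p (-n) t * ∫ x, ⟪φ x, U M G a t ψ x⟫_ℂ := fun t => by
    rw [integral_const_mul]
    congr 1
    exact setIntegral_eq_integral_of_forall_compl_eq_zero fun x hx => by
      rw [hz x hx, inner_zero_left]
  have hint : Integrable (Function.uncurry fun (x : Cfg N) (t : ℝ) =>
      ch p (-n) t * ⟪φ x, U M G a t ψ x⟫_ℂ)
      ((volume.restrict K).prod (volume.restrict (Set.Ioc (0 : ℝ) p))) := by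
    rw [Measure.prod_restrict]
    have h1 : IntegrableOn (fun q : Cfg N × ℝ => ch p (-n) q.2 * ⟪φ q.1, U M G a q.2 ψ q.1⟫_ℂ)
        (K ×ˢ Set.Icc (0 : ℝ) p) (volume.prod volume) :=
      hf.continuousOn.integrableOn_compact (hKc.prod isCompact_Icc)
    exact h1.mono_set (Set.prod_mono le_rfl Set.Ioc_subset_Icc_self)
  rw [e2]
  simp only [e1]
  rw [integral_const_mul, integral_integral_swap hint]
  simp only [e3]
  unfold mean
  rw [intervalIntegral.integral_of_le hp]

/-! ## 2. The group on the core -/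

variable (R G a) in
/-- The group `U_a` on the core. -/
def Uc (ha : a.transpose = -a) (t : ℝ) : core b R →ₗ[ℂ] core b R where
  toFun φ := ⟨U M G a t φ.1, core_U ha t φ.2⟩
  map_add' φ ψ := Subtype.ext (U_add_fun t φ.1 ψ.1)
  map_smul' c φ := Subtype.ext (U_smul_fun t c φ.1)

theorem Uc_coe (ha : a.transpose = -a) (t : ℝ) (φ : core b R) :
    (Uc R G a ha t φ : Cfg N → F) = U M G a t φ.1 := rfl

/-- **Weight components of core vectors are core vectors.** -/
theorem hasProj_U (ha : a.transpose = -a) {p : ℝ} (hp : 0 ≤ p) :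
    HasProj (ιC R) (Uc R G a ha) p := by
  intro n ψ
  refine ⟨⟨comp M G a p n ψ.1, comp_core ha hp n ψ.2⟩, fun φ => ?_⟩
  simp only [inner_ιC, Uc_coe]
  exact comp_inner ha hp n φ.2.1.continuous φ.2.2.1 ψ.2.1.continuous

end Crest.Agent.R330.Proj967

end
end

-- ▼ part R330/TorA_149
section

/-!
# Row 330, section 2: the spin lifts of the plane rotations (helper149)

`eS M G (rot j k) t` (726) intertwines the fermions by `Cp G j k t`, is unitary, commutes with the
gauge action and with the lifts of the other planes.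
-/

set_option autoImplicit false
set_option linter.unusedSectionVars false
set_option linter.style.haveILetI false

open MeasureTheory Filter Topology Crest.MathPhysics.MatrixQM
open scoped ContDiff InnerProductSpace ENNReal
open NormedSpace (exp)

noncomputable section

namespace Crest.Agent.R330.TorA149

open Crest.Agent.R330.Defs478 Crest.Agent.R330.Rot149 Crest.Agent.R330.SDefs726
  Crest.Agent.R330.Lift406 Crest.Agent.R330.Gam962

variable {N : ℕ} {F : Type*} [NormedAddCommGroup F] [InnerProductSpace ℂ F]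
  [FiniteDimensional ℂ F]

/-! ## Abstract lemmas -/

section abstractAlg

variable {𝔸 : Type*} [NormedRing 𝔸] [NormedAlgebra ℝ 𝔸] [CompleteSpace 𝔸]

theorem rot_intertwine (B X Y : 𝔸) (h1 : B * X - X * B = -((1 / 2 : ℝ) • Y))
    (h2 : B * Y - Y * B = (1 / 2 : ℝ) • X) (t : ℝ) :
    X * exp (t • B) = exp (t • B) * (Real.cos (t / 2) • X + Real.sin (t / 2) • Y) := by
  set f : ℝ → 𝔸 := fun t => exp (t • B) * (Real.cos (t / 2) • X + Real.sin (t / 2) • Y) *
    exp (-(t • B)) with hf
  have hd : ∀ t, HasDerivAt f 0 t := by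
    intro t
    have e1 : HasDerivAt (fun u : ℝ => exp (u • B)) (exp (t • B) * B) t :=
      hasDerivAt_exp_smul_const B t
    have e2 : HasDerivAt (fun u : ℝ => exp (u • (-B))) ((-B) * exp (t • (-B))) t :=
      hasDerivAt_exp_smul_const' (-B) t
    have e3 : HasDerivAt (fun u : ℝ => Real.cos (u / 2)) (-Real.sin (t / 2) * (1 / 2)) t :=
      ((hasDerivAt_id t).div_const 2).cos
    have e4 : HasDerivAt (fun u : ℝ => Real.sin (u / 2)) (Real.cos (t / 2) * (1 / 2)) t :=
      ((hasDerivAt_id t).div_const 2).sin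
    have e5 : HasDerivAt (fun u : ℝ => Real.cos (u / 2) • X + Real.sin (u / 2) • Y)
        ((-Real.sin (t / 2) * (1 / 2)) • X + (Real.cos (t / 2) * (1 / 2)) • Y) t :=
      (e3.smul_const X).add (e4.smul_const Y)
    have e6 := (e1.mul e5).mul e2
    refine (e6.congr_deriv ?_).congr_of_eventuallyEq (Eventually.of_forall fun u => ?_)
    · have hX : B * X = X * B - (1 / 2 : ℝ) • Y := by rw [sub_eq_iff_eq_add.1 h1]; abel
      have hY : B * Y = Y * B + (1 / 2 : ℝ) • X := by rw [← h2]; abel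
      have h3 : B * (Real.cos (t / 2) • X + Real.sin (t / 2) • Y) =
          (Real.cos (t / 2) • X + Real.sin (t / 2) • Y) * B -
          ((-Real.sin (t / 2) * (1 / 2)) • X + (Real.cos (t / 2) * (1 / 2)) • Y) := by
        simp only [mul_add, add_mul, mul_smul_comm, smul_mul_assoc, hX, hY]
        module
      simp only [Pi.mul_apply]
      rw [mul_assoc (exp (t • B)) B, h3]
      noncomm_ring
    · simp [hf]
  have hc := is_const_of_deriv_eq_zero (fun x => (hd x).differentiableAt) (fun x => (hd x).deriv) t 0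
  have h0 : f 0 = X := by simp [hf]
  rw [h0] at hc
  calc X * exp (t • B) = f t * exp (t • B) := by rw [hc]
    _ = exp (t • B) * (Real.cos (t / 2) • X + Real.sin (t / 2) • Y) *
        (exp (-(t • B)) * exp (t • B)) := by simp only [hf, mul_assoc]
    _ = _ := by rw [exp_neg_mul_exp, mul_one]

theorem commute_exp {B X : 𝔸} (h : X * B = B * X) (t : ℝ) :
    X * exp (t • B) = exp (t • B) * X := by
  letI : NormedAlgebra ℚ 𝔸 := NormedAlgebra.restrictScalars ℚ ℝ 𝔸
  have h1 : Commute X (t • B) := (show Commute X B from h).smul_right t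
  exact h1.exp_right

end abstractAlg

/-! ## The spin generator of a plane -/

/-- The generator `(1/4) θ γ^j γ^k θ` as a continuous operator. -/
def SC (M : FermionRep N F) (G : GammaNine) (j k : Fin 9) : F →L[ℂ] F :=
  LinearMap.toContinuousLinearMap (Sp M G (rot j k))

theorem SC_apply (M : FermionRep N F) (G : GammaNine) (j k : Fin 9) (v : F) :
    SC M G j k v = Sp M G (rot j k) v := rfl

theorem Sp_rot (M : FermionRep N F) {G : GammaNine} {j k : Fin 9} (h : j ≠ k) (v : F) :
    Sp M G (rot j k) v = (1 / 4 : ℂ) • ∑ A : Fin (N ^ 2 - 1), ∑ α : Fin 16, ∑ β : Fin 16,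
      (((G.γ j * G.γ k) α β : ℝ) : ℂ) • M.θ α A (M.θ β A v) := by
  set X : Fin 9 → Fin 9 → F := fun i l => ∑ A : Fin (N ^ 2 - 1),
    ∑ α : Fin 16, ∑ β : Fin 16, (((G.γ i * G.γ l) α β : ℝ) : ℂ) • M.θ α A (M.θ β A v) with hX
  have h1 : Sp M G (rot j k) v = (1 / 8 : ℂ) • ∑ i, ∑ l, (rot j k l i : ℂ) • X i l := by
    simp only [Sp, LinearMap.smul_apply, LinearMap.sum_apply, LinearMap.comp_apply, hX]
  have h2 : ∑ i, ∑ l, (rot j k l i : ℂ) • X i l = X j k - X k j := by
    have e : ∀ i l, (rot j k l i : ℂ) • X i l =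
        (if l = k ∧ i = j then X i l else 0) - (if l = j ∧ i = k then X i l else 0) := by
      intro i l
      simp only [rot, Matrix.sub_apply, Matrix.single_apply, Complex.ofReal_sub, sub_smul]
      congr 1
      · by_cases hh : l = k ∧ i = j
        · rw [if_pos hh, if_pos ⟨hh.1.symm, hh.2.symm⟩, Complex.ofReal_one, one_smul]
        · rw [if_neg hh, if_neg (fun h' => hh ⟨h'.1.symm, h'.2.symm⟩), Complex.ofReal_zero,
            zero_smul]
      · by_cases hh : l = j ∧ i = k
        · rw [if_pos hh, if_pos ⟨hh.1.symm, hh.2.symm⟩, Complex.ofReal_one, one_smul]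
        · rw [if_neg hh, if_neg (fun h' => hh ⟨h'.1.symm, h'.2.symm⟩), Complex.ofReal_zero,
            zero_smul]
    simp only [e, Finset.sum_sub_distrib]
    congr 1
    · rw [Finset.sum_eq_single j (fun i _ hi => by simp [hi]) (by simp),
        Finset.sum_eq_single k (fun i _ hi => by simp [hi]) (by simp)]
      simp
    · rw [Finset.sum_eq_single k (fun i _ hi => by simp [hi]) (by simp),
        Finset.sum_eq_single j (fun i _ hi => by simp [hi]) (by simp)]
      simp
  have h3 : X k j = - X j k := by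
    simp only [hX, anti G h.symm, Matrix.neg_apply, Complex.ofReal_neg, neg_smul,
      Finset.sum_neg_distrib]
  rw [h1, h2, h3, sub_neg_eq_add, ← two_smul ℂ, smul_smul]
  have e8 : (1 / 8 : ℂ) * 2 = 1 / 4 := by norm_num
  rw [e8]

/-- The commutator of the generator with a fermion. -/
theorem SC_comm (M : FermionRep N F) {G : GammaNine} {j k : Fin 9} (h : j ≠ k) (δ : Fin 16)
    (A : Fin (N ^ 2 - 1)) :
    SC M G j k * th M (δ, A) - th M (δ, A) * SC M G j k =
      -((1 / 2 : ℝ) • ∑ β, ((G.γ j * G.γ k) δ β) • th M (β, A)) := by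
  set a : Matrix (Idx N) (Idx N) ℝ := fun p q =>
    if p.2 = q.2 then 1 / 2 * (G.γ j * G.γ k) p.1 q.1 else 0 with ha
  have hanti : ∀ α β, (G.γ j * G.γ k) α β = - (G.γ j * G.γ k) β α := fun α β => by
    have := congrFun (congrFun (gjk_transpose G h) β) α
    simpa [Matrix.transpose_apply] using this
  have haa : ∀ p q, a p q = - a q p := fun p q => by
    simp only [ha, eq_comm (a := q.2)]
    split_ifs
    · rw [hanti p.1 q.1]; ring
    · simp
  have hS : SC M G j k = spin M a := by
    ext v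
    rw [SC_apply, Sp_rot M h]
    simp only [spin, _root_.smul_apply, _root_.sum_apply, mulA, th_apply]
    rw [Fintype.sum_prod_type_right]
    have e : ∀ A : Fin (N ^ 2 - 1), ∀ α : Fin 16, (∑ q : Idx N, ((a (α, A) q : ℝ) : ℂ) •
        M.θ α A (M.θ q.1 q.2 v)) = (1 / 2 : ℂ) • ∑ β : Fin 16,
          (((G.γ j * G.γ k) α β : ℝ) : ℂ) • M.θ α A (M.θ β A v) := fun A α => by
      rw [Fintype.sum_prod_type_right, Finset.sum_eq_single A]
      · rw [Finset.smul_sum]
        refine Finset.sum_congr rfl fun β _ => ?_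
        simp only [ha, if_true, smul_smul]
        congr 1
        push_cast
        ring
      · intro B _ hB
        refine Finset.sum_eq_zero fun β _ => ?_
        simp only [ha, if_neg (Ne.symm hB), Complex.ofReal_zero, zero_smul]
      · simp
    simp only [e, ← Finset.smul_sum, smul_smul]
    norm_num
  rw [hS, spin_comm M a haa, Fintype.sum_prod_type_right, Finset.sum_eq_single A]
  · rw [Finset.smul_sum, ← Finset.sum_neg_distrib]
    refine Finset.sum_congr rfl fun β _ => ?_
    simp only [ha, if_true]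
    rw [hanti β δ, Complex.coe_smul, smul_smul, ← neg_smul]
    congr 1
    ring
  · intro B _ hB
    refine Finset.sum_eq_zero fun β _ => ?_
    simp only [ha, if_neg hB, Complex.ofReal_zero, zero_smul]
  · simp

theorem eS_eq (M : FermionRep N F) (G : GammaNine) (j k : Fin 9) (t : ℝ) :
    eS M G (rot j k) t = exp (t • SC M G j k) := by
  unfold eS
  rw [Complex.coe_smul]
  rfl

/-- **The lift intertwines the fermions.** -/
theorem theta_eS (M : FermionRep N F) {G : GammaNine} {j k : Fin 9} (h : j ≠ k) (t : ℝ)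
    (β : Fin 16) (A : Fin (N ^ 2 - 1)) (v : F) :
    M.θ β A (eS M G (rot j k) t v) =
      eS M G (rot j k) t (∑ δ, (Cp G j k t β δ : ℂ) • M.θ δ A v) := by
  haveI : CompleteSpace F := FiniteDimensional.complete ℂ F
  set Y : Fin 16 → (F →L[ℂ] F) := fun δ => ∑ β, ((G.γ j * G.γ k) δ β) • th M (β, A) with hY
  have h3 : SC M G j k * Y β - Y β * SC M G j k = (1 / 2 : ℝ) • th M (β, A) := by
    have e1 : SC M G j k * Y β - Y β * SC M G j k = ∑ γ, ((G.γ j * G.γ k) β γ) •
        (SC M G j k * th M (γ, A) - th M (γ, A) * SC M G j k) := by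
      simp only [hY, Finset.mul_sum, Finset.sum_mul, mul_smul_comm, smul_mul_assoc, smul_sub,
        Finset.sum_sub_distrib]
    rw [e1]
    simp only [SC_comm M h]
    have e2 : ∑ γ, ((G.γ j * G.γ k) β γ) • -((1 / 2 : ℝ) • ∑ δ, ((G.γ j * G.γ k) γ δ) •
        th M (δ, A)) = -((1 / 2 : ℝ) • ∑ δ, (((G.γ j * G.γ k) * (G.γ j * G.γ k)) β δ) •
        th M (δ, A)) := by
      simp only [smul_neg, Finset.sum_neg_distrib, Finset.smul_sum, smul_smul,
        Matrix.mul_apply (M := G.γ j * G.γ k) (N := G.γ j * G.γ k), Finset.sum_smul]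
      rw [Finset.sum_comm]
      congr 1
      refine Finset.sum_congr rfl fun δ _ => Finset.sum_congr rfl fun γ _ => ?_
      congr 1
      ring
    rw [e2, gjk_sq G h]
    simp [Matrix.one_apply, ite_smul, neg_ite]
  have h4 := rot_intertwine (SC M G j k) (th M (β, A)) (Y β) (SC_comm M h β A) h3 t
  have h5 := congrArg (fun f : F →L[ℂ] F => f v) h4
  simp only [mulA, th_apply] at h5
  rw [eS_eq]
  refine h5.trans ?_
  congr 1
  have e3 : ∀ δ, (Cp G j k t β δ : ℂ) • M.θ δ A v =
      (if β = δ then (Real.cos (t / 2) : ℂ) • M.θ δ A v else 0) +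
      (Real.sin (t / 2) : ℂ) • ((((G.γ j * G.γ k) β δ : ℝ) : ℂ) • M.θ δ A v) := fun δ => by
    simp only [Cp, Matrix.add_apply, Matrix.smul_apply, Matrix.one_apply, smul_eq_mul]
    split_ifs <;> push_cast <;> module
  simp only [e3, Finset.sum_add_distrib, Finset.sum_ite_eq, Finset.mem_univ, if_true, hY,
    _root_.add_apply, _root_.smul_apply, _root_.sum_apply, th_apply, Complex.coe_smul,
    Finset.smul_sum]

/-! ## Unitarity, group law, smoothness -/


section exp








end exp

/-! ## Commutation with the gauge action -/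



/-! ## Different planes commute -/

theorem SC_eS (M : FermionRep N F) {G : GammaNine} {j k j' k' : Fin 9} (h : j ≠ k) (h' : j' ≠ k')
    (hjj : j ≠ j') (hjk : j ≠ k') (hkj : k ≠ j') (hkk : k ≠ k') (t : ℝ) (v : F) :
    SC M G j' k' (eS M G (rot j k) t v) = eS M G (rot j k) t (SC M G j' k' v) := by
  have hcomm : (G.γ j * G.γ k) * (G.γ j' * G.γ k') = (G.γ j' * G.γ k') * (G.γ j * G.γ k) := by
    rw [Matrix.mul_assoc, gl_gjk G hkj hkk, ← Matrix.mul_assoc, gl_gjk G hjj hjk,
      Matrix.mul_assoc]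
  have hcomm' : Cp G j k t * (G.γ j' * G.γ k') = (G.γ j' * G.γ k') * Cp G j k t := by
    simp only [Cp, add_mul, mul_add, smul_mul_assoc, mul_smul_comm, one_mul, mul_one, hcomm]
  have hC : (Cp G j k t).transpose * (G.γ j' * G.γ k') * Cp G j k t = G.γ j' * G.γ k' := by
    rw [Matrix.mul_assoc, ← hcomm', ← Matrix.mul_assoc, Cp_orth G h, Matrix.one_mul]
  have hCe : ∀ γ δ, ∑ α, ∑ β, Cp G j k t α γ * (G.γ j' * G.γ k') α β * Cp G j k t β δ =
      (G.γ j' * G.γ k') γ δ := by
    intro γ δ
    rw [← congrFun (congrFun hC γ) δ]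
    simp only [Matrix.mul_apply (M := (Cp G j k t).transpose * (G.γ j' * G.γ k')),
      Matrix.mul_apply (M := (Cp G j k t).transpose), Matrix.transpose_apply, Finset.sum_mul]
    rw [Finset.sum_comm]
  rw [SC_apply, SC_apply, Sp_rot M h', Sp_rot M h', map_smul, map_sum]
  congr 1
  refine Finset.sum_congr rfl fun A _ => ?_
  simp only [theta_eS M h, map_sum, map_smul, Finset.smul_sum, smul_smul]
  rw [sum4]
  refine Finset.sum_congr rfl fun γ _ => ?_
  refine Finset.sum_congr rfl fun δ _ => ?_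
  rw [← hCe γ δ]
  push_cast
  simp only [Finset.sum_smul]
  refine Finset.sum_congr rfl fun α _ => ?_
  refine Finset.sum_congr rfl fun β _ => ?_
  congr 1
  ring

theorem eS_comm (M : FermionRep N F) {G : GammaNine} {j k j' k' : Fin 9} (h : j ≠ k) (h' : j' ≠ k')
    (hjj : j ≠ j') (hjk : j ≠ k') (hkj : k ≠ j') (hkk : k ≠ k') (s t : ℝ) (v : F) :
    eS M G (rot j k) t (eS M G (rot j' k') s v) = eS M G (rot j' k') s (eS M G (rot j k) t v) := by
  haveI : CompleteSpace F := FiniteDimensional.complete ℂ F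
  have h1 : eS M G (rot j k) t * SC M G j' k' = SC M G j' k' * eS M G (rot j k) t := by
    ext w
    exact (SC_eS M h h' hjj hjk hkj hkk t w).symm
  have h2 := commute_exp h1 s
  rw [← eS_eq M G j' k'] at h2
  exact congrArg (fun f : F →L[ℂ] F => f v) h2

end Crest.Agent.R330.TorA149

end
end

-- ▼ part R330/TorB_149
section

/-!
# Row 330, section 2: the circle actions of the torus on the core (helper149)

* `UC R G ha t` : 726's `U M G a t` as a linear map of the core.
* `Q_UC`, `ham_UC` : covariance of the massive charges and of the Hamiltonian, `a` preserving the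
  two blocks and `γ¹γ²γ³`.
* `UC_comm` : different planes commute.
* `rot_of_per` : 967's `Rot` for every plane inside a block.
-/

set_option autoImplicit false
set_option linter.unusedSectionVars false

open MeasureTheory Filter Topology Crest.MathPhysics.MatrixQM
open scoped ContDiff InnerProductSpace ENNReal

noncomputable section

namespace Crest.Agent.R330.TorB149

open Crest.Agent.R330.Defs478 Crest.Agent.R330.Rot149 Crest.Agent.R330.SDefs726
  Crest.Agent.R330.Gam962 Crest.Agent.R330.Sym613 Crest.Agent.R330.Dict416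
  Crest.Agent.R330.GapTor967

variable {N : ℕ} {F : Type*} [NormedAddCommGroup F] [InnerProductSpace ℂ F]
  [FiniteDimensional ℂ F] {b : ColorBasis N} {M : FermionRep N F} {R : GaugeAction b M}
  {G : GammaNine}

/-! ## Matrix exponentials and commutation -/

section mat

open scoped Matrix.Norms.Operator

variable {n : Type*} [Fintype n] [DecidableEq n]

theorem me_commute {a c : Matrix n n ℝ} (h : c * a = a * c) (t : ℝ) :
    c * me a t = me a t * c := by
  unfold me
  exact TorA149.commute_exp h t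

end mat

/-- The data of a generator preserving the two blocks and `γ¹γ²γ³`. -/
structure Blk (G : GammaNine) (a : Matrix (Fin 9) (Fin 9) ℝ) : Prop where
  skew : a.transpose = -a
  gam : Gam G * sg G a = sg G a * Gam G
  cc : Matrix.diagonal cc * a = a * Matrix.diagonal cc

variable {a : Matrix (Fin 9) (Fin 9) ℝ}

/-- **Covariance of the massive charges** under `U M G a t`. -/
theorem dcharge_U (ha : Blk G a) (g m t : ℝ) {φ : Cfg N → F} (hφ : Differentiable ℝ φ)
    (α : Fin 16) (x : Cfg N) :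
    dcharge b M G g m α (U M G a t φ) x =
      ∑ δ, (ss G a t α δ : ℂ) • U M G a t (dcharge b M G g m δ φ) x := by
  have hr : (me a t).transpose * me a t = 1 := by
    rw [me_transpose ha.skew, me_neg_mul]
  refine dcharge_cov b M g m (r := me a t) (C := ss G a t) (E := eS M G a t) hr (fun l => ?_)
    (Or.inr (me_commute ha.gam t)) (Or.inr fun l i => ?_) (fun β A v => ?_) (hφ _) α
  · have := ss_gam (G := G) ha.skew t l
    unfold ss
    rw [this, Finset.sum_mul]
    exact Finset.sum_congr rfl fun i _ => by rw [Matrix.smul_mul]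
  · have h1 := congrFun (congrFun (me_commute ha.cc t) l) i
    rwa [Matrix.diagonal_mul, Matrix.mul_diagonal] at h1
  · rw [theta_eS ha.skew, map_sum]
    simp only [map_smul]

/-! ## The action on the core -/

/-- `U M G a t` on the core. -/
def UC (R : GaugeAction b M) (G : GammaNine) {a : Matrix (Fin 9) (Fin 9) ℝ}
    (ha : a.transpose = -a) (t : ℝ) : core b R →ₗ[ℂ] core b R where
  toFun φ := ⟨U M G a t φ.1, core_U ha t φ.2⟩
  map_add' φ ψ := Subtype.ext (U_add_fun t φ.1 ψ.1)
  map_smul' c φ := Subtype.ext (U_smul_fun t c φ.1)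

theorem UC_coe (ha : a.transpose = -a) (t : ℝ) (φ : core b R) :
    ((UC R G ha t φ : core b R) : Cfg N → F) = U M G a t φ.1 := rfl

theorem UC_add (ha : a.transpose = -a) (s t : ℝ) (φ : core b R) :
    UC R G ha (s + t) φ = UC R G ha s (UC R G ha t φ) := Subtype.ext (U_add s t φ.1)

theorem UC_zero (ha : a.transpose = -a) (φ : core b R) : UC R G ha 0 φ = φ :=
  Subtype.ext (U_zero φ.1)

theorem UC_iso (ha : a.transpose = -a) (t : ℝ) (φ ψ : core b R) :
    ⟪ιC R (UC R G ha t φ), ιC R (UC R G ha t ψ)⟫_ℂ = ⟪ιC R φ, ιC R ψ⟫_ℂ := by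
  rw [inner_ιC, inner_ιC]
  exact integral_U ha t φ.1 ψ.1

theorem UC_deriv (ha : a.transpose = -a) {J : core b R →ₗ[ℂ] core b R}
    (hJ : ∀ φ : core b R, ((J φ : core b R) : Cfg N → F) = Jg M G a φ.1) (φ ψ : core b R) :
    HasDerivAt (fun t => ⟪ιC R φ, ιC R (UC R G ha t ψ)⟫_ℂ) ⟪ιC R φ, ιC R (J ψ)⟫_ℂ 0 := by
  have h1 := hasDerivAt_integral_U_zero (M := M) (G := G) ha (f := φ.1) (ψ := ψ.1)
    (φ.2.1.continuous.locallyIntegrable (μ := volume)) (cv_c1 ψ.2) ψ.2.2.1
  rw [inner_ιC, hJ]
  simp only [inner_ιC]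
  exact h1

theorem JC_skew (ha : a.transpose = -a) {J : core b R →ₗ[ℂ] core b R}
    (hJ : ∀ φ : core b R, ((J φ : core b R) : Cfg N → F) = Jg M G a φ.1) (φ ψ : core b R) :
    ⟪ιC R (J φ), ιC R ψ⟫_ℂ = -⟪ιC R φ, ιC R (J ψ)⟫_ℂ := by
  rw [inner_ιC, inner_ιC, hJ, hJ]
  exact Jg_skew ha (cv_c1 φ.2) φ.2.2.1 (cv_c1 ψ.2) ψ.2.2.1

/-- Covariance of the charges on the core. -/
theorem Q_UC (ha : Blk G a) {g m : ℝ} {Q : Fin 16 → core b R →ₗ[ℂ] core b R}
    (hQ : ∀ α φ, (Q α φ : Cfg N → F) = dcharge b M G g m α (φ : Cfg N → F)) (t : ℝ)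
    (α : Fin 16) (φ : core b R) :
    Q α (UC R G ha.skew t φ) = ∑ δ, (ss G a t α δ : ℂ) • UC R G ha.skew t (Q δ φ) := by
  apply Subtype.ext
  funext x
  rw [hQ, UC_coe, dcharge_U ha g m t (cv_diff φ.2)]
  simp only [AddSubmonoidClass.coe_finsetSum, Finset.sum_apply, SetLike.val_smul, Pi.smul_apply,
    UC_coe, hQ]

/-- **The Hamiltonian commutes with the group.** -/
theorem ham_UC (ha : Blk G a) {g m : ℝ} {Q : Fin 16 → core b R →ₗ[ℂ] core b R}
    (hQ : ∀ α φ, (Q α φ : Cfg N → F) = dcharge b M G g m α (φ : Cfg N → F))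
    {Ham : core b R →ₗ[ℂ] core b R}
    (hH : ∀ φ, Ham φ = (1 / 16 : ℂ) • ∑ α, Q α (Q α φ)) (t : ℝ) (φ : core b R) :
    UC R G ha.skew t (Ham φ) = Ham (UC R G ha.skew t φ) := by
  rw [hH, hH, map_smul, map_sum]
  congr 1
  have h1 : ∀ α, Q α (Q α (UC R G ha.skew t φ)) = ∑ δ, ∑ ε,
      ((ss G a t α δ * ss G a t α ε : ℝ) : ℂ) • UC R G ha.skew t (Q ε (Q δ φ)) := by
    intro α
    rw [Q_UC ha hQ, map_sum]
    refine Finset.sum_congr rfl fun δ _ => ?_
    rw [map_smul, Q_UC ha hQ, Finset.smul_sum]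
    refine Finset.sum_congr rfl fun ε _ => ?_
    rw [smul_smul]
    push_cast
    rfl
  have h2 : ∀ δ ε, ∑ α, ss G a t α δ * ss G a t α ε = if δ = ε then 1 else 0 := by
    intro δ ε
    have := congrFun (congrFun (ss_orth (G := G) ha.skew t) δ) ε
    simpa [Matrix.mul_apply, Matrix.one_apply] using this
  simp only [h1]
  rw [Finset.sum_comm]
  refine Finset.sum_congr rfl fun δ _ => ?_
  rw [Finset.sum_comm]
  have h3 : ∀ ε, (∑ α, ((ss G a t α δ * ss G a t α ε : ℝ) : ℂ)) = if δ = ε then 1 else 0 := by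
    intro ε
    rw [← Complex.ofReal_sum, h2]
    split_ifs <;> simp
  simp only [← Finset.sum_smul, h3, ite_smul, one_smul, zero_smul, Finset.sum_ite_eq,
    Finset.mem_univ, if_true]

/-! ## Planes inside a block -/

/-- `γ^l` commutes (anticommutes) with `γ¹γ²γ³`. -/
theorem Gam_lt {l : Fin 9} (h : (l : ℕ) < 3) : Gam G * G.γ l = G.γ l * Gam G := by
  have hl : l = 0 ∨ l = 1 ∨ l = 2 := by
    rcases l with ⟨l, hl⟩
    simp only at h
    interval_cases l <;> simp [Fin.ext_iff]
  unfold Gam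
  rcases hl with rfl | rfl | rfl
  · rw [Matrix.mul_assoc _ (G.γ 2), anti G (show (2 : Fin 9) ≠ 0 by decide), Matrix.mul_neg,
      ← Matrix.mul_assoc, Matrix.mul_assoc (G.γ 0) (G.γ 1) (G.γ 0),
      anti G (show (1 : Fin 9) ≠ 0 by decide)]
    simp only [Matrix.mul_neg, Matrix.neg_mul, neg_neg, Matrix.mul_assoc]
  · rw [Matrix.mul_assoc _ (G.γ 2), anti G (show (2 : Fin 9) ≠ 1 by decide), Matrix.mul_neg,
      ← Matrix.mul_assoc (G.γ 1) (G.γ 0 * G.γ 1), ← Matrix.mul_assoc (G.γ 1) (G.γ 0),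
      anti G (show (1 : Fin 9) ≠ 0 by decide)]
    simp only [Matrix.neg_mul, Matrix.mul_assoc]
  · rw [← Matrix.mul_assoc (G.γ 2) (G.γ 0 * G.γ 1), ← Matrix.mul_assoc (G.γ 2) (G.γ 0),
      anti G (show (2 : Fin 9) ≠ 0 by decide), Matrix.neg_mul, Matrix.mul_assoc (G.γ 0) (G.γ 2),
      anti G (show (2 : Fin 9) ≠ 1 by decide)]
    simp only [Matrix.mul_neg, neg_neg, Matrix.mul_assoc]

theorem Gam_ge {l : Fin 9} (h : 3 ≤ (l : ℕ)) : Gam G * G.γ l = -(G.γ l * Gam G) := by
  have h0 : (0 : Fin 9) ≠ l := fun e => by rw [← e] at h; simp at h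
  have h1 : (1 : Fin 9) ≠ l := fun e => by rw [← e] at h; simp at h
  have h2 : (2 : Fin 9) ≠ l := fun e => by rw [← e] at h; simp at h
  unfold Gam
  rw [Matrix.mul_assoc _ (G.γ 2), anti G h2, Matrix.mul_neg, ← Matrix.mul_assoc,
    Matrix.mul_assoc (G.γ 0) (G.γ 1), anti G h1, Matrix.mul_neg, Matrix.neg_mul,
    ← Matrix.mul_assoc, anti G h0]
  simp only [Matrix.neg_mul, neg_neg, Matrix.mul_assoc]

theorem sg_rot {j k : Fin 9} (h : j ≠ k) : sg G (rot j k) = (1 / 2 : ℝ) • (G.γ j * G.γ k) := by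
  unfold sg
  have e : ∀ i l, rot j k l i • (G.γ i * G.γ l) =
      (if l = k ∧ i = j then G.γ i * G.γ l else 0) -
        (if l = j ∧ i = k then G.γ i * G.γ l else 0) := by
    intro i l
    simp only [rot, Matrix.sub_apply, Matrix.single_apply, sub_smul]
    congr 1
    · by_cases hh : l = k ∧ i = j
      · rw [if_pos hh, if_pos ⟨hh.1.symm, hh.2.symm⟩, one_smul]
      · rw [if_neg hh, if_neg (fun h' => hh ⟨h'.1.symm, h'.2.symm⟩), zero_smul]
    · by_cases hh : l = j ∧ i = k
      · rw [if_pos hh, if_pos ⟨hh.1.symm, hh.2.symm⟩, one_smul]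
      · rw [if_neg hh, if_neg (fun h' => hh ⟨h'.1.symm, h'.2.symm⟩), zero_smul]
  simp only [e, Finset.sum_sub_distrib]
  rw [Finset.sum_eq_single j (fun i _ hi => by simp [hi]) (by simp),
    Finset.sum_eq_single k (fun i _ hi => by simp [hi]) (by simp),
    Finset.sum_eq_single k (fun i _ hi => by simp [hi]) (by simp),
    Finset.sum_eq_single j (fun i _ hi => by simp [hi]) (by simp)]
  simp only [and_self, if_true]
  rw [anti G h.symm, sub_neg_eq_add, ← two_smul ℝ, smul_smul]
  norm_num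

/-- A plane inside a block. -/
theorem blk_rot {j k : Fin 9} (h : j ≠ k) (hb : (j : ℕ) < 3 ↔ (k : ℕ) < 3) :
    Blk G (rot j k) where
  skew := rot_transpose j k
  gam := by
    rw [sg_rot h, Matrix.mul_smul, Matrix.smul_mul, ← Matrix.mul_assoc]
    congr 1
    by_cases hj : (j : ℕ) < 3
    · rw [Gam_lt hj, Matrix.mul_assoc, Gam_lt (hb.1 hj), Matrix.mul_assoc]
    · rw [Gam_ge (not_lt.1 hj), Matrix.neg_mul, Matrix.mul_assoc,
        Gam_ge (not_lt.1 fun hk => hj (hb.2 hk)), Matrix.mul_neg, neg_neg, Matrix.mul_assoc]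
  cc := by
    have hc : cc j = cc k := by
      unfold cc
      by_cases hj : (j : ℕ) < 3
      · rw [if_pos hj, if_pos (hb.1 hj)]
      · rw [if_neg hj, if_neg fun hk => hj (hb.2 hk)]
    ext l i
    rw [Matrix.diagonal_mul, Matrix.mul_diagonal]
    simp only [rot, Matrix.sub_apply, Matrix.single_apply]
    by_cases h1 : k = l ∧ j = i
    · obtain ⟨rfl, rfl⟩ := h1
      rw [hc, mul_comm]
    · by_cases h2 : j = l ∧ k = i
      · obtain ⟨rfl, rfl⟩ := h2
        rw [hc, mul_comm]
      · rw [if_neg h1, if_neg h2]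
        ring

/-! ## Different planes commute -/

theorem rot_mul_rot {j k j' k' : Fin 9} (hjj : j ≠ j') (hjk : j ≠ k') (hkj : k ≠ j')
    (hkk : k ≠ k') : rot j k * rot j' k' = 0 := by
  simp [rot, sub_mul, mul_sub, Matrix.single_mul_single_of_ne, hjj, hjk, hkj, hkk]

theorem UC_comm {j k j' k' : Fin 9} (h : j ≠ k) (h' : j' ≠ k') (hjj : j ≠ j') (hjk : j ≠ k')
    (hkj : k ≠ j') (hkk : k ≠ k') (s t : ℝ) (φ : core b R) :
    UC R G (rot_transpose j k) s (UC R G (rot_transpose j' k') t φ) =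
      UC R G (rot_transpose j' k') t (UC R G (rot_transpose j k) s φ) := by
  apply Subtype.ext
  funext x
  show eS M G (rot j k) s (eS M G (rot j' k') t (φ.1 (vf (me (rot j' k') t)
    (vf (me (rot j k) s) x)))) = eS M G (rot j' k') t (eS M G (rot j k) s (φ.1
    (vf (me (rot j k) s) (vf (me (rot j' k') t) x))))
  have h1 : rot j k * rot j' k' = rot j' k' * rot j k := by
    rw [rot_mul_rot hjj hjk hkj hkk, rot_mul_rot hjj.symm hkj.symm hjk.symm hkk.symm]
  have h2 : me (rot j k) s * rot j' k' = rot j' k' * me (rot j k) s :=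
    (me_commute h1.symm s).symm
  have h3 : me (rot j k) s * me (rot j' k') t = me (rot j' k') t * me (rot j k) s :=
    me_commute h2 t
  rw [← vf_mul, ← vf_mul, h3]
  exact TorA149.eS_comm M h h' hjj hjk hkj hkk t s _

/-! ## 967's interface -/

/-- **`Rot` for a plane inside a block**, given the periodicity. -/
theorem rot_of_per (ha : Blk G a) {g m : ℝ} {Q : Fin 16 → core b R →ₗ[ℂ] core b R}
    (hQ : ∀ α φ, (Q α φ : Cfg N → F) = dcharge b M G g m α (φ : Cfg N → F))
    {Ham J : core b R →ₗ[ℂ] core b R}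
    (hH : ∀ φ, Ham φ = (1 / 16 : ℂ) • ∑ α, Q α (Q α φ))
    (hJ : ∀ φ : core b R, ((J φ : core b R) : Cfg N → F) = Jg M G a φ.1) {p : ℝ} (hp : 0 < p)
    (hper : ∀ φ, UC R G ha.skew p φ = φ) :
    Rot (ιC R) Ham (UC R G ha.skew) J p where
  pos := hp
  add := UC_add ha.skew
  zero := UC_zero ha.skew
  per := hper
  iso := UC_iso ha.skew
  ham := ham_UC ha hQ hH
  skew := JC_skew ha.skew hJ
  deriv := UC_deriv ha.skew hJ

end Crest.Agent.R330.TorB149

end
end

-- ▼ part R330/GapCl_967

/-!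
# Row 330 (helper967): (GAP) from the Susy algebra on the core and the density of `(1 + Ham) core`

* `exp_cube` : `exp (t X) = 1 + sin t X + (1 - cos t) X²` if `X³ = -X`; `me_rot_eight_pi`.
* `rot_planes` : 149's `Rot` for the four planes, period `8 π`.
* `gapZ_core` : `GapZ b M R G g m (m / 24)`.
-/

set_option autoImplicit false
set_option linter.unusedSectionVars false

open MeasureTheory Filter Topology Crest.MathPhysics.MatrixQM
open scoped ContDiff InnerProductSpace ENNReal

noncomputable section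

namespace Crest.Agent.R330.GapCl967

open Crest.Agent.R330.Defs478 Crest.Agent.R330.SDefs726 Crest.Agent.R330.Sym613
  Crest.Agent.R330.Dict416 Crest.Agent.R330.GapTor967 Crest.Agent.R330.TorB149
  Crest.Agent.R330.GapAlg916 Crest.Agent.R330.Sec478 Crest.Agent.R330.Proj967

/-! ## 1. Periodicity of the rotations -/

section Abstract

variable {𝔸 : Type*} [NormedRing 𝔸] [NormedAlgebra ℝ 𝔸] [CompleteSpace 𝔸]

theorem exp_cube (X : 𝔸) (hX : X * X * X = -X) (t : ℝ) :
    NormedSpace.exp (t • X) = 1 + Real.sin t • X + (1 - Real.cos t) • (X * X) := by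
  set g : ℝ → 𝔸 := fun u => NormedSpace.exp (u • (-X)) *
    (1 + Real.sin u • X + (1 - Real.cos u) • (X * X)) with hg
  have hd : ∀ u, HasDerivAt g 0 u := by
    intro u
    have h1 : HasDerivAt (fun u : ℝ => NormedSpace.exp (u • (-X)))
        (NormedSpace.exp (u • (-X)) * (-X)) u := hasDerivAt_exp_smul_const (-X) u
    have h2 : HasDerivAt (fun u : ℝ => Real.sin u) (Real.cos u) u := Real.hasDerivAt_sin u
    have h2' : HasDerivAt (fun u : ℝ => 1 - Real.cos u) (Real.sin u) u := by
      have := (Real.hasDerivAt_cos u).const_sub 1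
      simpa using this
    have h4 := h1.mul (((h2.smul_const X).const_add (1 : 𝔸)).add (h2'.smul_const (X * X)))
    refine h4.congr_deriv ?_
    show NormedSpace.exp (u • (-X)) * -X * (1 + Real.sin u • X + (1 - Real.cos u) • (X * X)) +
        NormedSpace.exp (u • (-X)) * (Real.cos u • X + Real.sin u • (X * X)) = 0
    have e : NormedSpace.exp (u • (-X)) * -X * (1 + Real.sin u • X + (1 - Real.cos u) • (X * X)) +
        NormedSpace.exp (u • (-X)) * (Real.cos u • X + Real.sin u • (X * X)) =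
        NormedSpace.exp (u • (-X)) * (-X - Real.sin u • (X * X) -
          (1 - Real.cos u) • (X * X * X) + Real.cos u • X + Real.sin u • (X * X)) := by
      generalize NormedSpace.exp (u • (-X)) = E
      simp only [mul_add, mul_sub, mul_neg, neg_mul, mul_smul_comm, mul_one, mul_assoc]
      module
    rw [e, hX]
    have e2 : (-X - Real.sin u • (X * X) - (1 - Real.cos u) • (-X) + Real.cos u • X +
        Real.sin u • (X * X)) = 0 := by
      module
    rw [e2, mul_zero]
  have hc := is_const_of_deriv_eq_zero (fun x => (hd x).differentiableAt) (fun x => (hd x).deriv) t 0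
  have h0 : g 0 = 1 := by simp [hg]
  rw [h0] at hc
  have h1 : NormedSpace.exp (t • X) * g t = NormedSpace.exp (t • X) * 1 := by rw [hc]
  rw [hg] at h1
  simp only at h1
  rw [smul_neg, ← mul_assoc, Lift406.exp_mul_exp_neg, one_mul, mul_one] at h1
  exact h1.symm

end Abstract

theorem rot_cube {j k : Fin 9} (h : j ≠ k) : rot j k * rot j k * rot j k = -rot j k := by
  simp only [rot, sub_mul, mul_sub, Matrix.single_mul_single_same,
    Matrix.single_mul_single_of_ne _ _ _ _ h, Matrix.single_mul_single_of_ne _ _ _ _ h.symm,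
    mul_one, sub_zero, zero_sub, neg_mul, neg_zero]
  abel

section mat

open scoped Matrix.Norms.Operator

theorem me_rot_eight_pi {j k : Fin 9} (h : j ≠ k) : me (rot j k) (8 * Real.pi) = 1 := by
  unfold me
  refine (exp_cube (rot j k) (rot_cube h) (8 * Real.pi)).trans ?_
  have h1 : Real.sin (8 * Real.pi) = 0 := by
    have := Real.sin_int_mul_pi 8
    exact_mod_cast this
  have h2 : Real.cos (8 * Real.pi) = 1 := by
    have := Real.cos_int_mul_two_pi 4
    have e : ((4 : ℤ) : ℝ) * (2 * Real.pi) = 8 * Real.pi := by push_cast; ring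
    rwa [e] at this
  rw [h1, h2]
  simp

end mat

variable {N : ℕ} {F : Type} [NormedAddCommGroup F] [InnerProductSpace ℂ F]
  [FiniteDimensional ℂ F] {b : ColorBasis N} {M : FermionRep N F} {R : GaugeAction b M}
  {G : GammaNine}

theorem U_rot_eight_pi [Nontrivial F] {j k : Fin 9} (h : j ≠ k) (φ : Cfg N → F) :
    U M G (rot j k) (8 * Real.pi) φ = φ := by
  funext x
  rw [U_apply, Per967.eS_rot_eight_pi M h, me_rot_eight_pi h, vf_one]
  rfl

/-! ## 2. The four planes -/

theorem planes_blk {q : Fin 9 × Fin 9} (hq : q ∈ planes) :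
    q.1 ≠ q.2 ∧ ((q.1 : ℕ) < 3 ↔ (q.2 : ℕ) < 3) := by
  revert q
  decide

theorem planes_disj {q r : Fin 9 × Fin 9} (hq : q ∈ planes) (hr : r ∈ planes) (h : q ≠ r) :
    q.1 ≠ r.1 ∧ q.1 ≠ r.2 ∧ q.2 ≠ r.1 ∧ q.2 ≠ r.2 := by
  simp only [planes, Finset.mem_insert, Finset.mem_singleton] at hq hr
  rcases hq with rfl | rfl | rfl | rfl <;> rcases hr with rfl | rfl | rfl | rfl <;>
    first
    | exact absurd rfl h
    | decide

/-- The rotation groups of the planes. -/
def Uq (R : GaugeAction b M) (G : GammaNine) (q : Fin 9 × Fin 9) (t : ℝ) :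
    core b R →ₗ[ℂ] core b R := UC R G (rot_transpose q.1 q.2) t

theorem Uq_comm {q r : Fin 9 × Fin 9} (hq : q ∈ planes) (hr : r ∈ planes) (s t : ℝ)
    (φ : core b R) : Uq R G q s (Uq R G r t φ) = Uq R G r t (Uq R G q s φ) := by
  by_cases h : q = r
  · subst h
    unfold Uq
    rw [← UC_add, ← UC_add, add_comm]
  · obtain ⟨h1, h2, h3, h4⟩ := planes_disj hq hr h
    exact UC_comm (planes_blk hq).1 (planes_blk hr).1 h1 h2 h3 h4 s t φ

/-- **(GAP)** from the Susy algebra on the core and the density of `(1 + Ham) core`. -/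
theorem gapZ_core [Nontrivial F] {g m : ℝ} (hm : 0 ≤ m)
    {Q : Fin 16 → core b R →ₗ[ℂ] core b R}
    (hQ : ∀ α φ, (Q α φ : Cfg N → F) = dcharge b M G g m α (φ : Cfg N → F))
    {Ham : core b R →ₗ[ℂ] core b R} (hH : ∀ φ, Ham φ = (1 / 16 : ℂ) • ∑ α, Q α (Q α φ))
    {J : Fin 9 × Fin 9 → core b R →ₗ[ℂ] core b R}
    (hJ : ∀ q ∈ planes, ∀ φ : core b R,
      ((J q φ : core b R) : Cfg N → F) = Jg M G (rot q.1 q.2) φ.1)
    (h : Susy G m (ιC R) Q Ham J)
    (hd : ∀ φ : core b R, ιC R φ ∈ closure (Set.range fun ψ => ιC R ψ + ιC R (Ham ψ))) :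
    GapZ b M R G g m (m / 24) := by
  refine gapZ_of_rot hm hQ h (U := Uq R G) (fun q hq => ?_) (fun q _ => ?_)
    (fun q hq r hr s t φ => Uq_comm hq hr s t φ) hd
  · obtain ⟨h1, h2⟩ := planes_blk hq
    refine rot_of_per (blk_rot h1 h2) hQ hH (hJ q hq) (by positivity) fun φ => ?_
    apply Subtype.ext
    rw [UC_coe]
    exact U_rot_eight_pi h1 φ.1
  · exact hasProj_U (rot_transpose q.1 q.2) (by positivity)

end Crest.Agent.R330.GapCl967

end
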