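import Crest.Agent.R330.Spin_288
import Crest.Agent.R330.Alg_962
import Crest.Agent.R330.Brid_837
import Crest.Agent.R330.SDefs_726
import Crest.Agent.R330.Col_962

/-! # Row 330: the mass terms of the anticommutator of the deformed charges

`{Q_α, Q_β}^{g,m} = {Q_α, Q_β}^{g,0} + 2 δ_αβ H^mass + m L_αβ`, pointwise on `C²` functions. -/

set_option autoImplicit false
set_option linter.unusedSectionVars false

noncomputable section

open Matrix Finset
open Crest.MathPhysics.MatrixQM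

namespace Crest.Agent.R330.Mass288

open Crest.Agent.R330.IBP837 Crest.Agent.R330.Alg962 Crest.Agent.R330.Defs478
open Crest.Agent.R330.GapAlg916 (pairs gg sg sgw rsg γ_W W_γ W_comm W_anti W_transpose
  W_transpose_mul Gam_eq Gam_transpose Gam_sq gg_eq W_append W_sing γ_ac γ_sq gg_transpose
  gg_comm_Gam)
open Crest.Agent.R330.Spin288 (Lt spin_fierz)
open Crest.Agent.R330.SDefs726 (Jg Sp vf rot)

/-! ### Sums over pairs of directions -/

/-- same block -/
def SB (i j : Fin 9) : Prop := i ≠ j ∧ (i.val < 3 ↔ j.val < 3)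

instance (i j : Fin 9) : Decidable (SB i j) := by unfold SB; infer_instance

theorem mem_pairs {p : Fin 9 × Fin 9} : p ∈ pairs ↔ p.1 < p.2 ∧ (p.1.val < 3 ↔ p.2.val < 3) := by
  unfold GapAlg916.pairs
  rw [Finset.mem_filter]
  simp

theorem sum_pairs {E : Type*} [AddCommMonoid E] (f : Fin 9 → Fin 9 → E)
    (hf : ∀ i j, ¬ SB i j → f i j = 0) :
    ∑ i, ∑ j, f i j = ∑ p ∈ pairs, (f p.1 p.2 + f p.2 p.1) := by
  rw [← Finset.sum_product', Finset.sum_add_distrib]
  have h1 : ∑ p ∈ pairs, f p.2 p.1 = ∑ p ∈ Finset.univ.filter (fun p : Fin 9 × Fin 9 =>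
      p.2 < p.1 ∧ (p.1.val < 3 ↔ p.2.val < 3)), f p.1 p.2 := by
    refine Finset.sum_bij' (fun p _ => p.swap) (fun p _ => p.swap) ?_ ?_ ?_ ?_ ?_
    · intro p hp
      rw [mem_pairs] at hp
      rw [Finset.mem_filter]
      exact ⟨Finset.mem_univ _, hp.1, hp.2.symm⟩
    · intro p hp
      rw [Finset.mem_filter] at hp
      rw [mem_pairs]
      exact ⟨hp.2.1, hp.2.2.symm⟩
    · intro p _; simp
    · intro p _; simp
    · intro p _; simp
  rw [h1, ← Finset.sum_union]
  · symm
    refine Finset.sum_subset (Finset.subset_univ _) ?_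
    intro p _ hp
    apply hf
    intro hsb
    apply hp
    rw [Finset.mem_union, mem_pairs, Finset.mem_filter]
    rcases lt_or_gt_of_ne hsb.1 with h | h
    · exact Or.inl ⟨h, hsb.2⟩
    · exact Or.inr ⟨Finset.mem_univ _, h, hsb.2⟩
  · rw [Finset.disjoint_left]
    intro p hp hq
    rw [mem_pairs] at hp
    rw [Finset.mem_filter] at hq
    exact absurd hp.1 (not_lt.mpr hq.2.1.le)

variable {N : ℕ} {F : Type*} [NormedAddCommGroup F] [InnerProductSpace ℂ F]
  [FiniteDimensional ℂ F]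

/-! ### Fermion bilinears -/

/-- `Σ_A Σ_{δγ} X_{δγ} θ_δ^A θ_γ^A` -/
def bil (M : FermionRep N F) (X : Matrix (Fin 16) (Fin 16) ℝ) (v : F) : F :=
  ∑ A : Fin (N ^ 2 - 1), ∑ δ : Fin 16, ∑ γ : Fin 16, ((X δ γ : ℝ) : ℂ) • M.θ δ A (M.θ γ A v)

theorem bil_add (M : FermionRep N F) (X Y : Matrix (Fin 16) (Fin 16) ℝ) (v : F) :
    bil M (X + Y) v = bil M X v + bil M Y v := by
  unfold bil
  simp only [← Finset.sum_add_distrib, Matrix.add_apply, Complex.ofReal_add, add_smul]

theorem bil_smul (M : FermionRep N F) (c : ℝ) (X : Matrix (Fin 16) (Fin 16) ℝ) (v : F) :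
    bil M (c • X) v = (c : ℂ) • bil M X v := by
  unfold bil
  simp only [Finset.smul_sum, Matrix.smul_apply, smul_eq_mul, Complex.ofReal_mul, mul_smul]

theorem bil_sub (M : FermionRep N F) (X Y : Matrix (Fin 16) (Fin 16) ℝ) (v : F) :
    bil M (X - Y) v = bil M X v - bil M Y v := by
  unfold bil
  simp only [← Finset.sum_sub_distrib, Matrix.sub_apply, Complex.ofReal_sub, sub_smul]

theorem bil_sum {ι : Type*} (s : Finset ι) (M : FermionRep N F)
    (X : ι → Matrix (Fin 16) (Fin 16) ℝ) (v : F) :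
    bil M (∑ i ∈ s, X i) v = ∑ i ∈ s, bil M (X i) v := by
  classical
  induction s using Finset.induction_on with
  | empty => simp [bil]
  | insert i s hi ih => rw [Finset.sum_insert hi, Finset.sum_insert hi, bil_add, ih]

theorem bil_add_transpose (M : FermionRep N F) (X : Matrix (Fin 16) (Fin 16) ℝ) (v : F) :
    bil M X v + bil M Xᵀ v = (((N ^ 2 - 1 : ℕ) : ℂ) * ((X.trace : ℝ) : ℂ)) • v := by
  have e : bil M Xᵀ v = ∑ A : Fin (N ^ 2 - 1), ∑ δ : Fin 16, ∑ γ : Fin 16,
      ((X δ γ : ℝ) : ℂ) • M.θ γ A (M.θ δ A v) := by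
    unfold bil
    refine Finset.sum_congr rfl fun A _ => ?_
    rw [Finset.sum_comm]
    rfl
  rw [e]
  unfold bil
  rw [← Finset.sum_add_distrib]
  have h : ∀ A : Fin (N ^ 2 - 1), ((∑ δ : Fin 16, ∑ γ : Fin 16, ((X δ γ : ℝ) : ℂ) •
      M.θ δ A (M.θ γ A v)) + ∑ δ : Fin 16, ∑ γ : Fin 16,
      ((X δ γ : ℝ) : ℂ) • M.θ γ A (M.θ δ A v)) = ((X.trace : ℝ) : ℂ) • v := by
    intro A
    rw [← Finset.sum_add_distrib]
    have h2 : ∀ δ : Fin 16, ((∑ γ : Fin 16, ((X δ γ : ℝ) : ℂ) • M.θ δ A (M.θ γ A v)) +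
        ∑ γ : Fin 16, ((X δ γ : ℝ) : ℂ) • M.θ γ A (M.θ δ A v)) = ((X δ δ : ℝ) : ℂ) • v := by
      intro δ
      rw [← Finset.sum_add_distrib]
      have h3 : ∀ γ : Fin 16, (((X δ γ : ℝ) : ℂ) • M.θ δ A (M.θ γ A v) +
          ((X δ γ : ℝ) : ℂ) • M.θ γ A (M.θ δ A v)) =
          if δ = γ then ((X δ γ : ℝ) : ℂ) • v else 0 := by
        intro γ
        rw [← smul_add, anticomm_apply]
        by_cases hd : δ = γ
        · simp [hd]
        · simp [hd]
      rw [Finset.sum_congr rfl fun γ _ => h3 γ]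
      simp
    rw [Finset.sum_congr rfl fun δ _ => h2 δ, ← Finset.sum_smul, Matrix.trace]
    push_cast
    rfl
  rw [Finset.sum_congr rfl fun A _ => h A, Finset.sum_const, Finset.card_univ, Fintype.card_fin,
    ← Nat.cast_smul_eq_nsmul ℂ, smul_smul]

/-- a bilinear only sees the antisymmetric part of its matrix (trace zero case) -/
theorem bil_eq_half (M : FermionRep N F) (X : Matrix (Fin 16) (Fin 16) ℝ) (hX : X.trace = 0)
    (v : F) : bil M X v = (1 / 2 : ℂ) • bil M (X - Xᵀ) v := by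
  have h := bil_add_transpose M X v
  rw [hX] at h
  simp only [Complex.ofReal_zero, mul_zero, zero_smul] at h
  rw [bil_sub, eq_neg_of_add_eq_zero_right h, sub_neg_eq_add, ← two_smul ℂ, smul_smul]
  norm_num

theorem Sp_rot (M : FermionRep N F) (G : GammaNine) {i j : Fin 9} (h : i ≠ j) (v : F) :
    Sp M G (rot i j) v = (1 / 4 : ℂ) • bil M (G.γ i * G.γ j) v := by
  have e1 : Sp M G (rot i j) v = (1 / 8 : ℂ) • ∑ k : Fin 9, ∑ l : Fin 9,
      (rot i j l k : ℂ) • bil M (G.γ k * G.γ l) v := by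
    unfold Sp bil
    simp only [LinearMap.smul_apply, LinearMap.sum_apply, LinearMap.comp_apply]
  have e2 : ∑ k : Fin 9, ∑ l : Fin 9, (rot i j l k : ℂ) • bil M (G.γ k * G.γ l) v =
      bil M (G.γ i * G.γ j) v - bil M (G.γ j * G.γ i) v := by
    simp only [rot, Matrix.sub_apply, Matrix.single_apply, Complex.ofReal_sub, sub_smul,
      Finset.sum_sub_distrib]
    congr 1
    · rw [Finset.sum_eq_single i, Finset.sum_eq_single j]
      · simp
      · intro l _ hl
        simp [Ne.symm hl]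
      · simp
      · intro k _ hk
        refine Finset.sum_eq_zero fun l _ => ?_
        simp [Ne.symm hk]
      · simp
    · rw [Finset.sum_eq_single j, Finset.sum_eq_single i]
      · simp
      · intro l _ hl
        simp [Ne.symm hl]
      · simp
      · intro k _ hk
        refine Finset.sum_eq_zero fun l _ => ?_
        simp [Ne.symm hk]
      · simp
  have e3 : bil M (G.γ j * G.γ i) v = - bil M (G.γ i * G.γ j) v := by
    rw [γ_ac G (Ne.symm h), ← neg_one_smul ℝ, bil_smul]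
    simp
  rw [e1, e2, e3, sub_neg_eq_add, ← two_smul ℂ, smul_smul]
  norm_num

/-! ### The fermionic mass term -/

theorem Lt_trace (G : GammaNine) (a b : Fin 16) :
    (Matrix.of (Lt G a b)).trace = 0 := by
  have h1 : (Matrix.of (Lt G a b)).trace = ∑ j, cc j * ((G.γ j * (Gam G * G.γ j)ᵀ) a b +
      (G.γ j * (Gam G * G.γ j)ᵀ) b a) := by
    rw [Matrix.trace]
    simp only [Matrix.diag_apply, Matrix.of_apply]
    unfold Spin288.Lt
    rw [Finset.sum_comm]
    refine Finset.sum_congr rfl fun j _ => ?_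
    rw [← Finset.mul_sum, Finset.sum_add_distrib]
    simp only [Matrix.mul_apply (M := G.γ j), Matrix.transpose_apply]
  have h2 : ∀ j, G.γ j * (Gam G * G.γ j)ᵀ = - Gam G := by
    intro j
    rw [Matrix.transpose_mul, Gam_transpose, G.symm, mul_neg, mul_neg, ← mul_assoc, γ_sq, one_mul]
  have h3 : Gam G a b + Gam G b a = 0 := by
    have := congrFun (congrFun (Gam_transpose G) b) a
    rw [Matrix.transpose_apply, Matrix.neg_apply] at this
    rw [this]; ring
  rw [h1]
  refine Finset.sum_eq_zero fun j _ => ?_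
  rw [h2, Matrix.neg_apply, Matrix.neg_apply]
  have : -Gam G a b + -Gam G b a = 0 := by linarith
  rw [this, mul_zero]

theorem bil_Lt (M : FermionRep N F) (G : GammaNine) (a b : Fin 16) (v : F) :
    bil M (Matrix.of (Lt G a b)) v =
      (if a = b then (1 / 4 : ℂ) • bil M (Gam G) v else 0) +
      ∑ p ∈ pairs, ((2 * (cc p.1 * (gg G p * Gam G) a b) : ℝ) : ℂ) •
        Sp M G (rot p.1 p.2) v := by
  rw [bil_eq_half M _ (Lt_trace G a b)]
  have h1 : Matrix.of (Lt G a b) - (Matrix.of (Lt G a b))ᵀ =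
      (if a = b then (1 / 2 : ℝ) else 0) • Gam G +
        ∑ p ∈ pairs, (cc p.1 * (gg G p * Gam G) a b) • gg G p := by
    ext α β
    rw [Matrix.sub_apply, Matrix.transpose_apply, Matrix.of_apply, Matrix.of_apply, spin_fierz,
      Matrix.add_apply, Matrix.smul_apply, Matrix.sum_apply]
    simp only [Matrix.smul_apply, smul_eq_mul]
  rw [h1, bil_add, bil_smul, bil_sum, smul_add, Finset.smul_sum]
  congr 1
  · split_ifs
    · rw [smul_smul]; norm_num
    · simp
  · refine Finset.sum_congr rfl fun p hp => ?_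
    rw [bil_smul, Sp_rot M G (mem_pairs.mp hp).1.ne, smul_smul, smul_smul]
    congr 1
    push_cast
    ring

/-- the mass coefficients of the charges -/
def mc (G : GammaNine) (α γ : Fin 16) (A : Fin (N ^ 2 - 1)) (x : Cfg N) : ℝ :=
  ∑ j : Fin 9, cc j * x (j, A) * (Gam G * G.γ j) α γ

theorem wpot_split (b : ColorBasis N) (G : GammaNine) (g m : ℝ) (α β : Fin 16)
    (A : Fin (N ^ 2 - 1)) (x : Cfg N) :
    wpot b G g m α β A x = wpot b G g 0 α β A x - m * mc G α β A x := by
  unfold wpot mc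
  ring


theorem diff_mc (G : GammaNine) (α γ : Fin 16) (A : Fin (N ^ 2 - 1)) :
    Differentiable ℝ (mc (N := N) G α γ A) := by
  unfold mc
  fun_prop

theorem pd_mc (G : GammaNine) (α γ : Fin 16) (A : Fin (N ^ 2 - 1)) (k : Fin 9 × Fin (N ^ 2 - 1))
    (x : Cfg N) :
    pd (mc G α γ A) k x = if k.2 = A then cc k.1 * (Gam G * G.γ k.1) α γ else 0 := by
  have e : mc (N := N) G α γ A = fun x => ∑ j : Fin 9, cc j * x (j, A) * (Gam G * G.γ j) α γ := rfl
  have h : fderiv ℝ (mc (N := N) G α γ A) x = ∑ j : Fin 9, (cc j * (Gam G * G.γ j) α γ) •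
      (EuclideanSpace.proj (j, A) : Cfg N →L[ℝ] ℝ) := by
    have h0 : mc (N := N) G α γ A = fun x => (∑ j : Fin 9, (cc j * (Gam G * G.γ j) α γ) •
      (EuclideanSpace.proj (j, A) : Cfg N →L[ℝ] ℝ)) x := by
      funext y
      rw [e]
      simp only [_root_.sum_apply, _root_.smul_apply, smul_eq_mul]
      refine Finset.sum_congr rfl fun j _ => ?_
      have : (EuclideanSpace.proj (j, A) : Cfg N →L[ℝ] ℝ) y = y (j, A) := rfl
      rw [this]
      ring
    rw [h0]
    exact ContinuousLinearMap.fderiv _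
  unfold pd
  rw [h]
  simp only [_root_.sum_apply, _root_.smul_apply, smul_eq_mul]
  have h1 : ∀ j : Fin 9, (EuclideanSpace.proj (j, A) : Cfg N →L[ℝ] ℝ)
      (EuclideanSpace.single k 1) = if (j, A) = k then 1 else 0 := by
    intro j
    simp [EuclideanSpace.proj]
  simp only [h1]
  rw [Finset.sum_eq_single k.1]
  · by_cases h2 : k.2 = A
    · have : (k.1, A) = k := Prod.ext rfl h2.symm
      rw [if_pos this, if_pos h2, mul_one]
    · have : (k.1, A) ≠ k := fun e => h2 (by rw [← e])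
      rw [if_neg this, if_neg h2, mul_zero]
  · intro j _ hj
    have : (j, A) ≠ k := fun e => hj (by rw [← e])
    rw [if_neg this, mul_zero]
  · simp

/-- the zero order fermionic contribution of the mass term -/
theorem ferm_mass (M : FermionRep N F) (G : GammaNine) (α β : Fin 16) (x : Cfg N) (v : F) :
    (∑ k, (-Complex.I) • (dco M G α k (vco M (fun γ A => pd (mc G β γ A) k x) v)
          + dco M G β k (vco M (fun γ A => pd (mc G α γ A) k x) v))) =
      (-Complex.I) • bil M (Matrix.of (Lt G α β)) v := by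
  have key : ∀ (α β : Fin 16) (k : Fin 9 × Fin (N ^ 2 - 1)),
      dco M G α k (vco M (fun γ A => pd (mc G β γ A) k x) v) =
      ∑ δ, ∑ γ, ((cc k.1 * (G.γ k.1 α δ * (Gam G * G.γ k.1) β γ) : ℝ) : ℂ) •
        M.θ δ k.2 (M.θ γ k.2 v) := by
    intro α β k
    have h1 : vco M (fun γ A => pd (mc G β γ A) k x) v =
        ∑ γ, ((cc k.1 * (Gam G * G.γ k.1) β γ : ℝ) : ℂ) • M.θ γ k.2 v := by
      rw [vco_apply, Finset.sum_eq_single k.2]
      · refine Finset.sum_congr rfl fun γ _ => ?_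
        rw [pd_mc, if_pos rfl]
      · intro A _ hA
        refine Finset.sum_eq_zero fun γ _ => ?_
        rw [pd_mc, if_neg (Ne.symm hA)]
        simp
      · simp
    rw [h1, dco_apply]
    refine Finset.sum_congr rfl fun δ _ => ?_
    rw [map_sum, Finset.smul_sum]
    refine Finset.sum_congr rfl fun γ _ => ?_
    rw [map_smul, smul_smul]
    congr 1
    push_cast
    ring
  rw [← Finset.smul_sum]
  congr 1
  simp only [key]
  rw [Fintype.sum_prod_type, Finset.sum_comm]
  unfold bil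
  refine Finset.sum_congr rfl fun A _ => ?_
  simp only [← Finset.sum_add_distrib, ← add_smul]
  rw [Finset.sum_comm]
  refine Finset.sum_congr rfl fun δ _ => ?_
  rw [Finset.sum_comm]
  refine Finset.sum_congr rfl fun γ _ => ?_
  rw [← Finset.sum_smul]
  congr 1
  rw [Matrix.of_apply]
  unfold Spin288.Lt
  push_cast
  refine Finset.sum_congr rfl fun j _ => ?_
  ring

/-! ### The first order mass term -/

/-- the symmetrised coefficient -/
def sy (G : GammaNine) (α β : Fin 16) (i j : Fin 9) : ℝ :=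
  (G.γ i * G.γ j * Gam G) α β + (G.γ i * G.γ j * Gam G) β α

theorem sy_swap_transpose (G : GammaNine) (α β : Fin 16) (i j : Fin 9) :
    (G.γ i * G.γ j * Gam G) β α = - (Gam G * (G.γ j * G.γ i)) α β := by
  have h : (G.γ i * G.γ j * Gam G)ᵀ = - (Gam G * (G.γ j * G.γ i)) := by
    rw [Matrix.transpose_mul, Matrix.transpose_mul, Gam_transpose, G.symm, G.symm, neg_mul]
  have := congrFun (congrFun h α) β
  rwa [Matrix.transpose_apply, Matrix.neg_apply] at this

theorem sy_same (G : GammaNine) (α β : Fin 16) {i j : Fin 9} (h : SB i j) :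
    sy G α β i j = 2 * (G.γ i * G.γ j * Gam G) α β := by
  unfold sy
  rw [sy_swap_transpose]
  have h1 : Gam G * (G.γ j * G.γ i) = - (G.γ i * G.γ j * Gam G) := by
    rw [γ_ac G h.1.symm, mul_neg]
    congr 1
    have := W_comm G (u := [0, 1, 2]) (w := [i, j]) (by
      revert h; unfold SB; revert i j; decide)
    rw [← Gam_eq] at this
    simpa [GapAlg916.W] using this
  rw [h1, Matrix.neg_apply]
  ring

theorem sy_zero (G : GammaNine) (α β : Fin 16) {i j : Fin 9} (h : ¬ SB i j) :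
    sy G α β i j = 0 := by
  unfold sy
  rw [sy_swap_transpose]
  by_cases hij : i = j
  · subst hij
    rw [γ_sq, one_mul, mul_one]
    ring
  · have h1 : Gam G * (G.γ j * G.γ i) = G.γ i * G.γ j * Gam G := by
      rw [γ_ac G (Ne.symm hij), mul_neg]
      have := W_anti G (u := [0, 1, 2]) (w := [i, j]) (by
        revert h hij; unfold SB; revert i j; decide)
      rw [← Gam_eq] at this
      rw [neg_eq_iff_eq_neg]
      simpa [GapAlg916.W] using this
    rw [h1]
    ring

theorem sy_antisymm (G : GammaNine) (α β : Fin 16) {i j : Fin 9} (h : i ≠ j) :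
    sy G α β j i = - sy G α β i j := by
  unfold sy
  rw [γ_ac G (Ne.symm h), neg_mul, Matrix.neg_apply, Matrix.neg_apply]
  ring

theorem fderiv_vf_rot {φ : Cfg N → F} {x : Cfg N} {i j : Fin 9} (h : i ≠ j) :
    fderiv ℝ φ x (vf (rot i j) x) =
      ∑ A, (((x (i, A) : ℝ) : ℂ) • pd φ (j, A) x - ((x (j, A) : ℝ) : ℂ) • pd φ (i, A) x) := by
  have h0 : vf (rot i j) x = ∑ A, (x (i, A) • EuclideanSpace.single (j, A) (1 : ℝ) -
      x (j, A) • EuclideanSpace.single (i, A) (1 : ℝ)) := by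
    ext ⟨k, B⟩
    rw [SDefs726.vf_apply]
    simp only [rot, Matrix.sub_apply, Matrix.single_apply, sub_mul, ite_mul, zero_mul, one_mul,
      Finset.sum_sub_distrib]
    rw [PiLp.sub_apply, WithLp.ofLp_sum, WithLp.ofLp_sum, Finset.sum_apply, Finset.sum_apply]
    simp only [PiLp.smul_apply, PiLp.single_apply, smul_eq_mul, mul_ite, mul_one,
      mul_zero, Prod.mk.injEq]
    by_cases hk : k = j
    · subst hk
      have h' : ¬ i = k := h
      simp [h', Ne.symm h]
    · by_cases hk2 : k = i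
      · subst hk2
        simp [hk, Ne.symm hk]
      · simp [hk, hk2, Ne.symm hk, Ne.symm hk2]
  rw [h0, map_sum]
  refine Finset.sum_congr rfl fun A _ => ?_
  rw [map_sub, map_smul, map_smul, Complex.coe_smul, Complex.coe_smul]
  rfl

theorem first_mass (G : GammaNine) (m : ℝ) (α β : Fin 16) (φ : Cfg N → F) (x : Cfg N) :
    (∑ k : Fin 9 × Fin (N ^ 2 - 1), (-Complex.I * ((∑ γ, (G.γ k.1 α γ * (-(m * mc G β γ k.2 x)) +
        G.γ k.1 β γ * (-(m * mc G α γ k.2 x))) : ℝ) : ℂ)) • pd φ k x) =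
      ∑ p ∈ pairs, (2 * Complex.I * ((m * (cc p.1 * (gg G p * Gam G) α β) : ℝ) : ℂ)) •
        fderiv ℝ φ x (vf (rot p.1 p.2) x) := by
  have key : ∀ (α β : Fin 16) (i : Fin 9) (A : Fin (N ^ 2 - 1)),
      ∑ γ, G.γ i α γ * (-(m * mc G β γ A x)) =
        m * ∑ j, cc j * x (j, A) * (G.γ i * G.γ j * Gam G) α β := by
    intro α β i A
    have h1 : ∀ j, (G.γ i * G.γ j * Gam G) α β = - ∑ γ, G.γ i α γ * (Gam G * G.γ j) β γ := by
      intro j
      have : G.γ i * (Gam G * G.γ j)ᵀ = - (G.γ i * G.γ j * Gam G) := by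
        rw [Matrix.transpose_mul, Gam_transpose, G.symm, mul_neg, mul_neg, ← mul_assoc]
      have h2 := congrFun (congrFun this α) β
      rw [Matrix.neg_apply, Matrix.mul_apply] at h2
      simp only [Matrix.transpose_apply] at h2
      linarith
    simp only [h1]
    unfold mc
    simp only [Finset.mul_sum, ← Finset.sum_neg_distrib]
    rw [Finset.sum_comm]
    refine Finset.sum_congr rfl fun j _ => Finset.sum_congr rfl fun γ _ => ?_
    ring
  have e1 : ∀ k : Fin 9 × Fin (N ^ 2 - 1), (-Complex.I * ((∑ γ, (G.γ k.1 α γ *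
      (-(m * mc G β γ k.2 x)) + G.γ k.1 β γ * (-(m * mc G α γ k.2 x))) : ℝ) : ℂ)) • pd φ k x =
      ∑ j, (-Complex.I * ((m * (cc j * x (j, k.2) * sy G α β k.1 j) : ℝ) : ℂ)) • pd φ k x := by
    intro k
    rw [Finset.sum_add_distrib, key, key, ← Finset.sum_smul, ← Finset.mul_sum]
    congr 2
    rw [← mul_add, ← Finset.sum_add_distrib, Complex.ofReal_mul, Complex.ofReal_sum]
    rw [Finset.mul_sum]
    refine Finset.sum_congr rfl fun j _ => ?_
    unfold sy
    push_cast
    ring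
  rw [Finset.sum_congr rfl fun k _ => e1 k, Fintype.sum_prod_type]
  rw [Finset.sum_congr rfl fun i _ => Finset.sum_comm]
  rw [sum_pairs (fun i j => ∑ A, (-Complex.I * ((m * (cc j * x (j, A) * sy G α β i j) : ℝ) : ℂ)) •
    pd φ (i, A) x)]
  · refine Finset.sum_congr rfl fun p hp => ?_
    have hp' := mem_pairs.mp hp
    have hsb : SB p.1 p.2 := ⟨hp'.1.ne, hp'.2⟩
    have hcc : cc p.2 = cc p.1 := by
      unfold cc
      by_cases h : (p.1 : ℕ) < 3
      · rw [if_pos h, if_pos (hp'.2.mp h)]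
      · rw [if_neg h, if_neg fun h' => h (hp'.2.mpr h')]
    rw [fderiv_vf_rot hp'.1.ne, ← Finset.sum_add_distrib, Finset.smul_sum]
    refine Finset.sum_congr rfl fun A _ => ?_
    rw [sy_antisymm G α β hp'.1.ne, sy_same G α β hsb, hcc, smul_sub, smul_smul, smul_smul,
      sub_eq_add_neg, ← neg_smul, add_comm]
    unfold gg
    congr 2
    · push_cast; ring
    · push_cast; ring
  · intro i j hij
    refine Finset.sum_eq_zero fun A _ => ?_
    rw [sy_zero G α β hij]
    simp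

/-! ### The potential: mass squared -/

theorem pot_mass2 (G : GammaNine) (α β : Fin 16) (x : Cfg N) :
    ∑ A, ∑ γ, mc G α γ A x * mc G β γ A x =
      if α = β then ∑ j, cc j ^ 2 * ∑ A, x (j, A) ^ 2 else 0 := by
  have h1 : ∀ A, ∑ γ, mc G α γ A x * mc G β γ A x =
      - (Gam G * ((∑ j, (cc j * x (j, A)) • G.γ j) * (∑ j, (cc j * x (j, A)) • G.γ j)) *
        Gam G) α β := by
    intro A
    have e : ∀ α γ, mc G α γ A x = (Gam G * ∑ j, (cc j * x (j, A)) • G.γ j) α γ := by
      intro α γ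
      unfold mc
      rw [Finset.mul_sum, Matrix.sum_apply]
      refine Finset.sum_congr rfl fun j _ => ?_
      rw [mul_smul_comm, Matrix.smul_apply, smul_eq_mul]
    set S : Matrix (Fin 16) (Fin 16) ℝ := ∑ j, (cc j * x (j, A)) • G.γ j with hS
    have hST : Sᵀ = S := by
      rw [hS, Matrix.transpose_sum]
      refine Finset.sum_congr rfl fun j _ => ?_
      rw [Matrix.transpose_smul, G.symm]
    simp only [e]
    have e2 : (Gam G * S * (Gam G * S)ᵀ) α β = ∑ γ, (Gam G * S) α γ * (Gam G * S) β γ := by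
      rw [Matrix.mul_apply]
      simp only [Matrix.transpose_apply]
    rw [← e2, Matrix.transpose_mul, hST, Gam_transpose, mul_neg, mul_neg, Matrix.neg_apply]
    simp only [mul_assoc]
  have h2 : ∀ A, (∑ j, (cc j * x (j, A)) • G.γ j) * (∑ j, (cc j * x (j, A)) • G.γ j) =
      (∑ j, cc j ^ 2 * x (j, A) ^ 2) • (1 : Matrix (Fin 16) (Fin 16) ℝ) := by
    intro A
    have e3 : (∑ j, (cc j * x (j, A)) • G.γ j) * (∑ j, (cc j * x (j, A)) • G.γ j) =
        ∑ i, ∑ j, ((cc i * x (i, A)) * (cc j * x (j, A))) • (G.γ i * G.γ j) := by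
      rw [Finset.sum_mul]
      refine Finset.sum_congr rfl fun i _ => ?_
      rw [Finset.mul_sum]
      refine Finset.sum_congr rfl fun j _ => ?_
      rw [smul_mul_smul_comm]
    have e4 : (2 : ℝ) • ∑ i, ∑ j, ((cc i * x (i, A)) * (cc j * x (j, A))) • (G.γ i * G.γ j) =
        (2 : ℝ) • ((∑ j, cc j ^ 2 * x (j, A) ^ 2) • (1 : Matrix (Fin 16) (Fin 16) ℝ)) := by
      rw [two_smul]
      conv_lhs => arg 2; rw [Finset.sum_comm]
      rw [← Finset.sum_add_distrib]
      have e5 : ∀ i, (∑ j, ((cc i * x (i, A)) * (cc j * x (j, A))) • (G.γ i * G.γ j)) +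
          ∑ j, ((cc j * x (j, A)) * (cc i * x (i, A))) • (G.γ j * G.γ i) =
          (2 * (cc i ^ 2 * x (i, A) ^ 2)) • (1 : Matrix (Fin 16) (Fin 16) ℝ) := by
        intro i
        rw [← Finset.sum_add_distrib, Finset.sum_eq_single i]
        · rw [γ_sq, ← add_smul]
          congr 1
          ring
        · intro j _ hj
          rw [γ_ac G hj, smul_neg, mul_comm (cc j * x (j, A))]
          simp
        · simp
      rw [Finset.sum_congr rfl fun i _ => e5 i, ← Finset.sum_smul, smul_smul, Finset.mul_sum]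
    rw [e3]
    exact smul_right_injective _ (two_ne_zero (α := ℝ)) e4
  simp only [h1, h2]
  have h3 : ∀ c : ℝ, Gam G * (c • (1 : Matrix (Fin 16) (Fin 16) ℝ)) * Gam G =
      (-c) • (1 : Matrix (Fin 16) (Fin 16) ℝ) := by
    intro c
    rw [mul_smul_comm, mul_one, smul_mul_assoc, Gam_sq, smul_neg, neg_smul]
  simp only [h3, Matrix.smul_apply, Matrix.one_apply, smul_eq_mul, neg_mul, neg_neg]
  split_ifs with h
  · simp only [mul_one]
    rw [Finset.sum_comm]
    refine Finset.sum_congr rfl fun j _ => ?_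
    rw [Finset.mul_sum]
  · simp

/-! ### The potential: the cubic term -/

/-- `⟨[x_i, x_j], x_l⟩` -/
def T3 (b : ColorBasis N) (x : Cfg N) (i j l : Fin 9) : ℝ :=
  ∑ A, ∑ B, ∑ C, b.structConst A B C * x (l, A) * x (i, B) * x (j, C)

theorem T3_cyc (b : ColorBasis N) (x : Cfg N) (i j l : Fin 9) : T3 b x j l i = T3 b x i j l := by
  unfold T3
  have e : ∀ f : Fin (N ^ 2 - 1) → Fin (N ^ 2 - 1) → Fin (N ^ 2 - 1) → ℝ,
      ∑ A, ∑ B, ∑ C, f A B C = ∑ A, ∑ B, ∑ C, f B C A := by
    intro f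
    symm
    rw [Finset.sum_comm]
    exact Finset.sum_congr rfl fun B _ => Finset.sum_comm
  rw [e]
  refine Finset.sum_congr rfl fun A _ => Finset.sum_congr rfl fun B _ =>
    Finset.sum_congr rfl fun C _ => ?_
  rw [Col962.f_cyc]
  ring

theorem T3_swap (b : ColorBasis N) (x : Cfg N) (i j l : Fin 9) : T3 b x j i l = - T3 b x i j l := by
  unfold T3
  rw [← Finset.sum_neg_distrib]
  refine Finset.sum_congr rfl fun A _ => ?_
  rw [← Finset.sum_neg_distrib, Finset.sum_comm]
  refine Finset.sum_congr rfl fun B _ => ?_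
  rw [← Finset.sum_neg_distrib]
  refine Finset.sum_congr rfl fun C _ => ?_
  rw [Col962.f_swap23]
  ring

/-- the symmetrised three-gamma coefficient -/
def Y3 (G : GammaNine) (α β : Fin 16) (i j l : Fin 9) : ℝ :=
  (GapAlg916.W G [i, j, l] * GapAlg916.W G [0, 1, 2] +
    GapAlg916.W G [0, 1, 2] * GapAlg916.W G [i, j, l]) α β

theorem T3_zero1 (b : ColorBasis N) (x : Cfg N) (i l : Fin 9) : T3 b x i i l = 0 := by
  have := T3_swap b x i i l
  linarith

theorem T3_zero2 (b : ColorBasis N) (x : Cfg N) (i l : Fin 9) : T3 b x l i i = 0 := by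
  rw [← T3_cyc b x l i i, T3_zero1]

theorem T3_zero3 (b : ColorBasis N) (x : Cfg N) (i l : Fin 9) : T3 b x i l i = 0 := by
  rw [← T3_cyc b x i l i, T3_zero2]

def h3 (b : ColorBasis N) (G : GammaNine) (α β : Fin 16) (x : Cfg N) (i j l : Fin 9) : ℝ :=
  T3 b x i j l * Y3 G α β i j l

theorem W3_swap (G : GammaNine) {i j : Fin 9} (h : i ≠ j) (l : Fin 9) :
    GapAlg916.W G [j, i, l] = - GapAlg916.W G [i, j, l] := by
  simp only [GapAlg916.W_cons, GapAlg916.W_nil, mul_one]
  rw [← mul_assoc, γ_ac G h.symm, neg_mul, mul_assoc]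

theorem W3_cyc (G : GammaNine) {i j l : Fin 9} (h : i ≠ j) (h' : i ≠ l) :
    GapAlg916.W G [j, l, i] = GapAlg916.W G [i, j, l] := by
  simp only [GapAlg916.W_cons, GapAlg916.W_nil, mul_one]
  rw [γ_ac G h'.symm, mul_neg, ← mul_assoc, γ_ac G h.symm, neg_mul, neg_neg, mul_assoc]

theorem h3_swap (b : ColorBasis N) (G : GammaNine) (α β : Fin 16) (x : Cfg N) (i j l : Fin 9) :
    h3 b G α β x j i l = h3 b G α β x i j l := by
  unfold h3
  by_cases h : i = j
  · subst h; rfl
  · have hY : Y3 G α β j i l = - Y3 G α β i j l := by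
      unfold Y3
      rw [W3_swap G h, neg_mul, mul_neg, ← neg_add, Matrix.neg_apply]
    rw [T3_swap, hY]
    ring

theorem h3_cyc (b : ColorBasis N) (G : GammaNine) (α β : Fin 16) (x : Cfg N) (i j l : Fin 9) :
    h3 b G α β x j l i = h3 b G α β x i j l := by
  unfold h3
  by_cases h : i = j
  · subst h; rw [T3_zero1, T3_zero3]; ring
  · by_cases h' : i = l
    · subst h'; rw [T3_zero3, T3_zero2]; ring
    · rw [T3_cyc]
      unfold Y3
      rw [W3_cyc G h h']

def Perm3 (i j l : Fin 9) : Prop :=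
  i ≠ j ∧ i ≠ l ∧ j ≠ l ∧ i.val < 3 ∧ j.val < 3 ∧ l.val < 3

instance (i j l : Fin 9) : Decidable (Perm3 i j l) := by unfold Perm3; infer_instance

theorem perm_cases : ∀ i j l : Fin 9, Perm3 i j l →
    (i = 0 ∧ j = 1 ∧ l = 2) ∨ (i = 1 ∧ j = 2 ∧ l = 0) ∨ (i = 2 ∧ j = 0 ∧ l = 1) ∨
    (i = 1 ∧ j = 0 ∧ l = 2) ∨ (i = 0 ∧ j = 2 ∧ l = 1) ∨ (i = 2 ∧ j = 1 ∧ l = 0) := by
  decide +kernel

theorem perm_count : (Finset.univ.filter fun p : Fin 9 × Fin 9 × Fin 9 =>
    Perm3 p.1 p.2.1 p.2.2).card = 6 := by decide +kernel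

theorem nonperm : ∀ i j l : Fin 9, i ≠ j → i ≠ l → j ≠ l → ¬ Perm3 i j l →
    (Spin288.c6 i + Spin288.c6 j + Spin288.c6 l = 0 ∨ sgw [i, j, l] [0, 1, 2] = -1) := by
  decide +kernel

theorem h3_val (b : ColorBasis N) (G : GammaNine) (α β : Fin 16) (x : Cfg N) (i j l : Fin 9) :
    (cc i + cc j + cc l) * h3 b G α β x i j l =
      if Perm3 i j l then (if α = β then -2 * T3 b x 0 1 2 else 0) else 0 := by
  by_cases hP : Perm3 i j l
  · rw [if_pos hP]
    have hc : cc i + cc j + cc l = 1 := by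
      unfold cc
      rw [if_pos hP.2.2.2.1, if_pos hP.2.2.2.2.1, if_pos hP.2.2.2.2.2]
      norm_num
    have h0 : h3 b G α β x i j l = h3 b G α β x 0 1 2 := by
      rcases perm_cases i j l hP with h | h | h | h | h | h <;> obtain ⟨rfl, rfl, rfl⟩ := h
      · rfl
      · rw [h3_cyc]
      · rw [h3_cyc, h3_cyc]
      · rw [h3_swap]
      · rw [← h3_cyc, h3_swap, h3_cyc]
      · rw [← h3_cyc, h3_swap]
    rw [hc, h0, one_mul]
    unfold h3 Y3
    rw [← Gam_eq, Gam_sq, Matrix.add_apply, Matrix.neg_apply, Matrix.one_apply]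
    split_ifs <;> ring
  · rw [if_neg hP]
    by_cases h1 : i = j
    · subst h1; unfold h3; rw [T3_zero1]; ring
    by_cases h2 : i = l
    · subst h2; unfold h3; rw [T3_zero3]; ring
    by_cases h3' : j = l
    · subst h3'; unfold h3; rw [T3_zero2]; ring
    rcases nonperm i j l h1 h2 h3' hP with h | h
    · have : cc i + cc j + cc l = 0 := by
        rw [Spin288.cc_eq, Spin288.cc_eq, Spin288.cc_eq, ← add_div, ← add_div]
        have h' : ((Spin288.c6 i : ℝ) + Spin288.c6 j + Spin288.c6 l) = 0 := by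
          exact_mod_cast h
        rw [h', zero_div]
      rw [this, zero_mul]
    · unfold h3 Y3
      rw [W_anti G h, neg_add_cancel, Matrix.zero_apply]
      ring

theorem sum_h3 (b : ColorBasis N) (G : GammaNine) (α β : Fin 16) (x : Cfg N) :
    ∑ i, ∑ j, ∑ l, cc l * h3 b G α β x i j l = if α = β then -4 * T3 b x 0 1 2 else 0 := by
  have e : ∀ f : Fin 9 → Fin 9 → Fin 9 → ℝ,
      ∑ i, ∑ j, ∑ l, f i j l = ∑ i, ∑ j, ∑ l, f j l i := by
    intro f
    symm
    rw [Finset.sum_comm]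
    exact Finset.sum_congr rfl fun B _ => Finset.sum_comm
  have e1 : ∑ i, ∑ j, ∑ l, cc l * h3 b G α β x i j l =
      ∑ i, ∑ j, ∑ l, cc i * h3 b G α β x i j l := by
    rw [e]
    refine Finset.sum_congr rfl fun i _ => Finset.sum_congr rfl fun j _ =>
      Finset.sum_congr rfl fun l _ => ?_
    rw [h3_cyc]
  have e2 : ∑ i, ∑ j, ∑ l, cc l * h3 b G α β x i j l =
      ∑ i, ∑ j, ∑ l, cc j * h3 b G α β x i j l := by
    rw [e1, e]
    refine Finset.sum_congr rfl fun i _ => Finset.sum_congr rfl fun j _ =>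
      Finset.sum_congr rfl fun l _ => ?_
    rw [h3_cyc]
  have e3 : 3 * ∑ i, ∑ j, ∑ l, cc l * h3 b G α β x i j l =
      ∑ i, ∑ j, ∑ l, (cc i + cc j + cc l) * h3 b G α β x i j l := by
    have : ∑ i, ∑ j, ∑ l, (cc i + cc j + cc l) * h3 b G α β x i j l =
        (∑ i, ∑ j, ∑ l, cc i * h3 b G α β x i j l) +
        (∑ i, ∑ j, ∑ l, cc j * h3 b G α β x i j l) +
        ∑ i, ∑ j, ∑ l, cc l * h3 b G α β x i j l := by
      simp only [← Finset.sum_add_distrib, ← add_mul]
    rw [this, ← e1, ← e2]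
    ring
  have e4 : ∑ i, ∑ j, ∑ l, (cc i + cc j + cc l) * h3 b G α β x i j l =
      6 * (if α = β then -2 * T3 b x 0 1 2 else 0) := by
    simp only [h3_val]
    have e5 : ∑ i : Fin 9, ∑ j : Fin 9, ∑ l : Fin 9,
        (if Perm3 i j l then (if α = β then -2 * T3 b x 0 1 2 else 0) else 0) =
        ∑ p : Fin 9 × Fin 9 × Fin 9, if Perm3 p.1 p.2.1 p.2.2 then
          (if α = β then -2 * T3 b x 0 1 2 else 0) else 0 := by
      rw [Fintype.sum_prod_type]
      refine Finset.sum_congr rfl fun i _ => ?_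
      rw [Fintype.sum_prod_type]
    rw [e5, ← Finset.sum_filter, Finset.sum_const, perm_count, nsmul_eq_mul]
    norm_num
  rw [e4] at e3
  split_ifs with h
  · rw [if_pos h] at e3
    linarith
  · rw [if_neg h] at e3
    linarith

theorem γ2_mul_sym (G : GammaNine) (α β : Fin 16) {i j l : Fin 9} (h : i ≠ j) (h1 : i ≠ l)
    (h2 : j ≠ l) :
    (G.γ2 i j * G.γ l * Gam G) α β + (G.γ2 i j * G.γ l * Gam G) β α = Y3 G α β i j l := by
  have e : G.γ2 i j = G.γ i * G.γ j := by
    unfold GammaNine.γ2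
    rw [γ_ac G h.symm, sub_neg_eq_add, ← two_smul ℝ, smul_smul]
    norm_num
  have eT : (G.γ i * G.γ j * G.γ l * Gam G)ᵀ = GapAlg916.W G [0, 1, 2] * GapAlg916.W G [i, j, l] := by
    rw [Matrix.transpose_mul, Matrix.transpose_mul, Matrix.transpose_mul, Gam_transpose, G.symm,
      G.symm, G.symm, ← Gam_eq]
    simp only [GapAlg916.W_cons, GapAlg916.W_nil, mul_one]
    rw [neg_mul, ← mul_neg]
    congr 1
    rw [γ_ac G h.symm, mul_neg, neg_neg, ← mul_assoc, γ_ac G h1.symm, neg_mul, mul_assoc,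
      γ_ac G h2.symm, mul_neg, neg_neg]
  have e1 : (G.γ i * G.γ j * G.γ l * Gam G) β α =
      (GapAlg916.W G [0, 1, 2] * GapAlg916.W G [i, j, l]) α β := by
    rw [← eT, Matrix.transpose_apply]
  have e2 : G.γ i * G.γ j * G.γ l * Gam G =
      GapAlg916.W G [i, j, l] * GapAlg916.W G [0, 1, 2] := by
    rw [← Gam_eq]
    simp only [GapAlg916.W_cons, GapAlg916.W_nil, mul_one, mul_assoc]
  rw [e, e1, e2]
  rfl

/-- half of the cubic cross term -/
theorem half_cross (b : ColorBasis N) (G : GammaNine) (g : ℝ) (α β : Fin 16) (x : Cfg N) :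
    ∑ A, ∑ γ, wpot b G g 0 α γ A x * mc G β γ A x =
      -(g / 2) * ∑ i, ∑ j, ∑ l, T3 b x i j l * (cc l * (G.γ2 i j * G.γ l * Gam G) α β) := by
  have h1 : ∀ A, ∑ γ, wpot b G g 0 α γ A x * mc G β γ A x =
      ∑ i, ∑ j, ∑ l, (∑ B, ∑ C, b.structConst A B C * x (l, A) * x (i, B) * x (j, C)) *
        (-(g / 2) * (cc l * (G.γ2 i j * G.γ l * Gam G) α β)) := by
    intro A
    have e0 : ∀ γ, wpot b G g 0 α γ A x = ∑ i, ∑ j,
        (g / 2 * ∑ B, ∑ C, b.structConst A B C * x (i, B) * x (j, C)) * G.γ2 i j α γ := by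
      intro γ
      unfold wpot
      rw [zero_mul, sub_zero]
      simp only [Finset.mul_sum, Finset.sum_mul]
      rw [Finset.sum_congr rfl fun B _ => Finset.sum_comm, Finset.sum_comm]
      refine Finset.sum_congr rfl fun i _ => ?_
      rw [Finset.sum_congr rfl fun B _ => Finset.sum_comm, Finset.sum_comm]
      refine Finset.sum_congr rfl fun j _ => Finset.sum_congr rfl fun B _ =>
        Finset.sum_congr rfl fun C _ => ?_
      ring
    have e1 : ∀ i j l, (G.γ2 i j * G.γ l * Gam G) α β =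
        - ∑ γ, G.γ2 i j α γ * (Gam G * G.γ l) β γ := by
      intro i j l
      have : G.γ2 i j * (Gam G * G.γ l)ᵀ = - (G.γ2 i j * G.γ l * Gam G) := by
        rw [Matrix.transpose_mul, Gam_transpose, G.symm, mul_neg, mul_neg, ← mul_assoc]
      have h2 := congrFun (congrFun this α) β
      rw [Matrix.neg_apply, Matrix.mul_apply] at h2
      simp only [Matrix.transpose_apply] at h2
      linarith
    simp only [e0, e1]
    unfold mc
    have e2 : ∀ γ, (∑ i, ∑ j, (g / 2 * ∑ B, ∑ C, b.structConst A B C * x (i, B) * x (j, C)) *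
        G.γ2 i j α γ) * (∑ l, cc l * x (l, A) * (Gam G * G.γ l) β γ) =
        ∑ i, ∑ j, ∑ l, (∑ B, ∑ C, b.structConst A B C * x (l, A) * x (i, B) * x (j, C)) *
          (g / 2 * (cc l * (G.γ2 i j α γ * (Gam G * G.γ l) β γ))) := by
      intro γ
      rw [Finset.sum_mul]
      refine Finset.sum_congr rfl fun i _ => ?_
      rw [Finset.sum_mul]
      refine Finset.sum_congr rfl fun j _ => ?_
      rw [Finset.mul_sum]
      refine Finset.sum_congr rfl fun l _ => ?_
      have e3 : ∑ B, ∑ C, b.structConst A B C * x (l, A) * x (i, B) * x (j, C) =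
          x (l, A) * ∑ B, ∑ C, b.structConst A B C * x (i, B) * x (j, C) := by
        rw [Finset.mul_sum]
        refine Finset.sum_congr rfl fun B _ => ?_
        rw [Finset.mul_sum]
        refine Finset.sum_congr rfl fun C _ => ?_
        ring
      rw [e3]
      ring
    rw [Finset.sum_congr rfl fun γ _ => e2 γ, Finset.sum_comm]
    refine Finset.sum_congr rfl fun i _ => ?_
    rw [Finset.sum_comm]
    refine Finset.sum_congr rfl fun j _ => ?_
    rw [Finset.sum_comm]
    refine Finset.sum_congr rfl fun l _ => ?_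
    rw [← Finset.mul_sum]
    congr 1
    rw [← Finset.mul_sum, ← Finset.mul_sum]
    ring
  rw [Finset.sum_congr rfl fun A _ => h1 A, Finset.sum_comm, Finset.mul_sum]
  refine Finset.sum_congr rfl fun i _ => ?_
  rw [Finset.sum_comm, Finset.mul_sum]
  refine Finset.sum_congr rfl fun j _ => ?_
  rw [Finset.sum_comm, Finset.mul_sum]
  refine Finset.sum_congr rfl fun l _ => ?_
  rw [← Finset.sum_mul]
  unfold T3
  ring

theorem pot_cross (b : ColorBasis N) (G : GammaNine) (g : ℝ) (α β : Fin 16) (x : Cfg N) :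
    (∑ A, ∑ γ, wpot b G g 0 α γ A x * mc G β γ A x) +
      ∑ A, ∑ γ, wpot b G g 0 β γ A x * mc G α γ A x =
      if α = β then 2 * g * T3 b x 0 1 2 else 0 := by
  rw [half_cross, half_cross, ← mul_add]
  have e : (∑ i, ∑ j, ∑ l, T3 b x i j l * (cc l * (G.γ2 i j * G.γ l * Gam G) α β)) +
      ∑ i, ∑ j, ∑ l, T3 b x i j l * (cc l * (G.γ2 i j * G.γ l * Gam G) β α) =
      ∑ i, ∑ j, ∑ l, cc l * h3 b G α β x i j l := by
    simp only [← Finset.sum_add_distrib]
    refine Finset.sum_congr rfl fun i _ => Finset.sum_congr rfl fun j _ =>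
      Finset.sum_congr rfl fun l _ => ?_
    unfold h3
    by_cases h1 : i = j
    · subst h1; rw [T3_zero1]; ring
    by_cases h2 : i = l
    · subst h2; rw [T3_zero3]; ring
    by_cases h3' : j = l
    · subst h3'; rw [T3_zero2]; ring
    rw [← γ2_mul_sym G α β h1 h2 h3']
    ring
  rw [e, sum_h3]
  split_ifs <;> ring

/-! ### The main statement -/

/-- the mass part of the Hamiltonian -/
def Hmass (b : ColorBasis N) (M : FermionRep N F) (G : GammaNine) (g m : ℝ) (φ : Cfg N → F)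
    (x : Cfg N) : F :=
  ((-(g * m * T3 b x 0 1 2) + 1 / 2 * m ^ 2 * ∑ j, cc j ^ 2 * ∑ A, x (j, A) ^ 2 : ℝ) : ℂ) • φ x +
    (((m / 8 : ℝ) : ℂ) * Complex.I) • bil M (Gam G) (φ x)

theorem pot_mass (b : ColorBasis N) (G : GammaNine) (g m : ℝ) (α β : Fin 16) (x : Cfg N) :
    ∑ A, ∑ γ, wpot b G g m α γ A x * wpot b G g m β γ A x =
      (∑ A, ∑ γ, wpot b G g 0 α γ A x * wpot b G g 0 β γ A x) +
        if α = β then 2 * (-(g * m * T3 b x 0 1 2) + 1 / 2 * m ^ 2 * ∑ j, cc j ^ 2 *
          ∑ A, x (j, A) ^ 2) else 0 := by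
  have e : ∑ A, ∑ γ, wpot b G g m α γ A x * wpot b G g m β γ A x =
      (∑ A, ∑ γ, wpot b G g 0 α γ A x * wpot b G g 0 β γ A x) -
      m * ((∑ A, ∑ γ, wpot b G g 0 α γ A x * mc G β γ A x) +
        ∑ A, ∑ γ, wpot b G g 0 β γ A x * mc G α γ A x) +
      m ^ 2 * ∑ A, ∑ γ, mc G α γ A x * mc G β γ A x := by
    simp only [Finset.mul_sum, ← Finset.sum_add_distrib, ← Finset.sum_sub_distrib]
    refine Finset.sum_congr rfl fun A _ => Finset.sum_congr rfl fun γ _ => ?_
    rw [wpot_split b G g m α γ, wpot_split b G g m β γ]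
    ring
  rw [e, pot_cross, pot_mass2]
  split_ifs <;> ring

theorem vco_sub_smul (M : FermionRep N F) (m : ℝ) (a c : Fin 16 → Fin (N ^ 2 - 1) → ℝ) (v : F) :
    vco M (fun γ A => a γ A - m * c γ A) v = vco M a v - (m : ℂ) • vco M c v := by
  rw [vco_apply, vco_apply, vco_apply, Finset.smul_sum, ← Finset.sum_sub_distrib]
  refine Finset.sum_congr rfl fun A _ => ?_
  rw [Finset.smul_sum, ← Finset.sum_sub_distrib]
  refine Finset.sum_congr rfl fun γ _ => ?_
  rw [smul_smul, ← sub_smul]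
  push_cast
  rfl

theorem pd_wpot (b : ColorBasis N) (G : GammaNine) (g m : ℝ) (α γ : Fin 16)
    (A : Fin (N ^ 2 - 1)) (k : Fin 9 × Fin (N ^ 2 - 1)) (x : Cfg N) :
    pd (wpot b G g m α γ A) k x = pd (wpot b G g 0 α γ A) k x - m * pd (mc G α γ A) k x := by
  have h : wpot b G g m α γ A = fun x => wpot b G g 0 α γ A x - m * mc G α γ A x :=
    funext fun x => wpot_split b G g m α γ A x
  have hd : DifferentiableAt ℝ (wpot b G g 0 α γ A) x :=
    (Brid837.wpot_contDiff (n := 1) γ A).differentiable (by norm_num) x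
  rw [h]
  unfold pd
  rw [fderiv_fun_sub hd ((diff_mc G α γ A x).const_mul m), fderiv_const_mul (diff_mc G α γ A x)]
  rfl

/-- **The mass terms of the master identity**: for every `C²` function. -/
theorem anti_mass (b : ColorBasis N) (M : FermionRep N F) (G : GammaNine) (g m : ℝ)
    {φ : Cfg N → F} (hφ : ContDiff ℝ 2 φ) (α β : Fin 16) (x : Cfg N) :
    dcharge b M G g m α (dcharge b M G g m β φ) x + dcharge b M G g m β (dcharge b M G g m α φ) x =
      (dcharge b M G g 0 α (dcharge b M G g 0 β φ) x +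
        dcharge b M G g 0 β (dcharge b M G g 0 α φ) x) +
      (if α = β then (2 : ℂ) • Hmass b M G g m φ x else 0) +
      ∑ p ∈ pairs, (2 * Complex.I * ((m * cc p.1 * (gg G p * Gam G) α β : ℝ) : ℂ)) •
        Jg M G (rot p.1 p.2) φ x := by
  have hd : ∀ (m : ℝ) (δ γ : Fin 16) (A : Fin (N ^ 2 - 1)),
      DifferentiableAt ℝ (wpot b G g m δ γ A) x := fun m δ γ A =>
    (Brid837.wpot_contDiff (n := 1) γ A).differentiable (by norm_num) x
  rw [Brid837.dcharge_eq, Brid837.dcharge_eq, Brid837.dcharge_eq, Brid837.dcharge_eq,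
    Brid837.dcharge_eq, Brid837.dcharge_eq, Brid837.dcharge_eq, Brid837.dcharge_eq]
  rw [chargeW_anti hφ α β (hd m), chargeW_anti hφ α β (hd 0), pot_mass]
  -- fermionic zero order term
  have hF : (∑ k, (-Complex.I) • (dco M G α k (vco M (fun γ A => pd (wpot b G g m β γ A) k x) (φ x))
          + dco M G β k (vco M (fun γ A => pd (wpot b G g m α γ A) k x) (φ x)))) =
      (∑ k, (-Complex.I) • (dco M G α k (vco M (fun γ A => pd (wpot b G g 0 β γ A) k x) (φ x))
          + dco M G β k (vco M (fun γ A => pd (wpot b G g 0 α γ A) k x) (φ x)))) +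
      ((m : ℂ) * Complex.I) • bil M (Matrix.of (Lt G α β)) (φ x) := by
    have h1 := ferm_mass M G α β x (φ x)
    have h2 : ((m : ℂ) * Complex.I) • bil M (Matrix.of (Lt G α β)) (φ x) =
        (-(m : ℂ)) • ((-Complex.I) • bil M (Matrix.of (Lt G α β)) (φ x)) := by
      rw [smul_smul]; congr 1; ring
    rw [h2, ← h1, Finset.smul_sum, ← Finset.sum_add_distrib]
    refine Finset.sum_congr rfl fun k _ => ?_
    simp only [pd_wpot b G g m, vco_sub_smul, map_sub, map_smul]
    module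
  -- first order term
  have h1st : (∑ k : Fin 9 × Fin (N ^ 2 - 1), (-Complex.I * ((∑ γ, (G.γ k.1 α γ *
        wpot b G g m β γ k.2 x + G.γ k.1 β γ * wpot b G g m α γ k.2 x) : ℝ) : ℂ)) • pd φ k x) =
      (∑ k : Fin 9 × Fin (N ^ 2 - 1), (-Complex.I * ((∑ γ, (G.γ k.1 α γ *
        wpot b G g 0 β γ k.2 x + G.γ k.1 β γ * wpot b G g 0 α γ k.2 x) : ℝ) : ℂ)) • pd φ k x) +
      ∑ p ∈ pairs, (2 * Complex.I * ((m * (cc p.1 * (gg G p * Gam G) α β) : ℝ) : ℂ)) •
        fderiv ℝ φ x (vf (rot p.1 p.2) x) := by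
    rw [← first_mass, ← Finset.sum_add_distrib]
    refine Finset.sum_congr rfl fun k _ => ?_
    have hc : (∑ γ, (G.γ k.1 α γ * wpot b G g m β γ k.2 x +
        G.γ k.1 β γ * wpot b G g m α γ k.2 x)) =
        (∑ γ, (G.γ k.1 α γ * wpot b G g 0 β γ k.2 x + G.γ k.1 β γ * wpot b G g 0 α γ k.2 x)) +
        ∑ γ, (G.γ k.1 α γ * (-(m * mc G β γ k.2 x)) +
          G.γ k.1 β γ * (-(m * mc G α γ k.2 x))) := by
      rw [← Finset.sum_add_distrib]
      refine Finset.sum_congr rfl fun γ _ => ?_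
      rw [wpot_split b G g m β γ, wpot_split b G g m α γ]
      ring
    rw [hc, Complex.ofReal_add, mul_add, add_smul]
  have hJ : ∑ p ∈ pairs, (2 * Complex.I * ((m * cc p.1 * (gg G p * Gam G) α β : ℝ) : ℂ)) •
        Jg M G (rot p.1 p.2) φ x =
      (∑ p ∈ pairs, (2 * Complex.I * ((m * (cc p.1 * (gg G p * Gam G) α β) : ℝ) : ℂ)) •
        fderiv ℝ φ x (vf (rot p.1 p.2) x)) +
      ((m : ℂ) * Complex.I) • ∑ p ∈ pairs, ((2 * (cc p.1 * (gg G p * Gam G) α β) : ℝ) : ℂ) •
        Sp M G (rot p.1 p.2) (φ x) := by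
    rw [Finset.smul_sum, ← Finset.sum_add_distrib]
    refine Finset.sum_congr rfl fun p _ => ?_
    unfold SDefs726.Jg
    rw [smul_add, smul_smul]
    congr 2
    · push_cast; ring
    · push_cast; ring
  rw [hF, h1st, hJ, bil_Lt, smul_add]
  unfold Hmass
  by_cases hab : α = β
  · simp only [if_pos hab]
    push_cast
    module
  · simp only [if_neg hab]
    push_cast
    module

end Crest.Agent.R330.Mass288
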