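import Crest.Agent.R330.WeitzF_726
import Crest.Agent.R330.Defs_478
import Crest.Agent.R330.Gam_962
import Crest.Agent.R330.Bar_186
import Crest.Agent.R330.Col_962

/-!
# Row 330, (1.1): gamma traces, the trace condition and the Yukawa operator of `Q^{g,m}` (helper726)
-/

set_option autoImplicit false
set_option linter.unusedSectionVars false

open MeasureTheory Filter Topology
open scoped ContDiff InnerProductSpace ENNReal
open Crest.MathPhysics.MatrixQM
open Crest.Agent.R330.IBP837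
open Crest.Agent.R330.Defs478 (cc Gam wpot)
open Crest.Agent.R330.Bar186 (brk pot)

noncomputable section

namespace Crest.Agent.R330.Weitz726

variable {N : ℕ}

/-! ## gamma traces -/

/-- Kronecker symbol -/
def kd (i j : Fin 9) : ℝ := if i = j then 1 else 0

theorem kd_self (i : Fin 9) : kd i i = 1 := by simp [kd]

theorem kd_comm (i j : Fin 9) : kd i j = kd j i := by
  unfold kd; simp only [eq_comm]

theorem cl (G : GammaNine) (i j : Fin 9) :
    G.γ i * G.γ j = (2 * kd i j) • (1 : Matrix (Fin 16) (Fin 16) ℝ) - G.γ j * G.γ i := by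
  have h := G.clifford i j
  rw [eq_sub_iff_add_eq, h]
  unfold kd
  by_cases hij : i = j
  · simp only [hij, if_true, mul_one]
    rw [two_smul, one_add_one_eq_two]
  · simp [hij]

theorem tr2 (G : GammaNine) (i j : Fin 9) : (G.γ i * G.γ j).trace = 16 * kd i j := by
  rw [trace_two]; unfold kd; split_ifs <;> simp

theorem tr4 (G : GammaNine) (i j k l : Fin 9) :
    (G.γ i * G.γ j * G.γ k * G.γ l).trace =
      16 * (kd i j * kd k l - kd i k * kd j l + kd i l * kd j k) := by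
  have h : G.γ i * G.γ j * G.γ k * G.γ l = (2 * kd i j) • (G.γ k * G.γ l) -
      (2 * kd i k) • (G.γ j * G.γ l) + (2 * kd i l) • (G.γ j * G.γ k) -
      G.γ j * G.γ k * G.γ l * G.γ i := by
    have h1 := cl G i j
    have h2 := cl G i k
    have h3 := cl G i l
    calc G.γ i * G.γ j * G.γ k * G.γ l
        = ((2 * kd i j) • (1 : Matrix (Fin 16) (Fin 16) ℝ) - G.γ j * G.γ i) * G.γ k * G.γ l := by
          rw [← h1]
      _ = (2 * kd i j) • (G.γ k * G.γ l) - G.γ j * (G.γ i * G.γ k) * G.γ l := by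
          simp only [sub_mul, smul_mul_assoc, one_mul, mul_assoc]
      _ = (2 * kd i j) • (G.γ k * G.γ l) - (2 * kd i k) • (G.γ j * G.γ l) +
            G.γ j * G.γ k * (G.γ i * G.γ l) := by
          rw [h2]
          simp only [mul_sub, sub_mul, mul_smul_comm, smul_mul_assoc, mul_one, mul_assoc]
          abel
      _ = _ := by
          rw [h3]
          simp only [mul_sub, mul_smul_comm, mul_one, mul_assoc]
          abel
  have hc : (G.γ j * G.γ k * G.γ l * G.γ i).trace = (G.γ i * G.γ j * G.γ k * G.γ l).trace := by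
    rw [Matrix.trace_mul_comm]
    simp only [mul_assoc]
  have ht := congrArg Matrix.trace h
  rw [Matrix.trace_sub, Matrix.trace_add, Matrix.trace_sub, Matrix.trace_smul, Matrix.trace_smul,
    Matrix.trace_smul, hc, tr2, tr2, tr2] at ht
  simp only [smul_eq_mul] at ht
  linarith

/-- `tr((γ^{ij})ᵀ γ^{kl}) = 16 (δ_ik δ_jl - δ_il δ_jk)` in entries -/
theorem tr22 (G : GammaNine) (i j k l : Fin 9) :
    ∑ α, ∑ β, G.γ2 i j α β * G.γ2 k l α β = 16 * (kd i k * kd j l - kd i l * kd j k) := by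
  have h1 : ∑ α, ∑ β, G.γ2 i j α β * G.γ2 k l α β = -(G.γ2 i j * G.γ2 k l).trace := by
    rw [Matrix.trace, ← Finset.sum_neg_distrib]
    refine (Finset.sum_comm.trans ?_)
    refine Finset.sum_congr rfl fun β _ => ?_
    rw [Matrix.diag_apply, Matrix.mul_apply, ← Finset.sum_neg_distrib]
    refine Finset.sum_congr rfl fun α _ => ?_
    rw [Gam962.g2_asymm G i j β α]
    ring
  rw [h1]
  unfold GammaNine.γ2
  rw [smul_mul_smul_comm, Matrix.trace_smul]
  have h2 : (G.γ i * G.γ j - G.γ j * G.γ i) * (G.γ k * G.γ l - G.γ l * G.γ k) =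
      G.γ i * G.γ j * G.γ k * G.γ l - G.γ i * G.γ j * G.γ l * G.γ k -
        G.γ j * G.γ i * G.γ k * G.γ l + G.γ j * G.γ i * G.γ l * G.γ k := by
    simp only [sub_mul, mul_sub, mul_assoc]
    abel
  rw [h2, Matrix.trace_add, Matrix.trace_sub, Matrix.trace_sub, tr4, tr4, tr4, tr4]
  rw [kd_comm l k, kd_comm j i]
  simp only [smul_eq_mul]
  ring

/-! ## the potential of the supercharge -/

theorem wco_eq (b : ColorBasis N) (G : GammaNine) (α β : Fin 16) (A : Fin (N ^ 2 - 1))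
    (x : Cfg N) : wco b G α β A x = ∑ i, ∑ j,
      (1 / 2 * brk b (fun B => x (i, B)) (fun B => x (j, B)) A) * G.γ2 i j α β := by
  unfold wco brk
  simp only [Finset.mul_sum, Finset.sum_mul]
  rw [Finset.sum_congr rfl fun B _ => Finset.sum_comm, Finset.sum_comm]
  refine Finset.sum_congr rfl fun i _ => ?_
  rw [Finset.sum_congr rfl fun B _ => Finset.sum_congr rfl fun C _ => rfl]
  rw [Finset.sum_congr rfl fun B _ => Finset.sum_comm, Finset.sum_comm]
  refine Finset.sum_congr rfl fun j _ => Finset.sum_congr rfl fun B _ =>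
    Finset.sum_congr rfl fun C _ => ?_
  ring

theorem brk_swap (b : ColorBasis N) (u v : Fin (N ^ 2 - 1) → ℝ) (A : Fin (N ^ 2 - 1)) :
    brk b u v A = -brk b v u A := by
  unfold brk
  rw [Finset.sum_comm, ← Finset.sum_neg_distrib]
  refine Finset.sum_congr rfl fun C _ => ?_
  rw [← Finset.sum_neg_distrib]
  refine Finset.sum_congr rfl fun B _ => ?_
  rw [Col962.f_swap23 b A B C]
  ring

/-- squares of a combination of the `γ^{ij}` with antisymmetric coefficients -/
theorem sq_g2 (G : GammaNine) (u : Fin 9 → Fin 9 → ℝ) (hu : ∀ i j, u i j = -u j i) :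
    ∑ α, ∑ β, (∑ i, ∑ j, u i j * G.γ2 i j α β) ^ 2 = 32 * ∑ i, ∑ j, u i j ^ 2 := by
  have h1 : ∀ α β, (∑ i, ∑ j, u i j * G.γ2 i j α β) ^ 2 =
      ∑ i, ∑ j, ∑ k, ∑ l, (u i j * u k l) * (G.γ2 i j α β * G.γ2 k l α β) := by
    intro α β
    rw [sq, Finset.sum_mul]
    refine Finset.sum_congr rfl fun i _ => ?_
    rw [Finset.sum_mul]
    refine Finset.sum_congr rfl fun j _ => ?_
    rw [Finset.mul_sum]
    refine Finset.sum_congr rfl fun k _ => ?_
    rw [Finset.mul_sum]
    exact Finset.sum_congr rfl fun l _ => by ring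
  simp only [h1]
  have h2 : ∑ α, ∑ β, ∑ i, ∑ j, ∑ k, ∑ l, (u i j * u k l) * (G.γ2 i j α β * G.γ2 k l α β) =
      ∑ i, ∑ j, ∑ k, ∑ l, (u i j * u k l) * ∑ α, ∑ β, (G.γ2 i j α β * G.γ2 k l α β) := by
    simp only [Finset.mul_sum]
    have e : ∀ f : Fin 16 → Fin 16 → Fin 9 → Fin 9 → Fin 9 → Fin 9 → ℝ,
        ∑ α, ∑ β, ∑ i, ∑ j, ∑ k, ∑ l, f α β i j k l =
          ∑ i, ∑ j, ∑ k, ∑ l, ∑ α, ∑ β, f α β i j k l := by
      intro f
      have a1 : ∑ α, ∑ β, ∑ i, ∑ j, ∑ k, ∑ l, f α β i j k l =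
          ∑ p : Fin 16 × Fin 16, ∑ q : Fin 9 × Fin 9 × Fin 9 × Fin 9,
            f p.1 p.2 q.1 q.2.1 q.2.2.1 q.2.2.2 := by
        simp only [Fintype.sum_prod_type]
      have a2 : ∑ i, ∑ j, ∑ k, ∑ l, ∑ α, ∑ β, f α β i j k l =
          ∑ q : Fin 9 × Fin 9 × Fin 9 × Fin 9, ∑ p : Fin 16 × Fin 16,
            f p.1 p.2 q.1 q.2.1 q.2.2.1 q.2.2.2 := by
        simp only [Fintype.sum_prod_type]
      rw [a1, a2, Finset.sum_comm]
    exact e _
  rw [h2]
  simp only [tr22]
  have h3 : ∀ i j, ∑ k, ∑ l, u i j * u k l * (16 * (kd i k * kd j l - kd i l * kd j k)) =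
      32 * u i j ^ 2 := by
    intro i j
    have h4 : ∑ k, ∑ l, u i j * u k l * (16 * (kd i k * kd j l - kd i l * kd j k)) =
        16 * u i j * (∑ k, ∑ l, (u k l * (kd i k * kd j l) - u k l * (kd i l * kd j k))) := by
      rw [Finset.mul_sum]
      refine Finset.sum_congr rfl fun k _ => ?_
      rw [Finset.mul_sum]
      exact Finset.sum_congr rfl fun l _ => by ring
    rw [h4]
    simp only [Finset.sum_sub_distrib]
    have h5 : ∑ k, ∑ l, u k l * (kd i k * kd j l) = u i j := by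
      rw [Finset.sum_eq_single i, Finset.sum_eq_single j]
      · rw [kd_self, kd_self]; ring
      · intro l _ hl; simp [kd, Ne.symm hl]
      · intro h; exact absurd (Finset.mem_univ _) h
      · intro k _ hk
        refine Finset.sum_eq_zero fun l _ => ?_
        simp [kd, Ne.symm hk]
      · intro h; exact absurd (Finset.mem_univ _) h
    have h6 : ∑ k, ∑ l, u k l * (kd i l * kd j k) = u j i := by
      rw [Finset.sum_eq_single j, Finset.sum_eq_single i]
      · rw [kd_self, kd_self]; ring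
      · intro l _ hl; simp [kd, Ne.symm hl]
      · intro h; exact absurd (Finset.mem_univ _) h
      · intro k _ hk
        refine Finset.sum_eq_zero fun l _ => ?_
        simp [kd, Ne.symm hk]
      · intro h; exact absurd (Finset.mem_univ _) h
    rw [h5, h6, hu j i]
    ring
  simp only [h3, ← Finset.mul_sum]

/-- **The potential of the supercharge**: `(1/32) ∑ W² = ¼ ∑_{j,k} |[x_j,x_k]|²`. -/
theorem Wsq_wco (b : ColorBasis N) (G : GammaNine) (x : Cfg N) :
    Wsq (wco b G) x = 32 * pot b x := by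
  have h1 : Wsq (wco b G) x = ∑ A, ∑ α, ∑ β, (wco b G α β A x) ^ 2 := by
    unfold Wsq dp
    rw [Finset.sum_congr rfl fun α _ => Finset.sum_comm, Finset.sum_comm]
    exact Finset.sum_congr rfl fun A _ => Finset.sum_congr rfl fun α _ =>
      Finset.sum_congr rfl fun β _ => by ring
  have h2 : ∀ A, ∑ α, ∑ β, (wco b G α β A x) ^ 2 =
      8 * ∑ i, ∑ j, brk b (fun B => x (i, B)) (fun B => x (j, B)) A ^ 2 := by
    intro A
    simp only [wco_eq]
    rw [sq_g2 G (fun i j => 1 / 2 * brk b (fun B => x (i, B)) (fun B => x (j, B)) A)]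
    · rw [Finset.mul_sum, Finset.mul_sum]
      refine Finset.sum_congr rfl fun i _ => ?_
      rw [Finset.mul_sum, Finset.mul_sum]
      exact Finset.sum_congr rfl fun j _ => by ring
    · intro i j
      rw [brk_swap]
      ring
  rw [h1]
  simp only [h2]
  unfold pot
  rw [← Finset.mul_sum, Finset.sum_comm, Finset.sum_congr rfl fun i _ => Finset.sum_comm]
  ring

/-! ## the trace condition -/

theorem trace_zero_of_anti (G : GammaNine) (l : Fin 9) {X : Matrix (Fin 16) (Fin 16) ℝ}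
    (h : G.γ l * X = -(X * G.γ l)) : X.trace = 0 := by
  have h1 : (G.γ l * X * G.γ l).trace = X.trace := by
    rw [Matrix.trace_mul_comm, ← mul_assoc, gamma_sq, one_mul]
  have h2 : (G.γ l * X * G.γ l).trace = -X.trace := by
    rw [h, neg_mul, mul_assoc, gamma_sq, mul_one, Matrix.trace_neg]
  linarith

/-- the trace pairing `∑ γ^i_{αβ} Y_{αβ}` -/
theorem pair_eq_trace (G : GammaNine) (i : Fin 9) (Y : Matrix (Fin 16) (Fin 16) ℝ) :
    ∑ α, ∑ β, G.γ i α β * Y α β = (G.γ i * Y).trace := by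
  rw [Matrix.trace, Finset.sum_comm]
  refine Finset.sum_congr rfl fun β _ => ?_
  rw [Matrix.diag_apply, Matrix.mul_apply]
  exact Finset.sum_congr rfl fun α _ => by rw [Gam962.g_symm G i α β]

theorem pair_g2 (G : GammaNine) (i j k : Fin 9) : ∑ α, ∑ β, G.γ i α β * G.γ2 j k α β = 0 := by
  have h : ∑ α, ∑ β, G.γ i α β * G.γ2 j k α β = -∑ α, ∑ β, G.γ i α β * G.γ2 j k α β := by
    conv_lhs => rw [Finset.sum_comm]
    rw [← Finset.sum_neg_distrib]
    refine Finset.sum_congr rfl fun β _ => ?_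
    rw [← Finset.sum_neg_distrib]
    refine Finset.sum_congr rfl fun α _ => ?_
    rw [Gam962.g_symm G i α β, Gam962.g2_asymm G j k α β]
    ring
  linarith

theorem exists_other : ∀ i j : Fin 9, ∃ l : Fin 9, l ≠ i ∧ l ≠ j ∧ l ≠ 0 ∧ l ≠ 1 ∧ l ≠ 2 := by
  decide

theorem pair_Gam (G : GammaNine) (i j : Fin 9) :
    ∑ α, ∑ β, G.γ i α β * (Gam G * G.γ j) α β = 0 := by
  rw [pair_eq_trace]
  obtain ⟨l, h1, h2, h3, h4, h5⟩ := exists_other i j
  refine trace_zero_of_anti G l ?_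
  unfold Gam
  have a : ∀ {k : Fin 9}, l ≠ k → ∀ X : Matrix (Fin 16) (Fin 16) ℝ,
      G.γ l * (G.γ k * X) = -(G.γ k * (G.γ l * X)) := fun {k} h X => by
    rw [← mul_assoc, gamma_anti G h, neg_mul, mul_assoc]
  simp only [mul_assoc]
  rw [a h1, a h3, a h4, a h5, gamma_anti G h2]
  simp only [mul_neg, neg_neg]

/-- **the trace condition holds for `Q^{g,m}`** -/
theorem trZ_wpot (b : ColorBasis N) (G : GammaNine) (g m : ℝ) : TrZ G (wpot b G g m) := by
  intro k x
  unfold wpot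
  have h1 : ∀ α β, G.γ k.1 α β * (g * (∑ B : Fin (N ^ 2 - 1), ∑ C : Fin (N ^ 2 - 1),
      ∑ i : Fin 9, ∑ j : Fin 9, 1 / 2 * b.structConst k.2 B C * x (i, B) * x (j, C) *
        G.γ2 i j α β) - m * ∑ j : Fin 9, cc j * x (j, k.2) * (Gam G * G.γ j) α β) =
      g * (∑ B : Fin (N ^ 2 - 1), ∑ C : Fin (N ^ 2 - 1),
      ∑ i : Fin 9, ∑ j : Fin 9, (1 / 2 * b.structConst k.2 B C * x (i, B) * x (j, C)) *
        (G.γ k.1 α β * G.γ2 i j α β)) -
      m * ∑ j : Fin 9, (cc j * x (j, k.2)) * (G.γ k.1 α β * (Gam G * G.γ j) α β) := by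
    intro α β
    rw [mul_sub]
    congr 1
    · simp only [Finset.mul_sum]
      exact Finset.sum_congr rfl fun B _ => Finset.sum_congr rfl fun C _ =>
        Finset.sum_congr rfl fun i _ => Finset.sum_congr rfl fun j _ => by ring
    · simp only [Finset.mul_sum]
      exact Finset.sum_congr rfl fun j _ => by ring
  simp only [h1, Finset.sum_sub_distrib, ← Finset.mul_sum]
  have h2 : ∑ α, ∑ β, ∑ B : Fin (N ^ 2 - 1), ∑ C : Fin (N ^ 2 - 1), ∑ i : Fin 9, ∑ j : Fin 9,
      (1 / 2 * b.structConst k.2 B C * x (i, B) * x (j, C)) *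
        (G.γ k.1 α β * G.γ2 i j α β) = 0 := by
    have e : ∀ f : Fin 16 → Fin 16 → Fin (N ^ 2 - 1) → Fin (N ^ 2 - 1) → Fin 9 → Fin 9 → ℝ,
        ∑ α, ∑ β, ∑ B, ∑ C, ∑ i, ∑ j, f α β B C i j =
          ∑ B, ∑ C, ∑ i, ∑ j, ∑ α, ∑ β, f α β B C i j := by
      intro f
      have a1 : ∑ α, ∑ β, ∑ B, ∑ C, ∑ i, ∑ j, f α β B C i j =
          ∑ p : Fin 16 × Fin 16, ∑ q : Fin (N ^ 2 - 1) × Fin (N ^ 2 - 1) × Fin 9 × Fin 9,
            f p.1 p.2 q.1 q.2.1 q.2.2.1 q.2.2.2 := by
        simp only [Fintype.sum_prod_type]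
      have a2 : ∑ B, ∑ C, ∑ i, ∑ j, ∑ α, ∑ β, f α β B C i j =
          ∑ q : Fin (N ^ 2 - 1) × Fin (N ^ 2 - 1) × Fin 9 × Fin 9, ∑ p : Fin 16 × Fin 16,
            f p.1 p.2 q.1 q.2.1 q.2.2.1 q.2.2.2 := by
        simp only [Fintype.sum_prod_type]
      rw [a1, a2, Finset.sum_comm]
    rw [e]
    refine Finset.sum_eq_zero fun B _ => Finset.sum_eq_zero fun C _ => Finset.sum_eq_zero fun i _ =>
      Finset.sum_eq_zero fun j _ => ?_
    simp only [← Finset.mul_sum]
    rw [pair_g2, mul_zero]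
  have h3 : ∑ α, ∑ β, ∑ j : Fin 9, (cc j * x (j, k.2)) *
      (G.γ k.1 α β * (Gam G * G.γ j) α β) = 0 := by
    rw [Finset.sum_congr rfl fun α _ => Finset.sum_comm, Finset.sum_comm]
    refine Finset.sum_eq_zero fun j _ => ?_
    simp only [← Finset.mul_sum]
    rw [pair_Gam, mul_zero]
  rw [h2, h3]
  ring

theorem wco_eq_wpot (b : ColorBasis N) (G : GammaNine) : wco b G = wpot b G 1 0 := by
  funext α β A x
  unfold wco wpot
  simp


end Crest.Agent.R330.Weitz726

end
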