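import Crest.Agent.R330.JQ_916
import Crest.Agent.R330.Master_288
import Crest.Agent.R330.GapCl_967
import Crest.Agent.R330.WS_596
import Crest.Agent.R330.IBP_837
import Crest.Agent.R330.Haar_596
import Crest.Agent.R330.Brid_837
import Crest.Agent.R330.WeitzG_726
import Crest.Agent.R330.Dict_416
import Crest.Agent.R330.FA3_416
import Crest.Agent.R330.Sec_478

-- ▼ part R330/SusyL_916
section

/-!
# Row 330, S1.4: the literal `Susy` algebra on the core (helper916)

`susy R G g m : Susy G m (ιC R) (Qc R G g m) (Hc R G g m) (Jc R G)` and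
`Hc_coe : (Hc R G g m φ : Cfg N → F) = Master288.Ham b M G g m φ`.
-/

set_option autoImplicit false

open Crest.MathPhysics.MatrixQM

noncomputable section

namespace Crest.Agent.R330.SusyL916

open Crest.Agent.R330.Defs478 Crest.Agent.R330.JQ916 Crest.Agent.R330.GapAlg916

variable {N : ℕ} {F : Type*} [NormedAddCommGroup F] [InnerProductSpace ℂ F]
  [FiniteDimensional ℂ F] [Nontrivial F] {b : ColorBasis N} {M : FermionRep N F}

theorem susy_and (R : GaugeAction b M) (G : GammaNine) (g m : ℝ) :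
    Susy G m (Dict416.ιC R) (Qc R G g m) (Hc R G g m) (Jc R G) ∧
      ∀ φ : core b R, (Hc R G g m φ : Cfg N → F) = Master288.Ham b M G g m φ.1 :=
  susy_of fun α β _ hφ x => Master288.master R G g m (cv_c2 hφ) hφ.2.2 α β x

/-- **the literal algebra** -/
theorem susy (R : GaugeAction b M) (G : GammaNine) (g m : ℝ) :
    Susy G m (Dict416.ιC R) (Qc R G g m) (Hc R G g m) (Jc R G) := (susy_and R G g m).1


end Crest.Agent.R330.SusyL916

end
end

-- ▼ part R330/GapAll_967
section

/-!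
# Row 330 (helper967): (GAP), final form
-/

set_option autoImplicit false
set_option linter.unusedSectionVars false

open MeasureTheory Filter Topology Crest.MathPhysics.MatrixQM
open scoped ContDiff InnerProductSpace ENNReal

noncomputable section

namespace Crest.Agent.R330.GapAll967

open Crest.Agent.R330.Defs478 Crest.Agent.R330.SDefs726 Crest.Agent.R330.Dict416
  Crest.Agent.R330.GapAlg916 Crest.Agent.R330.Sec478 Crest.Agent.R330.JQ916

variable {N : ℕ} {F : Type} [NormedAddCommGroup F] [InnerProductSpace ℂ F]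
  [FiniteDimensional ℂ F] [Nontrivial F] {b : ColorBasis N} {M : FermionRep N F}
  {R : GaugeAction b M} {G : GammaNine}

/-- **(GAP)** from the density of `(1 + H) core` in the core. -/
theorem gapZ_of_dens {g m : ℝ} (hm : 0 ≤ m)
    (hd : ∀ φ : core b R, ιC R φ ∈
      closure (Set.range fun ψ => ιC R ψ + ιC R (Hc R G g m ψ))) :
    GapZ b M R G g m (m / 24) :=
  GapCl967.gapZ_core hm (Q := Qc R G g m) (fun _ _ => rfl) (Ham := Hc R G g m)
    (fun _ => rfl) (J := Jc R G) (fun q _ φ => rfl) (SusyL916.susy R G g m) hd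

end Crest.Agent.R330.GapAll967

end
end

-- ▼ part R330/PW_868
section

/-!
# Row 330 (helper868): Povzner-Wienholtz, the graph core of `H = -1/2 Δ + W`

`E` finite dimensional euclidean space, `e : ι → E` a finite family of vectors (orthonormal basis),
`Hop e W φ x = -(1/2) ∑ k, ∂_k ∂_k φ x + W x (φ x)`.

* `mol_lap_eq` : mollification of a distributional solution of `H u + u = 0`
* `energy` : the energy identity with a cut-off
* `pw` : if `H ≥ 0` on the core of smooth compactly supported equivariant functions, then the only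
  equivariant `u ∈ L²` with `∫ ⟪H ψ + ψ, u⟫ = 0` for all test functions is `u = 0`.
-/

set_option autoImplicit false
set_option linter.unusedSectionVars false
set_option linter.unusedVariables false

open MeasureTheory Set Filter Topology ENNReal
open scoped ContDiff InnerProductSpace Convolution

noncomputable section
namespace Crest.Agent.R330.PW868
open Moll596 WS596

variable {E : Type*} [NormedAddCommGroup E] [InnerProductSpace ℝ E] [FiniteDimensional ℝ E]
  [MeasurableSpace E] [BorelSpace E]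

/-! ### mollification with general smooth kernels -/

/-- smooth compactly supported kernel -/
structure Krn (η : E → ℝ) : Prop where
  smooth : ContDiff ℝ ∞ η
  supp : HasCompactSupport η

theorem Krn.of_molK {r : ℝ} {η : E → ℝ} (h : MolK r η) : Krn η := ⟨h.smooth, h.supp⟩

/-- directional derivative of a kernel -/
def pk (e : E) (η : E → ℝ) (z : E) : ℝ := fderiv ℝ η z e

theorem Krn.dir {η : E → ℝ} (h : Krn η) (e : E) : Krn (pk e η) :=
  ⟨(h.smooth.fderiv_right (m := ∞) (by simp)).clm_apply contDiff_const,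
    (h.supp.fderiv ℝ).comp_left (g := fun L : E →L[ℝ] ℝ => L e) rfl⟩

theorem Krn.comp_smooth {η : E → ℝ} (h : Krn η) (x : E) : ContDiff ℝ ∞ fun y => η (x - y) :=
  h.smooth.comp (contDiff_const.sub contDiff_id)

theorem Krn.comp_supp {η : E → ℝ} (h : Krn η) (x : E) : HasCompactSupport fun y => η (x - y) :=
  h.supp.comp_homeomorph (Homeomorph.subLeft x)

theorem Krn.fderiv_comp {η : E → ℝ} (h : Krn η) (x y e : E) :
    fderiv ℝ (fun y => η (x - y)) y e = -pk e η (x - y) := by
  have hd : HasFDerivAt η (fderiv ℝ η (x - y)) (x - y) :=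
    (h.smooth.differentiable (by simp) _).hasFDerivAt
  have h2 : HasFDerivAt (fun y => x - y) (-ContinuousLinearMap.id ℝ E) y :=
    (hasFDerivAt_id y).const_sub x
  have h4 : fderiv ℝ (fun y => η (x - y)) y = (fderiv ℝ η (x - y)).comp
    (-ContinuousLinearMap.id ℝ E) := (hd.comp y h2).fderiv
  rw [h4]
  simp [pk]

section one

variable {F : Type*} [NormedAddCommGroup F] [NormedSpace ℝ F] [CompleteSpace F]

theorem Krn.integrand {η : E → ℝ} (h : Krn η) {g : E → F} (hg : LocallyIntegrable g) (x : E) :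
    Integrable fun y => η (x - y) • g y :=
  hg.integrable_smul_left_of_hasCompactSupport (h.comp_smooth x).continuous (h.comp_supp x)


theorem Krn.fderiv_mol {η : E → ℝ} (h : Krn η) {u : E → F} (hu : LocallyIntegrable u) (x e : E) :
    fderiv ℝ (mol η u) x e = mol (pk e η) u x := by
  have h1 : ContDiff ℝ 1 η := h.smooth.of_le (by norm_cast)
  have h2 := h.supp.hasFDerivAt_convolution_right (ContinuousLinearMap.lsmul ℝ ℝ).flip hu h1 x
  rw [mol_eq_conv η, h2.fderiv]
  rw [convolution_precompR_apply (ContinuousLinearMap.lsmul ℝ ℝ).flip hu (h.supp.fderiv ℝ)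
    (h.smooth.continuous_fderiv (by simp)) x e, mol_eq_conv]
  rfl

end one

variable {F : Type*} [NormedAddCommGroup F] [InnerProductSpace ℂ F]
variable {ι : Type*} [Fintype ι]

/-- directional derivative -/
def pd (e : E) (f : E → F) (x : E) : F := fderiv ℝ f x e

/-- the second order part -/
def lap (e : ι → E) (f : E → F) (x : E) : F := ∑ k, pd (e k) (pd (e k) f) x

/-- the operator `-1/2 Δ + W` -/
def Hop (e : ι → E) (W : E → F →L[ℂ] F) (φ : E → F) (x : E) : F :=
  -((1 / 2 : ℝ) • lap e φ x) + W x (φ x)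

theorem pd_contDiff {f : E → F} (hf : ContDiff ℝ ∞ f) (e : E) : ContDiff ℝ ∞ (pd e f) :=
  (hf.fderiv_right (m := ∞) (by simp)).clm_apply contDiff_const

theorem pd_supp {f : E → F} (hf : HasCompactSupport f) (e : E) : HasCompactSupport (pd e f) :=
  (hf.fderiv ℝ).comp_left (g := fun L : E →L[ℝ] F => L e) rfl

section weak

variable [CompleteSpace F]

theorem lap_mol {η : E → ℝ} (h : Krn η) {u : E → F} (hu : LocallyIntegrable u) (e : ι → E)
    (x : E) : lap e (mol η u) x = ∑ k, mol (pk (e k) (pk (e k) η)) u x := by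
  unfold lap
  refine Finset.sum_congr rfl fun k _ => ?_
  have h1 : pd (e k) (mol η u) = mol (pk (e k) η) u := by
    funext z
    exact h.fderiv_mol hu z (e k)
  rw [h1]
  exact (h.dir (e k)).fderiv_mol hu x (e k)

theorem lap_kernel {η : E → ℝ} (h : Krn η) (e : ι → E) (x y : E) (v : F) :
    lap e (fun y => η (x - y) • v) y =
      ∑ k, pk (e k) (pk (e k) η) (x - y) • v := by
  unfold lap
  refine Finset.sum_congr rfl fun k _ => ?_
  have h1 : pd (e k) (fun y => η (x - y) • v) = fun y => -(pk (e k) η (x - y) • v) := by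
    funext z
    unfold pd
    rw [fderiv_smul_const ((h.comp_smooth x).differentiable (by simp) z)]
    rw [ContinuousLinearMap.smulRight_apply, h.fderiv_comp, neg_smul]
  rw [h1]
  unfold pd
  have h2 := (h.dir (e k)).comp_smooth x
  have h3 : fderiv ℝ (fun y => -(pk (e k) η (x - y) • v)) y =
      -(fderiv ℝ (fun y => pk (e k) η (x - y)) y).smulRight v := by
    rw [fderiv_fun_neg, fderiv_smul_const (h2.differentiable (by simp) y)]
  rw [h3]
  rw [_root_.neg_apply, ContinuousLinearMap.smulRight_apply,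
    (h.dir (e k)).fderiv_comp, neg_smul, neg_neg]

/-- mollification of a distributional solution of `H u + u = 0` -/
theorem mol_lap_eq {e : ι → E} {W : E → F →L[ℂ] F} (hW : Continuous W)
    (hWs : ∀ x (v w : F), ⟪W x v, w⟫_ℂ = ⟪v, W x w⟫_ℂ)
    {u : E → F} (hu : LocallyIntegrable u)
    (hw : ∀ ψ : E → F, ContDiff ℝ ∞ ψ → HasCompactSupport ψ →
      ∫ x, ⟪Hop e W ψ x + ψ x, u x⟫_ℂ = 0) {η : E → ℝ} (h : Krn η) (x : E) :
    -((1 / 2 : ℝ) • lap e (mol η u) x) + mol η (fun y => W y (u y)) x + mol η u x = 0 := by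
  refine ext_inner_left ℂ fun v => ?_
  rw [inner_zero_right]
  have hWR : Continuous fun y => (W y).restrictScalars ℝ :=
    (ContinuousLinearMap.restrictScalarsL ℂ F F ℝ ℝ).continuous.comp hW
  have hWu : LocallyIntegrable fun y => W y (u y) := locInt_clm hWR hu
  have hψ : ContDiff ℝ ∞ fun y => η (x - y) • v := (h.comp_smooth x).smul contDiff_const
  have hψc : HasCompactSupport fun y => η (x - y) • v := (h.comp_supp x).smul_right
  have e0 := hw _ hψ hψc
  -- integrability of the pieces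
  have i1 : ∀ k, Integrable fun y => pk (e k) (pk (e k) η) (x - y) • u y :=
    fun k => ((h.dir (e k)).dir (e k)).integrand hu x
  have i2 : Integrable fun y => η (x - y) • W y (u y) := h.integrand hWu x
  have i3 : Integrable fun y => η (x - y) • u y := h.integrand hu x
  have e1 : ⟪v, lap e (mol η u) x⟫_ℂ =
      ∫ y, ∑ k, ((pk (e k) (pk (e k) η) (x - y) : ℝ) : ℂ) * ⟪v, u y⟫_ℂ := by
    rw [lap_mol h hu, inner_sum, integral_finsetSum]
    · refine Finset.sum_congr rfl fun k _ => ?_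
      rw [mol, ← integral_inner (i1 k)]
      refine integral_congr_ae (Eventually.of_forall fun y => ?_)
      simp only
      rw [inner_rsmul_right]
    · intro k _
      refine ((i1 k).const_inner v).congr (Eventually.of_forall fun y => ?_)
      simp only
      rw [inner_rsmul_right]
  have e2 : ⟪v, mol η (fun y => W y (u y)) x⟫_ℂ = ∫ y, (η (x - y) : ℂ) * ⟪v, W y (u y)⟫_ℂ := by
    rw [mol, ← integral_inner i2]
    refine integral_congr_ae (Eventually.of_forall fun y => ?_)
    simp only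
    rw [inner_rsmul_right]
  have e3 : ⟪v, mol η u x⟫_ℂ = ∫ y, (η (x - y) : ℂ) * ⟪v, u y⟫_ℂ := by
    rw [mol, ← integral_inner i3]
    refine integral_congr_ae (Eventually.of_forall fun y => ?_)
    simp only
    rw [inner_rsmul_right]
  have j1 : Integrable fun y =>
      ∑ k, ((pk (e k) (pk (e k) η) (x - y) : ℝ) : ℂ) * ⟪v, u y⟫_ℂ := by
    refine integrable_finsetSum _ fun k _ => ?_
    refine ((i1 k).const_inner v).congr (Eventually.of_forall fun y => ?_)
    simp only
    rw [inner_rsmul_right]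
  have j2 : Integrable fun y => (η (x - y) : ℂ) * ⟪v, W y (u y)⟫_ℂ := by
    refine (i2.const_inner v).congr (Eventually.of_forall fun y => ?_)
    simp only
    rw [inner_rsmul_right]
  have j3 : Integrable fun y => (η (x - y) : ℂ) * ⟪v, u y⟫_ℂ := by
    refine (i3.const_inner v).congr (Eventually.of_forall fun y => ?_)
    simp only
    rw [inner_rsmul_right]
  have j1' : Integrable fun y => -(((1 / 2 : ℝ) : ℂ) *
      ∑ k, ((pk (e k) (pk (e k) η) (x - y) : ℝ) : ℂ) * ⟪v, u y⟫_ℂ) := (j1.const_mul _).neg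
  have j12 : Integrable fun y => -(((1 / 2 : ℝ) : ℂ) *
      ∑ k, ((pk (e k) (pk (e k) η) (x - y) : ℝ) : ℂ) * ⟪v, u y⟫_ℂ) +
      (η (x - y) : ℂ) * ⟪v, W y (u y)⟫_ℂ := j1'.add j2
  rw [inner_add_right, inner_add_right, inner_neg_right, inner_rsmul_right, e1, e2, e3,
    ← integral_const_mul, ← integral_neg, ← integral_add j1' j2,
    ← integral_add j12 j3, ← e0]
  refine integral_congr_ae (Eventually.of_forall fun y => ?_)
  simp only
  rw [Hop, lap_kernel h, inner_add_left, inner_add_left, inner_neg_left, inner_rsmul_left,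
    sum_inner]
  have e4 : ∀ k, ⟪pk (e k) (pk (e k) η) (x - y) • v, u y⟫_ℂ =
      ((pk (e k) (pk (e k) η) (x - y) : ℝ) : ℂ) * ⟪v, u y⟫_ℂ := fun k =>
    inner_rsmul_left _ _ _
  simp only [e4]
  have e5 : ⟪W y (η (x - y) • v), u y⟫_ℂ = (η (x - y) : ℂ) * ⟪v, W y (u y)⟫_ℂ := by
    rw [hWs, inner_rsmul_left]
  rw [e5, inner_rsmul_left]

end weak

/-! ### the energy identity -/

/-- pointwise: `‖∂(c w)‖² = (∂c)² ‖w‖² + Re ⟪∂(c² w), ∂w⟫` -/
theorem norm_pd_smul_sq {c : E → ℝ} {w : E → F} (hc : ContDiff ℝ ∞ c) (hw : ContDiff ℝ ∞ w)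
    (v : E) (x : E) : ‖pd v (fun x => c x • w x) x‖ ^ 2 =
      pk v c x ^ 2 * ‖w x‖ ^ 2 + (⟪pd v (fun x => (c x ^ 2) • w x) x, pd v w x⟫_ℂ).re := by
  have h1 : DifferentiableAt ℝ c x := hc.differentiable (by simp) x
  have h2 : DifferentiableAt ℝ w x := hw.differentiable (by simp) x
  have h3 : DifferentiableAt ℝ (fun x => c x ^ 2) x := h1.pow 2
  have e1 : pd v (fun x => c x • w x) x = c x • pd v w x + pk v c x • w x := by
    unfold pd pk
    rw [fderiv_fun_smul h1 h2]
    simp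
  have e3 : fderiv ℝ (fun x => c x ^ 2) x v = 2 * c x * pk v c x := by
    unfold pk
    rw [fderiv_fun_pow 2 h1]
    simp
  have e2 : pd v (fun x => (c x ^ 2) • w x) x = (c x ^ 2) • pd v w x + (2 * c x * pk v c x) • w x := by
    unfold pd
    rw [fderiv_fun_smul h3 h2, ← e3]
    simp
  rw [e1, e2, inner_add_left, Complex.add_re]
  have e4 : ‖c x • pd v w x + pk v c x • w x‖ ^ 2 = (⟪c x • pd v w x + pk v c x • w x,
      c x • pd v w x + pk v c x • w x⟫_ℂ).re := by
    rw [inner_self_eq_norm_sq_to_K]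
    norm_cast
  have e5 : (⟪pd v w x, w x⟫_ℂ).re = (⟪w x, pd v w x⟫_ℂ).re := inner_re_symm (𝕜 := ℂ) _ _
  have e6 : (⟪w x, w x⟫_ℂ).re = ‖w x‖ ^ 2 := by
    rw [inner_self_eq_norm_sq_to_K]
    norm_cast
  rw [e4]
  simp only [inner_add_left, inner_add_right, inner_rsmul_left, inner_rsmul_right, Complex.add_re,
    Complex.re_ofReal_mul, e5, e6]
  ring

theorem cc_of_left {c : E → ℝ} (hc : Krn c) {f : E → ℝ} (hf : Continuous f)
    (h0 : ∀ x, c x = 0 → f x = 0) : Integrable f := by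
  refine hf.integrable_of_hasCompactSupport (hc.supp.mono' fun x hx => subset_tsupport _ ?_)
  intro h
  exact hx (h0 x h)

theorem pk_continuous {c : E → ℝ} (hc : Krn c) (v : E) : Continuous (pk v c) :=
  (hc.dir v).smooth.continuous

/-- integration by parts for the cut-off identity -/
theorem energy_one {c : E → ℝ} {w : E → F} (hc : Krn c) (hw : ContDiff ℝ ∞ w) (v : E) :
    ∫ x, ‖pd v (fun x => c x • w x) x‖ ^ 2 =
      (∫ x, pk v c x ^ 2 * ‖w x‖ ^ 2) - ∫ x, c x ^ 2 * (⟪w x, pd v (pd v w) x⟫_ℂ).re := by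
  have hc2 : ContDiff ℝ ∞ fun x => (c x ^ 2) • w x := (hc.smooth.pow 2).smul hw
  have hc2s : HasCompactSupport fun x => (c x ^ 2) • w x := by
    refine hc.supp.mono' fun x hx => subset_tsupport _ ?_
    intro h
    apply hx
    simp only [h]
    simp
  have e1 := IBP837.ibp (μ := (volume : Measure E)) (hc2.of_le (by norm_cast))
    ((pd_contDiff hw v).of_le (by norm_cast)) (Or.inl hc2s) v
  have i1 : Integrable fun x => ⟪pd v (fun x => (c x ^ 2) • w x) x, pd v w x⟫_ℂ :=
    IBP837.integrable_inner_of_cont (pd_contDiff hc2 v).continuous (pd_contDiff hw v).continuous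
      (Or.inl (pd_supp hc2s v))
  have i2 : Integrable fun x => ⟪(c x ^ 2) • w x, pd v (pd v w) x⟫_ℂ :=
    IBP837.integrable_inner_of_cont hc2.continuous (pd_contDiff (pd_contDiff hw v) v).continuous
      (Or.inl hc2s)
  have i3 : Integrable fun x => pk v c x ^ 2 * ‖w x‖ ^ 2 := by
    refine cc_of_left (hc.dir v) (((pk_continuous hc v).pow 2).mul (hw.continuous.norm.pow 2)) ?_
    intro x hx
    rw [hx]
    ring
  have i1r : Integrable fun x => (⟪pd v (fun x => (c x ^ 2) • w x) x, pd v w x⟫_ℂ).re := i1.re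
  calc ∫ x, ‖pd v (fun x => c x • w x) x‖ ^ 2
      = ∫ x, (pk v c x ^ 2 * ‖w x‖ ^ 2 +
          (⟪pd v (fun x => (c x ^ 2) • w x) x, pd v w x⟫_ℂ).re) :=
        integral_congr_ae (Eventually.of_forall fun x => norm_pd_smul_sq hc.smooth hw v x)
    _ = (∫ x, pk v c x ^ 2 * ‖w x‖ ^ 2) +
          ∫ x, (⟪pd v (fun x => (c x ^ 2) • w x) x, pd v w x⟫_ℂ).re := integral_add i3 i1r
    _ = (∫ x, pk v c x ^ 2 * ‖w x‖ ^ 2) +
          (∫ x, ⟪pd v (fun x => (c x ^ 2) • w x) x, pd v w x⟫_ℂ).re := by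
        congr 1
        exact integral_re i1
    _ = (∫ x, pk v c x ^ 2 * ‖w x‖ ^ 2) -
          (∫ x, ⟪(c x ^ 2) • w x, pd v (pd v w) x⟫_ℂ).re := by
        have e2 : (∫ x, ⟪pd v (fun x => (c x ^ 2) • w x) x, pd v w x⟫_ℂ) =
            -∫ x, ⟪(c x ^ 2) • w x, pd v (pd v w) x⟫_ℂ := e1
        rw [e2, Complex.neg_re]
        ring
    _ = _ := by
        congr 1
        have e3 : (∫ x, ⟪(c x ^ 2) • w x, pd v (pd v w) x⟫_ℂ).re =
            ∫ x, (⟪(c x ^ 2) • w x, pd v (pd v w) x⟫_ℂ).re := (integral_re i2).symm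
        rw [e3]
        refine integral_congr_ae (Eventually.of_forall fun x => ?_)
        simp only
        rw [inner_rsmul_left, Complex.re_ofReal_mul]

/-- **energy inequality**: `w` smooth with `-1/2 Δ w + W w + w = r`, `c` a cut-off such that the form
is nonnegative on `c w` -/
theorem energy {e : ι → E} {W : E → F →L[ℂ] F} (hW : Continuous W) {w r : E → F}
    (hw : ContDiff ℝ ∞ w) {c : E → ℝ} (hc : Krn c)
    (hr : ∀ x, -((1 / 2 : ℝ) • lap e w x) + W x (w x) + w x = r x)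
    (hpos : 0 ≤ (1 / 2) * (∑ k, ∫ x, ‖pd (e k) (fun x => c x • w x) x‖ ^ 2) +
      ∫ x, (⟪c x • w x, W x (c x • w x)⟫_ℂ).re) :
    ∫ x, ‖c x • w x‖ ^ 2 ≤ (1 / 2) * (∑ k, ∫ x, pk (e k) c x ^ 2 * ‖w x‖ ^ 2) +
      ∫ x, (⟪c x • w x, c x • r x⟫_ℂ).re := by
  have hwc := hw.continuous
  have hcc := hc.smooth.continuous
  have hWR : Continuous fun y => (W y).restrictScalars ℝ :=
    (ContinuousLinearMap.restrictScalarsL ℂ F F ℝ ℝ).continuous.comp hW
  have hWw : Continuous fun x => W x (w x) := hW.clm_apply hwc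
  have hlap : Continuous (lap e w) := by
    unfold lap
    exact continuous_finsetSum _ fun k _ => (pd_contDiff (pd_contDiff hw (e k)) (e k)).continuous
  have hrc : Continuous r := by
    have : r = fun x => -((1 / 2 : ℝ) • lap e w x) + W x (w x) + w x := by
      funext x; exact (hr x).symm
    rw [this]
    exact ((hlap.const_smul _).neg.add hWw).add hwc
  have k1 : ∑ k, ∫ x, ‖pd (e k) (fun x => c x • w x) x‖ ^ 2 =
      (∑ k, ∫ x, pk (e k) c x ^ 2 * ‖w x‖ ^ 2) - ∫ x, c x ^ 2 * (⟪w x, lap e w x⟫_ℂ).re := by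
    simp only [energy_one hc hw]
    rw [Finset.sum_sub_distrib]
    congr 1
    rw [← integral_finsetSum]
    · refine integral_congr_ae (Eventually.of_forall fun x => ?_)
      simp only
      rw [lap, inner_sum, Complex.re_sum, Finset.mul_sum]
    · intro k _
      refine cc_of_left hc ((hcc.pow 2).mul ?_) (fun x hx => by rw [hx]; ring)
      exact Complex.continuous_re.comp
        (hwc.inner (pd_contDiff (pd_contDiff hw (e k)) (e k)).continuous)
  have i1 : Integrable fun x => c x ^ 2 * (⟪w x, lap e w x⟫_ℂ).re :=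
    cc_of_left hc ((hcc.pow 2).mul (Complex.continuous_re.comp (hwc.inner hlap)))
      (fun x hx => by rw [hx]; ring)
  have i2 : Integrable fun x => (⟪c x • w x, W x (c x • w x)⟫_ℂ).re := by
    refine cc_of_left hc (Complex.continuous_re.comp ((hcc.smul hwc).inner
      (hW.clm_apply (hcc.smul hwc)))) (fun x hx => by rw [hx]; simp)
  have i3 : Integrable fun x => (⟪c x • w x, c x • r x⟫_ℂ).re := by
    refine cc_of_left hc (Complex.continuous_re.comp ((hcc.smul hwc).inner
      (hcc.smul hrc))) (fun x hx => by rw [hx]; simp)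
  have i4 : Integrable fun x => ‖c x • w x‖ ^ 2 := by
    refine cc_of_left hc ((hcc.smul hwc).norm.pow 2) (fun x hx => by rw [hx]; simp)
  -- the pointwise relation
  have k2 : ∀ x, -(1 / 2) * (c x ^ 2 * (⟪w x, lap e w x⟫_ℂ).re) =
      (⟪c x • w x, c x • r x⟫_ℂ).re - (⟪c x • w x, W x (c x • w x)⟫_ℂ).re - ‖c x • w x‖ ^ 2 := by
    intro x
    have e0 : ‖c x • w x‖ ^ 2 = (⟪c x • w x, c x • w x⟫_ℂ).re := by
      rw [inner_self_eq_norm_sq_to_K]
      norm_cast
    have e1 : W x (c x • w x) = c x • W x (w x) := by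
      rw [← Complex.coe_smul, map_smul, Complex.coe_smul]
    rw [e0, e1, ← hr x]
    simp only [inner_add_right, inner_neg_right, inner_rsmul_left, inner_rsmul_right,
      Complex.add_re, Complex.neg_re, Complex.re_ofReal_mul, smul_add, smul_neg]
    ring
  have k3 : -(1 / 2) * ∫ x, c x ^ 2 * (⟪w x, lap e w x⟫_ℂ).re =
      (∫ x, (⟪c x • w x, c x • r x⟫_ℂ).re) - (∫ x, (⟪c x • w x, W x (c x • w x)⟫_ℂ).re) -
        ∫ x, ‖c x • w x‖ ^ 2 := by
    have i32 : Integrable fun x => (⟪c x • w x, c x • r x⟫_ℂ).re -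
        (⟪c x • w x, W x (c x • w x)⟫_ℂ).re := i3.sub i2
    rw [← integral_const_mul, ← integral_sub i3 i2, ← integral_sub i32 i4]
    exact integral_congr_ae (Eventually.of_forall k2)
  rw [k1] at hpos
  linarith

/-! ### limits -/

section limits

variable [CompleteSpace F]

theorem integral_norm_sq (f : E → F) : ∫ x, ‖f x‖ ^ 2 = (∫ x, ⟪f x, f x⟫_ℂ).re := by
  have h : ∀ x, ⟪f x, f x⟫_ℂ = ((‖f x‖ ^ 2 : ℝ) : ℂ) := fun x => by
    rw [inner_self_eq_norm_sq_to_K]
    norm_cast
  simp only [h]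
  have h2 : ∫ x, ((‖f x‖ ^ 2 : ℝ) : ℂ) = ((∫ x, ‖f x‖ ^ 2 : ℝ) : ℂ) := integral_ofReal
  rw [h2, Complex.ofReal_re]

/-- radii of mollifiers adapted to two functions -/
theorem exists_radii {g₁ g₂ : E → F} (h1 : MemLp g₁ 2 volume) (h2 : MemLp g₂ 2 volume) :
    ∃ r : ℕ → ℝ, (∀ n, 0 < r n ∧ r n ≤ 1) ∧
      Tendsto (fun n => eLpNorm (mol (ker (r n)) g₁ - g₁) 2 volume) atTop (𝓝 0) ∧
      Tendsto (fun n => eLpNorm (mol (ker (r n)) g₂ - g₂) 2 volume) atTop (𝓝 0) := by
  have hδ : ∀ n : ℕ, ((n : ℝ≥0∞) + 1)⁻¹ ≠ 0 := fun n => by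
    simp
  choose a ha0 ha using fun n : ℕ => exists_mol_close h1 (hδ n)
  choose b hb0 hb using fun n : ℕ => exists_mol_close h2 (hδ n)
  have hr : ∀ n, 0 < min (min (a n) (b n)) 1 := fun n => lt_min (lt_min (ha0 n) (hb0 n)) one_pos
  have ht : Tendsto (fun n : ℕ => ((n : ℝ≥0∞) + 1)⁻¹) atTop (𝓝 0) := by
    have := ENNReal.tendsto_inv_nat_nhds_zero.comp (tendsto_add_atTop_nat 1)
    refine this.congr fun n => ?_
    simp
  refine ⟨fun n => min (min (a n) (b n)) 1, fun n => ⟨hr n, min_le_right _ _⟩, ?_, ?_⟩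
  · refine tendsto_of_tendsto_of_tendsto_of_le_of_le tendsto_const_nhds ht (fun _ => zero_le)
      fun n => ?_
    exact ha n _ ((min_le_left _ _).trans (min_le_left _ _)) _ (molK_ker (hr n))
  · refine tendsto_of_tendsto_of_tendsto_of_le_of_le tendsto_const_nhds ht (fun _ => zero_le)
      fun n => ?_
    exact hb n _ ((min_le_left _ _).trans (min_le_right _ _)) _ (molK_ker (hr n))

/-- bounded multipliers preserve convergence to zero -/
theorem tendsto_bdd {B : E → F →L[ℝ] F} {M : ℝ} (hM : ∀ x, ‖B x‖ ≤ M) (hM0 : 0 ≤ M)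
    {f : ℕ → E → F} (hf : Tendsto (fun n => eLpNorm (f n) 2 (volume : Measure E)) atTop (𝓝 0)) :
    Tendsto (fun n => eLpNorm (fun x => B x (f n x)) 2 (volume : Measure E)) atTop (𝓝 0) := by
  have h1 : Tendsto (fun n => ENNReal.ofReal M * eLpNorm (f n) 2 (volume : Measure E)) atTop
      (𝓝 0) := by
    have := ENNReal.Tendsto.const_mul (a := ENNReal.ofReal M) hf (Or.inr (by simp))
    simpa using this
  exact tendsto_of_tendsto_of_tendsto_of_le_of_le tendsto_const_nhds h1 (fun _ => zero_le)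
    fun n => eLpNorm_clm_le (fun x _ => hM x) hM0

theorem exists_bound_clm {B : E → F →L[ℝ] F} (hB : Continuous B) (hc : HasCompactSupport B) :
    ∃ M : ℝ, 0 ≤ M ∧ ∀ x, ‖B x‖ ≤ M := by
  obtain ⟨M, hM⟩ := hc.exists_bound_of_continuous hB
  exact ⟨M, (norm_nonneg _).trans (hM 0), hM⟩

theorem memLp_bdd {B : E → F →L[ℝ] F} (hB : Continuous B) {M : ℝ} (hM : ∀ x, ‖B x‖ ≤ M)
    {f : E → F} (hf : MemLp f 2 volume) : MemLp (fun x => B x (f x)) 2 volume := by
  have hl : LocallyIntegrable f := hf.locallyIntegrable (by norm_num)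
  refine hf.of_le_mul (c := M) (locInt_clm hB hl).aestronglyMeasurable
    (Eventually.of_forall fun x => ?_)
  exact (ContinuousLinearMap.le_opNorm _ _).trans
    (mul_le_mul_of_nonneg_right (hM x) (norm_nonneg _))

/-- convergence of quadratic expressions with a compactly supported multiplier -/
theorem tendsto_mult {m : E → ℝ} (hm : Krn m) {f : ℕ → E → F} {f₀ : E → F}
    (hf : ∀ n, MemLp (f n) 2 volume) (hf₀ : MemLp f₀ 2 volume)
    (h : Tendsto (fun n => eLpNorm (f n - f₀) 2 volume) atTop (𝓝 0)) :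
    (∀ n, MemLp (fun x => m x • f n x) 2 volume) ∧ MemLp (fun x => m x • f₀ x) 2 volume ∧
      Tendsto (fun n => eLpNorm ((fun x => m x • f n x) - fun x => m x • f₀ x) 2 volume) atTop
        (𝓝 0) := by
  have hB : Continuous fun x => m x • ContinuousLinearMap.id ℝ F :=
    hm.smooth.continuous.smul continuous_const
  have hc : HasCompactSupport fun x => m x • ContinuousLinearMap.id ℝ F := hm.supp.smul_right
  obtain ⟨M, hM0, hM⟩ := exists_bound_clm hB hc
  refine ⟨fun n => memLp_bdd hB hM (hf n), memLp_bdd hB hM hf₀, ?_⟩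
  refine (tendsto_bdd hM hM0 h).congr fun n => ?_
  congr 1
  funext x
  simp [smul_sub]

end limits

/-! ### the theorem -/

section main

variable [CompleteSpace F]

variable {γ : Type*} (L : γ → E ≃ₗᵢ[ℝ] E) (T : γ → F →L[ℝ] F)

/-- the core: smooth, compactly supported, equivariant -/
structure Cor (φ : E → F) : Prop where
  smooth : ContDiff ℝ ∞ φ
  supp : HasCompactSupport φ
  equi : ∀ g x, φ (L g x) = T g (φ x)

/-- the quadratic form of `Hop` -/
def qf (e : ι → E) (W : E → F →L[ℂ] F) (φ : E → F) : ℝ :=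
  (1 / 2) * (∑ k, ∫ x, ‖pd (e k) φ x‖ ^ 2) + ∫ x, (⟪φ x, W x (φ x)⟫_ℂ).re

variable {L T}

/-- the limit of the energy inequality: `u` a distributional solution, `c = cut R` -/
theorem energy_limit {e : ι → E} {W : E → F →L[ℂ] F} (hW : Continuous W)
    (hWs : ∀ x (v w : F), ⟪W x v, w⟫_ℂ = ⟪v, W x w⟫_ℂ)
    (hpos : ∀ φ, Cor L T φ → 0 ≤ qf e W φ)
    {u : E → F} (hu : MemLp u 2 volume) (hue : ∀ g, ∀ᵐ x, u (L g x) = T g (u x))
    (hw : ∀ ψ : E → F, ContDiff ℝ ∞ ψ → HasCompactSupport ψ →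
      ∫ x, ⟪Hop e W ψ x + ψ x, u x⟫_ℂ = 0) {R : ℝ} (hR : 0 < R) :
    ∫ x, ‖cut R x • u x‖ ^ 2 ≤ (1 / 2) * ∑ k, ∫ x, pk (e k) (cut R) x ^ 2 * ‖u x‖ ^ 2 := by
  have hul : LocallyIntegrable u := hu.locallyIntegrable (by norm_num)
  have hc : Krn (cut R : E → ℝ) := ⟨cut_smooth R, cut_supp hR⟩
  have hWR : Continuous fun y => (W y).restrictScalars ℝ :=
    (ContinuousLinearMap.restrictScalarsL ℂ F F ℝ ℝ).continuous.comp hW
  have hWul : LocallyIntegrable fun y => W y (u y) := locInt_clm hWR hul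
  -- the truncation of `W u`
  set K : Set E := Metric.closedBall (0 : E) (2 * R + 1) with hK
  set g : E → F := K.indicator fun y => W y (u y) with hg
  obtain ⟨M, hM⟩ := (isCompact_closedBall (0 : E) (2 * R + 1)).exists_bound_of_continuousOn
    hWR.continuousOn
  have hgL : MemLp g 2 volume := by
    refine hu.of_le_mul (c := M) (hWul.aestronglyMeasurable.indicator
      Metric.isClosed_closedBall.measurableSet) (Eventually.of_forall fun x => ?_)
    by_cases hx : x ∈ K
    · rw [hg, Set.indicator_of_mem hx]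
      exact (ContinuousLinearMap.le_opNorm ((W x).restrictScalars ℝ) _).trans
        (mul_le_mul_of_nonneg_right (hM x hx) (norm_nonneg _))
    · rw [hg, Set.indicator_of_notMem hx, norm_zero]
      have : 0 ≤ M := (norm_nonneg _).trans (hM 0 (by simp; positivity))
      positivity
  obtain ⟨r, hr, t1, t2⟩ := exists_radii hu hgL
  set w : ℕ → E → F := fun n => mol (ker (r n)) u with hwdef
  have hk : ∀ n, MolK (r n) (ker (r n) : E → ℝ) := fun n => molK_ker (hr n).1
  have hws : ∀ n, ContDiff ℝ ∞ (w n) := fun n => mol_contDiff (hk n) hul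
  have hwL : ∀ n, MemLp (w n) 2 volume := fun n =>
    ⟨(hws n).continuous.aestronglyMeasurable, (eLpNorm_mol_le (hk n) hu.1).trans_lt hu.2⟩
  -- the remainders
  set rr : ℕ → E → F := fun n x => W x (w n x) - mol (ker (r n)) (fun y => W y (u y)) x with hrr
  have hrel : ∀ n x, -((1 / 2 : ℝ) • lap e (w n) x) + W x (w n x) + w n x = rr n x := by
    intro n x
    have h1 := mol_lap_eq hW hWs hul hw (Krn.of_molK (hk n)) x
    have h2 : -((1 / 2 : ℝ) • lap e (w n) x) + w n x =
        -mol (ker (r n)) (fun y => W y (u y)) x := by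
      rw [eq_neg_iff_add_eq_zero, ← h1]
      abel
    rw [hrr]
    simp only
    rw [sub_eq_add_neg, ← h2]
    abel
  have hcor : ∀ n, Cor L T fun x => cut R x • w n x := by
    intro n
    refine ⟨hc.smooth.smul (hws n), hc.supp.smul_right, fun g x => ?_⟩
    have h1 : w n (L g x) = T g (w n x) := mol_equivariant (hk n) hul (L g) (T g) (hue g) x
    rw [h1, map_smul, cut_radial R (x := L g x) (y := x) ((L g).norm_map x)]
  have hen : ∀ n, ∫ x, ‖cut R x • w n x‖ ^ 2 ≤
      (1 / 2) * (∑ k, ∫ x, pk (e k) (cut R) x ^ 2 * ‖w n x‖ ^ 2) +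
        ∫ x, (⟪cut R x • w n x, cut R x • rr n x⟫_ℂ).re := fun n =>
    energy hW (hws n) hc (hrel n) (hpos _ (hcor n))
  -- limit of the left hand side
  obtain ⟨a1, a2, a3⟩ := tendsto_mult hc hwL hu t1
  have l1 : Tendsto (fun n => ∫ x, ‖cut R x • w n x‖ ^ 2) atTop (𝓝 (∫ x, ‖cut R x • u x‖ ^ 2)) := by
    have h1 := IBP837.tendsto_integral_inner a1 a2 a1 a2 a3 a3
    simp only [integral_norm_sq]
    exact (Complex.continuous_re.tendsto _).comp h1
  -- limit of the gradient term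
  have l2 : ∀ k, Tendsto (fun n => ∫ x, pk (e k) (cut R) x ^ 2 * ‖w n x‖ ^ 2) atTop
      (𝓝 (∫ x, pk (e k) (cut R) x ^ 2 * ‖u x‖ ^ 2)) := by
    intro k
    obtain ⟨b1, b2, b3⟩ := tendsto_mult (hc.dir (e k)) hwL hu t1
    have h1 := IBP837.tendsto_integral_inner b1 b2 b1 b2 b3 b3
    have h2 : ∀ f : E → F, ∫ x, pk (e k) (cut R) x ^ 2 * ‖f x‖ ^ 2 =
        (∫ x, ⟪pk (e k) (cut R) x • f x, pk (e k) (cut R) x • f x⟫_ℂ).re := by
      intro f
      rw [← integral_norm_sq]
      refine integral_congr_ae (Eventually.of_forall fun x => ?_)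
      simp only
      rw [norm_smul, mul_pow, Real.norm_eq_abs, sq_abs]
    simp only [h2]
    exact (Complex.continuous_re.tendsto _).comp h1
  -- limit of the remainder
  have hs : ∀ n, (fun x => cut R x • rr n x) =
      (fun x => (cut R x • (W x).restrictScalars ℝ) ((w n - u) x)) -
        fun x => cut R x • (mol (ker (r n)) g - g) x := by
    intro n
    funext x
    simp only [hrr, Pi.sub_apply]
    by_cases hx : 2 * R ≤ ‖x‖
    · rw [cut_zero hR hx]
      simp
    · push Not at hx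
      have hxK : x ∈ K := by
        rw [hK, mem_closedBall_zero_iff]
        linarith
      have hgx : g x = W x (u x) := by rw [hg, Set.indicator_of_mem hxK]
      have hmol : mol (ker (r n)) (fun y => W y (u y)) x = mol (ker (r n)) g x := by
        unfold mol
        refine integral_congr_ae (Eventually.of_forall fun y => ?_)
        simp only
        by_cases hxy : r n ≤ ‖x - y‖
        · rw [(hk n).small _ hxy, zero_smul, zero_smul]
        · push Not at hxy
          have hyK : y ∈ K := by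
            rw [hK, mem_closedBall_zero_iff]
            have h1 : ‖y‖ ≤ ‖x‖ + ‖x - y‖ := by
              have := norm_sub_le x (x - y)
              simpa using this
            have h2 := (hr n).2
            linarith
          rw [hg, Set.indicator_of_mem hyK]
      rw [hmol, hgx, _root_.smul_apply, ContinuousLinearMap.coe_restrictScalars',
        map_sub]
      simp only [smul_sub]
      abel
  have hBc : Continuous fun x => cut R x • (W x).restrictScalars ℝ :=
    hc.smooth.continuous.smul hWR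
  have hBs : HasCompactSupport fun x => cut R x • (W x).restrictScalars ℝ := hc.supp.smul_right
  obtain ⟨M1, hM10, hM1⟩ := exists_bound_clm hBc hBs
  have hgm : ∀ n, MemLp (mol (ker (r n)) g) 2 volume := fun n =>
    ⟨(mol_contDiff (hk n) (hgL.locallyIntegrable (by norm_num))).continuous.aestronglyMeasurable,
      (eLpNorm_mol_le (hk n) hgL.1).trans_lt hgL.2⟩
  have hsL1 : ∀ n, MemLp (fun x => (cut R x • (W x).restrictScalars ℝ) ((w n - u) x)) 2 volume :=
    fun n => memLp_bdd hBc hM1 ((hwL n).sub hu)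
  obtain ⟨c1, c2, c3⟩ := tendsto_mult hc hgm hgL t2
  have hsL2 : ∀ n, MemLp (fun x => cut R x • (mol (ker (r n)) g - g) x) 2 volume := by
    intro n
    have : (fun x => cut R x • (mol (ker (r n)) g - g) x) =
        (fun x => cut R x • mol (ker (r n)) g x) - fun x => cut R x • g x := by
      funext x
      simp [smul_sub]
    rw [this]
    exact (c1 n).sub c2
  have hsL : ∀ n, MemLp (fun x => cut R x • rr n x) 2 volume := by
    intro n
    rw [hs n]
    exact (hsL1 n).sub (hsL2 n)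
  have hst : Tendsto (fun n => eLpNorm ((fun x => cut R x • rr n x) - fun _ => (0 : F)) 2 volume)
      atTop (𝓝 0) := by
    have d1 := tendsto_bdd hM1 hM10 t1
    have d3 := d1.add c3
    rw [add_zero] at d3
    refine tendsto_of_tendsto_of_tendsto_of_le_of_le tendsto_const_nhds d3 (fun _ => zero_le)
      fun n => ?_
    have e1 : ((fun x => cut R x • rr n x) - fun _ => (0 : F)) =
        (fun x => (cut R x • (W x).restrictScalars ℝ) ((w n - u) x)) -
          ((fun x => cut R x • mol (ker (r n)) g x) - fun x => cut R x • g x) := by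
      rw [hs n]
      funext x
      simp [smul_sub]
    rw [e1]
    exact eLpNorm_sub_le (hsL1 n).1 ((c1 n).sub c2).1 (by norm_num)
  have l3 : Tendsto (fun n => ∫ x, (⟪cut R x • w n x, cut R x • rr n x⟫_ℂ).re) atTop (𝓝 0) := by
    have h1 := IBP837.tendsto_integral_inner a1 a2 hsL (MemLp.zero' (p := 2)) a3 hst
    have h2 : ∀ n, ∫ x, (⟪cut R x • w n x, cut R x • rr n x⟫_ℂ).re =
        (∫ x, ⟪cut R x • w n x, cut R x • rr n x⟫_ℂ).re := fun n =>
      integral_re (IBP837.integrable_inner_of_memLp (a1 n) (hsL n))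
    simp only [h2]
    have h3 := (Complex.continuous_re.tendsto _).comp h1
    have h4 : (∫ x, ⟪cut R x • u x, (fun _ : E => (0 : F)) x⟫_ℂ).re = 0 := by simp
    rw [h4] at h3
    exact h3
  have l4 : Tendsto (fun n => (1 / 2) * (∑ k, ∫ x, pk (e k) (cut R) x ^ 2 * ‖w n x‖ ^ 2) +
        ∫ x, (⟪cut R x • w n x, cut R x • rr n x⟫_ℂ).re) atTop
      (𝓝 ((1 / 2) * (∑ k, ∫ x, pk (e k) (cut R) x ^ 2 * ‖u x‖ ^ 2) + 0)) :=
    ((tendsto_finsetSum _ fun k _ => l2 k).const_mul _).add l3
  have l5 := le_of_tendsto_of_tendsto' l1 l4 hen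
  rwa [add_zero] at l5

/-- bound of the gradient of the cut-off -/
theorem exists_pk_bound (e : ι → E) : ∃ C : ℝ, 0 ≤ C ∧ ∀ (R : ℝ), 0 < R → ∀ k (x : E),
    pk (e k) (cut R) x ^ 2 ≤ C / R ^ 2 := by
  obtain ⟨C, hC0, hC⟩ := exists_cut0_bound E
  refine ⟨∑ k, (C * ‖e k‖) ^ 2, Finset.sum_nonneg fun k _ => by positivity, ?_⟩
  intro R hR k x
  have h1 : |pk (e k) (cut R) x| ≤ R⁻¹ * (C * ‖e k‖) := by
    rw [← Real.norm_eq_abs, pk, fderiv_cut, _root_.smul_apply, norm_smul, norm_inv,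
      Real.norm_of_nonneg hR.le]
    gcongr
    exact (ContinuousLinearMap.le_opNorm _ _).trans
      (mul_le_mul_of_nonneg_right (hC _) (norm_nonneg _))
  have h2 : pk (e k) (cut R) x ^ 2 ≤ (R⁻¹ * (C * ‖e k‖)) ^ 2 := by
    rw [← sq_abs]
    gcongr
  have h3 : (C * ‖e k‖) ^ 2 ≤ ∑ k, (C * ‖e k‖) ^ 2 :=
    Finset.single_le_sum (f := fun k => (C * ‖e k‖) ^ 2) (fun i _ => by positivity)
      (Finset.mem_univ k)
  calc pk (e k) (cut R) x ^ 2 ≤ (R⁻¹ * (C * ‖e k‖)) ^ 2 := h2
    _ = (C * ‖e k‖) ^ 2 / R ^ 2 := by rw [mul_pow, inv_pow]; field_simp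
    _ ≤ _ := by gcongr

/-- **Povzner-Wienholtz** -/
theorem pw {e : ι → E} {W : E → F →L[ℂ] F} (hW : Continuous W)
    (hWs : ∀ x (v w : F), ⟪W x v, w⟫_ℂ = ⟪v, W x w⟫_ℂ)
    (hpos : ∀ φ, Cor L T φ → 0 ≤ qf e W φ)
    {u : E → F} (hu : MemLp u 2 volume) (hue : ∀ g, ∀ᵐ x, u (L g x) = T g (u x))
    (hw : ∀ ψ : E → F, ContDiff ℝ ∞ ψ → HasCompactSupport ψ →
      ∫ x, ⟪Hop e W ψ x + ψ x, u x⟫_ℂ = 0) : u =ᵐ[volume] 0 := by
  have hi : Integrable fun x => ‖u x‖ ^ 2 := hu.integrable_norm_pow (by norm_num)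
  obtain ⟨C, hC0, hC⟩ := exists_pk_bound (E := E) e
  -- the inequality for every radius
  have h1 : ∀ n : ℕ, ∫ x, ‖cut ((n : ℝ) + 1) x • u x‖ ^ 2 ≤
      (1 / 2) * (Fintype.card ι * (C / ((n : ℝ) + 1) ^ 2 * ∫ x, ‖u x‖ ^ 2)) := by
    intro n
    have hn : (0 : ℝ) < (n : ℝ) + 1 := by positivity
    refine (energy_limit hW hWs hpos hu hue hw hn).trans ?_
    gcongr
    have h2 : ∀ k, ∫ x, pk (e k) (cut ((n : ℝ) + 1)) x ^ 2 * ‖u x‖ ^ 2 ≤
        C / ((n : ℝ) + 1) ^ 2 * ∫ x, ‖u x‖ ^ 2 := by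
      intro k
      rw [← integral_const_mul]
      refine integral_mono_of_nonneg (Eventually.of_forall fun x => by positivity)
        (hi.const_mul _) (Eventually.of_forall fun x => ?_)
      exact mul_le_mul_of_nonneg_right (hC _ hn k x) (by positivity)
    calc ∑ k, ∫ x, pk (e k) (cut ((n : ℝ) + 1)) x ^ 2 * ‖u x‖ ^ 2
        ≤ ∑ k : ι, C / ((n : ℝ) + 1) ^ 2 * ∫ x, ‖u x‖ ^ 2 := Finset.sum_le_sum fun k _ => h2 k
      _ = _ := by rw [Finset.sum_const, Finset.card_univ, nsmul_eq_mul]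
  have h2 : Tendsto (fun n : ℕ => ∫ x, ‖cut ((n : ℝ) + 1) x • u x‖ ^ 2) atTop
      (𝓝 (∫ x, ‖u x‖ ^ 2)) := by
    have hm : ∀ n : ℕ, MemLp (fun x => cut ((n : ℝ) + 1) x • u x) 2 volume := fun n =>
      (tendsto_mult ⟨cut_smooth _, cut_supp (by positivity)⟩ (fun _ => hu) hu (by simp)).2.1
    have h3 := IBP837.tendsto_integral_inner hm hu hm hu (tendsto_cut hu) (tendsto_cut hu)
    simp only [integral_norm_sq]
    exact (Complex.continuous_re.tendsto _).comp h3
  have h3 : Tendsto (fun n : ℕ => (1 / 2) * (Fintype.card ι * (C / ((n : ℝ) + 1) ^ 2 *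
      ∫ x, ‖u x‖ ^ 2))) atTop (𝓝 ((1 / 2) * (Fintype.card ι * (0 * ∫ x, ‖u x‖ ^ 2)))) := by
    refine Tendsto.const_mul _ (Tendsto.const_mul _ (Tendsto.mul_const _ ?_))
    refine tendsto_const_nhds.div_atTop ?_
    exact (tendsto_pow_atTop (by norm_num)).comp
      (tendsto_atTop_add_const_right _ _ tendsto_natCast_atTop_atTop)
  have h4 := le_of_tendsto_of_tendsto' h2 h3 h1
  have h5 : ∫ x, ‖u x‖ ^ 2 = 0 := by
    refine le_antisymm (by linarith) (integral_nonneg fun x => by positivity)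
  have h6 := (integral_eq_zero_iff_of_nonneg (fun x => by positivity) hi).mp h5
  filter_upwards [h6] with x hx
  simpa using hx

end main

end Crest.Agent.R330.PW868
end
end

-- ▼ part R330/GCore_868
section

/-!
# Row 330 (helper868): the graph core, literally

* `fop` : the charge `Q_α^{g,m}` as a first order expression, `sym R` : the gauge symmetry
* `HQ` : the operator `(1/16) Σ Q_α²`, `HQ_eq` : it is `-1/2 Δ + W`
* `weak_zero` : an invariant `χ ∈ L²` orthogonal to `(1 + H)` of the core vanishes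
* `density` : `{ψ + H ψ}` is dense in the invariant `L²`
-/

set_option autoImplicit false
set_option linter.unusedSectionVars false
set_option linter.unusedVariables false

open MeasureTheory Filter Topology Set Crest.MathPhysics.MatrixQM
open scoped ContDiff InnerProductSpace ENNReal

noncomputable section
namespace Crest.Agent.R330.GCore868
open Moll596 WS596 Haar596 SUgrp596 Defs478 IBP837 Cov837 Brid837
open Weitz726 hiding pd

variable {N : ℕ} {F : Type} [NormedAddCommGroup F] [InnerProductSpace ℂ F]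
  [FiniteDimensional ℂ F]
variable {b : ColorBasis N} {M : FermionRep N F}

/-! ### the charge as a first order expression -/

theorem continuous_vco {W : Fin 16 → Fin (N ^ 2 - 1) → Cfg N → ℝ}
    (hW : ∀ β A, Continuous (W β A)) (v : F) :
    Continuous fun x => vco M (fun β A => W β A x) v := by
  simp only [vco_apply]
  exact continuous_finsetSum _ fun A _ => continuous_finsetSum _ fun β _ =>
    (Complex.continuous_ofReal.comp (hW β A)).smul continuous_const

/-- the charge as a first order expression -/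
def fop (b : ColorBasis N) (M : FermionRep N F) (G : GammaNine) (g m : ℝ) (α : Fin 16) :
    FOp (Cfg N) F where
  A := ∑ k : Fin 9 × Fin (N ^ 2 - 1),
    (((-Complex.I) • (LinearMap.toContinuousLinearMap (dco M G α k))).restrictScalars ℝ).comp
      (ContinuousLinearMap.apply ℝ F (EuclideanSpace.single k (1 : ℝ)))
  B := fun x =>
    (LinearMap.toContinuousLinearMap (vco M fun β A => wpot b G g m α β A x)).restrictScalars ℝ
  contB := by
    refine (ContinuousLinearMap.restrictScalarsL ℂ F F ℝ ℝ).continuous.comp ?_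
    rw [continuous_clm_apply]
    intro v
    exact continuous_vco (fun β A => wpot_continuous β A) v

theorem fop_op (G : GammaNine) (g m : ℝ) (α : Fin 16) (φ : Cfg N → F) :
    (fop b M G g m α).op φ = dcharge b M G g m α φ := by
  funext x
  rw [dcharge_eq, chargeW_apply]
  simp [FOp.op, fop]

/-! ### the gauge symmetry -/

theorem act_cont_left (b : ColorBasis N) (x : Cfg N) :
    Continuous fun g : Matrix.specialUnitaryGroup (Fin N) ℂ => b.act g x := by
  have h : (fun g : Matrix.specialUnitaryGroup (Fin N) ℂ => b.act g x) = fun g =>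
      WithLp.toLp 2 (fun iA : Fin 9 × Fin (N ^ 2 - 1) =>
        ∑ B, b.adjMat g iA.2 B * x (iA.1, B)) := rfl
  rw [h]
  refine (PiLp.continuous_toLp 2 _).comp (continuous_pi fun k => ?_)
  refine continuous_finsetSum _ fun B _ => ?_
  exact (adj_continuous b k.2 B).mul continuous_const

/-- the gauge symmetry -/
def sym (R : GaugeAction b M) : Sym (SU N) (Cfg N) F where
  L := actL b
  ρ := fun g => LinearMap.toContinuousLinearMap (R.ρ g)
  L_mul := fun g h x => act_mul b g h x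
  ρ_mul := fun g h v => by
    show R.ρ (g * h) v = R.ρ g (R.ρ h v)
    rw [map_mul]
    rfl
  L_one := fun x => act_one b x
  ρ_one := fun v => by
    show R.ρ 1 v = v
    rw [map_one]
    rfl
  L_cont := fun x => act_cont_left b x
  ρ_cont := R.continuous
  ρ_unitary := fun g v w => R.unitary g v w

theorem sym_tr (R : GaugeAction b M) (g : SU N) (φ : Cfg N → F) :
    (sym R).tr g φ = tg R g φ := rfl


theorem cov_fop (R : GaugeAction b M) (G : GammaNine) (g m : ℝ) (α : Fin 16) :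
    (sym R).Cov (fop b M G g m α) := by
  intro h φ hφ
  rw [fop_op, fop_op, sym_tr, sym_tr]
  exact dcharge_tg R h (hφ.differentiable (by simp))

/-- averages of test functions are core vectors -/
theorem core_avg (R : GaugeAction b M) {φ : Cfg N → F} (hφ : ContDiff ℝ ∞ φ)
    (hc : HasCompactSupport φ) : IsCoreVec b R ((sym R).avg φ) :=
  ⟨(sym R).avg_contDiff hφ, (sym R).avg_supp hc, (sym R).avg_equi hφ.continuous⟩

theorem dcharge_avg (R : GaugeAction b M) (G : GammaNine) (g m : ℝ) (α : Fin 16)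
    {φ : Cfg N → F} (hφ : ContDiff ℝ ∞ φ) :
    dcharge b M G g m α ((sym R).avg φ) = (sym R).avg (dcharge b M G g m α φ) := by
  have h := (sym R).op_avg (cov_fop R G g m α) hφ
  rwa [fop_op, fop_op] at h

/-! ### the operator -/

/-- the operator `(1/16) Σ Q_α²` -/
def HQ (b : ColorBasis N) (M : FermionRep N F) (G : GammaNine) (g m : ℝ) (φ : Cfg N → F)
    (x : Cfg N) : F :=
  (1 / 16 : ℝ) • ∑ α, dcharge b M G g m α (dcharge b M G g m α φ) x

theorem contDiff_HQ {G : GammaNine} {g m : ℝ} {φ : Cfg N → F} (hφ : ContDiff ℝ ∞ φ) :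
    ContDiff ℝ ∞ (HQ b M G g m φ) := by
  unfold HQ
  exact contDiff_const.smul (ContDiff.sum fun α _ => contDiff_dcharge (contDiff_dcharge hφ))

theorem supp_HQ {G : GammaNine} {g m : ℝ} {φ : Cfg N → F} (hc : HasCompactSupport φ) :
    HasCompactSupport (HQ b M G g m φ) := by
  refine HasCompactSupport.intro hc.isCompact fun x hx => ?_
  have h : ∀ α, dcharge b M G g m α (dcharge b M G g m α φ) x = 0 := by
    intro α
    have h1 : x ∉ tsupport (dcharge b M G g m α (dcharge b M G g m α φ)) := fun h =>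
      hx (tsupport_dcharge_subset (tsupport_dcharge_subset h))
    exact image_eq_zero_of_notMem_tsupport h1
  simp [HQ, h]

/-- averaging commutes with `HQ` -/
theorem HQ_avg (R : GaugeAction b M) (G : GammaNine) (g m : ℝ) {φ : Cfg N → F}
    (hφ : ContDiff ℝ ∞ φ) : HQ b M G g m ((sym R).avg φ) = (sym R).avg (HQ b M G g m φ) := by
  funext x
  have h1 : ∀ α, dcharge b M G g m α (dcharge b M G g m α ((sym R).avg φ)) =
      (sym R).avg (dcharge b M G g m α (dcharge b M G g m α φ)) := fun α => by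
    rw [dcharge_avg R G g m α hφ, dcharge_avg R G g m α (contDiff_dcharge hφ)]
  unfold HQ
  simp only [h1]
  unfold Sym.avg
  rw [← integral_finsetSum, ← integral_smul]
  · refine integral_congr_ae (Eventually.of_forall fun h => ?_)
    simp only [Sym.tr]
    rw [← map_sum]
    exact (((sym R).ρ h⁻¹).map_smul_of_tower (1 / 16 : ℝ) _).symm
  · intro α _
    exact integrable_param _ ((sym R).tr_param
      (contDiff_dcharge (contDiff_dcharge hφ)).continuous x)

/-! ### the operator is `-1/2 Δ + W` -/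

open PW868

/-- the coordinate vectors -/
def es (N : ℕ) (k : Fin 9 × Fin (N ^ 2 - 1)) : Cfg N := EuclideanSpace.single k (1 : ℝ)

/-- the zero order part -/
def Wop (b : ColorBasis N) (M : FermionRep N F) (G : GammaNine) (g m : ℝ) (x : Cfg N) :
    F →L[ℂ] F :=
  LinearMap.toContinuousLinearMap (((1 / 16 : ℝ) : ℂ) •
    (((Wsq (wpot b G g m) x / 2 : ℝ) : ℂ) • LinearMap.id + Zop M G (wpot b G g m) x))

theorem Wop_apply (G : GammaNine) (g m : ℝ) (x : Cfg N) (v : F) :
    Wop b M G g m x v = ((1 / 16 : ℝ) : ℂ) • (((Wsq (wpot b G g m) x / 2 : ℝ) : ℂ) • v +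
      Zop M G (wpot b G g m) x v) := rfl

theorem continuous_Wsq {W : Fin 16 → Fin 16 → Fin (N ^ 2 - 1) → Cfg N → ℝ}
    (hW : ∀ α β A, Continuous (W α β A)) : Continuous (Wsq W) := by
  unfold Wsq dp
  exact continuous_finsetSum _ fun α _ => continuous_finsetSum _ fun β _ =>
    continuous_finsetSum _ fun A _ => (hW α β A).mul (hW α β A)

theorem continuous_Zop {W : Fin 16 → Fin 16 → Fin (N ^ 2 - 1) → Cfg N → ℝ} (G : GammaNine)
    (hW : ∀ α β A, ContDiff ℝ 1 (W α β A)) (v : F) : Continuous fun x => Zop M G W x v := by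
  simp only [Zop_apply]
  refine continuous_finsetSum _ fun α _ => continuous_finsetSum _ fun k _ =>
    Continuous.const_smul ?_ _
  exact (cont_lin _).comp (continuous_Th (fun β A => continuous_dW (hW α) k β A) continuous_const)

theorem wc1 (b : ColorBasis N) (G : GammaNine) (g m : ℝ) (α β : Fin 16)
    (A : Fin (N ^ 2 - 1)) : ContDiff ℝ 1 (wpot b G g m α β A) :=
  wpot_contDiff (n := 1) β A

theorem continuous_Wop (G : GammaNine) (g m : ℝ) : Continuous (Wop b M G g m) := by
  rw [continuous_clm_apply]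
  intro v
  simp only [Wop_apply]
  have hs : Continuous (Wsq (wpot b G g m)) := continuous_Wsq fun α β A => wpot_continuous β A
  have hZ : Continuous fun x => Zop M G (wpot b G g m) x v :=
    continuous_Zop G (wc1 b G g m) v
  have h1 : Continuous fun x => ((Wsq (wpot b G g m) x / 2 : ℝ) : ℂ) • v :=
    (Complex.continuous_ofReal.comp (hs.div_const 2)).smul continuous_const
  exact (h1.add hZ).const_smul _

/-- the trace condition for the derivatives -/
theorem sum_dp_dW {W : Fin 16 → Fin 16 → Fin (N ^ 2 - 1) → Cfg N → ℝ} {G : GammaNine}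
    (hW : ∀ α β A, ContDiff ℝ 1 (W α β A)) (hT : TrZ G W) (k : Fin 9 × Fin (N ^ 2 - 1))
    (x : Cfg N) : ∑ α, dp (ug G α k.1 k.2) (dW W α k x) = 0 := by
  simp only [dp_ug, dW]
  have h1 : HasFDerivAt (fun y => ∑ α, ∑ β, G.γ k.1 α β * W α β k.2 y)
      (∑ α, ∑ β, G.γ k.1 α β • fderiv ℝ (W α β k.2) x) x := by
    refine HasFDerivAt.fun_sum fun α _ => HasFDerivAt.fun_sum fun β _ => ?_
    exact (((hW α β k.2).differentiable (by norm_num)) x).hasFDerivAt.const_mul _
  have h2 : (fun y => ∑ α, ∑ β, G.γ k.1 α β * W α β k.2 y) = fun _ => (0 : ℝ) := by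
    funext y
    exact hT k y
  rw [h2] at h1
  have h3 := h1.unique (hasFDerivAt_const (0 : ℝ) x)
  have h4 := DFunLike.congr_fun h3 (EuclideanSpace.single k (1 : ℝ))
  simpa [_root_.sum_apply] using h4

/-- the fermionic term is symmetric -/
theorem Zop_symm {W : Fin 16 → Fin 16 → Fin (N ^ 2 - 1) → Cfg N → ℝ} {G : GammaNine}
    (hW : ∀ α β A, ContDiff ℝ 1 (W α β A)) (hT : TrZ G W) (x : Cfg N) (v w : F) :
    ⟪Zop M G W x v, w⟫_ℂ = ⟪v, Zop M G W x w⟫_ℂ := by
  simp only [Zop_apply, sum_inner, inner_sum]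
  have h1 : ∀ (α : Fin 16) (k : Fin 9 × Fin (N ^ 2 - 1)),
      ⟪(-Complex.I) • dco M G α k (Th M (dW W α k x) v), w⟫_ℂ =
      ⟪v, (-Complex.I) • dco M G α k (Th M (dW W α k x) w)⟫_ℂ +
        Complex.I * ((dp (ug G α k.1 k.2) (dW W α k x) : ℝ) : ℂ) * ⟪v, w⟫_ℂ := by
    intro α k
    rw [dco_eq, inner_smul_left, inner_smul_right, Th_symm, Th_symm]
    have h2 := Th_anti M (ug G α k.1 k.2) (dW W α k x) w
    have h3 : Th M (dW W α k x) (Th M (ug G α k.1 k.2) w) =
        ((dp (ug G α k.1 k.2) (dW W α k x) : ℝ) : ℂ) • w -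
          Th M (ug G α k.1 k.2) (Th M (dW W α k x) w) := by
      rw [← h2]; abel
    rw [h3, inner_sub_right, inner_smul_right]
    simp only [map_neg, Complex.conj_I, neg_neg]
    ring
  simp only [h1, Finset.sum_add_distrib]
  have h4 : ∑ α, ∑ k : Fin 9 × Fin (N ^ 2 - 1),
      Complex.I * ((dp (ug G α k.1 k.2) (dW W α k x) : ℝ) : ℂ) * ⟪v, w⟫_ℂ = 0 := by
    rw [Finset.sum_comm]
    refine Finset.sum_eq_zero fun k _ => ?_
    rw [← Finset.sum_mul, ← Finset.mul_sum, ← Complex.ofReal_sum, sum_dp_dW hW hT k x]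
    simp
  rw [h4, add_zero]

theorem Wop_symm (G : GammaNine) (g m : ℝ) (x : Cfg N) (v w : F) :
    ⟪Wop b M G g m x v, w⟫_ℂ = ⟪v, Wop b M G g m x w⟫_ℂ := by
  have hZ : ⟪Zop M G (wpot b G g m) x v, w⟫_ℂ = ⟪v, Zop M G (wpot b G g m) x w⟫_ℂ :=
    Zop_symm (wc1 b G g m) (trZ_wpot b G g m) x v w
  rw [Wop_apply, Wop_apply, inner_smul_left, inner_smul_right, inner_add_left, inner_add_right,
    inner_smul_left, inner_smul_right, hZ, Complex.conj_ofReal, Complex.conj_ofReal]

/-! ### identification by polarisation -/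

/-- integrability of inner products of continuous functions, one compactly supported -/
theorem int2 {φ ψ : Cfg N → F} (h1 : Continuous φ) (h2 : Continuous ψ)
    (hc : HasCompactSupport φ) : Integrable fun x => ⟪φ x, ψ x⟫_ℂ :=
  integrable_inner_of_cont h1 h2 (Or.inl hc)

/-- polarisation -/
theorem polar {T : (Cfg N → F) → Cfg N → F}
    (hcont : ∀ φ, ContDiff ℝ ∞ φ → Continuous (T φ))
    (hadd : ∀ φ ψ, ContDiff ℝ ∞ φ → ContDiff ℝ ∞ ψ → T (φ + ψ) = T φ + T ψ)
    (hsmul : ∀ (c : ℂ) φ, ContDiff ℝ ∞ φ → T (c • φ) = c • T φ)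
    (hquad : ∀ φ, ContDiff ℝ ∞ φ → HasCompactSupport φ → ∫ x, ⟪φ x, T φ x⟫_ℂ = 0)
    {φ ψ : Cfg N → F} (hφ : ContDiff ℝ ∞ φ) (hφc : HasCompactSupport φ)
    (hψ : ContDiff ℝ ∞ ψ) (hψc : HasCompactSupport ψ) : ∫ x, ⟪φ x, T ψ x⟫_ℂ = 0 := by
  have key : ∀ ψ : Cfg N → F, ContDiff ℝ ∞ ψ → HasCompactSupport ψ →
      (∫ x, ⟪φ x, T ψ x⟫_ℂ) + ∫ x, ⟪ψ x, T φ x⟫_ℂ = 0 := by
    intro ψ hψ hψc
    have h0 := hquad (φ + ψ) (hφ.add hψ) (hφc.add hψc)
    rw [hadd φ ψ hφ hψ] at h0
    have h1 : ∀ x, ⟪(φ + ψ) x, (T φ + T ψ) x⟫_ℂ =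
        (⟪φ x, T φ x⟫_ℂ + ⟪φ x, T ψ x⟫_ℂ) + (⟪ψ x, T φ x⟫_ℂ + ⟪ψ x, T ψ x⟫_ℂ) := by
      intro x
      simp only [Pi.add_apply, inner_add_left, inner_add_right]
      ring
    simp only [h1] at h0
    have i1 := int2 hφ.continuous (hcont φ hφ) hφc
    have i2 := int2 hφ.continuous (hcont ψ hψ) hφc
    have i3 := int2 hψ.continuous (hcont φ hφ) hψc
    have i4 := int2 hψ.continuous (hcont ψ hψ) hψc
    have i12 : Integrable fun x => ⟪φ x, T φ x⟫_ℂ + ⟪φ x, T ψ x⟫_ℂ := i1.add i2
    have i34 : Integrable fun x => ⟪ψ x, T φ x⟫_ℂ + ⟪ψ x, T ψ x⟫_ℂ := i3.add i4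
    rw [integral_add i12 i34, integral_add i1 i2, integral_add i3 i4, hquad φ hφ hφc,
      hquad ψ hψ hψc] at h0
    linear_combination h0
  have k1 := key ψ hψ hψc
  have k2 := key (Complex.I • ψ) (contDiff_const.smul hψ) (hψc.smul_left (f := fun _ => Complex.I))
  rw [hsmul Complex.I ψ hψ] at k2
  have e1 : ∀ x, ⟪φ x, (Complex.I • T ψ) x⟫_ℂ = Complex.I * ⟪φ x, T ψ x⟫_ℂ := fun x => by
    rw [Pi.smul_apply, inner_smul_right]
  have e2 : ∀ x, ⟪(Complex.I • ψ) x, T φ x⟫_ℂ = -Complex.I * ⟪ψ x, T φ x⟫_ℂ := fun x => by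
    rw [Pi.smul_apply, inner_smul_left, Complex.conj_I]
  simp only [e1, e2] at k2
  rw [integral_const_mul, integral_const_mul] at k2
  have k3 : (∫ x, ⟪φ x, T ψ x⟫_ℂ) - ∫ x, ⟪ψ x, T φ x⟫_ℂ = 0 := by
    have h : Complex.I * ((∫ x, ⟪φ x, T ψ x⟫_ℂ) - ∫ x, ⟪ψ x, T φ x⟫_ℂ) = 0 := by
      linear_combination k2
    exact (mul_eq_zero.mp h).resolve_left Complex.I_ne_zero
  linear_combination (k1 + k3) / 2

/-- the difference of the two operators -/
def Dop (b : ColorBasis N) (M : FermionRep N F) (G : GammaNine) (g m : ℝ) (φ : Cfg N → F)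
    (x : Cfg N) : F := HQ b M G g m φ x - Hop (es N) (Wop b M G g m) φ x

theorem continuous_lap {φ : Cfg N → F} (hφ : ContDiff ℝ ∞ φ) : Continuous (lap (es N) φ) := by
  unfold lap
  exact continuous_finsetSum _ fun k _ =>
    (pd_contDiff (pd_contDiff hφ (es N k)) (es N k)).continuous

theorem continuous_Hop {G : GammaNine} {g m : ℝ} {φ : Cfg N → F} (hφ : ContDiff ℝ ∞ φ) :
    Continuous (Hop (es N) (Wop b M G g m) φ) := by
  unfold Hop
  exact ((continuous_lap hφ).const_smul _).neg.add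
    ((continuous_Wop G g m).clm_apply hφ.continuous)

theorem continuous_Dop {G : GammaNine} {g m : ℝ} {φ : Cfg N → F} (hφ : ContDiff ℝ ∞ φ) :
    Continuous (Dop b M G g m φ) :=
  (contDiff_HQ hφ).continuous.sub (continuous_Hop hφ)

theorem pd_add {φ ψ : Cfg N → F} (hφ : ContDiff ℝ ∞ φ) (hψ : ContDiff ℝ ∞ ψ) (v : Cfg N) :
    pd v (φ + ψ) = pd v φ + pd v ψ := by
  funext x
  unfold pd
  rw [fderiv_add (hφ.differentiable (by simp) x) (hψ.differentiable (by simp) x)]
  rfl

theorem pd_smul {φ : Cfg N → F} (hφ : ContDiff ℝ ∞ φ) (c : ℂ) (v : Cfg N) :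
    pd v (c • φ) = c • pd v φ := by
  funext x
  unfold pd
  rw [fderiv_const_smul (hφ.differentiable (by simp) x) c]
  rfl

theorem lap_add {φ ψ : Cfg N → F} (hφ : ContDiff ℝ ∞ φ) (hψ : ContDiff ℝ ∞ ψ) (x : Cfg N) :
    lap (es N) (φ + ψ) x = lap (es N) φ x + lap (es N) ψ x := by
  unfold lap
  rw [← Finset.sum_add_distrib]
  refine Finset.sum_congr rfl fun k _ => ?_
  rw [pd_add hφ hψ, pd_add (pd_contDiff hφ _) (pd_contDiff hψ _)]
  rfl

theorem lap_smul {φ : Cfg N → F} (hφ : ContDiff ℝ ∞ φ) (c : ℂ) (x : Cfg N) :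
    lap (es N) (c • φ) x = c • lap (es N) φ x := by
  unfold lap
  rw [Finset.smul_sum]
  refine Finset.sum_congr rfl fun k _ => ?_
  rw [pd_smul hφ, pd_smul (pd_contDiff hφ _)]
  rfl

theorem HQ_add {G : GammaNine} {g m : ℝ} {φ ψ : Cfg N → F} (hφ : ContDiff ℝ ∞ φ)
    (hψ : ContDiff ℝ ∞ ψ) (x : Cfg N) :
    HQ b M G g m (φ + ψ) x = HQ b M G g m φ x + HQ b M G g m ψ x := by
  unfold HQ
  rw [← smul_add, ← Finset.sum_add_distrib]
  congr 1
  refine Finset.sum_congr rfl fun α _ => ?_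
  rw [dcharge_add b M G g m α (hφ.differentiable (by simp)) (hψ.differentiable (by simp)),
    dcharge_add b M G g m α ((contDiff_dcharge hφ).differentiable (by simp))
      ((contDiff_dcharge hψ).differentiable (by simp))]
  rfl

theorem HQ_smul {G : GammaNine} {g m : ℝ} {φ : Cfg N → F} (hφ : ContDiff ℝ ∞ φ) (c : ℂ)
    (x : Cfg N) : HQ b M G g m (c • φ) x = c • HQ b M G g m φ x := by
  unfold HQ
  rw [smul_comm c]
  congr 1
  rw [Finset.smul_sum]
  refine Finset.sum_congr rfl fun α _ => ?_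
  rw [dcharge_smul b M G g m α c (hφ.differentiable (by simp)),
    dcharge_smul b M G g m α c ((contDiff_dcharge hφ).differentiable (by simp))]
  rfl

theorem Dop_add {G : GammaNine} {g m : ℝ} {φ ψ : Cfg N → F} (hφ : ContDiff ℝ ∞ φ)
    (hψ : ContDiff ℝ ∞ ψ) : Dop b M G g m (φ + ψ) = Dop b M G g m φ + Dop b M G g m ψ := by
  funext x
  simp only [Dop, Hop, Pi.add_apply, HQ_add hφ hψ, lap_add hφ hψ, map_add, smul_add]
  abel

theorem Dop_smul {G : GammaNine} {g m : ℝ} {φ : Cfg N → F} (c : ℂ) (hφ : ContDiff ℝ ∞ φ) :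
    Dop b M G g m (c • φ) = c • Dop b M G g m φ := by
  funext x
  simp only [Dop, Hop, Pi.smul_apply, HQ_smul hφ, lap_smul hφ, map_smul, smul_sub, smul_add,
    smul_neg]
  rw [smul_comm c]

/-- the quadratic form of `HQ` -/
theorem quad_HQ {G : GammaNine} {g m : ℝ} {φ ψ : Cfg N → F} (hφ : ContDiff ℝ ∞ φ)
    (hψ : ContDiff ℝ ∞ ψ) (hc : HasCompactSupport φ) :
    ∫ x, ⟪φ x, HQ b M G g m ψ x⟫_ℂ =
      ((1 / 16 : ℝ) : ℂ) * ∑ α, ∫ x, ⟪dcharge b M G g m α φ x, dcharge b M G g m α ψ x⟫_ℂ := by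
  have h1 : ∀ α, ∫ x, ⟪dcharge b M G g m α φ x, dcharge b M G g m α ψ x⟫_ℂ =
      ∫ x, ⟪φ x, dcharge b M G g m α (dcharge b M G g m α ψ) x⟫_ℂ := fun α =>
    dcharge_symm (hφ.of_le (by norm_cast)) ((contDiff_dcharge hψ).of_le (by norm_cast))
      (Or.inl hc)
  simp only [h1]
  have i1 : ∀ α, Integrable fun x =>
      ⟪φ x, dcharge b M G g m α (dcharge b M G g m α ψ) x⟫_ℂ := fun α =>
    int2 hφ.continuous (contDiff_dcharge (contDiff_dcharge hψ)).continuous hc
  rw [← integral_finsetSum _ fun α _ => i1 α, ← integral_const_mul]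
  refine integral_congr_ae (Eventually.of_forall fun x => ?_)
  simp only [HQ]
  rw [inner_rsmul_right, inner_sum]

/-- the quadratic form of `Hop` -/
theorem quad_Hop {G : GammaNine} {g m : ℝ} {φ : Cfg N → F} (hφ : ContDiff ℝ ∞ φ)
    (hc : HasCompactSupport φ) :
    ∫ x, ⟪φ x, Hop (es N) (Wop b M G g m) φ x⟫_ℂ =
      ((1 / 2 : ℝ) : ℂ) * (∑ k, ∫ x, ⟪pd (es N k) φ x, pd (es N k) φ x⟫_ℂ) +
        ∫ x, ⟪φ x, Wop b M G g m x (φ x)⟫_ℂ := by
  have h1 : ∀ k, ∫ x, ⟪pd (es N k) φ x, pd (es N k) φ x⟫_ℂ =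
      -∫ x, ⟪φ x, pd (es N k) (pd (es N k) φ) x⟫_ℂ := fun k =>
    ibp (hφ.of_le (by norm_cast)) ((pd_contDiff hφ _).of_le (by norm_cast)) (Or.inl hc) _
  have i1 : ∀ k, Integrable fun x => ⟪φ x, pd (es N k) (pd (es N k) φ) x⟫_ℂ := fun k =>
    int2 hφ.continuous (pd_contDiff (pd_contDiff hφ _) _).continuous hc
  have i2 : Integrable fun x => ⟪φ x, Wop b M G g m x (φ x)⟫_ℂ :=
    int2 hφ.continuous ((continuous_Wop G g m).clm_apply hφ.continuous) hc
  have i3 : Integrable fun x => ((1 / 2 : ℝ) : ℂ) * ⟪φ x, lap (es N) φ x⟫_ℂ :=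
    (int2 hφ.continuous (continuous_lap hφ) hc).const_mul _
  have i3' : Integrable fun x => -(((1 / 2 : ℝ) : ℂ) * ⟪φ x, lap (es N) φ x⟫_ℂ) := i3.neg
  have e1 : ∀ x, ⟪φ x, Hop (es N) (Wop b M G g m) φ x⟫_ℂ =
      -(((1 / 2 : ℝ) : ℂ) * ⟪φ x, lap (es N) φ x⟫_ℂ) + ⟪φ x, Wop b M G g m x (φ x)⟫_ℂ := by
    intro x
    rw [Hop, inner_add_right, inner_neg_right, inner_rsmul_right]
  simp only [e1]
  rw [integral_add i3' i2, integral_neg, integral_const_mul]
  congr 1
  simp only [h1]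
  rw [Finset.sum_neg_distrib, mul_neg]
  congr 2
  rw [← integral_finsetSum _ fun k _ => i1 k]
  refine integral_congr_ae (Eventually.of_forall fun x => ?_)
  simp only [lap]
  rw [inner_sum]

theorem quad_Dop {G : GammaNine} {g m : ℝ} {φ : Cfg N → F} (hφ : ContDiff ℝ ∞ φ)
    (hc : HasCompactSupport φ) : ∫ x, ⟪φ x, Dop b M G g m φ x⟫_ℂ = 0 := by
  have e1 : ∀ x, ⟪φ x, Dop b M G g m φ x⟫_ℂ =
      ⟪φ x, HQ b M G g m φ x⟫_ℂ - ⟪φ x, Hop (es N) (Wop b M G g m) φ x⟫_ℂ := fun x => by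
    rw [Dop, inner_sub_right]
  simp only [e1]
  rw [integral_sub (int2 hφ.continuous (contDiff_HQ hφ).continuous hc)
    (int2 hφ.continuous (continuous_Hop hφ) hc), quad_HQ hφ hφ hc, quad_Hop hφ hc, sub_eq_zero]
  have h := weitz_complex (M := M) (wc1 b G g m) (trZ_wpot b G g m)
    (hφ.of_le (by norm_cast) : ContDiff ℝ 2 φ) hc
  have h2 : ∀ α, dcharge b M G g m α φ = chargeW M G (wpot b G g m) α φ := fun α =>
    dcharge_eq b M G g m α φ
  simp only [h2]
  rw [h]
  have i1 : Integrable fun x => ((Wsq (wpot b G g m) x / 2 : ℝ) : ℂ) * ⟪φ x, φ x⟫_ℂ := by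
    have hs : Continuous (Wsq (wpot b G g m)) := continuous_Wsq fun α β A => wpot_continuous β A
    have := int2 (φ := φ) (ψ := fun x => ((Wsq (wpot b G g m) x / 2 : ℝ) : ℂ) • φ x)
      hφ.continuous ((Complex.continuous_ofReal.comp (hs.div_const 2)).smul hφ.continuous) hc
    refine this.congr (Eventually.of_forall fun x => ?_)
    simp only
    rw [inner_smul_right]
  have i2 : Integrable fun x => ⟪φ x, Zop M G (wpot b G g m) x (φ x)⟫_ℂ := by
    have hW : Continuous fun x => Wop b M G g m x (φ x) :=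
      (continuous_Wop G g m).clm_apply hφ.continuous
    have hs : Continuous (Wsq (wpot b G g m)) := continuous_Wsq fun α β A => wpot_continuous β A
    have h3 : (fun x => Zop M G (wpot b G g m) x (φ x)) = fun x =>
        (16 : ℂ) • Wop b M G g m x (φ x) - ((Wsq (wpot b G g m) x / 2 : ℝ) : ℂ) • φ x := by
      funext x
      rw [Wop_apply, smul_smul]
      norm_num
    refine int2 hφ.continuous ?_ hc
    rw [h3]
    exact (hW.const_smul _).sub
      ((Complex.continuous_ofReal.comp (hs.div_const 2)).smul hφ.continuous)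
  have e2 : ∫ x, ⟪φ x, Wop b M G g m x (φ x)⟫_ℂ = ((1 / 16 : ℝ) : ℂ) *
      ((∫ x, ((Wsq (wpot b G g m) x / 2 : ℝ) : ℂ) * ⟪φ x, φ x⟫_ℂ) +
        ∫ x, ⟪φ x, Zop M G (wpot b G g m) x (φ x)⟫_ℂ) := by
    rw [← integral_add i1 i2, ← integral_const_mul]
    refine integral_congr_ae (Eventually.of_forall fun x => ?_)
    simp only
    rw [Wop_apply, inner_smul_right, inner_add_right, inner_smul_right]
  rw [e2]
  have e3 : ∀ k, ∫ x, ⟪pd (es N k) φ x, pd (es N k) φ x⟫_ℂ =
      ∫ x, ⟪fderiv ℝ φ x (EuclideanSpace.single k 1), fderiv ℝ φ x (EuclideanSpace.single k 1)⟫_ℂ :=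
    fun k => rfl
  simp only [e3]
  generalize (∑ k, ∫ x, ⟪fderiv ℝ φ x (EuclideanSpace.single k 1),
    fderiv ℝ φ x (EuclideanSpace.single k 1)⟫_ℂ : ℂ) = A
  push_cast
  ring

/-- **the operator `(1/16) Σ Q_α²` is `-1/2 Δ + W`** on test functions -/
theorem HQ_eq (b : ColorBasis N) (M : FermionRep N F) (G : GammaNine) (g m : ℝ)
    {φ : Cfg N → F} (hφ : ContDiff ℝ ∞ φ) (hc : HasCompactSupport φ) :
    HQ b M G g m φ = Hop (es N) (Wop b M G g m) φ := by
  have h1 : ∀ ψ : Cfg N → F, ContDiff ℝ ∞ ψ → HasCompactSupport ψ →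
      ∫ x, ⟪Dop b M G g m φ x, ψ x⟫_ℂ = 0 := by
    intro ψ hψ hψc
    have h := polar (T := Dop b M G g m) (fun φ hφ => continuous_Dop hφ)
      (fun φ ψ hφ hψ => Dop_add hφ hψ) (fun c φ hφ => Dop_smul c hφ)
      (fun φ hφ hc => quad_Dop hφ hc) hψ hψc hφ hc
    have h2 := congrArg (starRingEnd ℂ) h
    rw [← integral_conj, map_zero] at h2
    simpa only [inner_conj_symm] using h2
  have hcs : HasCompactSupport (Dop b M G g m φ) := by
    refine HasCompactSupport.intro hc.isCompact fun x hx => ?_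
    have a1 : HQ b M G g m φ x = 0 := by
      have h : ∀ α, dcharge b M G g m α (dcharge b M G g m α φ) x = 0 := fun α =>
        image_eq_zero_of_notMem_tsupport fun h =>
          hx (tsupport_dcharge_subset (tsupport_dcharge_subset h))
      simp [HQ, h]
    have a2 : ∀ k, pd (es N k) (pd (es N k) φ) x = 0 := by
      intro k
      have hs : ∀ (v : Cfg N) (f : Cfg N → F), tsupport (pd v f) ⊆ tsupport f := by
        intro v f
        refine (closure_mono ?_).trans (tsupport_fderiv_subset ℝ (f := f))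
        intro y hy
        rw [Function.mem_support] at hy ⊢
        intro h0
        apply hy
        simp [pd, h0]
      exact image_eq_zero_of_notMem_tsupport fun h => hx (hs _ _ (hs _ _ h))
    have a3 : φ x = 0 := image_eq_zero_of_notMem_tsupport hx
    simp [Dop, Hop, lap, a1, a2, a3]
  have hL : MemLp (Dop b M G g m φ) 2 volume :=
    (continuous_Dop hφ).memLp_of_hasCompactSupport hcs
  have h2 := ae_zero_of_orth hL h1
  have h3 : Dop b M G g m φ = 0 :=
    (Continuous.ae_eq_iff_eq volume (continuous_Dop hφ) continuous_const).1 h2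
  funext x
  exact sub_eq_zero.mp (congrFun h3 x)

/-! ### positivity, weak equation, density -/

/-- the form of `-1/2 Δ + W` is the energy -/
theorem qf_eq (G : GammaNine) (g m : ℝ) {φ : Cfg N → F} (hφ : ContDiff ℝ ∞ φ)
    (hc : HasCompactSupport φ) :
    PW868.qf (es N) (Wop b M G g m) φ = Defs478.qf b M G g m φ := by
  have h1 := quad_Hop (G := G) (g := g) (m := m) (b := b) (M := M) hφ hc
  rw [← HQ_eq b M G g m hφ hc, quad_HQ hφ hφ hc] at h1
  have h2 := congrArg Complex.re h1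
  have n2 : ∀ f : Cfg N → F, (∫ x, ⟪f x, f x⟫_ℂ) = ((∫ x, ‖f x‖ ^ 2 : ℝ) : ℂ) := by
    intro f
    have : ∀ x, ⟪f x, f x⟫_ℂ = ((‖f x‖ ^ 2 : ℝ) : ℂ) := fun x => by
      rw [inner_self_eq_norm_sq_to_K]; norm_cast
    simp only [this]
    exact integral_ofReal
  have i2 : Integrable fun x => ⟪φ x, Wop b M G g m x (φ x)⟫_ℂ :=
    int2 hφ.continuous ((continuous_Wop G g m).clm_apply hφ.continuous) hc
  have e1 : (∫ x, ⟪φ x, Wop b M G g m x (φ x)⟫_ℂ).re = ∫ x, (⟪φ x, Wop b M G g m x (φ x)⟫_ℂ).re :=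
    (integral_re i2).symm
  simp only [n2, ← Complex.ofReal_sum, ← Complex.ofReal_mul, Complex.add_re, Complex.ofReal_re,
    e1] at h2
  unfold PW868.qf Defs478.qf
  rw [← h2]

theorem qf_nonneg (G : GammaNine) (g m : ℝ) (φ : Cfg N → F) : 0 ≤ Defs478.qf b M G g m φ := by
  unfold Defs478.qf
  exact mul_nonneg (by norm_num) (Finset.sum_nonneg fun α _ =>
    integral_nonneg fun x => by positivity)

/-- **an invariant `χ ∈ L²` orthogonal to `(1 + H)` of the core vanishes** -/
theorem weak_zero (R : GaugeAction b M) (G : GammaNine) (g m : ℝ) {χ : Cfg N → F}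
    (hχ : MemLp χ 2 volume) (hE : (sym R).EquiAE χ)
    (h : ∀ φ, IsCoreVec b R φ → ∫ x, ⟪HQ b M G g m φ x + φ x, χ x⟫_ℂ = 0) :
    χ =ᵐ[volume] 0 := by
  have hl : LocallyIntegrable χ := hχ.locallyIntegrable (by norm_num)
  refine pw (L := (sym R).L) (T := fun k => ((sym R).ρ k).restrictScalars ℝ) (e := es N)
    (W := Wop b M G g m) (continuous_Wop G g m) (fun x v w => Wop_symm G g m x v w) ?_ hχ (fun k => hE k) ?_
  · intro φ hφ
    rw [qf_eq G g m hφ.smooth hφ.supp]
    exact qf_nonneg G g m φ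
  · intro ψ hψ hψc
    have h1 := h _ (core_avg R hψ hψc)
    rw [HQ_avg R G g m hψ] at h1
    have i1 : Integrable fun x => ⟪(sym R).avg (HQ b M G g m ψ) x, χ x⟫_ℂ :=
      integrable_inner_left ((sym R).avg_continuous (contDiff_HQ hψ).continuous)
        ((sym R).avg_supp (supp_HQ hψc)) hl
    have i2 : Integrable fun x => ⟪(sym R).avg ψ x, χ x⟫_ℂ :=
      integrable_inner_left ((sym R).avg_continuous hψ.continuous) ((sym R).avg_supp hψc) hl
    have i3 : Integrable fun x => ⟪HQ b M G g m ψ x, χ x⟫_ℂ :=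
      integrable_inner_left (contDiff_HQ hψ).continuous (supp_HQ hψc) hl
    have i4 : Integrable fun x => ⟪ψ x, χ x⟫_ℂ := integrable_inner_left hψ.continuous hψc hl
    simp only [inner_add_left] at h1
    rw [integral_add i1 i2, (sym R).integral_inner_avg' hl hE (contDiff_HQ hψ).continuous
      (supp_HQ hψc), (sym R).integral_inner_avg' hl hE hψ.continuous hψc,
      ← integral_add i3 i4] at h1
    rw [← h1]
    refine integral_congr_ae (Eventually.of_forall fun x => ?_)
    simp only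
    rw [← HQ_eq b M G g m hψ hψc, inner_add_left]

/-! ### the operator on the core -/

open Dict416 FA416

theorem core_dcharge {R : GaugeAction b M} {G : GammaNine} {g m : ℝ} {α : Fin 16}
    {φ : Cfg N → F} (hφ : IsCoreVec b R φ) : IsCoreVec b R (dcharge b M G g m α φ) := by
  rw [dcharge_eq]
  exact core_chargeW isCov_wpot α (fun β A => wpot_contDiff β A) hφ

theorem core_HQ {R : GaugeAction b M} {G : GammaNine} {g m : ℝ} {φ : Cfg N → F}
    (hφ : IsCoreVec b R φ) : IsCoreVec b R (HQ b M G g m φ) := by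
  have h1 : HQ b M G g m φ = ((1 / 16 : ℝ) : ℂ) •
      ∑ α, dcharge b M G g m α (dcharge b M G g m α φ) := by
    funext x
    simp only [HQ, Pi.smul_apply, Finset.sum_apply]
    rw [Complex.coe_smul]
  rw [h1]
  refine cv_smul _ ?_
  have h2 : (∑ α, dcharge b M G g m α (dcharge b M G g m α φ)) ∈ core b R :=
    Submodule.sum_mem _ fun α _ => core_dcharge (core_dcharge hφ)
  exact h2

variable (b M) in
/-- the operator `(1/16) Σ Q_α²` on the core -/
def HamC (R : GaugeAction b M) (G : GammaNine) (g m : ℝ) : core b R →ₗ[ℂ] core b R where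
  toFun φ := ⟨HQ b M G g m φ.1, core_HQ φ.2⟩
  map_add' φ ψ := Subtype.ext (funext fun x => HQ_add φ.2.1 ψ.2.1 x)
  map_smul' c φ := Subtype.ext (funext fun x => HQ_smul φ.2.1 c x)

theorem HamC_val (R : GaugeAction b M) (G : GammaNine) (g m : ℝ) (φ : core b R) :
    (HamC b M R G g m φ).1 = HQ b M G g m φ.1 := rfl

/-- the form of the operator on the core -/
theorem form_HamC (R : GaugeAction b M) (G : GammaNine) (g m : ℝ) (φ ψ : core b R) :
    (1 / 16 : ℂ) * ∑ α, ∫ x, ⟪dcharge b M G g m α φ.1 x, dcharge b M G g m α ψ.1 x⟫_ℂ =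
      ∫ x, ⟪(HamC b M R G g m φ).1 x, ψ.1 x⟫_ℂ := by
  have h := congrArg (starRingEnd ℂ)
    (quad_HQ (b := b) (M := M) (G := G) (g := g) (m := m) ψ.2.1 φ.2.1 ψ.2.2.1)
  rw [← integral_conj, map_mul, map_sum] at h
  simp only [← integral_conj, inner_conj_symm, Complex.conj_ofReal] at h
  rw [HamC_val, h]
  push_cast
  rfl

/-- limits of core functions are invariant -/
theorem equi_limit (R : GaugeAction b M) {c : Cfg N → F} (hχ : MemLp c 2 volume)
    (φ : ℕ → core b R) (h1 : Tendsto (fun n => eLpNorm ((φ n).1 - c) 2 volume) atTop (𝓝 0)) :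
    (sym R).EquiAE c := by
  intro k
  have h2 : ∀ n, eLpNorm (tg R k c - c) 2 volume ≤ 2 * eLpNorm ((φ n).1 - c) 2 volume := by
    intro n
    have hm : AEStronglyMeasurable ((φ n).1 - c) volume := (cv_memLp (φ n).2).1.sub hχ.1
    have e1 : tg R k c - c = ((φ n).1 - c) - tg R k ((φ n).1 - c) := by
      funext x
      have h3 : tg R k (φ n).1 x = (φ n).1 x := by
        have := congrFun (((isCoreVec_iff R (φ n).1).1 (φ n).2).2.2 k) x
        exact this
      have h4 : tg R k ((φ n).1 - c) x = tg R k (φ n).1 x - tg R k c x := by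
        simp [tg]
      simp only [Pi.sub_apply]
      rw [h4, h3]
      abel
    rw [e1, two_mul]
    have hm2 : AEStronglyMeasurable (tg R k ((φ n).1 - c)) volume :=
      (memLp_tg R k ((cv_memLp (φ n).2).sub hχ)).1
    refine (eLpNorm_sub_le hm hm2 (by norm_num)).trans ?_
    rw [eLpNorm_tg R k hm]
  have h3 : eLpNorm (tg R k c - c) 2 volume = 0 := by
    have h4 : Tendsto (fun n => 2 * eLpNorm ((φ n).1 - c) 2 volume) atTop (𝓝 0) := by
      have := ENNReal.Tendsto.const_mul (a := 2) h1 (Or.inr (by simp))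
      simpa using this
    exact le_antisymm (ge_of_tendsto' h4 h2) zero_le
  have h5 : tg R k c - c =ᵐ[volume] 0 := by
    rwa [eLpNorm_eq_zero_iff ((memLp_tg R k hχ).1.sub hχ.1) (by norm_num)] at h3
  filter_upwards [h5] with x hx
  have h6 : tg R k c x = c x := sub_eq_zero.mp hx
  have h7 : c (b.act k x) = R.ρ k (c x) := by
    rw [← h6]
    exact (rho_apply_inv R k _).symm
  exact h7

/-- functions in the closure of the core are invariant -/
theorem equiAE_of_clo (R : GaugeAction b M) {χ : L2 N F} (h : χ ∈ clo (ιC R)) :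
    (sym R).EquiAE (χ : Cfg N → F) := by
  obtain ⟨φ, hφ⟩ := mem_clo_iff.1 h
  have hχ : MemLp (χ : Cfg N → F) 2 volume := Lp.memLp χ
  have e0 : hχ.toLp (χ : Cfg N → F) = χ := Lp.toLp_coeFn χ hχ
  rw [← e0] at hφ
  exact equi_limit R hχ φ ((tendsto_toLp_iff (fun n => cv_memLp (φ n).2) hχ).1 hφ)

/-- **density of `(1 + H)` of the core** in the closure of the core -/
theorem dense_HamC (R : GaugeAction b M) (G : GammaNine) (g m : ℝ) (φ : core b R) :
    ιC R φ ∈ clo (ιC R + ιC R ∘ₗ HamC b M R G g m) := by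
  refine dense_of_weak (ιC R + ιC R ∘ₗ HamC b M R G g m) (fun ψ => ?_) ?_ _ (mem_clo φ)
  · have : (ιC R + ιC R ∘ₗ HamC b M R G g m) ψ = ιC R (ψ + HamC b M R G g m ψ) := by
      rw [map_add]
      rfl
    rw [this]
    exact mem_clo _
  · intro χ hχ h
    have hχL : MemLp (χ : Cfg N → F) 2 volume := Lp.memLp χ
    have h1 : (χ : Cfg N → F) =ᵐ[volume] 0 := by
      refine weak_zero R G g m hχL (equiAE_of_clo R hχ) fun ψ hψ => ?_
      have h2 := congrArg (starRingEnd ℂ) (h ⟨ψ, hψ⟩)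
      rw [inner_conj_symm, map_zero] at h2
      have h3 : (ιC R + ιC R ∘ₗ HamC b M R G g m) ⟨ψ, hψ⟩ =
          (cv_memLp (cv_add (core_HQ (G := G) (g := g) (m := m) hψ) hψ)).toLp
            (HQ b M G g m ψ + ψ) := by
        have : (ιC R + ιC R ∘ₗ HamC b M R G g m) ⟨ψ, hψ⟩ =
            ιC R (HamC b M R G g m ⟨ψ, hψ⟩ + ⟨ψ, hψ⟩) := by
          rw [map_add, add_comm]
          rfl
        rw [this]
        rfl
      rw [h3, L2.inner_def] at h2
      rw [← h2]
      refine integral_congr_ae ?_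
      filter_upwards [MemLp.coeFn_toLp
        (cv_memLp (cv_add (core_HQ (G := G) (g := g) (m := m) hψ) hψ))] with x hx
      rw [hx]
      rfl
    exact (Lp.eq_zero_iff_ae_eq_zero).2 h1

/-- any operator on the core with the right form is `HamC` -/
theorem eq_HamC (R : GaugeAction b M) (G : GammaNine) (g m : ℝ)
    (Ham : core b R →ₗ[ℂ] core b R)
    (hH : ∀ φ ψ : core b R,
      (1 / 16 : ℂ) * ∑ α, ∫ x, ⟪dcharge b M G g m α φ.1 x, dcharge b M G g m α ψ.1 x⟫_ℂ =
        ∫ x, ⟪(Ham φ).1 x, ψ.1 x⟫_ℂ) : Ham = HamC b M R G g m := by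
  refine LinearMap.ext fun φ => ?_
  set η : core b R := Ham φ - HamC b M R G g m φ with hη
  have h1 : ∫ x, ⟪η.1 x, η.1 x⟫_ℂ = 0 := by
    have e1 := hH φ η
    rw [form_HamC] at e1
    have i1 : Integrable fun x => ⟪(Ham φ).1 x, η.1 x⟫_ℂ :=
      int2 (Ham φ).2.1.continuous η.2.1.continuous (Ham φ).2.2.1
    have i2 : Integrable fun x => ⟪(HamC b M R G g m φ).1 x, η.1 x⟫_ℂ :=
      int2 (HamC b M R G g m φ).2.1.continuous η.2.1.continuous (HamC b M R G g m φ).2.2.1
    have e2 : ∀ x, ⟪η.1 x, η.1 x⟫_ℂ =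
        ⟪(Ham φ).1 x, η.1 x⟫_ℂ - ⟪(HamC b M R G g m φ).1 x, η.1 x⟫_ℂ := fun x => by
      rw [← inner_sub_left]
      rfl
    simp only [e2]
    rw [integral_sub i1 i2, e1, sub_self]
  have h2 : ⟪ιC R η, ιC R η⟫_ℂ = 0 := by rw [inner_ιC]; exact h1
  have h3 : ιC R η = 0 := inner_self_eq_zero.mp h2
  have h4 : η.1 =ᵐ[volume] 0 := by
    have h5 := MemLp.coeFn_toLp (cv_memLp η.2)
    rw [ιC_apply] at h3
    rw [h3] at h5
    exact h5.symm.trans (Lp.coeFn_zero F 2 volume)
  have h5 : η.1 = 0 := (Continuous.ae_eq_iff_eq volume η.2.1.continuous continuous_const).1 h4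
  have h6 : η = 0 := Subtype.ext h5
  exact sub_eq_zero.mp h6

/-- **density**, for every operator on the core with the right form -/
theorem dense_core (R : GaugeAction b M) (G : GammaNine) (g m : ℝ)
    (Ham : core b R →ₗ[ℂ] core b R)
    (hH : ∀ φ ψ : core b R,
      (1 / 16 : ℂ) * ∑ α, ∫ x, ⟪dcharge b M G g m α φ.1 x, dcharge b M G g m α ψ.1 x⟫_ℂ =
        ∫ x, ⟪(Ham φ).1 x, ψ.1 x⟫_ℂ) (φ : core b R) :
    ιC R φ ∈ closure (Set.range fun ψ => ιC R ψ + ιC R (Ham ψ)) := by
  have h := dense_HamC R G g m φ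
  rw [← eq_HamC R G g m Ham hH] at h
  obtain ⟨ψ, hψ⟩ := mem_clo_iff.1 h
  exact mem_closure_of_tendsto hψ (Eventually.of_forall fun n => ⟨ψ n, rfl⟩)


end Crest.Agent.R330.GCore868
end
end

-- ▼ part R330/GapAllN_967

/-!
# Row 330 (helper967): (GAP) for all data

`gapZ_lit : 0 ≤ m → GapZ b M R G g m (m / 24)` and `gapAll N : Sec478.GapAll N`.
-/

set_option autoImplicit false
set_option linter.unusedSectionVars false

open MeasureTheory Filter Topology Crest.MathPhysics.MatrixQM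
open scoped ContDiff InnerProductSpace ENNReal

noncomputable section

namespace Crest.Agent.R330.GapAllN967

open Crest.Agent.R330.Defs478 Crest.Agent.R330.SDefs726 Crest.Agent.R330.Dict416
  Crest.Agent.R330.GapAlg916 Crest.Agent.R330.Sec478 Crest.Agent.R330.JQ916

variable {N : ℕ} {F : Type} [NormedAddCommGroup F] [InnerProductSpace ℂ F]
  [FiniteDimensional ℂ F] [Nontrivial F] {b : ColorBasis N} {M : FermionRep N F}

/-- the form of the literal Hamiltonian on the core -/
theorem form_Hc (R : GaugeAction b M) (G : GammaNine) (g m : ℝ) (φ ψ : core b R) :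
    (1 / 16 : ℂ) * ∑ α, ∫ x, ⟪dcharge b M G g m α φ.1 x, dcharge b M G g m α ψ.1 x⟫_ℂ =
      ∫ x, ⟪(Hc R G g m φ).1 x, ψ.1 x⟫_ℂ := by
  have h1 := (SusyL916.susy R G g m).form_eq φ ψ
  have h2 := (SusyL916.susy R G g m).Ham_symm φ ψ
  simp only [inner_ιC, Qc_coe] at h1 h2
  rw [h1, h2]

theorem dens (R : GaugeAction b M) (G : GammaNine) (g m : ℝ) (φ : core b R) :
    ιC R φ ∈ closure (Set.range fun ψ => ιC R ψ + ιC R (Hc R G g m ψ)) :=
  GCore868.dense_core R G g m (Hc R G g m) (form_Hc R G g m) φ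

/-- **(GAP)**, literal, for every `g` and every `m ≥ 0`. -/
theorem gapZ_lit (R : GaugeAction b M) (G : GammaNine) (g : ℝ) {m : ℝ} (hm : 0 ≤ m) :
    GapZ b M R G g m (m / 24) :=
  GapAll967.gapZ_of_dens hm (dens R G g m)

/-- **(GAP) for all data.** -/
theorem gapAll (N : ℕ) : Sec478.GapAll N := by
  intro F _ _ _ _ b M R G g _
  exact gapZ_lit R G g zero_le_one

end Crest.Agent.R330.GapAllN967

end
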