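import Crest.Agent.R330.Perm_167

/-!
# Row 330, S8-PERM (helper167): covariance of the trial states

* `Tgen_add`, `Tgen_smul`, `Tgen_sum` : linearity of the trial state in the amplitude.
* `tau_cov` : covariance of the slice functions; `isSliceFun_tau`.
* `mv σ s` : the chart moved by the permutation `s`; `Tgen_mv` : `T^{sσ}_{sχ} = T^σ_χ`.
-/

set_option autoImplicit false
set_option linter.unusedSectionVars false

open MeasureTheory Filter Topology Crest.MathPhysics.MatrixQM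
open scoped ContDiff InnerProductSpace ENNReal

noncomputable section

namespace Crest.Agent.R330.Perm167

open Crest.Agent.R330.Defs478 Crest.Agent.R330.LS839 Crest.Agent.R330.Frame839
  Crest.Agent.R330.Clus839
  Crest.Agent.R330.Bind6839 Crest.Agent.R330.SlG944 Crest.Agent.R330.SlF944
  Crest.Agent.R330.IBP837 Crest.Agent.R330.FreeC122 Crest.Agent.R330.TDef414
  Crest.Agent.R330.TCore944
open Crest.Agent.R330.SlA314 (act_add act_sub act_smul act_one act_mul act_inv_act act_act_inv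
  act_inner act_norm)
open Crest.Agent.R330.SlB314 (Nor Tan br mem_Nor)
open Crest.Agent.R330.SlD314 (tube mem_tube_iff)

variable {N p : ℕ}

local notation "SU" => Matrix.specialUnitaryGroup (Fin N) ℂ

variable {b : ColorBasis N} {S : Type} [Group S] [Fintype S] {C : Chn b p S}
variable {F : Type*} [NormedAddCommGroup F] [InnerProductSpace ℂ F] [FiniteDimensional ℂ F]
variable {M : FermionRep N F} {R : GaugeAction b M} {G : GammaNine}

/-! ## linearity of the extension -/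

theorem rho_mul (R : GaugeAction b M) (h k : SU) (v : F) : R.ρ (h * k) v = R.ρ h (R.ρ k v) := by
  rw [map_mul]
  rfl

theorem rho_one (R : GaugeAction b M) (v : F) : R.ρ 1 v = v := by
  rw [map_one]
  rfl

theorem rho_inv_rho (R : GaugeAction b M) (h : SU) (v : F) : R.ρ h⁻¹ (R.ρ h v) = v := by
  rw [← rho_mul, inv_mul_cancel, rho_one]

theorem rho_rho_inv (R : GaugeAction b M) (h : SU) (v : F) : R.ρ h (R.ρ h⁻¹ v) = v := by
  rw [← rho_mul, mul_inv_cancel, rho_one]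

theorem ext_add (R : GaugeAction b M) (c : Cfg N) (r : ℝ) (f f' : Cfg N → F) (x : Cfg N) :
    ext R c r (fun u => f u + f' u) x = ext R c r f x + ext R c r f' x := by
  unfold ext
  split_ifs
  · rw [map_add]
  · rw [add_zero]

theorem ext_smul (R : GaugeAction b M) (c : Cfg N) (r : ℝ) (a : ℂ) (f : Cfg N → F) (x : Cfg N) :
    ext R c r (fun u => a • f u) x = a • ext R c r f x := by
  unfold ext
  split_ifs
  · rw [map_smul]
  · rw [smul_zero]


theorem tau_add (P : TPack C M R G) (σ : Sl C) (g : ℝ) (χ χ' : Pos p → C.Fx M G) (u : Cfg N) :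
    tau P σ g (fun X => χ X + χ' X) u = tau P σ g χ u + tau P σ g χ' u := by
  unfold tau
  rw [Submodule.coe_add, map_add, map_add, smul_add]

theorem tau_smul (P : TPack C M R G) (σ : Sl C) (g : ℝ) (a : ℂ) (χ : Pos p → C.Fx M G)
    (u : Cfg N) : tau P σ g (fun X => a • χ X) u = a • tau P σ g χ u := by
  unfold tau
  rw [Submodule.coe_smul, map_smul, map_smul, smul_comm]

theorem Tgen_add (P : TPack C M R G) (σ : Sl C) (g : ℝ) (χ χ' : Pos p → C.Fx M G) (x : Cfg N) :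
    Tgen P σ g (fun X => χ X + χ' X) x = Tgen P σ g χ x + Tgen P σ g χ' x := by
  unfold Tgen
  rw [← ext_add]
  congr 1
  funext u
  rw [tau_add, smul_add]

theorem Tgen_smul (P : TPack C M R G) (σ : Sl C) (g : ℝ) (a : ℂ) (χ : Pos p → C.Fx M G)
    (x : Cfg N) : Tgen P σ g (fun X => a • χ X) x = a • Tgen P σ g χ x := by
  unfold Tgen
  rw [← ext_smul]
  congr 1
  funext u
  rw [tau_smul, smul_comm]

theorem Tgen_zero (P : TPack C M R G) (σ : Sl C) (g : ℝ) (x : Cfg N) :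
    Tgen P σ g (fun _ => 0) x = 0 := by
  have := Tgen_smul P σ g 0 (fun _ => 0) x
  simpa using this

theorem Tgen_sum (P : TPack C M R G) (σ : Sl C) (g : ℝ) {ι : Type*} (s : Finset ι)
    (χ : ι → Pos p → C.Fx M G) (x : Cfg N) :
    Tgen P σ g (fun X => ∑ i ∈ s, χ i X) x = ∑ i ∈ s, Tgen P σ g (χ i) x := by
  classical
  induction s using Finset.induction_on with
  | empty => simp only [Finset.sum_empty]; exact Tgen_zero P σ g x
  | insert i s hi ih =>
    simp only [Finset.sum_insert hi]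
    rw [Tgen_add, ih]

/-! ## covariance of the extension -/

theorem isSliceFun_act (R : GaugeAction b M) {c : Cfg N} {r : ℝ} {f f' : Cfg N → F} {h : SU}
    (hf : IsSliceFun R c r f)
    (hff : ∀ y ∈ Nor b c, ‖y‖ < r → f' (b.act h y) = R.ρ h (f y)) :
    IsSliceFun R (b.act h c) r f' := by
  intro k y hk hy hr
  have h1 : b.act h⁻¹ y ∈ Nor b c := by
    have := act_mem_Nor' hy h⁻¹
    rwa [act_inv_act] at this
  have h2 : b.act (h⁻¹ * k * h) c = c := by
    rw [act_mul, act_mul, hk, act_inv_act]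
  have h3 : ‖b.act h⁻¹ y‖ < r := by rwa [act_norm]
  have h4 : b.act (h⁻¹ * k * h) (b.act h⁻¹ y) ∈ Nor b c := act_mem_Nor b h1 h2
  have h5 : b.act k y = b.act h (b.act (h⁻¹ * k * h) (b.act h⁻¹ y)) := by
    rw [act_mul, act_mul, act_act_inv, act_act_inv]
  have h6 : f' y = R.ρ h (f (b.act h⁻¹ y)) := by
    rw [← hff _ h1 h3, act_act_inv]
  rw [h5, hff _ h4 (by rwa [act_norm]), hf _ _ h2 h1 h3, h6, rho_mul, rho_mul, rho_rho_inv]

theorem ext_cov (R : GaugeAction b M) {c : Cfg N} {r : ℝ} (hg : Good b c r) {f f' : Cfg N → F}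
    {h : SU} (hf : IsSliceFun R c r f)
    (hff : ∀ y ∈ Nor b c, ‖y‖ < r → f' (b.act h y) = R.ρ h (f y)) :
    ext R (b.act h c) r f' = ext R c r f := by
  have hg' := good_act hg h
  have hf' := isSliceFun_act R hf hff
  refine eq_ext R hg hf (fun g x => ext_equivariant R hg' hf' g x) (fun y hy hr => ?_)
    fun x hx => ?_
  · have h1 : c + y = b.act h⁻¹ (b.act h c + b.act h y) := by
      rw [← act_add, act_inv_act]
    rw [h1, ext_apply R hg' hf' _ (act_mem_Nor' hy h) (by rwa [act_norm]), hff y hy hr,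
      rho_inv_rho]
  · exact ext_off R _ (by rwa [tube_act])

/-! ## isometries between subspaces -/

/-- restriction of an isometry to subspaces -/
def subE (e : Cfg N ≃ₗᵢ[ℝ] Cfg N) (P Q : Submodule ℝ (Cfg N)) (h : ∀ x, x ∈ P ↔ e x ∈ Q) :
    P ≃ₗᵢ[ℝ] Q where
  toFun x := ⟨e x, (h x).1 x.2⟩
  invFun y := ⟨e.symm y, (h _).2 (by rw [e.apply_symm_apply]; exact y.2)⟩
  map_add' x y := Subtype.ext (map_add e _ _)
  map_smul' t x := Subtype.ext (map_smul e _ _)
  left_inv x := Subtype.ext (e.symm_apply_apply _)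
  right_inv y := Subtype.ext (e.apply_symm_apply _)
  norm_map' x := e.norm_map _


theorem integral_subE {E : Type*} [NormedAddCommGroup E] [NormedSpace ℝ E]
    (e : Cfg N ≃ₗᵢ[ℝ] Cfg N) (P Q : Submodule ℝ (Cfg N)) (h : ∀ x, x ∈ P ↔ e x ∈ Q)
    (f : Cfg N → E) : ∫ y : Q, f y = ∫ x : P, f (e x) := by
  have h1 := (subE e P Q h).measurePreserving.integral_comp
    (subE e P Q h).toHomeomorph.measurableEmbedding (fun y : Q => f y)
  rw [← h1]
  rfl

/-! ## covariance of the slice functions -/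

theorem Cov.Zt {h : SU} {s : S} (hc : Cov C h s) {X0 : Pos p} (hX : C.Reg X0) (z : Cfg N) :
    z ∈ C.Zt X0 ↔ aE b h z ∈ C.Zt (C.O s X0) := by
  rw [aE_apply]
  unfold Chn.Zt
  rw [Submodule.mem_inf, Submodule.mem_inf, ← hc X0, act_mem_Nor_iff]
  refine and_congr_left fun _ => ⟨fun hz => hc.tupp hX hz, fun hz => ?_⟩
  have := hc.inv.tupp hX hz
  rwa [act_inv_act] at this

theorem Sl.reg0 (σ : Sl C) : C.Reg σ.X0 := σ.reg _ (by rw [sub_self, norm_zero]; exact σ.pos)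

theorem nI_cov (P : TPack C M R G) {σ σ' : Sl C} {h : SU} {s : S} (hc : Cov C h s)
    (h0 : σ'.X0 = C.O s σ.X0) (g : ℝ) {X : Pos p} (hX : C.Reg X) :
    nI P σ' g (C.O s X) = nI P σ g X := by
  unfold nI
  rw [integral_subE (aE b h) (C.Zt σ.X0) (C.Zt σ'.X0)
    (fun z => by rw [h0]; exact hc.Zt (Sl.reg0 σ) z)
    (fun z => Real.exp (-(g * ⟪P.A (C.O s X) z, z⟫_ℝ)))]
  refine integral_congr_ae (Eventually.of_forall fun z => ?_)
  simp only [aE_apply]
  rw [P.A_cov h X (C.O s X) hX (hc.reg hX) (hc X), act_inner]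

theorem tau_cov (P : TPack C M R G) {σ σ' : Sl C} {h : SU} {s : S} (hc : Cov C h s)
    (h0 : σ'.X0 = C.O s σ.X0) (hr : σ'.r = σ.r)
    (hj : ∀ y ∈ Nor b (C.cf σ.X0), ‖y‖ < σ.r → σ'.j (b.act h y) = σ.j y) (g : ℝ)
    {χ χ' : Pos p → C.Fx M G}
    (hχ : ∀ X, ‖X - σ.X0‖ < σ.r → (χ' (C.O s X) : F) = R.ρ h (χ X))
    (hb : ∀ X, ‖X - σ.X0‖ < σ.r → χ X ≠ 0 → C.BReg X) {u : Cfg N}
    (hu : ‖u‖ < σ.r) : tau P σ' g χ' (b.act h u) = R.ρ h (tau P σ g χ u) := by
  have hX0 := Sl.reg0 σ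
  set X := σ.X0 + C.cfT u with hXd
  have hXn : ‖X - σ.X0‖ < σ.r := by
    rw [hXd, add_sub_cancel_left]
    exact (norm_cfT_le u).trans_lt hu
  have hX : C.Reg X := σ.reg X hXn
  have hX' : C.Reg (C.O s X) := hc.reg hX
  have e1 : σ'.X0 + C.cfT (b.act h u) = C.O s X := by
    rw [h0, hc.cfT, hXd, map_add]
  have e2 : nrm P σ' g (C.O s X) = nrm P σ g X := by
    unfold nrm
    rw [nI_cov P hc h0 g hX]
    have e3 : C.cf (C.O s X - σ'.X0) = b.act h (C.cf (X - σ.X0)) := by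
      rw [h0, ← map_sub, hc]
    rw [e3, hj _ (cf_mem_Nor _ _) (by rwa [C.cf.norm_map])]
  have e4 : ⟪P.A (C.O s X) (b.act h (C.PM u)), b.act h (C.PM u)⟫_ℝ =
      ⟪P.A X (C.PM u), C.PM u⟫_ℝ := by
    rw [P.A_cov h X (C.O s X) hX hX' (hc X), act_inner]
  have hpsi := P.Psi_cov h X (C.O s X) hX hX' (hc X) g (C.PY u) (PY_mem_Blk u) (χ X) (χ X).2
  unfold tau
  rw [e1, hc.PM hX0, hc.PY hX0, e2, act_norm, e4, hr, map_smul, hχ X hXn, ← hpsi.2]
  by_cases h0' : χ X = 0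
  · rw [h0']
    simp
  have hbX := hb X hXn h0'
  have hU := P.U_cov h X (C.O s X) hbX (hc.breg hX0 hbX) (hc X) (P.Psi g (C.PY u) (χ X))
    (P.Psi_mem g _ (PY_mem_Blk u) _ (χ X).2)
  rw [← hU.2]

theorem isSliceFun_tau (P : TPack C M R G) (σ : Sl C) (g : ℝ) {χ : Pos p → C.Fx M G}
    (hb : ∀ X, ‖X - σ.X0‖ < σ.r → χ X ≠ 0 → C.BReg X) :
    IsSliceFun R (C.cf σ.X0) σ.r (tau P σ g χ) := by
  intro k y hk hy hr
  have hc := cov_stab (Sl.reg0 σ) hk
  refine tau_cov P hc (O_one _).symm rfl (σ.inv k hk) g (fun X hX => ?_) hb hr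
  rw [O_one, P.stab_fix k X (σ.reg X hX) (by rw [hc X, O_one]) _ (χ X).2]

theorem isSliceFun_tau' (P : TPack C M R G) (σ : Sl C) (g : ℝ) {χ : Pos p → C.Fx M G}
    (hb : ∀ X, ‖X - σ.X0‖ < σ.r → χ X ≠ 0 → C.BReg X) :
    IsSliceFun R (C.cf σ.X0) σ.r (fun u => (((σ.j u)⁻¹ : ℝ) : ℂ) • tau P σ g χ u) := by
  intro k y hk hy hr
  show (((σ.j (b.act k y))⁻¹ : ℝ) : ℂ) • tau P σ g χ (b.act k y) = _
  rw [isSliceFun_tau P σ g hb k y hk hy hr, σ.inv k hk y hy hr, map_smul]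

theorem amp_breg {σ : Sl C} (χ : Amp M G σ) (X : Pos p) (_ : ‖X - σ.X0‖ < σ.r)
    (h : χ.fn X ≠ 0) : C.BReg X := χ.off X (subset_tsupport _ h)

/-! ## the moved chart -/

theorem lintegral_subE (e : Cfg N ≃ₗᵢ[ℝ] Cfg N) (P Q : Submodule ℝ (Cfg N))
    (h : ∀ x, x ∈ P ↔ e x ∈ Q) (f : Cfg N → ℝ≥0∞) (r : ℝ) :
    ∫⁻ y in Metric.ball (0 : Q) r, f y = ∫⁻ x in Metric.ball (0 : P) r, f (e x) := by
  have h1 := (subE e P Q h).measurePreserving.setLIntegral_comp_preimage_emb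
    (subE e P Q h).toHomeomorph.measurableEmbedding (fun y : Q => f y) (Metric.ball 0 r)
  rw [← h1]
  have h2 : (subE e P Q h) ⁻¹' Metric.ball 0 r = Metric.ball 0 r := by
    ext x
    rw [Set.mem_preimage, mem_ball_zero_iff, mem_ball_zero_iff, LinearIsometryEquiv.norm_map]
  rw [h2]
  rfl

theorem norm_actB_act (h : SU) (w : Colg N) (c : Cfg N) :
    ‖actB b (adC b h w) (b.act h c)‖ = ‖actB b w c‖ := by
  rw [← act_actB, act_norm]

theorem norm_adC (h : SU) (w : Colg N) : ‖adC b h w‖ = ‖w‖ := by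
  have h1 := adC_inner (b := b) h w w
  rw [real_inner_self_eq_norm_sq, real_inner_self_eq_norm_sq] at h1
  exact (sq_eq_sq₀ (norm_nonneg _) (norm_nonneg _)).1 h1

theorem gap_act {c : Cfg N} {r₀ : ℝ} (h : SU) (hg : GapAt (actB b) c r₀) :
    GapAt (actB b) (b.act h c) r₀ := by
  intro w hw
  have h1 : adC b h⁻¹ w ∈ (kc (actB b) c)ᗮ := by
    rw [Submodule.mem_orthogonal] at hw ⊢
    intro v hv
    have h2 : adC b h v ∈ kc (actB b) (b.act h c) := by
      rw [mem_kc] at hv ⊢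
      rw [← act_actB, hv, act_zero]
    have h3 := hw _ h2
    rwa [adC_inner_left] at h3
  have h4 := hg _ h1
  rwa [norm_adC, ← norm_actB_act h, adC_adC_inv] at h4

/-- The chart moved by a permutation. -/
def mv (σ : Sl C) (s : S) (hgr : SlP314.GoodRad b (C.cf (C.O s σ.X0)) σ.r) : Sl C where
  X0 := C.O s σ.X0
  r := σ.r
  j := fun y => σ.j (b.act (C.w s)⁻¹ y)
  pos := σ.pos
  good := by
    rw [← C.act_O]
    exact good_act σ.good _
  grad := hgr
  gap := by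
    obtain ⟨r₀, B, h1, h2, h3, h4, h5⟩ := σ.gap
    refine ⟨r₀, B, h1, h2, h3, ?_, h5⟩
    rw [← C.act_O]
    exact gap_act _ h4
  reg X hX := by
    have h1 : X = C.O s (C.O s⁻¹ X) := (O_O_inv s X).symm
    rw [h1]
    refine (cov_w C s).reg (σ.reg _ ?_)
    rw [h1, ← map_sub, LinearIsometryEquiv.norm_map] at hX
    exact hX
  disj t ht X hX := by
    have h1 : X = C.O s (C.O s⁻¹ X) := (O_O_inv s X).symm
    rw [h1, ← map_sub, LinearIsometryEquiv.norm_map] at hX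
    have h2 : s⁻¹ * t * s ≠ 1 := by
      intro h3
      apply ht
      have h4 : t = s * (s⁻¹ * t * s) * s⁻¹ := by group
      rw [h4, h3]
      group
    have h3 := σ.disj _ h2 _ hX
    refine h3.trans (le_of_eq ?_)
    rw [O_mul, O_mul, O_O_inv, ← LinearIsometryEquiv.norm_map (C.O s), map_sub, O_O_inv]
  smooth y hy hr := by
    rw [← C.act_O] at hy
    have h1 := act_mem_Nor' hy (C.w s)⁻¹
    rw [act_inv_act] at h1
    have h2 := σ.smooth _ h1 (by rwa [act_norm])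
    exact ContDiffAt.comp (g := σ.j) (f := fun y => b.act (C.w s)⁻¹ y) y h2
      (aE b (C.w s)⁻¹).contDiff.contDiffAt
  jpos y hy hr := by
    rw [← C.act_O] at hy
    have h1 := act_mem_Nor' hy (C.w s)⁻¹
    rw [act_inv_act] at h1
    exact σ.jpos _ h1 (by rwa [act_norm])
  inv k hk y hy hr := by
    rw [← C.act_O] at hy hk
    have h1 := act_mem_Nor' hy (C.w s)⁻¹
    rw [act_inv_act] at h1
    have h2 : b.act ((C.w s)⁻¹ * k * C.w s) (C.cf σ.X0) = C.cf σ.X0 := by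
      rw [act_mul, act_mul, hk, act_inv_act]
    have h3 := σ.inv _ h2 _ h1 (by rwa [act_norm])
    rw [act_mul, act_mul, act_act_inv] at h3
    exact h3
  int h hm hh := by
    rw [← C.act_O, tube_act, σ.int h hm hh]
    rw [lintegral_subE (aE b (C.w s)) (Nor b (C.cf σ.X0)) (Nor b (b.act (C.w s) (C.cf σ.X0)))
      (fun x => (act_mem_Nor_iff (C.w s)).symm)
      (fun y => ENNReal.ofReal (σ.j (b.act (C.w s)⁻¹ y)) * h (b.act (C.w s) (C.cf σ.X0) + y))]
    refine lintegral_congr fun x => ?_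
    simp only [aE_apply]
    rw [act_inv_act, ← act_add, hh]

theorem mv_X0 (σ : Sl C) (s : S) (hgr : SlP314.GoodRad b (C.cf (C.O s σ.X0)) σ.r) :
    (mv σ s hgr).X0 = C.O s σ.X0 := rfl

theorem mv_r (σ : Sl C) (s : S) (hgr : SlP314.GoodRad b (C.cf (C.O s σ.X0)) σ.r) :
    (mv σ s hgr).r = σ.r := rfl

/-- **(G4)** the trial state of the moved chart and amplitude is the same. -/
theorem Tgen_mv (P : TPack C M R G) (σ : Sl C) (s : S)
    (hgr : SlP314.GoodRad b (C.cf (C.O s σ.X0)) σ.r) (g : ℝ) {χ χ' : Pos p → C.Fx M G}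
    (hχ : ∀ X, ‖X - σ.X0‖ < σ.r → (χ' (C.O s X) : F) = R.ρ (C.w s) (χ X))
    (hb : ∀ X, ‖X - σ.X0‖ < σ.r → χ X ≠ 0 → C.BReg X) :
    Tgen P (mv σ s hgr) g χ' = Tgen P σ g χ := by
  unfold Tgen
  rw [mv_X0, mv_r, ← C.act_O]
  refine ext_cov R σ.good (isSliceFun_tau' P σ g hb) fun y hy hr => ?_
  have h1 := tau_cov P (σ := σ) (σ' := mv σ s hgr) (cov_w C s) rfl rfl
    (fun y _ _ => by
      show σ.j (b.act (C.w s)⁻¹ (b.act (C.w s) y)) = σ.j y
      rw [act_inv_act]) g hχ hb hr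
  rw [h1, map_smul]
  show (((σ.j (b.act (C.w s)⁻¹ (b.act (C.w s) y)))⁻¹ : ℝ) : ℂ) • _ = _
  rw [act_inv_act]

end Crest.Agent.R330.Perm167

end
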