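import Mathlib
import Crest.Agent.R330.TCore_383
import Crest.Agent.R330.OrthCh_815

-- ▼ part R330/HChart_815
section

/-!
# Row 330, T3 / HChart (helper815)

* `diff_of_gram` : three pairing limits with the same value give `∫ ‖T - T'‖² → 0`.
* `ratio_one` : a continuous positive `ρ` on an open set with `∫ β² ρ = ∫ β² ρ⁻¹` for every nonnegative
  smooth bump `β` is one.
-/

set_option autoImplicit false
set_option linter.unusedSectionVars false

open MeasureTheory Filter Topology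
open scoped ContDiff InnerProductSpace ENNReal

noncomputable section

namespace Crest.Agent.R330.HChart815

section diff

variable {E : Type*} [MeasurableSpace E] {μ : Measure E} {F : Type*} [NormedAddCommGroup F]
  [InnerProductSpace ℂ F] {ι : Type*} {l : Filter ι}

theorem int_inner {f f' : E → F} (h : MemLp f 2 μ) (h' : MemLp f' 2 μ) :
    Integrable (fun x => ⟪f x, f' x⟫_ℂ) μ := by
  have sq : ∀ {f : E → F}, MemLp f 2 μ → Integrable (fun x => ‖f x‖ ^ 2) μ := by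
    intro f h
    have h' : MemLp f ((2 : ℕ) : ENNReal) μ := by simpa using h
    exact h'.integrable_norm_pow two_ne_zero
  refine Integrable.mono' ((sq h).add (sq h')) (h.1.inner h'.1)
    (Eventually.of_forall fun x => ?_)
  refine (norm_inner_le_norm _ _).trans ?_
  show ‖f x‖ * ‖f' x‖ ≤ ‖f x‖ ^ 2 + ‖f' x‖ ^ 2
  nlinarith [sq_nonneg (‖f x‖ - ‖f' x‖), sq_nonneg (‖f x‖), sq_nonneg (‖f' x‖)]

theorem int_sub_sq {f f' : E → F} (h : MemLp f 2 μ) (h' : MemLp f' 2 μ) :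
    ∫ x, ‖f x - f' x‖ ^ 2 ∂μ = (∫ x, ⟪f x, f x⟫_ℂ ∂μ).re - 2 * (∫ x, ⟪f x, f' x⟫_ℂ ∂μ).re +
      (∫ x, ⟪f' x, f' x⟫_ℂ ∂μ).re := by
  have i1 : Integrable (fun x => ⟪f x, f x⟫_ℂ) μ := int_inner h h
  have i2 : Integrable (fun x => ⟪f x, f' x⟫_ℂ) μ := int_inner h h'
  have i3 : Integrable (fun x => ⟪f' x, f' x⟫_ℂ) μ := int_inner h' h'
  have e1 : (∫ x, ⟪f x, f x⟫_ℂ ∂μ).re = ∫ x, (⟪f x, f x⟫_ℂ).re ∂μ := (integral_re i1).symm
  have e2 : (∫ x, ⟪f x, f' x⟫_ℂ ∂μ).re = ∫ x, (⟪f x, f' x⟫_ℂ).re ∂μ := (integral_re i2).symm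
  have e3 : (∫ x, ⟪f' x, f' x⟫_ℂ ∂μ).re = ∫ x, (⟪f' x, f' x⟫_ℂ).re ∂μ := (integral_re i3).symm
  have k1 : Integrable (fun x => (⟪f x, f x⟫_ℂ).re) μ := i1.re
  have k2 : Integrable (fun x => 2 * (⟪f x, f' x⟫_ℂ).re) μ := i2.re.const_mul 2
  have k3 : Integrable (fun x => (⟪f' x, f' x⟫_ℂ).re) μ := i3.re
  have k4 : Integrable (fun x => (⟪f x, f x⟫_ℂ).re - 2 * (⟪f x, f' x⟫_ℂ).re) μ := k1.sub k2
  rw [e1, e2, e3, ← integral_const_mul, ← integral_sub k1 k2, ← integral_add k4 k3]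
  refine integral_congr_ae (Eventually.of_forall fun x => ?_)
  have h1 := norm_sub_sq (𝕜 := ℂ) (f x) (f' x)
  have h2 : (⟪f x, f x⟫_ℂ).re = ‖f x‖ ^ 2 := by
    rw [inner_self_eq_norm_sq_to_K]; norm_cast
  have h3 : (⟪f' x, f' x⟫_ℂ).re = ‖f' x‖ ^ 2 := by
    rw [inner_self_eq_norm_sq_to_K]; norm_cast
  show ‖f x - f' x‖ ^ 2 = (⟪f x, f x⟫_ℂ).re - 2 * (⟪f x, f' x⟫_ℂ).re + (⟪f' x, f' x⟫_ℂ).re
  rw [h1, h2, h3]
  rfl

/-- **Three pairing limits.** -/
theorem diff_of_gram {T T' : ι → E → F} {L : ℂ} (hm : ∀ᶠ g in l, MemLp (T g) 2 μ)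
    (hm' : ∀ᶠ g in l, MemLp (T' g) 2 μ)
    (h1 : Tendsto (fun g => ∫ x, ⟪T g x, T g x⟫_ℂ ∂μ) l (𝓝 L))
    (h2 : Tendsto (fun g => ∫ x, ⟪T g x, T' g x⟫_ℂ ∂μ) l (𝓝 L))
    (h3 : Tendsto (fun g => ∫ x, ⟪T' g x, T' g x⟫_ℂ ∂μ) l (𝓝 L)) :
    Tendsto (fun g => ∫ x, ‖T g x - T' g x‖ ^ 2 ∂μ) l (𝓝 0) := by
  have k1 := (Complex.continuous_re.tendsto L).comp h1
  have k2 := (Complex.continuous_re.tendsto L).comp h2
  have k3 := (Complex.continuous_re.tendsto L).comp h3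
  have k4 := (k1.sub (k2.const_mul 2)).add k3
  have k5 : L.re - 2 * L.re + L.re = 0 := by ring
  rw [k5] at k4
  refine k4.congr' ?_
  filter_upwards [hm, hm'] with g hg hg'
  exact (int_sub_sq hg hg').symm

end diff

section ratio

variable {E : Type*} [NormedAddCommGroup E] [InnerProductSpace ℝ E] [FiniteDimensional ℝ E]
  [MeasurableSpace E] [BorelSpace E] {μ : Measure E} [μ.IsOpenPosMeasure]
  [IsFiniteMeasureOnCompacts μ]

/-- **`ρ = 1`** from the two orders of the pairing. -/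
theorem ratio_one {U : Set E} (hU : IsOpen U) {ρ : E → ℝ} (hρ : ContinuousOn ρ U)
    (hpos : ∀ x ∈ U, 0 < ρ x)
    (h : ∀ β : E → ℝ, ContDiff ℝ ∞ β → HasCompactSupport β → tsupport β ⊆ U → (∀ x, 0 ≤ β x) →
      ∫ x, β x ^ 2 * ρ x ∂μ = ∫ x, β x ^ 2 * (ρ x)⁻¹ ∂μ) : ∀ x ∈ U, ρ x = 1 := by
  intro x0 hx0
  by_contra hne
  -- `δ x = ρ x - (ρ x)⁻¹` is continuous on `U` and nonzero at `x0`
  set δ : E → ℝ := fun x => ρ x - (ρ x)⁻¹ with hδ
  have hc : ContinuousOn δ U := hρ.sub (hρ.inv₀ fun x hx => (hpos x hx).ne')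
  have hd0 : δ x0 ≠ 0 := by
    intro h0
    have h1 : ρ x0 * ρ x0 = 1 := by
      have h2 : ρ x0 = (ρ x0)⁻¹ := sub_eq_zero.1 h0
      calc ρ x0 * ρ x0 = ρ x0 * (ρ x0)⁻¹ := by rw [← h2]
        _ = 1 := mul_inv_cancel₀ (hpos x0 hx0).ne'
    have h3 : (ρ x0 - 1) * (ρ x0 + 1) = 0 := by ring_nf; nlinarith
    rcases mul_eq_zero.1 h3 with h4 | h4
    · exact hne (sub_eq_zero.1 h4)
    · linarith [hpos x0 hx0]
  -- a ball where `δ` has a fixed sign
  have hat : ContinuousAt δ x0 := hc.continuousAt (hU.mem_nhds hx0)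
  have hev : ∀ᶠ x in 𝓝 x0, |δ x - δ x0| < |δ x0| / 2 := by
    have := Metric.continuousAt_iff.1 hat (|δ x0| / 2) (by positivity)
    obtain ⟨η, hη, h1⟩ := this
    filter_upwards [Metric.ball_mem_nhds x0 hη] with x hx
    have := h1 hx
    rwa [Real.dist_eq] at this
  obtain ⟨η, hη, hball⟩ := Metric.eventually_nhds_iff_ball.1 (hev.and (hU.mem_nhds hx0))
  let β : ContDiffBump x0 := ⟨η / 4, η / 2, by positivity, by linarith⟩
  have hsup : tsupport (β : E → ℝ) ⊆ Metric.ball x0 η := by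
    rw [β.tsupport_eq]
    exact Metric.closedBall_subset_ball (by show η / 2 < η; linarith)
  have hsupU : tsupport (β : E → ℝ) ⊆ U := fun x hx => (hball x (hsup hx)).2
  have heq := h β β.contDiff β.hasCompactSupport hsupU (fun x => β.nonneg)
  have hz : ∀ x, x ∉ tsupport (β : E → ℝ) → β x ^ 2 = 0 := fun x hx => by
    rw [image_eq_zero_of_notMem_tsupport hx]; norm_num
  have hcs0 : HasCompactSupport fun x => β x ^ 2 := by
    have : (fun x => β x ^ 2) = fun x => β x * β x := by funext x; ring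
    rw [this]
    exact β.hasCompactSupport.mul_right
  -- continuity of the products with `β²`
  have hcc : ∀ wt : E → ℝ, ContinuousOn wt U → Continuous fun x => β x ^ 2 * wt x := by
    intro wt hwt
    rw [continuous_iff_continuousAt]
    intro x
    by_cases hx : x ∈ tsupport (β : E → ℝ)
    · exact ((β.continuous.pow 2).continuousAt).mul (hwt.continuousAt (hU.mem_nhds (hsupU hx)))
    · have h1 : (fun x => β x ^ 2 * wt x) =ᶠ[𝓝 x] fun _ => 0 := by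
        have : (tsupport (β : E → ℝ))ᶜ ∈ 𝓝 x := (isClosed_tsupport _).isOpen_compl.mem_nhds hx
        filter_upwards [this] with y hy
        rw [hz y hy, zero_mul]
      exact continuousAt_const.congr h1.symm
  have hcont := hcc δ hc
  have hcs : HasCompactSupport fun x => β x ^ 2 * δ x := hcs0.mul_right
  have hi1 : Integrable (fun x => β x ^ 2 * ρ x) μ :=
    (hcc ρ hρ).integrable_of_hasCompactSupport hcs0.mul_right
  have hi2 : Integrable (fun x => β x ^ 2 * (ρ x)⁻¹) μ :=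
    (hcc _ (hρ.inv₀ fun x hx => (hpos x hx).ne')).integrable_of_hasCompactSupport hcs0.mul_right
  have hzero : ∫ x, β x ^ 2 * δ x ∂μ = 0 := by
    have : (fun x => β x ^ 2 * δ x) = fun x => β x ^ 2 * ρ x - β x ^ 2 * (ρ x)⁻¹ := by
      funext x
      simp only [hδ]
      ring
    rw [this, integral_sub hi1 hi2, heq, sub_self]
  have hβ0 : β x0 = 1 := β.one_of_mem_closedBall (Metric.mem_closedBall_self (by
    show 0 ≤ η / 4
    positivity))
  rcases lt_or_gt_of_ne hd0 with hneg | hpos'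
  · have hnn : ∀ x, 0 ≤ -(β x ^ 2 * δ x) := by
      intro x
      by_cases hx : x ∈ tsupport (β : E → ℝ)
      · have h1 := (hball x (hsup hx)).1
        rw [abs_of_neg hneg] at h1
        have h2 := abs_lt.1 h1
        have h3 : δ x ≤ 0 := by linarith
        nlinarith [sq_nonneg (β x)]
      · rw [hz x hx, zero_mul, neg_zero]
    have h1 : 0 < ∫ x, -(β x ^ 2 * δ x) ∂μ := by
      refine hcont.neg.integral_pos_of_hasCompactSupport_nonneg_nonzero ?_ hnn (x := x0) ?_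
      · exact hcs.neg
      · rw [hβ0, one_pow, one_mul]
        exact neg_ne_zero.2 hd0
    rw [integral_neg, hzero, neg_zero] at h1
    exact lt_irrefl _ h1
  · have hnn : ∀ x, 0 ≤ β x ^ 2 * δ x := by
      intro x
      by_cases hx : x ∈ tsupport (β : E → ℝ)
      · have h1 := (hball x (hsup hx)).1
        rw [abs_of_pos hpos'] at h1
        have h2 := abs_lt.1 h1
        have h3 : 0 ≤ δ x := by linarith
        exact mul_nonneg (sq_nonneg _) h3
      · rw [hz x hx, zero_mul]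
    have h1 : 0 < ∫ x, β x ^ 2 * δ x ∂μ := by
      refine hcont.integral_pos_of_hasCompactSupport_nonneg_nonzero hcs hnn (x := x0) ?_
      rw [hβ0, one_pow, one_mul]
      exact hd0
    rw [hzero] at h1
    exact lt_irrefl _ h1

end ratio

end Crest.Agent.R330.HChart815

end
end

-- ▼ part R330/Rho_815

/-!
# Row 330, (L4) (helper815): chart independence

* `rr P σ σ' X` : the ratio `((j_c I_c) / (j_c' I_c'))^{1/2}` of two charts at the position `X`.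
* `Cross P` : the pairing limit of two charts for one amplitude, with the weight `rr`.
* `rr_one` : `rr = 1` on the common part of two charts. `hchart` : `Cross P ⇒ HChart P`.
-/

set_option autoImplicit false
set_option linter.unusedSectionVars false

open MeasureTheory Filter Topology Crest.MathPhysics.MatrixQM
open scoped ContDiff InnerProductSpace ENNReal ComplexConjugate

noncomputable section

namespace Crest.Agent.R330.Rho815

open Crest.Agent.R330.Defs478 Crest.Agent.R330.TDef414 Crest.Agent.R330.TCore383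
  Crest.Agent.R330.HChart815

variable {N p : ℕ} {b : ColorBasis N} {S : Type} [Group S] [Fintype S] {C : Chn b p S}
  {F : Type*} [NormedAddCommGroup F] [InnerProductSpace ℂ F] [FiniteDimensional ℂ F]
  {M : FermionRep N F} {R : GaugeAction b M} {G : GammaNine}

/-- The ratio of two charts. -/
def rr (P : TPack C M R G) (σ σ' : Sl C) (X : Pos p) : ℝ :=
  Real.sqrt (σ.j (C.cf (X - σ.X0)) * nI P σ 1 X / (σ'.j (C.cf (X - σ'.X0)) * nI P σ' 1 X))

/-- The pairing limit of two charts for one amplitude. -/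
def Cross (P : TPack C M R G) : Prop :=
  ∀ (σ σ' : Sl C) (χ : Amp M G σ) (χ' : Amp M G σ'), χ.fn = χ'.fn →
    Tendsto (fun g => ∫ x, ⟪Tgen P σ g χ.fn x, Tgen P σ' g χ'.fn x⟫_ℂ) atTop
      (𝓝 (∫ X, (rr P σ σ' X : ℂ) * ⟪(χ.fn X : F), (χ.fn X : F)⟫_ℂ))

/-- Core vectors. -/
def HCoreP (P : TPack C M R G) : Prop :=
  ∀ (σ : Sl C) (χ : Amp M G σ), ∀ᶠ g in atTop, IsCoreVec b R (Tgen P σ g χ.fn)

variable (P : TPack C M R G)

/-- `j_c I_c`. -/
def aj (σ : Sl C) (X : Pos p) : ℝ := σ.j (C.cf (X - σ.X0)) * nI P σ 1 X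

theorem aj_pos (σ : Sl C) {X : Pos p} (hr : ‖X - σ.X0‖ < σ.r) : 0 < aj P σ X := by
  obtain ⟨h1, h2⟩ := cf_ball σ hr
  exact mul_pos (σ.jpos _ h1 h2) (nI_pos P σ one_pos hr)

theorem aj_cont (σ : Sl C) {X : Pos p} (hr : ‖X - σ.X0‖ < σ.r) : ContinuousAt (aj P σ) X := by
  obtain ⟨h1, h2⟩ := cf_ball σ hr
  have h3 : ContDiffAt ℝ ∞ (fun X : Pos p => C.cf (X - σ.X0)) X :=
    C.cf.toContinuousLinearMap.contDiff.contDiffAt.comp X (contDiffAt_id.sub contDiffAt_const)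
  have h4 : ContDiffAt ℝ ∞ (fun X : Pos p => σ.j (C.cf (X - σ.X0))) X :=
    (σ.smooth _ h1 h2).comp X h3
  exact (h4.mul (contDiffAt_nI P σ one_pos hr)).continuousAt

theorem rr_eq (σ σ' : Sl C) (X : Pos p) : rr P σ σ' X = Real.sqrt (aj P σ X / aj P σ' X) := rfl

theorem rr_inv (σ σ' : Sl C) (X : Pos p) : rr P σ' σ X = (rr P σ σ' X)⁻¹ := by
  rw [rr_eq, rr_eq, ← Real.sqrt_inv, inv_div]


/-- The common part of two charts. -/
def UC (σ σ' : Sl C) : Set (Pos p) :=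
  {X | C.BReg X} ∩ (Metric.ball σ.X0 (σ.r / 4) ∩ Metric.ball σ'.X0 (σ'.r / 4))

theorem isOpen_UC (σ σ' : Sl C) : IsOpen (UC σ σ') :=
  (Chn.isOpen_breg (C := C)).inter (Metric.isOpen_ball.inter Metric.isOpen_ball)

theorem mem_UC {σ σ' : Sl C} {χ : Amp M G σ} {χ' : Amp M G σ'} (h : χ.fn = χ'.fn) {X : Pos p}
    (hX : X ∈ tsupport χ.fn) : X ∈ UC σ σ' :=
  ⟨χ.off X hX, χ.supp hX, χ'.supp (by rwa [← h])⟩

theorem lt_left {σ σ' : Sl C} {X : Pos p} (hX : X ∈ UC σ σ') : ‖X - σ.X0‖ < σ.r := by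
  have h := hX.2.1
  rw [Metric.mem_ball, dist_eq_norm] at h
  linarith [σ.pos]

theorem lt_right {σ σ' : Sl C} {X : Pos p} (hX : X ∈ UC σ σ') : ‖X - σ'.X0‖ < σ'.r := by
  have h := hX.2.2
  rw [Metric.mem_ball, dist_eq_norm] at h
  linarith [σ'.pos]

theorem rr_contOn (σ σ' : Sl C) : ContinuousOn (rr P σ σ') (UC σ σ') := by
  intro X hX
  refine ContinuousAt.continuousWithinAt ?_
  exact ((aj_cont P σ (lt_left hX)).div (aj_cont P σ' (lt_right hX))
    (aj_pos P σ' (lt_right hX)).ne').sqrt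

theorem rr_pos {σ σ' : Sl C} {X : Pos p} (hX : X ∈ UC σ σ') : 0 < rr P σ σ' X :=
  Real.sqrt_pos.2 (div_pos (aj_pos P σ (lt_left hX)) (aj_pos P σ' (lt_right hX)))

theorem tsupport_ampB (f0 : C.Fx M G) (β : Pos p → ℝ) :
    tsupport (fun X => ((β X : ℝ) : ℂ) • f0) ⊆ tsupport β := by
  refine closure_mono fun x hx => ?_
  intro h0
  apply hx
  show ((β x : ℝ) : ℂ) • f0 = 0
  rw [h0, Complex.ofReal_zero, zero_smul]

/-- The amplitude `β • f0`. -/
def ampB (f0 : C.Fx M G) {β : Pos p → ℝ} (hβ : ContDiff ℝ ∞ β) (σ : Sl C)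
    (h1 : tsupport β ⊆ Metric.ball σ.X0 (σ.r / 4)) (h2 : tsupport β ⊆ {X | C.BReg X}) :
    Amp M G σ where
  fn X := ((β X : ℝ) : ℂ) • f0
  smooth := (Complex.ofRealCLM.contDiff.comp hβ).smul contDiff_const
  supp := (tsupport_ampB f0 β).trans h1
  off _ hX := h2 (tsupport_ampB f0 β hX)

theorem inner_ampB {f0 : C.Fx M G} (hf0 : ‖f0‖ = 1) (t : ℝ) :
    ⟪(((t : ℂ) • f0 : C.Fx M G) : F), (((t : ℂ) • f0 : C.Fx M G) : F)⟫_ℂ = ((t ^ 2 : ℝ) : ℂ) := by
  rw [inner_self_eq_norm_sq_to_K]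
  have h1 : ‖(((t : ℂ) • f0 : C.Fx M G) : F)‖ = |t| := by
    rw [← Submodule.coe_norm, norm_smul, hf0, mul_one, Complex.norm_real, Real.norm_eq_abs]
  rw [h1]
  have h2 : ((|t| : ℝ) : ℂ) ^ 2 = ((t ^ 2 : ℝ) : ℂ) := by
    rw [← Complex.ofReal_pow, sq_abs]
  exact h2

/-- **`rr = 1` on the common part of two charts.** -/
theorem rr_one (hC : Cross P) {f0 : C.Fx M G} (hf0 : ‖f0‖ = 1) (σ σ' : Sl C) :
    ∀ X ∈ UC σ σ', rr P σ σ' X = 1 := by
  refine ratio_one (μ := volume) (isOpen_UC σ σ') (rr_contOn P σ σ')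
    (fun X hX => rr_pos P hX) fun β hβ hβc hβU _ => ?_
  have s1 : tsupport β ⊆ {X | C.BReg X} := hβU.trans Set.inter_subset_left
  have s2 : tsupport β ⊆ Metric.ball σ.X0 (σ.r / 4) := fun X hX => (hβU hX).2.1
  have s3 : tsupport β ⊆ Metric.ball σ'.X0 (σ'.r / 4) := fun X hX => (hβU hX).2.2
  set χ : Amp M G σ := ampB f0 hβ σ s2 s1 with hχ
  set χ' : Amp M G σ' := ampB f0 hβ σ' s3 s1 with hχ'
  have l1 := hC σ σ' χ χ' rfl
  have l2 := hC σ' σ χ' χ rfl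
  have e : ∀ (r : Pos p → ℝ), (∫ X, (r X : ℂ) * ⟪(χ.fn X : F), (χ.fn X : F)⟫_ℂ) =
      ((∫ X, β X ^ 2 * r X : ℝ) : ℂ) := by
    intro r
    rw [← integral_complex_ofReal]
    refine integral_congr_ae (Eventually.of_forall fun X => ?_)
    change (r X : ℂ) * ⟪(((β X : ℂ) • f0 : C.Fx M G) : F), (((β X : ℂ) • f0 : C.Fx M G) : F)⟫_ℂ =
      ((β X ^ 2 * r X : ℝ) : ℂ)
    rw [inner_ampB hf0]
    push_cast
    ring
  have e' : (∫ X, (rr P σ' σ X : ℂ) * ⟪(χ'.fn X : F), (χ'.fn X : F)⟫_ℂ) =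
      ((∫ X, β X ^ 2 * (rr P σ σ' X)⁻¹ : ℝ) : ℂ) := by
    have h1 : (fun X => (rr P σ' σ X : ℂ) * ⟪(χ'.fn X : F), (χ'.fn X : F)⟫_ℂ) =
        fun X => (((rr P σ σ' X)⁻¹ : ℝ) : ℂ) * ⟪(χ.fn X : F), (χ.fn X : F)⟫_ℂ := by
      funext X
      rw [rr_inv]
      rfl
    rw [h1]
    exact e _
  rw [e] at l1
  rw [e'] at l2
  have l3 : Tendsto (fun g => ∫ x, ⟪Tgen P σ g χ.fn x, Tgen P σ' g χ'.fn x⟫_ℂ) atTop
      (𝓝 (conj ((∫ X, β X ^ 2 * (rr P σ σ' X)⁻¹ : ℝ) : ℂ))) := by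
    refine ((Complex.continuous_conj.tendsto _).comp l2).congr fun g => ?_
    change conj (∫ x, ⟪Tgen P σ' g χ'.fn x, Tgen P σ g χ.fn x⟫_ℂ) = _
    rw [← integral_conj]
    refine integral_congr_ae (Eventually.of_forall fun x => ?_)
    exact inner_conj_symm _ _
  have h2 := tendsto_nhds_unique l1 l3
  rw [Complex.conj_ofReal] at h2
  exact Complex.ofReal_injective h2

/-- The weighted limit of a common amplitude is the limit without weight. -/
theorem weight_one (hC : Cross P) {σ σ' : Sl C} {χ : Amp M G σ} {χ' : Amp M G σ'}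
    (h : χ.fn = χ'.fn) : (∫ X, (rr P σ σ' X : ℂ) * ⟪(χ.fn X : F), (χ.fn X : F)⟫_ℂ) =
      ∫ X, ⟪(χ.fn X : F), (χ.fn X : F)⟫_ℂ := by
  refine integral_congr_ae (Eventually.of_forall fun X => ?_)
  show (rr P σ σ' X : ℂ) * ⟪(χ.fn X : F), (χ.fn X : F)⟫_ℂ = ⟪(χ.fn X : F), (χ.fn X : F)⟫_ℂ
  by_cases h0 : χ.fn X = 0
  · rw [h0, Submodule.coe_zero, inner_zero_left, mul_zero]
  · have hX : X ∈ tsupport χ.fn := subset_tsupport _ h0
    have hn : ‖((‖χ.fn X‖⁻¹ : ℝ) : ℂ) • χ.fn X‖ = 1 := by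
      rw [norm_smul, Complex.norm_real, norm_inv, norm_norm,
        inv_mul_cancel₀ (norm_ne_zero_iff.2 h0)]
    rw [rr_one P hC hn σ σ' X (mem_UC h hX), Complex.ofReal_one, one_mul]

/-- **The pairing limit of two charts for one amplitude.** -/
theorem cross_limit (hC : Cross P) {σ σ' : Sl C} {χ : Amp M G σ} {χ' : Amp M G σ'}
    (h : χ.fn = χ'.fn) :
    Tendsto (fun g => ∫ x, ⟪Tgen P σ g χ.fn x, Tgen P σ' g χ'.fn x⟫_ℂ) atTop
      (𝓝 (∫ X, ⟪(χ.fn X : F), (χ.fn X : F)⟫_ℂ)) := by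
  rw [← weight_one P hC h]
  exact hC σ σ' χ χ' h

/-- **Chart independence** (167's `HChart`). -/
theorem hchart (hcore : HCoreP P) (hC : Cross P) (σ σ' : Sl C) (χ : Amp M G σ) (χ' : Amp M G σ')
    (h : χ.fn = χ'.fn) :
    Tendsto (fun g => ∫ x, ‖Tgen P σ g χ.fn x - Tgen P σ' g χ'.fn x‖ ^ 2) atTop (𝓝 0) := by
  have l3 := cross_limit P hC (χ := χ') (χ' := χ') rfl
  rw [← h] at l3
  refine diff_of_gram ?_ ?_ (cross_limit P hC (χ := χ) (χ' := χ) rfl) (cross_limit P hC h) ?_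
  · filter_upwards [hcore σ χ] with g hg
    exact OrthCh815.memLp_core hg
  · filter_upwards [hcore σ' χ'] with g hg
    exact OrthCh815.memLp_core hg
  · rw [← h]
    exact l3

end Crest.Agent.R330.Rho815

end
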