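import Crest.Agent.R330.SlP_314
import Crest.Agent.R330.GPar_984

-- ▼ part R330/Trans_372
section

/-!
Row 330, S8-ISO (helper372), part T: transition between two slices.
Chart `Psi b c'` at `c'`; for `X` with `X - c' ∈ Nor b c'` small, the normal coordinate
`Th x = P_N (Psi⁻¹ x)` is strictly differentiable at `X`, is `x ↦ x - c'` on the slice, and its
derivative `L` satisfies `z = [om, X] + L z` for some `om` (so `L z` is `z` modulo the gauge
directions at `X`).
-/

set_option autoImplicit false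
noncomputable section

open Matrix
open Crest.MathPhysics.MatrixQM
open Crest.Agent.R330.SlA314 Crest.Agent.R330.SlB314 Crest.Agent.R330.SlC314
open Crest.Agent.R330.SlD314 Crest.Agent.R330.SlP314
open scoped ContDiff Topology

namespace Crest.Agent.R330.Trans372

variable {N : ℕ} (b : ColorBasis N)

/-- derivative of the chart at a point of the slice -/
theorem fderiv_Psi_nor {c y : Cfg N} (hy : y ∈ Nor b c) (w : Cfg N) :
    fderiv ℝ (Psi b c) y w = brx b (omL b c w) (c + y) + PN b c w := by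
  have h1 : HasFDerivAt (Psi b c) (fderiv ℝ (Psi b c) y) y :=
    ((contDiff_Psi b c).differentiable (by simp)).differentiableAt.hasFDerivAt
  have h2 : HasDerivAt (fun τ : ℝ => y + τ • w) w 0 := by
    simpa using ((hasDerivAt_id (0 : ℝ)).smul_const w).const_add y
  have h3 : HasDerivAt (fun τ : ℝ => Psi b c (y + τ • w)) (fderiv ℝ (Psi b c) y w) 0 := by
    have h1' : HasFDerivAt (Psi b c) (fderiv ℝ (Psi b c) y) (y + (0 : ℝ) • w) := by
      rwa [zero_smul, add_zero]
    exact h1'.comp_hasDerivAt (0 : ℝ) h2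
  have h4 : HasDerivAt (fun τ : ℝ => b.act (gexp b (τ • omL b c w)) (c + y))
      (brx b (omL b c w) (c + y)) 0 := hasDerivAt_act_zero b _ _
  have h5 : HasDerivAt (fun τ : ℝ => b.act (gexp b (τ • omL b c w)) (PN b c w))
      (brx b (omL b c w) (PN b c w)) 0 := hasDerivAt_act_zero b _ _
  have h6 := h4.add ((hasDerivAt_id (0 : ℝ)).smul h5)
  simp only [id_eq, zero_smul, gexp_zero, act_one, zero_add, one_smul] at h6
  have e1 : (fun τ : ℝ => Psi b c (y + τ • w)) =
      ((fun τ : ℝ => b.act (gexp b (τ • omL b c w)) (c + y)) +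
        ((id : ℝ → ℝ) • fun τ : ℝ => b.act (gexp b (τ • omL b c w)) (PN b c w))) := by
    funext τ
    simp only [Psi, Pi.add_apply, Pi.smul_apply', id_eq]
    rw [map_add, map_smul, map_add, map_smul, omL_of_Nor b hy, zero_add, PN_of_mem b hy,
      ← add_assoc, act_add, act_smul]
  rw [e1] at h3
  exact h3.unique h6

variable {b}

/-- the point `c' + y` of the slice lies in the chart -/
theorem mem_image_of_nor {c y : Cfg N} {δ : ℝ} (hy : y ∈ Nor b c) (h : ‖y‖ < δ) :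
    c + y ∈ Psi b c '' box b c δ := by
  have h0 : 0 < δ := lt_of_le_of_lt (norm_nonneg _) h
  refine ⟨y, ?_, Psi_nor b hy⟩
  constructor
  · rw [PT_of_mem_Nor b hy, norm_zero]; exact h0
  · rw [PN_of_mem b hy]; exact h

theorem PsiInv_nor {c y : Cfg N} {δ : ℝ} (hg : GoodRad b c δ) (hy : y ∈ Nor b c) (h : ‖y‖ < δ) :
    PsiInv b c δ (c + y) = y := by
  have h0 : 0 < δ := hg.pos
  have hm : y ∈ box b c δ := by
    constructor
    · rw [PT_of_mem_Nor b hy, norm_zero]; exact h0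
    · rw [PN_of_mem b hy]; exact h
  have := hg.PsiInv_Psi hm
  rwa [Psi_nor b hy] at this

variable (b)

/-- normal coordinate -/
def Th (c : Cfg N) (δ : ℝ) (x : Cfg N) : Cfg N := PN b c (PsiInv b c δ x)

/-- gauge coordinate -/
def Om (c : Cfg N) (δ : ℝ) (x : Cfg N) : Fin (N ^ 2 - 1) → ℝ := omL b c (PsiInv b c δ x)

variable {b}

theorem Th_mem {c : Cfg N} {δ : ℝ} (x : Cfg N) : Th b c δ x ∈ Nor b c := PN_mem b _ _

theorem act_Th {c : Cfg N} {δ : ℝ} {x : Cfg N} (hx : x ∈ Psi b c '' box b c δ) :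
    b.act (gexp b (Om b c δ x)) (c + Th b c δ x) = x := Psi_PsiInv hx

theorem norm_Th_lt {c : Cfg N} {δ : ℝ} {x : Cfg N} (hx : x ∈ Psi b c '' box b c δ) :
    ‖Th b c δ x‖ < δ := (PsiInv_mem hx).2

theorem Th_nor {c y : Cfg N} {δ : ℝ} (hg : GoodRad b c δ) (hy : y ∈ Nor b c) (h : ‖y‖ < δ) :
    Th b c δ (c + y) = y := by
  unfold Th
  rw [PsiInv_nor hg hy h, PN_of_mem b hy]

theorem Om_nor {c y : Cfg N} {δ : ℝ} (hg : GoodRad b c δ) (hy : y ∈ Nor b c) (h : ‖y‖ < δ) :
    Om b c δ (c + y) = 0 := by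
  unfold Om
  rw [PsiInv_nor hg hy h, omL_of_Nor b hy]

theorem continuousAt_Om {c : Cfg N} {δ : ℝ} (hg : GoodRad b c δ) {x : Cfg N}
    (hx : x ∈ Psi b c '' box b c δ) : ContinuousAt (Om b c δ) x :=
  ((omL b c).continuous.continuousAt).comp (hg.contDiffAt_PsiInv hx).continuousAt

/-- the transition map is strictly differentiable on the slice and its derivative is the
projection modulo the gauge directions at the point -/
theorem exists_strict {c y : Cfg N} {δ : ℝ} (hg : GoodRad b c δ) (hy : y ∈ Nor b c)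
    (h : ‖y‖ < δ) : ∃ L : Cfg N →L[ℝ] Cfg N, HasStrictFDerivAt (Th b c δ) L (c + y) ∧
      ∀ z, L z ∈ Nor b c ∧ ∃ om : Fin (N ^ 2 - 1) → ℝ, z = brx b om (c + y) + L z := by
  have hx : c + y ∈ Psi b c '' box b c δ := mem_image_of_nor hy h
  have h1 : HasStrictFDerivAt (PsiInv b c δ) (fderiv ℝ (PsiInv b c δ) (c + y)) (c + y) :=
    (hg.contDiffAt_PsiInv hx).hasStrictFDerivAt (by simp)
  refine ⟨(PN b c).comp (fderiv ℝ (PsiInv b c δ) (c + y)), (PN b c).hasStrictFDerivAt.comp _ h1,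
    fun z => ⟨PN_mem b _ _, omL b c (fderiv ℝ (PsiInv b c δ) (c + y) z), ?_⟩⟩
  set w := fderiv ℝ (PsiInv b c δ) (c + y) z with hw
  have h2 : HasFDerivAt (Psi b c) (fderiv ℝ (Psi b c) y) (PsiInv b c δ (c + y)) := by
    rw [PsiInv_nor hg hy h]
    exact ((contDiff_Psi b c).differentiable (by simp)).differentiableAt.hasFDerivAt
  have h3 := h2.comp (c + y) h1.hasFDerivAt
  have h4 : (Psi b c ∘ PsiInv b c δ) =ᶠ[𝓝 (c + y)] id := by
    filter_upwards [hg.isOpen_image.mem_nhds hx] with x hx'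
    exact Psi_PsiInv hx'
  have h5 : HasFDerivAt (Psi b c ∘ PsiInv b c δ) (ContinuousLinearMap.id ℝ (Cfg N)) (c + y) :=
    (hasFDerivAt_id (c + y)).congr_of_eventuallyEq h4
  have h6 := DFunLike.congr_fun (h3.unique h5) z
  have h7 : fderiv ℝ (Psi b c) y w = z := h6
  rw [fderiv_Psi_nor b hy w] at h7
  exact h7.symm

end Crest.Agent.R330.Trans372
end
end

-- ▼ part R330/Ovl_372

/-!
Row 330, S8-ISO (helper372): limit of the overlap integral of two trial functions given on two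
slices `c + Nor c`, `c' + Nor c'` by the bare formula
`φ_g (c+u) = a_g A(u) exp(-g Q(X, z)/2) w(X, g^{1/3} Y)`, `u = (X - c) + Y + z`.
-/

set_option autoImplicit false
set_option linter.unusedSectionVars false
noncomputable section

open Matrix MeasureTheory Filter
open Crest.MathPhysics.MatrixQM
open Crest.Agent.R330.SlA314 Crest.Agent.R330.SlB314 Crest.Agent.R330.SlC314
open Crest.Agent.R330.SlD314 Crest.Agent.R330.SlP314 Crest.Agent.R330.Trans372
open scoped ContDiff Topology InnerProductSpace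

namespace Crest.Agent.R330.Ovl372

variable {N : ℕ}

/-- Orthogonal splitting `Cfg N = EX ⊕ EY ⊕ EM` (centre, semisimple part, off-diagonal part) by
three projections, with `[om, X] ∈ EM` for `X ∈ EX`. -/
structure Split (b : ColorBasis N) where
  /-- projection on `R^9 ⊗ centre` -/
  PX : Cfg N →L[ℝ] Cfg N
  /-- projection on `R^9 ⊗ su's` -/
  PY : Cfg N →L[ℝ] Cfg N
  /-- projection on the off-diagonal part -/
  PM : Cfg N →L[ℝ] Cfg N
  sum : ∀ u, PX u + PY u + PM u = u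
  XX : ∀ u, PX (PX u) = PX u
  YY : ∀ u, PY (PY u) = PY u
  MM : ∀ u, PM (PM u) = PM u
  XY : ∀ u, PX (PY u) = 0
  XM : ∀ u, PX (PM u) = 0
  YX : ∀ u, PY (PX u) = 0
  YM : ∀ u, PY (PM u) = 0
  MX : ∀ u, PM (PX u) = 0
  MY : ∀ u, PM (PY u) = 0
  symX : ∀ u v, ⟪PX u, v⟫_ℝ = ⟪u, PX v⟫_ℝ
  symY : ∀ u v, ⟪PY u, v⟫_ℝ = ⟪u, PY v⟫_ℝ
  br : ∀ om u, PM (brx b om (PX u)) = brx b om (PX u)

namespace Split

variable {b : ColorBasis N} (S : Split b)

theorem brX (om : Fin (N ^ 2 - 1) → ℝ) {x : Cfg N} (hx : S.PX x = x) :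
    S.PX (brx b om x) = 0 := by
  have h := S.br om x
  rw [hx] at h
  rw [← h, S.XM]

theorem brY (om : Fin (N ^ 2 - 1) → ℝ) {x : Cfg N} (hx : S.PX x = x) :
    S.PY (brx b om x) = 0 := by
  have h := S.br om x
  rw [hx] at h
  rw [← h, S.YM]

theorem X_mem_Nor {c : Cfg N} (hc : S.PX c = c) (u : Cfg N) : S.PX u ∈ Nor b c := by
  rw [mem_Nor]
  intro om
  rw [real_inner_comm, S.symX, S.brX om hc, inner_zero_right]

theorem Y_mem_Nor {c : Cfg N} (hc : S.PX c = c) (u : Cfg N) : S.PY u ∈ Nor b c := by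
  rw [mem_Nor]
  intro om
  rw [real_inner_comm, S.symY, S.brY om hc, inner_zero_right]

theorem M_mem_Nor {c : Cfg N} (hc : S.PX c = c) {u : Cfg N} (hu : u ∈ Nor b c) :
    S.PM u ∈ Nor b c := by
  have h : S.PM u = u - S.PX u - S.PY u := by
    have := S.sum u
    rw [eq_comm, sub_sub, sub_eq_iff_eq_add', this]
  rw [h]
  exact (Nor b c).sub_mem ((Nor b c).sub_mem hu (S.X_mem_Nor hc u)) (S.Y_mem_Nor hc u)

theorem norm_sq (u : Cfg N) : ‖u‖ ^ 2 = ‖S.PX u‖ ^ 2 + ‖S.PY u‖ ^ 2 + ‖S.PM u‖ ^ 2 := by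
  have h1 : ⟪S.PX u, S.PY u⟫_ℝ = 0 := by rw [S.symX, S.XY, inner_zero_right]
  have h2 : ⟪S.PX u, S.PM u⟫_ℝ = 0 := by rw [S.symX, S.XM, inner_zero_right]
  have h3 : ⟪S.PY u, S.PM u⟫_ℝ = 0 := by rw [S.symY, S.YM, inner_zero_right]
  conv_lhs => rw [← S.sum u]
  rw [← real_inner_self_eq_norm_sq, ← real_inner_self_eq_norm_sq, ← real_inner_self_eq_norm_sq,
    ← real_inner_self_eq_norm_sq]
  simp only [inner_add_left, inner_add_right, h1, h2, h3, real_inner_comm (S.PX u) (S.PY u),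
    real_inner_comm (S.PX u) (S.PM u), real_inner_comm (S.PY u) (S.PM u)]
  ring


/-- the anisotropic dilation -/
def dil (s t : ℝ) : Cfg N →L[ℝ] Cfg N := S.PX + s • S.PY + t • S.PM

theorem dil_apply (s t : ℝ) (u : Cfg N) : S.dil s t u = S.PX u + s • S.PY u + t • S.PM u := rfl

theorem X_dil (s t : ℝ) (u : Cfg N) : S.PX (S.dil s t u) = S.PX u := by
  rw [dil_apply, map_add, map_add, map_smul, map_smul, S.XX, S.XY, S.XM]; simp

theorem Y_dil (s t : ℝ) (u : Cfg N) : S.PY (S.dil s t u) = s • S.PY u := by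
  rw [dil_apply, map_add, map_add, map_smul, map_smul, S.YX, S.YY, S.YM]; simp

theorem M_dil (s t : ℝ) (u : Cfg N) : S.PM (S.dil s t u) = t • S.PM u := by
  rw [dil_apply, map_add, map_add, map_smul, map_smul, S.MX, S.MY, S.MM]; simp

theorem dil_dil (s t s' t' : ℝ) (u : Cfg N) :
    S.dil s t (S.dil s' t' u) = S.dil (s * s') (t * t') u := by
  rw [S.dil_apply, S.X_dil, S.Y_dil, S.M_dil, S.dil_apply, smul_smul, smul_smul]

theorem dil_one (u : Cfg N) : S.dil 1 1 u = u := by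
  rw [dil_apply, one_smul, one_smul, S.sum]

theorem dil_mem {c : Cfg N} (hc : S.PX c = c) (s t : ℝ) {u : Cfg N} (hu : u ∈ Nor b c) :
    S.dil s t u ∈ Nor b c := by
  rw [dil_apply]
  exact (Nor b c).add_mem ((Nor b c).add_mem (S.X_mem_Nor hc u)
    ((Nor b c).smul_mem _ (S.Y_mem_Nor hc u))) ((Nor b c).smul_mem _ (S.M_mem_Nor hc hu))

/-- the dilation on the slice space -/
def dilN {c : Cfg N} (hc : S.PX c = c) (s t : ℝ) : Nor b c →ₗ[ℝ] Nor b c :=
  (S.dil s t : Cfg N →ₗ[ℝ] Cfg N).restrict (fun _ hu => S.dil_mem hc s t hu)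

theorem dilN_coe {c : Cfg N} (hc : S.PX c = c) (s t : ℝ) (u : Nor b c) :
    ((S.dilN hc s t u : Nor b c) : Cfg N) = S.dil s t u := rfl

theorem dilN_comp {c : Cfg N} (hc : S.PX c = c) (s t s' t' : ℝ) :
    S.dilN hc s t ∘ₗ S.dilN hc s' t' = S.dilN hc (s * s') (t * t') := by
  ext1 u
  apply Subtype.ext
  rw [LinearMap.comp_apply, dilN_coe, dilN_coe, dilN_coe, dil_dil]

theorem dilN_one {c : Cfg N} (hc : S.PX c = c) : S.dilN hc 1 1 = LinearMap.id := by
  ext1 u
  apply Subtype.ext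
  rw [dilN_coe, dil_one]
  rfl

theorem det_dilN_mul {c : Cfg N} (hc : S.PX c = c) (s t s' t' : ℝ) :
    LinearMap.det (S.dilN hc (s * s') (t * t')) =
      LinearMap.det (S.dilN hc s t) * LinearMap.det (S.dilN hc s' t') := by
  rw [← S.dilN_comp hc, LinearMap.det_comp]

theorem det_dilN_ne {c : Cfg N} (hc : S.PX c = c) {s t : ℝ} (hs : s ≠ 0) (ht : t ≠ 0) :
    LinearMap.det (S.dilN hc s t) ≠ 0 := by
  intro h
  have h1 := S.det_dilN_mul hc s t s⁻¹ t⁻¹
  rw [mul_inv_cancel₀ hs, mul_inv_cancel₀ ht, S.dilN_one, LinearMap.det_id, h, zero_mul] at h1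
  exact one_ne_zero h1

end Split

/-- linear change of variables -/
theorem integral_lin {V E : Type*} [NormedAddCommGroup V] [InnerProductSpace ℝ V]
    [FiniteDimensional ℝ V] [MeasurableSpace V] [BorelSpace V] [NormedAddCommGroup E]
    [NormedSpace ℝ E] (D : V →ₗ[ℝ] V) (hD : LinearMap.det D ≠ 0) (f : V → E) :
    ∫ u, f u = |LinearMap.det D| • ∫ v, f (D v) := by
  have h1 := Measure.map_linearMap_addHaar_eq_smul_addHaar (volume : Measure V) hD
  set e : V ≃L[ℝ] V := (LinearEquiv.ofIsUnitDet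
    (v := Module.finBasis ℝ V) (v' := Module.finBasis ℝ V) (f := D)
    (by rw [LinearMap.det_toMatrix]; exact hD.isUnit)).toContinuousLinearEquiv with he
  have hcoe : ∀ v, e v = D v := fun v => rfl
  have h2 : ∫ v, f (D v) = ∫ u, f u ∂(Measure.map D volume) := by
    have h3 : Measure.map (D : V → V) volume = Measure.map e volume := by
      congr 1
    rw [h3]
    exact (e.toHomeomorph.measurableEmbedding.integral_map f).symm
  rw [h2, h1, integral_smul_measure, ENNReal.toReal_ofReal (abs_nonneg _), smul_smul, abs_inv,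
    mul_inv_cancel₀ (abs_ne_zero.2 hD), one_smul]

end Crest.Agent.R330.Ovl372
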