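import Crest.Agent.R330.Gram_167
import Crest.Agent.R330.TCore_383
import Crest.Agent.R330.LitC_974
import Crest.Agent.R330.Rho_815
import Crest.Agent.R330.Iso8_815
import Crest.Agent.R330.Ovl_372
import Crest.Agent.R330.SlE_944
import Crest.Agent.R330.LitA_974
import Crest.Agent.R330.SlInt_658
import Crest.Agent.R330.ALow_302
import Crest.Agent.R330.Rad_969
import Mathlib
import Crest.Agent.R330.LitB_974

-- ▼ part R330/GramX_167
section

/-!
# Row 330, S8-PERM (helper167): the Gram matrix from 372's `Cross`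

`gramT_of_cross : Cross P → GramT P` : everything else in (T3), (T4) is filled in.
-/

set_option autoImplicit false

open MeasureTheory Filter Topology Crest.MathPhysics.MatrixQM
open scoped ContDiff InnerProductSpace ENNReal

noncomputable section

namespace Crest.Agent.R330.GramX167

open Crest.Agent.R330.TDef414 Crest.Agent.R330.Gram167

variable {N p : ℕ} {b : ColorBasis N} {S : Type} [Group S] [Fintype S] {C : Chn b p S}
variable {F : Type} [NormedAddCommGroup F] [InnerProductSpace ℂ F] [FiniteDimensional ℂ F]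
  [Nontrivial F]
variable {M : FermionRep N F} {R : GaugeAction b M} {G : GammaNine}

theorem hcore (P : TPack C M R G) : HCore P := fun σ χ => TCore383.core P σ χ

theorem hconc (P : TPack C M R G) : HConc P := fun σ χ => LitC974.conc P σ χ

theorem hiso (P : TPack C M R G) (hC : Rho815.Cross P) : HIso P := fun σ χ χ' =>
  Iso8815.hiso P (hcore P) hC σ χ χ'

theorem hchart (P : TPack C M R G) (hC : Rho815.Cross P) : HChart P := fun σ σ' χ χ' h =>
  Rho815.hchart P (hcore P) hC σ σ' χ χ' h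

/-- **(T3) + (T4)** from `Cross`. -/
theorem gramT_of_cross (P : TPack C M R G) (hC : Rho815.Cross P) : ChSys399.GramT P :=
  gramT (hcore P) (hiso P hC) (hchart P hC) (hconc P)

end Crest.Agent.R330.GramX167

end
end

-- ▼ part R330/Gram_372
section

/-!
Row 330, S8-ISO (helper372): **the limit of the overlap integral** of two equivariant functions
given on two fixed slices `c + Nor c`, `c' + Nor c'` by the bare formula
`φ_i (c+u) = a_i A(u) exp(-Q(X, z/t_i)/2) w(X, Y/s_i)`, `u = (X - c) + Y + z`, with the same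
quadratic form `Q`, `s_i, t_i → 0`, `t_i / s_i → 0`, `a_i^2 |det dilation| = 1`.
-/

set_option autoImplicit false
set_option linter.unusedSectionVars false
noncomputable section

open Matrix MeasureTheory Filter
open Crest.MathPhysics.MatrixQM
open Crest.Agent.R330.SlA314 Crest.Agent.R330.SlB314 Crest.Agent.R330.SlC314
open Crest.Agent.R330.SlD314 Crest.Agent.R330.SlP314 Crest.Agent.R330.Trans372
open Crest.Agent.R330.Ovl372
open scoped ContDiff Topology InnerProductSpace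

namespace Crest.Agent.R330.Gram372

variable {N : ℕ} {F : Type*} [NormedAddCommGroup F] [InnerProductSpace ℂ F]
  [FiniteDimensional ℂ F] {M : FermionRep N F} {b : ColorBasis N}

/-- the bare trial function on the slice at `c` -/
def bare (S : Split b) (c : Cfg N) (a s t : ℝ) (A : Cfg N → ℝ) (Q : Cfg N → Cfg N → ℝ)
    (w : Cfg N → Cfg N → F) (u : Cfg N) : F :=
  ((a * A u * Real.exp (-(Q (c + S.PX u) (t⁻¹ • S.PM u)) / 2) : ℝ) : ℂ) •
    w (c + S.PX u) (s⁻¹ • S.PY u)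

theorem bare_dil (S : Split b) (c : Cfg N) (a : ℝ) {s t : ℝ} (hs : s ≠ 0) (ht : t ≠ 0)
    (A : Cfg N → ℝ) (Q : Cfg N → Cfg N → ℝ) (w : Cfg N → Cfg N → F) (v : Cfg N) :
    bare S c a s t A Q w (S.dil s t v) =
      ((a * A (S.dil s t v) * Real.exp (-(Q (c + S.PX v) (S.PM v)) / 2) : ℝ) : ℂ) •
        w (c + S.PX v) (S.PY v) := by
  unfold bare
  rw [S.X_dil, S.Y_dil, S.M_dil, smul_smul, smul_smul, inv_mul_cancel₀ hs, inv_mul_cancel₀ ht,
    one_smul, one_smul]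

/-- the equivariant function of the second chart along the rescaled points of the first chart -/
theorem tendsto_second [Nontrivial F] (R : GaugeAction b M) {ι : Type*} {l : Filter ι}
    (S : Split b) {c' : Cfg N} (hc' : S.PX c' = c') {δ' : ℝ} (hδ' : GoodRad b c' δ')
    {s t a : ι → ℝ} (hs0 : ∀ i, 0 < s i) (ht0 : ∀ i, 0 < t i) (hs : Tendsto s l (𝓝 0))
    (ht : Tendsto t l (𝓝 0)) (hts : Tendsto (fun i => (s i)⁻¹ * t i) l (𝓝 0))
    (ha0 : ∀ i, 0 < a i) {A' : Cfg N → ℝ} {Q : Cfg N → Cfg N → ℝ} {w' : Cfg N → Cfg N → F}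
    {φ' : ι → Cfg N → F}
    (hφ : ∀ᶠ i in l, ∀ u ∈ Nor b c', ‖u‖ < δ' →
      φ' i (c' + u) = bare S c' (a i) (s i) (t i) A' Q w' u)
    (hφe : ∀ᶠ i in l, ∀ g x, φ' i (b.act g x) = R.ρ g (φ' i x))
    {X Y z : Cfg N} (hX : S.PX X = X) (hY : S.PY Y = Y) (hz : S.PM z = z)
    (hXc : ‖X - c'‖ < δ')
    (hQ : ∀ z, ContinuousAt (fun p : Cfg N × Cfg N => Q p.1 p.2) (X, z))
    (hQ2 : ∀ z om, S.PM z = z → Q X (z + brx b om X) = Q X z)
    (hw' : ContinuousAt (fun p : Cfg N × Cfg N => w' p.1 p.2) (X, Y))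
    (hA' : ContinuousWithinAt A' (Nor b c') (X - c')) :
    Tendsto (fun i => (((a i)⁻¹ : ℝ) : ℂ) • φ' i (X + s i • Y + t i • z)) l
      (𝓝 (((A' (X - c') * Real.exp (-(Q X z) / 2) : ℝ) : ℂ) • w' X Y)) := by
  have hXP : S.PX (X - c') = X - c' := by rw [map_sub, hX, hc']
  have hXN : X - c' ∈ Nor b c' := by
    rw [← hXP]; exact S.X_mem_Nor hc' _
  have hYN : Y ∈ Nor b c' := by rw [← hY]; exact S.Y_mem_Nor hc' _
  have hcX : c' + (X - c') = X := by abel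
  obtain ⟨L, hL, hL2⟩ := exists_strict hδ' hXN hXc
  rw [hcX] at hL
  obtain ⟨hLz, om0, hom0⟩ := hL2 z
  rw [hcX] at hom0
  set x : ι → Cfg N := fun i => X + s i • Y + t i • z with hx
  set y : ι → Cfg N := fun i => X + s i • Y with hy
  have hyt : Tendsto y l (𝓝 X) := by
    have := (hs.smul_const Y).const_add X
    simpa using this
  have hxt : Tendsto x l (𝓝 X) := by
    have := hyt.add (ht.smul_const z)
    simpa using this
  have hyn : Tendsto (fun i => (X - c') + s i • Y) l (𝓝 (X - c')) := by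
    have := (hs.smul_const Y).const_add (X - c')
    simpa using this
  have hyTh : ∀ᶠ i in l, Th b c' δ' (y i) = (X - c') + s i • Y := by
    filter_upwards [hyn.norm.eventually_lt_const hXc] with i hi
    have e : y i = c' + ((X - c') + s i • Y) := by simp only [hy]; abel
    rw [e, Th_nor hδ' ((Nor b c').add_mem hXN ((Nor b c').smul_mem _ hYN)) hi]
  set n : ι → Cfg N := fun i => (t i)⁻¹ • (Th b c' δ' (x i) - Th b c' δ' (y i)) with hn
  have hnt : Tendsto n l (𝓝 (L z)) := by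
    have h1 := (hL.isLittleO.comp_tendsto (hxt.prodMk_nhds hyt))
    have h2 : (fun i => Th b c' δ' (x i) - Th b c' δ' (y i) - L (t i • z)) =o[l] t := by
      have h3 : (fun i => t i • z) =O[l] t := by
        refine Asymptotics.IsBigO.of_bound ‖z‖ (Eventually.of_forall fun i => ?_)
        rw [norm_smul, mul_comm]
      have h4 : ∀ i, x i - y i = t i • z := fun i => by simp only [hx, hy]; abel
      have h5 : (fun i => Th b c' δ' (x i) - Th b c' δ' (y i) - L (t i • z)) =o[l]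
          fun i => t i • z := by
        refine h1.congr (fun i => ?_) (fun i => ?_)
        · simp only [Function.comp_def, h4]
        · simp only [Function.comp_def, h4]
      exact h5.trans_isBigO h3
    have h6 := h2.tendsto_inv_smul_nhds_zero
    have h7 := h6.add_const (L z)
    rw [zero_add] at h7
    refine h7.congr (fun i => ?_)
    simp only [hn]
    rw [map_smul, smul_sub _ _ (t i • L z), smul_smul, inv_mul_cancel₀ (ht0 i).ne', one_smul]
    abel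
  have hu : ∀ᶠ i in l, Th b c' δ' (x i) = (X - c') + s i • Y + t i • n i := by
    filter_upwards [hyTh] with i hi
    simp only [hn]
    rw [smul_smul, mul_inv_cancel₀ (ht0 i).ne', one_smul, hi]
    abel
  have hXY : S.PX Y = 0 := by rw [← hY, S.XY]
  have hYX : S.PY (X - c') = 0 := by rw [← hXP, S.YX]
  have hMX : S.PM (X - c') = 0 := by rw [← hXP, S.MX]
  have hMY : S.PM Y = 0 := by rw [← hY, S.MY]
  -- the three components
  have htn : Tendsto (fun i => t i • S.PX (n i)) l (𝓝 0) := by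
    have := ht.smul ((S.PX.continuous.tendsto _).comp hnt)
    simpa using this
  have hT : Tendsto (fun i => Th b c' δ' (x i)) l (𝓝 (X - c')) := by
    have h1 : Tendsto (fun i => (X - c') + s i • Y + t i • n i) l (𝓝 (X - c')) := by
      have := hyn.add (ht.smul hnt)
      simpa using this
    exact h1.congr' (by filter_upwards [hu] with i hi using hi.symm)
  have hc1 : Tendsto (fun i => c' + S.PX (Th b c' δ' (x i))) l (𝓝 X) := by
    have := ((S.PX.continuous.tendsto _).comp hT).const_add c'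
    rw [hXP, hcX] at this
    exact this
  have hc2 : Tendsto (fun i => (t i)⁻¹ • S.PM (Th b c' δ' (x i))) l (𝓝 (S.PM (L z))) := by
    refine ((S.PM.continuous.tendsto _).comp hnt).congr' ?_
    filter_upwards [hu] with i hi
    rw [hi, map_add, map_add, map_smul, map_smul, hMX, hMY, smul_zero, zero_add, zero_add,
      smul_smul, inv_mul_cancel₀ (ht0 i).ne', one_smul]
    rfl
  have hc3 : Tendsto (fun i => (s i)⁻¹ • S.PY (Th b c' δ' (x i))) l (𝓝 Y) := by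
    have h1 : Tendsto (fun i => Y + ((s i)⁻¹ * t i) • S.PY (n i)) l (𝓝 Y) := by
      have := (hts.smul ((S.PY.continuous.tendsto _).comp hnt)).const_add Y
      simpa using this
    refine h1.congr' ?_
    filter_upwards [hu] with i hi
    rw [hi, map_add, map_add, map_smul S.PY (s i) Y, map_smul S.PY (t i) (n i), hYX, hY, zero_add,
      smul_add, smul_smul, smul_smul, inv_mul_cancel₀ (hs0 i).ne', one_smul]
  have hQz : Q X (S.PM (L z)) = Q X z := by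
    have h1 : L z = z - brx b om0 X := by rw [eq_sub_iff_add_eq, add_comm]; exact hom0.symm
    have h2 : S.PM (brx b om0 X) = brx b om0 X := by
      have := S.br om0 X
      rwa [hX] at this
    have h3 : S.PM (L z) = z + brx b (-om0) X := by
      have h4 : brx b (-om0) X = -brx b om0 X := by
        rw [← SlE944.brB_apply, map_neg]
        rfl
      rw [h1, map_sub, hz, h2, h4, sub_eq_add_neg]
    rw [h3, hQ2 z _ hz]
  have hQt : Tendsto (fun i => Q (c' + S.PX (Th b c' δ' (x i)))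
      ((t i)⁻¹ • S.PM (Th b c' δ' (x i)))) l (𝓝 (Q X z)) := by
    have := (hQ (S.PM (L z))).tendsto.comp (hc1.prodMk_nhds hc2)
    rw [hQz] at this
    exact this
  have hAt : Tendsto (fun i => A' (Th b c' δ' (x i))) l (𝓝 (A' (X - c'))) :=
    hA'.tendsto.comp (tendsto_nhdsWithin_iff.2
      ⟨hT, Eventually.of_forall fun i => Th_mem (x i)⟩)
  have hwt : Tendsto (fun i => w' (c' + S.PX (Th b c' δ' (x i)))
      ((s i)⁻¹ • S.PY (Th b c' δ' (x i)))) l (𝓝 (w' X Y)) :=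
    hw'.tendsto.comp (hc1.prodMk_nhds hc3)
  have him : ∀ᶠ i in l, x i ∈ Psi b c' '' box b c' δ' := by
    have h1 : X ∈ Psi b c' '' box b c' δ' := by
      have := mem_image_of_nor hXN hXc
      rwa [hcX] at this
    exact hxt.eventually (hδ'.isOpen_image.mem_nhds h1)
  have hOm : Tendsto (fun i => Om b c' δ' (x i)) l (𝓝 0) := by
    have h1 : X ∈ Psi b c' '' box b c' δ' := by
      have := mem_image_of_nor hXN hXc
      rwa [hcX] at this
    have h2 := (continuousAt_Om hδ' h1).tendsto.comp hxt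
    have h3 := Om_nor hδ' hXN hXc
    rw [hcX] at h3
    rw [h3] at h2
    exact h2
  have hmain : Tendsto (fun i => (((a i)⁻¹ : ℝ) : ℂ) • φ' i (c' + Th b c' δ' (x i))) l
      (𝓝 (((A' (X - c') * Real.exp (-(Q X z) / 2) : ℝ) : ℂ) • w' X Y)) := by
    have h1 : Tendsto (fun i => ((A' (Th b c' δ' (x i)) *
        Real.exp (-(Q (c' + S.PX (Th b c' δ' (x i))) ((t i)⁻¹ • S.PM (Th b c' δ' (x i)))) / 2)
          : ℝ) : ℂ) • w' (c' + S.PX (Th b c' δ' (x i))) ((s i)⁻¹ • S.PY (Th b c' δ' (x i)))) l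
        (𝓝 (((A' (X - c') * Real.exp (-(Q X z) / 2) : ℝ) : ℂ) • w' X Y)) := by
      refine Tendsto.smul ?_ hwt
      refine (Complex.continuous_ofReal.tendsto _).comp ?_
      refine hAt.mul ?_
      exact (Real.continuous_exp.tendsto _).comp ((hQt.neg).div_const 2)
    refine h1.congr' ?_
    filter_upwards [hφ, him] with i hi hi2
    rw [hi _ (Th_mem _) (norm_Th_lt hi2), bare, smul_smul]
    congr 1
    push_cast
    have : (a i : ℂ) ≠ 0 := by exact_mod_cast (ha0 i).ne'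
    field_simp
  have hfin := ((SlE944.contDiff_rho_gexp R).continuous.tendsto
    ((0 : Fin (N ^ 2 - 1) → ℝ), (((A' (X - c') * Real.exp (-(Q X z) / 2) : ℝ) : ℂ) •
      w' X Y))).comp (hOm.prodMk_nhds hmain)
  have h0 : R.ρ (gexp b (0 : Fin (N ^ 2 - 1) → ℝ))
      (((A' (X - c') * Real.exp (-(Q X z) / 2) : ℝ) : ℂ) • w' X Y) =
      (((A' (X - c') * Real.exp (-(Q X z) / 2) : ℝ) : ℂ) • w' X Y) := by
    rw [gexp_zero, map_one]; rfl
  simp only [h0] at hfin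
  refine hfin.congr' ?_
  filter_upwards [hφe, him] with i hi hi2
  simp only [Function.comp_def]
  rw [map_smul, ← hi, act_Th hi2]


end Crest.Agent.R330.Gram372
end
end

-- ▼ part R330/Gram2_372
section

/-!
Row 330, S8-ISO (helper372): the overlap limit with an abstract pointwise limit of the second
function, and the pointwise limit for a chart moved by a group element.
-/

set_option autoImplicit false
set_option linter.unusedSectionVars false
noncomputable section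

open Matrix MeasureTheory Filter
open Crest.MathPhysics.MatrixQM
open Crest.Agent.R330.SlA314 Crest.Agent.R330.SlB314 Crest.Agent.R330.SlC314
open Crest.Agent.R330.SlD314 Crest.Agent.R330.SlP314 Crest.Agent.R330.Trans372
open Crest.Agent.R330.Ovl372 Crest.Agent.R330.Gram372
open scoped ContDiff Topology InnerProductSpace

namespace Crest.Agent.R330.Gram2372

variable {N : ℕ} {F : Type*} [NormedAddCommGroup F] [InnerProductSpace ℂ F]
  [FiniteDimensional ℂ F] {M : FermionRep N F} {b : ColorBasis N}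

/-- **limit of the overlap integral**, abstract second function -/
theorem gram_dct {ι : Type*} {l : Filter ι}
    [l.IsCountablyGenerated] (S : Split b) {c : Cfg N} (hc : S.PX c = c)
    {δ ρ κ W B' C r : ℝ} (hρ : ρ < δ) (hκ : 0 < κ) (hC : 0 ≤ C) (hB' : 0 ≤ B') (hW : 0 ≤ W)
    {U : Set (Cfg N)} {s t a : ι → ℝ}
    (hs0 : ∀ i, 0 < s i) (ht0 : ∀ i, 0 < t i) (hs : Tendsto s l (𝓝 0)) (ht : Tendsto t l (𝓝 0))
    (ha0 : ∀ i, 0 < a i)
    (ha : ∀ i, a i ^ 2 * |LinearMap.det (S.dilN hc (s i) (t i))| = 1)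
    {A : Cfg N → ℝ} {Q : Cfg N → Cfg N → ℝ} {w : Cfg N → Cfg N → F}
    (hQ1 : ∀ X ∈ U, S.PX X = X → ∀ z ∈ Nor b c, S.PM z = z → κ * ‖z‖ ^ 2 ≤ Q X z)
    (hws : ∀ X Y, S.PX X = X → S.PY Y = Y → w X Y ≠ 0 → X ∈ U ∧ ‖X - c‖ ≤ ρ ∧ ‖Y‖ ≤ r)
    (hwb : ∀ X Y, S.PX X = X → S.PY Y = Y → ‖w X Y‖ ≤ W)
    (hA : ∀ u ∈ Nor b c, c + u ∈ U → S.PX u = u → ‖u‖ < δ → ContinuousWithinAt A (Nor b c) u)
    (hAb : ∀ u ∈ Nor b c, ‖u‖ < δ → (∃ Y, S.PY Y = Y ∧ w (c + S.PX u) Y ≠ 0) →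
      |A u| ≤ C)
    {τ φ' : ι → Cfg N → F}
    (hτ : ∀ᶠ i in l, ∀ u ∈ Nor b c, ‖u‖ < δ → τ i u = bare S c (a i) (s i) (t i) A Q w u)
    (hτ0 : ∀ᶠ i in l, ∀ u ∈ Nor b c, δ ≤ ‖u‖ → τ i u = 0)
    (hτm : ∀ᶠ i in l, Continuous fun u : Nor b c => τ i (u : Cfg N))
    (hφm : ∀ᶠ i in l, Continuous (φ' i))
    (hφb : ∀ᶠ i in l, ∀ x, ‖φ' i x‖ ≤ a i * B') {Λ : Cfg N → Cfg N → Cfg N → F}
    (hpt : ∀ X Y z, S.PX X = X → S.PY Y = Y → S.PM z = z → z ∈ Nor b c → w X Y ≠ 0 →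
      Tendsto (fun i => (((a i)⁻¹ : ℝ) : ℂ) • φ' i (X + s i • Y + t i • z)) l (𝓝 (Λ X Y z))) :
    Tendsto (fun i => ∫ u : Nor b c, ⟪τ i (u : Cfg N), φ' i (c + (u : Cfg N))⟫_ℂ) l
      (𝓝 (∫ v : Nor b c, ((A (S.PX (v : Cfg N)) *
        Real.exp (-(Q (c + S.PX (v : Cfg N)) (S.PM (v : Cfg N))) / 2) : ℝ) : ℂ) *
        ⟪w (c + S.PX (v : Cfg N)) (S.PY (v : Cfg N)),
          Λ (c + S.PX (v : Cfg N)) (S.PY (v : Cfg N)) (S.PM (v : Cfg N))⟫_ℂ)) := by
  classical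
  have hdet : ∀ i, LinearMap.det (S.dilN hc (s i) (t i)) ≠ 0 := fun i =>
    S.det_dilN_ne hc (hs0 i).ne' (ht0 i).ne'
  -- change of variables
  have hcv : ∀ i, ∫ u : Nor b c, ⟪τ i (u : Cfg N), φ' i (c + (u : Cfg N))⟫_ℂ =
      ∫ v : Nor b c, ((|LinearMap.det (S.dilN hc (s i) (t i))| : ℝ) : ℂ) *
        ⟪τ i (S.dil (s i) (t i) (v : Cfg N)), φ' i (c + S.dil (s i) (t i) (v : Cfg N))⟫_ℂ := by
    intro i
    rw [integral_lin (S.dilN hc (s i) (t i)) (hdet i), ← integral_smul]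
    refine integral_congr_ae (Eventually.of_forall fun v => ?_)
    simp only [S.dilN_coe]
    rw [Complex.real_smul]
  simp only [hcv]
  have hb : Integrable (fun v : Nor b c => C * W * B' * Real.exp (κ * (ρ ^ 2 + r ^ 2) / 2) *
      Real.exp (-(κ / 2) * ‖v‖ ^ 2)) :=
    (GPar984.integrable_gauss (Z := Nor b c) (c := κ / 2) (by positivity)).const_mul _
  refine tendsto_integral_filter_of_dominated_convergence _ ?_ ?_ hb ?_
  · filter_upwards [hτm, hφm] with i h1 h2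
    refine Continuous.aestronglyMeasurable ?_
    have hd : Continuous fun v : Nor b c => S.dilN hc (s i) (t i) v :=
      LinearMap.continuous_of_finiteDimensional _
    refine continuous_const.mul ((h1.comp hd).inner ?_)
    exact h2.comp (continuous_const.add ((S.dil (s i) (t i)).continuous.comp
      continuous_subtype_val))
  · filter_upwards [hτ, hτ0, hφb] with i h1 h2 h3
    refine Eventually.of_forall fun v => ?_
    rw [norm_mul, Complex.norm_real, Real.norm_eq_abs, abs_abs]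
    have hmem : S.dil (s i) (t i) (v : Cfg N) ∈ Nor b c := S.dil_mem hc _ _ v.2
    have hpos : 0 ≤ C * W * B' * Real.exp (κ * (ρ ^ 2 + r ^ 2) / 2) *
      Real.exp (-(κ / 2) * ‖v‖ ^ 2) := by positivity
    by_cases hn : ‖S.dil (s i) (t i) (v : Cfg N)‖ < δ
    · by_cases hw0 : w (c + S.PX (v : Cfg N)) (S.PY (v : Cfg N)) = 0
      · rw [h1 _ hmem hn, bare_dil S c _ (hs0 i).ne' (ht0 i).ne', hw0, smul_zero,
          inner_zero_left, norm_zero, mul_zero]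
        exact hpos
      · have hX : S.PX (c + S.PX (v : Cfg N)) = c + S.PX (v : Cfg N) := by
          rw [map_add, hc, S.XX]
        obtain ⟨hU, hX1, hY1⟩ := hws _ _ hX (S.YY _) hw0
        rw [add_sub_cancel_left] at hX1
        have hQv := hQ1 _ hU hX (S.PM (v : Cfg N)) (S.M_mem_Nor hc v.2) (S.MM _)
        have hAv : |A (S.dil (s i) (t i) (v : Cfg N))| ≤ C := by
          refine hAb _ hmem hn ⟨S.PY (v : Cfg N), S.YY _, ?_⟩
          rw [S.X_dil]; exact hw0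
        have hτn : ‖τ i (S.dil (s i) (t i) (v : Cfg N))‖ ≤
            a i * C * Real.exp (-(κ * ‖S.PM (v : Cfg N)‖ ^ 2) / 2) * W := by
          rw [h1 _ hmem hn, bare_dil S c _ (hs0 i).ne' (ht0 i).ne', norm_smul, Complex.norm_real,
            Real.norm_eq_abs, abs_mul, abs_mul, Real.abs_exp, abs_of_pos (ha0 i)]
          have h0 : 0 ≤ a i := (ha0 i).le
          refine mul_le_mul (mul_le_mul (mul_le_mul_of_nonneg_left hAv h0)
            (Real.exp_le_exp.2 (by linarith)) (Real.exp_pos _).le (by positivity)) (hwb _ _ hX (S.YY _))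
            (norm_nonneg _) (by positivity)
        have hin : ‖⟪τ i (S.dil (s i) (t i) (v : Cfg N)),
            φ' i (c + S.dil (s i) (t i) (v : Cfg N))⟫_ℂ‖ ≤
            (a i * C * Real.exp (-(κ * ‖S.PM (v : Cfg N)‖ ^ 2) / 2) * W) * (a i * B') :=
          (norm_inner_le_norm _ _).trans (mul_le_mul hτn (h3 _) (norm_nonneg _)
            (by have := ha0 i; positivity))
        have hv2 : ‖v‖ ^ 2 ≤ ρ ^ 2 + r ^ 2 + ‖S.PM (v : Cfg N)‖ ^ 2 := by
          have h4 := S.norm_sq (v : Cfg N)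
          have h5 : ‖S.PX (v : Cfg N)‖ ^ 2 ≤ ρ ^ 2 := pow_le_pow_left₀ (norm_nonneg _) hX1 2
          have h6 : ‖S.PY (v : Cfg N)‖ ^ 2 ≤ r ^ 2 := pow_le_pow_left₀ (norm_nonneg _) hY1 2
          have h7 : ‖v‖ = ‖(v : Cfg N)‖ := rfl
          rw [h7, h4]
          linarith
        calc |LinearMap.det (S.dilN hc (s i) (t i))| * ‖⟪τ i (S.dil (s i) (t i) (v : Cfg N)),
              φ' i (c + S.dil (s i) (t i) (v : Cfg N))⟫_ℂ‖
            ≤ |LinearMap.det (S.dilN hc (s i) (t i))| *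
              ((a i * C * Real.exp (-(κ * ‖S.PM (v : Cfg N)‖ ^ 2) / 2) * W) * (a i * B')) :=
              mul_le_mul_of_nonneg_left hin (abs_nonneg _)
          _ = (a i ^ 2 * |LinearMap.det (S.dilN hc (s i) (t i))|) * (C * W * B' *
              Real.exp (-(κ * ‖S.PM (v : Cfg N)‖ ^ 2) / 2)) := by ring
          _ = C * W * B' * Real.exp (-(κ * ‖S.PM (v : Cfg N)‖ ^ 2) / 2) := by
              rw [ha, one_mul]
          _ ≤ C * W * B' * Real.exp (κ * (ρ ^ 2 + r ^ 2) / 2 + -(κ / 2) * ‖v‖ ^ 2) := by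
              refine mul_le_mul_of_nonneg_left (Real.exp_le_exp.2 ?_) (by positivity)
              nlinarith
          _ = _ := by rw [Real.exp_add]; ring
    · rw [h2 _ hmem (not_lt.1 hn), inner_zero_left, norm_zero, mul_zero]
      exact hpos
  · refine Eventually.of_forall fun v => ?_
    have hX : S.PX (c + S.PX (v : Cfg N)) = c + S.PX (v : Cfg N) := by
      rw [map_add, hc, S.XX]
    by_cases hw0 : w (c + S.PX (v : Cfg N)) (S.PY (v : Cfg N)) = 0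
    · rw [hw0, inner_zero_left, mul_zero]
      refine tendsto_const_nhds.congr' ?_
      filter_upwards [hτ, hτ0] with i h1 h2
      have hmem : S.dil (s i) (t i) (v : Cfg N) ∈ Nor b c := S.dil_mem hc _ _ v.2
      by_cases hn : ‖S.dil (s i) (t i) (v : Cfg N)‖ < δ
      · rw [h1 _ hmem hn, bare_dil S c _ (hs0 i).ne' (ht0 i).ne', hw0, smul_zero,
          inner_zero_left, mul_zero]
      · rw [h2 _ hmem (not_lt.1 hn), inner_zero_left, mul_zero]
    · obtain ⟨hU, hX1, hY1⟩ := hws _ _ hX (S.YY _) hw0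
      set X : Cfg N := c + S.PX (v : Cfg N) with hXd
      have hsec := hpt X (S.PY (v : Cfg N)) (S.PM (v : Cfg N)) hX (S.YY (v : Cfg N))
        (S.MM (v : Cfg N)) (S.M_mem_Nor hc v.2) hw0
      have hvX : ‖S.PX (v : Cfg N)‖ < δ := by
        rw [hXd, add_sub_cancel_left] at hX1
        exact lt_of_le_of_lt hX1 hρ
      have hdl : Tendsto (fun i => S.dil (s i) (t i) (v : Cfg N)) l (𝓝 (S.PX (v : Cfg N))) := by
        have h1 := ((hs.smul_const (S.PY (v : Cfg N))).const_add (S.PX (v : Cfg N))).add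
          (ht.smul_const (S.PM (v : Cfg N)))
        simpa [S.dil_apply] using h1
      have hA1 : Tendsto (fun i => A (S.dil (s i) (t i) (v : Cfg N))) l
          (𝓝 (A (S.PX (v : Cfg N)))) := by
        have h1 := hA (S.PX (v : Cfg N)) (S.X_mem_Nor hc _) hU (S.XX _) hvX
        exact h1.tendsto.comp (tendsto_nhdsWithin_iff.2
          ⟨hdl, Eventually.of_forall fun i => S.dil_mem hc _ _ v.2⟩)
      have h3 : Tendsto (fun i => ((A (S.dil (s i) (t i) (v : Cfg N)) *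
          Real.exp (-(Q X (S.PM (v : Cfg N))) / 2) : ℝ) : ℂ) *
          ⟪w X (S.PY (v : Cfg N)), (((a i)⁻¹ : ℝ) : ℂ) • φ' i (X + s i • S.PY (v : Cfg N) +
            t i • S.PM (v : Cfg N))⟫_ℂ) l
          (𝓝 (((A (S.PX (v : Cfg N)) * Real.exp (-(Q X (S.PM (v : Cfg N))) / 2) : ℝ) : ℂ) *
            ⟪w X (S.PY (v : Cfg N)), Λ X (S.PY (v : Cfg N)) (S.PM (v : Cfg N))⟫_ℂ)) := by
        refine Tendsto.mul ?_ (tendsto_const_nhds.inner hsec)
        exact (Complex.continuous_ofReal.tendsto _).comp (hA1.mul_const _)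
      refine h3.congr' ?_
      filter_upwards [hτ, hdl.norm.eventually_lt_const hvX] with i h1 hn
      have hmem : S.dil (s i) (t i) (v : Cfg N) ∈ Nor b c := S.dil_mem hc _ _ v.2
      have hxe : c + S.dil (s i) (t i) (v : Cfg N) = X + s i • S.PY (v : Cfg N) +
          t i • S.PM (v : Cfg N) := by
        rw [S.dil_apply, hXd]; abel
      rw [h1 _ hmem hn, bare_dil S c _ (hs0 i).ne' (ht0 i).ne', ← hXd, hxe, inner_smul_left,
        inner_smul_right, Complex.conj_ofReal, ← mul_assoc, ← mul_assoc]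
      congr 1
      have h4 : |LinearMap.det (S.dilN hc (s i) (t i))| = (a i)⁻¹ * (a i)⁻¹ := by
        have h5 := ha i
        have h6 : a i ≠ 0 := (ha0 i).ne'
        field_simp
        linarith
      rw [h4]
      have h6 : (a i : ℂ) ≠ 0 := by exact_mod_cast (ha0 i).ne'
      push_cast
      field_simp



/-- **limit of the overlap integral** of two bare functions on two slices (weak hypotheses) -/
theorem gram_two [Nontrivial F] (R : GaugeAction b M) {ι : Type*} {l : Filter ι}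
    [l.IsCountablyGenerated] (S : Split b) {c c' : Cfg N} (hc : S.PX c = c) (hc' : S.PX c' = c')
    {δ δ' ρ ρ' κ W B' C r : ℝ} (hδ' : GoodRad b c' δ') (hρ : ρ < δ) (hρ' : ρ' < δ')
    (hκ : 0 < κ) (hC : 0 ≤ C) (hB' : 0 ≤ B') (hW : 0 ≤ W) {U : Set (Cfg N)} {s t a : ι → ℝ}
    (hs0 : ∀ i, 0 < s i) (ht0 : ∀ i, 0 < t i) (hs : Tendsto s l (𝓝 0)) (ht : Tendsto t l (𝓝 0))
    (hts : Tendsto (fun i => (s i)⁻¹ * t i) l (𝓝 0)) (ha0 : ∀ i, 0 < a i)
    (ha : ∀ i, a i ^ 2 * |LinearMap.det (S.dilN hc (s i) (t i))| = 1)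
    {A A' : Cfg N → ℝ} {Q : Cfg N → Cfg N → ℝ} {w w' : Cfg N → Cfg N → F}
    (hQ : ∀ X ∈ U, S.PX X = X → ∀ z, ContinuousAt (fun p : Cfg N × Cfg N => Q p.1 p.2) (X, z))
    (hQ1 : ∀ X ∈ U, S.PX X = X → ∀ z ∈ Nor b c, S.PM z = z → κ * ‖z‖ ^ 2 ≤ Q X z)
    (hQ2 : ∀ X ∈ U, S.PX X = X → ∀ z om, S.PM z = z → Q X (z + brx b om X) = Q X z)
    (hw' : ∀ X ∈ U, S.PX X = X → ∀ Y, ContinuousAt (fun p : Cfg N × Cfg N => w' p.1 p.2) (X, Y))
    (hws : ∀ X Y, S.PX X = X → S.PY Y = Y → w X Y ≠ 0 →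
      X ∈ U ∧ ‖X - c‖ ≤ ρ ∧ ‖X - c'‖ ≤ ρ' ∧ ‖Y‖ ≤ r)
    (hwb : ∀ X Y, S.PX X = X → S.PY Y = Y → ‖w X Y‖ ≤ W)
    (hA : ∀ u ∈ Nor b c, c + u ∈ U → S.PX u = u → ‖u‖ < δ → ContinuousWithinAt A (Nor b c) u)
    (hAb : ∀ u ∈ Nor b c, ‖u‖ < δ → (∃ Y, S.PY Y = Y ∧ w (c + S.PX u) Y ≠ 0) → |A u| ≤ C)
    (hA' : ∀ u ∈ Nor b c', c' + u ∈ U → S.PX u = u → ‖u‖ < δ' →
      ContinuousWithinAt A' (Nor b c') u)
    {τ φ' : ι → Cfg N → F}
    (hτ : ∀ᶠ i in l, ∀ u ∈ Nor b c, ‖u‖ < δ → τ i u = bare S c (a i) (s i) (t i) A Q w u)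
    (hτ0 : ∀ᶠ i in l, ∀ u ∈ Nor b c, δ ≤ ‖u‖ → τ i u = 0)
    (hτm : ∀ᶠ i in l, Continuous fun u : Nor b c => τ i (u : Cfg N))
    (hφ : ∀ᶠ i in l, ∀ u ∈ Nor b c', ‖u‖ < δ' →
      φ' i (c' + u) = bare S c' (a i) (s i) (t i) A' Q w' u)
    (hφe : ∀ᶠ i in l, ∀ g x, φ' i (b.act g x) = R.ρ g (φ' i x))
    (hφm : ∀ᶠ i in l, Continuous (φ' i))
    (hφb : ∀ᶠ i in l, ∀ x, ‖φ' i x‖ ≤ a i * B') :
    Tendsto (fun i => ∫ u : Nor b c, ⟪τ i (u : Cfg N), φ' i (c + (u : Cfg N))⟫_ℂ) l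
      (𝓝 (∫ v : Nor b c, ((A (S.PX (v : Cfg N)) * A' (c + S.PX (v : Cfg N) - c') *
        Real.exp (-(Q (c + S.PX (v : Cfg N)) (S.PM (v : Cfg N)))) : ℝ) : ℂ) *
        ⟪w (c + S.PX (v : Cfg N)) (S.PY (v : Cfg N)),
          w' (c + S.PX (v : Cfg N)) (S.PY (v : Cfg N))⟫_ℂ)) := by
  have h := gram_dct (F := F) (b := b) (l := l) S hc hρ hκ hC hB' hW (U := U) hs0 ht0 hs ht ha0 ha
    (A := A) (Q := Q) (w := w) hQ1
    (fun X Y hX hY h0 => ⟨(hws X Y hX hY h0).1, (hws X Y hX hY h0).2.1,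
      (hws X Y hX hY h0).2.2.2⟩) hwb hA hAb hτ hτ0 hτm hφm hφb
    (Λ := fun X Y z => ((A' (X - c') * Real.exp (-(Q X z) / 2) : ℝ) : ℂ) • w' X Y)
    (fun X Y z hX hY hz _ hw0 => by
      obtain ⟨hU, hX1, hX2, hY1⟩ := hws X Y hX hY hw0
      have hXP : S.PX (X - c') = X - c' := by rw [map_sub, hX, hc']
      have hXN : X - c' ∈ Nor b c' := by
        rw [← hXP]; exact S.X_mem_Nor hc' _
      have hXu : c' + (X - c') ∈ U := by
        have : c' + (X - c') = X := by abel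
        rw [this]; exact hU
      exact tendsto_second R S hc' hδ' hs0 ht0 hs ht hts ha0 hφ hφe hX hY hz
        (lt_of_le_of_lt hX2 hρ') (hQ X hU hX) (hQ2 X hU hX) (hw' X hU hX _)
        (hA' (X - c') hXN hXu hXP (lt_of_le_of_lt hX2 hρ')))
  have he : ∀ v : Nor b c, ((A (S.PX (v : Cfg N)) *
        Real.exp (-(Q (c + S.PX (v : Cfg N)) (S.PM (v : Cfg N))) / 2) : ℝ) : ℂ) *
        ⟪w (c + S.PX (v : Cfg N)) (S.PY (v : Cfg N)),
          ((A' (c + S.PX (v : Cfg N) - c') *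
            Real.exp (-(Q (c + S.PX (v : Cfg N)) (S.PM (v : Cfg N))) / 2) : ℝ) : ℂ) •
            w' (c + S.PX (v : Cfg N)) (S.PY (v : Cfg N))⟫_ℂ =
      ((A (S.PX (v : Cfg N)) * A' (c + S.PX (v : Cfg N) - c') *
        Real.exp (-(Q (c + S.PX (v : Cfg N)) (S.PM (v : Cfg N)))) : ℝ) : ℂ) *
        ⟪w (c + S.PX (v : Cfg N)) (S.PY (v : Cfg N)),
          w' (c + S.PX (v : Cfg N)) (S.PY (v : Cfg N))⟫_ℂ := by
    intro v
    rw [inner_smul_right, ← mul_assoc]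
    congr 1
    rw [← Complex.ofReal_mul]
    congr 1
    have he : Real.exp (-(Q (c + S.PX (v : Cfg N)) (S.PM (v : Cfg N)))) =
        Real.exp (-(Q (c + S.PX (v : Cfg N)) (S.PM (v : Cfg N))) / 2) *
          Real.exp (-(Q (c + S.PX (v : Cfg N)) (S.PM (v : Cfg N))) / 2) := by
      rw [← Real.exp_add]; congr 1; ring
    rw [he]; ring
  simp only [he] at h
  exact h

end Crest.Agent.R330.Gram2372
end
end

-- ▼ part R330/TG_372
section

/-!
# Row 330, S8-ISO (helper372): trial functions for an arbitrary block state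

`tauG P σ g Φ χ`, `TG P σ g Φ χ` = 414's `tau`, `Tgen` with the block state `P.Psi g` replaced by
an arbitrary `Φ : Cfg N → F →L[ℂ] F`; `IsBlk P Φ ρ`: smooth, supported in the ball of radius `ρ`,
covariant.  `splitC C : Ovl372.Split b`.
-/

set_option autoImplicit false
set_option linter.unusedSectionVars false

open MeasureTheory Filter Topology Crest.MathPhysics.MatrixQM
open scoped ContDiff InnerProductSpace ENNReal

noncomputable section

namespace Crest.Agent.R330.TG372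

open Crest.Agent.R330.Defs478 Crest.Agent.R330.LS839 Crest.Agent.R330.Frame839
  Crest.Agent.R330.Clus839 Crest.Agent.R330.Bind6839 Crest.Agent.R330.SlG944
  Crest.Agent.R330.SlF944 Crest.Agent.R330.TDef414 Crest.Agent.R330.LitA974
open Crest.Agent.R330.SlB314 (Nor Tan brx)
open Crest.Agent.R330.SlD314 (tube)

variable {N p : ℕ} {b : ColorBasis N} {S : Type} [Group S] [Fintype S]

/-! ## the splitting of a channel -/

theorem actB_cf_mem (C : Chn b p S) (w : Colg N) (X : Pos p) : actB b w (C.cf X) ∈ Tup C.kkᗮ := by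
  intro i
  rw [comp_act, C.comp_cf, Submodule.mem_orthogonal]
  intro u hu
  rw [(colAlg b).anti w, inner_neg_right, real_inner_comm, (colAlg b).skew,
    C.cen_comm _ u hu, inner_zero_right, neg_zero, neg_zero]

/-- the projections of a channel as a `Split` -/
def splitC (C : Chn b p S) : Ovl372.Split b where
  PX := C.cf.toContinuousLinearMap.comp C.cfT
  PY := C.PK - C.cf.toContinuousLinearMap.comp C.cfT
  PM := ContinuousLinearMap.id ℝ (Cfg N) - C.PK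
  sum u := by
    show C.cf (C.cfT u) + (C.PK u - C.cf (C.cfT u)) + (u - C.PK u) = u
    abel
  XX u := by
    show C.cf (C.cfT (C.cf (C.cfT u))) = C.cf (C.cfT u)
    rw [C.cfT_cf]
  YY u := by
    show C.PK (C.PY u) - C.cf (C.cfT (C.PY u)) = C.PY u
    rw [cfT_Blk C (PY_mem C u), PK_of_mem C (PY_mem C u).1, map_zero, sub_zero]
  MM u := by
    show C.PM u - C.PK (C.PM u) = C.PM u
    rw [PK_of_orth C (PM_mem C u), sub_zero]
  XY u := by
    show C.cf (C.cfT (C.PY u)) = 0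
    rw [cfT_Blk C (PY_mem C u), map_zero]
  XM u := by
    show C.cf (C.cfT (C.PM u)) = 0
    rw [cfT_orth C (PM_mem C u), map_zero]
  YX u := by
    show C.PK (C.cf (C.cfT u)) - C.cf (C.cfT (C.cf (C.cfT u))) = 0
    rw [C.cfT_cf, PK_of_mem C (cf_mem_Tup C _), sub_self]
  YM u := by
    show C.PK (C.PM u) - C.cf (C.cfT (C.PM u)) = 0
    rw [cfT_orth C (PM_mem C u), map_zero, PK_of_orth C (PM_mem C u), sub_zero]
  MX u := by
    show C.cf (C.cfT u) - C.PK (C.cf (C.cfT u)) = 0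
    rw [PK_of_mem C (cf_mem_Tup C _), sub_self]
  MY u := by
    show C.PY u - C.PK (C.PY u) = 0
    rw [PK_of_mem C (PY_mem C u).1, sub_self]
  symX u v := by
    show ⟪C.cf (C.cfT u), v⟫_ℝ = ⟪u, C.cf (C.cfT v)⟫_ℝ
    have h1 := inner_cf_cfT C v (C.cfT u)
    have h2 := inner_cf_cfT C u (C.cfT v)
    rw [inner_sub_left, sub_eq_zero] at h1 h2
    rw [real_inner_comm, h1, h2, LinearIsometry.inner_map_map, LinearIsometry.inner_map_map,
      real_inner_comm]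
  symY u v := by
    show ⟪C.PK u - C.cf (C.cfT u), v⟫_ℝ = ⟪u, C.PK v - C.cf (C.cfT v)⟫_ℝ
    have h1 := inner_cf_cfT C v (C.cfT u)
    have h2 := inner_cf_cfT C u (C.cfT v)
    rw [inner_sub_left, sub_eq_zero] at h1 h2
    have h3 : ⟪C.cf (C.cfT u), v⟫_ℝ = ⟪u, C.cf (C.cfT v)⟫_ℝ := by
      rw [real_inner_comm, h1, h2, LinearIsometry.inner_map_map, LinearIsometry.inner_map_map,
        real_inner_comm]
    rw [inner_sub_left, inner_sub_right, h3]
    congr 1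
    exact Submodule.inner_starProjection_left_eq_right _ u v
  br om u := by
    show brx b om (C.cf (C.cfT u)) - C.PK (brx b om (C.cf (C.cfT u))) =
      brx b om (C.cf (C.cfT u))
    have h := actB_cf_mem C (WithLp.toLp 2 om) (C.cfT u)
    rw [actB_apply] at h
    rw [PK_of_orth C h, sub_zero]

theorem splitC_PX (C : Chn b p S) (u : Cfg N) : (splitC C).PX u = C.cf (C.cfT u) := rfl

theorem splitC_PY (C : Chn b p S) (u : Cfg N) : (splitC C).PY u = C.PY u := rfl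

theorem splitC_PM (C : Chn b p S) (u : Cfg N) : (splitC C).PM u = C.PM u := rfl

/-! ## block states -/

variable {C : Chn b p S} {F : Type*} [NormedAddCommGroup F] [InnerProductSpace ℂ F]
  [FiniteDimensional ℂ F] {M : FermionRep N F} {R : GaugeAction b M} {G : GammaNine}

/-- the trial function on the slice for the block state `Φ` -/
def tauG (P : TPack C M R G) (σ : Sl C) (g : ℝ) (Φ : Cfg N → F →L[ℂ] F) (χ : Pos p → C.Fx M G)
    (u : Cfg N) : F :=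
  ((nrm P σ g (σ.X0 + C.cfT u) * kap σ.r (‖C.PM u‖ ^ 2) *
    Real.exp (-(g / 2 * ⟪P.A (σ.X0 + C.cfT u) (C.PM u), C.PM u⟫_ℝ)) : ℝ) : ℂ) •
    P.U (σ.X0 + C.cfT u) (Φ (C.PY u) (χ (σ.X0 + C.cfT u) : F))

/-- the trial state for the block state `Φ` -/
def TG (P : TPack C M R G) (σ : Sl C) (g : ℝ) (Φ : Cfg N → F →L[ℂ] F) (χ : Pos p → C.Fx M G) :
    Cfg N → F :=
  ext R (C.cf σ.X0) σ.r fun u => (((σ.j u)⁻¹ : ℝ) : ℂ) • tauG P σ g Φ χ u



/-- a covariant smooth block state supported in the ball of radius `ρ` -/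
structure IsBlk (P : TPack C M R G) (Φ : Cfg N → F →L[ℂ] F) (ρ : ℝ) : Prop where
  smooth : ContDiff ℝ ∞ Φ
  supp : ∀ Y ∈ C.Blk, ρ ≤ ‖Y‖ → Φ Y = 0
  mem : ∀ Y ∈ C.Blk, ∀ f ∈ C.Fx M G, Φ Y f ∈ C.Fl M G
  cov : ∀ (h : Matrix.specialUnitaryGroup (Fin N) ℂ) (X X' : Pos p), C.Reg X → C.Reg X' →
    b.act h (C.cf X) = C.cf X' → ∀ Y ∈ C.Blk, ∀ f ∈ C.Fx M G,
      R.ρ h f ∈ C.Fx M G ∧ R.ρ h (Φ Y f) = Φ (b.act h Y) (R.ρ h f)

theorem isBlk_Psi (P : TPack C M R G) : ∀ᶠ g in atTop, IsBlk P (P.Psi g) (P.s g) := by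
  filter_upwards [P.Psi_smooth] with g hg
  exact ⟨hg, P.Psi_supp g, P.Psi_mem g, fun h X X' hX hX' he Y hY f hf =>
    P.Psi_cov h X X' hX hX' he g Y hY f hf⟩

theorem isBlk_scale {P : TPack C M R G} {Φ : Cfg N → F →L[ℂ] F} {ρ : ℝ} (H : IsBlk P Φ ρ)
    (k : ℂ) {l : ℝ} (hl : 0 < l) : IsBlk P (fun Y => k • Φ (l • Y)) (ρ / l) where
  smooth := (H.smooth.comp (contDiff_const_smul l)).const_smul k
  supp Y hY hn := by
    rw [H.supp (l • Y) (Submodule.smul_mem _ _ hY) (by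
      rw [norm_smul, Real.norm_eq_abs, abs_of_pos hl]
      rw [div_le_iff₀ hl] at hn
      linarith), smul_zero]
  mem Y hY f hf := by
    rw [ContinuousLinearMap.smul_apply]
    exact Submodule.smul_mem _ _ (H.mem _ (Submodule.smul_mem _ _ hY) f hf)
  cov h X X' hX hX' he Y hY f hf := by
    obtain ⟨h1, h2⟩ := H.cov h X X' hX hX' he (l • Y) (Submodule.smul_mem _ _ hY) f hf
    refine ⟨h1, ?_⟩
    rw [ContinuousLinearMap.smul_apply, ContinuousLinearMap.smul_apply, map_smul, h2,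
      SlA314.act_smul]

theorem tauG_sub (P : TPack C M R G) (σ : Sl C) (g : ℝ) (Φ Φ' : Cfg N → F →L[ℂ] F)
    (χ : Pos p → C.Fx M G) (u : Cfg N) :
    tauG P σ g Φ χ u - tauG P σ g Φ' χ u = tauG P σ g (fun Y => Φ Y - Φ' Y) χ u := by
  unfold tauG
  rw [← smul_sub, ← map_sub, ContinuousLinearMap.sub_apply]

end Crest.Agent.R330.TG372
end
end

-- ▼ part R330/TGC_372
section

/-!
# Row 330, S8-ISO (helper372): (T1) for an arbitrary block state

383's proof of (T1) with `P.Psi g` replaced by `Φ`, `IsBlk P Φ ρ`.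
-/

set_option autoImplicit false
set_option linter.unusedSectionVars false

open MeasureTheory Filter Topology Crest.MathPhysics.MatrixQM
open scoped ContDiff InnerProductSpace ENNReal Real

noncomputable section

namespace Crest.Agent.R330.TGC372

open Crest.Agent.R330.Defs478 Crest.Agent.R330.LS839 Crest.Agent.R330.Frame839
  Crest.Agent.R330.Clus839
  Crest.Agent.R330.Bind6839 Crest.Agent.R330.SlG944 Crest.Agent.R330.SlF944
  Crest.Agent.R330.TDef414 Crest.Agent.R330.TG372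
open Crest.Agent.R330.TCore383 (aT cfT_act PK_act PY_act PM_act PY_mem act_cf contDiff_PY
  contDiffAt_pos contDiffAt_aT aT_act cfT_ball norm_le_sum)
open Crest.Agent.R330.SlB314 (Nor Tan br brx)
open Crest.Agent.R330.SlD314 (tube)
open Crest.Agent.R330.SlA314 (act_inner act_norm act_add act_sub)

variable {N p : ℕ} {b : ColorBasis N} {S : Type} [Group S] [Fintype S] {C : Chn b p S}

local notation "SU" => Matrix.specialUnitaryGroup (Fin N) ℂ

variable {F : Type*} [NormedAddCommGroup F] [InnerProductSpace ℂ F] [FiniteDimensional ℂ F]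
  {M : FermionRep N F} {R : GaugeAction b M} {G : GammaNine}

/-- The vector factor of the trial function. -/
def wG (P : TPack C M R G) (σ : Sl C) (Φ : Cfg N → F →L[ℂ] F) (χ : Pos p → C.Fx M G)
    (u : Cfg N) : F :=
  P.U (σ.X0 + C.cfT u) (Φ (C.PY u) (χ (σ.X0 + C.cfT u) : F))

theorem tauG_eq (P : TPack C M R G) (σ : Sl C) (g : ℝ) (Φ : Cfg N → F →L[ℂ] F)
    (χ : Pos p → C.Fx M G) (u : Cfg N) :
    tauG P σ g Φ χ u = ((aT P σ g u : ℝ) : ℂ) • wG P σ Φ χ u := rfl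

theorem contDiffAt_wG' (P : TPack C M R G) (σ : Sl C) {Φ : Cfg N → F →L[ℂ] F}
    (hΨ : ContDiff ℝ ∞ Φ) {χ : Pos p → C.Fx M G} (hχ : ContDiff ℝ ∞ χ) {y : Cfg N}
    (hy : C.BReg (σ.X0 + C.cfT y)) : ContDiffAt ℝ ∞ (wG P σ Φ χ) y := by
  have hX := contDiffAt_pos (C := C) σ y
  have hχ' : ContDiff ℝ ∞ (fun X : Pos p => ((χ X : C.Fx M G) : F)) :=
    (((C.Fx M G).subtypeL).restrictScalars ℝ).contDiff.comp hχ
  have h1 : ContDiffAt ℝ ∞ (fun u : Cfg N => ((χ (σ.X0 + C.cfT u) : C.Fx M G) : F)) y :=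
    hχ'.contDiffAt.comp y hX
  have hR : ContDiff ℝ ∞ (fun L : F →L[ℂ] F => L.restrictScalars ℝ) :=
    (ContinuousLinearMap.restrictScalarsL ℂ F F ℝ ℝ).contDiff
  have h2 : ContDiffAt ℝ ∞ (fun u : Cfg N => (Φ (C.PY u)).restrictScalars ℝ) y :=
    hR.contDiffAt.comp y (hΨ.comp contDiff_PY).contDiffAt
  have h3 : ContDiffAt ℝ ∞ (fun u : Cfg N => (P.U (σ.X0 + C.cfT u)).restrictScalars ℝ) y :=
    hR.contDiffAt.comp y ((P.U_smooth _ hy).comp y hX)
  exact h3.clm_apply (h2.clm_apply h1)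

theorem wG_eventually (P : TPack C M R G) (σ : Sl C) (Φ : Cfg N → F →L[ℂ] F)
    (χ : Pos p → C.Fx M G) {y : Cfg N}
    (hy : σ.X0 + C.cfT y ∉ tsupport χ) : wG P σ Φ χ =ᶠ[𝓝 y] fun _ => 0 := by
  have h1 : ∀ᶠ u in 𝓝 y, σ.X0 + C.cfT u ∉ tsupport χ :=
    (contDiffAt_pos (C := C) σ y).continuousAt.eventually
      ((isClosed_tsupport χ).isOpen_compl.mem_nhds hy)
  filter_upwards [h1] with u hu
  unfold wG
  rw [image_eq_zero_of_notMem_tsupport hu]
  simp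

theorem contDiffAt_wG (P : TPack C M R G) (σ : Sl C) {Φ : Cfg N → F →L[ℂ] F}
    (hΨ : ContDiff ℝ ∞ Φ) (χ : Amp M G σ) (y : Cfg N) : ContDiffAt ℝ ∞ (wG P σ Φ χ.fn) y := by
  by_cases h : σ.X0 + C.cfT y ∈ tsupport χ.fn
  · exact contDiffAt_wG' P σ hΨ χ.smooth (χ.off _ h)
  · exact contDiffAt_const.congr_of_eventuallyEq (wG_eventually P σ Φ χ.fn h)

theorem contDiffAt_tauG (P : TPack C M R G) (σ : Sl C) {g : ℝ} (hg : 0 < g)
    {Φ : Cfg N → F →L[ℂ] F} (hΨ : ContDiff ℝ ∞ Φ) (χ : Amp M G σ) {y : Cfg N}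
    (hy : ‖σ.X0 + C.cfT y - σ.X0‖ < σ.r) : ContDiffAt ℝ ∞ (tauG P σ g Φ χ.fn) y :=
  (Complex.ofRealCLM.contDiff.contDiffAt.comp y (contDiffAt_aT P σ hg hy)).smul
    (contDiffAt_wG P σ hΨ χ y)

theorem wG_act (P : TPack C M R G) (σ : Sl C) {Φ : Cfg N → F →L[ℂ] F} {ρ : ℝ}
    (H : IsBlk P Φ ρ) (χ : Pos p → C.Fx M G) {k : SU}
    (hk : b.act k (C.cf σ.X0) = C.cf σ.X0) {y : Cfg N}
    (hy : χ (σ.X0 + C.cfT y) ≠ 0 → C.BReg (σ.X0 + C.cfT y)) :
    wG P σ Φ χ (b.act k y) = R.ρ k (wG P σ Φ χ y) := by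
  have h0 : C.Reg σ.X0 := σ.reg σ.X0 (by simpa using σ.pos)
  by_cases hχ : χ (σ.X0 + C.cfT y) = 0
  · unfold wG
    rw [cfT_act h0 hk, hχ]
    simp
  have hB : C.BReg (σ.X0 + C.cfT y) := hy hχ
  have hX := act_cf h0 hk (σ.X0 + C.cfT y)
  unfold wG
  rw [cfT_act h0 hk, PY_act h0 hk]
  set f : F := (χ (σ.X0 + C.cfT y) : F) with hf
  have hfm : f ∈ C.Fx M G := (χ (σ.X0 + C.cfT y)).2
  have h1 := (H.cov k _ _ hB.reg hB.reg hX (C.PY y) (PY_mem y) f hfm).2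
  rw [P.stab_fix k _ hB.reg hX f hfm] at h1
  rw [← h1]
  exact ((P.U_cov k _ _ hB hB hX _ (H.mem _ (PY_mem y) f hfm)).2).symm

theorem tauG_act (P : TPack C M R G) (σ : Sl C) (g : ℝ) {Φ : Cfg N → F →L[ℂ] F} {ρ : ℝ}
    (H : IsBlk P Φ ρ) (χ : Amp M G σ) {k : SU}
    (hk : b.act k (C.cf σ.X0) = C.cf σ.X0) {y : Cfg N} (hy : ‖σ.X0 + C.cfT y - σ.X0‖ < σ.r) :
    tauG P σ g Φ χ.fn (b.act k y) = R.ρ k (tauG P σ g Φ χ.fn y) := by
  rw [tauG_eq, tauG_eq, aT_act P σ g hk hy,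
    wG_act P σ H χ.fn hk fun h => χ.off _ (subset_tsupport _ h), map_smul]

/-- the slice function -/
def fG (P : TPack C M R G) (σ : Sl C) (g : ℝ) (Φ : Cfg N → F →L[ℂ] F) (χ : Pos p → C.Fx M G)
    (u : Cfg N) : F :=
  (((σ.j u)⁻¹ : ℝ) : ℂ) • tauG P σ g Φ χ u

theorem TG_eq (P : TPack C M R G) (σ : Sl C) (g : ℝ) (Φ : Cfg N → F →L[ℂ] F)
    (χ : Pos p → C.Fx M G) : TG P σ g Φ χ = ext R (C.cf σ.X0) σ.r (fG P σ g Φ χ) := rfl

/-- **slice covariance** -/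
theorem sliceFunG (P : TPack C M R G) (σ : Sl C) (g : ℝ) {Φ : Cfg N → F →L[ℂ] F} {ρ : ℝ}
    (H : IsBlk P Φ ρ) (χ : Amp M G σ) :
    IsSliceFun R (C.cf σ.X0) σ.r (fG P σ g Φ χ.fn) := by
  intro k y hk hy hr
  unfold fG
  rw [σ.inv k hk y hy hr, tauG_act P σ g H χ hk (cfT_ball σ hr), map_smul]


theorem TG_slice (P : TPack C M R G) (σ : Sl C) (g : ℝ) {Φ : Cfg N → F →L[ℂ] F} {ρ : ℝ}
    (H : IsBlk P Φ ρ) (χ : Amp M G σ)
    {y : Cfg N} (hy : y ∈ Nor b (C.cf σ.X0)) (hr : ‖y‖ < σ.r) :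
    TG P σ g Φ χ.fn (C.cf σ.X0 + y) = (((σ.j y)⁻¹ : ℝ) : ℂ) • tauG P σ g Φ χ.fn y :=
  ext_slice R σ.good (sliceFunG P σ g H χ) hy hr

theorem TG_off (P : TPack C M R G) (σ : Sl C) (g : ℝ) (Φ : Cfg N → F →L[ℂ] F)
    (χ : Pos p → C.Fx M G) {x : Cfg N}
    (hx : x ∉ tube b (C.cf σ.X0) σ.r) : TG P σ g Φ χ x = 0 := ext_off R _ hx

theorem TG_act (P : TPack C M R G) (σ : Sl C) (g : ℝ) {Φ : Cfg N → F →L[ℂ] F} {ρ : ℝ}
    (H : IsBlk P Φ ρ) (χ : Amp M G σ) (h : SU)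
    (x : Cfg N) : TG P σ g Φ χ.fn (b.act h x) = R.ρ h (TG P σ g Φ χ.fn x) :=
  ext_equivariant R σ.good (sliceFunG P σ g H χ) h x

/-- supports -/
theorem tauG_ne (P : TPack C M R G) (σ : Sl C) (g : ℝ) {Φ : Cfg N → F →L[ℂ] F} {ρ : ℝ}
    (H : IsBlk P Φ ρ) (χ : Amp M G σ) {y : Cfg N}
    (h : tauG P σ g Φ χ.fn y ≠ 0) : σ.X0 + C.cfT y ∈ tsupport χ.fn ∧ ‖C.cfT y‖ < σ.r / 4 ∧
      ‖C.PY y‖ < ρ ∧ ‖C.PM y‖ < σ.r / 4 := by
  have h1 : χ.fn (σ.X0 + C.cfT y) ≠ 0 := by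
    intro h0
    apply h
    rw [tauG_eq]
    unfold wG
    rw [h0]
    simp
  have h2 := subset_tsupport _ h1
  refine ⟨h2, ?_, ?_, ?_⟩
  · have h3 := χ.supp h2
    rw [Metric.mem_ball, dist_eq_norm, add_sub_cancel_left] at h3
    exact h3
  · by_contra h3
    apply h
    rw [tauG_eq]
    unfold wG
    rw [H.supp _ (PY_mem y) (not_lt.1 h3)]
    simp
  · by_contra h3
    apply h
    rw [tauG_eq]
    unfold aT
    rw [kap_zero σ.pos (by
      have h4 := not_lt.1 h3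
      have h5 := σ.pos
      nlinarith [norm_nonneg (C.PM y)])]
    simp

/-- **(T1) for an arbitrary block state** -/
theorem coreG [Nontrivial F] (P : TPack C M R G) (σ : Sl C) {g : ℝ} (hg : 0 < g)
    {Φ : Cfg N → F →L[ℂ] F} {ρ : ℝ} (H : IsBlk P Φ ρ) (hρ : ρ ≤ σ.r / 4) (χ : Amp M G σ) :
    IsCoreVec b R (TG P σ g Φ χ.fn) := by
  rw [TG_eq]
  have hr' : 3 * σ.r / 4 < σ.r := by have := σ.pos; linarith
  refine ext_core' R σ.good (sliceFunG P σ g H χ) (fun y hy hr => ?_) hr' fun y hy h1 h2 => ?_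
  · have h3 := contDiffAt_tauG P σ hg H.smooth χ (cfT_ball σ hr)
    have h4 := (σ.smooth y hy hr).inv (σ.jpos y hy hr).ne'
    exact (Complex.ofRealCLM.contDiff.contDiffAt.comp y h4).smul h3
  · by_contra h3
    have h4 : tauG P σ g Φ χ.fn y ≠ 0 := by
      intro h5
      apply h3
      unfold fG
      rw [h5, smul_zero]
    obtain ⟨-, h5, h6, h7⟩ := tauG_ne P σ g H χ h4
    have h8 := norm_le_sum (C := C) y
    linarith

end Crest.Agent.R330.TGC372
end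
end

-- ▼ part R330/Gram4_372
section

/-!
# Row 330, S8-ISO (helper372): scaling of the trial functions with a fixed profile

`Psc P g0 g` = the block state `P.Psi g0` rescaled to the coupling `g`; `tauG P σ g (Psc P g0 g) χ`
and `TG P σ g (Psc P g0 g) χ` on the slice are `bare` functions.
-/

set_option autoImplicit false
set_option linter.unusedSectionVars false

open MeasureTheory Filter Topology Crest.MathPhysics.MatrixQM
open scoped ContDiff InnerProductSpace ENNReal Real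

noncomputable section

namespace Crest.Agent.R330.Gram4372

open Crest.Agent.R330.Defs478 Crest.Agent.R330.LS839 Crest.Agent.R330.Frame839
  Crest.Agent.R330.Clus839
  Crest.Agent.R330.Bind6839 Crest.Agent.R330.SlG944 Crest.Agent.R330.SlF944
  Crest.Agent.R330.TDef414 Crest.Agent.R330.TG372 Crest.Agent.R330.TGC372
open Crest.Agent.R330.TCore383 (aT cfT_act PK_act PY_act PM_act PY_mem act_cf contDiff_PY
  contDiffAt_pos contDiffAt_aT aT_act cfT_ball norm_le_sum nI_eq nI_pos contDiffAt_nI nrm_pos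
  contDiffAt_nrm dt_pos)
open Crest.Agent.R330.SlB314 (Nor Tan br brx)
open Crest.Agent.R330.SlD314 (tube)
open Crest.Agent.R330.SlA314 (act_inner act_norm act_add act_sub)

variable {N p : ℕ} {b : ColorBasis N} {S : Type} [Group S] [Fintype S] {C : Chn b p S}

local notation "SU" => Matrix.specialUnitaryGroup (Fin N) ℂ

variable {F : Type*} [NormedAddCommGroup F] [InnerProductSpace ℂ F] [FiniteDimensional ℂ F]
  {M : FermionRep N F} {R : GaugeAction b M} {G : GammaNine}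

/-- ratio of the densities of two charts -/
def rr (P : TPack C M R G) (σ σ' : Sl C) (X : Pos p) : ℝ :=
  Real.sqrt (σ.j (C.cf (X - σ.X0)) * nI P σ 1 X / (σ'.j (C.cf (X - σ'.X0)) * nI P σ' 1 X))

/-- the block state at coupling `g0` rescaled to the coupling `g` -/
def Psc (P : TPack C M R G) (g0 g : ℝ) (Y : Cfg N) : F →L[ℂ] F :=
  (((g / g0) ^ ((Module.finrank ℝ C.Blk : ℝ) / 6) : ℝ) : ℂ) •
    P.Psi g0 (((g / g0) ^ ((1 : ℝ) / 3)) • Y)

theorem isBlk_Psc {P : TPack C M R G} {g0 g ρ : ℝ} (h0 : 0 < g0) (hg : 0 < g)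
    (H : IsBlk P (P.Psi g0) ρ) : IsBlk P (Psc P g0 g) (ρ / ((g / g0) ^ ((1 : ℝ) / 3))) :=
  isBlk_scale H _ (Real.rpow_pos_of_pos (div_pos hg h0) _)

/-! ## scaling -/

theorem nI_scale (P : TPack C M R G) (σ : Sl C) {g : ℝ} (hg : 0 < g) {X : Pos p}
    (hr : ‖X - σ.X0‖ < σ.r) :
    nI P σ g X = g ^ (-((Module.finrank ℝ (C.Zt σ.X0) : ℝ) / 2)) * nI P σ 1 X := by
  rw [nI_eq P σ hg hr, nI_eq P σ one_pos hr, div_one, Real.div_rpow Real.pi_pos.le hg.le,
    Real.rpow_neg hg.le]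
  ring

theorem nrm_scale (P : TPack C M R G) (σ : Sl C) {g : ℝ} (hg : 0 < g) {X : Pos p}
    (hr : ‖X - σ.X0‖ < σ.r) :
    nrm P σ g X = g ^ ((Module.finrank ℝ (C.Zt σ.X0) : ℝ) / 4) * nrm P σ 1 X := by
  unfold nrm
  rw [nI_scale P σ hg hr]
  set d : ℝ := (Module.finrank ℝ (C.Zt σ.X0) : ℝ) with hd
  have h1 : σ.j (C.cf (X - σ.X0)) / (g ^ (-(d / 2)) * nI P σ 1 X) =
      g ^ (d / 2) * (σ.j (C.cf (X - σ.X0)) / nI P σ 1 X) := by
    rw [Real.rpow_neg hg.le]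
    have : g ^ (d / 2) ≠ 0 := (Real.rpow_pos_of_pos hg _).ne'
    have h2 := (nI_pos P σ one_pos hr).ne'
    field_simp
  have h3 : Real.sqrt (g ^ (d / 2)) = g ^ (d / 4) := by
    rw [Real.sqrt_eq_rpow, ← Real.rpow_mul hg.le]
    congr 1
    ring
  rw [h1, Real.sqrt_mul (Real.rpow_nonneg hg.le _), h3]

/-- coupling bounded below by one -/
def gp (g : ℝ) : ℝ := max g 1

theorem gp_pos (g : ℝ) : 0 < gp g := lt_of_lt_of_le one_pos (le_max_right _ _)

theorem gp_eq {g : ℝ} (h : 1 ≤ g) : gp g = g := max_eq_left h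

theorem tendsto_gp : Tendsto gp atTop atTop :=
  tendsto_atTop_mono (fun g => le_max_left g 1) tendsto_id

/-- amplitude -/
def aa (dY dZ : ℕ) (g0 g : ℝ) : ℝ := (gp g / g0) ^ ((dY : ℝ) / 6) * (gp g) ^ ((dZ : ℝ) / 4)

/-- scale of the blocks -/
def ss (g0 g : ℝ) : ℝ := (gp g / g0) ^ (-((1 : ℝ) / 3))

/-- scale of the transverse directions -/
def tt (g : ℝ) : ℝ := (gp g) ^ (-((1 : ℝ) / 2))

theorem aa_pos (dY dZ : ℕ) {g0 : ℝ} (h0 : 0 < g0) (g : ℝ) : 0 < aa dY dZ g0 g :=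
  mul_pos (Real.rpow_pos_of_pos (div_pos (gp_pos g) h0) _) (Real.rpow_pos_of_pos (gp_pos g) _)

theorem ss_pos {g0 : ℝ} (h0 : 0 < g0) (g : ℝ) : 0 < ss g0 g :=
  Real.rpow_pos_of_pos (div_pos (gp_pos g) h0) _

theorem tt_pos (g : ℝ) : 0 < tt g := Real.rpow_pos_of_pos (gp_pos g) _

theorem ss_inv {g0 : ℝ} (h0 : 0 < g0) (g : ℝ) : (ss g0 g)⁻¹ = (gp g / g0) ^ ((1 : ℝ) / 3) := by
  unfold ss
  rw [Real.rpow_neg (div_pos (gp_pos g) h0).le, inv_inv]

theorem tt_inv_mul (g : ℝ) : (tt g)⁻¹ * (tt g)⁻¹ = gp g := by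
  unfold tt
  rw [Real.rpow_neg (gp_pos g).le, inv_inv, ← Real.rpow_add (gp_pos g)]
  norm_num

theorem tendsto_ss {g0 : ℝ} (h0 : 0 < g0) : Tendsto (ss g0) atTop (𝓝 0) :=
  (tendsto_rpow_neg_atTop (by norm_num : (0 : ℝ) < 1 / 3)).comp (tendsto_gp.atTop_div_const h0)

theorem tendsto_tt : Tendsto tt atTop (𝓝 0) :=
  (tendsto_rpow_neg_atTop (by norm_num : (0 : ℝ) < 1 / 2)).comp tendsto_gp

theorem tendsto_ratio {g0 : ℝ} (h0 : 0 < g0) :
    Tendsto (fun g => (ss g0 g)⁻¹ * tt g) atTop (𝓝 0) := by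
  have h1 : ∀ g, (ss g0 g)⁻¹ * tt g = g0 ^ (-((1 : ℝ) / 3)) * (gp g) ^ (-((1 : ℝ) / 6)) := by
    intro g
    rw [ss_inv h0]
    unfold tt
    rw [Real.div_rpow (gp_pos g).le h0.le, Real.rpow_neg h0.le (1 / 3), div_mul_eq_mul_div,
      ← Real.rpow_add (gp_pos g), div_eq_mul_inv, mul_comm]
    norm_num
  simp only [h1]
  have h2 := ((tendsto_rpow_neg_atTop (by norm_num : (0 : ℝ) < 1 / 6)).comp tendsto_gp).const_mul
    (g0 ^ (-((1 : ℝ) / 3)))
  rw [mul_zero] at h2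
  exact h2

theorem aa_sq (dY dZ : ℕ) {g0 : ℝ} (h0 : 0 < g0) (g : ℝ) :
    aa dY dZ g0 g ^ 2 * (ss g0 g ^ dY * tt g ^ dZ) = 1 := by
  have hG := gp_pos g
  have hq := div_pos hG h0
  have e1 : ss g0 g ^ dY = (gp g / g0) ^ (-((dY : ℝ) / 3)) := by
    unfold ss
    rw [← Real.rpow_natCast, ← Real.rpow_mul hq.le]
    congr 1
    ring
  have e2 : tt g ^ dZ = (gp g) ^ (-((dZ : ℝ) / 2)) := by
    unfold tt
    rw [← Real.rpow_natCast, ← Real.rpow_mul hG.le]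
    congr 1
    ring
  have e3 : aa dY dZ g0 g ^ 2 = (gp g / g0) ^ ((dY : ℝ) / 3) * (gp g) ^ ((dZ : ℝ) / 2) := by
    unfold aa
    rw [mul_pow, ← Real.rpow_natCast, ← Real.rpow_natCast, ← Real.rpow_mul hq.le,
      ← Real.rpow_mul hG.le]
    congr 2 <;> push_cast <;> ring
  rw [e1, e2, e3, Real.rpow_neg hq.le, Real.rpow_neg hG.le]
  have h1 : (gp g / g0) ^ ((dY : ℝ) / 3) ≠ 0 := (Real.rpow_pos_of_pos hq _).ne'
  have h2 : (gp g) ^ ((dZ : ℝ) / 2) ≠ 0 := (Real.rpow_pos_of_pos hG _).ne'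
  field_simp

/-! ## the slice functions are bare functions -/

/-- scalar factor -/
def A0 (P : TPack C M R G) (σ : Sl C) (u : Cfg N) : ℝ :=
  nrm P σ 1 (σ.X0 + C.cfT u) * kap σ.r (‖C.PM u‖ ^ 2)

/-- scalar factor of the function itself -/
def A1 (P : TPack C M R G) (σ : Sl C) (u : Cfg N) : ℝ := (σ.j u)⁻¹ * A0 P σ u

/-- exponent -/
def Qf (P : TPack C M R G) (x z : Cfg N) : ℝ := ⟪P.A (C.cfT x) z, z⟫_ℝ

/-- vector factor -/
def wf (P : TPack C M R G) (Ψ : Cfg N → F →L[ℂ] F) (χ : Pos p → C.Fx M G) (x Y : Cfg N) : F :=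
  P.U (C.cfT x) (Ψ Y (χ (C.cfT x) : F))

theorem tauG_bare (P : TPack C M R G) (σ : Sl C) {g0 g : ℝ} (h0 : 0 < g0) (hg : 1 ≤ g)
    (χ : Pos p → C.Fx M G) {u : Cfg N} (hu : ‖u‖ < σ.r) :
    tauG P σ g (Psc P g0 g) χ u =
      Gram372.bare (splitC C) (C.cf σ.X0)
        (aa (Module.finrank ℝ C.Blk) (Module.finrank ℝ (C.Zt σ.X0)) g0 g) (ss g0 g) (tt g)
        (A0 P σ) (Qf P) (wf P (P.Psi g0) χ) u := by
  have hX := cfT_ball (C := C) σ hu
  have hg' : 0 < g := by linarith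
  unfold tauG Gram372.bare Psc wf Qf A0
  rw [splitC_PX, splitC_PM, splitC_PY, map_add, C.cfT_cf, C.cfT_cf, nrm_scale P σ hg' hX,
    ss_inv h0, gp_eq hg, map_smul, inner_smul_left, inner_smul_right]
  have h1 : ∀ q : ℝ, (starRingEnd ℝ) (tt g)⁻¹ * ((tt g)⁻¹ * q) = g * q := by
    intro q
    have h3 := tt_inv_mul g
    rw [gp_eq hg] at h3
    rw [conj_trivial, ← mul_assoc, h3]
  rw [h1, smul_apply, map_smul, smul_smul]
  unfold aa
  rw [gp_eq hg]
  congr 1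
  have h2 : -(g / 2 * ⟪P.A (σ.X0 + C.cfT u) (C.PM u), C.PM u⟫_ℝ) =
      -(g * ⟪P.A (σ.X0 + C.cfT u) (C.PM u), C.PM u⟫_ℝ) / 2 := by ring
  rw [h2]
  push_cast
  ring

theorem TG_bare (P : TPack C M R G) (σ : Sl C) {g0 g ρ : ℝ} (h0 : 0 < g0) (hg : 1 ≤ g)
    (H : IsBlk P (P.Psi g0) ρ) (χ : Amp M G σ) {u : Cfg N} (hu : u ∈ Nor b (C.cf σ.X0))
    (hr : ‖u‖ < σ.r) :
    TG P σ g (Psc P g0 g) χ.fn (C.cf σ.X0 + u) =
      Gram372.bare (splitC C) (C.cf σ.X0)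
        (aa (Module.finrank ℝ C.Blk) (Module.finrank ℝ (C.Zt σ.X0)) g0 g) (ss g0 g) (tt g)
        (A1 P σ) (Qf P) (wf P (P.Psi g0) χ.fn) u := by
  rw [TG_slice P σ g (isBlk_Psc h0 (by linarith) H) χ hu hr, tauG_bare P σ h0 hg χ.fn hr]
  unfold Gram372.bare A1
  rw [smul_smul]
  congr 1
  push_cast
  ring

end Crest.Agent.R330.Gram4372
end
end

-- ▼ part R330/Gram5_372
section

/-!
# Row 330, S8-ISO (helper372): the Gram limit of two charts for a fixed profile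
-/

set_option autoImplicit false
set_option linter.unusedSectionVars false

open MeasureTheory Filter Topology Crest.MathPhysics.MatrixQM
open scoped ContDiff InnerProductSpace ENNReal Real

noncomputable section

namespace Crest.Agent.R330.Gram5372

open Crest.Agent.R330.Defs478 Crest.Agent.R330.LS839 Crest.Agent.R330.Frame839
  Crest.Agent.R330.Clus839
  Crest.Agent.R330.Bind6839 Crest.Agent.R330.SlG944 Crest.Agent.R330.SlF944
  Crest.Agent.R330.TDef414 Crest.Agent.R330.TG372 Crest.Agent.R330.TGC372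
  Crest.Agent.R330.Gram4372 Crest.Agent.R330.LitA974
open Crest.Agent.R330.TCore383 (aT cfT_act PK_act PY_act PM_act act_cf contDiff_PY
  contDiffAt_pos contDiffAt_aT aT_act cfT_ball norm_le_sum nI_eq nI_pos contDiffAt_nI nrm_pos
  contDiffAt_nrm dt_pos)
open Crest.Agent.R330.SlB314 (Nor Tan br brx)
open Crest.Agent.R330.SlD314 (tube)
open Crest.Agent.R330.SlA314 (act_inner act_norm act_add act_sub)

variable {N p : ℕ} {b : ColorBasis N} {S : Type} [Group S] [Fintype S] {C : Chn b p S}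

local notation "SU" => Matrix.specialUnitaryGroup (Fin N) ℂ

variable {F : Type*} [NormedAddCommGroup F] [InnerProductSpace ℂ F] [FiniteDimensional ℂ F]
  {M : FermionRep N F} {R : GaugeAction b M} {G : GammaNine}

theorem reg0 (σ : Sl C) : C.Reg σ.X0 := σ.reg σ.X0 (by simpa using σ.pos)

/-! ## bounds -/

theorem U_norm (P : TPack C M R G) {X : Pos p} (hX : C.BReg X) {f : F} (hf : f ∈ C.Fl M G) :
    ‖P.U X f‖ = ‖f‖ := by
  have h := P.U_inner X hX f hf f hf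
  rw [inner_self_eq_norm_sq_to_K, inner_self_eq_norm_sq_to_K] at h
  have h1 : ‖P.U X f‖ ^ 2 = ‖f‖ ^ 2 := by exact_mod_cast h
  exact (sq_eq_sq₀ (norm_nonneg _) (norm_nonneg _)).1 h1

theorem exists_nrm_bound (P : TPack C M R G) (σ : Sl C) {K : Set (Pos p)} (hK : IsCompact K)
    (hKr : ∀ X ∈ K, ‖X - σ.X0‖ < σ.r) : ∃ n1 : ℝ, 0 ≤ n1 ∧ ∀ X ∈ K, |nrm P σ 1 X| ≤ n1 := by
  have hc : ContinuousOn (nrm P σ 1) K := fun X hX =>
    (contDiffAt_nrm P σ one_pos (hKr X hX)).continuousAt.continuousWithinAt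
  obtain ⟨n1, h⟩ := hK.exists_bound_of_continuousOn hc
  exact ⟨max n1 0, le_max_right _ _, fun X hX => (h X hX).trans (le_max_left _ _)⟩

theorem supp_ball {σ : Sl C} (χ : Amp M G σ) {X : Pos p} (hX : X ∈ tsupport χ.fn) :
    ‖X - σ.X0‖ < σ.r / 4 := by
  have h := χ.supp hX
  rwa [Metric.mem_ball, dist_eq_norm] at h

theorem exists_Psi_bound {P : TPack C M R G} {Φ : Cfg N → F →L[ℂ] F} {ρ : ℝ}
    (H : IsBlk P Φ ρ) : ∃ P0 : ℝ, 0 ≤ P0 ∧ ∀ Y ∈ C.Blk, ‖Φ Y‖ ≤ P0 := by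
  obtain ⟨P0, h⟩ := (isCompact_closedBall (0 : Cfg N) ρ).exists_bound_of_continuousOn
    H.smooth.continuous.continuousOn
  refine ⟨max P0 0, le_max_right _ _, fun Y hY => ?_⟩
  by_cases hn : ρ ≤ ‖Y‖
  · rw [H.supp Y hY hn, norm_zero]
    exact le_max_right _ _
  · exact (h Y (by rw [mem_closedBall_zero_iff]; linarith [not_le.1 hn])).trans (le_max_left _ _)

theorem exists_amp_bound {σ : Sl C} (χ : Amp M G σ) : ∃ c0 : ℝ, 0 ≤ c0 ∧ ∀ X, ‖χ.fn X‖ ≤ c0 := by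
  obtain ⟨c0, h⟩ := χ.compact.exists_bound_of_continuous χ.smooth.continuous
  exact ⟨max c0 0, le_max_right _ _, fun X => (h X).trans (le_max_left _ _)⟩

theorem wf_norm {P : TPack C M R G} {Φ : Cfg N → F →L[ℂ] F} {ρ P0 c0 : ℝ} (H : IsBlk P Φ ρ)
    (hP0 : 0 ≤ P0) (hP : ∀ Y ∈ C.Blk, ‖Φ Y‖ ≤ P0) {σ : Sl C} (χ : Amp M G σ)
    (hc : ∀ X, ‖χ.fn X‖ ≤ c0) (x : Cfg N) {Y : Cfg N} (hY : Y ∈ C.Blk) :
    ‖wf P Φ χ.fn x Y‖ ≤ P0 * c0 := by
  have hc0 : 0 ≤ c0 := (norm_nonneg _).trans (hc 0)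
  unfold wf
  by_cases h0 : χ.fn (C.cfT x) = 0
  · rw [h0]
    simp only [ZeroMemClass.coe_zero, map_zero, norm_zero]
    positivity
  · have hB : C.BReg (C.cfT x) := χ.off _ (subset_tsupport _ h0)
    rw [U_norm P hB (H.mem Y hY _ (χ.fn (C.cfT x)).2)]
    refine (ContinuousLinearMap.le_opNorm _ _).trans ?_
    exact mul_le_mul (hP Y hY) (hc _) (norm_nonneg _) hP0

/-! ## continuity on the slice -/

theorem continuous_tauG (P : TPack C M R G) (σ : Sl C) {g : ℝ} (hg : 0 < g)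
    {Φ : Cfg N → F →L[ℂ] F} (hΦ : ContDiff ℝ ∞ Φ) (χ : Amp M G σ) :
    Continuous (tauG P σ g Φ χ.fn) := by
  rw [continuous_iff_continuousAt]
  intro y
  by_cases h : ‖σ.X0 + C.cfT y - σ.X0‖ < σ.r
  · exact (contDiffAt_tauG P σ hg hΦ χ h).continuousAt
  · have h1 : σ.X0 + C.cfT y ∉ tsupport χ.fn := fun h2 => h (by
      have := supp_ball χ h2
      have := σ.pos
      linarith)
    have h2 := wG_eventually P σ Φ χ.fn h1
    have h3 : tauG P σ g Φ χ.fn =ᶠ[𝓝 y] fun _ => 0 := by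
      filter_upwards [h2] with u hu
      rw [tauG_eq, hu, smul_zero]
    exact continuousAt_const.congr h3.symm

/-! ## the transverse dimensions agree -/

theorem finrank_Zt {X0 X1 : Pos p} (h0 : C.Reg X0) (h1 : C.Reg X1) :
    Module.finrank ℝ (C.Zt X0) = Module.finrank ℝ (C.Zt X1) := by
  have key : ∀ X : Pos p, C.Reg X → Module.finrank ℝ (C.Zt X) + Module.finrank ℝ (Colg N) +
      Module.finrank ℝ (Tup C.kk) =
      Module.finrank ℝ (Cfg N) + Module.finrank ℝ C.kk := by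
    intro X hX
    have e1 : Module.finrank ℝ (Nor b (C.cf X)) =
        Module.finrank ℝ (Tup C.kk) + Module.finrank ℝ (C.Zt X) := by
      have hs := split_slice C hX
      have h2 : (Tup C.kk) ⊓ (C.Zt X) = ⊥ := by
        rw [eq_bot_iff]
        rintro x ⟨hx1, hx2⟩
        have := inner_Tup C hx1 hx2.1
        rw [Submodule.mem_bot]
        exact inner_self_eq_zero.1 this
      have h3 : (Tup C.kk) ⊔ (C.Zt X) = Nor b (C.cf X) := by
        apply le_antisymm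
        · exact sup_le (Tup_le_Nor C hX) (fun x hx => hx.2)
        · intro x hx
          have : x = C.PK x + C.PM x := by unfold Chn.PM; abel
          rw [this]
          exact Submodule.add_mem_sup (PK_mem C x) (PM_mem_Zt C hX hx)
      have h4 := Submodule.finrank_sup_add_finrank_inf_eq (Tup C.kk) (C.Zt X)
      rw [h2, h3, finrank_bot, add_zero] at h4
      exact h4
    have e2 : Module.finrank ℝ (Tn (actB b) (C.cf X)) + Module.finrank ℝ (Nor b (C.cf X)) =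
        Module.finrank ℝ (Cfg N) := by
      rw [← Nor_eq]
      exact Submodule.finrank_add_finrank_orthogonal _
    have e3 : Module.finrank ℝ (Tn (actB b) (C.cf X)) + Module.finrank ℝ C.kk =
        Module.finrank ℝ (Colg N) := by
      have h5 := LinearMap.finrank_range_add_finrank_ker (((actB b).flip (C.cf X)).toLinearMap)
      have h6 : LinearMap.ker ((actB b).flip (C.cf X)).toLinearMap = C.kk := hX
      rw [h6] at h5
      exact h5
    omega
  have := key X0 h0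
  have := key X1 h1
  omega

/-! ## eventual smallness of the block radius -/

theorem tendsto_radius {g0 : ℝ} (h0 : 0 < g0) (ρ : ℝ) :
    Tendsto (fun g => ρ / ((g / g0) ^ ((1 : ℝ) / 3))) atTop (𝓝 0) := by
  have h1 : Tendsto (fun g => (g / g0) ^ ((1 : ℝ) / 3)) atTop atTop :=
    (tendsto_rpow_atTop (by norm_num : (0 : ℝ) < 1 / 3)).comp (tendsto_id.atTop_div_const h0)
  exact tendsto_const_nhds.div_atTop h1

/-! ## the pairing on the slice -/

theorem pair_slice [Nontrivial F] (P : TPack C M R G) (σ : Sl C) {g ρ : ℝ} (hg : 0 < g)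
    {Φ : Cfg N → F →L[ℂ] F} (H : IsBlk P Φ ρ) (hρ : ρ ≤ σ.r / 4) (χ : Amp M G σ)
    {φ : Cfg N → F} (hφ : ∀ g x, φ (b.act g x) = R.ρ g (φ x)) (hφc : Continuous φ) :
    ∫ x, ⟪TG P σ g Φ χ.fn x, φ x⟫_ℂ =
      ∫ u : Nor b (C.cf σ.X0), ⟪tauG P σ g Φ χ.fn u, φ (C.cf σ.X0 + u)⟫_ℂ := by
  have ht : IsSliceFun R (C.cf σ.X0) σ.r (tauG P σ g Φ χ.fn) := fun k y hk hy hr =>
    tauG_act P σ g H χ hk (cfT_ball σ hr)
  have h1 := SlInt658.integral_pair σ R hφ hφc.stronglyMeasurable ht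
    (coreG P σ hg H hρ χ).1.continuous.stronglyMeasurable
  have h2 : ∫ x, ⟪TG P σ g Φ χ.fn x, φ x⟫_ℂ =
      (starRingEnd ℂ) (∫ x, ⟪φ x, TG P σ g Φ χ.fn x⟫_ℂ) := by
    rw [← integral_conj]
    exact integral_congr_ae (Eventually.of_forall fun x => (inner_conj_symm _ _).symm)
  have h3 : ∫ x, ⟪φ x, TG P σ g Φ χ.fn x⟫_ℂ = ∫ y in Metric.ball (0 : Nor b (C.cf σ.X0)) σ.r,
      ⟪φ (C.cf σ.X0 + y), tauG P σ g Φ χ.fn y⟫_ℂ := h1
  rw [h2, h3, ← integral_conj]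
  have h4 : ∫ y in Metric.ball (0 : Nor b (C.cf σ.X0)) σ.r,
      (starRingEnd ℂ) ⟪φ (C.cf σ.X0 + y), tauG P σ g Φ χ.fn y⟫_ℂ =
      ∫ y in Metric.ball (0 : Nor b (C.cf σ.X0)) σ.r,
      ⟪tauG P σ g Φ χ.fn y, φ (C.cf σ.X0 + y)⟫_ℂ := by
    refine integral_congr_ae (Eventually.of_forall fun x => inner_conj_symm _ _)
  rw [h4]
  refine setIntegral_eq_integral_of_forall_compl_eq_zero fun y hy => ?_
  have hn : σ.r ≤ ‖(y : Cfg N)‖ := by simpa using hy
  have h5 : tauG P σ g Φ χ.fn y = 0 := by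
    by_contra h6
    obtain ⟨-, h7, h8, h9⟩ := tauG_ne P σ g H χ h6
    have h10 := norm_le_sum (C := C) (y : Cfg N)
    have := σ.pos
    linarith
  rw [h5, inner_zero_left]

/-! ## the Gram limit -/

/-- the limit integrand -/
def Lim (P : TPack C M R G) (σ σ' : Sl C) (Ψ : Cfg N → F →L[ℂ] F) (χ χ' : Pos p → C.Fx M G)
    (v : Cfg N) : ℂ :=
  ((nrm P σ 1 (σ.X0 + C.cfT v) * ((σ'.j (C.cf (σ.X0 + C.cfT v - σ'.X0)))⁻¹ *
    nrm P σ' 1 (σ.X0 + C.cfT v)) *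
    Real.exp (-⟪P.A (σ.X0 + C.cfT v) (C.PM v), C.PM v⟫_ℝ) : ℝ) : ℂ) *
    ⟪Ψ (C.PY v) (χ (σ.X0 + C.cfT v) : F), Ψ (C.PY v) (χ' (σ.X0 + C.cfT v) : F)⟫_ℂ

theorem hcc (X : Pos p) : (splitC C).PX (C.cf X) = C.cf X := by
  rw [splitC_PX, C.cfT_cf]

theorem PM_cf (X : Pos p) : C.PM (C.cf X) = 0 := by
  unfold Chn.PM
  rw [PK_of_mem C (cf_mem_Tup C X), sub_self]

theorem A0_cf (P : TPack C M R G) (σ : Sl C) (X : Pos p) :
    A0 P σ (C.cf X) = nrm P σ 1 (σ.X0 + X) := by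
  unfold A0
  rw [C.cfT_cf, PM_cf, norm_zero, kap_one σ.pos (by rw [zero_pow two_ne_zero]; positivity), mul_one]

theorem PY_fix {Y : Cfg N} (h : (splitC C).PY Y = Y) : Y ∈ C.Blk := by
  rw [← h]
  exact LitA974.PY_mem C Y

theorem gram_TG [Nontrivial F] (P : TPack C M R G) (σ σ' : Sl C) (χ : Amp M G σ)
    (χ' : Amp M G σ') (hs : ∀ X ∈ tsupport χ.fn, ‖X - σ'.X0‖ ≤ σ'.r / 4) {g0 ρ : ℝ} (h0 : 0 < g0)
    (H : IsBlk P (P.Psi g0) ρ)
    (hdet : ∀ s t : ℝ, 0 < s → 0 < t → |LinearMap.det ((splitC C).dilN (hcc σ.X0) s t)| =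
      s ^ Module.finrank ℝ C.Blk * t ^ Module.finrank ℝ (C.Zt σ.X0)) :
    Tendsto (fun g => ∫ x, ⟪TG P σ g (Psc P g0 g) χ.fn x, TG P σ' g (Psc P g0 g) χ'.fn x⟫_ℂ)
      atTop (𝓝 (∫ v : Nor b (C.cf σ.X0), Lim P σ σ' (P.Psi g0) χ.fn χ'.fn v)) := by
  obtain ⟨κ, hκ, hlow⟩ := ALow302.a_low_chart P σ (r' := σ.r / 4) (by have := σ.pos; linarith)
  obtain ⟨n1, hn1, hnb⟩ := exists_nrm_bound P σ χ.compact (fun X hX => by
    have := supp_ball χ hX; have := σ.pos; linarith)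
  obtain ⟨n2, hn2, hnb'⟩ := exists_nrm_bound P σ' χ'.compact (fun X hX => by
    have := supp_ball χ' hX; have := σ'.pos; linarith)
  obtain ⟨P0, hP0, hPb⟩ := exists_Psi_bound H
  obtain ⟨c0, hc0, hcb⟩ := exists_amp_bound χ
  obtain ⟨c1, hc1, hcb'⟩ := exists_amp_bound χ'
  obtain ⟨j0, hj0, hjb⟩ := Rad969.exists_jlow σ'
  have hdZ : Module.finrank ℝ (C.Zt σ'.X0) = Module.finrank ℝ (C.Zt σ.X0) :=
    finrank_Zt (reg0 σ') (reg0 σ)
  set dY := Module.finrank ℝ C.Blk with hdY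
  set dZ := Module.finrank ℝ (C.Zt σ.X0) with hdZ'
  have hrad := tendsto_radius h0 ρ
  have hr1 : ∀ᶠ g in atTop, ρ / ((g / g0) ^ ((1 : ℝ) / 3)) ≤ σ.r / 4 :=
    (hrad.eventually_lt_const (by have := σ.pos; linarith)).mono fun g h => h.le
  have hr2 : ∀ᶠ g in atTop, ρ / ((g / g0) ^ ((1 : ℝ) / 3)) ≤ σ'.r / 4 :=
    (hrad.eventually_lt_const (by have := σ'.pos; linarith)).mono fun g h => h.le
  have hmain := Gram2372.gram_two (F := F) (b := b) R (l := (atTop : Filter ℝ)) (splitC C)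
    (hcc σ.X0) (hcc σ'.X0) (δ := σ.r) (δ' := σ'.r) (ρ := σ.r / 4) (ρ' := σ'.r / 4) (κ := κ)
    (W := P0 * c0) (B' := j0⁻¹ * n2 * (P0 * c1)) (C := n1) (r := ρ) σ'.grad
    (by have := σ.pos; linarith) (by have := σ'.pos; linarith) hκ hn1 (by positivity)
    (by positivity)
    (U := {x | ∃ X, x = C.cf X ∧ C.BReg X ∧ ‖X - σ.X0‖ ≤ σ.r / 4 ∧ ‖X - σ'.X0‖ ≤ σ'.r / 4})
    (s := ss g0) (t := tt) (a := aa dY dZ g0) (ss_pos h0) tt_pos (tendsto_ss h0) tendsto_tt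
    (tendsto_ratio h0) (aa_pos dY dZ h0)
    (fun g => by rw [hdet _ _ (ss_pos h0 g) (tt_pos g)]; exact aa_sq dY dZ h0 g)
    (A := A0 P σ) (A' := A1 P σ') (Q := Qf P) (w := wf P (P.Psi g0) χ.fn)
    (w' := wf P (P.Psi g0) χ'.fn)
    ?hQ ?hQ1 ?hQ2 ?hw' ?hws ?hwb ?hA ?hAb ?hA'
    (τ := fun g => tauG P σ g (Psc P g0 g) χ.fn) (φ' := fun g => TG P σ' g (Psc P g0 g) χ'.fn)
    ?hτ ?hτ0 ?hτm ?hφ ?hφe ?hφm ?hφb
  case hQ =>
    rintro _ ⟨X, rfl, hB, h1, h2⟩ - z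
    unfold Qf
    have hA : ContinuousAt (fun q : Cfg N × Cfg N => P.A (C.cfT q.1)) (C.cf X, z) := by
      have h3 : ContinuousAt P.A (C.cfT (C.cf X, z).1) := by
        simp only [C.cfT_cf]
        exact (P.A_smooth X hB.reg).continuousAt
      exact ContinuousAt.comp (f := fun q : Cfg N × Cfg N => C.cfT q.1) h3
        (C.cfT.continuous.comp continuous_fst).continuousAt
    exact (hA.clm_apply continuousAt_snd).inner continuousAt_snd
  case hQ1 =>
    rintro _ ⟨X, rfl, hB, h1, h2⟩ - z hz hzM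
    unfold Qf
    rw [C.cfT_cf]
    refine hlow X h1 z ?_
    have : C.PM z = z := hzM
    rw [← this]
    exact PM_mem_Zt C (reg0 σ) hz
  case hQ2 =>
    rintro _ ⟨X, rfl, hB, h1, h2⟩ - z om hz
    unfold Qf
    have h3 : P.A X (brx b om (C.cf X)) = 0 := P.A_gauge X hB.reg (WithLp.toLp 2 om)
    rw [C.cfT_cf, map_add, h3, add_zero, inner_add_right]
    have h4 : ⟪P.A X z, brx b om (C.cf X)⟫_ℝ = 0 := by
      rw [P.A_symm, h3, inner_zero_right]
    rw [h4, add_zero]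
  case hw' =>
    rintro _ ⟨X, rfl, hB, h1, h2⟩ - Y
    unfold wf
    have hU : ContinuousAt (fun q : Cfg N × Cfg N => P.U (C.cfT q.1)) (C.cf X, Y) := by
      have h3 : ContinuousAt P.U (C.cfT (C.cf X, Y).1) := by
        simp only [C.cfT_cf]
        exact (P.U_smooth X hB).continuousAt
      exact ContinuousAt.comp (f := fun q : Cfg N × Cfg N => C.cfT q.1) h3
        (C.cfT.continuous.comp continuous_fst).continuousAt
    have hΨ : ContinuousAt (fun q : Cfg N × Cfg N => P.Psi g0 q.2) (C.cf X, Y) :=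
      (H.smooth.continuous.comp continuous_snd).continuousAt
    have hχ : ContinuousAt (fun q : Cfg N × Cfg N => ((χ'.fn (C.cfT q.1) : C.Fx M G) : F))
        (C.cf X, Y) :=
      (continuous_subtype_val.comp (χ'.smooth.continuous.comp
        (C.cfT.continuous.comp continuous_fst))).continuousAt
    exact hU.clm_apply (hΨ.clm_apply hχ)
  case hws =>
    intro x Y hx hY hw
    have hxX : x = C.cf (C.cfT x) := hx.symm
    have h1 : χ.fn (C.cfT x) ≠ 0 := by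
      intro h2
      apply hw
      unfold wf
      rw [h2]
      simp
    have h2 := subset_tsupport _ h1
    refine ⟨⟨C.cfT x, hxX, χ.off _ h2, (supp_ball χ h2).le, hs _ h2⟩, ?_, ?_, ?_⟩
    · rw [hxX, ← map_sub, C.cf.norm_map]
      exact (supp_ball χ h2).le
    · rw [hxX, ← map_sub, C.cf.norm_map]
      exact hs _ h2
    · by_contra h3
      apply hw
      unfold wf
      rw [H.supp Y (PY_fix hY) (not_le.1 h3).le]
      simp
  case hwb =>
    intro x Y hx hY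
    exact wf_norm H hP0 hPb χ hcb x (PY_fix hY)
  case hA =>
    intro u hu _ _ hr
    have h1 : ContinuousAt (A0 P σ) u := by
      unfold A0
      refine ContinuousAt.mul ?_ ?_
      · exact ContinuousAt.comp (f := fun u : Cfg N => σ.X0 + C.cfT u)
          (contDiffAt_nrm P σ one_pos (cfT_ball σ hr)).continuousAt
          (continuous_const.add C.cfT.continuous).continuousAt
      · exact ((contDiff_kap σ.r).continuous.comp
          ((continuous_PM C).norm.pow 2)).continuousAt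
    exact h1.continuousWithinAt
  case hAb =>
    rintro u hu hr ⟨Y, hY, hw⟩
    have h1 : χ.fn (σ.X0 + C.cfT u) ≠ 0 := by
      intro h2
      apply hw
      unfold wf
      rw [splitC_PX, map_add, C.cfT_cf, C.cfT_cf, h2]
      simp
    have h2 := hnb _ (subset_tsupport _ h1)
    unfold A0
    rw [abs_mul, abs_of_nonneg (kap_nonneg _ _)]
    calc |nrm P σ 1 (σ.X0 + C.cfT u)| * kap σ.r (‖C.PM u‖ ^ 2) ≤ n1 * 1 :=
          mul_le_mul h2 (kap_le_one _ _) (kap_nonneg _ _) hn1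
      _ = n1 := mul_one _
  case hA' =>
    intro u hu _ _ hr
    have h1 : ContinuousAt (A1 P σ') u := by
      unfold A1 A0
      refine ContinuousAt.mul ?_ (ContinuousAt.mul ?_ ?_)
      · exact (σ'.smooth u hu hr).continuousAt.inv₀ (σ'.jpos u hu hr).ne'
      · exact ContinuousAt.comp (f := fun u : Cfg N => σ'.X0 + C.cfT u)
          (contDiffAt_nrm P σ' one_pos (cfT_ball σ' hr)).continuousAt
          (continuous_const.add C.cfT.continuous).continuousAt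
      · exact ((contDiff_kap σ'.r).continuous.comp
          ((continuous_PM C).norm.pow 2)).continuousAt
    exact h1.continuousWithinAt
  case hτ =>
    filter_upwards [eventually_ge_atTop 1] with g hg u hu hr
    exact tauG_bare P σ h0 hg χ.fn hr
  case hτ0 =>
    filter_upwards [eventually_ge_atTop 1, hr1] with g hg hρ u hu hr
    by_contra h6
    obtain ⟨-, h7, h8, h9⟩ := tauG_ne P σ g (isBlk_Psc h0 (by linarith) H) χ h6
    have h10 := norm_le_sum (C := C) (u : Cfg N)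
    have := σ.pos
    linarith
  case hτm =>
    filter_upwards [eventually_ge_atTop 1] with g hg
    exact (continuous_tauG P σ (by linarith) (isBlk_Psc h0 (by linarith) H).smooth χ).comp
      continuous_subtype_val
  case hφ =>
    filter_upwards [eventually_ge_atTop 1] with g hg u hu hr
    rw [TG_bare P σ' h0 hg H χ' hu hr, hdZ]
  case hφe =>
    filter_upwards [eventually_ge_atTop 1] with g hg h x
    exact TG_act P σ' g (isBlk_Psc h0 (by linarith) H) χ' h x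
  case hφm =>
    filter_upwards [eventually_ge_atTop 1, hr2] with g hg hρ
    exact (coreG P σ' (by linarith) (isBlk_Psc h0 (by linarith) H) hρ χ').1.continuous
  case hφb =>
    filter_upwards [eventually_ge_atTop 1, hr2] with g hg hρ x
    have hI := isBlk_Psc h0 (show 0 < g by linarith) H
    have hpos : 0 ≤ aa dY dZ g0 g * (j0⁻¹ * n2 * (P0 * c1)) := by
      have := aa_pos dY dZ h0 g
      positivity
    by_cases hx : x ∈ tube b (C.cf σ'.X0) σ'.r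
    · obtain ⟨h, y, hy, hr, rfl⟩ := (SlD314.mem_tube_iff b _ _ x).1 hx
      rw [TG_act P σ' g hI χ' h, Cov837.norm_rho, TG_slice P σ' g hI χ' hy hr]
      by_cases ht : tauG P σ' g (Psc P g0 g) χ'.fn y = 0
      · rw [ht, smul_zero, norm_zero]
        exact hpos
      · obtain ⟨h6, h7, h8, h9⟩ := tauG_ne P σ' g hI χ' ht
        have hy2 : ‖y‖ ≤ σ'.r / 2 := norm_nor_lt C ⟨y, hy⟩ σ'.r h7.le (h8.le.trans hρ) h9.le
        have hj := hjb y hy hy2
        have hjp : 0 < σ'.j y := lt_of_lt_of_le hj0 hj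
        rw [norm_smul, Complex.norm_real, Real.norm_eq_abs, abs_of_pos (inv_pos.2 hjp),
          tauG_bare P σ' h0 hg χ'.fn hr, Gram372.bare, norm_smul, Complex.norm_real,
          Real.norm_eq_abs, abs_mul, abs_mul, Real.abs_exp, hdZ, abs_of_pos (aa_pos dY dZ h0 g)]
        have hA0 : |A0 P σ' y| ≤ n2 := by
          unfold A0
          rw [abs_mul, abs_of_nonneg (kap_nonneg _ _)]
          calc |nrm P σ' 1 (σ'.X0 + C.cfT y)| * kap σ'.r (‖C.PM y‖ ^ 2) ≤ n2 * 1 :=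
                mul_le_mul (hnb' _ h6) (kap_le_one _ _) (kap_nonneg _ _) hn2
            _ = n2 := mul_one _
        have hE : Real.exp (-(Qf P (C.cf σ'.X0 + (splitC C).PX y)
            ((tt g)⁻¹ • (splitC C).PM y)) / 2) ≤ 1 := by
          rw [Real.exp_le_one_iff]
          have := P.A_nonneg (C.cfT (C.cf σ'.X0 + (splitC C).PX y)) ((tt g)⁻¹ • (splitC C).PM y)
          unfold Qf
          linarith
        have hW := wf_norm H hP0 hPb χ' hcb' (C.cf σ'.X0 + (splitC C).PX y)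
          (Y := (ss g0 g)⁻¹ • (splitC C).PY y)
          (Submodule.smul_mem _ _ (by rw [splitC_PY]; exact LitA974.PY_mem C y))
        have ha := aa_pos dY dZ h0 g
        calc (σ'.j y)⁻¹ * (aa dY dZ g0 g * |A0 P σ' y| *
              Real.exp (-(Qf P (C.cf σ'.X0 + (splitC C).PX y)
                ((tt g)⁻¹ • (splitC C).PM y)) / 2) *
              ‖wf P (P.Psi g0) χ'.fn (C.cf σ'.X0 + (splitC C).PX y)
                ((ss g0 g)⁻¹ • (splitC C).PY y)‖)
            ≤ j0⁻¹ * (aa dY dZ g0 g * n2 * 1 * (P0 * c1)) := by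
              gcongr
          _ = aa dY dZ g0 g * (j0⁻¹ * n2 * (P0 * c1)) := by ring
    · rw [TG_off P σ' g _ _ hx, norm_zero]
      exact hpos
  -- conclusion
  have hlim : (∫ v : Nor b (C.cf σ.X0), ((A0 P σ ((splitC C).PX (v : Cfg N)) *
        A1 P σ' (C.cf σ.X0 + (splitC C).PX (v : Cfg N) - C.cf σ'.X0) *
        Real.exp (-(Qf P (C.cf σ.X0 + (splitC C).PX (v : Cfg N))
          ((splitC C).PM (v : Cfg N)))) : ℝ) : ℂ) *
        ⟪wf P (P.Psi g0) χ.fn (C.cf σ.X0 + (splitC C).PX (v : Cfg N))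
          ((splitC C).PY (v : Cfg N)),
          wf P (P.Psi g0) χ'.fn (C.cf σ.X0 + (splitC C).PX (v : Cfg N))
            ((splitC C).PY (v : Cfg N))⟫_ℂ) =
      ∫ v : Nor b (C.cf σ.X0), Lim P σ σ' (P.Psi g0) χ.fn χ'.fn v := by
    refine integral_congr_ae (Eventually.of_forall fun v => ?_)
    simp only
    have e1 : C.cf σ.X0 + (splitC C).PX (v : Cfg N) = C.cf (σ.X0 + C.cfT (v : Cfg N)) := by
      rw [splitC_PX, map_add]
    have e2 : C.cf σ.X0 + (splitC C).PX (v : Cfg N) - C.cf σ'.X0 =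
        C.cf (σ.X0 + C.cfT (v : Cfg N) - σ'.X0) := by
      rw [e1, ← map_sub]
    rw [e2, e1, splitC_PX, A0_cf, splitC_PM, splitC_PY]
    unfold Lim A1 Qf wf
    rw [A0_cf, C.cfT_cf, add_sub_cancel]
    congr 1
    by_cases h1 : χ.fn (σ.X0 + C.cfT (v : Cfg N)) = 0
    · rw [h1]
      simp
    · have hB := χ.off _ (subset_tsupport _ h1)
      exact P.U_inner _ hB _ (H.mem _ (LitA974.PY_mem C _) _ (χ.fn _).2) _
        (H.mem _ (LitA974.PY_mem C _) _ (χ'.fn _).2)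
  rw [hlim] at hmain
  refine hmain.congr' ?_
  filter_upwards [eventually_ge_atTop 1, hr1, hr2] with g hg hρ1 hρ2
  have hI := isBlk_Psc h0 (show 0 < g by linarith) H
  exact (pair_slice P σ (by linarith) hI hρ1 χ (fun h x => TG_act P σ' g hI χ' h x)
    (coreG P σ' (by linarith) hI hρ2 χ').1.continuous).symm

end Crest.Agent.R330.Gram5372
end
end

-- ▼ part R330/Gram3_893
section

/-!
# Row 330, S8 (helper893): the `ε/3` passage for pairings

`x g`, `x' g` approximated in `L²` by `y k g`, `y' k g` (`k` = index of a fixed profile), pairings of the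
approximants convergent for every `k` ==> the pairing of `x g`, `x' g` converges.
`tendsto_inner` : Hilbert space form; `tendsto_pairing` : integral form.
-/

set_option autoImplicit false
set_option linter.unusedSectionVars false

open MeasureTheory Filter Topology
open scoped InnerProductSpace ENNReal

noncomputable section

namespace Crest.Agent.R330.Gram893

/-- Hilbert space form -/
theorem tendsto_inner {H : Type*} [NormedAddCommGroup H] [InnerProductSpace ℂ H]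
    {ι κ : Type*} {l : Filter ι} {l' : Filter κ} [l'.NeBot] {X X' : ι → H} {Y Y' : κ → ι → H}
    (h : ∀ ε : ℝ, 0 < ε → ∀ᶠ k in l', ∀ᶠ g in l, ‖X g - Y k g‖ ≤ ε)
    (h' : ∀ ε : ℝ, 0 < ε → ∀ᶠ k in l', ∀ᶠ g in l, ‖X' g - Y' k g‖ ≤ ε)
    (hb : ∀ᶠ k in l', ∃ C : ℝ, ∀ᶠ g in l, ‖Y k g‖ ≤ C)
    (hb' : ∀ᶠ k in l', ∃ C : ℝ, ∀ᶠ g in l, ‖Y' k g‖ ≤ C)
    {L : κ → ℂ} (hL : ∀ᶠ k in l', Tendsto (fun g => ⟪Y k g, Y' k g⟫_ℂ) l (𝓝 (L k)))
    {L0 : ℂ} (hL0 : Tendsto L l' (𝓝 L0)) :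
    Tendsto (fun g => ⟪X g, X' g⟫_ℂ) l (𝓝 L0) := by
  -- bounds on `X`, `X'`
  obtain ⟨k₁, h1, ⟨C, hC⟩, h1', ⟨C', hC'⟩⟩ :=
    ((h 1 one_pos).and (hb.and ((h' 1 one_pos).and hb'))).exists
  have hX : ∀ᶠ g in l, ‖X g‖ ≤ 1 + |C| := by
    filter_upwards [h1, hC] with g h2 h3
    have h4 := norm_add_le (X g - Y k₁ g) (Y k₁ g)
    rw [sub_add_cancel] at h4
    linarith [le_abs_self C]
  have hX' : ∀ᶠ g in l, ‖X' g‖ ≤ 1 + |C'| := by
    filter_upwards [h1', hC'] with g h2 h3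
    have h4 := norm_add_le (X' g - Y' k₁ g) (Y' k₁ g)
    rw [sub_add_cancel] at h4
    linarith [le_abs_self C']
  rw [Metric.tendsto_nhds]
  intro ε hε
  set B : ℝ := 3 + |C| + |C'| with hB
  have hB0 : 0 < B := by positivity
  set δ : ℝ := min 1 (ε / (6 * B)) with hδ
  have hδ0 : 0 < δ := by positivity
  have hδ1 : δ ≤ 1 := min_le_left _ _
  have hδ2 : δ * B ≤ ε / 6 := by
    have h5 : δ ≤ ε / (6 * B) := min_le_right _ _
    calc δ * B ≤ ε / (6 * B) * B := by gcongr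
      _ = ε / 6 := by field_simp
  obtain ⟨k, h2, h2', h3, h4⟩ := ((h δ hδ0).and ((h' δ hδ0).and
    (hL.and (hL0.eventually (Metric.ball_mem_nhds L0 (by positivity : 0 < ε / 3)))))).exists
  have h5 := h3.eventually (Metric.ball_mem_nhds (L k) (by positivity : 0 < ε / 3))
  filter_upwards [h2, h2', h5, hX, hX'] with g h6 h6' h7 h8 h8'
  have h4' : dist (L k) L0 < ε / 3 := h4
  have h7' : dist (⟪Y k g, Y' k g⟫_ℂ) (L k) < ε / 3 := h7
  have hY : ‖Y k g‖ ≤ 2 + |C| := by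
    have h9 := norm_sub_norm_le (Y k g) (X g)
    rw [norm_sub_rev] at h9
    linarith
  have e : ⟪X g, X' g⟫_ℂ - ⟪Y k g, Y' k g⟫_ℂ =
      ⟪X g - Y k g, X' g⟫_ℂ + ⟪Y k g, X' g - Y' k g⟫_ℂ := by
    rw [inner_sub_left, inner_sub_right]
    ring
  have h9 : dist (⟪X g, X' g⟫_ℂ) (⟪Y k g, Y' k g⟫_ℂ) ≤ 2 * (δ * B) := by
    rw [dist_eq_norm, e]
    refine (norm_add_le _ _).trans ?_
    have n1 : ‖⟪X g - Y k g, X' g⟫_ℂ‖ ≤ δ * B := by
      refine (norm_inner_le_norm _ _).trans ?_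
      have : ‖X' g‖ ≤ B := by rw [hB]; linarith [abs_nonneg C]
      gcongr
    have n2 : ‖⟪Y k g, X' g - Y' k g⟫_ℂ‖ ≤ δ * B := by
      refine (norm_inner_le_norm _ _).trans ?_
      have : ‖Y k g‖ ≤ B := by rw [hB]; linarith [abs_nonneg C']
      calc ‖Y k g‖ * ‖X' g - Y' k g‖ ≤ B * δ := by gcongr
        _ = δ * B := mul_comm _ _
    linarith
  calc dist (⟪X g, X' g⟫_ℂ) L0 ≤ dist (⟪X g, X' g⟫_ℂ) (⟪Y k g, Y' k g⟫_ℂ) +
        dist (⟪Y k g, Y' k g⟫_ℂ) (L k) + dist (L k) L0 := dist_triangle4 _ _ _ _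
    _ < ε := by linarith

section L2

variable {α : Type*} [MeasurableSpace α] {μ : Measure α}
  {F : Type*} [NormedAddCommGroup F] [InnerProductSpace ℂ F]

theorem norm_toLp_sq {f : α → F} (hf : MemLp f 2 μ) :
    ‖(hf.toLp f : Lp F 2 μ)‖ ^ 2 = ∫ x, ‖f x‖ ^ 2 ∂μ := by
  have h1 : ‖(hf.toLp f : Lp F 2 μ)‖ ^ 2 = (⟪hf.toLp f, hf.toLp f⟫_ℂ).re := by
    rw [inner_self_eq_norm_sq_to_K]
    norm_cast
  rw [h1, L2.inner_def]
  have h2 : ∀ᵐ x ∂μ, (⟪(hf.toLp f : α → F) x, (hf.toLp f : α → F) x⟫_ℂ : ℂ) =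
      ((‖f x‖ ^ 2 : ℝ) : ℂ) := by
    filter_upwards [hf.coeFn_toLp] with x hx
    rw [hx, inner_self_eq_norm_sq_to_K]
    norm_cast
  rw [integral_congr_ae h2, integral_complex_ofReal, Complex.ofReal_re]

theorem inner_toLp {f f' : α → F} (hf : MemLp f 2 μ) (hf' : MemLp f' 2 μ) :
    ⟪(hf.toLp f : Lp F 2 μ), hf'.toLp f'⟫_ℂ = ∫ x, ⟪f x, f' x⟫_ℂ ∂μ := by
  rw [L2.inner_def]
  refine integral_congr_ae ?_
  filter_upwards [hf.coeFn_toLp, hf'.coeFn_toLp] with x hx hx'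
  rw [hx, hx']


open Classical in
/-- the class in `L²`, zero if not square integrable -/
def cl (μ : Measure α) (f : α → F) : Lp F 2 μ := if h : MemLp f 2 μ then h.toLp f else 0

theorem cl_eq {f : α → F} (h : MemLp f 2 μ) : cl μ f = h.toLp f := by
  unfold cl
  rw [dif_pos h]

theorem norm_cl_sq {f : α → F} (h : MemLp f 2 μ) : ‖cl μ f‖ ^ 2 = ∫ x, ‖f x‖ ^ 2 ∂μ := by
  rw [cl_eq h, norm_toLp_sq]

theorem norm_cl_sub_sq {f f' : α → F} (h : MemLp f 2 μ) (h' : MemLp f' 2 μ) :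
    ‖cl μ f - cl μ f'‖ ^ 2 = ∫ x, ‖f x - f' x‖ ^ 2 ∂μ := by
  rw [cl_eq h, cl_eq h', ← MemLp.toLp_sub, norm_toLp_sq]
  rfl

theorem inner_cl {f f' : α → F} (h : MemLp f 2 μ) (h' : MemLp f' 2 μ) :
    ⟪cl μ f, cl μ f'⟫_ℂ = ∫ x, ⟪f x, f' x⟫_ℂ ∂μ := by
  rw [cl_eq h, cl_eq h', inner_toLp]

/-- **the `ε/3` passage** -/
theorem tendsto_pairing {ι κ : Type*} {l : Filter ι} {l' : Filter κ} [l'.NeBot]
    {x x' : ι → α → F} {y y' : κ → ι → α → F}
    (hx : ∀ᶠ g in l, MemLp (x g) 2 μ) (hx' : ∀ᶠ g in l, MemLp (x' g) 2 μ)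
    (hy : ∀ᶠ k in l', ∀ᶠ g in l, MemLp (y k g) 2 μ)
    (hy' : ∀ᶠ k in l', ∀ᶠ g in l, MemLp (y' k g) 2 μ)
    (h : ∀ ε : ℝ, 0 < ε → ∀ᶠ k in l', ∀ᶠ g in l, ∫ a, ‖x g a - y k g a‖ ^ 2 ∂μ ≤ ε)
    (h' : ∀ ε : ℝ, 0 < ε → ∀ᶠ k in l', ∀ᶠ g in l, ∫ a, ‖x' g a - y' k g a‖ ^ 2 ∂μ ≤ ε)
    (hb : ∀ᶠ k in l', ∃ C : ℝ, ∀ᶠ g in l, ∫ a, ‖y k g a‖ ^ 2 ∂μ ≤ C)
    (hb' : ∀ᶠ k in l', ∃ C : ℝ, ∀ᶠ g in l, ∫ a, ‖y' k g a‖ ^ 2 ∂μ ≤ C)
    {L : κ → ℂ} (hL : ∀ᶠ k in l', Tendsto (fun g => ∫ a, ⟪y k g a, y' k g a⟫_ℂ ∂μ) l (𝓝 (L k)))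
    {L0 : ℂ} (hL0 : Tendsto L l' (𝓝 L0)) :
    Tendsto (fun g => ∫ a, ⟪x g a, x' g a⟫_ℂ ∂μ) l (𝓝 L0) := by
  have key : ∀ {z : ι → α → F} {w : κ → ι → α → F}, (∀ᶠ g in l, MemLp (z g) 2 μ) →
      (∀ᶠ k in l', ∀ᶠ g in l, MemLp (w k g) 2 μ) →
      (∀ ε : ℝ, 0 < ε → ∀ᶠ k in l', ∀ᶠ g in l, ∫ a, ‖z g a - w k g a‖ ^ 2 ∂μ ≤ ε) →
      ∀ ε : ℝ, 0 < ε → ∀ᶠ k in l', ∀ᶠ g in l, ‖cl μ (z g) - cl μ (w k g)‖ ≤ ε := by
    intro z w hz hw hzw ε hε
    filter_upwards [hzw (ε ^ 2) (by positivity), hw] with k h1 h2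
    filter_upwards [h1, h2, hz] with g h3 h4 h5
    rw [← norm_cl_sub_sq h5 h4] at h3
    exact le_of_sq_le_sq h3 hε.le
  have keyb : ∀ {w : κ → ι → α → F}, (∀ᶠ k in l', ∀ᶠ g in l, MemLp (w k g) 2 μ) →
      (∀ᶠ k in l', ∃ C : ℝ, ∀ᶠ g in l, ∫ a, ‖w k g a‖ ^ 2 ∂μ ≤ C) →
      ∀ᶠ k in l', ∃ C : ℝ, ∀ᶠ g in l, ‖cl μ (w k g)‖ ≤ C := by
    intro w hw hwb
    filter_upwards [hw, hwb] with k h1 h2
    obtain ⟨C, hC⟩ := h2
    refine ⟨Real.sqrt |C|, ?_⟩
    filter_upwards [h1, hC] with g h3 h4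
    rw [← norm_cl_sq h3] at h4
    exact Real.le_sqrt_of_sq_le (h4.trans (le_abs_self C))
  have hm := tendsto_inner (l := l) (l' := l') (X := fun g => cl μ (x g))
    (X' := fun g => cl μ (x' g)) (Y := fun k g => cl μ (y k g)) (Y' := fun k g => cl μ (y' k g))
    (key hx hy h) (key hx' hy' h') (keyb hy hb) (keyb hy' hb') (L := L) (by
      filter_upwards [hL, hy, hy'] with k h1 h2 h3
      refine h1.congr' ?_
      filter_upwards [h2, h3] with g h4 h5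
      rw [inner_cl h4 h5]) hL0
  refine hm.congr' ?_
  filter_upwards [hx, hx'] with g h1 h2
  rw [inner_cl h1 h2]

end L2

end Crest.Agent.R330.Gram893
end
end

-- ▼ part R330/TCoreG_383
section

/-!
# Row 330, S8 (T1) for an arbitrary block state (helper383)

`core_TG : IsBlk P Φ ρ → ρ ≤ σ.r / 4 → IsSliceFun .. ∧ IsCoreVec b R (TG P σ g Φ χ.fn)`, every `g > 0`;
`TG_apply`, `TG_slice`, `TG_off`, `TG_act`, `tauG_ne`, `TG_ne`, `supp_TG`.
-/

set_option autoImplicit false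
set_option linter.unusedSectionVars false

open MeasureTheory Filter Topology Crest.MathPhysics.MatrixQM
open scoped ContDiff InnerProductSpace ENNReal Real

noncomputable section

namespace Crest.Agent.R330.TCoreG383

open Crest.Agent.R330.Defs478 Crest.Agent.R330.LS839 Crest.Agent.R330.Frame839
  Crest.Agent.R330.Clus839
  Crest.Agent.R330.Bind6839 Crest.Agent.R330.SlG944 Crest.Agent.R330.SlF944
  Crest.Agent.R330.IBP837 Crest.Agent.R330.FreeC122 Crest.Agent.R330.TDef414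
  Crest.Agent.R330.TCore383
open Crest.Agent.R330.SlB314 (Nor Tan br brx)
open Crest.Agent.R330.SlD314 (tube)
open Crest.Agent.R330.SlA314 (act_inner act_norm act_add act_sub)
open Crest.Agent.R330.TG372 (tauG TG IsBlk isBlk_Psi isBlk_scale)

variable {N p : ℕ} {b : ColorBasis N} {S : Type} [Group S] [Fintype S] {C : Chn b p S}
  {F : Type*} [NormedAddCommGroup F] [InnerProductSpace ℂ F] [FiniteDimensional ℂ F]
  {M : FermionRep N F} {R : GaugeAction b M} {G : GammaNine}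

local notation "SU" => Matrix.specialUnitaryGroup (Fin N) ℂ

/-- The vector factor. -/
def wG (P : TPack C M R G) (σ : Sl C) (Φ : Cfg N → F →L[ℂ] F) (χ : Pos p → C.Fx M G)
    (u : Cfg N) : F :=
  P.U (σ.X0 + C.cfT u) (Φ (C.PY u) (χ (σ.X0 + C.cfT u) : F))

theorem tauG_eq (P : TPack C M R G) (σ : Sl C) (g : ℝ) (Φ : Cfg N → F →L[ℂ] F)
    (χ : Pos p → C.Fx M G) (u : Cfg N) :
    tauG P σ g Φ χ u = ((aT P σ g u : ℝ) : ℂ) • wG P σ Φ χ u := rfl

theorem contDiffAt_wG' (P : TPack C M R G) (σ : Sl C) {Φ : Cfg N → F →L[ℂ] F}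
    (hΦ : ContDiff ℝ ∞ Φ) {χ : Pos p → C.Fx M G} (hχ : ContDiff ℝ ∞ χ) {y : Cfg N}
    (hy : C.BReg (σ.X0 + C.cfT y)) : ContDiffAt ℝ ∞ (wG P σ Φ χ) y := by
  have hX := contDiffAt_pos (C := C) σ y
  have hχ' : ContDiff ℝ ∞ (fun X : Pos p => ((χ X : C.Fx M G) : F)) :=
    (((C.Fx M G).subtypeL).restrictScalars ℝ).contDiff.comp hχ
  have h1 : ContDiffAt ℝ ∞ (fun u : Cfg N => ((χ (σ.X0 + C.cfT u) : C.Fx M G) : F)) y :=
    hχ'.contDiffAt.comp y hX
  have hR : ContDiff ℝ ∞ (fun L : F →L[ℂ] F => L.restrictScalars ℝ) :=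
    (ContinuousLinearMap.restrictScalarsL ℂ F F ℝ ℝ).contDiff
  have h2 : ContDiffAt ℝ ∞ (fun u : Cfg N => (Φ (C.PY u)).restrictScalars ℝ) y :=
    hR.contDiffAt.comp y (hΦ.comp contDiff_PY).contDiffAt
  have h3 : ContDiffAt ℝ ∞ (fun u : Cfg N => (P.U (σ.X0 + C.cfT u)).restrictScalars ℝ) y :=
    hR.contDiffAt.comp y ((P.U_smooth _ hy).comp y hX)
  exact h3.clm_apply (h2.clm_apply h1)

theorem wG_eventually (P : TPack C M R G) (σ : Sl C) (Φ : Cfg N → F →L[ℂ] F)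
    (χ : Pos p → C.Fx M G) {y : Cfg N}
    (hy : σ.X0 + C.cfT y ∉ tsupport χ) : wG P σ Φ χ =ᶠ[𝓝 y] fun _ => 0 := by
  have h1 : ∀ᶠ u in 𝓝 y, σ.X0 + C.cfT u ∉ tsupport χ :=
    (contDiffAt_pos (C := C) σ y).continuousAt.eventually
      ((isClosed_tsupport χ).isOpen_compl.mem_nhds hy)
  filter_upwards [h1] with u hu
  unfold wG
  rw [image_eq_zero_of_notMem_tsupport hu]
  simp

theorem contDiffAt_wG (P : TPack C M R G) (σ : Sl C) {Φ : Cfg N → F →L[ℂ] F}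
    (hΦ : ContDiff ℝ ∞ Φ) (χ : Amp M G σ) (y : Cfg N) :
    ContDiffAt ℝ ∞ (wG P σ Φ χ.fn) y := by
  by_cases h : σ.X0 + C.cfT y ∈ tsupport χ.fn
  · exact contDiffAt_wG' P σ hΦ χ.smooth (χ.off _ h)
  · exact contDiffAt_const.congr_of_eventuallyEq (wG_eventually P σ Φ χ.fn h)

theorem contDiffAt_tauG (P : TPack C M R G) (σ : Sl C) {g : ℝ} (hg : 0 < g)
    {Φ : Cfg N → F →L[ℂ] F} (hΦ : ContDiff ℝ ∞ Φ) (χ : Amp M G σ) {y : Cfg N}
    (hy : ‖σ.X0 + C.cfT y - σ.X0‖ < σ.r) : ContDiffAt ℝ ∞ (tauG P σ g Φ χ.fn) y :=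
  (Complex.ofRealCLM.contDiff.contDiffAt.comp y (contDiffAt_aT P σ hg hy)).smul
    (contDiffAt_wG P σ hΦ χ y)

theorem wG_act (P : TPack C M R G) (σ : Sl C) {Φ : Cfg N → F →L[ℂ] F} {ρ : ℝ}
    (hΦ : IsBlk P Φ ρ) (χ : Pos p → C.Fx M G) {k : SU}
    (hk : b.act k (C.cf σ.X0) = C.cf σ.X0) {y : Cfg N}
    (hy : χ (σ.X0 + C.cfT y) ≠ 0 → C.BReg (σ.X0 + C.cfT y)) :
    wG P σ Φ χ (b.act k y) = R.ρ k (wG P σ Φ χ y) := by
  have h0 : C.Reg σ.X0 := σ.reg σ.X0 (by simpa using σ.pos)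
  by_cases hχ : χ (σ.X0 + C.cfT y) = 0
  · unfold wG
    rw [cfT_act h0 hk, hχ]
    simp
  have hB : C.BReg (σ.X0 + C.cfT y) := hy hχ
  have hX := act_cf h0 hk (σ.X0 + C.cfT y)
  unfold wG
  rw [cfT_act h0 hk, PY_act h0 hk]
  set f : F := (χ (σ.X0 + C.cfT y) : F) with hf
  have hfm : f ∈ C.Fx M G := (χ (σ.X0 + C.cfT y)).2
  have h1 := (hΦ.cov k _ _ hB.reg hB.reg hX (C.PY y) (PY_mem y) f hfm).2
  rw [P.stab_fix k _ hB.reg hX f hfm] at h1
  rw [← h1]
  exact ((P.U_cov k _ _ hB hB hX _ (hΦ.mem _ (PY_mem y) f hfm)).2).symm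

theorem tauG_act (P : TPack C M R G) (σ : Sl C) (g : ℝ) {Φ : Cfg N → F →L[ℂ] F} {ρ : ℝ}
    (hΦ : IsBlk P Φ ρ) (χ : Amp M G σ) {k : SU}
    (hk : b.act k (C.cf σ.X0) = C.cf σ.X0) {y : Cfg N} (hy : ‖σ.X0 + C.cfT y - σ.X0‖ < σ.r) :
    tauG P σ g Φ χ.fn (b.act k y) = R.ρ k (tauG P σ g Φ χ.fn y) := by
  rw [tauG_eq, tauG_eq, aT_act P σ g hk hy,
    wG_act P σ hΦ χ.fn hk fun h => χ.off _ (subset_tsupport _ h), map_smul]

theorem sliceFunG (P : TPack C M R G) (σ : Sl C) (g : ℝ) {Φ : Cfg N → F →L[ℂ] F} {ρ : ℝ}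
    (hΦ : IsBlk P Φ ρ) (χ : Amp M G σ) :
    IsSliceFun R (C.cf σ.X0) σ.r (fun u => (((σ.j u)⁻¹ : ℝ) : ℂ) • tauG P σ g Φ χ.fn u) := by
  intro k y hk hy hr
  simp only
  rw [σ.inv k hk y hy hr, tauG_act P σ g hΦ χ hk (cfT_ball σ hr), map_smul]


theorem TG_slice (P : TPack C M R G) (σ : Sl C) (g : ℝ) {Φ : Cfg N → F →L[ℂ] F} {ρ : ℝ}
    (hΦ : IsBlk P Φ ρ) (χ : Amp M G σ)
    {y : Cfg N} (hy : y ∈ Nor b (C.cf σ.X0)) (hr : ‖y‖ < σ.r) :
    TG P σ g Φ χ.fn (C.cf σ.X0 + y) = (((σ.j y)⁻¹ : ℝ) : ℂ) • tauG P σ g Φ χ.fn y :=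
  ext_slice R σ.good (sliceFunG P σ g hΦ χ) hy hr

theorem TG_off (P : TPack C M R G) (σ : Sl C) (g : ℝ) (Φ : Cfg N → F →L[ℂ] F)
    (χ : Pos p → C.Fx M G) {x : Cfg N}
    (hx : x ∉ tube b (C.cf σ.X0) σ.r) : TG P σ g Φ χ x = 0 := ext_off R _ hx

theorem TG_act (P : TPack C M R G) (σ : Sl C) (g : ℝ) {Φ : Cfg N → F →L[ℂ] F} {ρ : ℝ}
    (hΦ : IsBlk P Φ ρ) (χ : Amp M G σ) (h : SU)
    (x : Cfg N) : TG P σ g Φ χ.fn (b.act h x) = R.ρ h (TG P σ g Φ χ.fn x) :=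
  ext_equivariant R σ.good (sliceFunG P σ g hΦ χ) h x

/-- the trial function is supported in small balls -/
theorem tauG_ne (P : TPack C M R G) (σ : Sl C) (g : ℝ) {Φ : Cfg N → F →L[ℂ] F} {ρ : ℝ}
    (hΦ : IsBlk P Φ ρ) (χ : Amp M G σ) {y : Cfg N}
    (h : tauG P σ g Φ χ.fn y ≠ 0) : σ.X0 + C.cfT y ∈ tsupport χ.fn ∧ ‖C.cfT y‖ < σ.r / 4 ∧
      ‖C.PY y‖ < ρ ∧ ‖C.PM y‖ < σ.r / 4 := by
  have h1 : χ.fn (σ.X0 + C.cfT y) ≠ 0 := by
    intro h0
    apply h
    rw [tauG_eq]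
    unfold wG
    rw [h0]
    simp
  have h2 := subset_tsupport _ h1
  refine ⟨h2, ?_, ?_, ?_⟩
  · have h3 := χ.supp h2
    rw [Metric.mem_ball, dist_eq_norm, add_sub_cancel_left] at h3
    exact h3
  · by_contra h3
    apply h
    rw [tauG_eq]
    unfold wG
    rw [hΦ.supp _ (PY_mem y) (not_lt.1 h3)]
    simp
  · by_contra h3
    apply h
    rw [tauG_eq]
    unfold aT
    rw [kap_zero σ.pos (by
      have h4 := not_lt.1 h3
      have h5 := σ.pos
      nlinarith [norm_nonneg (C.PM y)])]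
    simp

/-- the trial functions are core vectors, every `g > 0` -/
theorem isCore_TG [Nontrivial F] (P : TPack C M R G) (σ : Sl C) {g : ℝ} (hg : 0 < g)
    {Φ : Cfg N → F →L[ℂ] F} {ρ : ℝ} (hΦ : IsBlk P Φ ρ) (hρ : ρ ≤ σ.r / 4) (χ : Amp M G σ) :
    IsCoreVec b R (TG P σ g Φ χ.fn) := by
  have hr' : 3 * σ.r / 4 < σ.r := by have := σ.pos; linarith
  refine ext_core' R σ.good (sliceFunG P σ g hΦ χ) (fun y hy hr => ?_) hr' fun y hy h1 h2 => ?_
  · have h3 := contDiffAt_tauG P σ hg hΦ.smooth χ (cfT_ball σ hr)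
    have h4 := (σ.smooth y hy hr).inv (σ.jpos y hy hr).ne'
    exact (Complex.ofRealCLM.contDiff.contDiffAt.comp y h4).smul h3
  · by_contra h3
    have h4 : tauG P σ g Φ χ.fn y ≠ 0 := by
      intro h5
      apply h3
      rw [h5, smul_zero]
    obtain ⟨-, h5, h6, h7⟩ := tauG_ne P σ g hΦ χ h4
    have h8 := norm_le_sum (C := C) y
    linarith




end Crest.Agent.R330.TCoreG383

end
end

-- ▼ part R330/L2TG_383
section

/-!
# Row 330, S8-ISO (L1) (helper383): `L²` bound of the trial states of an arbitrary block state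

* `isBlk_sub`, `TG_sub` (any amplitude function, any chart).
* `norm_tauG_sq_le`, `tauG_mass`.
* `l2_TG` : `∃ K ≥ 0, ∀ g > 0, ∀ Φ ρ, IsBlk P Φ ρ → ρ ≤ σ.r / 4 → ∀ B ≥ 0,
  (∀ f ∈ C.Fx M G, ∫ Y : C.Blk, ‖Φ Y f‖² ≤ B ‖f‖²) → ∫ x, ‖TG P σ g Φ χ.fn x‖² ≤ K * B`.
-/

set_option autoImplicit false
set_option linter.unusedSectionVars false

open MeasureTheory Filter Topology Crest.MathPhysics.MatrixQM
open scoped ContDiff InnerProductSpace ENNReal Real

noncomputable section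

namespace Crest.Agent.R330.L2TG383

open Crest.Agent.R330.Defs478 Crest.Agent.R330.LS839 Crest.Agent.R330.Frame839
  Crest.Agent.R330.Clus839
  Crest.Agent.R330.Bind6839 Crest.Agent.R330.SlG944 Crest.Agent.R330.SlF944
  Crest.Agent.R330.IBP837 Crest.Agent.R330.FreeC122 Crest.Agent.R330.TDef414
open Crest.Agent.R330.SlB314 (Nor Tan br brx)
open Crest.Agent.R330.SlD314 (tube)
open Crest.Agent.R330.SlA314 (act_inner act_norm act_add act_sub)
open Crest.Agent.R330.TG372 (tauG TG IsBlk isBlk_Psi isBlk_scale tauG_sub)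
open Crest.Agent.R330.TCoreG383 (TG_act TG_slice TG_off isCore_TG tauG_ne)
open Crest.Agent.R330.LitA974 (PM_mem_Zt cf_mem_Nor continuous_PM continuous_PY cfT_coord PY_coord
  PM_coord lintegral_nor norm_nor_lt PY_mem)
open Crest.Agent.R330.LitB974 (gm gm_nonneg gm_zero_pos gm_scale lint_gm reg0 exists_bds nI_ge norm_U)

variable {N p : ℕ} {b : ColorBasis N} {S : Type} [Group S] [Fintype S] {C : Chn b p S}
  {F : Type*} [NormedAddCommGroup F] [InnerProductSpace ℂ F] [FiniteDimensional ℂ F]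
  {M : FermionRep N F} {R : GaugeAction b M} {G : GammaNine}

local notation "SU" => Matrix.specialUnitaryGroup (Fin N) ℂ

/-! ## differences -/

theorem isBlk_sub {P : TPack C M R G} {Φ Φ' : Cfg N → F →L[ℂ] F} {ρ : ℝ} (H : IsBlk P Φ ρ)
    (H' : IsBlk P Φ' ρ) : IsBlk P (fun Y => Φ Y - Φ' Y) ρ where
  smooth := H.smooth.sub H'.smooth
  supp Y hY hn := by rw [H.supp Y hY hn, H'.supp Y hY hn, sub_zero]
  mem Y hY f hf := by
    rw [sub_apply]
    exact Submodule.sub_mem _ (H.mem Y hY f hf) (H'.mem Y hY f hf)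
  cov h X X' hX hX' he Y hY f hf := by
    obtain ⟨h1, h2⟩ := H.cov h X X' hX hX' he Y hY f hf
    obtain ⟨-, h3⟩ := H'.cov h X X' hX hX' he Y hY f hf
    refine ⟨h1, ?_⟩
    rw [sub_apply, sub_apply, map_sub, h2, h3]

theorem isBlk_mono {P : TPack C M R G} {Φ : Cfg N → F →L[ℂ] F} {ρ ρ' : ℝ} (H : IsBlk P Φ ρ)
    (h : ρ ≤ ρ') : IsBlk P Φ ρ' where
  smooth := H.smooth
  supp Y hY hn := H.supp Y hY (h.trans hn)
  mem := H.mem
  cov := H.cov

/-- the extension by choice is linear in the slice function, without any hypothesis -/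
theorem ext_sub (R : GaugeAction b M) (c : Cfg N) (r : ℝ) (f f' : Cfg N → F) (x : Cfg N) :
    ext R c r (fun u => f u - f' u) x = ext R c r f x - ext R c r f' x := by
  unfold SlG944.ext
  split_ifs with h
  · rw [map_sub]
  · rw [sub_zero]

theorem TG_sub (P : TPack C M R G) (σ : Sl C) (g : ℝ) (Φ Φ' : Cfg N → F →L[ℂ] F)
    (χ : Pos p → C.Fx M G) (x : Cfg N) :
    TG P σ g (fun Y => Φ Y - Φ' Y) χ x = TG P σ g Φ χ x - TG P σ g Φ' χ x := by
  unfold TG372.TG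
  rw [← ext_sub]
  congr 1
  funext u
  rw [← smul_sub, tauG_sub]

/-! ## size of `tauG` -/

theorem norm_tauG_sq (P : TPack C M R G) (σ : Sl C) (g : ℝ) {Φ : Cfg N → F →L[ℂ] F} {ρ : ℝ}
    (H : IsBlk P Φ ρ) (χ : Pos p → C.Fx M G) (u : Cfg N)
    (hX : C.BReg (σ.X0 + C.cfT u)) : ‖tauG P σ g Φ χ u‖ ^ 2 =
      nrm P σ g (σ.X0 + C.cfT u) ^ 2 * kap σ.r (‖C.PM u‖ ^ 2) ^ 2 *
      Real.exp (-(g * ⟪P.A (σ.X0 + C.cfT u) (C.PM u), C.PM u⟫_ℝ)) *
      ‖Φ (C.PY u) (χ (σ.X0 + C.cfT u) : F)‖ ^ 2 := by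
  unfold TG372.tauG
  rw [norm_smul, Complex.norm_real, Real.norm_eq_abs, mul_pow, sq_abs,
    norm_U hX (H.mem _ (PY_mem C u) _ (χ (σ.X0 + C.cfT u)).2), mul_pow, mul_pow]
  congr 2
  rw [← Real.exp_nat_mul]
  congr 1
  push_cast
  ring

theorem tauG_zero (P : TPack C M R G) (σ : Sl C) (g : ℝ) (Φ : Cfg N → F →L[ℂ] F)
    {χ : Pos p → C.Fx M G} {u : Cfg N}
    (h : χ (σ.X0 + C.cfT u) = 0) : tauG P σ g Φ χ u = 0 := by
  unfold TG372.tauG
  rw [h, ZeroMemClass.coe_zero, map_zero, map_zero, smul_zero]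

theorem norm_tauG_sq_le (P : TPack C M R G) (σ : Sl C) {a a' j0 j1 g : ℝ} (ha : 0 < a)
    (ha' : 0 < a') (hg : 0 < g)
    (hA : ∀ X, ‖X - σ.X0‖ ≤ σ.r / 4 → ∀ z ∈ C.Zt σ.X0, a * ‖z‖ ^ 2 ≤ ⟪P.A X z, z⟫_ℝ ∧
      ⟪P.A X z, z⟫_ℝ ≤ a' * ‖z‖ ^ 2)
    (hj : ∀ y ∈ Nor b (C.cf σ.X0), ‖y‖ ≤ σ.r / 2 → j0 ≤ σ.j y ∧ σ.j y ≤ j1)
    {Φ : Cfg N → F →L[ℂ] F} {ρ : ℝ} (H : IsBlk P Φ ρ) (χ : Amp M G σ)
    {u : Cfg N} (hu : u ∈ Nor b (C.cf σ.X0)) : ‖tauG P σ g Φ χ.fn u‖ ^ 2 ≤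
      (j1 / ((Real.sqrt g ^ Module.finrank ℝ (C.Zt σ.X0))⁻¹ * gm (C.Zt σ.X0) 0 a')) *
      (Real.exp (-(g * a) * ‖C.PM u‖ ^ 2) * ‖Φ (C.PY u) (χ.fn (σ.X0 + C.cfT u) : F)‖ ^ 2) := by
  have hL : 0 < (Real.sqrt g ^ Module.finrank ℝ (C.Zt σ.X0))⁻¹ * gm (C.Zt σ.X0) 0 a' := by
    have := gm_zero_pos (Z := C.Zt σ.X0) ha'
    have hs : 0 < Real.sqrt g := Real.sqrt_pos.2 hg
    positivity
  have hj1 : 0 ≤ j1 := by
    have h0 := σ.jpos 0 (Nor b (C.cf σ.X0)).zero_mem (by rw [norm_zero]; exact σ.pos)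
    have h1 := (hj 0 (Nor b (C.cf σ.X0)).zero_mem (by rw [norm_zero]; linarith [σ.pos])).2
    linarith
  by_cases h0 : χ.fn (σ.X0 + C.cfT u) = 0
  · rw [tauG_zero P σ g Φ h0, norm_zero, zero_pow two_ne_zero]
    have := gm_zero_pos (Z := C.Zt σ.X0) ha'
    positivity
  · have hts : σ.X0 + C.cfT u ∈ tsupport χ.fn := subset_tsupport _ h0
    have hball := χ.supp hts
    rw [mem_ball_iff_norm, add_sub_cancel_left] at hball
    have hX : ‖σ.X0 + C.cfT u - σ.X0‖ ≤ σ.r / 4 := by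
      rw [add_sub_cancel_left]
      exact hball.le
    have hB := χ.off _ hts
    have hz : C.PM u ∈ C.Zt σ.X0 := PM_mem_Zt C (reg0 σ) hu
    have hcf : C.cf (C.cfT u) ∈ Nor b (C.cf σ.X0) := cf_mem_Nor C (reg0 σ) _
    have hn : ‖C.cf (C.cfT u)‖ ≤ σ.r / 2 := by
      rw [C.cf.norm_map]
      linarith [σ.pos]
    have hI := nI_ge P σ ha ha' hg (hA _ hX)
    have hnrm : nrm P σ g (σ.X0 + C.cfT u) ^ 2 ≤
        j1 / ((Real.sqrt g ^ Module.finrank ℝ (C.Zt σ.X0))⁻¹ * gm (C.Zt σ.X0) 0 a') := by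
      unfold nrm
      have h2 := hj _ hcf hn
      have h3 : 0 < σ.j (C.cf (C.cfT u)) := σ.jpos _ hcf (by linarith [σ.pos])
      rw [add_sub_cancel_left, Real.sq_sqrt (div_nonneg h3.le (hL.le.trans hI))]
      exact div_le_div₀ hj1 h2.2 hL hI
    rw [norm_tauG_sq P σ g H χ.fn u hB]
    have hk : kap σ.r (‖C.PM u‖ ^ 2) ^ 2 ≤ 1 :=
      pow_le_one₀ (kap_nonneg _ _) (kap_le_one _ _)
    have he : Real.exp (-(g * ⟪P.A (σ.X0 + C.cfT u) (C.PM u), C.PM u⟫_ℝ)) ≤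
        Real.exp (-(g * a) * ‖C.PM u‖ ^ 2) := by
      refine Real.exp_le_exp.2 ?_
      have h1 := mul_le_mul_of_nonneg_left (hA _ hX _ hz).1 hg.le
      linarith
    calc _ ≤ (j1 / ((Real.sqrt g ^ Module.finrank ℝ (C.Zt σ.X0))⁻¹ * gm (C.Zt σ.X0) 0 a')) * 1 *
          Real.exp (-(g * a) * ‖C.PM u‖ ^ 2) *
          ‖Φ (C.PY u) (χ.fn (σ.X0 + C.cfT u) : F)‖ ^ 2 := by gcongr
      _ = _ := by ring

/-- the Bochner bound in `lintegral` form -/
theorem lint_blk {P : TPack C M R G} {Φ : Cfg N → F →L[ℂ] F} {ρ : ℝ} (H : IsBlk P Φ ρ) {B : ℝ}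
    (hΦ : ∀ f ∈ C.Fx M G, ∫ Y : C.Blk, ‖Φ Y f‖ ^ 2 ≤ B * ‖f‖ ^ 2) (f : C.Fx M G) :
    ∫⁻ Y : C.Blk, ‖Φ Y (f : F)‖ₑ ^ 2 ≤ ENNReal.ofReal (B * ‖f‖ ^ 2) := by
  have hc : Continuous fun Y : C.Blk => Φ Y (f : F) :=
    (H.smooth.continuous.comp continuous_subtype_val).clm_apply continuous_const
  have hcs : HasCompactSupport fun Y : C.Blk => Φ Y (f : F) := by
    refine HasCompactSupport.intro (isCompact_closedBall (0 : C.Blk) ρ) fun Y hY => ?_
    have h1 : ρ ≤ ‖(Y : Cfg N)‖ := by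
      have : ¬ ‖Y‖ ≤ ρ := fun h => hY (mem_closedBall_zero_iff.2 h)
      exact (not_le.1 this).le
    rw [H.supp Y Y.2 h1]
    rfl
  have hint : Integrable fun Y : C.Blk => ‖Φ Y (f : F)‖ ^ 2 :=
    Continuous.integrable_of_hasCompactSupport (hc.norm.pow 2)
      (hcs.comp_left (g := fun v : F => ‖v‖ ^ 2) (by simp))
  calc ∫⁻ Y : C.Blk, ‖Φ Y (f : F)‖ₑ ^ 2 = ∫⁻ Y : C.Blk, ENNReal.ofReal (‖Φ Y (f : F)‖ ^ 2) := by
        refine lintegral_congr fun Y => ?_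
        rw [← ofReal_norm, ENNReal.ofReal_pow (norm_nonneg _)]
    _ = ENNReal.ofReal (∫ Y : C.Blk, ‖Φ Y (f : F)‖ ^ 2) :=
        (ofReal_integral_eq_lintegral_ofReal hint
          (Eventually.of_forall fun Y => by positivity)).symm
    _ ≤ ENNReal.ofReal (B * ‖f‖ ^ 2) := ENNReal.ofReal_le_ofReal (hΦ f f.2)

/-- **Mass of `tauG` on the slice**, all `g > 0`. -/
theorem tauG_mass (P : TPack C M R G) (σ : Sl C) (χ : Amp M G σ) :
    ∃ K : ℝ, 0 ≤ K ∧ ∀ g : ℝ, 0 < g → ∀ (Φ : Cfg N → F →L[ℂ] F) (ρ : ℝ), IsBlk P Φ ρ →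
      ∀ B : ℝ, 0 ≤ B → (∀ f ∈ C.Fx M G, ∫ Y : C.Blk, ‖Φ Y f‖ ^ 2 ≤ B * ‖f‖ ^ 2) →
      ∫⁻ u : Nor b (C.cf σ.X0), ENNReal.ofReal (‖tauG P σ g Φ χ.fn u‖ ^ 2) ≤
        ENNReal.ofReal (K * B) := by
  obtain ⟨a, a', j0, j1, ha, ha', hj0, hj1, hA, hj⟩ := exists_bds P σ
  obtain ⟨D, hD⟩ : ∃ D : ℝ, ∀ X, ‖χ.fn X‖ ≤ D :=
    χ.compact.exists_bound_of_continuous χ.smooth.continuous
  have hD0 : 0 ≤ D := (norm_nonneg _).trans (hD 0)
  set V : ℝ≥0∞ := volume (Metric.closedBall (0 : Pos p) (σ.r / 4)) with hV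
  have hVt : V ≠ (⊤ : ℝ≥0∞) := measure_closedBall_lt_top.ne
  have hg0 := gm_zero_pos (Z := C.Zt σ.X0) ha'
  have hgn := gm_nonneg (Z := C.Zt σ.X0) 0 a
  refine ⟨(j1 / gm (C.Zt σ.X0) 0 a') * gm (C.Zt σ.X0) 0 a * D ^ 2 * V.toReal, by positivity,
    fun g hg Φ ρ H B hB0 hΦ => ?_⟩
  have hs : 0 < Real.sqrt g := Real.sqrt_pos.2 hg
  set E := Module.finrank ℝ (C.Zt σ.X0) with hE
  set c : ℝ := j1 / ((Real.sqrt g ^ E)⁻¹ * gm (C.Zt σ.X0) 0 a') with hc
  have hc0 : 0 ≤ c := by positivity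
  set f : Cfg N → ℝ≥0∞ := fun u => ENNReal.ofReal c *
    (ENNReal.ofReal (Real.exp (-(g * a) * ‖C.PM u‖ ^ 2)) *
      ENNReal.ofReal (‖Φ (C.PY u) (χ.fn (σ.X0 + C.cfT u) : F)‖ ^ 2)) with hf
  have hfm : Measurable f := by
    have h1 : Continuous fun u : Cfg N => ‖C.PM u‖ := (continuous_PM C).norm
    have h2 : Continuous fun u : Cfg N => Real.exp (-(g * a) * ‖C.PM u‖ ^ 2) :=
      (continuous_const.mul (h1.pow 2)).rexp
    have h3 : Continuous fun u : Cfg N => (χ.fn (σ.X0 + C.cfT u) : F) :=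
      continuous_subtype_val.comp (χ.smooth.continuous.comp
        (continuous_const.add C.cfT.continuous))
    have h4 : Continuous fun u : Cfg N =>
        ‖Φ (C.PY u) (χ.fn (σ.X0 + C.cfT u) : F)‖ ^ 2 :=
      (((H.smooth.continuous.comp (continuous_PY C)).clm_apply h3).norm).pow 2
    exact ((h2.measurable.ennreal_ofReal).mul (h4.measurable.ennreal_ofReal)).const_mul _
  have h1 : ∫⁻ u : Nor b (C.cf σ.X0), ENNReal.ofReal (‖tauG P σ g Φ χ.fn u‖ ^ 2) ≤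
      ∫⁻ u : Nor b (C.cf σ.X0), f u := by
    refine lintegral_mono fun u => ?_
    have h2 := norm_tauG_sq_le P σ ha ha' hg hA hj H χ u.2
    rw [hf]
    simp only
    rw [← ENNReal.ofReal_mul (Real.exp_pos _).le, ← ENNReal.ofReal_mul hc0]
    exact ENNReal.ofReal_le_ofReal h2
  refine h1.trans ?_
  rw [lintegral_nor C (reg0 σ) hfm]
  have h2 : ∀ X : Pos p, ∫⁻ Y : C.Blk, ∫⁻ z : C.Zt σ.X0, f (C.cf X + Y + z) =
      ENNReal.ofReal c * (ENNReal.ofReal (gm (C.Zt σ.X0) 0 (g * a)) *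
        ∫⁻ Y : C.Blk, ‖Φ Y (χ.fn (σ.X0 + X) : F)‖ₑ ^ 2) := by
    intro X
    have h3 : ∀ (Y : C.Blk) (z : C.Zt σ.X0), f (C.cf X + Y + z) = ENNReal.ofReal c *
        (ENNReal.ofReal (‖z‖ ^ (2 * 0) * Real.exp (-(g * a) * ‖z‖ ^ 2)) *
          ‖Φ Y (χ.fn (σ.X0 + X) : F)‖ₑ ^ 2) := by
      intro Y z
      rw [hf]
      simp only
      rw [cfT_coord C Y.2 z.2.1, PY_coord C Y.2 z.2.1, PM_coord C Y.2 z.2.1,
        ENNReal.ofReal_pow (norm_nonneg (Φ Y (χ.fn (σ.X0 + X) : F))), ofReal_norm,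
        Nat.mul_zero, pow_zero, one_mul]
      rfl
    have h4 : ∀ Y : C.Blk, ∫⁻ z : C.Zt σ.X0, f (C.cf X + Y + z) = ENNReal.ofReal c *
        (ENNReal.ofReal (gm (C.Zt σ.X0) 0 (g * a)) *
          ‖Φ Y (χ.fn (σ.X0 + X) : F)‖ₑ ^ 2) := by
      intro Y
      simp only [h3]
      rw [lintegral_const_mul' _ _ ENNReal.ofReal_ne_top, lintegral_mul_const'',
        lint_gm 0 (mul_pos hg ha)]
      exact (Continuous.measurable (by fun_prop : Continuous fun z : C.Zt σ.X0 =>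
        ‖z‖ ^ (2 * 0) * Real.exp (-(g * a) * ‖z‖ ^ 2))).ennreal_ofReal.aemeasurable
    simp only [h4]
    rw [lintegral_const_mul' _ _ ENNReal.ofReal_ne_top,
      lintegral_const_mul' _ _ ENNReal.ofReal_ne_top]
  simp only [h2]
  have h5 : ∀ X : Pos p, ENNReal.ofReal c * (ENNReal.ofReal (gm (C.Zt σ.X0) 0 (g * a)) *
      ∫⁻ Y : C.Blk, ‖Φ Y (χ.fn (σ.X0 + X) : F)‖ₑ ^ 2) ≤
      (Metric.closedBall (0 : Pos p) (σ.r / 4)).indicator (fun _ => ENNReal.ofReal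
        (c * gm (C.Zt σ.X0) 0 (g * a) * (B * D ^ 2))) X := by
    intro X
    by_cases hX : X ∈ Metric.closedBall (0 : Pos p) (σ.r / 4)
    · rw [Set.indicator_of_mem hX]
      have h6 : ∫⁻ Y : C.Blk, ‖Φ Y (χ.fn (σ.X0 + X) : F)‖ₑ ^ 2 ≤
          ENNReal.ofReal (B * D ^ 2) := by
        refine (lint_blk H hΦ _).trans (ENNReal.ofReal_le_ofReal ?_)
        have := hD (σ.X0 + X)
        gcongr
      rw [mul_assoc c, ENNReal.ofReal_mul hc0, ENNReal.ofReal_mul (gm_nonneg _ _)]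
      gcongr
    · rw [Set.indicator_of_notMem hX]
      have h7 : χ.fn (σ.X0 + X) = 0 := by
        by_contra h8
        have h9 := χ.supp (subset_tsupport _ h8)
        rw [mem_ball_iff_norm, add_sub_cancel_left] at h9
        exact hX (mem_closedBall_zero_iff.2 h9.le)
      rw [h7]
      simp
  refine (lintegral_mono h5).trans ?_
  rw [lintegral_indicator Metric.isClosed_closedBall.measurableSet, setLIntegral_const, ← hV]
  have hA0 : 0 ≤ c * gm (C.Zt σ.X0) 0 (g * a) * (B * D ^ 2) := by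
    have := gm_nonneg (Z := C.Zt σ.X0) 0 (g * a)
    positivity
  have hVe : ENNReal.ofReal (c * gm (C.Zt σ.X0) 0 (g * a) * (B * D ^ 2)) * V =
      ENNReal.ofReal (c * gm (C.Zt σ.X0) 0 (g * a) * (B * D ^ 2) * V.toReal) := by
    rw [ENNReal.ofReal_mul hA0, ENNReal.ofReal_toReal hVt]
  rw [hVe]
  refine ENNReal.ofReal_le_ofReal (le_of_eq ?_)
  rw [gm_scale 0 a hg, hc, ← hE]
  field_simp

/-! ## the `L²` norm of the trial state -/

theorem norm_TG_act (P : TPack C M R G) (σ : Sl C) (g : ℝ) {Φ : Cfg N → F →L[ℂ] F} {ρ : ℝ}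
    (H : IsBlk P Φ ρ) (χ : Amp M G σ) (k : SU) (x : Cfg N) :
    ‖TG P σ g Φ χ.fn (b.act k x)‖ = ‖TG P σ g Φ χ.fn x‖ := by
  rw [TG_act P σ g H χ k x, Cov837.norm_rho]

/-- **(L1)** -/
theorem l2_TG [Nontrivial F] (P : TPack C M R G) (σ : Sl C) (χ : Amp M G σ) :
    ∃ K : ℝ, 0 ≤ K ∧ ∀ g : ℝ, 0 < g → ∀ (Φ : Cfg N → F →L[ℂ] F) (ρ : ℝ), IsBlk P Φ ρ →
      ρ ≤ σ.r / 4 → ∀ B : ℝ, 0 ≤ B →
      (∀ f ∈ C.Fx M G, ∫ Y : C.Blk, ‖Φ Y f‖ ^ 2 ≤ B * ‖f‖ ^ 2) →
      ∫ x, ‖TG P σ g Φ χ.fn x‖ ^ 2 ≤ K * B := by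
  obtain ⟨K, hK, hmass⟩ := tauG_mass P σ χ
  obtain ⟨a, a', j0, j1, ha, ha', hj0, hj1, hA, hj⟩ := exists_bds P σ
  refine ⟨j0⁻¹ * K, by positivity, fun g hg Φ ρ H hρ B hB hΦ => ?_⟩
  have hcore := isCore_TG P σ hg H hρ χ
  have hcont : Continuous (TG P σ g Φ χ.fn) := hcore.1.continuous
  have hmeas : Measurable fun x => ‖TG P σ g Φ χ.fn x‖ₑ ^ 2 :=
    (hcont.enorm.measurable).pow_const 2
  have hinv : ∀ (k : SU) x, ‖TG P σ g Φ χ.fn (b.act k x)‖ₑ ^ 2 = ‖TG P σ g Φ χ.fn x‖ₑ ^ 2 := by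
    intro k x
    rw [← ofReal_norm, ← ofReal_norm, norm_TG_act P σ g H χ]
  have h1 : ∫⁻ x, ‖TG P σ g Φ χ.fn x‖ₑ ^ 2 =
      ∫⁻ x in tube b (C.cf σ.X0) σ.r, ‖TG P σ g Φ χ.fn x‖ₑ ^ 2 := by
    rw [← lintegral_indicator (SlD314.isOpen_tube b _ _).measurableSet]
    refine lintegral_congr fun x => ?_
    by_cases hx : x ∈ tube b (C.cf σ.X0) σ.r
    · rw [Set.indicator_of_mem hx]
    · rw [Set.indicator_of_notMem hx, TG_off P σ g Φ χ.fn hx]
      simp
  have h2 : ∫⁻ x, ‖TG P σ g Φ χ.fn x‖ₑ ^ 2 ≤ ENNReal.ofReal (j0⁻¹ * K * B) := by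
    rw [h1, σ.int _ hmeas hinv]
    calc ∫⁻ y in Metric.ball (0 : Nor b (C.cf σ.X0)) σ.r,
          ENNReal.ofReal (σ.j y) * ‖TG P σ g Φ χ.fn (C.cf σ.X0 + y)‖ₑ ^ 2
        ≤ ∫⁻ y in Metric.ball (0 : Nor b (C.cf σ.X0)) σ.r,
          ENNReal.ofReal j0⁻¹ * ENNReal.ofReal (‖tauG P σ g Φ χ.fn y‖ ^ 2) := by
          refine setLIntegral_mono' Metric.isOpen_ball.measurableSet fun y hy => ?_
          have hy' : ‖(y : Cfg N)‖ < σ.r := by simpa using hy
          rw [TG_slice P σ g H χ y.2 hy', ← ofReal_norm,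
            ← ENNReal.ofReal_pow (norm_nonneg _), ← ENNReal.ofReal_mul (σ.jpos y y.2 hy').le,
            ← ENNReal.ofReal_mul (by positivity)]
          refine ENNReal.ofReal_le_ofReal ?_
          have hjp := σ.jpos y y.2 hy'
          rw [norm_smul, Complex.norm_real, Real.norm_eq_abs, abs_of_pos (inv_pos.2 hjp), mul_pow]
          have e : σ.j y * ((σ.j y)⁻¹ ^ 2 * ‖tauG P σ g Φ χ.fn y‖ ^ 2) =
              (σ.j y)⁻¹ * ‖tauG P σ g Φ χ.fn y‖ ^ 2 := by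
            field_simp
          rw [e]
          by_cases h0 : tauG P σ g Φ χ.fn y = 0
          · rw [h0]
            simp
          · obtain ⟨-, h3, h4, h5⟩ := tauG_ne P σ g H χ h0
            have h6 := norm_nor_lt C y σ.r h3.le (h4.le.trans hρ) h5.le
            have h7 := (hj y y.2 h6).1
            gcongr
      _ ≤ ∫⁻ y : Nor b (C.cf σ.X0),
          ENNReal.ofReal j0⁻¹ * ENNReal.ofReal (‖tauG P σ g Φ χ.fn y‖ ^ 2) :=
          setLIntegral_le_lintegral _ _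
      _ = ENNReal.ofReal j0⁻¹ * ∫⁻ y : Nor b (C.cf σ.X0),
          ENNReal.ofReal (‖tauG P σ g Φ χ.fn y‖ ^ 2) :=
          lintegral_const_mul' _ _ ENNReal.ofReal_ne_top
      _ ≤ ENNReal.ofReal j0⁻¹ * ENNReal.ofReal (K * B) := by
          gcongr
          exact hmass g hg Φ ρ H B hB hΦ
      _ = ENNReal.ofReal (j0⁻¹ * K * B) := by
          rw [← ENNReal.ofReal_mul (by positivity), mul_assoc]
  have h3 : ∫ x, ‖TG P σ g Φ χ.fn x‖ ^ 2 =
      (∫⁻ x, ‖TG P σ g Φ χ.fn x‖ₑ ^ 2).toReal := by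
    rw [integral_eq_lintegral_of_nonneg_ae (f := fun x => ‖TG P σ g Φ χ.fn x‖ ^ 2)
      (Eventually.of_forall fun x => sq_nonneg _) (hcont.norm.pow 2).aestronglyMeasurable]
    congr 1
    refine lintegral_congr fun x => ?_
    rw [ENNReal.ofReal_pow (norm_nonneg _), ofReal_norm]
  rw [h3]
  refine (ENNReal.toReal_mono ENNReal.ofReal_ne_top h2).trans (le_of_eq ?_)
  rw [ENNReal.toReal_ofReal (by positivity)]

end Crest.Agent.R330.L2TG383

end
end

-- ▼ part R330/IsoX_383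
section

/-!
# Row 330, S8-ISO (L3) (helper383)

`iso_int` : for `χ`, `χ'` continuous, `χ` of compact support, `r` continuous on `tsupport χ`,
`∫ X, r X * ∫ Y : C.Blk, ⟪Psi g Y (χ X), Psi g Y (χ' X)⟫ → ∫ X, r X * ⟪χ X, χ' X⟫`.
-/

set_option autoImplicit false
set_option linter.unusedSectionVars false

open MeasureTheory Filter Topology Crest.MathPhysics.MatrixQM
open scoped ContDiff InnerProductSpace ENNReal Real

noncomputable section

namespace Crest.Agent.R330.IsoX383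

open Crest.Agent.R330.TDef414
open Crest.Agent.R330.LitB974 (hcs_psi continuous_psi)

variable {N p : ℕ} {b : ColorBasis N} {S : Type} [Group S] [Fintype S] {C : Chn b p S}
  {F : Type*} [NormedAddCommGroup F] [InnerProductSpace ℂ F] [FiniteDimensional ℂ F]
  {M : FermionRep N F} {R : GaugeAction b M} {G : GammaNine}

/-- Gram matrix of the block states. -/
def gmat (P : TPack C M R G) (g : ℝ) (f f' : F) : ℂ := ∫ Y : C.Blk, ⟪P.Psi g Y f, P.Psi g Y f'⟫_ℂ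

theorem integrable_gmat (P : TPack C M R G) {g : ℝ} (hg : ContDiff ℝ ∞ (P.Psi g)) (f f' : F) :
    Integrable fun Y : C.Blk => ⟪P.Psi g Y f, P.Psi g Y f'⟫_ℂ := by
  refine Continuous.integrable_of_hasCompactSupport
    ((continuous_psi hg f).inner (continuous_psi hg f')) ?_
  refine (hcs_psi P g f).mono fun Y hY => ?_
  rw [Function.mem_support] at hY ⊢
  intro h
  apply hY
  rw [h, inner_zero_left]

/-- the block pairing in an orthonormal basis -/
theorem gmat_expand (P : TPack C M R G) {g : ℝ} (hg : ContDiff ℝ ∞ (P.Psi g)) {ι : Type*}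
    [Fintype ι] (e : OrthonormalBasis ι ℂ (C.Fx M G)) (f f' : C.Fx M G) :
    gmat P g f f' = ∑ i, ∑ j, (⟪f, e i⟫_ℂ * ⟪e j, f'⟫_ℂ) * gmat P g (e i) (e j) := by
  have h1 : ∀ f : C.Fx M G, (f : F) = ∑ i, ⟪e i, f⟫_ℂ • (e i : F) := by
    intro f
    have := congrArg (fun v : C.Fx M G => (v : F)) (e.sum_repr' f)
    simp only [Submodule.coe_sum, Submodule.coe_smul] at this
    exact this.symm
  have h2 : ∀ Y : C.Blk, ⟪P.Psi g Y (f : F), P.Psi g Y (f' : F)⟫_ℂ =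
      ∑ i, ∑ j, (⟪f, e i⟫_ℂ * ⟪e j, f'⟫_ℂ) *
        ⟪P.Psi g Y (e i : F), P.Psi g Y (e j : F)⟫_ℂ := by
    intro Y
    conv_lhs => rw [h1 f, h1 f', map_sum, map_sum, sum_inner]
    refine Finset.sum_congr rfl fun i _ => ?_
    rw [inner_sum]
    refine Finset.sum_congr rfl fun j _ => ?_
    rw [map_smul, map_smul, inner_smul_left, inner_smul_right, inner_conj_symm]
    ring
  unfold gmat
  simp only [h2]
  rw [integral_finsetSum _ fun i _ => integrable_finsetSum _ fun j _ =>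
    (integrable_gmat P hg _ _).const_mul _]
  refine Finset.sum_congr rfl fun i _ => ?_
  rw [integral_finsetSum _ fun j _ => (integrable_gmat P hg _ _).const_mul _]
  exact Finset.sum_congr rfl fun j _ => integral_const_mul _ _

theorem inner_expand {ι : Type*} [Fintype ι] (e : OrthonormalBasis ι ℂ (C.Fx M G))
    (f f' : C.Fx M G) : ⟪(f : F), (f' : F)⟫_ℂ =
      ∑ i, ∑ j, (⟪f, e i⟫_ℂ * ⟪e j, f'⟫_ℂ) * ⟪(e i : F), (e j : F)⟫_ℂ := by
  have h1 : ∀ f : C.Fx M G, (f : F) = ∑ i, ⟪e i, f⟫_ℂ • (e i : F) := by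
    intro f
    have := congrArg (fun v : C.Fx M G => (v : F)) (e.sum_repr' f)
    simp only [Submodule.coe_sum, Submodule.coe_smul] at this
    exact this.symm
  conv_lhs => rw [h1 f, h1 f', sum_inner]
  refine Finset.sum_congr rfl fun i _ => ?_
  rw [inner_sum]
  refine Finset.sum_congr rfl fun j _ => ?_
  rw [inner_smul_left, inner_smul_right, inner_conj_symm]
  ring

/-- integrability of the coefficients -/
theorem integrable_coef {r : Pos p → ℝ} {χ χ' : Pos p → C.Fx M G} (hχ : Continuous χ)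
    (hχ' : Continuous χ') (hc : HasCompactSupport χ) (hr : ContinuousOn r (tsupport χ))
    (v v' : C.Fx M G) :
    Integrable fun X : Pos p => (r X : ℂ) * (⟪χ X, v⟫_ℂ * ⟪v', χ' X⟫_ℂ) := by
  have h1 : Function.support (fun X : Pos p => (r X : ℂ) * (⟪χ X, v⟫_ℂ * ⟪v', χ' X⟫_ℂ)) ⊆
      tsupport χ := by
    intro X hX
    by_contra h0
    apply hX
    have h2 : χ X = 0 := image_eq_zero_of_notMem_tsupport h0
    simp only
    rw [h2, inner_zero_left, zero_mul, mul_zero]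
  rw [← integrableOn_iff_integrable_of_support_subset h1]
  refine ContinuousOn.integrableOn_compact hc ?_
  have h2 : ContinuousOn (fun X => ((r X : ℝ) : ℂ)) (tsupport χ) :=
    Complex.continuous_ofReal.comp_continuousOn hr
  exact h2.mul (((hχ.inner continuous_const).mul (continuous_const.inner hχ')).continuousOn)

/-- **(L3)** -/
theorem iso_int (P : TPack C M R G) {r : Pos p → ℝ} {χ χ' : Pos p → C.Fx M G}
    (hχ : Continuous χ) (hχ' : Continuous χ') (hc : HasCompactSupport χ)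
    (hr : ContinuousOn r (tsupport χ)) :
    Tendsto (fun g => ∫ X, (r X : ℂ) * ∫ Y : C.Blk,
        ⟪P.Psi g Y (χ X : F), P.Psi g Y (χ' X : F)⟫_ℂ) atTop
      (𝓝 (∫ X, (r X : ℂ) * ⟪(χ X : F), (χ' X : F)⟫_ℂ)) := by
  classical
  set e := stdOrthonormalBasis ℂ (C.Fx M G) with he
  set c : Fin (Module.finrank ℂ (C.Fx M G)) → Fin (Module.finrank ℂ (C.Fx M G)) → ℂ :=
    fun i j => ∫ X, (r X : ℂ) * (⟪χ X, e i⟫_ℂ * ⟪e j, χ' X⟫_ℂ) with hcdef
  have hint := fun i j => integrable_coef (C := C) (M := M) (G := G) hχ hχ' hc hr (e i) (e j)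
  have h1 : (∫ X, (r X : ℂ) * ⟪(χ X : F), (χ' X : F)⟫_ℂ) =
      ∑ i, ∑ j, c i j * ⟪(e i : F), (e j : F)⟫_ℂ := by
    have h2 : ∀ X, (r X : ℂ) * ⟪(χ X : F), (χ' X : F)⟫_ℂ = ∑ i, ∑ j,
        ((r X : ℂ) * (⟪χ X, e i⟫_ℂ * ⟪e j, χ' X⟫_ℂ)) * ⟪(e i : F), (e j : F)⟫_ℂ := by
      intro X
      rw [inner_expand e, Finset.mul_sum]
      refine Finset.sum_congr rfl fun i _ => ?_
      rw [Finset.mul_sum]
      exact Finset.sum_congr rfl fun j _ => by ring
    simp only [h2]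
    rw [integral_finsetSum _ fun i _ => integrable_finsetSum _ fun j _ => (hint i j).mul_const _]
    refine Finset.sum_congr rfl fun i _ => ?_
    rw [integral_finsetSum _ fun j _ => (hint i j).mul_const _]
    exact Finset.sum_congr rfl fun j _ => integral_mul_const _ _
  have h3 : ∀ᶠ g in atTop, (∑ i, ∑ j, c i j * gmat P g (e i) (e j)) = ∫ X, (r X : ℂ) *
      ∫ Y : C.Blk, ⟪P.Psi g Y (χ X : F), P.Psi g Y (χ' X : F)⟫_ℂ := by
    filter_upwards [P.Psi_smooth] with g hg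
    have h2 : ∀ X, (r X : ℂ) * (∫ Y : C.Blk, ⟪P.Psi g Y (χ X : F), P.Psi g Y (χ' X : F)⟫_ℂ) =
        ∑ i, ∑ j, ((r X : ℂ) * (⟪χ X, e i⟫_ℂ * ⟪e j, χ' X⟫_ℂ)) * gmat P g (e i) (e j) := by
      intro X
      have h4 := gmat_expand P hg e (χ X) (χ' X)
      unfold gmat at h4 ⊢
      rw [h4, Finset.mul_sum]
      refine Finset.sum_congr rfl fun i _ => ?_
      rw [Finset.mul_sum]
      exact Finset.sum_congr rfl fun j _ => by ring
    simp only [h2]
    rw [integral_finsetSum _ fun i _ => integrable_finsetSum _ fun j _ => (hint i j).mul_const _]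
    refine Finset.sum_congr rfl fun i _ => ?_
    rw [integral_finsetSum _ fun j _ => (hint i j).mul_const _]
    exact Finset.sum_congr rfl fun j _ => (integral_mul_const _ _).symm
  rw [h1]
  refine Tendsto.congr' h3 ?_
  exact tendsto_finsetSum _ fun i _ => tendsto_finsetSum _ fun j _ =>
    (P.Psi_iso (e i) (e i).2 (e j) (e j).2).const_mul _

end Crest.Agent.R330.IsoX383

end
end

-- ▼ part R330/Fub_406
section

/-!
# Row 330, S8-ISO (helper406): Fubini on the slice of a chart, for 372's Gram limit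

* `det_dilN` : `|det (dilN s t)| = s ^ dim Blk * t ^ dim (Zt X0)` for 372's `splitC C`.
* `nI_scale` : `nI P σ g X = g ^ (-dim (Zt X0) / 2) * nI P σ 1 X`.
* `slice_norm` : the normalised Gaussian integrates to one on the fibres:
  `∫_{Nor} (nI)⁻¹ exp (- g ⟪A z, z⟫) h (X, Y) = ∫_X ∫_Y h (X, Y)`.
-/

set_option autoImplicit false
set_option linter.unusedSectionVars false

open MeasureTheory Filter Topology Crest.MathPhysics.MatrixQM
open scoped ContDiff InnerProductSpace ENNReal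

noncomputable section

namespace Crest.Agent.R330.Fub406

open Crest.Agent.R330.Defs478 Crest.Agent.R330.LS839 Crest.Agent.R330.Frame839
  Crest.Agent.R330.Clus839 Crest.Agent.R330.Bind6839 Crest.Agent.R330.SlG944
  Crest.Agent.R330.SlF944 Crest.Agent.R330.TDef414 Crest.Agent.R330.LitA974
  Crest.Agent.R330.TG372
open Crest.Agent.R330.SlB314 (Nor Tan brx)

variable {N p : ℕ} {b : ColorBasis N} {S : Type} [Group S] [Fintype S] (C : Chn b p S)
  {X0 : Pos p}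

/-! ### coordinates of the slice -/

theorem coord_emb (h : C.Reg X0) : MeasurableEmbedding (fun q : (Pos p × C.Blk) × C.Zt X0 =>
      ((⟨C.cf q.1.1 + q.1.2 + q.2, Submodule.add_mem _ (Submodule.add_mem _
        (cf_mem_Nor C h _) (Blk_le_Nor C h q.1.2.2)) q.2.2.2⟩ : Nor b (C.cf X0)))) := by
  have h1 : Measurable (fun q : (Pos p × C.Blk) × C.Zt X0 =>
      ((⟨C.cf q.1.1 + q.1.2 + q.2, Submodule.add_mem _ (Submodule.add_mem _
        (cf_mem_Nor C h _) (Blk_le_Nor C h q.1.2.2)) q.2.2.2⟩ : Nor b (C.cf X0)))) :=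
    (mp_coord C h).measurable
  refine h1.measurableEmbedding fun q q' he => ?_
  have he' : C.cf q.1.1 + q.1.2 + q.2 = C.cf q'.1.1 + q'.1.2 + q'.2 := congrArg Subtype.val he
  have e1 := congrArg C.cfT he'
  rw [cfT_coord C q.1.2.2 q.2.2.1, cfT_coord C q'.1.2.2 q'.2.2.1] at e1
  have e2 := congrArg C.PY he'
  rw [PY_coord C q.1.2.2 q.2.2.1, PY_coord C q'.1.2.2 q'.2.2.1] at e2
  have e3 := congrArg C.PM he'
  rw [PM_coord C q.1.2.2 q.2.2.1, PM_coord C q'.1.2.2 q'.2.2.1] at e3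
  exact Prod.ext (Prod.ext e1 (Subtype.ext e2)) (Subtype.ext e3)


/-- Fubini, without integrability hypothesis on the slice -/
theorem integral_nor_prod (h : C.Reg X0) {G : Type*} [NormedAddCommGroup G] [NormedSpace ℝ G]
    (f : Cfg N → G) : ∫ u : Nor b (C.cf X0), f u =
      ∫ q : (Pos p × C.Blk) × C.Zt X0, f (C.cf q.1.1 + q.1.2 + q.2) :=
  ((mp_coord C h).integral_comp (coord_emb C h) (fun u : Nor b (C.cf X0) => f u)).symm

/-! ### the determinant of the dilation -/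


theorem dil_coord (s t : ℝ) (X : Pos p) {Y z : Cfg N} (hY : Y ∈ C.Blk) (hz : z ∈ Tup C.kkᗮ) :
    (splitC C).dil s t (C.cf X + Y + z) = C.cf X + s • Y + t • z := by
  rw [Ovl372.Split.dil_apply, splitC_PX, splitC_PY, splitC_PM, cfT_coord C hY hz,
    PY_coord C hY hz, PM_coord C hY hz]

theorem gauss_scale (d : ℕ) {s : ℝ} (hs : 0 < s) :
    (Real.pi / s ^ 2) ^ ((d : ℝ) / 2) * s ^ d = (Real.pi / 1 ^ 2) ^ ((d : ℝ) / 2) := by
  rw [Real.div_rpow Real.pi_pos.le (by positivity), Real.div_rpow Real.pi_pos.le (by positivity)]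
  have h1 : (s ^ 2) ^ ((d : ℝ) / 2) = s ^ d := by
    rw [← Real.rpow_natCast s 2, ← Real.rpow_mul hs.le, ← Real.rpow_natCast s d]
    congr 1
    push_cast
    ring
  rw [h1]
  have h2 : (0 : ℝ) < s ^ d := by positivity
  rw [one_pow, Real.one_rpow]
  field_simp

/-- Gaussian integral of the dilated norm on the slice -/
theorem integral_gauss_dil (h : C.Reg X0) {s t : ℝ} (hs : 0 < s) (ht : 0 < t) :
    ∫ v : Nor b (C.cf X0), Real.exp (-(1 : ℝ) * ‖(splitC C).dil s t v‖ ^ 2) =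
      (∫ X : Pos p, Real.exp (-(1 : ℝ) * ‖X‖ ^ 2)) *
        (Real.pi / s ^ 2) ^ ((Module.finrank ℝ C.Blk : ℝ) / 2) *
        (Real.pi / t ^ 2) ^ ((Module.finrank ℝ (C.Zt X0) : ℝ) / 2) := by
  rw [integral_nor_prod C h fun u => Real.exp (-(1 : ℝ) * ‖(splitC C).dil s t u‖ ^ 2)]
  have e1 : ∀ q : (Pos p × C.Blk) × C.Zt X0,
      Real.exp (-(1 : ℝ) * ‖(splitC C).dil s t (C.cf q.1.1 + q.1.2 + q.2)‖ ^ 2) =
        (Real.exp (-(1 : ℝ) * ‖q.1.1‖ ^ 2) * Real.exp (-(s ^ 2) * ‖q.1.2‖ ^ 2)) *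
          Real.exp (-(t ^ 2) * ‖q.2‖ ^ 2) := by
    intro q
    rw [dil_coord C s t q.1.1 q.1.2.2 q.2.2.1,
      norm_sq_coord C (C.Blk.smul_mem s q.1.2.2) ((Tup C.kkᗮ).smul_mem t q.2.2.1), norm_smul,
      norm_smul, ← Real.exp_add, ← Real.exp_add]
    congr 1
    rw [mul_pow, mul_pow, Real.norm_eq_abs, Real.norm_eq_abs, sq_abs, sq_abs]
    simp only [Submodule.coe_norm]
    ring
  simp only [e1]
  rw [Measure.volume_eq_prod, integral_prod_mul
    (fun q : Pos p × C.Blk => Real.exp (-(1 : ℝ) * ‖q.1‖ ^ 2) * Real.exp (-(s ^ 2) * ‖q.2‖ ^ 2))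
    (fun z : C.Zt X0 => Real.exp (-(t ^ 2) * ‖z‖ ^ 2)), Measure.volume_eq_prod, integral_prod_mul
    (fun X : Pos p => Real.exp (-(1 : ℝ) * ‖X‖ ^ 2))
    (fun Y : C.Blk => Real.exp (-(s ^ 2) * ‖Y‖ ^ 2)),
    GaussianFourier.integral_rexp_neg_mul_sq_norm (V := C.Blk) (by positivity : 0 < s ^ 2),
    GaussianFourier.integral_rexp_neg_mul_sq_norm (V := C.Zt X0) (by positivity : 0 < t ^ 2)]

theorem det_dilN (h : C.Reg X0) {s t : ℝ} (hs : 0 < s) (ht : 0 < t)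
    (hc : (splitC C).PX (C.cf X0) = C.cf X0) :
    |LinearMap.det ((splitC C).dilN hc s t)| =
      s ^ Module.finrank ℝ C.Blk * t ^ Module.finrank ℝ (C.Zt X0) := by
  set D := (splitC C).dilN hc s t with hD
  have hdet : LinearMap.det D ≠ 0 := (splitC C).det_dilN_ne hc hs.ne' ht.ne'
  have h1 := Ovl372.integral_lin (V := Nor b (C.cf X0)) (E := ℝ) D hdet
    (fun u : Nor b (C.cf X0) => Real.exp (-(1 : ℝ) * ‖(u : Cfg N)‖ ^ 2))
  have h2 := integral_gauss_dil C h hs ht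
  have h3 := integral_gauss_dil C h one_pos one_pos
  have e3 : ∀ v : Nor b (C.cf X0), (splitC C).dil 1 1 (v : Cfg N) = v := fun v =>
    (splitC C).dil_one v
  simp only [e3] at h3
  have e2 : ∀ v : Nor b (C.cf X0), ((D v : Nor b (C.cf X0)) : Cfg N) = (splitC C).dil s t v :=
    fun v => rfl
  simp only [e2] at h1
  rw [h2, h3, smul_eq_mul] at h1
  set Ix := ∫ X : Pos p, Real.exp (-(1 : ℝ) * ‖X‖ ^ 2) with hIx
  have hIx0 : 0 < Ix := by
    rw [hIx, GaussianFourier.integral_rexp_neg_mul_sq_norm (V := Pos p) one_pos]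
    positivity
  rw [← gauss_scale (Module.finrank ℝ C.Blk) hs, ← gauss_scale (Module.finrank ℝ (C.Zt X0)) ht]
    at h1
  have p1 : 0 < (Real.pi / s ^ 2) ^ ((Module.finrank ℝ C.Blk : ℝ) / 2) := by positivity
  have p2 : 0 < (Real.pi / t ^ 2) ^ ((Module.finrank ℝ (C.Zt X0) : ℝ) / 2) := by positivity
  have p3 : 0 < Ix * (Real.pi / s ^ 2) ^ ((Module.finrank ℝ C.Blk : ℝ) / 2) *
      (Real.pi / t ^ 2) ^ ((Module.finrank ℝ (C.Zt X0) : ℝ) / 2) := by positivity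
  refine mul_right_cancel₀ p3.ne' (h1.symm.trans ?_)
  ring


/-! ### the normalisation -/

variable {C} {F : Type*} [NormedAddCommGroup F] [InnerProductSpace ℂ F]
  [FiniteDimensional ℂ F] {M : FermionRep N F} {R : GaugeAction b M} {G : GammaNine}


/-- the Gaussian is integrable on the fibre -/
theorem integrable_gauss (P : TPack C M R G) (σ : Sl C) {g : ℝ} (hg : 0 < g) {X : Pos p}
    (hr : ‖X - σ.X0‖ < σ.r) :
    Integrable fun z : C.Zt σ.X0 => Real.exp (-(g * ⟪P.A X z, z⟫_ℝ)) := by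
  by_contra h
  have h1 := TCore383.nI_pos P σ hg hr
  unfold nI at h1
  rw [integral_undef h] at h1
  exact lt_irrefl _ h1

/-- the normalised Gaussian kernel in coordinates -/
def nK (P : TPack C M R G) (σ : Sl C) (g : ℝ) (X : Pos p) (z : Cfg N) : ℝ :=
  (nI P σ g (σ.X0 + X))⁻¹ * Real.exp (-(g * ⟪P.A (σ.X0 + X) z, z⟫_ℝ))

theorem nK_nonneg (P : TPack C M R G) (σ : Sl C) {g : ℝ} (X : Pos p) (z : Cfg N) :
    0 ≤ nK P σ g X z :=
  mul_nonneg (inv_nonneg.2 (integral_nonneg fun _ => (Real.exp_pos _).le)) (Real.exp_pos _).le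

theorem ball_add (σ : Sl C) {X : Pos p} (hX : ‖X‖ < σ.r) : ‖σ.X0 + X - σ.X0‖ < σ.r := by
  rwa [add_sub_cancel_left]

theorem integrable_nK (P : TPack C M R G) (σ : Sl C) {g : ℝ} (hg : 0 < g) {X : Pos p}
    (hX : ‖X‖ < σ.r) : Integrable fun z : C.Zt σ.X0 => nK P σ g X z :=
  (integrable_gauss P σ hg (ball_add σ hX)).const_mul _

theorem integral_nK (P : TPack C M R G) (σ : Sl C) {g : ℝ} (hg : 0 < g) {X : Pos p}
    (hX : ‖X‖ < σ.r) : ∫ z : C.Zt σ.X0, nK P σ g X z = 1 := by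
  unfold nK
  rw [integral_const_mul]
  exact inv_mul_cancel₀ (TCore383.nI_pos P σ hg (ball_add σ hX)).ne'

theorem continuousOn_nK (P : TPack C M R G) (σ : Sl C) {g : ℝ} (hg : 0 < g) :
    ContinuousOn (fun q : Pos p × Cfg N => nK P σ g q.1 q.2) {q | ‖q.1‖ < σ.r} := by
  intro q hq
  refine ContinuousAt.continuousWithinAt ?_
  have h0 : ContinuousAt (fun q : Pos p × Cfg N => σ.X0 + q.1) q := by fun_prop
  have h1 : ContinuousAt (fun q : Pos p × Cfg N => nI P σ g (σ.X0 + q.1)) q :=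
    ContinuousAt.comp (f := fun q : Pos p × Cfg N => σ.X0 + q.1) (g := nI P σ g)
      (TCore383.contDiffAt_nI P σ hg (ball_add σ hq)).continuousAt h0
  have h2 : ContinuousAt (fun q : Pos p × Cfg N => P.A (σ.X0 + q.1)) q :=
    ContinuousAt.comp (f := fun q : Pos p × Cfg N => σ.X0 + q.1) (g := P.A)
      (P.A_smooth _ (σ.reg _ (ball_add σ hq))).continuousAt h0
  have h3 : ContinuousAt (fun q : Pos p × Cfg N => P.A (σ.X0 + q.1) q.2) q :=
    h2.clm_apply continuousAt_snd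
  have h4 : ContinuousAt (fun q : Pos p × Cfg N => ⟪P.A (σ.X0 + q.1) q.2, q.2⟫_ℝ) q :=
    h3.inner continuousAt_snd
  exact (h1.inv₀ (TCore383.nI_pos P σ hg (ball_add σ hq)).ne').mul
    ((continuousAt_const.mul h4).neg.rexp)

section norm

variable {E : Type*} [NormedAddCommGroup E] [NormedSpace ℝ E]

/-- abstract form: a Markov kernel density over a measurable set -/
theorem kernel_aux {α β : Type*} [MeasurableSpace α] [MeasurableSpace β] {μ : Measure α}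
    {ν : Measure β} [SFinite μ] [SFinite ν] {K : α → β → ℝ} {h : α → E} {S : Set α}
    (hS : MeasurableSet S)
    (hK : AEStronglyMeasurable (fun q : α × β => K q.1 q.2)
      ((μ.prod ν).restrict (S ×ˢ Set.univ)))
    (hh : Integrable h μ) (hs : ∀ x, x ∉ S → h x = 0) (h0 : ∀ x y, 0 ≤ K x y)
    (h1 : ∀ x ∈ S, Integrable (K x) ν) (h2 : ∀ x ∈ S, ∫ y, K x y ∂ν = 1) :
    Integrable (fun q : α × β => K q.1 q.2 • h q.1) (μ.prod ν) := by
  have hm : AEStronglyMeasurable (fun q : α × β => K q.1 q.2 • h q.1) (μ.prod ν) := by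
    have e1 : (fun q : α × β => K q.1 q.2 • h q.1) =
        (S ×ˢ Set.univ).indicator fun q => K q.1 q.2 • h q.1 := by
      funext q
      by_cases hq : q.1 ∈ S
      · rw [Set.indicator_of_mem (by exact ⟨hq, Set.mem_univ _⟩)]
      · rw [Set.indicator_of_notMem (by exact fun h => hq h.1), hs _ hq, smul_zero]
    rw [e1, aestronglyMeasurable_indicator_iff (hS.prod MeasurableSet.univ)]
    exact hK.smul (hh.1.comp_quasiMeasurePreserving Measure.quasiMeasurePreserving_fst).restrict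
  rw [integrable_prod_iff hm]
  refine ⟨Eventually.of_forall fun x => ?_, ?_⟩
  · by_cases hx : x ∈ S
    · exact Integrable.smul_const (f := K x) (h1 x hx) (h x)
    · simp only [hs _ hx, smul_zero]
      exact integrable_zero _ _ _
  · refine hh.norm.congr (Eventually.of_forall fun x => ?_)
    simp only
    by_cases hx : x ∈ S
    · have e2 : ∀ y, ‖K x y • h x‖ = K x y * ‖h x‖ := fun y => by
        rw [norm_smul, Real.norm_of_nonneg (h0 _ _)]
      simp only [e2]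
      rw [integral_mul_const, h2 x hx, one_mul]
    · simp [hs _ hx]

theorem kernel_int [CompleteSpace E] {α β : Type*} [MeasurableSpace α] [MeasurableSpace β]
    {μ : Measure α} {ν : Measure β} [SFinite μ] [SFinite ν] {K : α → β → ℝ} {h : α → E}
    {S : Set α} (hI : Integrable (fun q : α × β => K q.1 q.2 • h q.1) (μ.prod ν))
    (hs : ∀ x, x ∉ S → h x = 0) (h2 : ∀ x ∈ S, ∫ y, K x y ∂ν = 1) :
    ∫ q, K q.1 q.2 • h q.1 ∂(μ.prod ν) = ∫ x, h x ∂μ := by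
  rw [integral_prod _ hI]
  refine integral_congr_ae (Eventually.of_forall fun x => ?_)
  simp only
  by_cases hx : x ∈ S
  · rw [integral_smul_const, h2 x hx, one_smul]
  · simp [hs _ hx]

theorem aesm_nK (P : TPack C M R G) (σ : Sl C) {g : ℝ} (hg : 0 < g) :
    AEStronglyMeasurable (fun q : (Pos p × C.Blk) × C.Zt σ.X0 => nK P σ g q.1.1 (q.2 : Cfg N))
      (((volume : Measure (Pos p × C.Blk)).prod (volume : Measure (C.Zt σ.X0))).restrict
        ({x : Pos p × C.Blk | ‖x.1‖ < σ.r} ×ˢ Set.univ)) := by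
  have hSo : IsOpen ({x : Pos p × C.Blk | ‖x.1‖ < σ.r} ×ˢ (Set.univ : Set (C.Zt σ.X0))) :=
    (isOpen_lt (continuous_norm.comp continuous_fst) continuous_const).prod isOpen_univ
  have hc : Continuous fun q : (Pos p × C.Blk) × C.Zt σ.X0 => (q.1.1, (q.2 : Cfg N)) :=
    (continuous_fst.comp continuous_fst).prodMk (continuous_subtype_val.comp continuous_snd)
  have h1 : ContinuousOn (fun q : (Pos p × C.Blk) × C.Zt σ.X0 =>
      nK P σ g q.1.1 (q.2 : Cfg N)) ({x : Pos p × C.Blk | ‖x.1‖ < σ.r} ×ˢ Set.univ) :=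
    ContinuousOn.comp (g := fun q : Pos p × Cfg N => nK P σ g q.1 q.2)
      (f := fun q : (Pos p × C.Blk) × C.Zt σ.X0 => (q.1.1, (q.2 : Cfg N)))
      (t := {q | ‖q.1‖ < σ.r}) (continuousOn_nK P σ hg) hc.continuousOn fun q hq => hq.1
  exact h1.aestronglyMeasurable hSo.measurableSet

theorem integrable_prod_nK (P : TPack C M R G) (σ : Sl C) {g : ℝ} (hg : 0 < g)
    {h : Pos p → Cfg N → E} (hh : Integrable fun q : Pos p × C.Blk => h q.1 q.2)
    (hs : ∀ X Y, σ.r ≤ ‖X‖ → h X Y = 0) :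
    Integrable (fun q : (Pos p × C.Blk) × C.Zt σ.X0 => nK P σ g q.1.1 q.2 • h q.1.1 q.1.2)
      ((volume : Measure (Pos p × C.Blk)).prod (volume : Measure (C.Zt σ.X0))) :=
  kernel_aux (K := fun (x : Pos p × C.Blk) (z : C.Zt σ.X0) => nK P σ g x.1 (z : Cfg N))
    (h := fun x : Pos p × C.Blk => h x.1 x.2) (S := {x | ‖x.1‖ < σ.r})
    (isOpen_lt (by fun_prop) continuous_const).measurableSet (aesm_nK P σ hg) hh
    (fun x hx => hs _ _ (not_lt.1 hx)) (fun x y => nK_nonneg P σ _ _)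
    (fun x hx => integrable_nK P σ hg hx) (fun x hx => integral_nK P σ hg hx)

/-- **the normalised Gaussian integrates to one on the fibres** -/
theorem slice_norm [CompleteSpace E] (P : TPack C M R G) (σ : Sl C) {g : ℝ} (hg : 0 < g)
    {h : Pos p → Cfg N → E} (hh : Integrable fun q : Pos p × C.Blk => h q.1 q.2)
    (hs : ∀ X Y, σ.r ≤ ‖X‖ → h X Y = 0) :
    ∫ v : Nor b (C.cf σ.X0), nK P σ g (C.cfT v) (C.PM v) • h (C.cfT v) (C.PY v) =
      ∫ X : Pos p, ∫ Y : C.Blk, h X Y := by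
  have h0 : C.Reg σ.X0 := σ.reg _ (by simpa using σ.pos)
  have hI := integrable_prod_nK P σ hg hh hs
  have h3 := kernel_int (K := fun (x : Pos p × C.Blk) (z : C.Zt σ.X0) => nK P σ g x.1 (z : Cfg N))
    (h := fun x : Pos p × C.Blk => h x.1 x.2) (S := {x | ‖x.1‖ < σ.r}) hI
    (fun x hx => hs _ _ (not_lt.1 hx)) (fun x hx => integral_nK P σ hg hx)
  rw [integral_nor_prod C h0 fun v => nK P σ g (C.cfT v) (C.PM v) • h (C.cfT v) (C.PY v)]
  have e1 : ∀ q : (Pos p × C.Blk) × C.Zt σ.X0,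
      nK P σ g (C.cfT (C.cf q.1.1 + q.1.2 + q.2)) (C.PM (C.cf q.1.1 + q.1.2 + q.2)) •
        h (C.cfT (C.cf q.1.1 + q.1.2 + q.2)) (C.PY (C.cf q.1.1 + q.1.2 + q.2)) =
        nK P σ g q.1.1 q.2 • h q.1.1 q.1.2 := fun q => by
    rw [cfT_coord C q.1.2.2 q.2.2.1, PM_coord C q.1.2.2 q.2.2.1, PY_coord C q.1.2.2 q.2.2.1]
  simp only [e1]
  refine h3.trans ?_
  rw [Measure.volume_eq_prod] at hh ⊢
  exact integral_prod _ hh


end norm

end Crest.Agent.R330.Fub406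

end
end

-- ▼ part R330/Gram6_372

/-!
# Row 330, S8-ISO (helper372): `Cross P`

The pairing limit of two charts for one amplitude: gram_TG (fixed profile), the fibre integral
(406), the limit of the profile (383), the passage to the limit (893) with `Psi_scale`.
-/

set_option autoImplicit false
set_option linter.unusedSectionVars false

open MeasureTheory Filter Topology Crest.MathPhysics.MatrixQM
open scoped ContDiff InnerProductSpace ENNReal Real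

noncomputable section

namespace Crest.Agent.R330.Gram6372

open Crest.Agent.R330.Defs478 Crest.Agent.R330.LS839 Crest.Agent.R330.Frame839
  Crest.Agent.R330.Clus839
  Crest.Agent.R330.Bind6839 Crest.Agent.R330.SlG944 Crest.Agent.R330.SlF944
  Crest.Agent.R330.TDef414 Crest.Agent.R330.TG372 Crest.Agent.R330.TGC372
  Crest.Agent.R330.Gram4372 Crest.Agent.R330.Gram5372 Crest.Agent.R330.LitA974
  Crest.Agent.R330.L2TG383
open Crest.Agent.R330.TCore383 (aT cfT_act PK_act PY_act PM_act act_cf contDiff_PY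
  contDiffAt_pos contDiffAt_aT aT_act cfT_ball norm_le_sum nI_eq nI_pos contDiffAt_nI nrm_pos
  contDiffAt_nrm dt_pos cf_ball nrm_sq)
open Crest.Agent.R330.SlB314 (Nor Tan br brx)
open Crest.Agent.R330.SlD314 (tube)
open Crest.Agent.R330.Rho815 (UC isOpen_UC mem_UC lt_left lt_right rr_contOn Cross)

variable {N p : ℕ} {b : ColorBasis N} {S : Type} [Group S] [Fintype S] {C : Chn b p S}

variable {F : Type*} [NormedAddCommGroup F] [InnerProductSpace ℂ F] [FiniteDimensional ℂ F]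
  {M : FermionRep N F} {R : GaugeAction b M} {G : GammaNine}

/-- the scalar identity -/
theorem weight_eq (P : TPack C M R G) {σ σ' : Sl C} {X : Pos p} (hX : X ∈ UC σ σ') :
    nrm P σ 1 X * ((σ'.j (C.cf (X - σ'.X0)))⁻¹ * nrm P σ' 1 X) =
      (nI P σ 1 X)⁻¹ * Rho815.rr P σ σ' X := by
  obtain ⟨h1, h2⟩ := cf_ball σ (lt_left hX)
  obtain ⟨h3, h4⟩ := cf_ball σ' (lt_right hX)
  have j1 := σ.jpos _ h1 h2
  have j2 := σ'.jpos _ h3 h4
  have i1 := nI_pos P σ one_pos (lt_left hX)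
  have i2 := nI_pos P σ' one_pos (lt_right hX)
  have n1 := nrm_pos P σ one_pos (lt_left hX)
  have n2 := nrm_pos P σ' one_pos (lt_right hX)
  have r1 := Rho815.rr_pos P hX
  have s1 := nrm_sq P σ one_pos (lt_left hX)
  have s2 := nrm_sq P σ' one_pos (lt_right hX)
  have s3 : Rho815.rr P σ σ' X ^ 2 = σ.j (C.cf (X - σ.X0)) * nI P σ 1 X /
      (σ'.j (C.cf (X - σ'.X0)) * nI P σ' 1 X) := by
    unfold Rho815.rr
    exact Real.sq_sqrt (by positivity)
  refine (sq_eq_sq₀ (by positivity) (by positivity)).1 ?_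
  rw [mul_pow, mul_pow, mul_pow, s1, s2, s3]
  field_simp

/-- the integrand over positions and blocks -/
def hh (P : TPack C M R G) (σ σ' : Sl C) (Ψ : Cfg N → F →L[ℂ] F) (χ : Pos p → C.Fx M G)
    (X : Pos p) (Y : Cfg N) : ℂ :=
  (Rho815.rr P σ σ' X : ℂ) * ⟪Ψ Y (χ X : F), Ψ Y (χ X : F)⟫_ℂ

theorem hh_integrable (P : TPack C M R G) {σ σ' : Sl C} {χ : Amp M G σ} {χ' : Amp M G σ'}
    (h : χ.fn = χ'.fn) {Ψ : Cfg N → F →L[ℂ] F} {ρ : ℝ} (H : IsBlk P Ψ ρ) :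
    Integrable fun q : Pos p × C.Blk => hh P σ σ' Ψ χ.fn (σ.X0 + q.1) q.2 := by
  have hc : Continuous fun q : Pos p × C.Blk => hh P σ σ' Ψ χ.fn (σ.X0 + q.1) q.2 := by
    rw [continuous_iff_continuousAt]
    intro q
    have ht : Continuous fun q : Pos p × C.Blk => σ.X0 + q.1 := continuous_const.add continuous_fst
    by_cases hq : σ.X0 + q.1 ∈ tsupport χ.fn
    · have h1 : ContinuousAt (Rho815.rr P σ σ') (σ.X0 + q.1) :=
        (rr_contOn P σ σ').continuousAt ((isOpen_UC σ σ').mem_nhds (mem_UC h hq))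
      have h2 : ContinuousAt (fun q : Pos p × C.Blk => Rho815.rr P σ σ' (σ.X0 + q.1)) q :=
        ContinuousAt.comp (f := fun q : Pos p × C.Blk => σ.X0 + q.1) h1 ht.continuousAt
      have h3 : Continuous fun q : Pos p × C.Blk =>
          Ψ (q.2 : Cfg N) ((χ.fn (σ.X0 + q.1) : C.Fx M G) : F) :=
        (H.smooth.continuous.comp (continuous_subtype_val.comp continuous_snd)).clm_apply
          (continuous_subtype_val.comp (χ.smooth.continuous.comp ht))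
      exact (Complex.continuous_ofReal.continuousAt.comp h2).mul (h3.inner h3).continuousAt
    · have h1 : ∀ᶠ q' in 𝓝 q, σ.X0 + q'.1 ∉ tsupport χ.fn :=
        ht.continuousAt.eventually ((isClosed_tsupport χ.fn).isOpen_compl.mem_nhds hq)
      refine continuousAt_const.congr (f := fun _ => (0 : ℂ)) ?_
      filter_upwards [h1] with q' hq'
      unfold hh
      rw [image_eq_zero_of_notMem_tsupport hq']
      simp
  refine hc.integrable_of_hasCompactSupport (HasCompactSupport.intro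
    ((isCompact_closedBall (0 : Pos p) (σ.r / 4)).prod (isCompact_closedBall (0 : C.Blk) ρ))
    fun q hq => ?_)
  unfold hh
  rw [Set.mem_prod, not_and_or, mem_closedBall_zero_iff, mem_closedBall_zero_iff] at hq
  rcases hq with hq | hq
  · have h1 : χ.fn (σ.X0 + q.1) = 0 := by
      by_contra h2
      have h3 := supp_ball χ (subset_tsupport _ h2)
      rw [add_sub_cancel_left] at h3
      exact hq h3.le
    rw [h1]
    simp
  · have h1 : Ψ (q.2 : Cfg N) = 0 := H.supp _ q.2.2 (not_le.1 hq).le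
    rw [h1]
    simp

/-- the limit of the pairing with a fixed profile, as an integral over positions -/
theorem Lim_int (P : TPack C M R G) {σ σ' : Sl C} {χ : Amp M G σ} {χ' : Amp M G σ'}
    (h : χ.fn = χ'.fn) {Ψ : Cfg N → F →L[ℂ] F} {ρ : ℝ} (H : IsBlk P Ψ ρ) :
    ∫ v : Nor b (C.cf σ.X0), Lim P σ σ' Ψ χ.fn χ'.fn v =
      ∫ X, (Rho815.rr P σ σ' X : ℂ) * ∫ Y : C.Blk, ⟪Ψ Y (χ.fn X : F), Ψ Y (χ.fn X : F)⟫_ℂ := by
  have h1 := Fub406.slice_norm P σ one_pos (h := fun X Y => hh P σ σ' Ψ χ.fn (σ.X0 + X) Y)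
    (hh_integrable P h H) (fun X Y hX => by
      unfold hh
      have h2 : χ.fn (σ.X0 + X) = 0 := by
        by_contra h2
        have h3 := supp_ball χ (subset_tsupport _ h2)
        rw [add_sub_cancel_left] at h3
        have := σ.pos
        linarith
      rw [h2]
      simp)
  have h2 : ∫ v : Nor b (C.cf σ.X0), Lim P σ σ' Ψ χ.fn χ'.fn v =
      ∫ v : Nor b (C.cf σ.X0), Fub406.nK P σ 1 (C.cfT v) (C.PM v) •
        hh P σ σ' Ψ χ.fn (σ.X0 + C.cfT v) (C.PY v) := by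
    refine integral_congr_ae (Eventually.of_forall fun v => ?_)
    simp only
    unfold Lim hh Fub406.nK
    rw [← h]
    by_cases h0 : χ.fn (σ.X0 + C.cfT (v : Cfg N)) = 0
    · rw [h0]
      simp
    · have hX : σ.X0 + C.cfT (v : Cfg N) ∈ UC σ σ' := mem_UC h (subset_tsupport _ h0)
      rw [weight_eq P hX, Complex.real_smul, ← mul_assoc, one_mul]
      congr 1
      push_cast
      ring
  have h3 : ∀ X : Pos p, ∫ Y : C.Blk, hh P σ σ' Ψ χ.fn X Y =
      (Rho815.rr P σ σ' X : ℂ) * ∫ Y : C.Blk, ⟪Ψ Y (χ.fn X : F), Ψ Y (χ.fn X : F)⟫_ℂ := by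
    intro X
    unfold hh
    rw [integral_const_mul]
  rw [h2, h1]
  simp only [h3]
  exact integral_add_left_eq_self (fun X : Pos p => (Rho815.rr P σ σ' X : ℂ) *
    ∫ Y : C.Blk, ⟪Ψ Y (χ.fn X : F), Ψ Y (χ.fn X : F)⟫_ℂ) σ.X0

/-- the fixed profile family is close -/
theorem close [Nontrivial F] (P : TPack C M R G) (σ : Sl C) (χ : Amp M G σ) {ε : ℝ} (hε : 0 < ε) :
    ∀ᶠ k in atTop, ∀ᶠ g in atTop,
      ∫ x, ‖Tgen P σ g χ.fn x - TG P σ g (Psc P k g) χ.fn x‖ ^ 2 ≤ ε := by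
  obtain ⟨K, hK, hl2⟩ := l2_TG P σ χ
  have hε' : 0 < ε / (K + 1) := by positivity
  filter_upwards [P.Psi_scale _ hε', isBlk_Psi P, eventually_gt_atTop 0] with k h1 h2 hk0
  have hs : ∀ᶠ g in atTop, P.s g < σ.r / 4 :=
    P.s_lim.eventually_lt_const (by have := σ.pos; linarith)
  have hr : ∀ᶠ g in atTop, P.s k / ((g / k) ^ ((1 : ℝ) / 3)) < σ.r / 4 :=
    (tendsto_radius hk0 (P.s k)).eventually_lt_const (by have := σ.pos; linarith)
  filter_upwards [h1, isBlk_Psi P, eventually_gt_atTop 0, hs, hr] with g h3 h4 hg h5 h6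
  have hI := isBlk_sub (isBlk_mono h4 (le_max_left (P.s g) (P.s k / ((g / k) ^ ((1 : ℝ) / 3)))))
    (isBlk_mono (isBlk_Psc hk0 hg h2) (le_max_right (P.s g) (P.s k / ((g / k) ^ ((1 : ℝ) / 3)))))
  have h7 := hl2 g hg _ _ hI (max_le h5.le h6.le) _ hε'.le (fun f hf => h3 f hf)
  have h8 : ∀ x, Tgen P σ g χ.fn x - TG P σ g (Psc P k g) χ.fn x =
      TG P σ g (fun Y => P.Psi g Y - Psc P k g Y) χ.fn x := fun x =>
    (TG_sub P σ g (P.Psi g) (Psc P k g) χ.fn x).symm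
  simp only [h8]
  refine h7.trans ?_
  rw [mul_div_assoc', div_le_iff₀ (by positivity)]
  nlinarith

theorem memLp_TG [Nontrivial F] (P : TPack C M R G) (σ : Sl C) (χ : Amp M G σ) :
    ∀ᶠ k in atTop, ∀ᶠ g in atTop, MemLp (TG P σ g (Psc P k g) χ.fn) 2 volume := by
  filter_upwards [isBlk_Psi P, eventually_gt_atTop 0] with k hk hk0
  have hr : ∀ᶠ g in atTop, P.s k / ((g / k) ^ ((1 : ℝ) / 3)) < σ.r / 4 :=
    (tendsto_radius hk0 (P.s k)).eventually_lt_const (by have := σ.pos; linarith)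
  filter_upwards [eventually_gt_atTop 0, hr] with g hg h6
  exact OrthCh815.memLp_core (coreG P σ hg (isBlk_Psc hk0 hg hk) h6.le χ)

theorem bdd_TG [Nontrivial F] (P : TPack C M R G) (σ : Sl C) (χ : Amp M G σ) :
    ∀ᶠ k in atTop, ∃ B : ℝ, ∀ᶠ g in atTop, ∫ x, ‖TG P σ g (Psc P k g) χ.fn x‖ ^ 2 ≤ B := by
  filter_upwards [isBlk_Psi P, eventually_gt_atTop 0] with k hk hk0
  have h1 := gram_TG P σ σ χ χ (fun X hX => (supp_ball χ hX).le) hk0 hk
    (fun s t hs ht => Fub406.det_dilN C (reg0 σ) hs ht (hcc σ.X0))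
  refine ⟨‖∫ v : Nor b (C.cf σ.X0), Lim P σ σ (P.Psi k) χ.fn χ.fn v‖ + 1, ?_⟩
  filter_upwards [h1.norm.eventually_lt_const (lt_add_one _)] with g hg
  have h2 : ∫ x, ⟪TG P σ g (Psc P k g) χ.fn x, TG P σ g (Psc P k g) χ.fn x⟫_ℂ =
      ((∫ x, ‖TG P σ g (Psc P k g) χ.fn x‖ ^ 2 : ℝ) : ℂ) := by
    rw [← integral_complex_ofReal]
    refine integral_congr_ae (Eventually.of_forall fun x => ?_)
    simp only
    rw [inner_self_eq_norm_sq_to_K]
    push_cast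
    rfl
  rw [h2, Complex.norm_real, Real.norm_eq_abs] at hg
  exact (le_abs_self _).trans hg.le

/-- **the pairing limit of two charts** -/
theorem cross [Nontrivial F] (P : TPack C M R G) : Cross P := by
  intro σ σ' χ χ' h
  have hs' : ∀ X ∈ tsupport χ.fn, ‖X - σ'.X0‖ ≤ σ'.r / 4 := fun X hX =>
    (supp_ball χ' (by rwa [← h])).le
  refine Gram893.tendsto_pairing (μ := volume) (l := atTop) (l' := atTop)
    (x := fun g => Tgen P σ g χ.fn) (x' := fun g => Tgen P σ' g χ'.fn)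
    (y := fun k g => TG P σ g (Psc P k g) χ.fn) (y' := fun k g => TG P σ' g (Psc P k g) χ'.fn)
    ?_ ?_ (memLp_TG P σ χ) (memLp_TG P σ' χ') (fun ε hε => close P σ χ hε)
    (fun ε hε => close P σ' χ' hε) (bdd_TG P σ χ) (bdd_TG P σ' χ')
    (L := fun k => ∫ X, (Rho815.rr P σ σ' X : ℂ) *
      ∫ Y : C.Blk, ⟪P.Psi k Y (χ.fn X : F), P.Psi k Y (χ.fn X : F)⟫_ℂ) ?_ ?_
  · filter_upwards [TCore383.core P σ χ] with g hg
    exact OrthCh815.memLp_core hg
  · filter_upwards [TCore383.core P σ' χ'] with g hg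
    exact OrthCh815.memLp_core hg
  · filter_upwards [isBlk_Psi P, eventually_gt_atTop 0] with k hk hk0
    have h1 := gram_TG P σ σ' χ χ' hs' hk0 hk
      (fun s t hs ht => Fub406.det_dilN C (reg0 σ) hs ht (hcc σ.X0))
    rw [Lim_int P h hk] at h1
    exact h1
  · exact IsoX383.iso_int P χ.smooth.continuous χ.smooth.continuous χ.compact
      ((rr_contOn P σ σ').mono fun X hX => mem_UC h hX)

end Crest.Agent.R330.Gram6372
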