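import Crest.Agent.R330.TDef_414
import Crest.Agent.R330.TCore_944

/-!
# Row 330, S8-PERM (helper167): covariance of the trial states

* `actE b h` : the action of a group element as an isometry; action on `Nor`, `Tan`, tubes, `Good`.
* `Cov C h s` : `b.act h (C.cf X) = C.cf (C.O s X)` for all `X`; consequences for `cen`, `kk`, `Tup`,
  `PK`, `cfT`, `PY`, `PM`, `Blk`, `Zt`.
* `cov_stab` : elements of the stabiliser of a regular configuration are `Cov C h 1`.
-/

set_option autoImplicit false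
set_option linter.unusedSectionVars false

open MeasureTheory Filter Topology Crest.MathPhysics.MatrixQM
open scoped ContDiff InnerProductSpace ENNReal

noncomputable section

namespace Crest.Agent.R330.Perm167

open Crest.Agent.R330.Defs478 Crest.Agent.R330.LS839 Crest.Agent.R330.Frame839
  Crest.Agent.R330.Clus839
  Crest.Agent.R330.Bind6839 Crest.Agent.R330.SlG944 Crest.Agent.R330.SlF944
  Crest.Agent.R330.IBP837 Crest.Agent.R330.FreeC122 Crest.Agent.R330.TDef414
  Crest.Agent.R330.TCore944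
open Crest.Agent.R330.SlA314 (act_add act_sub act_smul act_one act_mul act_inv_act act_act_inv
  act_inner act_norm)
open Crest.Agent.R330.SlB314 (Nor Tan br mem_Nor)
open Crest.Agent.R330.SlD314 (tube mem_tube_iff)

variable {N p : ℕ}

local notation "SU" => Matrix.specialUnitaryGroup (Fin N) ℂ

/-! ## the action as an isometry -/

/-- The action of a group element as a linear isometry. -/
def aE (b : ColorBasis N) (h : SU) : Cfg N ≃ₗᵢ[ℝ] Cfg N where
  toFun := b.act h
  invFun := b.act h⁻¹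
  map_add' x y := act_add b h x y
  map_smul' t x := act_smul b h t x
  left_inv x := act_inv_act b h x
  right_inv x := act_act_inv b h x
  norm_map' x := act_norm b h x

variable {b : ColorBasis N}

@[simp] theorem aE_apply (h : SU) (x : Cfg N) : aE b h x = b.act h x := rfl

theorem act_zero (h : SU) : b.act h (0 : Cfg N) = 0 := (aE b h).map_zero


theorem inner_act_left (h : SU) (x y : Cfg N) : ⟪b.act h x, y⟫_ℝ = ⟪x, b.act h⁻¹ y⟫_ℝ := by
  rw [← act_inner b h⁻¹, act_inv_act]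

theorem mem_Nor' {c y : Cfg N} : y ∈ Nor b c ↔ ∀ om : Colg N, ⟪actB b om c, y⟫_ℝ = 0 := by
  rw [mem_Nor]
  exact ⟨fun h om => h om.ofLp, fun h om => h (WithLp.toLp 2 om)⟩

theorem act_mem_Nor' {c y : Cfg N} (hy : y ∈ Nor b c) (h : SU) :
    b.act h y ∈ Nor b (b.act h c) := by
  rw [mem_Nor'] at hy ⊢
  intro om
  have h1 := hy (adC b h⁻¹ om)
  rw [← act_inner b h, act_actB, ← adC_mul, mul_inv_cancel, adC_one] at h1
  exact h1

theorem act_mem_Nor_iff {c y : Cfg N} (h : SU) :
    b.act h y ∈ Nor b (b.act h c) ↔ y ∈ Nor b c := by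
  refine ⟨fun hy => ?_, fun hy => act_mem_Nor' hy h⟩
  have h1 := act_mem_Nor' hy h⁻¹
  rwa [act_inv_act, act_inv_act] at h1

theorem tube_act (c : Cfg N) (r : ℝ) (h : SU) : tube b (b.act h c) r = tube b c r := by
  ext x
  constructor
  · rintro ⟨g, hg⟩
    exact ⟨g * h, by rwa [act_mul]⟩
  · rintro ⟨g, hg⟩
    refine ⟨g * h⁻¹, ?_⟩
    rwa [act_mul, act_inv_act]

theorem good_act {c : Cfg N} {r : ℝ} (hg : Good b c r) (h : SU) : Good b (b.act h c) r where
  star g y y' hy hy' hn hn' he := by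
    have e1 : b.act (h⁻¹ * g * h) (c + b.act h⁻¹ y) = c + b.act h⁻¹ y' := by
      rw [act_mul, act_mul, act_add, act_act_inv, he, act_add, act_inv_act]
    have h1 : b.act h⁻¹ y ∈ Nor b c := by
      have := act_mem_Nor' hy h⁻¹
      rwa [act_inv_act] at this
    have h2 : b.act h⁻¹ y' ∈ Nor b c := by
      have := act_mem_Nor' hy' h⁻¹
      rwa [act_inv_act] at this
    have h3 := hg.star _ _ _ h1 h2 (by rwa [act_norm]) (by rwa [act_norm]) e1
    have h4 := congrArg (b.act h) h3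
    rw [act_mul, act_mul, act_act_inv] at h4
    exact h4
  nondeg y om hy hn hb := by
    have h1 : b.act h⁻¹ y ∈ Nor b c := by
      have := act_mem_Nor' hy h⁻¹
      rwa [act_inv_act] at this
    have e0 : SlB314.brx b om (b.act h c + y) = actB b (WithLp.toLp 2 om) (b.act h c + y) := rfl
    have e1 : b.act h⁻¹ (SlB314.brx b om (b.act h c + y)) =
        SlB314.brx b (adC b h⁻¹ (WithLp.toLp 2 om)).ofLp (c + b.act h⁻¹ y) := by
      rw [e0, act_actB, act_add, act_inv_act]
      rfl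
    have h2 := act_mem_Nor' hb h⁻¹
    rw [e1, act_inv_act] at h2
    have h3 := hg.nondeg _ _ h1 (by rwa [act_norm]) h2
    have h4 : actB b (adC b h⁻¹ (WithLp.toLp 2 om)) c = 0 := h3
    have h5 := congrArg (b.act h) h4
    rw [act_actB, ← adC_mul, mul_inv_cancel, adC_one, act_zero] at h5
    exact h5

/-! ## covariance for elements normalising the channel -/

variable {S : Type} [Group S] [Fintype S] (C : Chn b p S)

/-- `h` acts on the configurations of the channel by the permutation `s`. -/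
def Cov (h : SU) (s : S) : Prop := ∀ X : Pos p, b.act h (C.cf X) = C.cf (C.O s X)

theorem cov_w (s : S) : Cov C (C.w s) s := fun X => C.act_O s X

variable {C}

theorem O_one (X : Pos p) : C.O 1 X = X := by
  show lift9 (C.o 1) X = X
  rw [map_one]
  rfl

theorem O_mul (s t : S) (X : Pos p) : C.O (s * t) X = C.O s (C.O t X) := by
  show lift9 (C.o (s * t)) X = _
  rw [map_mul]
  rfl

theorem O_inv_O (s : S) (X : Pos p) : C.O s⁻¹ (C.O s X) = X := by
  rw [← O_mul, inv_mul_cancel, O_one]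

theorem O_O_inv (s : S) (X : Pos p) : C.O s (C.O s⁻¹ X) = X := by
  rw [← O_mul, mul_inv_cancel, O_one]


theorem inner_O_left (s : S) (X Y : Pos p) : ⟪C.O s X, Y⟫_ℝ = ⟪X, C.O s⁻¹ Y⟫_ℝ := by
  rw [← (C.O s⁻¹).inner_map_map, O_inv_O]

theorem Cov.inv {h : SU} {s : S} (hc : Cov C h s) : Cov C h⁻¹ s⁻¹ := fun X => by
  have h1 := hc (C.O s⁻¹ X)
  rw [O_O_inv] at h1
  rw [← h1, act_inv_act]

/-- the adjoint action on the centre -/
theorem Cov.cen {h : SU} {s : S} (hc : Cov C h s) (t : EuclideanSpace ℝ (Fin p)) :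
    adC b h (C.cen t) = C.cen (C.o s t) := by
  have h1 := congrArg (fun x => comp x 0) (hc (mkp fun _ => t))
  simp only [comp_actg, Chn.comp_cf] at h1
  exact h1

/-- the stabiliser algebra is the commutant of the centre -/
theorem mem_kk_iff {X0 : Pos p} (hX : C.Reg X0) (u : Colg N) :
    u ∈ C.kk ↔ ∀ t, (colAlg b).br u (C.cen t) = 0 := by
  constructor
  · intro hu t
    rw [(colAlg b).anti, C.cen_comm t u hu, neg_zero]
  · intro hu
    rw [← hX, kc_eq, ColAlg.mem_kk]
    intro i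
    rw [Chn.comp_cf, (colAlg b).anti, hu, neg_zero]

theorem adC_br (h : SU) (u v : Colg N) :
    adC b h ((colAlg b).br u v) = (colAlg b).br (adC b h u) (adC b h v) := by
  have h1 := congrArg (fun x => comp x 0) (act_actB (b := b) h u (mkc fun _ => v))
  simp only [comp_actg, comp_act, comp_mkc] at h1
  exact h1

theorem adC_inv_adC (h : SU) (u : Colg N) : adC b h⁻¹ (adC b h u) = u := by
  rw [← adC_mul, inv_mul_cancel, adC_one]

theorem adC_adC_inv (h : SU) (u : Colg N) : adC b h (adC b h⁻¹ u) = u := by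
  rw [← adC_mul, mul_inv_cancel, adC_one]

theorem Cov.kk {h : SU} {s : S} (hc : Cov C h s) {X0 : Pos p} (hX : C.Reg X0) {u : Colg N}
    (hu : u ∈ C.kk) : adC b h u ∈ C.kk := by
  rw [mem_kk_iff hX] at hu ⊢
  intro t
  have h1 : t = C.o s (C.o s⁻¹ t) := by
    have : C.o (s * s⁻¹) t = t := by
      rw [mul_inv_cancel, map_one]
      rfl
    rw [map_mul] at this
    exact this.symm
  rw [h1, ← hc.cen, ← adC_br, hu, map_zero]

theorem Cov.kk_iff {h : SU} {s : S} (hc : Cov C h s) {X0 : Pos p} (hX : C.Reg X0) {u : Colg N} :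
    adC b h u ∈ C.kk ↔ u ∈ C.kk := by
  refine ⟨fun hu => ?_, fun hu => hc.kk hX hu⟩
  have := hc.inv.kk hX hu
  rwa [adC_inv_adC] at this

theorem adC_inner_left (h : SU) (u v : Colg N) : ⟪adC b h u, v⟫_ℝ = ⟪u, adC b h⁻¹ v⟫_ℝ := by
  rw [← adC_inner h⁻¹, adC_inv_adC]

theorem Cov.kkp {h : SU} {s : S} (hc : Cov C h s) {X0 : Pos p} (hX : C.Reg X0) {u : Colg N}
    (hu : u ∈ C.kkᗮ) : adC b h u ∈ C.kkᗮ := by
  rw [Submodule.mem_orthogonal] at hu ⊢
  intro v hv
  rw [real_inner_comm, adC_inner_left, real_inner_comm]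
  exact hu _ (hc.inv.kk hX hv)

theorem Cov.tup {h : SU} {s : S} (hc : Cov C h s) {X0 : Pos p} (hX : C.Reg X0) {x : Cfg N}
    (hx : x ∈ Tup C.kk) : b.act h x ∈ Tup C.kk := fun i => by
  rw [comp_actg]
  exact hc.kk hX (hx i)

theorem Cov.tupp {h : SU} {s : S} (hc : Cov C h s) {X0 : Pos p} (hX : C.Reg X0) {x : Cfg N}
    (hx : x ∈ Tup C.kkᗮ) : b.act h x ∈ Tup C.kkᗮ := fun i => by
  rw [comp_actg]
  exact hc.kkp hX (hx i)

/-- orthogonal projections commute with isometries preserving the subspace -/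
theorem proj_act' {P : Submodule ℝ (Cfg N)} {h : SU} (h1 : ∀ y ∈ P, b.act h y ∈ P)
    (h2 : ∀ y ∈ P, b.act h⁻¹ y ∈ P) (x : Cfg N) :
    P.starProjection (b.act h x) = b.act h (P.starProjection x) := by
  apply Submodule.eq_starProjection_of_mem_of_inner_eq_zero
  · exact h1 _ (Submodule.starProjection_apply_mem _ _)
  · intro w hw
    rw [← act_sub, inner_act_left]
    have h3 := Submodule.sub_starProjection_mem_orthogonal (K := P) x
    rw [real_inner_comm]
    exact (Submodule.mem_orthogonal _ _).1 h3 _ (h2 w hw)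

theorem Cov.PK {h : SU} {s : S} (hc : Cov C h s) {X0 : Pos p} (hX : C.Reg X0) (x : Cfg N) :
    C.PK (b.act h x) = b.act h (C.PK x) :=
  proj_act' (fun _ hy => hc.tup hX hy) (fun _ hy => hc.inv.tup hX hy) x

theorem Cov.PM {h : SU} {s : S} (hc : Cov C h s) {X0 : Pos p} (hX : C.Reg X0) (x : Cfg N) :
    C.PM (b.act h x) = b.act h (C.PM x) := by
  unfold Chn.PM
  rw [hc.PK hX, act_sub]

theorem inner_cfT (u : Cfg N) (X : Pos p) : ⟪C.cfT u, X⟫_ℝ = ⟪u, C.cf X⟫_ℝ := by
  unfold Chn.cfT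
  rw [ContinuousLinearMap.adjoint_inner_left]
  rfl

theorem Cov.cfT {h : SU} {s : S} (hc : Cov C h s) (u : Cfg N) :
    C.cfT (b.act h u) = C.O s (C.cfT u) := by
  refine ext_inner_right ℝ fun X => ?_
  rw [inner_cfT, inner_act_left, hc.inv, ← inner_cfT, inner_O_left]

theorem Cov.PY {h : SU} {s : S} (hc : Cov C h s) {X0 : Pos p} (hX : C.Reg X0) (x : Cfg N) :
    C.PY (b.act h x) = b.act h (C.PY x) := by
  unfold Chn.PY
  rw [hc.PK hX, hc.cfT, act_sub, hc]

theorem cf_mem_tup (X : Pos p) : C.cf X ∈ Tup C.kk := fun i => by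
  rw [Chn.comp_cf]
  exact C.cen_mem _

theorem cf_mem_Nor (X X' : Pos p) : C.cf X ∈ Nor b (C.cf X') := by
  rw [mem_Nor']
  intro om
  rw [inner_comp]
  refine Finset.sum_eq_zero fun i _ => ?_
  rw [comp_act, Chn.comp_cf, Chn.comp_cf, (colAlg b).inv,
    C.cen_comm _ _ (C.cen_mem _), inner_zero_right]

theorem PY_mem_Blk (u : Cfg N) : C.PY u ∈ C.Blk := by
  refine ⟨(Tup C.kk).sub_mem (Submodule.starProjection_apply_mem _ _) (cf_mem_tup _), ?_⟩
  refine (Submodule.mem_orthogonal _ _).2 ?_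
  rintro _ ⟨X, rfl⟩
  show ⟪C.cf X, C.PY u⟫_ℝ = 0
  unfold Chn.PY
  rw [inner_sub_right, C.cf.inner_map_map]
  have h1 := Submodule.sub_starProjection_mem_orthogonal (K := Tup C.kk) u
  have h2 : ⟪C.cf X, u - C.PK u⟫_ℝ = 0 :=
    (Submodule.mem_orthogonal _ _).1 h1 _ (cf_mem_tup (C := C) X)
  rw [inner_sub_right] at h2
  have h4 : ⟪X, C.cfT u⟫_ℝ = ⟪C.cf X, u⟫_ℝ := by
    rw [real_inner_comm, inner_cfT, real_inner_comm]
  linarith

theorem norm_cfT_le (u : Cfg N) : ‖C.cfT u‖ ≤ ‖u‖ := by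
  have h1 : ‖C.cfT u‖ ^ 2 ≤ ‖u‖ * ‖C.cfT u‖ := by
    rw [← real_inner_self_eq_norm_sq, inner_cfT]
    refine (real_inner_le_norm _ _).trans ?_
    rw [C.cf.norm_map]
  by_contra h2
  rw [not_le] at h2
  nlinarith [norm_nonneg u, norm_nonneg (C.cfT u)]

/-- regularity is covariant -/
theorem Cov.breg {h : SU} {s : S} (hc : Cov C h s) {X0 : Pos p} (hX : C.Reg X0) {X : Pos p}
    (hb : C.BReg X) : C.BReg (C.O s X) := by
  rw [Chn.breg_iff] at hb ⊢
  intro u hu
  rw [← hc.inv.kk_iff hX]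
  refine hb _ fun i hi => ?_
  have h1 := hu i hi
  have h2 : C.cen (pcomp (C.O s X) i) = adC b h (C.cen (pcomp X i)) := by
    rw [hc.cen]
    rfl
  rw [h2] at h1
  have h3 := congrArg (adC b h⁻¹) h1
  rwa [adC_br, adC_inv_adC, map_zero] at h3

theorem Cov.reg {h : SU} {s : S} (hc : Cov C h s) {X : Pos p} (hX : C.Reg X) :
    C.Reg (C.O s X) := by
  unfold Chn.Reg
  ext u
  rw [← hc.inv.kk_iff hX, ← show kc (actB b) (C.cf X) = C.kk from hX, mem_kc, mem_kc]
  have h1 : actB b u (C.cf (C.O s X)) = b.act h (actB b (adC b h⁻¹ u) (C.cf X)) := by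
    rw [act_actB, adC_adC_inv, hc]
  rw [h1]
  constructor
  · intro h2
    have h3 := congrArg (b.act h⁻¹) h2
    rwa [act_inv_act, act_zero] at h3
  · intro h2
    rw [h2, act_zero]

/-- stabiliser elements of a regular configuration fix all configurations of the channel -/
theorem cov_stab {X0 : Pos p} (hX : C.Reg X0) {h : SU} (hh : b.act h (C.cf X0) = C.cf X0) :
    Cov C h 1 := by
  intro X
  rw [O_one]
  refine cen_fixed hh fun i => ⟨?_, fun v hv => ?_⟩
  · rw [show kc (actB b) (C.cf X0) = C.kk from hX, Chn.comp_cf]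
    exact C.cen_mem _
  · rw [show kc (actB b) (C.cf X0) = C.kk from hX] at hv
    have h1 : v ∈ kc (actB b) (C.cf X) := by
      rw [mem_kc]
      refine ext_comp fun j => ?_
      rw [comp_act, Chn.comp_cf, (colAlg b).anti, C.cen_comm _ _ hv, neg_zero, comp_zero]
    exact mem_kc_iff.1 h1 i

end Crest.Agent.R330.Perm167

end
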