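import Crest.Agent.R330.TDefB_414
import Crest.Agent.R330.Perm_167
import Crest.Agent.R330.CapSl_924
import Crest.Agent.R330.LocC_8
import Crest.Agent.R330.CapBind_737
import Crest.Agent.R330.ChFlat_718

-- ▼ part R330/HBX_450
section

/-!
# Row 330 (helper450): the block Hardy property, integrated over the positions (C10)

`P : TPack C M R G`, `w : Pos p → C.Blk → F` smooth, compactly supported, supported over a closed set
`K` of positions in `BReg`, with values in the heavy vacuum spaces `P.U X (Fl)`, equivariant.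

* `ampX P g w X` : the amplitude, `∈ C.Fx`, `⟪f, ampX⟫ = ∫_Y ⟪U_X (Psi g Y f), w X Y⟫`.
* `ampX_unique`, `continuous_ampX`, `ampX_off`.
* `hbX` : `PsiHardy P` gives
  `∫_X ∫_{‖Y‖ ≤ δ} ‖w‖² ≤ 3 ∫ ‖a‖² + K (g^(-2/3) + δ²) Σ_α ∫∫ ‖qblkB (w X)‖² + ε ∫∫ ‖w‖²`.
-/

set_option autoImplicit false
set_option linter.unusedSectionVars false

open MeasureTheory Filter Topology Crest.MathPhysics.MatrixQM
open scoped ContDiff InnerProductSpace ENNReal

noncomputable section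

namespace Crest.Agent.R330.HBX450

open Crest.Agent.R330.Bind6839 Crest.Agent.R330.TDef414 Crest.Agent.R330.LS839
  Crest.Agent.R330.Frame839 Crest.Agent.R330.Clus839 Crest.Agent.R330.Defs478

variable {N p : ℕ} {b : ColorBasis N} {S : Type} [Group S] [Fintype S] {C : Chn b p S}
  {F : Type*} [NormedAddCommGroup F] [InnerProductSpace ℂ F] [FiniteDimensional ℂ F]
  {M : FermionRep N F} {R : GaugeAction b M} {G : GammaNine}

/-! ### The left inverse of the heavy vacuum -/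

/-- `P_{Fl} U_X^*` -/
def Lx (P : TPack C M R G) (X : Pos p) : F →L[ℂ] F :=
  (C.Fl M G).starProjection.comp (ContinuousLinearMap.adjoint (P.U X))

theorem Lx_mem (P : TPack C M R G) (X : Pos p) (f : F) : Lx P X f ∈ C.Fl M G :=
  Submodule.starProjection_apply_mem _ _

theorem inner_Lx (P : TPack C M R G) (X : Pos p) {f : F} (hf : f ∈ C.Fl M G) (v : F) :
    ⟪f, Lx P X v⟫_ℂ = ⟪P.U X f, v⟫_ℂ := by
  unfold Lx
  rw [ContinuousLinearMap.comp_apply, ← Submodule.inner_starProjection_left_eq_right,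
    Submodule.starProjection_eq_self_iff.2 hf, ContinuousLinearMap.adjoint_inner_right]

theorem Lx_U (P : TPack C M R G) {X : Pos p} (hX : C.BReg X) {f : F} (hf : f ∈ C.Fl M G) :
    Lx P X (P.U X f) = f := by
  have h1 : Lx P X (P.U X f) - f ∈ C.Fl M G := Submodule.sub_mem _ (Lx_mem P X _) hf
  have h2 : ⟪Lx P X (P.U X f) - f, Lx P X (P.U X f) - f⟫_ℂ = 0 := by
    rw [inner_sub_right, inner_Lx P X h1, P.U_inner X hX _ h1 _ hf, sub_self]
  exact sub_eq_zero.1 (inner_self_eq_zero.1 h2)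

theorem norm_U (P : TPack C M R G) {X : Pos p} (hX : C.BReg X) {f : F} (hf : f ∈ C.Fl M G) :
    ‖P.U X f‖ = ‖f‖ := by
  have h := P.U_inner X hX f hf f hf
  rw [inner_self_eq_norm_sq_to_K, inner_self_eq_norm_sq_to_K] at h
  have h1 : ‖P.U X f‖ ^ 2 = ‖f‖ ^ 2 := by exact_mod_cast h
  exact (sq_eq_sq₀ (norm_nonneg _) (norm_nonneg _)).1 h1

/-- Coefficients in the colours of `kk` commute with `U_X` on `Fl`. -/
theorem od_comm (P : TPack C M R G) {X : Pos p} (hX : C.BReg X) {L : F →ₗ[ℂ] F}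
    (hL : L ∈ Od M C.kk) {f : F} (hf : f ∈ C.Fl M G) :
    L f ∈ C.Fl M G ∧ P.U X (L f) = L (P.U X f) := by
  unfold Od at hL
  induction hL using Submodule.span_induction with
  | mem x hx =>
    obtain ⟨β, u, hu, rfl⟩ := hx
    exact ⟨thv_mem_vacOf (Submodule.le_orthogonal_orthogonal _ hu) hf,
      P.U_comm X hX β u hu f hf⟩
  | zero => simp
  | add x y _ _ h1 h2 =>
    refine ⟨Submodule.add_mem _ h1.1 h2.1, ?_⟩
    rw [LinearMap.add_apply, LinearMap.add_apply, map_add, h1.2, h2.2]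
  | smul r x _ h1 =>
    refine ⟨Submodule.smul_mem _ _ h1.1, ?_⟩
    rw [LinearMap.smul_apply, LinearMap.smul_apply, map_smul, h1.2]

/-- A linear map with values in `Fl`: the derivative of an `Fl`-valued function. -/
theorem fderiv_mem {E : Type*} [NormedAddCommGroup E] [NormedSpace ℝ E] {K : Submodule ℂ F}
    {v : E → F} (hv : Differentiable ℝ v) (hm : ∀ Y, v Y ∈ K) (Y e : E) :
    fderiv ℝ v Y e ∈ K := by
  let Q : F →L[ℝ] F := K.starProjection.restrictScalars ℝ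
  have hQ : ∀ u, Q u = K.starProjection u := fun u => rfl
  have h3 : HasFDerivAt (Q ∘ v) (Q.comp (fderiv ℝ v Y)) Y :=
    Q.hasFDerivAt.comp Y (hv Y).hasFDerivAt
  have h2 : Q ∘ v = v := by
    funext Y
    rw [Function.comp_apply, hQ]
    exact Submodule.starProjection_eq_self_iff.2 (hm Y)
  rw [h2] at h3
  have h4 : fderiv ℝ v Y e = K.starProjection (fderiv ℝ v Y e) := by
    conv_lhs => rw [h3.fderiv]
    rfl
  rw [h4]
  exact Submodule.starProjection_apply_mem _ _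

/-! ### Families of block functions -/

/-- `X`-dependent block functions with values in the heavy vacuum spaces. -/
structure WFam (P : TPack C M R G) (K : Set (Pos p)) (w : Pos p → C.Blk → F) : Prop where
  closed : IsClosed K
  breg : ∀ X ∈ K, C.BReg X
  smooth : ContDiff ℝ ∞ fun q : Pos p × C.Blk => w q.1 q.2
  supp : HasCompactSupport fun q : Pos p × C.Blk => w q.1 q.2
  off : ∀ X, X ∉ K → ∀ Y, w X Y = 0
  vac : ∀ X ∈ K, ∀ Y, ∃ f ∈ C.Fl M G, P.U X f = w X Y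
  equi : ∀ X ∈ K, ∀ h : Matrix.specialUnitaryGroup (Fin N) ℂ, b.act h (C.cf X) = C.cf X →
    ∀ Y Y' : C.Blk, (Y' : Cfg N) = b.act h Y → w X Y' = R.ρ h (w X Y)

namespace WFam

variable {P : TPack C M R G} {K : Set (Pos p)} {w : Pos p → C.Blk → F} (hw : WFam P K w)
include hw

theorem smoothX (X : Pos p) : ContDiff ℝ ∞ (w X) :=
  hw.smooth.comp (contDiff_const.prodMk contDiff_id)

theorem exists_box : ∃ K1 : Set (Pos p), ∃ K2 : Set C.Blk, IsCompact K1 ∧ IsCompact K2 ∧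
    ∀ X Y, X ∉ K1 ∨ Y ∉ K2 → (X, Y) ∉ tsupport fun q : Pos p × C.Blk => w q.1 q.2 := by
  refine ⟨_, _, hw.supp.isCompact.image continuous_fst,
    hw.supp.isCompact.image continuous_snd, fun X Y h hn => ?_⟩
  rcases h with h | h
  · exact h ⟨_, hn, rfl⟩
  · exact h ⟨_, hn, rfl⟩

omit hw in
theorem zero_of {X : Pos p} {Y : C.Blk}
    (h : (X, Y) ∉ tsupport fun q : Pos p × C.Blk => w q.1 q.2) : w X Y = 0 :=
  image_eq_zero_of_notMem_tsupport (f := fun q : Pos p × C.Blk => w q.1 q.2) (x := (X, Y)) h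

theorem suppX (X : Pos p) : HasCompactSupport (w X) := by
  obtain ⟨K1, K2, h1, h2, h⟩ := hw.exists_box
  refine HasCompactSupport.of_support_subset_isCompact h2 fun Y hY => ?_
  by_contra hn
  exact hY (zero_of (h X Y (Or.inr hn)))

theorem U_Lx {X : Pos p} (hX : X ∈ K) (Y : C.Blk) : P.U X (Lx P X (w X Y)) = w X Y := by
  obtain ⟨f, hf, e⟩ := hw.vac X hX Y
  rw [← e, Lx_U P (hw.breg X hX) hf]

theorem norm_Lx {X : Pos p} (hX : X ∈ K) (Y : C.Blk) : ‖Lx P X (w X Y)‖ = ‖w X Y‖ := by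
  rw [← norm_U P (hw.breg X hX) (Lx_mem P X _), hw.U_Lx hX]

theorem smoothL (X : Pos p) : ContDiff ℝ ∞ fun Y => Lx P X (w X Y) :=
  ((Lx P X).restrictScalars ℝ).contDiff.comp (hw.smoothX X)

theorem suppL (X : Pos p) : HasCompactSupport fun Y => Lx P X (w X Y) :=
  (hw.suppX X).comp_left (g := Lx P X) (map_zero _)

theorem equiL {X : Pos p} (hX : X ∈ K) (h : Matrix.specialUnitaryGroup (Fin N) ℂ) (X' : Pos p)
    (hX' : C.Reg X') (hh : b.act h (C.cf X') = C.cf X') (Y Y' : C.Blk)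
    (hY : (Y' : Cfg N) = b.act h Y) :
    Lx P X (w X Y') = R.ρ h (Lx P X (w X Y)) := by
  have h1 : b.act h (C.cf X) = C.cf X := by
    have := Perm167.cov_stab (C := C) hX' hh X
    rwa [Perm167.O_one] at this
  have h2 := P.U_cov h X X (hw.breg X hX) (hw.breg X hX) h1 _ (Lx_mem P X (w X Y))
  rw [hw.equi X hX h h1 Y Y' hY]
  conv_lhs => rw [← hw.U_Lx hX Y, h2.2]
  exact Lx_U P (hw.breg X hX) h2.1

/-- derivatives of `w X` and of `L_X w X` -/
theorem fderiv_Lx {X : Pos p} (hX : X ∈ K) (Y e : C.Blk) :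
    P.U X (fderiv ℝ (fun Y => Lx P X (w X Y)) Y e) = fderiv ℝ (w X) Y e := by
  have h1 : (fun Y => ((P.U X).restrictScalars ℝ) (Lx P X (w X Y))) = w X :=
    funext fun Y => hw.U_Lx hX Y
  have h2 := (((P.U X).restrictScalars ℝ).hasFDerivAt (x := Lx P X (w X Y))).comp Y
    (((hw.smoothL X).differentiable (by simp)) Y).hasFDerivAt
  change HasFDerivAt (fun Y => ((P.U X).restrictScalars ℝ) (Lx P X (w X Y))) _ Y at h2
  rw [h1] at h2
  rw [h2.fderiv]
  rfl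

/-- **The block charges of `w X` and of `L_X w X` have the same norm.** -/
theorem norm_qblkB {X : Pos p} (hX : X ∈ K) (g : ℝ) (α : Fin 16) (Y : C.Blk) :
    ‖qblkB M G g α (fun Y => Lx P X (w X Y)) Y‖ = ‖qblkB M G g α (w X) Y‖ := by
  have hb := hw.breg X hX
  have hr : kc (actB b) (C.cf X) = C.kk := hb.reg
  have hU : ∀ e : C.Blk, (e : Cfg N) ∈ Uk b (C.cf X) := fun e => by
    have := e.2.1
    unfold Uk
    rwa [hr]
  have ha : ∀ e : C.Blk, aA M G α (e : Cfg N) ∈ Od M C.kk := fun e => by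
    have := aA_mem (b := b) (c := C.cf X) M G α (hU e)
    rwa [hr] at this
  have hwA : wA b M G g 0 α (Y : Cfg N) ∈ Od M C.kk := by
    have := wA_mem (b := b) (c := C.cf X) M G g 0 α (hU Y)
    rwa [hr] at this
  have hd : Differentiable ℝ fun Y => Lx P X (w X Y) := (hw.smoothL X).differentiable (by simp)
  have hm : ∀ e, fderiv ℝ (fun Y => Lx P X (w X Y)) Y e ∈ C.Fl M G := fun e =>
    fderiv_mem hd (fun Y => Lx_mem P X _) Y e
  have h1 : P.U X (qblkB M G g α (fun Y => Lx P X (w X Y)) Y) = qblkB M G g α (w X) Y := by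
    unfold qblkB
    rw [map_add, map_sum, (od_comm P hb hwA (Lx_mem P X _)).2, hw.U_Lx hX]
    congr 1
    refine Finset.sum_congr rfl fun n _ => ?_
    rw [(od_comm P hb (ha _) (hm _)).2, hw.fderiv_Lx hX]
  have h2 : qblkB M G g α (fun Y => Lx P X (w X Y)) Y ∈ C.Fl M G := by
    unfold qblkB
    refine Submodule.add_mem _ (Submodule.sum_mem _ fun n _ => ?_) ?_
    · exact (od_comm P hb (ha _) (hm _)).1
    · exact (od_comm P hb hwA (Lx_mem P X _)).1
  rw [← h1, norm_U P hb h2]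

end WFam

/-! ### The amplitude -/

/-- The amplitude of the block function `w X` against the block state. -/
def ampX (P : TPack C M R G) (g : ℝ) (w : Pos p → C.Blk → F) (X : Pos p) : F :=
  (C.Fx M G).starProjection (∫ Y : C.Blk, ContinuousLinearMap.adjoint (P.Psi g Y)
    (ContinuousLinearMap.adjoint (P.U X) (w X Y)))

theorem ampX_mem (P : TPack C M R G) (g : ℝ) (w : Pos p → C.Blk → F) (X : Pos p) :
    ampX P g w X ∈ C.Fx M G := Submodule.starProjection_apply_mem _ _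

theorem ampX_unique {a a' : F}
    (ha : a ∈ C.Fx M G) (ha' : a' ∈ C.Fx M G)
    (h : ∀ f ∈ C.Fx M G, ⟪f, a⟫_ℂ = ⟪f, a'⟫_ℂ) : a = a' := by
  have h1 : a - a' ∈ C.Fx M G := Submodule.sub_mem _ ha ha'
  have h2 : ⟪a - a', a - a'⟫_ℂ = 0 := by
    rw [inner_sub_right, h _ h1, sub_self]
  exact sub_eq_zero.1 (inner_self_eq_zero.1 h2)

theorem continuous_adj {E : Type*} [TopologicalSpace E] {T : E → F →L[ℂ] F} (hT : Continuous T) :
    Continuous fun x => ContinuousLinearMap.adjoint (T x) :=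
  (ContinuousLinearMap.adjoint (𝕜 := ℂ) (E := F) (F := F)).continuous.comp hT

section amp

variable {P : TPack C M R G} {K : Set (Pos p)} {w : Pos p → C.Blk → F} (hw : WFam P K w) {g : ℝ}
  (hg : Continuous (P.Psi g))
include hw hg

theorem integrable_amp (X : Pos p) : Integrable fun Y : C.Blk =>
    ContinuousLinearMap.adjoint (P.Psi g Y) (ContinuousLinearMap.adjoint (P.U X) (w X Y)) := by
  have h1 : Continuous fun Y : C.Blk => ContinuousLinearMap.adjoint (P.Psi g Y)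
      (ContinuousLinearMap.adjoint (P.U X) (w X Y)) :=
    (continuous_adj (hg.comp continuous_subtype_val)).clm_apply
      ((ContinuousLinearMap.adjoint (P.U X)).continuous.comp (hw.smoothX X).continuous)
  refine h1.integrable_of_hasCompactSupport ((hw.suppX X).mono' fun Y hY => subset_tsupport _ ?_)
  intro h0
  apply hY
  simp only [h0, map_zero]

theorem inner_ampX {X : Pos p} {f : F} (hf : f ∈ C.Fx M G) :
    ⟪f, ampX P g w X⟫_ℂ = ∫ Y : C.Blk, ⟪P.U X (P.Psi g Y f), w X Y⟫_ℂ := by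
  unfold ampX
  rw [← Submodule.inner_starProjection_left_eq_right, Submodule.starProjection_eq_self_iff.2 hf,
    ← integral_inner (integrable_amp hw hg X)]
  refine integral_congr_ae (Eventually.of_forall fun Y => ?_)
  simp only [ContinuousLinearMap.adjoint_inner_right]

/-- the amplitude in the reference frame -/
theorem isBlockAmp (X : Pos p) :
    IsBlockAmp P g (fun Y => Lx P X (w X Y)) (ampX P g w X) := by
  refine ⟨ampX_mem P g w X, fun f hf => ?_⟩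
  rw [inner_ampX hw hg hf]
  refine integral_congr_ae (Eventually.of_forall fun Y => ?_)
  simp only
  rw [← inner_Lx P X (P.Psi_mem g Y Y.2 f hf)]

theorem ampX_off {X : Pos p} (hX : X ∉ K) : ampX P g w X = 0 := by
  unfold ampX
  simp [hw.off X hX]

omit hg in
theorem continuous_Uw : Continuous fun q : Pos p × C.Blk =>
    ContinuousLinearMap.adjoint (P.U q.1) (w q.1 q.2) := by
  rw [continuous_iff_continuousAt]
  intro q
  by_cases hq : C.BReg q.1
  · have h1 : ContinuousAt (fun q : Pos p × C.Blk => ContinuousLinearMap.adjoint (P.U q.1)) q :=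
      ((ContinuousLinearMap.adjoint (𝕜 := ℂ) (E := F) (F := F)).continuous.continuousAt).comp
        ((P.U_smooth q.1 hq).continuousAt.comp continuous_fst.continuousAt)
    exact h1.clm_apply hw.smooth.continuous.continuousAt
  · have h2 : {q : Pos p × C.Blk | q.1 ∉ K} ∈ 𝓝 q :=
      (hw.closed.isOpen_compl.preimage continuous_fst).mem_nhds fun h => hq (hw.breg _ h)
    refine ContinuousAt.congr (f := fun _ => (0 : F)) continuousAt_const ?_
    filter_upwards [h2] with x hx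
    rw [hw.off x.1 hx, map_zero]

theorem continuous_ampX : Continuous (ampX P g w) := by
  obtain ⟨K1, K2, h1, h2, h⟩ := hw.exists_box
  have h3 : Continuous fun q : Pos p × C.Blk => ContinuousLinearMap.adjoint (P.Psi g q.2)
      (ContinuousLinearMap.adjoint (P.U q.1) (w q.1 q.2)) :=
    (continuous_adj (hg.comp (continuous_subtype_val.comp continuous_snd))).clm_apply
      (continuous_Uw hw)
  have h4 : Continuous fun X => ∫ Y in K2, ContinuousLinearMap.adjoint (P.Psi g Y)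
      (ContinuousLinearMap.adjoint (P.U X) (w X Y)) :=
    continuous_parametric_integral_of_continuous (f := fun X (Y : C.Blk) =>
      ContinuousLinearMap.adjoint (P.Psi g Y) (ContinuousLinearMap.adjoint (P.U X) (w X Y))) h3 h2
  have h5 : ∀ X, ∫ Y : C.Blk, ContinuousLinearMap.adjoint (P.Psi g Y)
      (ContinuousLinearMap.adjoint (P.U X) (w X Y)) =
      ∫ Y in K2, ContinuousLinearMap.adjoint (P.Psi g Y)
        (ContinuousLinearMap.adjoint (P.U X) (w X Y)) := by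
    intro X
    rw [setIntegral_eq_integral_of_forall_compl_eq_zero]
    intro Y hY
    have h0 : w X Y = 0 := WFam.zero_of (h X Y (Or.inr hY))
    rw [h0, map_zero, map_zero]
  unfold ampX
  simp only [h5]
  exact (C.Fx M G).starProjection.continuous.comp h4

theorem hasCompactSupport_ampX : HasCompactSupport (ampX P g w) := by
  obtain ⟨K1, K2, h1, h2, h⟩ := hw.exists_box
  refine HasCompactSupport.of_support_subset_isCompact h1 fun X hX => ?_
  by_contra hn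
  refine hX ?_
  have h0 : ∀ Y, w X Y = 0 := fun Y => WFam.zero_of (h X Y (Or.inl hn))
  unfold ampX
  simp [h0]

theorem integrable_ampX_sq : Integrable fun X => ‖ampX P g w X‖ ^ 2 := by
  refine ((continuous_ampX hw hg).norm.pow 2).integrable_of_hasCompactSupport
    ((hasCompactSupport_ampX hw hg).mono' fun X hX => subset_tsupport _ ?_)
  intro h0
  apply hX
  simp [h0]

end amp

/-! ### The block state is almost isometric, uniformly -/

theorem integrable_inner_Psi (P : TPack C M R G) {g : ℝ} (hg : Continuous (P.Psi g)) (f f' : F) :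
    Integrable fun Y : C.Blk => ⟪P.Psi g Y f, P.Psi g Y f'⟫_ℂ := by
  have hc : ∀ f : F, Continuous fun Y : C.Blk => P.Psi g Y f := fun f =>
    (hg.comp continuous_subtype_val).clm_apply continuous_const
  refine ((hc f).inner (hc f')).integrable_of_hasCompactSupport ?_
  refine HasCompactSupport.of_support_subset_isCompact
    (isCompact_closedBall (0 : C.Blk) (P.s g)) fun Y hY => ?_
  rw [mem_closedBall_zero_iff]
  by_contra hn
  rw [not_le] at hn
  refine hY ?_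
  have h0 : P.Psi g Y = 0 := P.Psi_supp g Y Y.2 hn.le
  simp [h0]

theorem integrable_Psi_sq (P : TPack C M R G) {g : ℝ} (hg : Continuous (P.Psi g)) (f : F) :
    Integrable fun Y : C.Blk => ‖P.Psi g Y f‖ ^ 2 := by
  have h := (integrable_inner_Psi P hg f f).re
  refine h.congr (Eventually.of_forall fun Y => ?_)
  simp only
  rw [inner_self_eq_norm_sq_to_K]
  norm_cast

theorem eventually_Psi_le (P : TPack C M R G) : ∀ᶠ g in atTop, ∀ f ∈ C.Fx M G,
    ∫ Y : C.Blk, ‖P.Psi g Y f‖ ^ 2 ≤ 3 / 2 * ‖f‖ ^ 2 := by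
  set e := stdOrthonormalBasis ℂ (C.Fx M G) with he
  set n := Module.finrank ℂ (C.Fx M G) with hn
  have h1 : ∀ i j, Tendsto (fun g => ∫ Y : C.Blk, ⟪P.Psi g Y (e i : F), P.Psi g Y (e j : F)⟫_ℂ)
      atTop (𝓝 ⟪(e i : F), (e j : F)⟫_ℂ) := fun i j =>
    P.Psi_iso _ (e i).2 _ (e j).2
  have h2 : Tendsto (fun g => ∑ i, ∑ j,
      ‖(∫ Y : C.Blk, ⟪P.Psi g Y (e i : F), P.Psi g Y (e j : F)⟫_ℂ) - ⟪(e i : F), (e j : F)⟫_ℂ‖)
      atTop (𝓝 0) := by
    have : Tendsto (fun g => ∑ i, ∑ j,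
      ‖(∫ Y : C.Blk, ⟪P.Psi g Y (e i : F), P.Psi g Y (e j : F)⟫_ℂ) - ⟪(e i : F), (e j : F)⟫_ℂ‖)
      atTop (𝓝 (∑ i : Fin n, ∑ j : Fin n, (0 : ℝ))) := by
      refine tendsto_finsetSum _ fun i _ => tendsto_finsetSum _ fun j _ => ?_
      have h3 := (h1 i j).sub_const ⟪(e i : F), (e j : F)⟫_ℂ
      rw [sub_self] at h3
      simpa using h3.norm
    simpa using this
  have h3 := h2.eventually (gt_mem_nhds (by norm_num : (0 : ℝ) < 1 / 2))
  filter_upwards [h3, P.Psi_smooth] with g hg hs f hf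
  have hgc : Continuous (P.Psi g) := hs.continuous
  -- coordinates
  set c : Fin n → ℂ := fun i => e.repr ⟨f, hf⟩ i with hc
  have hfc : f = ∑ i, c i • (e i : F) := by
    have := congrArg (Subtype.val) (e.sum_repr ⟨f, hf⟩)
    simpa using this.symm
  have hcn : ∀ i, ‖c i‖ ≤ ‖f‖ := fun i => by
    have h4 := e.repr.norm_map ⟨f, hf⟩
    have h5 : ‖(e.repr ⟨f, hf⟩) i‖ ≤ ‖e.repr ⟨f, hf⟩‖ := PiLp.norm_apply_le _ i
    rw [h4] at h5
    exact h5
  have e1 : ∀ T : F →L[ℂ] F, ⟪T f, T f⟫_ℂ =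
      ∑ i, ∑ j, (starRingEnd ℂ (c i) * c j) * ⟪T (e i), T (e j)⟫_ℂ := by
    intro T
    conv_lhs => rw [hfc, map_sum]
    rw [sum_inner]
    refine Finset.sum_congr rfl fun i _ => ?_
    rw [inner_sum]
    refine Finset.sum_congr rfl fun j _ => ?_
    rw [map_smul, map_smul, inner_smul_left, inner_smul_right]
    ring
  have e2 : ∫ Y : C.Blk, ⟪P.Psi g Y f, P.Psi g Y f⟫_ℂ =
      ∑ i, ∑ j, (starRingEnd ℂ (c i) * c j) *
        ∫ Y : C.Blk, ⟪P.Psi g Y (e i : F), P.Psi g Y (e j : F)⟫_ℂ := by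
    simp only [e1]
    rw [integral_finsetSum _ fun i _ => integrable_finsetSum _ fun j _ =>
      (integrable_inner_Psi P hgc _ _).const_mul _]
    refine Finset.sum_congr rfl fun i _ => ?_
    rw [integral_finsetSum _ fun j _ => (integrable_inner_Psi P hgc _ _).const_mul _]
    refine Finset.sum_congr rfl fun j _ => ?_
    rw [integral_const_mul]
  have e3 : ⟪f, f⟫_ℂ = ∑ i, ∑ j, (starRingEnd ℂ (c i) * c j) * ⟪(e i : F), (e j : F)⟫_ℂ :=
    e1 (ContinuousLinearMap.id ℂ F)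
  have e4 : ∫ Y : C.Blk, ⟪P.Psi g Y f, P.Psi g Y f⟫_ℂ =
      ((∫ Y : C.Blk, ‖P.Psi g Y f‖ ^ 2 : ℝ) : ℂ) := by
    have h8 : ∀ Y : C.Blk, ⟪P.Psi g Y f, P.Psi g Y f⟫_ℂ = ((‖P.Psi g Y f‖ ^ 2 : ℝ) : ℂ) :=
      fun Y => by
        rw [inner_self_eq_norm_sq_to_K]
        norm_cast
    simp only [h8]
    exact integral_ofReal
  have e5 : ⟪f, f⟫_ℂ = ((‖f‖ ^ 2 : ℝ) : ℂ) := by
    rw [inner_self_eq_norm_sq_to_K]
    norm_cast
  have h6 : ‖(((∫ Y : C.Blk, ‖P.Psi g Y f‖ ^ 2 : ℝ) : ℂ)) - ((‖f‖ ^ 2 : ℝ) : ℂ)‖ ≤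
      1 / 2 * ‖f‖ ^ 2 := by
    rw [← e4, ← e5, e2, e3, ← Finset.sum_sub_distrib]
    simp only [← Finset.sum_sub_distrib, ← mul_sub]
    refine (norm_sum_le _ _).trans ?_
    refine (Finset.sum_le_sum fun i _ => norm_sum_le _ _).trans ?_
    calc ∑ i, ∑ j, ‖(starRingEnd ℂ (c i) * c j) *
          ((∫ Y : C.Blk, ⟪P.Psi g Y (e i : F), P.Psi g Y (e j : F)⟫_ℂ) - ⟪(e i : F), (e j : F)⟫_ℂ)‖
        ≤ ∑ i, ∑ j, ‖f‖ ^ 2 * ‖(∫ Y : C.Blk, ⟪P.Psi g Y (e i : F), P.Psi g Y (e j : F)⟫_ℂ) -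
          ⟪(e i : F), (e j : F)⟫_ℂ‖ := by
          refine Finset.sum_le_sum fun i _ => Finset.sum_le_sum fun j _ => ?_
          rw [norm_mul, norm_mul, RCLike.norm_conj]
          refine mul_le_mul_of_nonneg_right ?_ (norm_nonneg _)
          calc ‖c i‖ * ‖c j‖ ≤ ‖f‖ * ‖f‖ :=
                mul_le_mul (hcn i) (hcn j) (norm_nonneg _) (norm_nonneg _)
            _ = ‖f‖ ^ 2 := (sq _).symm
      _ = ‖f‖ ^ 2 * ∑ i, ∑ j, ‖(∫ Y : C.Blk, ⟪P.Psi g Y (e i : F), P.Psi g Y (e j : F)⟫_ℂ) -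
          ⟪(e i : F), (e j : F)⟫_ℂ‖ := by
          simp only [Finset.mul_sum]
      _ ≤ ‖f‖ ^ 2 * (1 / 2) := mul_le_mul_of_nonneg_left hg.le (sq_nonneg _)
      _ = 1 / 2 * ‖f‖ ^ 2 := mul_comm _ _
  rw [← Complex.ofReal_sub, Complex.norm_real, Real.norm_eq_abs] at h6
  have h7 := (abs_le.1 h6).2
  linarith

/-! ### The pointwise estimate -/

theorem sq_norm_le (u v : F) : ‖u‖ ^ 2 ≤ 2 * ‖u - v‖ ^ 2 + 2 * ‖v‖ ^ 2 := by
  have h : ‖u‖ ≤ ‖u - v‖ + ‖v‖ := by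
    calc ‖u‖ = ‖(u - v) + v‖ := by rw [sub_add_cancel]
      _ ≤ _ := norm_add_le _ _
  nlinarith [norm_nonneg u, norm_nonneg (u - v), norm_nonneg v, sq_nonneg (‖u - v‖ - ‖v‖)]

/-- The block charges, total square. -/
def qsum (M : FermionRep N F) (G : GammaNine) (g : ℝ) (w : C.Blk → F) : ℝ :=
  ∑ α, ∫ Y : C.Blk, ‖qblkB M G g α w Y‖ ^ 2

theorem pointX {P : TPack C M R G} (hP : PsiHardy P) : ∃ K₀ : ℝ, 0 ≤ K₀ ∧ ∀ ε : ℝ, 0 < ε →
    ∀ᶠ g in atTop, Continuous (P.Psi g) ∧ ∀ (K : Set (Pos p)) (w : Pos p → C.Blk → F),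
      WFam P K w → ∀ X ∈ K, ∀ δ : ℝ, 0 < δ →
        ∫ Y in Metric.closedBall (0 : C.Blk) δ, ‖w X Y‖ ^ 2 ≤
          3 * ‖ampX P g w X‖ ^ 2 + K₀ * (g ^ (-(2 / 3) : ℝ) + δ ^ 2) * qsum M G g (w X) +
            ε * ∫ Y : C.Blk, ‖w X Y‖ ^ 2 := by
  obtain ⟨K₁, hK₁, h1⟩ := hP
  refine ⟨2 * K₁, by positivity, fun ε hε => ?_⟩
  filter_upwards [h1 (ε / 2) (by positivity), eventually_Psi_le P, P.Psi_smooth] with g hg hi hs
  have hgc : Continuous (P.Psi g) := hs.continuous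
  refine ⟨hgc, fun K w hw X hX δ hδ => ?_⟩
  obtain ⟨a, ha, hb⟩ := hg (fun Y => Lx P X (w X Y)) (hw.smoothL X) (hw.suppL X)
    (fun Y => Lx_mem P X _) fun h X' hX' hh Y Y' hY => hw.equiL hX h X' hX' hh Y Y' hY
  have ea : a = ampX P g w X := by
    have h2 := isBlockAmp hw hgc X
    exact ampX_unique ha.1 h2.1 fun f hf => by rw [ha.2 f hf, h2.2 f hf]
  subst ea
  have hb' := hb δ hδ
  -- the norms
  have hn : ∀ Y, ‖Lx P X (w X Y)‖ = ‖w X Y‖ := hw.norm_Lx hX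
  have e1 : ∫ Y : C.Blk, ‖Lx P X (w X Y)‖ ^ 2 = ∫ Y : C.Blk, ‖w X Y‖ ^ 2 := by
    simp only [hn]
  have e2 : ∑ α, ∫ Y : C.Blk, ‖qblkB M G g α (fun Y => Lx P X (w X Y)) Y‖ ^ 2 =
      qsum M G g (w X) := by
    unfold qsum
    simp only [hw.norm_qblkB hX]
  rw [e1, e2] at hb'
  have hcL : Continuous fun Y => Lx P X (w X Y) := (hw.smoothL X).continuous
  have hcPsi : Continuous fun Y : C.Blk => P.Psi g Y (ampX P g w X) :=
    (hgc.comp continuous_subtype_val).clm_apply continuous_const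
  have hsP : HasCompactSupport fun Y : C.Blk => P.Psi g Y (ampX P g w X) := by
    refine HasCompactSupport.of_support_subset_isCompact
      (isCompact_closedBall (0 : C.Blk) (P.s g)) fun Y hY => ?_
    rw [mem_closedBall_zero_iff]
    by_contra hn
    rw [not_le] at hn
    refine hY ?_
    have h0 : P.Psi g Y = 0 := P.Psi_supp g Y Y.2 hn.le
    simp [h0]
  have isq : ∀ {u : C.Blk → F}, Continuous u → HasCompactSupport u →
      Integrable fun Y => ‖u Y‖ ^ 2 := fun {u} hu hc =>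
    (hu.norm.pow 2).integrable_of_hasCompactSupport
      (hc.mono' fun X hX => subset_tsupport _ fun h0 => hX (by simp [h0]))
  have i1 : Integrable fun Y : C.Blk => ‖Lx P X (w X Y)‖ ^ 2 := isq hcL (hw.suppL X)
  have i2 : Integrable fun Y : C.Blk => ‖P.Psi g Y (ampX P g w X)‖ ^ 2 := isq hcPsi hsP
  have i3 : Integrable fun Y : C.Blk => ‖Lx P X (w X Y) - P.Psi g Y (ampX P g w X)‖ ^ 2 :=
    isq (hcL.sub hcPsi) ((hw.suppL X).sub hsP)
  have h3 : ∫ Y in Metric.closedBall (0 : C.Blk) δ, ‖w X Y‖ ^ 2 ≤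
      2 * (∫ Y in Metric.closedBall (0 : C.Blk) δ,
        ‖Lx P X (w X Y) - P.Psi g Y (ampX P g w X)‖ ^ 2) +
      2 * ∫ Y in Metric.closedBall (0 : C.Blk) δ, ‖P.Psi g Y (ampX P g w X)‖ ^ 2 := by
    rw [← integral_const_mul, ← integral_const_mul,
      ← integral_add (i3.integrableOn.const_mul 2) (i2.integrableOn.const_mul 2)]
    refine integral_mono ?_ ((i3.integrableOn.const_mul 2).add (i2.integrableOn.const_mul 2))
      fun Y => ?_
    · simp only [← hn]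
      exact i1.integrableOn
    · simp only [← hn Y]
      exact sq_norm_le _ _
  have h4 : ∫ Y in Metric.closedBall (0 : C.Blk) δ, ‖P.Psi g Y (ampX P g w X)‖ ^ 2 ≤
      3 / 2 * ‖ampX P g w X‖ ^ 2 :=
    (setIntegral_le_integral i2 (Eventually.of_forall fun Y => sq_nonneg _)).trans
      (hi _ (ampX_mem P g w X))
  nlinarith [h3, h4, hb']

/-! ### Integration over the positions -/

namespace WFam

variable {P : TPack C M R G} {K : Set (Pos p)} {w : Pos p → C.Blk → F} (hw : WFam P K w)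
include hw

theorem fderivX (X : Pos p) (Y e : C.Blk) : fderiv ℝ (w X) Y e =
    fderiv ℝ (fun q : Pos p × C.Blk => w q.1 q.2) (X, Y) ((0 : Pos p), e) := by
  have h1 : HasFDerivAt (fun q : Pos p × C.Blk => w q.1 q.2)
      (fderiv ℝ (fun q : Pos p × C.Blk => w q.1 q.2) (X, Y)) (X, Y) :=
    ((hw.smooth.differentiable (by simp)) (X, Y)).hasFDerivAt
  have h2 : HasFDerivAt (fun Y : C.Blk => ((X, Y) : Pos p × C.Blk))
      (ContinuousLinearMap.inr ℝ (Pos p) C.Blk) Y := hasFDerivAt_prodMk_right X Y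
  have h3 := h1.comp Y h2
  change HasFDerivAt (w X) _ Y at h3
  rw [h3.fderiv]
  rfl

theorem continuous_qblkB (g : ℝ) (α : Fin 16) :
    Continuous fun q : Pos p × C.Blk => qblkB M G g α (w q.1) q.2 := by
  unfold qblkB
  refine Continuous.add (continuous_finsetSum _ fun n _ => ?_) ?_
  · simp only [hw.fderivX]
    exact (LinearMap.continuous_of_finiteDimensional (aA M G α _)).comp
      ((hw.smooth.continuous_fderiv (by simp)).clm_apply continuous_const)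
  · unfold wA
    simp only [IBP837.vco_apply]
    refine continuous_finsetSum _ fun A _ => continuous_finsetSum _ fun β _ => ?_
    refine (Complex.continuous_ofReal.comp ((Defs478.continuous_wpot b G g 0 α β A).comp
      (continuous_subtype_val.comp continuous_snd))).smul ?_
    exact (LinearMap.continuous_of_finiteDimensional (M.θ β A)).comp hw.smooth.continuous

theorem qblkB_off {g : ℝ} {α : Fin 16} {q : Pos p × C.Blk}
    (hq : q ∉ tsupport fun q : Pos p × C.Blk => w q.1 q.2) : qblkB M G g α (w q.1) q.2 = 0 := by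
  have h0 : w q.1 q.2 = 0 := WFam.zero_of hq
  have h1 : fderiv ℝ (fun q : Pos p × C.Blk => w q.1 q.2) q = 0 := by
    by_contra h
    exact hq (tsupport_fderiv_subset ℝ (subset_tsupport _ h))
  unfold qblkB
  simp only [hw.fderivX, h0]
  have h2 : ((q.1, q.2) : Pos p × C.Blk) = q := rfl
  simp [h2, h1]

theorem integrable_qblkB (g : ℝ) (α : Fin 16) :
    Integrable (fun q : Pos p × C.Blk => ‖qblkB M G g α (w q.1) q.2‖ ^ 2)
      (volume.prod volume) := by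
  refine ((hw.continuous_qblkB g α).norm.pow 2).integrable_of_hasCompactSupport
    (hw.supp.mono' fun q hq => ?_)
  by_contra h
  exact hq (by simp [hw.qblkB_off h])

theorem integrable_sq : Integrable (fun q : Pos p × C.Blk => ‖w q.1 q.2‖ ^ 2)
      (volume.prod volume) := by
  refine (hw.smooth.continuous.norm.pow 2).integrable_of_hasCompactSupport
    (hw.supp.mono' fun q hq => ?_)
  by_contra h
  exact hq (by simp [WFam.zero_of (w := w) (X := q.1) (Y := q.2) h])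

end WFam

/-- **(HB)** the block Hardy property, integrated over the positions. -/
theorem hbX {P : TPack C M R G} (hP : PsiHardy P) : ∃ K₀ : ℝ, 0 ≤ K₀ ∧ ∀ ε : ℝ, 0 < ε →
    ∀ᶠ g in atTop, Continuous (P.Psi g) ∧ ∀ (K : Set (Pos p)) (w : Pos p → C.Blk → F),
      WFam P K w → ∀ δ : ℝ, 0 < δ →
        ∫ X, ∫ Y in Metric.closedBall (0 : C.Blk) δ, ‖w X Y‖ ^ 2 ≤
          3 * (∫ X, ‖ampX P g w X‖ ^ 2) +
          K₀ * (g ^ (-(2 / 3) : ℝ) + δ ^ 2) *
            (∑ α, ∫ X, ∫ Y : C.Blk, ‖qblkB M G g α (w X) Y‖ ^ 2) +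
            ε * ∫ X, ∫ Y : C.Blk, ‖w X Y‖ ^ 2 := by
  obtain ⟨K₀, hK₀, h1⟩ := pointX hP
  refine ⟨K₀, hK₀, fun ε hε => ?_⟩
  filter_upwards [h1 ε hε, eventually_ge_atTop (0 : ℝ)] with g hg hg0
  obtain ⟨hgc, hg⟩ := hg
  refine ⟨hgc, fun K w hw δ hδ => ?_⟩
  have i1 : Integrable fun X => ‖ampX P g w X‖ ^ 2 := integrable_ampX_sq hw hgc
  have i2 : ∀ α, Integrable fun X => ∫ Y : C.Blk, ‖qblkB M G g α (w X) Y‖ ^ 2 := fun α =>
    (hw.integrable_qblkB g α).integral_prod_left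
  have i3 : Integrable fun X => ∫ Y : C.Blk, ‖w X Y‖ ^ 2 := hw.integrable_sq.integral_prod_left
  have i4 : Integrable fun X => qsum M G g (w X) := by
    unfold qsum
    exact integrable_finsetSum _ fun α _ => i2 α
  have e1 : ∫ X, qsum M G g (w X) = ∑ α, ∫ X, ∫ Y : C.Blk, ‖qblkB M G g α (w X) Y‖ ^ 2 := by
    unfold qsum
    rw [integral_finsetSum _ fun α _ => i2 α]
  set c : ℝ := K₀ * (g ^ (-(2 / 3) : ℝ) + δ ^ 2) with hc
  have j1 : Integrable fun X => 3 * ‖ampX P g w X‖ ^ 2 := i1.const_mul 3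
  have j2 : Integrable fun X => c * qsum M G g (w X) := i4.const_mul c
  have j3 : Integrable fun X => ε * ∫ Y : C.Blk, ‖w X Y‖ ^ 2 := i3.const_mul ε
  have j4 : Integrable fun X => 3 * ‖ampX P g w X‖ ^ 2 + c * qsum M G g (w X) := j1.add j2
  have e2 : ∫ X, (3 * ‖ampX P g w X‖ ^ 2 + c * qsum M G g (w X) +
      ε * ∫ Y : C.Blk, ‖w X Y‖ ^ 2) = 3 * (∫ X, ‖ampX P g w X‖ ^ 2) +
        c * (∫ X, qsum M G g (w X)) + ε * ∫ X, ∫ Y : C.Blk, ‖w X Y‖ ^ 2 := by
    rw [integral_add j4 j3, integral_add j1 j2, integral_const_mul, integral_const_mul,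
      integral_const_mul]
  rw [← e1, ← e2]
  refine integral_mono_of_nonneg (Eventually.of_forall fun X => ?_) (j4.add j3)
    (Eventually.of_forall fun X => ?_)
  · exact integral_nonneg fun Y => sq_nonneg _
  · by_cases hX : X ∈ K
    · exact hg K w hw X hX δ hδ
    · have h0 : ∀ Y, w X Y = 0 := hw.off X hX
      have hq : 0 ≤ qsum M G g (w X) :=
        Finset.sum_nonneg fun α _ => integral_nonneg fun Y => sq_nonneg _
      have hs : 0 ≤ g ^ (-(2 / 3) : ℝ) + δ ^ 2 := by positivity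
      have hl : ∫ Y in Metric.closedBall (0 : C.Blk) δ, ‖w X Y‖ ^ 2 = 0 := by simp [h0]
      have h3 : ∫ Y : C.Blk, ‖w X Y‖ ^ 2 = 0 := by simp [h0]
      simp only [hl, h3]
      have h4 : 0 ≤ c := mul_nonneg hK₀ hs
      have h5 := mul_nonneg h4 hq
      have h6 := sq_nonneg ‖ampX P g w X‖
      linarith

end Crest.Agent.R330.HBX450

end
end

-- ▼ part R330/FlatCut_924
section

/-!
# Row 330, S9 capture: cutting near the flats (helper924)

* `slice_est_cut` : the slice estimate when the block Hardy inequality is only available after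
  multiplication by cut-offs `θ` of the base, the remaining part having small mass.
-/

set_option autoImplicit false
set_option linter.unusedSectionVars false

noncomputable section

namespace Crest.Agent.R330.CapSl924

open MeasureTheory Filter Topology Set
open scoped ContDiff InnerProductSpace ENNReal
open Crest.Agent.R330.FibProj837 Crest.Agent.R330.Decoup924

section main

variable {F : Type*} [NormedAddCommGroup F] [InnerProductSpace ℂ F] [FiniteDimensional ℂ F]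
  {U Z : Type*} [NormedAddCommGroup U] [NormedSpace ℝ U] [FiniteDimensional ℝ U]
  [MeasurableSpace U] [BorelSpace U]
  [NormedAddCommGroup Z] [NormedSpace ℝ Z] [FiniteDimensional ℝ Z] [MeasurableSpace Z]
  [BorelSpace Z] {μ : Measure U} [μ.IsAddHaarMeasure] {ν : Measure Z} [ν.IsAddHaarMeasure]

/-- the mass over `S`, split by a cut-off of the base -/
theorem mass_cut_le {Φ : U × Z → F} (hΦ : Continuous Φ) (hc : HasCompactSupport Φ)
    {gs : U × Z → ℝ} {p : U → F →ₗ[ℂ] F} (hgs : Continuous gs)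
    (hg : ∀ u, (∃ z, Φ (u, z) ≠ 0) → MemLp (fun z => gs (u, z)) 2 ν ∧ ∫ z, gs (u, z) ^ 2 ∂ν = 1)
    (hps : ∀ u, (∃ z, Φ (u, z) ≠ 0) → (p u).IsSymmetric)
    (hpi : ∀ u, (∃ z, Φ (u, z) ≠ 0) → ∀ v, p u (p u v) = p u v)
    (hw : AEStronglyMeasurable (fpr ν gs p Φ) μ) (S : Set U)
    {θ : U → ℝ} (hθ : Continuous θ) (h0 : ∀ u, 0 ≤ θ u) (h1 : ∀ u, θ u ≤ 1) :
    ∫ u in S, ∫ z, ‖Φ (u, z)‖ ^ 2 ∂ν ∂μ ≤
      2 * ∫ u in S, ∫ z, ‖Φ (u, z) - fpj ν gs p Φ (u, z)‖ ^ 2 ∂ν ∂μ +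
        2 * ∫ u in S, θ u ^ 2 * ‖fpr ν gs p Φ u‖ ^ 2 ∂μ +
        2 * ∫ u, (1 - θ u) ^ 2 * ∫ z, ‖Φ (u, z)‖ ^ 2 ∂ν ∂μ := by
  have hpt : ∀ u, ∫ z, ‖Φ (u, z)‖ ^ 2 ∂ν =
      ∫ z, ‖Φ (u, z) - fpj ν gs p Φ (u, z)‖ ^ 2 ∂ν + ‖fpr ν gs p Φ u‖ ^ 2 := by
    intro u
    by_cases h : ∃ z, Φ (u, z) ≠ 0
    · exact fibre_pythagoras hgs hΦ hc u (hg u h).1 (hg u h).2 (hps u h) (hpi u h)
    · push Not at h
      have h0 : fpr ν gs p Φ u = 0 := fpr_eq_zero h
      simp [h, fpj, h0]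
  have c2 : Continuous fun q => ‖Φ q‖ ^ 2 := hΦ.norm.pow 2
  have s2 : HasCompactSupport fun q => ‖Φ q‖ ^ 2 :=
    hc.norm.comp_left (g := fun t : ℝ => t ^ 2) (by norm_num)
  have iT : Integrable (fun u => ∫ z, ‖Φ (u, z)‖ ^ 2 ∂ν) μ := integrable_fib c2 s2
  have iW : Integrable (fun u => ‖fpr ν gs p Φ u‖ ^ 2) μ := by
    refine iT.mono (hw.norm.pow 2) (Eventually.of_forall fun u => ?_)
    rw [Real.norm_of_nonneg (by positivity),
      Real.norm_of_nonneg (integral_nonneg fun z => by positivity), hpt u]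
    have : 0 ≤ ∫ z, ‖Φ (u, z) - fpj ν gs p Φ (u, z)‖ ^ 2 ∂ν :=
      integral_nonneg fun z => by positivity
    linarith
  have iD : Integrable (fun u => ∫ z, ‖Φ (u, z) - fpj ν gs p Φ (u, z)‖ ^ 2 ∂ν) μ := by
    refine (iT.sub iW).congr (Eventually.of_forall fun u => ?_)
    simp only [Pi.sub_apply]
    rw [hpt u]; ring
  have iW2 : Integrable (fun u => θ u ^ 2 * ‖fpr ν gs p Φ u‖ ^ 2) μ := by
    refine iW.bdd_mul (c := 1) (hθ.pow 2).aestronglyMeasurable (Eventually.of_forall fun u => ?_)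
    rw [Real.norm_of_nonneg (by positivity)]
    exact pow_le_one₀ (h0 u) (h1 u)
  have iT2 : Integrable (fun u => (1 - θ u) ^ 2 * ∫ z, ‖Φ (u, z)‖ ^ 2 ∂ν) μ := by
    refine iT.bdd_mul (c := 1) ((continuous_const.sub hθ).pow 2).aestronglyMeasurable
      (Eventually.of_forall fun u => ?_)
    rw [Real.norm_of_nonneg (by positivity)]
    exact pow_le_one₀ (by linarith [h1 u]) (by linarith [h0 u])
  have hle : ∀ u, ∫ z, ‖Φ (u, z)‖ ^ 2 ∂ν ≤
      2 * ∫ z, ‖Φ (u, z) - fpj ν gs p Φ (u, z)‖ ^ 2 ∂ν +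
      2 * (θ u ^ 2 * ‖fpr ν gs p Φ u‖ ^ 2) + 2 * ((1 - θ u) ^ 2 * ∫ z, ‖Φ (u, z)‖ ^ 2 ∂ν) := by
    intro u
    have t1 : 1 ≤ 2 * θ u ^ 2 + 2 * (1 - θ u) ^ 2 := by nlinarith [sq_nonneg (2 * θ u - 1)]
    have t2 : 0 ≤ ∫ z, ‖Φ (u, z)‖ ^ 2 ∂ν := integral_nonneg fun z => by positivity
    have t3 : 0 ≤ ∫ z, ‖Φ (u, z) - fpj ν gs p Φ (u, z)‖ ^ 2 ∂ν :=
      integral_nonneg fun z => by positivity
    have t4 : θ u ^ 2 ≤ 1 := pow_le_one₀ (h0 u) (h1 u)
    have t5 := hpt u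
    have t6 : ∫ z, ‖Φ (u, z)‖ ^ 2 ∂ν ≤
        (2 * θ u ^ 2 + 2 * (1 - θ u) ^ 2) * ∫ z, ‖Φ (u, z)‖ ^ 2 ∂ν := le_mul_of_one_le_left t2 t1
    have t7 : θ u ^ 2 * ∫ z, ‖Φ (u, z)‖ ^ 2 ∂ν ≤
        ∫ z, ‖Φ (u, z) - fpj ν gs p Φ (u, z)‖ ^ 2 ∂ν + θ u ^ 2 * ‖fpr ν gs p Φ u‖ ^ 2 := by
      rw [t5, mul_add]
      have := mul_le_of_le_one_left t3 t4
      linarith
    linarith
  have i1 : Integrable (fun u => 2 * ∫ z, ‖Φ (u, z) - fpj ν gs p Φ (u, z)‖ ^ 2 ∂ν +
      2 * (θ u ^ 2 * ‖fpr ν gs p Φ u‖ ^ 2)) μ := (iD.const_mul 2).add (iW2.const_mul 2)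
  have i3 : Integrable (fun u => 2 * ∫ z, ‖Φ (u, z) - fpj ν gs p Φ (u, z)‖ ^ 2 ∂ν +
      2 * (θ u ^ 2 * ‖fpr ν gs p Φ u‖ ^ 2) +
      2 * ((1 - θ u) ^ 2 * ∫ z, ‖Φ (u, z)‖ ^ 2 ∂ν)) μ := i1.add (iT2.const_mul 2)
  calc ∫ u in S, ∫ z, ‖Φ (u, z)‖ ^ 2 ∂ν ∂μ
      ≤ ∫ u in S, (2 * ∫ z, ‖Φ (u, z) - fpj ν gs p Φ (u, z)‖ ^ 2 ∂ν +
        2 * (θ u ^ 2 * ‖fpr ν gs p Φ u‖ ^ 2) +
        2 * ((1 - θ u) ^ 2 * ∫ z, ‖Φ (u, z)‖ ^ 2 ∂ν)) ∂μ :=
        integral_mono iT.integrableOn i3.integrableOn hle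
    _ = 2 * ∫ u in S, ∫ z, ‖Φ (u, z) - fpj ν gs p Φ (u, z)‖ ^ 2 ∂ν ∂μ +
        2 * ∫ u in S, θ u ^ 2 * ‖fpr ν gs p Φ u‖ ^ 2 ∂μ +
        2 * ∫ u in S, (1 - θ u) ^ 2 * ∫ z, ‖Φ (u, z)‖ ^ 2 ∂ν ∂μ := by
        have e1 := integral_add (i1.integrableOn (s := S)) (iT2.const_mul 2).integrableOn
        have e2 := integral_add ((iD.const_mul 2).integrableOn (s := S))
          (iW2.const_mul 2).integrableOn
        rw [e1, e2, integral_const_mul, integral_const_mul, integral_const_mul]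
    _ ≤ _ := by
        have : ∫ u in S, (1 - θ u) ^ 2 * ∫ z, ‖Φ (u, z)‖ ^ 2 ∂ν ∂μ ≤
            ∫ u, (1 - θ u) ^ 2 * ∫ z, ‖Φ (u, z)‖ ^ 2 ∂ν ∂μ :=
          setIntegral_le_integral iT2 (Eventually.of_forall fun u =>
            mul_nonneg (by positivity) (integral_nonneg fun z => by positivity))
        linarith

/-- **(h) with cut-offs** : (I1) fibre distance to the vacuum; for every `e > 0` a cut-off `θ` of the
base such that `(1-θ) Φ_j` has mass `≤ e` and `θ w_j` satisfies the block Hardy inequality with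
amplitudes `A j → 0` (all soft: with `+ e'`, eventually). -/
theorem slice_est_cut {Φ : ℕ → U × Z → F} (hΦ : ∀ j, Continuous (Φ j))
    (hc : ∀ j, HasCompactSupport (Φ j))
    {gs : ℕ → U × Z → ℝ} {p : ℕ → U → F →ₗ[ℂ] F} (hgs : ∀ j, Continuous (gs j))
    (hg : ∀ j u, (∃ z, Φ j (u, z) ≠ 0) →
      MemLp (fun z => gs j (u, z)) 2 ν ∧ ∫ z, gs j (u, z) ^ 2 ∂ν = 1)
    (hps : ∀ j u, (∃ z, Φ j (u, z) ≠ 0) → (p j u).IsSymmetric)
    (hpi : ∀ j u, (∃ z, Φ j (u, z) ≠ 0) → ∀ v, p j u (p j u v) = p j u v)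
    (hw : ∀ j, AEStronglyMeasurable (fpr ν (gs j) (p j) (Φ j)) μ)
    {η C : ℝ} (hη : 0 < η) (hC : 0 ≤ C) {S : ℝ → Set U}
    (I1 : ∀ δ, 0 < δ → δ ≤ η → ∀ e, 0 < e → ∀ᶠ j in atTop,
      ∫ u in S δ, ∫ z, ‖Φ j (u, z) - fpj ν (gs j) (p j) (Φ j) (u, z)‖ ^ 2 ∂ν ∂μ ≤
        C * δ ^ 2 + e)
    (cut : ∀ e, 0 < e → ∃ θ : U → ℝ, Continuous θ ∧ (∀ u, 0 ≤ θ u) ∧ (∀ u, θ u ≤ 1) ∧
      (∀ᶠ j in atTop, ∫ u, (1 - θ u) ^ 2 * ∫ z, ‖Φ j (u, z)‖ ^ 2 ∂ν ∂μ ≤ e) ∧
      ∃ (K C' : ℝ) (A : ℕ → ℝ), 0 ≤ C' ∧ Tendsto A atTop (𝓝 0) ∧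
        ∀ δ, 0 < δ → δ ≤ η → ∀ e', 0 < e' → ∀ᶠ j in atTop,
          ∫ u in S δ, θ u ^ 2 * ‖fpr ν (gs j) (p j) (Φ j) u‖ ^ 2 ∂μ ≤
            K * A j + C' * δ ^ 2 + e')
    {ε : ℝ≥0∞} (hε : 0 < ε) :
    ∃ δ, 0 < δ ∧ δ ≤ η ∧ ∀ᶠ j in atTop, ∫⁻ u in S δ, ∫⁻ z, ‖Φ j (u, z)‖ₑ ^ 2 ∂ν ∂μ ≤ ε := by
  obtain ⟨e, he, heε⟩ : ∃ e : ℝ, 0 < e ∧ ENNReal.ofReal e ≤ ε := by
    rcases eq_or_ne ε ⊤ with h | h
    · exact ⟨1, one_pos, by rw [h]; exact le_top⟩
    · exact ⟨ε.toReal, ENNReal.toReal_pos hε.ne' h, by rw [ENNReal.ofReal_toReal h]⟩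
  obtain ⟨θ, hθ, h0, h1, htail, K, C', A, hC', hA, HB⟩ := cut (e / 8) (by positivity)
  obtain ⟨δ, hδ, hδη, hδe⟩ : ∃ δ : ℝ, 0 < δ ∧ δ ≤ η ∧ (C + C') * δ ^ 2 ≤ e / 16 := by
    refine ⟨min η (Real.sqrt (e / (16 * (C + C') + 16))),
      lt_min hη (Real.sqrt_pos.2 (by positivity)), min_le_left _ _, ?_⟩
    have h1 : (min η (Real.sqrt (e / (16 * (C + C') + 16)))) ^ 2 ≤ e / (16 * (C + C') + 16) := by
      calc (min η (Real.sqrt (e / (16 * (C + C') + 16)))) ^ 2 ≤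
            (Real.sqrt (e / (16 * (C + C') + 16))) ^ 2 :=
            pow_le_pow_left₀ (le_min hη.le (Real.sqrt_nonneg _)) (min_le_right _ _) 2
        _ = _ := Real.sq_sqrt (by positivity)
    calc (C + C') * (min η (Real.sqrt (e / (16 * (C + C') + 16)))) ^ 2 ≤
        (C + C') * (e / (16 * (C + C') + 16)) := mul_le_mul_of_nonneg_left h1 (by positivity)
      _ ≤ e / 16 := by
          rw [mul_div_assoc', div_le_div_iff₀ (by positivity) (by norm_num)]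
          nlinarith
  refine ⟨δ, hδ, hδη, ?_⟩
  have t1 : Tendsto (fun j => K * A j) atTop (𝓝 0) := by simpa using hA.const_mul K
  filter_upwards [I1 δ hδ hδη (e / 16) (by positivity), HB δ hδ hδη (e / 16) (by positivity), htail,
    t1.eventually (ge_mem_nhds (by positivity : (0 : ℝ) < e / 16))] with j h2 h3 h4 h5
  rw [mass_eq (hΦ j) (hc j)]
  refine (ENNReal.ofReal_le_ofReal ?_).trans heε
  refine (mass_cut_le (hΦ j) (hc j) (hgs j) (hg j) (hps j) (hpi j) (hw j) (S δ) hθ h0 h1).trans ?_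
  nlinarith

end main


end Crest.Agent.R330.CapSl924
end
end

-- ▼ part R330/LocD_8

/-!
# Row 330, S9-LOC (helper8): the local capture estimate, assembly

* `Sb σ δ` : block displacements of size `< δ`.
* `aesm_fpr` : measurability of the uncut fibre projection.
* `cutm ϑ κ0` : the cut-off `ϑ(X) κ0`; `cut_fpr`.
* `I1In`, `HQIn`, `I3In`, `I4In`, `TailIn` : the literal inputs.
* `slice_loc` : the slice estimate for every null sequence.
-/

set_option autoImplicit false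
set_option linter.unusedSectionVars false

open MeasureTheory Filter Topology Crest.MathPhysics.MatrixQM
open scoped ContDiff InnerProductSpace ENNReal

noncomputable section

namespace Crest.Agent.R330.LocD8

open Crest.Agent.R330.Defs478 Crest.Agent.R330.LS839 Crest.Agent.R330.Frame839
  Crest.Agent.R330.Clus839
  Crest.Agent.R330.Bind6839 Crest.Agent.R330.SlG944 Crest.Agent.R330.SlF944
  Crest.Agent.R330.IBP837 Crest.Agent.R330.TDef414
  Crest.Agent.R330.LemA342 Crest.Agent.R330.FibProj837 Crest.Agent.R330.LocB8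
  Crest.Agent.R330.LocC8
  Crest.Agent.R330.SlQE87 Crest.Agent.R330.HBX450 Crest.Agent.R330.CapBind737
  Crest.Agent.R330.TrialSys796
open Crest.Agent.R330.SlB314 (Nor Tan br)
open Crest.Agent.R330.SlD314 (tube)
open Crest.Agent.R330.KEq823 (actU actZ)

variable {N p : ℕ} {b : ColorBasis N} {S : Type} [Group S] [Fintype S] {C : Chn b p S}
  {F : Type*} [NormedAddCommGroup F] [InnerProductSpace ℂ F] [FiniteDimensional ℂ F]
  {M : FermionRep N F} {R : GaugeAction b M} {G : GammaNine}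

/-- block displacements of size `< δ` -/
def Sb (σ : Sl C) (δ : ℝ) : Set (Uk b (C.cf σ.X0)) := {u | ‖C.PY (u : Cfg N)‖ < δ}

theorem continuous_PY : Continuous (C.PY : Cfg N → Cfg N) := TCore383.contDiff_PY.continuous

theorem isOpen_Sb (σ : Sl C) (δ : ℝ) : IsOpen (Sb σ δ) :=
  isOpen_lt ((continuous_PY (C := C)).comp continuous_subtype_val).norm continuous_const

/-! ## Almost every point is regular -/

theorem ae_breg (σ : Sl C) : ∀ᵐ u : Uk b (C.cf σ.X0), C.BReg (posu σ (u : Cfg N)) := by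
  have h1 : ∀ᵐ X : Pos p, C.BReg X := by
    have := ChFlat718.null_Zc (C := C)
    rw [ae_iff]
    exact this
  have h2 : ∀ᵐ X' : Pos p, C.BReg (σ.X0 + X') :=
    (measurePreserving_add_left (volume : Measure (Pos p)) σ.X0).quasiMeasurePreserving.ae h1
  have h3 : ∀ᵐ q : Pos p × C.Blk, C.BReg (σ.X0 + q.1) :=
    Measure.quasiMeasurePreserving_fst.ae h2
  have h4 : ∀ᵐ q : Pos p × C.Blk,
      C.BReg (posu σ (PairT245.uE (BrT5658.reg0 σ) q : Cfg N)) := by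
    filter_upwards [h3] with q hq
    have := posu_uE (σ := σ) q.1 q.2
    rw [show (q.1, q.2) = q from rfl] at this
    rwa [this]
  have hm : MeasurableSet {u : Uk b (C.cf σ.X0) | C.BReg (posu σ (u : Cfg N))} :=
    (C.isOpen_breg.preimage (contDiff_posu σ).continuous).measurableSet
  have h5 := (PairT245.mp_uE (BrT5658.reg0 σ)).map_eq
  rw [← h5, ae_map_iff (PairT245.mp_uE (BrT5658.reg0 σ)).measurable.aemeasurable hm]
  exact h4

theorem aesm_fpr {P : TPack C M R G} {σ : Sl C} {v : Uk b (C.cf σ.X0) → F} (hv : Continuous v) :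
    AEStronglyMeasurable (fun u : Uk b (C.cf σ.X0) => pV P (posu σ (u : Cfg N)) (v u)) volume := by
  set O : Set (Uk b (C.cf σ.X0)) := {u | C.BReg (posu σ (u : Cfg N))} with hO
  have hopen : IsOpen O := C.isOpen_breg.preimage (contDiff_posu σ).continuous
  have h1 : ContinuousOn (fun u : Uk b (C.cf σ.X0) => pV P (posu σ (u : Cfg N)) (v u)) O := by
    intro u hu
    refine ContinuousAt.continuousWithinAt ?_
    set e := stdOrthonormalBasis ℂ F with he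
    have h2 : (fun u : Uk b (C.cf σ.X0) => pV P (posu σ (u : Cfg N)) (v u)) =
        fun u => ∑ k, ⟪e k, v u⟫_ℂ • pV P (posu σ (u : Cfg N)) (e k) := by
      funext u
      conv_lhs => rw [← e.sum_repr' (v u)]
      rw [map_sum]
      exact Finset.sum_congr rfl fun k _ => map_smul _ _ _
    rw [h2]
    refine tendsto_finsetSum _ fun k _ => ?_
    have h3 : ContinuousAt (fun u : Uk b (C.cf σ.X0) => pV P (posu σ (u : Cfg N)) (e k)) u :=
      (contDiffAt_pV P hu (e k)).continuousAt.comp (f := fun u : Uk b (C.cf σ.X0) =>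
        posu σ (u : Cfg N)) (contDiff_posu σ).continuous.continuousAt
    exact (continuousAt_const.inner hv.continuousAt).smul h3
  have h2 := h1.aestronglyMeasurable (μ := volume) hopen.measurableSet
  have h3 : ∀ᵐ u : Uk b (C.cf σ.X0), u ∈ O := ae_breg σ
  rwa [Measure.restrict_eq_self_of_ae_mem h3] at h2

/-! ## Cut-offs in the position -/

/-- the cut-off `ϑ(X) κ0` -/
def cutm (σ : Sl C) (ϑ : Pos p → ℝ) (κ0 : Sc b (C.cf σ.X0) → ℝ) (x : Sc b (C.cf σ.X0)) : ℝ :=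
  ϑ (posu σ (x.1 : Cfg N)) * κ0 x

section cut

variable {P : TPack C M R G} {σ : Sl C} {ρ : Pos p → Pos p} {κ0 κ : Sc b (C.cf σ.X0) → ℝ}
  {ϑ : Pos p → ℝ} {g : ℝ} {φ : Cfg N → F}

theorem half_cutm (x : Sc b (C.cf σ.X0)) : half b (C.cf σ.X0) (cutm σ ϑ κ0) φ x =
    ϑ (posu σ (x.1 : Cfg N)) • half b (C.cf σ.X0) κ0 φ x := by
  unfold half cutm
  rw [mul_smul]

theorem vf_cutm (u : Uk b (C.cf σ.X0)) : vf P σ ρ (cutm σ ϑ κ0) g φ u =
    ϑ (posu σ (u : Cfg N)) • vf P σ ρ κ0 g φ u := by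
  unfold vf fpr
  simp only [LinearMap.id_apply]
  rw [← integral_smul]
  refine integral_congr_ae (Eventually.of_forall fun z => ?_)
  simp only
  rw [half_cutm, smul_comm]

theorem wf_cutm (u : Uk b (C.cf σ.X0)) : wf P σ ρ (cutm σ ϑ κ0) g φ u =
    ϑ (posu σ (u : Cfg N)) • wf P σ ρ κ0 g φ u := by
  rw [wf_eq, wf_eq, vf_cutm, ← Complex.coe_smul, map_smul, Complex.coe_smul]

theorem wfam (hρ : ContDiff ℝ ∞ ρ) (hr : ∀ X, ‖ρ X - σ.X0‖ < σ.r) (hκ : Cut σ κ)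
    (hφ : IsCoreVec b R φ) : WFam P (ks κ) (wB P σ ρ κ g φ) where
  closed := (isCompact_ks hκ.supp).isClosed
  breg _ hX := ks_breg hκ hX
  smooth := contDiff_wB hρ hr hκ hφ.1
  supp := hcs_wB hκ.supp
  off _ hX Y := wB_zero hX Y
  vac X hX Y := exists_U P (ks_breg hκ hX) (wB_mem X Y)
  equi X hX _ hh _ _ hY :=
    wB_act hρ hr hκ hφ (TCore383.act_cf (ks_breg hκ hX).reg hh σ.X0) X hY

/-- Fubini for the fibre projection -/
theorem int_wf (hρ : ContDiff ℝ ∞ ρ) (hr : ∀ X, ‖ρ X - σ.X0‖ < σ.r) (hκ : Cut σ κ)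
    (hφ : IsCoreVec b R φ) (δ : ℝ) :
    ∫ u in Sb σ δ, ‖wf P σ ρ κ g φ u‖ ^ 2 ≤
      ∫ X, ∫ Y in Metric.closedBall (0 : C.Blk) δ, ‖wB P σ ρ κ g φ X Y‖ ^ 2 := by
  set f : Uk b (C.cf σ.X0) → ℝ := (Sb σ δ).indicator fun u => ‖wf P σ ρ κ g φ u‖ ^ 2 with hf
  have hc : Continuous fun u => ‖wf P σ ρ κ g φ u‖ ^ 2 :=
    (contDiff_wf hρ hr hκ hφ.1).continuous.norm.pow 2
  have hs : HasCompactSupport fun u => ‖wf P σ ρ κ g φ u‖ ^ 2 :=
    (hcs_wf (P := P) (ρ := ρ) (g := g) (φ := φ) hκ.supp).norm.comp_left (g := fun t : ℝ => t ^ 2)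
      (by norm_num)
  have hi : Integrable fun u => ‖wf P σ ρ κ g φ u‖ ^ 2 := hc.integrable_of_hasCompactSupport hs
  have hif : Integrable f := hi.indicator (isOpen_Sb σ δ).measurableSet
  have h1 : ∫ u in Sb σ δ, ‖wf P σ ρ κ g φ u‖ ^ 2 = ∫ u, f u :=
    (integral_indicator (isOpen_Sb σ δ).measurableSet).symm
  rw [h1, PairT245.integral_uk (BrT5658.reg0 σ)]
  have hif2 := (PairT245.integrable_uk (BrT5658.reg0 σ) f).1 hif
  rw [Measure.volume_eq_prod, integral_prod _ hif2]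
  have h2 : ∫ X, ∫ Y in Metric.closedBall (0 : C.Blk) δ, ‖wB P σ ρ κ g φ X Y‖ ^ 2 =
      ∫ X', ∫ Y in Metric.closedBall (0 : C.Blk) δ, ‖wB P σ ρ κ g φ (X' + σ.X0) Y‖ ^ 2 :=
    (integral_add_right_eq_self (fun X => ∫ Y in Metric.closedBall (0 : C.Blk) δ,
      ‖wB P σ ρ κ g φ X Y‖ ^ 2) σ.X0).symm
  rw [h2]
  have e : ∀ X' Y, ‖wB P σ ρ κ g φ (X' + σ.X0) Y‖ ^ 2 =
      ‖wf P σ ρ κ g φ (PairT245.uE (BrT5658.reg0 σ) (X', Y))‖ ^ 2 := by
    intro X' Y
    unfold LocC8.wB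
    rw [add_sub_cancel_right]
  have hi2 := (PairT245.integrable_uk (BrT5658.reg0 σ) _).1 hi
  rw [Measure.volume_eq_prod] at hi2 hif2
  have hie : Integrable (fun q : Pos p × C.Blk =>
      (Metric.closedBall (0 : C.Blk) δ).indicator (fun Y => ‖wf P σ ρ κ g φ
        (PairT245.uE (BrT5658.reg0 σ) (q.1, Y))‖ ^ 2) q.2) (volume.prod volume) := by
    have h3 : (fun q : Pos p × C.Blk =>
      (Metric.closedBall (0 : C.Blk) δ).indicator (fun Y => ‖wf P σ ρ κ g φ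
        (PairT245.uE (BrT5658.reg0 σ) (q.1, Y))‖ ^ 2) q.2) =
        ((Prod.snd : Pos p × C.Blk → C.Blk) ⁻¹' Metric.closedBall (0 : C.Blk) δ).indicator
          (fun q => ‖wf P σ ρ κ g φ (PairT245.uE (BrT5658.reg0 σ) q)‖ ^ 2) := by
      funext q
      by_cases hq : q.2 ∈ Metric.closedBall (0 : C.Blk) δ
      · rw [Set.indicator_of_mem hq, Set.indicator_of_mem (by exact hq)]
      · rw [Set.indicator_of_notMem hq, Set.indicator_of_notMem (by exact hq)]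
    rw [h3]
    exact hi2.indicator (measurable_snd Metric.isClosed_closedBall.measurableSet)
  refine integral_mono hif2.integral_prod_left ?_ fun X' => ?_
  · have h4 := hie.integral_prod_left
    refine h4.congr (Eventually.of_forall fun X' => ?_)
    simp only
    rw [integral_indicator Metric.isClosed_closedBall.measurableSet]
    simp only [e]
  · simp only [e]
    rw [← integral_indicator Metric.isClosed_closedBall.measurableSet]
    refine integral_mono_of_nonneg (Eventually.of_forall fun Y => ?_) ?_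
      (Eventually.of_forall fun Y => ?_)
    · exact Set.indicator_nonneg (fun _ _ => sq_nonneg _) _
    · have h5 : Continuous fun Y : C.Blk =>
          ‖wf P σ ρ κ g φ (PairT245.uE (BrT5658.reg0 σ) (X', Y))‖ ^ 2 :=
        hc.comp ((PairT245.uE (BrT5658.reg0 σ)).continuous.comp
          (continuous_const.prodMk continuous_id))
      refine IntegrableOn.integrable_indicator ?_ Metric.isClosed_closedBall.measurableSet
      exact h5.continuousOn.integrableOn_compact (isCompact_closedBall _ _)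
    · have hPY : C.PY (PairT245.uE (BrT5658.reg0 σ) (X', Y) : Cfg N) = Y := by
        rw [PairT245.coe_uE]
        exact PairT245.PY_sum' X' Y.2
      by_cases hY : ‖(Y : Cfg N)‖ < δ
      · have m1 : PairT245.uE (BrT5658.reg0 σ) (X', Y) ∈ Sb σ δ := by
          show ‖C.PY (PairT245.uE (BrT5658.reg0 σ) (X', Y) : Cfg N)‖ < δ
          rw [hPY]
          exact hY
        have m2 : Y ∈ Metric.closedBall (0 : C.Blk) δ := by
          rw [mem_closedBall_zero_iff]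
          exact hY.le
        simp only [hf]
        rw [Set.indicator_of_mem m1, Set.indicator_of_mem m2]
      · have m1 : PairT245.uE (BrT5658.reg0 σ) (X', Y) ∉ Sb σ δ := by
          show ¬ ‖C.PY (PairT245.uE (BrT5658.reg0 σ) (X', Y) : Cfg N)‖ < δ
          rw [hPY]
          exact hY
        simp only [hf]
        rw [Set.indicator_of_notMem m1]
        exact Set.indicator_nonneg (fun _ _ => sq_nonneg _) _

end cut

/-! ## The inputs -/

section inputs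

variable (P : TPack C M R G) (σ : Sl C) (ρ : Pos p → Pos p) (κ0 κ : Sc b (C.cf σ.X0) → ℝ) (m : ℝ)

/-- (I1) distance of the slice function to the fibrewise vacua -/
def I1In : Prop := ∃ K : ℝ, 0 ≤ K ∧ ∃ η : ℝ, 0 < η ∧ ∀ᶠ g in atTop, ∀ φ : Cfg N → F,
  IsCoreVec b R φ → ∀ δ : ℝ, 0 < δ → δ ≤ η →
    g * (∫ u in Sb σ δ, ∫ z, ‖half b (C.cf σ.X0) κ0 φ (u, z) -
      fpj volume (gsl P σ ρ g) (fun u => pV P (posu σ (u : Cfg N)))
        (half b (C.cf σ.X0) κ0 φ) (u, z)‖ ^ 2) ≤ K * (1 + g * δ ^ 2) * En b M G g m φ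

/-- (H6) the block charges of the fibre projection -/
def HQIn : Prop := ∃ K : ℝ, 0 ≤ K ∧ ∀ᶠ g in atTop, ∀ φ : Cfg N → F, IsCoreVec b R φ →
  (∑ α, ∫ X, ∫ Y : C.Blk, ‖qblkB M G g α (LocC8.wB P σ ρ κ g φ X) Y‖ ^ 2) ≤ K * En b M G g m φ

/-- (I3) the amplitudes are bounded in `H¹` -/
def I3In : Prop := ∃ K : ℝ, 0 ≤ K ∧ ∀ᶠ g in atTop, ∀ φ : Cfg N → F, IsCoreVec b R φ →
  ContDiff ℝ 1 (ampX P g (LocC8.wB P σ ρ κ g φ)) ∧
  (∫ X, ‖ampX P g (LocC8.wB P σ ρ κ g φ) X‖ ^ 2) ≤ K * En b M G g m φ ∧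
  (∫ X, ‖fderiv ℝ (ampX P g (LocC8.wB P σ ρ κ g φ)) X‖ ^ 2) ≤ K * En b M G g m φ

/-- (I4) the amplitudes tend weakly to zero -/
def I4In : Prop := ∀ (g : ℕ → ℝ) (φ : ℕ → Cfg N → F),
  Null b M R G m (X := Gen C M G) (fun g q => Tgen P q.1 g q.2.fn) g φ →
  ∀ χ : Pos p → C.Fx M G, ContDiff ℝ ∞ χ → HasCompactSupport χ →
    Tendsto (fun j => ∫ X, ⟪(χ X : F), ampX P (g j) (LocC8.wB P σ ρ κ (g j) (φ j)) X⟫_ℂ)
      atTop (𝓝 0)

/-- the part near the singular positions is small -/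
def TailIn : Prop := ∀ e : ℝ, 0 < e → ∃ ϑ : Pos p → ℝ, ContDiff ℝ ∞ ϑ ∧ (∀ X, 0 ≤ ϑ X) ∧
  (∀ X, ϑ X ≤ 1) ∧ Cut σ (cutm σ ϑ κ0) ∧ ∀ᶠ g in atTop, ∀ φ : Cfg N → F, IsCoreVec b R φ →
    (∫ u : Uk b (C.cf σ.X0), (1 - ϑ (posu σ (u : Cfg N))) ^ 2 *
      ∫ z, ‖half b (C.cf σ.X0) κ0 φ (u, z)‖ ^ 2) ≤ e * En b M G g m φ

end inputs

/-! ## The assembly -/

section main

variable {P : TPack C M R G} {σ : Sl C} {ρ : Pos p → Pos p} {κ0 κ : Sc b (C.cf σ.X0) → ℝ}
  {m : ℝ}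

theorem En_nonneg (g m : ℝ) (φ : Cfg N → F) : 0 ≤ En b M G g m φ := by
  unfold En
  have h1 : 0 ≤ ∫ x, ‖φ x‖ ^ 2 := integral_nonneg fun _ => by positivity
  have h2 : 0 ≤ qf b M G g m φ := by
    unfold qf
    positivity
  linarith

/-- the amplitudes of a null sequence tend to zero -/
theorem amp_tendsto (hρ : ContDiff ℝ ∞ ρ) (hr : ∀ X, ‖ρ X - σ.X0‖ < σ.r) (hκ : Cut σ κ)
    (h3 : I3In P σ ρ κ m) (h4 : I4In P σ ρ κ m) {g : ℕ → ℝ} {φ : ℕ → Cfg N → F}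
    (hn : Null b M R G m (X := Gen C M G) (fun g q => Tgen P q.1 g q.2.fn) g φ) :
    Tendsto (fun j => ∫ X, ‖ampX P (g j) (LocC8.wB P σ ρ κ (g j) (φ j)) X‖ ^ 2) atTop (𝓝 0) := by
  obtain ⟨K, hK, h3⟩ := h3
  obtain ⟨C0, hC0⟩ := hn.en
  have hC0' : 0 ≤ C0 := (En_nonneg (g 0) m (φ 0)).trans (hC0 0)
  obtain ⟨n0, hn0⟩ := eventually_atTop.1 (hn.g_top.eventually (h3.and
    (P.Psi_smooth)))
  rw [← tendsto_add_atTop_iff_nat n0]
  set a : ℕ → Pos p → F := fun j => ampX P (g (j + n0)) (LocC8.wB P σ ρ κ (g (j + n0)) (φ (j + n0)))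
    with ha
  obtain ⟨r, hr0⟩ : ∃ r, ks κ ⊆ Metric.closedBall (0 : Pos p) r :=
    (isCompact_ks hκ.supp).isBounded.subset_closedBall 0
  have hsupp : ∀ j, tsupport (a j) ⊆ Metric.closedBall 0 r := fun j => by
    refine closure_minimal (fun X hX => ?_) Metric.isClosed_closedBall
    by_contra hn'
    refine hX ?_
    have h5 := wfam (P := P) (g := g (j + n0)) hρ hr hκ (hn.core (j + n0))
    exact ampX_off h5 (hn0 (j + n0) (Nat.le_add_left _ _)).2.continuous fun h => hn' (hr0 h)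
  refine Amp406.amp_null (r := r) (C := K * C0) (fun j => ?_) hsupp (fun j => ?_) (fun j => ?_)
    fun χ hχ hχc => ?_
  · exact ((hn0 (j + n0) (Nat.le_add_left _ _)).1 _ (hn.core _)).1
  · exact ((hn0 (j + n0) (Nat.le_add_left _ _)).1 _ (hn.core _)).2.1.trans
      (mul_le_mul_of_nonneg_left (hC0 _) hK)
  · exact ((hn0 (j + n0) (Nat.le_add_left _ _)).1 _ (hn.core _)).2.2.trans
      (mul_le_mul_of_nonneg_left (hC0 _) hK)
  · -- project the test function to `Fx`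
    let Q : F →L[ℂ] C.Fx M G := (C.Fx M G).orthogonalProjectionOnto
    have h6 := h4 g φ hn (fun X => Q (χ X)) ((Q.restrictScalars ℝ).contDiff.comp hχ)
      (hχc.comp_left (g := Q) (map_zero _))
    rw [← tendsto_add_atTop_iff_nat n0] at h6
    refine h6.congr fun j => integral_congr_ae (Eventually.of_forall fun X => ?_)
    simp only
    have h7 : ampX P (g (j + n0)) (LocC8.wB P σ ρ κ (g (j + n0)) (φ (j + n0))) X ∈ C.Fx M G :=
      ampX_mem _ _ _ _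
    have h8 : ((Q (χ X) : C.Fx M G) : F) = (C.Fx M G).starProjection (χ X) := rfl
    rw [h8, Submodule.inner_starProjection_left_eq_right,
      Submodule.starProjection_eq_self_iff.2 h7]

/-- **The block Hardy inequality with cut-off, soft form.** -/
theorem hb_soft (hP : PsiHardy P) (hρ : ContDiff ℝ ∞ ρ) (hr : ∀ X, ‖ρ X - σ.X0‖ < σ.r)
    (hκ : Cut σ κ) {D : ℝ} (hD : 0 ≤ D)
    (hmass : ∀ᶠ g in atTop, ∀ φ : Cfg N → F, IsCoreVec b R φ →
      (∫ X, ∫ Y : C.Blk, ‖LocC8.wB P σ ρ κ g φ X Y‖ ^ 2) ≤ D * En b M G g m φ)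
    (hq : HQIn P σ ρ κ m) {g : ℕ → ℝ} {φ : ℕ → Cfg N → F} (hg : Tendsto g atTop atTop)
    (hφ : ∀ j, IsCoreVec b R (φ j)) {C0 : ℝ} (hC0 : ∀ j, En b M G (g j) m (φ j) ≤ C0) :
    ∃ C' : ℝ, 0 ≤ C' ∧ ∀ δ, 0 < δ → ∀ e', 0 < e' → ∀ᶠ j in atTop,
      ∫ u in Sb σ δ, ‖wf P σ ρ κ (g j) (φ j) u‖ ^ 2 ≤
        3 * (∫ X, ‖ampX P (g j) (LocC8.wB P σ ρ κ (g j) (φ j)) X‖ ^ 2) + C' * δ ^ 2 + e' := by
  obtain ⟨K₀, hK₀, h1⟩ := hbX hP
  obtain ⟨Kq, hKq, h2⟩ := hq
  have hC0' : 0 ≤ C0 := (En_nonneg (g 0) m (φ 0)).trans (hC0 0)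
  refine ⟨K₀ * (Kq * C0), by positivity, fun δ hδ e' he' => ?_⟩
  have t1 : Tendsto (fun j => K₀ * (Kq * C0) * (g j) ^ (-(2 / 3) : ℝ)) atTop (𝓝 0) := by
    simpa using ((tendsto_rpow_neg_atTop (by norm_num : (0 : ℝ) < 2 / 3)).comp hg).const_mul
      (K₀ * (Kq * C0))
  filter_upwards [hg.eventually (h1 (e' / (2 * (D * C0 + 1))) (by positivity)), hg.eventually h2,
    hg.eventually hmass, t1.eventually (ge_mem_nhds (by positivity : (0 : ℝ) < e' / 2)),
    hg.eventually_gt_atTop 0] with j a1 a2 a3 a4 a5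
  refine (int_wf hρ hr hκ (hφ j) δ).trans ((a1.2 _ _ (wfam hρ hr hκ (hφ j)) δ hδ).trans ?_)
  have b2 := (a2 (φ j) (hφ j)).trans (mul_le_mul_of_nonneg_left (hC0 j) hKq)
  have b3 := (a3 (φ j) (hφ j)).trans (mul_le_mul_of_nonneg_left (hC0 j) hD)
  have hgp : 0 ≤ (g j) ^ (-(2 / 3) : ℝ) := Real.rpow_nonneg a5.le _
  have c1 : K₀ * ((g j) ^ (-(2 / 3) : ℝ) + δ ^ 2) *
      (∑ α, ∫ X, ∫ Y : C.Blk, ‖qblkB M G (g j) α (LocC8.wB P σ ρ κ (g j) (φ j) X) Y‖ ^ 2) ≤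
      K₀ * ((g j) ^ (-(2 / 3) : ℝ) + δ ^ 2) * (Kq * C0) :=
    mul_le_mul_of_nonneg_left b2 (by positivity)
  have c2 : e' / (2 * (D * C0 + 1)) *
      (∫ X, ∫ Y : C.Blk, ‖LocC8.wB P σ ρ κ (g j) (φ j) X Y‖ ^ 2) ≤ e' / 2 := by
    calc e' / (2 * (D * C0 + 1)) * (∫ X, ∫ Y : C.Blk, ‖LocC8.wB P σ ρ κ (g j) (φ j) X Y‖ ^ 2) ≤
          e' / (2 * (D * C0 + 1)) * (D * C0 + 1) :=
          mul_le_mul_of_nonneg_left (by linarith) (by positivity)
      _ = e' / 2 := by field_simp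
  have c3 : K₀ * ((g j) ^ (-(2 / 3) : ℝ) + δ ^ 2) * (Kq * C0) =
      K₀ * (Kq * C0) * (g j) ^ (-(2 / 3) : ℝ) + K₀ * (Kq * C0) * δ ^ 2 := by ring
  linarith

end main

end Crest.Agent.R330.LocD8

end
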