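import Crest.Agent.R330.FibProj_837

/-!
# Row 330, S9-PAIRING (helper424): core vectors against trial states on one slice

Coordinates `U × Z` (light directions, heavy directions), `gs (u,z)` the normalised Gaussian,
`om : U → F` the light part of the trial state, `om' : U → F` the exact one, `th` a multiplier close
to `1` (density quotient and cut-off), `Φ` a half density.

* `lint_close` : `∫⁻ ‖th gs om - gs om'‖² ≤ 4 C² (∫⁻ r²‖om‖² + κ ∫⁻ ‖om‖²) + 2 ∫⁻ ‖om - om'‖²`.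
* `norm_integral_inner_sub_le` : Cauchy-Schwarz for the pairings.
* `integral_inner_fpr` : `∫ ⟪gs om', Φ⟫ = ∫ ⟪om', w⟫`, `w = fpr gs p Φ`.
* `integral_inner_amp` : `∫ ⟪om', w⟫ = ∫ ⟪χ, a⟫` for the amplitude `a`.
* `pairing_tendsto` : all together, for sequences.
* `sqrt_quot_close` : the density quotient is close to `1`.
-/

set_option autoImplicit false
set_option linter.unusedSectionVars false

open MeasureTheory Filter Topology Set
open scoped ContDiff InnerProductSpace ENNReal NNReal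

noncomputable section

namespace Crest.Agent.R330.PairC424

open Crest.Agent.R330.FibProj837

/-! ## Closeness of the trial states -/

section close

variable {U Z : Type*} [MeasurableSpace U] [MeasurableSpace Z] {ν : Measure U} {μ : Measure Z}
  [SFinite ν] [SFinite μ]
  {F : Type*} [NormedAddCommGroup F] [InnerProductSpace ℂ F]



theorem enorm_eq_ofReal (v : F) : ‖v‖ₑ ^ 2 = ENNReal.ofReal (‖v‖ ^ 2) := by
  rw [← ofReal_norm, ENNReal.ofReal_pow (norm_nonneg _)]



end close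

/-! ## Cauchy-Schwarz -/

section cs

variable {S : Type*} [MeasurableSpace S] {σ : Measure S}
  {F : Type*} [NormedAddCommGroup F] [InnerProductSpace ℂ F] {f g Φ : S → F}

theorem integrable_inner (hf : MemLp f 2 σ) (hΦ : MemLp Φ 2 σ) :
    Integrable (fun x => ⟪f x, Φ x⟫_ℂ) σ :=
  (hf.norm.integrable_mul hΦ.norm).mono' (hf.1.inner hΦ.1)
    (Eventually.of_forall fun _ => norm_inner_le_norm _ _)

theorem norm_integral_inner_le (hf : MemLp f 2 σ) (hΦ : MemLp Φ 2 σ) :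
    ‖∫ x, ⟪f x, Φ x⟫_ℂ ∂σ‖ ≤
      Real.sqrt (∫ x, ‖f x‖ ^ 2 ∂σ) * Real.sqrt (∫ x, ‖Φ x‖ ^ 2 ∂σ) := by
  have h2 := integral_mul_le_Lp_mul_Lq_of_nonneg (μ := σ) (p := 2) (q := 2)
    (f := fun z => ‖f z‖) (g := fun z => ‖Φ z‖) Real.HolderConjugate.two_two
    (Eventually.of_forall fun _ => norm_nonneg _) (Eventually.of_forall fun _ => norm_nonneg _)
    (by simpa using hf.norm) (by simpa using hΦ.norm)
  simp only [Real.rpow_two] at h2
  rw [Real.sqrt_eq_rpow, Real.sqrt_eq_rpow]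
  refine ((norm_integral_le_integral_norm _).trans ?_).trans h2
  exact integral_mono_of_nonneg (Eventually.of_forall fun _ => norm_nonneg _)
    (hf.norm.integrable_mul hΦ.norm) (Eventually.of_forall fun _ => norm_inner_le_norm _ _)


theorem lint_eq_ofReal (hf : MemLp f 2 σ) :
    ∫⁻ x, ‖f x‖ₑ ^ 2 ∂σ = ENNReal.ofReal (∫ x, ‖f x‖ ^ 2 ∂σ) := by
  rw [ofReal_integral_eq_lintegral_ofReal (hf.integrable_norm_pow (by norm_num))
    (Eventually.of_forall fun _ => by positivity)]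
  simp only [enorm_eq_ofReal]

end cs

/-! ## The pairing estimate -/

section pairing

variable {U Z : Type*} [MeasurableSpace U] [MeasurableSpace Z] {ν : Measure U} {μ : Measure Z}
  [SFinite ν] [SFinite μ]
  {F : Type*} [NormedAddCommGroup F] [InnerProductSpace ℂ F]

/-- `gs om` is square integrable on the product -/
theorem memLp_gs {gs : U × Z → ℝ} {om : U → F} (hgs : Measurable gs)
    (h1 : ∀ u, ∫⁻ z, ENNReal.ofReal (gs (u, z) ^ 2) ∂μ ≤ 1) (hom : MemLp om 2 ν) :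
    MemLp (fun q => gs q • om q.1) 2 (ν.prod μ) := by
  have hq : Measure.QuasiMeasurePreserving (Prod.fst : U × Z → U) (ν.prod μ) ν :=
    Measure.quasiMeasurePreserving_fst
  have hm : AEStronglyMeasurable (fun q : U × Z => gs q • om q.1) (ν.prod μ) :=
    hgs.aestronglyMeasurable.smul (hom.1.comp_quasiMeasurePreserving hq)
  refine ⟨hm, ?_⟩
  have hg1 : Measurable fun q : U × Z => ENNReal.ofReal (gs q ^ 2) :=
    (hgs.pow_const 2).ennreal_ofReal
  have f1 : ∀ u, Measurable fun z => ENNReal.ofReal (gs (u, z) ^ 2) := fun u =>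
    hg1.comp measurable_prodMk_left
  have m2 : AEMeasurable (fun q : U × Z => ‖om q.1‖ₑ ^ 2) (ν.prod μ) :=
    ((hom.1.enorm.pow_const 2).comp_quasiMeasurePreserving hq)
  have h3 : ∫⁻ q, ‖gs q • om q.1‖ₑ ^ 2 ∂(ν.prod μ) ≤ ∫⁻ u, ‖om u‖ₑ ^ 2 ∂ν := by
    have e : ∀ q : U × Z, ‖gs q • om q.1‖ₑ ^ 2 = ‖om q.1‖ₑ ^ 2 * ENNReal.ofReal (gs q ^ 2) := by
      intro q
      rw [enorm_eq_ofReal, enorm_eq_ofReal, ← ENNReal.ofReal_mul (by positivity), norm_smul,
        mul_pow, Real.norm_eq_abs, sq_abs, mul_comm]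
    simp only [e]
    have mm : AEMeasurable (fun q : U × Z => ‖om q.1‖ₑ ^ 2 * ENNReal.ofReal (gs q ^ 2))
      (ν.prod μ) := m2.mul hg1.aemeasurable
    rw [lintegral_prod _ mm]
    refine lintegral_mono fun u => ?_
    show ∫⁻ z, ‖om u‖ₑ ^ 2 * ENNReal.ofReal (gs (u, z) ^ 2) ∂μ ≤ _
    rw [lintegral_const_mul _ (f1 u)]
    calc _ ≤ ‖om u‖ₑ ^ 2 * 1 := by gcongr; exact h1 u
      _ = _ := mul_one _
  have h4 : ∫⁻ u, ‖om u‖ₑ ^ 2 ∂ν < ⊤ := by
    rw [lint_eq_ofReal hom]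
    exact ENNReal.ofReal_lt_top
  rw [eLpNorm_lt_top_iff_lintegral_rpow_enorm_lt_top (by norm_num) (by norm_num)]
  simpa using h3.trans_lt h4


/-- Fubini for the projection on the Gaussian -/
theorem integral_inner_fpr {gs : U × Z → ℝ} {p : U → F →ₗ[ℂ] F} {om' : U → F} {Φ : U × Z → F}
    [CompleteSpace F] (hgs : Measurable gs)
    (h1 : ∀ u, ∫⁻ z, ENNReal.ofReal (gs (u, z) ^ 2) ∂μ ≤ 1)
    (hom' : MemLp om' 2 ν) (hΦ : MemLp Φ 2 (ν.prod μ))
    (hfib : ∀ u, Integrable (fun z => gs (u, z) • Φ (u, z)) μ)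
    (hp : ∀ u v w, ⟪p u v, w⟫_ℂ = ⟪v, p u w⟫_ℂ) (hfix : ∀ᵐ u ∂ν, p u (om' u) = om' u) :
    ∫ q, ⟪gs q • om' q.1, Φ q⟫_ℂ ∂(ν.prod μ) = ∫ u, ⟪om' u, fpr μ gs p Φ u⟫_ℂ ∂ν := by
  rw [integral_prod _ (integrable_inner (memLp_gs hgs h1 hom') hΦ)]
  refine integral_congr_ae ?_
  filter_upwards [hfix] with u hu
  have e : ∀ z, ⟪gs (u, z) • om' u, Φ (u, z)⟫_ℂ = ⟪om' u, gs (u, z) • Φ (u, z)⟫_ℂ := by
    intro z
    rw [RCLike.real_smul_eq_coe_smul (K := ℂ), RCLike.real_smul_eq_coe_smul (K := ℂ), inner_smul_left,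
      inner_smul_right, RCLike.conj_ofReal]
  simp only [e]
  rw [integral_inner (hfib u)]
  unfold fpr
  rw [← hp, hu]

end pairing

/-! ## The amplitude -/

section amp

variable {X Y : Type*} [MeasurableSpace X] [MeasurableSpace Y] {νX : Measure X} {νY : Measure Y}
  [SFinite νX] [SFinite νY]
  {F : Type*} [NormedAddCommGroup F] [InnerProductSpace ℂ F]
  {Fx : Type*} [NormedAddCommGroup Fx] [InnerProductSpace ℂ Fx]


end amp

/-! ## The density quotient -/

section quot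

variable {E : Type*} [NormedAddCommGroup E] [NormedSpace ℝ E]


end quot

end Crest.Agent.R330.PairC424

end
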