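import Crest.Agent.R330.TDefB_414
import Crest.Agent.R330.PairC_424

/-!
# Row 330, S8/S9 pairing: orthogonal coordinates of the slice (helper245)

* `OSum f g K` : two isometric coordinates with orthogonal ranges, sum `K`; `OSum.iso`, `OSum.e`,
  `OSum.mp` (measure preserving).
* `kE : Pos p × C.Blk ≃L Tup C.kk`, `uE h0 : Pos p × C.Blk ≃L Uk b c`, `(X', Y) ↦ C.cf X' + Y`;
  `nE h0 : (Pos p × C.Blk) × C.Zt X0 ≃L Nor b c`; `zE h0 : C.Zt X0 ≃ₗᵢ Zs b c`;
  `unE b c : Uk × Zs ≃L Nor`; all measure preserving (`mp_*`), coercions `coe_*`.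
* `cfT_sum`, `PK_sum`, `PY_sum`, `PM_sum`, `norm_sq_sum`, `tau_sum` : values on `C.cf X' + Y + z`.
* `integral_uk2`, `integral_nor3`, `lintegral_nor3`, `integral_un2`, `integral_ball`, `integral_ball3`,
  `integral_ball3_ite`, ... : Fubini.
-/

set_option autoImplicit false
set_option linter.unusedSectionVars false

open MeasureTheory Filter Topology Crest.MathPhysics.MatrixQM
open scoped ContDiff InnerProductSpace ENNReal

noncomputable section

namespace Crest.Agent.R330.PairT245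

open Crest.Agent.R330.Defs478 Crest.Agent.R330.LS839 Crest.Agent.R330.Frame839
  Crest.Agent.R330.Bind6839 Crest.Agent.R330.IBP837 Crest.Agent.R330.TDef414
open Crest.Agent.R330.SlB314 (Nor Tan br)

/-! ## Orthogonal sums of isometric coordinates -/

section abs

variable {A B E : Type*} [NormedAddCommGroup A] [InnerProductSpace ℝ A] [FiniteDimensional ℝ A]
  [MeasurableSpace A] [BorelSpace A]
  [NormedAddCommGroup B] [InnerProductSpace ℝ B] [FiniteDimensional ℝ B]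
  [MeasurableSpace B] [BorelSpace B]
  [NormedAddCommGroup E] [InnerProductSpace ℝ E] [FiniteDimensional ℝ E]
  [MeasurableSpace E] [BorelSpace E]

/-- Two isometric coordinates with orthogonal ranges span `K`. -/
structure OSum (f : A →ₗᵢ[ℝ] E) (g : B →ₗᵢ[ℝ] E) (K : Submodule ℝ E) : Prop where
  fmem : ∀ a, f a ∈ K
  gmem : ∀ b, g b ∈ K
  orth : ∀ a b, ⟪f a, g b⟫_ℝ = 0
  onto : ∀ k ∈ K, ∃ a b, f a + g b = k

variable {f : A →ₗᵢ[ℝ] E} {g : B →ₗᵢ[ℝ] E} {K : Submodule ℝ E}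

theorem OSum.norm_sq (h : OSum f g K) (a : A) (b : B) : ‖f a + g b‖ ^ 2 = ‖a‖ ^ 2 + ‖b‖ ^ 2 := by
  have h1 := norm_add_sq_real (f a) (g b)
  rw [h.orth a b, f.norm_map, g.norm_map] at h1
  linarith

/-- The isometry `WithLp 2 (A × B) ≃ K`. -/
def OSum.iso (h : OSum f g K) : WithLp 2 (A × B) ≃ₗᵢ[ℝ] K :=
  LinearIsometryEquiv.ofSurjective
    { toFun := fun q => ⟨f q.fst + g q.snd, K.add_mem (h.fmem _) (h.gmem _)⟩
      map_add' := fun q q' => by
        apply Subtype.ext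
        simp only [WithLp.add_fst, WithLp.add_snd, map_add, Submodule.coe_add]
        abel
      map_smul' := fun r q => by
        apply Subtype.ext
        simp only [WithLp.smul_fst, WithLp.smul_snd, map_smul, RingHom.id_apply,
          Submodule.coe_smul, smul_add]
      norm_map' := fun q => by
        have h1 : ‖f q.fst + g q.snd‖ ^ 2 = ‖q‖ ^ 2 := by
          rw [h.norm_sq, WithLp.prod_norm_sq_eq_of_L2]
        exact (sq_eq_sq₀ (norm_nonneg _) (norm_nonneg _)).1 h1 }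
    (fun k => by
      obtain ⟨a, b, hab⟩ := h.onto k k.2
      exact ⟨WithLp.toLp 2 (a, b), Subtype.ext hab⟩)

theorem OSum.coe_iso (h : OSum f g K) (q : WithLp 2 (A × B)) :
    ((h.iso q : K) : E) = f q.fst + g q.snd := rfl

/-- The continuous linear equivalence `A × B ≃ K`, `(a, b) ↦ f a + g b`. -/
def OSum.e (h : OSum f g K) : (A × B) ≃L[ℝ] K :=
  (WithLp.prodContinuousLinearEquiv 2 ℝ A B).symm.trans h.iso.toContinuousLinearEquiv


theorem OSum.mp (h : OSum f g K) : MeasurePreserving h.e (volume : Measure (A × B)) volume :=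
  h.iso.measurePreserving.comp (WithLp.volume_preserving_toLp A B)

theorem OSum.emb (h : OSum f g K) : MeasurableEmbedding h.e :=
  h.e.toHomeomorph.measurableEmbedding

end abs

/-! ## The coordinates of a slice -/

section geo

variable {N p : ℕ} {b : ColorBasis N} {S : Type} [Group S] [Fintype S] {C : Chn b p S}

theorem cf_mem_Tup (X : Pos p) : C.cf X ∈ Tup C.kk := fun i => by
  rw [C.comp_cf]; exact C.cen_mem _

theorem cf_mem_Cen (X : Pos p) : C.cf X ∈ C.Cen := LinearMap.mem_range_self _ X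

theorem Cen_le : C.Cen ≤ Tup C.kk := by
  rintro _ ⟨X, rfl⟩
  exact cf_mem_Tup X

theorem inner_cf_blk (X : Pos p) {Y : Cfg N} (hY : Y ∈ C.Blk) : ⟪C.cf X, Y⟫_ℝ = 0 :=
  (Submodule.mem_orthogonal _ _).1 hY.2 _ (cf_mem_Cen X)

/-- `R⁹ ⊗ kk` and `R⁹ ⊗ kkᗮ` are orthogonal. -/
theorem inner_Tup_perp {K : Submodule ℝ (Colg N)} {x z : Cfg N} (hx : x ∈ Tup K)
    (hz : z ∈ Tup Kᗮ) : ⟪x, z⟫_ℝ = 0 := by
  rw [← Tup_orth] at hz
  exact (Submodule.mem_orthogonal _ _).1 hz _ hx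

theorem cfT_of_perp {y : Cfg N} (hy : y ∈ C.Cenᗮ) : C.cfT y = 0 := by
  refine ext_inner_right ℝ fun X => ?_
  unfold Chn.cfT
  rw [ContinuousLinearMap.adjoint_inner_left, inner_zero_left, real_inner_comm]
  exact (Submodule.mem_orthogonal _ _).1 hy _ (cf_mem_Cen X)

theorem Tup_perp_le_Cen_perp : Tup C.kkᗮ ≤ C.Cenᗮ := by
  intro z hz
  rw [Submodule.mem_orthogonal]
  intro x hx
  exact inner_Tup_perp (Cen_le hx) hz

/-- `(X', Y) ↦ C.cf X' + Y`, onto `Tup C.kk`. -/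
theorem osum_k : OSum C.cf C.Blk.subtypeₗᵢ (Tup C.kk) where
  fmem := cf_mem_Tup
  gmem Y := Y.2.1
  orth X Y := inner_cf_blk X Y.2
  onto u hu := by
    refine ⟨C.cfT u, ⟨u - C.cf (C.cfT u), Submodule.sub_mem _ hu (cf_mem_Tup _), ?_⟩, ?_⟩
    · refine (Submodule.mem_orthogonal _ _).2 ?_
      rintro _ ⟨X, rfl⟩
      change ⟪C.cf X, u - C.cf (C.cfT u)⟫_ℝ = 0
      rw [inner_sub_right, C.cf.inner_map_map]
      unfold Chn.cfT
      rw [ContinuousLinearMap.adjoint_inner_right]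
      exact sub_self _
    · change C.cf (C.cfT u) + (u - C.cf (C.cfT u)) = u
      abel

variable {X0 : Pos p}

theorem Uk_eq (h0 : C.Reg X0) : Uk b (C.cf X0) = Tup C.kk := by
  unfold Uk
  rw [show kc (actB b) (C.cf X0) = C.kk from h0]

theorem Zs_eq (h0 : C.Reg X0) : Zs b (C.cf X0) = C.Zt X0 := by
  unfold Zs Mm Chn.Zt
  rw [show kc (actB b) (C.cf X0) = C.kk from h0, Nor_eq]

theorem Comc_cf (X : Pos p) : Comc b (C.cf X) := by
  intro i j
  rw [C.comp_cf, C.comp_cf]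
  exact C.cen_comm _ _ (C.cen_mem _)


/-- `(X', Y) ↦ C.cf X' + Y`, onto `Uk b c`. -/
theorem osum_u (h0 : C.Reg X0) : OSum C.cf C.Blk.subtypeₗᵢ (Uk b (C.cf X0)) := by
  rw [Uk_eq h0]
  exact osum_k

/-- `(u, z) ↦ u + z`, `Uk × Zs` onto `Nor`. -/
theorem osum_un {c : Cfg N} :
    OSum (Uk b c).subtypeₗᵢ (Zs b c).subtypeₗᵢ (Nor b c) where
  fmem u := by rw [← Nor_eq]; exact Uk_le_Nor u.2
  gmem z := by rw [← Nor_eq]; exact z.2.2
  orth u z := Zs_perp_Uk u.2 z.2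
  onto x hx := by
    rw [← Nor_eq] at hx
    obtain ⟨y, hy, z, hz, h⟩ := nor_decomp hx
    exact ⟨⟨y, hy⟩, ⟨z, hz⟩, h.symm⟩

/-- `(u, z) ↦ u + z`, `Tup C.kk × C.Zt X0` onto `Nor`. -/
theorem osum_kz (h0 : C.Reg X0) :
    OSum (Tup C.kk).subtypeₗᵢ (C.Zt X0).subtypeₗᵢ (Nor b (C.cf X0)) := by
  have h := osum_un (b := b) (c := C.cf X0)
  rw [Uk_eq h0, Zs_eq h0] at h
  exact h

/-- `((X', Y), z) ↦ C.cf X' + Y + z`, onto `Nor`. -/
def kE : (Pos p × C.Blk) ≃L[ℝ] Tup C.kk := (osum_k (C := C)).e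

/-- `(X', Y) ↦ C.cf X' + Y`, onto `Uk b c`. -/
def uE (h0 : C.Reg X0) : (Pos p × C.Blk) ≃L[ℝ] Uk b (C.cf X0) := (osum_u h0).e


/-- `C.Zt X0` is `Zs b c`. -/
def zE (h0 : C.Reg X0) : C.Zt X0 ≃ₗᵢ[ℝ] Zs b (C.cf X0) :=
  LinearIsometryEquiv.ofEq _ _ (Zs_eq h0).symm

/-- `((X', Y), z) ↦ C.cf X' + Y + z`, onto `Nor`. -/
def nE (h0 : C.Reg X0) : ((Pos p × C.Blk) × C.Zt X0) ≃L[ℝ] Nor b (C.cf X0) :=
  ((kE (C := C)).prodCongr (ContinuousLinearEquiv.refl ℝ (C.Zt X0))).trans (osum_kz h0).e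


theorem coe_uE (h0 : C.Reg X0) (q : Pos p × C.Blk) :
    ((uE h0 q : Uk b (C.cf X0)) : Cfg N) = C.cf q.1 + q.2 := rfl





theorem mp_uE (h0 : C.Reg X0) :
    MeasurePreserving (uE h0) (volume : Measure (Pos p × C.Blk)) volume := (osum_u h0).mp


theorem mp_zE (h0 : C.Reg X0) : MeasurePreserving (zE h0) (volume : Measure (C.Zt X0)) volume :=
  (zE h0).measurePreserving


/-! ## Values -/

theorem cfT_sum (X' : Pos p) {Y z : Cfg N} (hY : Y ∈ C.Blk) (hz : z ∈ Tup C.kkᗮ) :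
    C.cfT (C.cf X' + Y + z) = X' := by
  rw [map_add, map_add, C.cfT_cf, cfT_of_perp hY.2, cfT_of_perp (Tup_perp_le_Cen_perp hz),
    add_zero, add_zero]

theorem PK_sum (X' : Pos p) {Y z : Cfg N} (hY : Y ∈ C.Blk) (hz : z ∈ Tup C.kkᗮ) :
    C.PK (C.cf X' + Y + z) = C.cf X' + Y := by
  unfold Chn.PK
  rw [map_add, Submodule.starProjection_eq_self_iff.2
    (Submodule.add_mem _ (cf_mem_Tup X') hY.1)]
  rw [← Tup_orth] at hz
  rw [(Submodule.starProjection_apply_eq_zero_iff _).2 hz, add_zero]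

theorem PY_sum (X' : Pos p) {Y z : Cfg N} (hY : Y ∈ C.Blk) (hz : z ∈ Tup C.kkᗮ) :
    C.PY (C.cf X' + Y + z) = Y := by
  unfold Chn.PY
  rw [PK_sum X' hY hz, cfT_sum X' hY hz]
  abel


theorem cfT_sum' (X' : Pos p) {Y : Cfg N} (hY : Y ∈ C.Blk) : C.cfT (C.cf X' + Y) = X' := by
  have := cfT_sum X' hY (Submodule.zero_mem (Tup C.kkᗮ))
  rwa [add_zero] at this

theorem PY_sum' (X' : Pos p) {Y : Cfg N} (hY : Y ∈ C.Blk) : C.PY (C.cf X' + Y) = Y := by
  have := PY_sum X' hY (Submodule.zero_mem (Tup C.kkᗮ))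
  rwa [add_zero] at this



/-- the three components of a point of the normal space -/
theorem cfT_norm_le (u : Cfg N) : ‖C.cfT u‖ ≤ ‖u‖ := by
  have h : ‖C.cfT‖ ≤ 1 := by
    unfold Chn.cfT
    rw [LinearIsometryEquiv.norm_map]
    exact C.cf.norm_toContinuousLinearMap_le
  calc ‖C.cfT u‖ ≤ ‖C.cfT‖ * ‖u‖ := C.cfT.le_opNorm u
    _ ≤ 1 * ‖u‖ := by gcongr
    _ = ‖u‖ := one_mul _

variable {F : Type*} [NormedAddCommGroup F] [InnerProductSpace ℂ F] [FiniteDimensional ℂ F]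
  {M : FermionRep N F} {R : GaugeAction b M} {G : GammaNine}


/-! ## Fubini -/

section fub

variable {E' : Type*} [NormedAddCommGroup E'] [NormedSpace ℝ E']


theorem emb_uE (h0 : C.Reg X0) : MeasurableEmbedding (uE h0) :=
  (uE h0).toHomeomorph.measurableEmbedding



/-! ### `Uk` -/

theorem integral_uk (h0 : C.Reg X0) (h : Uk b (C.cf X0) → E') :
    ∫ u, h u = ∫ q : Pos p × C.Blk, h (uE h0 q) :=
  ((mp_uE h0).integral_comp (emb_uE h0) h).symm

theorem integrable_uk (h0 : C.Reg X0) (h : Uk b (C.cf X0) → E') :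
    Integrable h ↔ Integrable fun q : Pos p × C.Blk => h (uE h0 q) :=
  ((mp_uE h0).integrable_comp_emb (emb_uE h0)).symm




/-! ### `Nor` -/






/-! ### `Nor = Uk × Zs` -/






/-! ### the ball -/

/-- The preimage of the ball. -/
def bs (C : Chn b p S) (X0 : Pos p) (r : ℝ) : Set ((Pos p × C.Blk) × C.Zt X0) :=
  {q | ‖q.1.1‖ ^ 2 + ‖q.1.2‖ ^ 2 + ‖q.2‖ ^ 2 < r ^ 2}










end fub

end geo

end Crest.Agent.R330.PairT245

end
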