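import Crest.Agent.R330.LemC_342
import Crest.Agent.R330.FibP_581_Mg
import Crest.Agent.R330.Kill_942_Mg
import Crest.Agent.R330.AFld_984
import Crest.Agent.R330.LitA_974
import Crest.Agent.R330.FreeFx2_122

/-!
# Row 330, S7-R (helper342): the data of Lemma R for a pack `P : TPack C M R G`

`c = C.cf X0`, `C.Reg X0`.

* `ctrS_cf`, `Xu_cf`, `du_cf` : the commuting part of `c + u` is `C.cf (X0 + C.cfT u)`, the
  distance is `‖C.PY u‖`.
* `ae_breg` : `X0 + C.cfT u` is in `BReg` for almost every `u`.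
* `A_reg` : `P.A X = AXc b C.kk (C.cf X)` for every regular `X`; `QX_eq`, `gam_eq`.
* `star_eq` : the projection on the heavy vacua at a regular `X`; `mem_vac`, `range_U`.
-/

set_option autoImplicit false
set_option linter.unusedSectionVars false
set_option maxSynthPendingDepth 3

open MeasureTheory Filter Topology Crest.MathPhysics.MatrixQM Set
open Crest.Agent.R330.IBP837 Crest.Agent.R330.Defs478 Crest.Agent.R330.Frame839
open Crest.Agent.R330.LS839 Crest.Agent.R330.Clus839 Crest.Agent.R330.Bind6839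
open Crest.Agent.R330.Decoup924 Crest.Agent.R330.LemA342 Crest.Agent.R330.LemB342
open Crest.Agent.R330.LemC342 Crest.Agent.R330.TDef414 Crest.Agent.R330.FreeC122
open Crest.Agent.R330.Cliff442 Crest.Agent.R330.AX984 Crest.Agent.R330.GBind984
open Crest.Agent.R330.Fib892 Crest.Agent.R330.FactI161
open Crest.Agent.R330.Ctr581 (mem_ctrS_iff comp_mem_kk self_mem_ctrS)
open Crest.Agent.R330.Strata737 (ctrS PF)
open scoped ContDiff InnerProductSpace ENNReal

noncomputable section

namespace Crest.Agent.R330.LemP342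

variable {N p : ℕ} {b : ColorBasis N} {S : Type} [Group S] [Fintype S] {C : Chn b p S}
  {F : Type*} [NormedAddCommGroup F] [InnerProductSpace ℂ F] [FiniteDimensional ℂ F]
  {M : FermionRep N F} {G : GammaNine} {R : GaugeAction b M} {X0 : Pos p}

/-! ### geometry -/

theorem ctrS_cf (h : C.Reg X0) : ctrS b (C.cf X0) = C.Cen := by
  have hc : Comc b (C.cf X0) := AFld984.comc_cf C X0
  ext r
  constructor
  · intro hr
    have h1 : ∀ i, ∃ t, C.cen t = comp r i := by
      intro i
      refine C.cen_all _ ?_ fun v hv => ?_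
      · have h2 := comp_mem_kk hc hr i
        rwa [show kc (actB b) (C.cf X0) = C.kk from h] at h2
      · rw [← show kc (actB b) (C.cf X0) = C.kk from h] at hv
        exact Ctr581.comp_comm hr i hv
    choose t ht using h1
    refine ⟨mkp t, ?_⟩
    refine ext_comp fun i => ?_
    rw [← ht i]
    rfl
  · rintro ⟨X, rfl⟩
    rw [mem_ctrS_iff, show kc (actB b) (C.cf X0) = C.kk from h]
    exact AFld984.kk_le C X

theorem PF_cf (h : C.Reg X0) (y : Cfg N) : PF b (C.cf X0) y = C.cf (C.cfT y) := by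
  have h1 : PF b (C.cf X0) y = (C.Cen).starProjection y := by
    unfold PF
    simp only [ctrS_cf h]
  rw [h1]
  refine (Submodule.eq_starProjection_of_mem_of_inner_eq_zero ⟨_, rfl⟩ ?_)
  rintro _ ⟨X, rfl⟩
  exact LitA974.inner_cf_cfT C y X

theorem Xu_cf (h : C.Reg X0) (u : Uk b (C.cf X0)) :
    LemRe149.Xu b (C.cf X0) u = C.cf (X0 + C.cfT u) := by
  unfold LemRe149.Xu Ctr581.X
  rw [PF_cf h, add_sub_cancel_left, map_add]

theorem PK_Uk (h : C.Reg X0) (u : Uk b (C.cf X0)) : C.PK (u : Cfg N) = u := by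
  have h1 : (u : Cfg N) ∈ Tup C.kk := by
    rw [← LitA974.Uk_cf C h]
    exact u.2
  exact LitA974.PK_of_mem C h1

theorem du_cf (h : C.Reg X0) (u : Uk b (C.cf X0)) :
    LemRe149.du b (C.cf X0) u = ‖C.PY (u : Cfg N)‖ := by
  unfold LemRe149.du Chn.PY
  rw [Xu_cf h, PK_Uk h, map_add]
  congr 1
  abel

/-! ### almost every point is in `BReg` -/

theorem ae_ne {E E' : Type*} [NormedAddCommGroup E] [NormedSpace ℝ E] [FiniteDimensional ℝ E]
    [MeasurableSpace E] [BorelSpace E] [NormedAddCommGroup E'] [NormedSpace ℝ E']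
    (μ : Measure E) [μ.IsAddHaarMeasure] (L : E →L[ℝ] E') (h : L ≠ 0) (y : E') :
    ∀ᵐ x ∂μ, y + L x ≠ 0 := by
  by_cases hx : ∃ x0, y + L x0 = 0
  · obtain ⟨x0, hx0⟩ := hx
    have h1 : μ (L.ker : Set E) = 0 := by
      refine Measure.addHaar_submodule μ _ fun h2 => h ?_
      ext x
      have : x ∈ L.ker := by rw [h2]; trivial
      exact this
    have h2 : {x | ¬ (y + L x ≠ 0)} = (fun x => -x0 + x) ⁻¹' (L.ker : Set E) := by
      ext x
      have e : L (-x0 + x) = y + L x := by
        rw [map_add, map_neg]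
        have : L x0 = -y := by
          rw [eq_neg_iff_add_eq_zero, add_comm]
          exact hx0
        rw [this, neg_neg]
      have e2 : x ∈ (fun x => -x0 + x) ⁻¹' (L.ker : Set E) ↔ L (-x0 + x) = 0 := Iff.rfl
      rw [e2, e]
      exact not_not
    rw [ae_iff, h2, measure_preimage_add, h1]
  · push Not at hx
    exact Eventually.of_forall hx



theorem dense_breg : Dense {X | C.BReg X} := by
  have hJ := C.hJ
  refine Measure.dense_of_ae (μ := (volume : Measure (Pos p))) ?_
  unfold Chn.BReg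
  rw [ae_all_iff]
  intro a
  have hL0 : C.Lf a ≠ 0 := by
    intro h0
    obtain ⟨X, hX⟩ := C.Lf_surj a (EuclideanSpace.single 0 1)
    rw [h0] at hX
    have h2 := congrArg (fun x : EuclideanSpace ℝ (Fin 6) => x 0) hX
    simp at h2
  filter_upwards [ae_ne volume (C.Lf a) hL0 0] with X hX
  rwa [zero_add] at hX

/-! ### the Gaussian exponent -/

/-- the Gaussian exponent of a pack at a regular point -/
theorem A_reg [Nontrivial F] (P : TPack C M R G) {X : Pos p} (hX : C.Reg X) :
    P.A X = AXc b C.kk (C.cf X) := by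
  have := FreeFx122.nontrivial_Fx C M G
  obtain ⟨f, hf0⟩ := exists_ne (0 : C.Fx M G)
  have hf : (f : F) ∈ C.Fl M G := C.Fx_le_Fl M G f.2
  have hf0' : (f : F) ≠ 0 := fun h => hf0 (Subtype.ext h)
  rw [← AFld984.Afld_reg C hX]
  have h1 : (𝓝[{X | C.BReg X}] X).NeBot := mem_closure_iff_nhdsWithin_neBot.1 (dense_breg X)
  have h2 : Tendsto P.A (𝓝[{X | C.BReg X}] X) (𝓝 (P.A X)) :=
    (P.A_smooth X hX).continuousAt.continuousWithinAt
  have h3 : Tendsto (AFld984.Afld C) (𝓝[{X | C.BReg X}] X) (𝓝 (AFld984.Afld C X)) :=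
    (AFld984.A_smooth C X hX).continuousAt.continuousWithinAt
  refine tendsto_nhds_unique h2 (h3.congr' ?_)
  filter_upwards [self_mem_nhdsWithin] with Y hY
  rw [AFld984.Afld_reg C (TDef414.Chn.BReg.reg hY), AEq288.A_eq P hY hf hf0']

theorem QX_reg [Nontrivial F] (P : TPack C M R G) {X : Pos p} (hX : C.Reg X) (z : Cfg N) :
    QX b C.kk (C.cf X) z = ⟪P.A X z, z⟫_ℝ := by
  rw [A_reg P hX]
  rfl

/-! ### the heavy vacua -/

/-- vectors killed by the linear heavy charges of the pack at `X` -/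
def IsVac (P : TPack C M R G) (X : Pos p) (f : F) : Prop :=
  ∀ z ∈ Tup C.kkᗮ, ∀ α,
    Complex.I • Theta M G α (P.A X z) f + wB b M G 1 α (C.cf X) z f = 0

theorem isVac_iff [Nontrivial F] (P : TPack C M R G) {X : Pos p} (hX : C.Reg X) (f : F) :
    IsVac P X f ↔ f ∈ (cr M).vacJ (Jl b G C.kk (C.cf X)) := by
  unfold IsVac
  rw [A_reg P hX]
  exact Kill942.kill_iff M (AFld984.comc_cf C X) hX (row_Jl b G C.kk (C.cf X)) f

theorem pcs_cf {X : Pos p} (hX : C.Reg X) (G : GammaNine) : PCS (Jl b G C.kk (C.cf X)) := by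
  obtain ⟨s, hs, h⟩ := fam_of_eq (b := b) (AFld984.comc_cf C X) hX
  exact pcs_Jl h hs G

/-- the orthogonal projection on any space of heavy vacua is the literal one -/
theorem star_eq [Nontrivial F] (P : TPack C M R G) {X : Pos p} (hX : C.Reg X)
    (W : Submodule ℂ F) (hW : ∀ f, f ∈ W ↔ IsVac P X f) (f : F) :
    W.starProjection f = (cr M).proj (Jl b G C.kk (C.cf X)) f := by
  have hJ := pcs_cf (b := b) hX G
  refine Submodule.eq_starProjection_of_mem_of_inner_eq_zero ?_ fun w hw => ?_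
  · rw [hW, isVac_iff P hX]
    exact (cr M).proj_mem hJ f
  · rw [hW, isVac_iff P hX] at hw
    rw [← inner_conj_symm, (cr M).proj_orth hJ hw, map_zero]

/-- the range of `U X` on `Fl` -/
theorem mem_range_U (P : TPack C M R G) {X : Pos p} (hX : C.BReg X) (f : F) :
    f ∈ (C.Fl M G).map (P.U X : F →ₗ[ℂ] F) ↔ IsVac P X f := by
  constructor
  · rintro ⟨f', hf', rfl⟩
    exact fun z hz α => P.U_kill X hX f' hf' z hz α
  · intro h
    obtain ⟨f', hf', h1⟩ := P.U_full X hX f h
    exact ⟨f', hf', h1⟩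

end Crest.Agent.R330.LemP342

end
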