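import Crest.Agent.R330.Defs_478
import Crest.Agent.R330.Ims_714
import Crest.Agent.R330.WeitzY_726
import Crest.Agent.R330.Brid_837
import Crest.Agent.R330.Cov_837
import Crest.Agent.R330.Cone_741
import Crest.Agent.R330.DiagB_304
import Crest.Agent.R330.Bind6_839
import Crest.Agent.R330.SlJ_712
import Crest.Agent.R330.SlN_712
import Crest.Agent.R330.LemA_342
import Crest.Agent.R330.SlQE_87
import Crest.Agent.R330.QM0_363
import Crest.Agent.R330.Ims2_714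

-- ▼ part R330/Moment_776
section

/-!
# Row 330, section 7: the moment lemma (helper776)

`V1 = (1/32) Σ (w_{αβ}^A)²` at `(g, m) = (1, 0)` is the quartic potential.  For smooth `φ` with
support in `‖x‖ ≤ ρ`, `g ≥ 1`, `0 ≤ m`, `m² ≤ K g`:
`∫ V1 |∇φ|² + g² ∫ V1² |φ|² + g ∫ V1 |φ|² + g⁻¹ ∫ |∇φ|² ≤ C (q_{g,m}(φ) + ‖φ‖²)`.
No equivariance is used.
-/

set_option autoImplicit false
set_option linter.unusedSectionVars false

open MeasureTheory Filter Topology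
open scoped ContDiff InnerProductSpace ENNReal
open Crest.MathPhysics.MatrixQM
open Crest.Agent.R330.Defs478

noncomputable section

namespace Crest.Agent.R330.Moment776

variable {N : ℕ} {F : Type*} [NormedAddCommGroup F] [InnerProductSpace ℂ F]
  [FiniteDimensional ℂ F]

/-- The sum-of-squares potential of `Q^{g,m}`. -/
def Vsq (b : ColorBasis N) (G : GammaNine) (g m : ℝ) (x : Cfg N) : ℝ :=
  (1 / 32) * ∑ α : Fin 16, ∑ β : Fin 16, ∑ A : Fin (N ^ 2 - 1), (wpot b G g m α β A x) ^ 2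

/-- The quartic potential. -/
def V1 (b : ColorBasis N) (G : GammaNine) (x : Cfg N) : ℝ := Vsq b G 1 0 x

/-- `|∇φ|²`. -/
def gsq (φ : Cfg N → F) (x : Cfg N) : ℝ :=
  ∑ k : Fin 9 × Fin (N ^ 2 - 1), ‖fderiv ℝ φ x (EuclideanSpace.single k 1)‖ ^ 2

/-- The energy inequality, a consequence of (1.1). -/
def Energy (b : ColorBasis N) (M : FermionRep N F) (G : GammaNine) : Prop :=
  ∃ C : ℝ, 0 ≤ C ∧ ∀ g m : ℝ, 0 ≤ g → 0 ≤ m → ∀ φ : Cfg N → F, ContDiff ℝ ∞ φ →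
    HasCompactSupport φ →
    (1 / 2) * (∫ x, gsq φ x) + (∫ x, Vsq b G g m x * ‖φ x‖ ^ 2) ≤
      qf b M G g m φ + ∫ x, C * (g * ‖x‖ + m) * ‖φ x‖ ^ 2

/-! ## The potential -/

section pot

variable (b : ColorBasis N) (G : GammaNine)

theorem wpot_split (g m : ℝ) (α β : Fin 16) (A : Fin (N ^ 2 - 1)) (x : Cfg N) :
    wpot b G g m α β A x = g * wpot b G 1 0 α β A x + m * wpot b G 0 1 α β A x := by
  unfold wpot
  ring

theorem Vsq_nonneg (g m : ℝ) (x : Cfg N) : 0 ≤ Vsq b G g m x := by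
  unfold Vsq
  positivity

theorem V1_nonneg (x : Cfg N) : 0 ≤ V1 b G x := Vsq_nonneg b G 1 0 x

/-- `V_{g,m} ≥ ½ g² V_1 - m² V_{0,1}`. -/
theorem Vsq_ge (g m : ℝ) (x : Cfg N) :
    1 / 2 * g ^ 2 * V1 b G x - m ^ 2 * Vsq b G 0 1 x ≤ Vsq b G g m x := by
  have h : ∀ α β A, 1 / 2 * g ^ 2 * (wpot b G 1 0 α β A x) ^ 2 -
      m ^ 2 * (wpot b G 0 1 α β A x) ^ 2 ≤ (wpot b G g m α β A x) ^ 2 := by
    intro α β A
    rw [wpot_split b G g m]
    nlinarith [sq_nonneg (1 / 2 * (g * wpot b G 1 0 α β A x) + m * wpot b G 0 1 α β A x),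
      sq_nonneg (g * wpot b G 1 0 α β A x + 2 * (m * wpot b G 0 1 α β A x))]
  have h2 : ∑ α : Fin 16, ∑ β : Fin 16, ∑ A : Fin (N ^ 2 - 1),
      (1 / 2 * g ^ 2 * (wpot b G 1 0 α β A x) ^ 2 - m ^ 2 * (wpot b G 0 1 α β A x) ^ 2) ≤
      ∑ α : Fin 16, ∑ β : Fin 16, ∑ A : Fin (N ^ 2 - 1), (wpot b G g m α β A x) ^ 2 :=
    Finset.sum_le_sum fun α _ => Finset.sum_le_sum fun β _ => Finset.sum_le_sum fun A _ => h α β A
  simp only [Finset.sum_sub_distrib, ← Finset.mul_sum] at h2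
  unfold V1 Vsq
  linarith

theorem contDiff_wpot (g m : ℝ) (α β : Fin 16) (A : Fin (N ^ 2 - 1)) {n : WithTop ℕ∞} :
    ContDiff ℝ n (wpot b G g m α β A) := by
  unfold wpot
  have hc : ∀ p : Fin 9 × Fin (N ^ 2 - 1), ContDiff ℝ n fun x : Cfg N => x p := fun p => by
    fun_prop
  refine ContDiff.sub (contDiff_const.mul (ContDiff.sum fun B _ => ContDiff.sum fun C _ =>
    ContDiff.sum fun i _ => ContDiff.sum fun j _ => ?_)) (contDiff_const.mul
    (ContDiff.sum fun j _ => ?_))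
  · exact (((contDiff_const.mul (hc _)).mul (hc _)).mul contDiff_const)
  · exact (contDiff_const.mul (hc _)).mul contDiff_const

theorem contDiff_Vsq (g m : ℝ) {n : WithTop ℕ∞} : ContDiff ℝ n (Vsq b G g m) := by
  unfold Vsq
  exact contDiff_const.mul (ContDiff.sum fun α _ => ContDiff.sum fun β _ => ContDiff.sum fun A _ =>
    (contDiff_wpot b G g m α β A).pow 2)

theorem continuous_Vsq (g m : ℝ) : Continuous (Vsq b G g m) :=
  (contDiff_Vsq b G g m (n := 0)).continuous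

/-- `Σ ‖∇w‖²` over the components of the quartic part. -/
def dwsq (x : Cfg N) : ℝ :=
  ∑ α : Fin 16, ∑ β : Fin 16, ∑ A : Fin (N ^ 2 - 1), ‖fderiv ℝ (wpot b G 1 0 α β A) x‖ ^ 2

theorem continuous_dwsq : Continuous (dwsq b G) := by
  unfold dwsq
  refine continuous_finsetSum _ fun α _ => continuous_finsetSum _ fun β _ =>
    continuous_finsetSum _ fun A _ => ?_
  exact ((contDiff_wpot b G 1 0 α β A (n := 1)).continuous_fderiv one_ne_zero).norm.pow 2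

/-- `|∂_v V_1|² ≤ (1/8) V_1 Σ‖∇w‖² |v|²`. -/
theorem fderiv_V1_sq (x v : Cfg N) :
    (fderiv ℝ (V1 b G) x v) ^ 2 ≤ 1 / 8 * V1 b G x * dwsq b G x * ‖v‖ ^ 2 := by
  set w : Fin 16 × Fin 16 × Fin (N ^ 2 - 1) → Cfg N → ℝ := fun i => wpot b G 1 0 i.1 i.2.1 i.2.2
    with hw
  have hV : V1 b G = fun y => (1 / 32) * ∑ i, (w i y) ^ 2 := by
    funext y
    unfold V1 Vsq
    rw [Fintype.sum_prod_type]
    simp only [Fintype.sum_prod_type, hw]
  have hd : ∀ i, HasFDerivAt (w i) (fderiv ℝ (w i) x) x := fun i =>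
    (((contDiff_wpot b G 1 0 i.1 i.2.1 i.2.2 (n := 1)).differentiable one_ne_zero) x).hasFDerivAt
  have h1 : HasFDerivAt (V1 b G) ((1 / 32 : ℝ) • ∑ i, (2 * w i x) • fderiv ℝ (w i) x) x := by
    rw [hV]
    refine HasFDerivAt.const_mul ?_ _
    refine HasFDerivAt.fun_sum fun i _ => ?_
    have h := (hd i).pow 2
    simpa using h
  rw [h1.fderiv]
  have e1 : ((1 / 32 : ℝ) • ∑ i, (2 * w i x) • fderiv ℝ (w i) x) v =
      (1 / 16) * ∑ i, w i x * fderiv ℝ (w i) x v := by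
    rw [_root_.smul_apply, _root_.sum_apply, smul_eq_mul, Finset.mul_sum, Finset.mul_sum]
    refine Finset.sum_congr rfl fun i _ => ?_
    rw [_root_.smul_apply, smul_eq_mul]
    ring
  rw [e1, mul_pow]
  have h2 := Finset.sum_mul_sq_le_sq_mul_sq Finset.univ (fun i => w i x)
    (fun i => fderiv ℝ (w i) x v)
  have h3 : ∑ i, (fderiv ℝ (w i) x v) ^ 2 ≤ dwsq b G x * ‖v‖ ^ 2 := by
    have : dwsq b G x = ∑ i, ‖fderiv ℝ (w i) x‖ ^ 2 := by
      unfold dwsq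
      rw [Fintype.sum_prod_type]
      simp only [Fintype.sum_prod_type, hw]
    rw [this, Finset.sum_mul]
    refine Finset.sum_le_sum fun i _ => ?_
    have h4 := (fderiv ℝ (w i) x).le_opNorm v
    rw [← mul_pow, ← sq_abs, ← Real.norm_eq_abs]
    gcongr
  have h5 : V1 b G x = (1 / 32) * ∑ i, (w i x) ^ 2 := congrFun hV x
  rw [h5]
  have h6 : (0 : ℝ) ≤ ∑ i, (w i x) ^ 2 := Finset.sum_nonneg fun i _ => sq_nonneg _
  nlinarith [mul_le_mul_of_nonneg_left h3 h6]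

end pot

/-! ## The weight `w = (V_1 + δ)^{1/2}` -/

section weight

variable (b : ColorBasis N) (G : GammaNine)

/-- The weight. -/
def wt (δ : ℝ) (x : Cfg N) : ℝ := Real.sqrt (V1 b G x + δ)

theorem contDiff_wt {δ : ℝ} (hδ : 0 < δ) {n : WithTop ℕ∞} : ContDiff ℝ n (wt b G δ) := by
  unfold wt
  refine ContDiff.sqrt ((contDiff_Vsq b G 1 0).add contDiff_const) fun x => ?_
  have := V1_nonneg b G x
  change Vsq b G 1 0 x + δ ≠ 0
  have h2 : 0 ≤ Vsq b G 1 0 x := Vsq_nonneg b G 1 0 x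
  linarith

theorem wt_sq {δ : ℝ} (hδ : 0 < δ) (x : Cfg N) : wt b G δ x ^ 2 = V1 b G x + δ := by
  unfold wt
  rw [Real.sq_sqrt]
  have := V1_nonneg b G x
  linarith

/-- `|∂_v w|² ≤ (1/32) Σ‖∇w_i‖² |v|²`. -/
theorem fderiv_wt_sq {δ : ℝ} (hδ : 0 < δ) (x v : Cfg N) :
    (fderiv ℝ (wt b G δ) x v) ^ 2 ≤ 1 / 32 * dwsq b G x * ‖v‖ ^ 2 := by
  have hV : HasFDerivAt (V1 b G) (fderiv ℝ (V1 b G) x) x :=
    (((contDiff_Vsq b G 1 0 (n := 1)).differentiable one_ne_zero) x).hasFDerivAt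
  have hp : 0 < V1 b G x + δ := by
    have := V1_nonneg b G x
    linarith
  have h1 : HasFDerivAt (wt b G δ) ((1 / (2 * Real.sqrt (V1 b G x + δ))) • fderiv ℝ (V1 b G) x)
      x := by
    unfold wt
    exact (hV.add_const δ).sqrt hp.ne'
  rw [h1.fderiv, _root_.smul_apply, smul_eq_mul, mul_pow, div_pow, mul_pow, Real.sq_sqrt hp.le]
  have h2 := fderiv_V1_sq b G x v
  have h3 : 0 ≤ dwsq b G x := by unfold dwsq; positivity
  have h4 : 0 ≤ dwsq b G x * ‖v‖ ^ 2 := by positivity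
  have h5 : (fderiv ℝ (V1 b G) x v) ^ 2 ≤ 1 / 8 * (V1 b G x + δ) * dwsq b G x * ‖v‖ ^ 2 := by
    nlinarith
  have h6 : 1 ^ 2 / (2 ^ 2 * (V1 b G x + δ)) * (fderiv ℝ (V1 b G) x v) ^ 2 =
      (fderiv ℝ (V1 b G) x v) ^ 2 / (4 * (V1 b G x + δ)) := by
    field_simp
    ring
  rw [h6, div_le_iff₀ (by positivity)]
  nlinarith

/-- `‖∇w‖² ≤ (d/32) Σ‖∇w_i‖²`. -/
theorem norm_grad_wt_sq {δ : ℝ} (hδ : 0 < δ) (x : Cfg N) :
    ‖Ims714.grad (wt b G δ) x‖ ^ 2 ≤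
      (Fintype.card (Fin 9 × Fin (N ^ 2 - 1)) : ℝ) * (1 / 32 * dwsq b G x) := by
  rw [EuclideanSpace.norm_sq_eq]
  have h : ∀ k ∈ (Finset.univ : Finset (Fin 9 × Fin (N ^ 2 - 1))),
      ‖Ims714.grad (wt b G δ) x k‖ ^ 2 ≤ 1 / 32 * dwsq b G x := by
    intro k _
    rw [Ims714.grad_apply, Real.norm_eq_abs, sq_abs]
    refine (fderiv_wt_sq b G hδ x _).trans (le_of_eq ?_)
    rw [PiLp.norm_single]
    simp
  have h2 := Finset.sum_le_card_nsmul _ _ _ h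
  rw [nsmul_eq_mul] at h2
  exact h2

end weight

/-! ## Support and integrability -/

section supp

variable {b : ColorBasis N} {M : FermionRep N F} {G : GammaNine} {φ : Cfg N → F}

theorem ev_zero {ρ : ℝ} (hs : ∀ x, ρ < ‖x‖ → φ x = 0) {x : Cfg N} (hx : ρ < ‖x‖) :
    φ =ᶠ[𝓝 x] fun _ => 0 := by
  have h : IsOpen {y : Cfg N | ρ < ‖y‖} := isOpen_lt continuous_const continuous_norm
  filter_upwards [h.mem_nhds hx] with y hy
  exact hs y hy

theorem fderiv_zero {ρ : ℝ} (hs : ∀ x, ρ < ‖x‖ → φ x = 0) {x : Cfg N} (hx : ρ < ‖x‖) :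
    fderiv ℝ φ x = 0 := by
  rw [(ev_zero hs hx).fderiv_eq]
  simp

theorem dcharge_zero {g m : ℝ} {α : Fin 16} {ρ : ℝ} (hs : ∀ x, ρ < ‖x‖ → φ x = 0) {x : Cfg N}
    (hx : ρ < ‖x‖) : dcharge b M G g m α φ x = 0 := by
  unfold dcharge Defs478.kin
  rw [fderiv_zero hs hx, hs x hx]
  simp

theorem gsq_zero {ρ : ℝ} (hs : ∀ x, ρ < ‖x‖ → φ x = 0) {x : Cfg N} (hx : ρ < ‖x‖) :
    gsq φ x = 0 := by
  unfold gsq
  rw [fderiv_zero hs hx]
  simp

theorem gsq_nonneg (x : Cfg N) : 0 ≤ gsq φ x := by unfold gsq; positivity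

theorem continuous_gsq (hφ : ContDiff ℝ 1 φ) : Continuous (gsq φ) := by
  unfold gsq
  exact continuous_finsetSum _ fun k _ =>
    ((hφ.continuous_fderiv one_ne_zero).clm_apply continuous_const).norm.pow 2

theorem cs_of_zero {f : Cfg N → ℝ} {ρ : ℝ} (h : ∀ x : Cfg N, ρ < ‖x‖ → f x = 0) :
    HasCompactSupport f :=
  HasCompactSupport.intro (isCompact_closedBall (0 : Cfg N) ρ) fun x hx => h x (by
    rw [mem_closedBall_zero_iff, not_le] at hx
    exact hx)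

theorem int_of_zero {f : Cfg N → ℝ} (hf : Continuous f) {ρ : ℝ}
    (h : ∀ x : Cfg N, ρ < ‖x‖ → f x = 0) : Integrable f :=
  hf.integrable_of_hasCompactSupport (cs_of_zero h)

/-- the endomorphism field of `dcharge` -/
def Wend (b : ColorBasis N) (M : FermionRep N F) (G : GammaNine) (g m : ℝ) (α : Fin 16)
    (x : Cfg N) : F →ₗ[ℂ] F :=
  ∑ A : Fin (N ^ 2 - 1), ∑ β : Fin 16, ((wpot b G g m α β A x : ℝ) : ℂ) • M.θ β A

theorem dcharge_eq_dop (g m : ℝ) (α : Fin 16) (φ : Cfg N → F) (x : Cfg N) :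
    dcharge b M G g m α φ x = Ims714.dop G M α (Wend b M G g m α) φ x := by
  unfold dcharge Defs478.kin Ims714.dop Wend
  simp only [LinearMap.sum_apply, LinearMap.smul_apply]

end supp

/-! ## The moment lemma -/

section main

variable {b : ColorBasis N} {M : FermionRep N F} {G : GammaNine}

/-- The energy inequality for functions supported in a ball. -/
theorem energy_ball (hE : Energy b M G) {ρ K : ℝ} (hρ : 0 ≤ ρ) (hK : 0 ≤ K) : ∃ C : ℝ, 0 ≤ C ∧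
    ∀ g m : ℝ, 1 ≤ g → 0 ≤ m → m ^ 2 ≤ K * g → ∀ φ : Cfg N → F, ContDiff ℝ ∞ φ →
    (∀ x, ρ < ‖x‖ → φ x = 0) →
    (1 / 2) * (∫ x, gsq φ x) + 1 / 2 * g ^ 2 * (∫ x, V1 b G x * ‖φ x‖ ^ 2) ≤
      qf b M G g m φ + C * g * ∫ x, ‖φ x‖ ^ 2 := by
  obtain ⟨C, hC, hE⟩ := hE
  obtain ⟨B, hB⟩ := (isCompact_closedBall (0 : Cfg N) ρ).exists_bound_of_continuousOn
    (continuous_Vsq b G 0 1).continuousOn
  have hB0 : 0 ≤ B := (norm_nonneg _).trans (hB 0 (by simp [hρ]))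
  refine ⟨C * (ρ + (1 + K)) + K * B, by positivity, fun g m hg hm hm1 φ hφ hs => ?_⟩
  have hmK : m ≤ (1 + K) * g := by nlinarith [sq_nonneg (m - 1)]
  have hcs : HasCompactSupport φ :=
    HasCompactSupport.intro (isCompact_closedBall (0 : Cfg N) ρ) fun x hx => hs x (by
      rw [mem_closedBall_zero_iff, not_le] at hx
      exact hx)
  have h1 := hE g m (by linarith) hm φ hφ hcs
  have hφc := hφ.continuous
  have i1 : Integrable fun x => V1 b G x * ‖φ x‖ ^ 2 :=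
    int_of_zero (ρ := ρ) ((continuous_Vsq b G 1 0).mul (hφc.norm.pow 2)) fun x hx => by
      simp [hs x hx]
  have i2 : Integrable fun x => Vsq b G g m x * ‖φ x‖ ^ 2 :=
    int_of_zero (ρ := ρ) ((continuous_Vsq b G g m).mul (hφc.norm.pow 2)) fun x hx => by
      simp [hs x hx]
  have i3 : Integrable fun x => ‖φ x‖ ^ 2 :=
    int_of_zero (ρ := ρ) (hφc.norm.pow 2) fun x hx => by simp [hs x hx]
  have i4 : Integrable fun x => C * (g * ‖x‖ + m) * ‖φ x‖ ^ 2 :=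
    int_of_zero (ρ := ρ) (by fun_prop) fun x hx => by simp [hs x hx]
  have h2 : 1 / 2 * g ^ 2 * (∫ x, V1 b G x * ‖φ x‖ ^ 2) ≤
      (∫ x, Vsq b G g m x * ‖φ x‖ ^ 2) + K * g * B * ∫ x, ‖φ x‖ ^ 2 := by
    rw [← integral_const_mul, ← integral_const_mul, ← integral_add i2 (i3.const_mul _)]
    refine integral_mono (i1.const_mul _) (i2.add (i3.const_mul _)) fun x => ?_
    simp only
    by_cases hx : ρ < ‖x‖
    · simp [hs x hx]
    · have h3 := hB x (by rw [mem_closedBall_zero_iff]; exact not_lt.1 hx)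
      rw [Real.norm_eq_abs, abs_of_nonneg (Vsq_nonneg b G 0 1 x)] at h3
      have h4 := Vsq_ge b G g m x
      have h5 : m ^ 2 * Vsq b G 0 1 x ≤ K * g * B :=
        mul_le_mul hm1 h3 (Vsq_nonneg b G 0 1 x) (by positivity)
      have h6 : 0 ≤ ‖φ x‖ ^ 2 := sq_nonneg _
      nlinarith
  have h7 : ∫ x, C * (g * ‖x‖ + m) * ‖φ x‖ ^ 2 ≤
      C * (ρ + (1 + K)) * g * ∫ x, ‖φ x‖ ^ 2 := by
    rw [← integral_const_mul]
    refine integral_mono i4 (i3.const_mul _) fun x => ?_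
    simp only
    by_cases hx : ρ < ‖x‖
    · simp [hs x hx]
    · have h6 : 0 ≤ ‖φ x‖ ^ 2 := sq_nonneg _
      have h8 : g * ‖x‖ + m ≤ (ρ + (1 + K)) * g := by
        nlinarith [not_lt.1 hx, norm_nonneg x]
      have h9 : C * (g * ‖x‖ + m) ≤ C * ((ρ + (1 + K)) * g) := mul_le_mul_of_nonneg_left h8 hC
      nlinarith
  have h11 : (C * (ρ + (1 + K)) + K * B) * g * (∫ x, ‖φ x‖ ^ 2) =
      C * (ρ + (1 + K)) * g * (∫ x, ‖φ x‖ ^ 2) + K * g * B * ∫ x, ‖φ x‖ ^ 2 := by ring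
  rw [h11]
  linarith

/-- `q(χ φ) ≤ 2 S q(φ) + B ‖φ‖²`. -/
theorem qf_mul_le {g m ρ S B : ℝ} {χ : Cfg N → ℝ} {φ : Cfg N → F} (hχ : ContDiff ℝ ∞ χ)
    (hφ : ContDiff ℝ ∞ φ) (hs : ∀ x, ρ < ‖x‖ → φ x = 0)
    (h1 : ∀ x, ‖x‖ ≤ ρ → χ x ^ 2 ≤ S) (h2 : ∀ x, ‖x‖ ≤ ρ → ‖Ims714.grad χ x‖ ^ 2 ≤ B) :
    qf b M G g m (fun x => χ x • φ x) ≤ 2 * S * qf b M G g m φ + B * ∫ x, ‖φ x‖ ^ 2 := by
  have hχφ : ContDiff ℝ ∞ fun x => χ x • φ x := hχ.smul hφ
  have hs' : ∀ x, ρ < ‖x‖ → χ x • φ x = 0 := fun x hx => by rw [hs x hx, smul_zero]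
  have i3 : Integrable fun x => ‖φ x‖ ^ 2 :=
    int_of_zero (ρ := ρ) (hφ.continuous.norm.pow 2) fun x hx => by simp [hs x hx]
  have iQ : ∀ α, Integrable fun x => ‖dcharge b M G g m α φ x‖ ^ 2 := fun α =>
    int_of_zero (ρ := ρ) ((continuous_dcharge b M G g m α (hφ.of_le (by simp))).norm.pow 2)
      fun x hx => by simp [dcharge_zero hs hx]
  have iQ' : ∀ α, Integrable fun x => ‖dcharge b M G g m α (fun x => χ x • φ x) x‖ ^ 2 := fun α =>
    int_of_zero (ρ := ρ) ((continuous_dcharge b M G g m α (hχφ.of_le (by simp))).norm.pow 2)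
      fun x hx => by simp [dcharge_zero (φ := fun x => χ x • φ x) hs' hx]
  have h3 : ∀ α, ∫ x, ‖dcharge b M G g m α (fun x => χ x • φ x) x‖ ^ 2 ≤
      2 * S * (∫ x, ‖dcharge b M G g m α φ x‖ ^ 2) + B * ∫ x, ‖φ x‖ ^ 2 := by
    intro α
    rw [← integral_const_mul, ← integral_const_mul,
      ← integral_add ((iQ α).const_mul _) (i3.const_mul _)]
    refine integral_mono (iQ' α) (((iQ α).const_mul _).add (i3.const_mul _)) fun x => ?_
    simp only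
    by_cases hx : ρ < ‖x‖
    · rw [dcharge_zero (φ := fun x => χ x • φ x) hs' hx, dcharge_zero hs hx, hs x hx]
      simp
    · rw [dcharge_eq_dop, dcharge_eq_dop]
      have h4 := Ims714.normSq_dop_mul_le G M α (Wend b M G g m α) (χ := χ) (φ := φ) (x := x)
        (hχ.differentiable (by simp) x) (hφ.differentiable (by simp) x) (t := 1) one_pos
      have h5 := h1 x (not_lt.1 hx)
      have h6 := h2 x (not_lt.1 hx)
      have h7 : 0 ≤ ‖Ims714.dop G M α (Wend b M G g m α) φ x‖ ^ 2 := sq_nonneg _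
      have h8 : 0 ≤ ‖φ x‖ ^ 2 := sq_nonneg _
      nlinarith
  unfold qf
  calc (1 / 16 : ℝ) * ∑ α, ∫ x, ‖dcharge b M G g m α (fun x => χ x • φ x) x‖ ^ 2
      ≤ (1 / 16 : ℝ) * ∑ α : Fin 16, (2 * S * (∫ x, ‖dcharge b M G g m α φ x‖ ^ 2) +
          B * ∫ x, ‖φ x‖ ^ 2) :=
        mul_le_mul_of_nonneg_left (Finset.sum_le_sum fun α _ => h3 α) (by norm_num)
    _ = _ := by
        rw [Finset.sum_add_distrib, ← Finset.mul_sum, Finset.sum_const, Finset.card_univ,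
          Fintype.card_fin, nsmul_eq_mul]
        push_cast
        ring

/-- `χ² |∇φ|² ≤ 2 |∇(χφ)|² + 2 |∇χ|² |φ|²`. -/
theorem gsq_mul_ge {χ : Cfg N → ℝ} {φ : Cfg N → F} {x : Cfg N} (hχ : DifferentiableAt ℝ χ x)
    (hφ : DifferentiableAt ℝ φ x) : χ x ^ 2 * gsq φ x ≤
      2 * gsq (fun y => χ y • φ y) x + 2 * (‖Ims714.grad χ x‖ ^ 2 * ‖φ x‖ ^ 2) := by
  have hfd : ∀ u : Cfg N, fderiv ℝ (fun y => χ y • φ y) x u =
      χ x • fderiv ℝ φ x u + (fderiv ℝ χ x u) • φ x := by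
    intro u
    rw [fderiv_fun_smul hχ hφ]
    simp [ContinuousLinearMap.smulRight_apply]
  unfold gsq
  rw [Finset.mul_sum, Finset.mul_sum, EuclideanSpace.norm_sq_eq, Finset.sum_mul,
    Finset.mul_sum, ← Finset.sum_add_distrib]
  refine Finset.sum_le_sum fun k _ => ?_
  rw [Real.norm_eq_abs, sq_abs]
  have e : χ x • fderiv ℝ φ x (EuclideanSpace.single k 1) =
      fderiv ℝ (fun y => χ y • φ y) x (EuclideanSpace.single k 1) -
        (fderiv ℝ χ x (EuclideanSpace.single k 1)) • φ x := by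
    rw [hfd]; abel
  have e2 : χ x ^ 2 * ‖fderiv ℝ φ x (EuclideanSpace.single k 1)‖ ^ 2 =
      ‖χ x • fderiv ℝ φ x (EuclideanSpace.single k 1)‖ ^ 2 := by
    rw [norm_smul, mul_pow, Real.norm_eq_abs, sq_abs]
  have e3 : Ims714.grad χ x k ^ 2 * ‖φ x‖ ^ 2 =
      ‖(fderiv ℝ χ x (EuclideanSpace.single k 1)) • φ x‖ ^ 2 := by
    rw [norm_smul, mul_pow, Real.norm_eq_abs, sq_abs, Ims714.grad_apply]
  rw [e2, e3, e]
  have h := norm_sub_le (fderiv ℝ (fun y => χ y • φ y) x (EuclideanSpace.single k 1))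
    ((fderiv ℝ χ x (EuclideanSpace.single k 1)) • φ x)
  have h0 := norm_nonneg (fderiv ℝ (fun y => χ y • φ y) x (EuclideanSpace.single k 1) -
    (fderiv ℝ χ x (EuclideanSpace.single k 1)) • φ x)
  nlinarith [sq_nonneg (‖fderiv ℝ (fun y => χ y • φ y) x (EuclideanSpace.single k 1)‖ -
    ‖(fderiv ℝ χ x (EuclideanSpace.single k 1)) • φ x‖)]

theorem qf_nonneg (g m : ℝ) (φ : Cfg N → F) : 0 ≤ qf b M G g m φ := by
  unfold qf
  have : ∀ α, 0 ≤ ∫ x, ‖dcharge b M G g m α φ x‖ ^ 2 := fun α =>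
    integral_nonneg fun x => sq_nonneg _
  have h2 : 0 ≤ ∑ α, ∫ x, ‖dcharge b M G g m α φ x‖ ^ 2 := Finset.sum_nonneg fun α _ => this α
  positivity

set_option maxHeartbeats 1000000 in
/-- **The moment lemma.** -/
theorem moment (hE : Energy b M G) {ρ K : ℝ} (hρ : 0 ≤ ρ) (hK : 0 ≤ K) : ∃ C : ℝ, 0 ≤ C ∧
    ∀ g m : ℝ, 1 ≤ g → 0 ≤ m → m ^ 2 ≤ K * g → ∀ φ : Cfg N → F, ContDiff ℝ ∞ φ →
    (∀ x, ρ < ‖x‖ → φ x = 0) →
    (∫ x, V1 b G x * gsq φ x) + g ^ 2 * (∫ x, V1 b G x ^ 2 * ‖φ x‖ ^ 2) +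
        g * (∫ x, V1 b G x * ‖φ x‖ ^ 2) + g⁻¹ * (∫ x, gsq φ x) ≤
      C * (qf b M G g m φ + ∫ x, ‖φ x‖ ^ 2) := by
  obtain ⟨C0, hC0, hEB⟩ := energy_ball hE hρ hK
  obtain ⟨S, hS⟩ := (isCompact_closedBall (0 : Cfg N) ρ).exists_bound_of_continuousOn
    (continuous_Vsq b G 1 0).continuousOn
  have hS0 : 0 ≤ S := (norm_nonneg _).trans (hS 0 (by simp [hρ]))
  obtain ⟨D, hD⟩ := (isCompact_closedBall (0 : Cfg N) ρ).exists_bound_of_continuousOn
    (continuous_dwsq b G).continuousOn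
  have hD0 : 0 ≤ D := (norm_nonneg _).trans (hD 0 (by simp [hρ]))
  set d : ℝ := (Fintype.card (Fin 9 × Fin (N ^ 2 - 1)) : ℝ) with hd
  have hd0 : 0 ≤ d := Nat.cast_nonneg _
  set B : ℝ := d * (1 / 32 * D) with hB
  have hB0 : 0 ≤ B := by positivity
  set C1 : ℝ := 2 * (S + 1) + B + C0 * (2 + 2 * C0 + 1) with hC1
  have hC10 : 0 ≤ C1 := by positivity
  refine ⟨4 * C1 + 2 * B + 2 * C1 + (2 + 2 * C0) + (2 + 2 * C0), by positivity,
    fun g m hg hm hm1 φ hφ hs => ?_⟩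
  have hg0 : 0 < g := by linarith
  set δ : ℝ := 1 / g ^ 2 with hδ
  have hδ0 : 0 < δ := by positivity
  have hδ1 : δ ≤ 1 := by
    rw [hδ, div_le_one (by positivity)]
    nlinarith
  have hφc := hφ.continuous
  set q := qf b M G g m φ with hq
  have hq0 : 0 ≤ q := qf_nonneg g m φ
  set n := ∫ x, ‖φ x‖ ^ 2 with hn
  have hn0 : 0 ≤ n := integral_nonneg fun x => sq_nonneg _
  set v := ∫ x, V1 b G x * ‖φ x‖ ^ 2 with hv
  have hv0 : 0 ≤ v := integral_nonneg fun x => mul_nonneg (V1_nonneg b G x) (sq_nonneg _)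
  have iV : Integrable fun x => V1 b G x * ‖φ x‖ ^ 2 :=
    int_of_zero (ρ := ρ) ((continuous_Vsq b G 1 0).mul (hφc.norm.pow 2)) fun x hx => by
      simp [hs x hx]
  have iN : Integrable fun x => ‖φ x‖ ^ 2 :=
    int_of_zero (ρ := ρ) (hφc.norm.pow 2) fun x hx => by simp [hs x hx]
  -- step 1
  have s1 : g * v ≤ 2 * q + 2 * C0 * n := by
    have h := hEB g m hg hm hm1 φ hφ hs
    have h0 : 0 ≤ ∫ x, gsq φ x := integral_nonneg fun x => gsq_nonneg x
    have h1 : 1 / 2 * g ^ 2 * v ≤ q + C0 * g * n := by linarith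
    have h2 : g * (g * v) ≤ g * (2 * q + 2 * C0 * n) := by nlinarith
    exact le_of_mul_le_mul_left h2 hg0
  have s0 : g⁻¹ * (∫ x, gsq φ x) ≤ 2 * q + 2 * C0 * n := by
    have h := hEB g m hg hm hm1 φ hφ hs
    have h1 : (∫ x, gsq φ x) ≤ 2 * q + 2 * C0 * n * g := by
      nlinarith [mul_nonneg (sq_nonneg g) hv0]
    rw [inv_mul_le_iff₀ hg0]
    nlinarith
  -- step 2
  set χ := wt b G δ with hχ
  have hχs : ContDiff ℝ ∞ χ := contDiff_wt b G hδ0
  have hχb : ∀ x : Cfg N, ‖x‖ ≤ ρ → χ x ^ 2 ≤ S + 1 := fun x hx => by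
    rw [hχ, wt_sq b G hδ0]
    have h := hS x (by rw [mem_closedBall_zero_iff]; exact hx)
    have h2 := (Real.norm_eq_abs _ ▸ le_abs_self (Vsq b G 1 0 x)).trans h
    change Vsq b G 1 0 x + δ ≤ S + 1
    linarith
  have hχg : ∀ x : Cfg N, ‖x‖ ≤ ρ → ‖Ims714.grad χ x‖ ^ 2 ≤ B := fun x hx => by
    refine (norm_grad_wt_sq b G hδ0 x).trans ?_
    have h := hD x (by rw [mem_closedBall_zero_iff]; exact hx)
    have h2 := (Real.norm_eq_abs _ ▸ le_abs_self (dwsq b G x)).trans h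
    rw [hB]
    gcongr
  set ψ : Cfg N → F := fun x => χ x • φ x with hψ
  have hψs : ContDiff ℝ ∞ ψ := hχs.smul hφ
  have hψ0 : ∀ x, ρ < ‖x‖ → ψ x = 0 := fun x hx => by rw [hψ]; simp [hs x hx]
  have s2 : qf b M G g m ψ ≤ 2 * (S + 1) * q + B * n := qf_mul_le hχs hφ hs hχb hχg
  have hψn : ∀ x, ‖ψ x‖ ^ 2 = (V1 b G x + δ) * ‖φ x‖ ^ 2 := fun x => by
    rw [hψ]
    simp only
    rw [norm_smul, mul_pow, Real.norm_eq_abs, sq_abs, hχ, wt_sq b G hδ0]
  have s3 : ∫ x, ‖ψ x‖ ^ 2 = v + δ * n := by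
    rw [hv, hn, ← integral_const_mul, ← integral_add iV (iN.const_mul δ)]
    refine integral_congr_ae (Eventually.of_forall fun x => ?_)
    simp only
    rw [hψn]
    ring
  have s4 := hEB g m hg hm hm1 ψ hψs hψ0
  rw [s3] at s4
  have hgδ : g * δ ≤ 1 := by
    rw [hδ]
    rw [mul_one_div, div_le_one (by positivity)]
    nlinarith
  have s5 : C0 * g * (v + δ * n) ≤ C0 * (2 * q + (2 * C0 + 1) * n) := by
    have : g * (v + δ * n) ≤ 2 * q + (2 * C0 + 1) * n := by nlinarith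
    calc C0 * g * (v + δ * n) = C0 * (g * (v + δ * n)) := by ring
      _ ≤ _ := mul_le_mul_of_nonneg_left this hC0
  have s6 : (1 / 2) * (∫ x, gsq ψ x) + 1 / 2 * g ^ 2 * (∫ x, V1 b G x * ‖ψ x‖ ^ 2) ≤
      C1 * (q + n) := by
    rw [hC1]
    nlinarith [mul_nonneg hC0 hq0, mul_nonneg hC0 hn0, mul_nonneg hB0 hq0,
      mul_nonneg (mul_nonneg hC0 hC0) hq0, mul_nonneg hS0 hn0]
  have hA0 : 0 ≤ ∫ x, gsq ψ x := integral_nonneg fun x => gsq_nonneg x
  have hP0 : 0 ≤ ∫ x, V1 b G x * ‖ψ x‖ ^ 2 :=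
    integral_nonneg fun x => mul_nonneg (V1_nonneg b G x) (sq_nonneg _)
  have s7 : ∫ x, gsq ψ x ≤ 2 * C1 * (q + n) := by nlinarith [mul_nonneg (sq_nonneg g) hP0]
  have s8 : g ^ 2 * ∫ x, V1 b G x * ‖ψ x‖ ^ 2 ≤ 2 * C1 * (q + n) := by nlinarith
  -- the gradient term
  have iG : Integrable fun x => gsq φ x :=
    int_of_zero (ρ := ρ) (continuous_gsq (hφ.of_le (by simp))) fun x hx => gsq_zero hs hx
  have iVG : Integrable fun x => V1 b G x * gsq φ x :=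
    int_of_zero (ρ := ρ) ((continuous_Vsq b G 1 0).mul (continuous_gsq (hφ.of_le (by simp))))
      fun x hx => by rw [gsq_zero hs hx, mul_zero]
  have iGψ : Integrable fun x => gsq ψ x :=
    int_of_zero (ρ := ρ) (continuous_gsq (hψs.of_le (by simp))) fun x hx => gsq_zero hψ0 hx
  have s9 : ∫ x, V1 b G x * gsq φ x ≤ 2 * (∫ x, gsq ψ x) + 2 * B * n := by
    rw [hn, ← integral_const_mul, ← integral_const_mul,
      ← integral_add (iGψ.const_mul _) (iN.const_mul _)]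
    refine integral_mono iVG ((iGψ.const_mul _).add (iN.const_mul _)) fun x => ?_
    simp only
    by_cases hx : ρ < ‖x‖
    · rw [gsq_zero hs hx, gsq_zero hψ0 hx, hs x hx]
      simp
    · have hsum := gsq_mul_ge (χ := χ) (φ := φ) (x := x) (hχs.differentiable (by simp) x)
        (hφ.differentiable (by simp) x)
      have h3 := hχg x (not_lt.1 hx)
      have h4 : V1 b G x * gsq φ x ≤ χ x ^ 2 * gsq φ x := by
        rw [hχ, wt_sq b G hδ0]
        nlinarith [gsq_nonneg (φ := φ) x]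
      have h5 : ‖Ims714.grad χ x‖ ^ 2 * ‖φ x‖ ^ 2 ≤ B * ‖φ x‖ ^ 2 :=
        mul_le_mul_of_nonneg_right h3 (sq_nonneg _)
      linarith
  -- the quartic term
  have iV2 : Integrable fun x => V1 b G x ^ 2 * ‖φ x‖ ^ 2 :=
    int_of_zero (ρ := ρ) (((continuous_Vsq b G 1 0).pow 2).mul (hφc.norm.pow 2)) fun x hx => by
      simp [hs x hx]
  have iVψ : Integrable fun x => V1 b G x * ‖ψ x‖ ^ 2 :=
    int_of_zero (ρ := ρ) ((continuous_Vsq b G 1 0).mul (hψs.continuous.norm.pow 2)) fun x hx => by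
      simp [hψ0 x hx]
  have s10 : ∫ x, V1 b G x ^ 2 * ‖φ x‖ ^ 2 ≤ ∫ x, V1 b G x * ‖ψ x‖ ^ 2 := by
    refine integral_mono iV2 iVψ fun x => ?_
    simp only
    rw [hψn]
    have h1 := V1_nonneg b G x
    have h2 : 0 ≤ ‖φ x‖ ^ 2 := sq_nonneg _
    nlinarith [mul_nonneg (mul_nonneg h1 hδ0.le) h2]
  have s11 : g ^ 2 * ∫ x, V1 b G x ^ 2 * ‖φ x‖ ^ 2 ≤ 2 * C1 * (q + n) :=
    (mul_le_mul_of_nonneg_left s10 (sq_nonneg g)).trans s8
  have s12 : (∫ x, V1 b G x * gsq φ x) ≤ (4 * C1 + 2 * B) * (q + n) := by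
    nlinarith [mul_nonneg hB0 hq0]
  have s13 : g * v ≤ (2 + 2 * C0) * (q + n) := by nlinarith [mul_nonneg hC0 hq0]
  have s14 : g⁻¹ * (∫ x, gsq φ x) ≤ (2 + 2 * C0) * (q + n) := by nlinarith [mul_nonneg hC0 hq0]
  have e : (4 * C1 + 2 * B + 2 * C1 + (2 + 2 * C0) + (2 + 2 * C0)) * (q + n) =
      (4 * C1 + 2 * B) * (q + n) + 2 * C1 * (q + n) + (2 + 2 * C0) * (q + n) +
        (2 + 2 * C0) * (q + n) := by ring
  rw [e]
  linarith

end main

end Crest.Agent.R330.Moment776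

end
end

-- ▼ part R330/MomentF_776
section

/-!
# Row 330, section 7: the moment lemma, unconditional (helper776)

`energy_holds : Energy b M G` from 726's (1.1); `V1_eq_pot : V1 b G x = pot b x`; `momentF`.
-/

set_option autoImplicit false
set_option linter.unusedSectionVars false

open MeasureTheory Filter Topology
open scoped ContDiff InnerProductSpace ENNReal
open Crest.MathPhysics.MatrixQM
open Crest.Agent.R330.Defs478

noncomputable section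

namespace Crest.Agent.R330.Moment776

variable {N : ℕ} {F : Type*} [NormedAddCommGroup F] [InnerProductSpace ℂ F]
  [FiniteDimensional ℂ F]

theorem Wsq_eq (b : ColorBasis N) (G : GammaNine) (g m : ℝ) (x : Cfg N) :
    Weitz726.Wsq (wpot b G g m) x / 32 = Vsq b G g m x := by
  unfold Weitz726.Wsq Weitz726.dp Vsq
  rw [div_eq_inv_mul]
  norm_num
  exact Finset.sum_congr rfl fun α _ => Finset.sum_congr rfl fun β _ =>
    Finset.sum_congr rfl fun A _ => by ring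

/-- The quartic potential is 186's `pot`. -/
theorem V1_eq_pot (b : ColorBasis N) (G : GammaNine) (x : Cfg N) : V1 b G x = Bar186.pot b x := by
  unfold V1
  rw [← Wsq_eq, ← Weitz726.wco_eq_wpot, Weitz726.Wsq_wco]
  ring

theorem energy_holds (b : ColorBasis N) (M : FermionRep N F) (G : GammaNine) :
    Energy b M G := by
  obtain ⟨C1, hC1, hY⟩ := Weitz726.Yop_bound b M G
  obtain ⟨C2, hC2, hI⟩ : ∃ C : ℝ, 0 ≤ C ∧ ∀ v : F, ‖Weitz726.IG M G v‖ ≤ C * ‖v‖ :=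
    ⟨‖LinearMap.toContinuousLinearMap (Weitz726.IG M G)‖, norm_nonneg _, fun v =>
      (LinearMap.toContinuousLinearMap (Weitz726.IG M G)).le_opNorm v⟩
  refine ⟨C1 + C2, by positivity, fun g m hg hm φ hφ hc => ?_⟩
  have h := Weitz726.energy b M G g m (φ := φ) (by exact_mod_cast contDiff_infty.1 hφ 2) hc
  have hq : qf b M G g m φ = (1 / 16 : ℝ) * ∑ α, ∫ x,
      ‖IBP837.chargeW M G (wpot b G g m) α φ x‖ ^ 2 := by
    unfold qf
    simp only [Brid837.dcharge_eq]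
  have hφc := hφ.continuous
  have hgs : ∫ x, gsq φ x = ∑ k : Fin 9 × Fin (N ^ 2 - 1),
      ∫ x, ‖fderiv ℝ φ x (EuclideanSpace.single k 1)‖ ^ 2 := by
    unfold gsq
    rw [integral_finsetSum]
    intro k _
    have h1 : ContDiff ℝ 1 φ := hφ.of_le (by simp)
    refine (((h1.continuous_fderiv one_ne_zero).clm_apply
      continuous_const).norm.pow 2).integrable_of_hasCompactSupport ?_
    refine (hc.fderiv (𝕜 := ℝ)).mono' fun x hx => subset_tsupport _ ?_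
    intro h0
    exact hx (by simp [h0])
  have hV : ∀ x, Weitz726.Wsq (wpot b G g m) x / 32 * ‖φ x‖ ^ 2 =
      Vsq b G g m x * ‖φ x‖ ^ 2 := fun x => by rw [Wsq_eq]
  simp only [hV] at h
  rw [hq, h, hgs]
  have hLb : ∀ x, -((C1 + C2) * (g * ‖x‖ + m) * ‖φ x‖ ^ 2) ≤
      (⟪φ x, ((g : ℂ) • Weitz726.Yop b M G x + ((m / 8 : ℝ) : ℂ) • Weitz726.IG M G) (φ x)⟫_ℂ).re := by
    intro x
    have h1 : ‖((g : ℂ) • Weitz726.Yop b M G x + ((m / 8 : ℝ) : ℂ) • Weitz726.IG M G) (φ x)‖ ≤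
        (C1 + C2) * (g * ‖x‖ + m) * ‖φ x‖ := by
      rw [LinearMap.add_apply, LinearMap.smul_apply, LinearMap.smul_apply]
      refine (norm_add_le _ _).trans ?_
      rw [norm_smul, norm_smul, Complex.norm_real, Complex.norm_real, Real.norm_of_nonneg hg,
        Real.norm_of_nonneg (by positivity)]
      have h2 := mul_le_mul_of_nonneg_left (hY x (φ x)) hg
      have h3 := mul_le_mul_of_nonneg_left (hI (φ x)) (show 0 ≤ m / 8 by positivity)
      have h4 : 0 ≤ C1 * m * ‖φ x‖ := by positivity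
      have h5 : 0 ≤ C2 * (g * ‖x‖) * ‖φ x‖ := by positivity
      have h6 : 0 ≤ C2 * m * ‖φ x‖ := by positivity
      nlinarith
    have h2 := norm_inner_le_norm (𝕜 := ℂ) (φ x)
      (((g : ℂ) • Weitz726.Yop b M G x + ((m / 8 : ℝ) : ℂ) • Weitz726.IG M G) (φ x))
    have h3 := (abs_le.1 (Complex.abs_re_le_norm
      (⟪φ x, ((g : ℂ) • Weitz726.Yop b M G x + ((m / 8 : ℝ) : ℂ) • Weitz726.IG M G) (φ x)⟫_ℂ))).1
    have h4 := mul_le_mul_of_nonneg_left h1 (norm_nonneg (φ x))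
    nlinarith
  have iR : Integrable fun x => (C1 + C2) * (g * ‖x‖ + m) * ‖φ x‖ ^ 2 := by
    refine Continuous.integrable_of_hasCompactSupport (by fun_prop) ?_
    refine hc.mono fun x hx h0 => hx ?_
    simp [h0]
  by_cases iL : Integrable fun x =>
      (⟪φ x, ((g : ℂ) • Weitz726.Yop b M G x + ((m / 8 : ℝ) : ℂ) • Weitz726.IG M G) (φ x)⟫_ℂ).re
  · have h5 := integral_mono iR.neg iL hLb
    rw [integral_neg' ] at h5
    linarith
  · rw [integral_undef iL]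
    have h6 : 0 ≤ ∫ x, (C1 + C2) * (g * ‖x‖ + m) * ‖φ x‖ ^ 2 :=
      integral_nonneg fun x => by positivity
    linarith

/-- **The moment lemma**, unconditional, with `V1 = pot b`. -/
theorem momentF (b : ColorBasis N) (M : FermionRep N F) (G : GammaNine) {ρ K : ℝ} (hρ : 0 ≤ ρ)
    (hK : 0 ≤ K) : ∃ C : ℝ, 0 ≤ C ∧
    ∀ g m : ℝ, 1 ≤ g → 0 ≤ m → m ^ 2 ≤ K * g → ∀ φ : Cfg N → F, ContDiff ℝ ∞ φ →
    (∀ x, ρ < ‖x‖ → φ x = 0) →
    (∫ x : Cfg N, Bar186.pot b x * gsq φ x) + g ^ 2 * (∫ x : Cfg N, Bar186.pot b x ^ 2 * ‖φ x‖ ^ 2) +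
        g * (∫ x : Cfg N, Bar186.pot b x * ‖φ x‖ ^ 2) + g⁻¹ * (∫ x, gsq φ x) ≤
      C * (qf b M G g m φ + ∫ x, ‖φ x‖ ^ 2) := by
  have h := moment (energy_holds b M G) hρ hK
  simpa only [V1_eq_pot] using h

end Crest.Agent.R330.Moment776

end
end

-- ▼ part R330/LemRm_349
section

/-!
# Row 330, section 7, leaf S7-B3: the moment lemma on the slice (helper349)

`gsq_act` : `|∇φ|²` of an equivariant `φ` is gauge invariant; `mden` the moment density, gauge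
invariant; `moment_lintegral` : `∫⁻ mden ≤ C (q_{g,m}(φ) + ∫‖φ‖²)`; `moment_slice` : on any slice
(measure `ν` on `S`, map `s : S → Cfg N` which does not increase the lower integral of invariant
functions by more than a constant) with `κ ζ² ≤ V4 (s p)`.
-/

set_option autoImplicit false
set_option linter.unusedSectionVars false

open MeasureTheory Filter Topology
open Crest.MathPhysics.MatrixQM
open Crest.Agent.R330.Defs478 Crest.Agent.R330.Moment776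
open scoped ContDiff InnerProductSpace ENNReal

noncomputable section

namespace Crest.Agent.R330.LemRm349

variable {N : ℕ} {F : Type*} [NormedAddCommGroup F] [InnerProductSpace ℂ F]
  [FiniteDimensional ℂ F]

/-! ### Invariance of the densities -/

theorem ofReal_norm_sq (v : F) : ((‖v‖ ^ 2 : ℝ) : ℂ) = ⟪v, v⟫_ℂ := by
  rw [inner_self_eq_norm_sq_to_K]
  norm_cast

theorem sum_adj_smul_sq (b : ColorBasis N) (g : Matrix.specialUnitaryGroup (Fin N) ℂ)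
    (u : Fin (N ^ 2 - 1) → F) :
    ∑ A, ‖∑ C, (b.adjMat g C A : ℂ) • u C‖ ^ 2 = ∑ A, ‖u A‖ ^ 2 := by
  have h1 : ∀ A, ((‖∑ C, (b.adjMat g C A : ℂ) • u C‖ ^ 2 : ℝ) : ℂ) =
      ∑ C, ∑ B, ((b.adjMat g C A : ℂ) * (b.adjMat g B A : ℂ)) • ⟪u C, u B⟫_ℂ := by
    intro A
    rw [ofReal_norm_sq, sum_inner]
    refine Finset.sum_congr rfl fun C _ => ?_
    rw [inner_sum]
    refine Finset.sum_congr rfl fun B _ => ?_
    rw [inner_smul_left, inner_smul_right, Complex.conj_ofReal, smul_eq_mul, mul_assoc]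
  have h2 : ((∑ A, ‖∑ C, (b.adjMat g C A : ℂ) • u C‖ ^ 2 : ℝ) : ℂ) =
      ((∑ A, ‖u A‖ ^ 2 : ℝ) : ℂ) := by
    rw [Complex.ofReal_sum]
    simp only [h1]
    rw [Cov837.sum_adj_adj (F := ℂ) g (fun C B => ⟪u C, u B⟫_ℂ), Complex.ofReal_sum]
    exact Finset.sum_congr rfl fun A _ => (ofReal_norm_sq _).symm
  exact_mod_cast h2

/-- `|∇φ|²` of an equivariant function is gauge invariant. -/
theorem gsq_act {b : ColorBasis N} {M : FermionRep N F} (R : GaugeAction b M) {φ : Cfg N → F}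
    (hφ : Differentiable ℝ φ) (he : ∀ g x, φ (b.act g x) = R.ρ g (φ x))
    (g : Matrix.specialUnitaryGroup (Fin N) ℂ) (x : Cfg N) : gsq φ (b.act g x) = gsq φ x := by
  have h0 : Cov837.tg R g φ = φ := (Cov837.tg_eq_self_iff R φ).2 he g
  have h1 : ∀ i A, ‖fderiv ℝ φ x (EuclideanSpace.single (i, A) 1)‖ ^ 2 =
      ‖∑ C, (b.adjMat g C A : ℂ) •
        fderiv ℝ φ (b.act g x) (EuclideanSpace.single (i, C) (1 : ℝ))‖ ^ 2 := by
    intro i A
    conv_lhs => rw [← h0]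
    rw [Cov837.fderiv_tg R g (hφ _), Cov837.norm_rho, Cov837.fderiv_act_single]
  unfold gsq
  rw [Fintype.sum_prod_type, Fintype.sum_prod_type]
  refine Finset.sum_congr rfl fun i _ => ?_
  simp only [h1]
  rw [sum_adj_smul_sq b g fun C =>
    fderiv ℝ φ (b.act g x) (EuclideanSpace.single (i, C) (1 : ℝ))]

theorem pot_act (b : ColorBasis N) (g : Matrix.specialUnitaryGroup (Fin N) ℂ) (x : Cfg N) :
    Bar186.pot b (b.act g x) = Bar186.pot b x := Cone741.V4_act b g x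

theorem pot_nonneg (b : ColorBasis N) (x : Cfg N) : 0 ≤ Bar186.pot b x := Cone741.V4_nonneg b x

theorem continuous_pot (b : ColorBasis N) : Continuous fun x : Cfg N => Bar186.pot b x :=
  Cone741.continuous_V4 b

theorem gsq_nonneg (φ : Cfg N → F) (x : Cfg N) : 0 ≤ gsq φ x :=
  Finset.sum_nonneg fun _ _ => sq_nonneg _

/-- `‖Dφ(x) v‖² ≤ |∇φ|² ‖v‖²`. -/
theorem fderiv_sq_le (φ : Cfg N → F) (x v : Cfg N) :
    ‖fderiv ℝ φ x v‖ ^ 2 ≤ gsq φ x * ‖v‖ ^ 2 := by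
  have h1 : v = ∑ k, v k • EuclideanSpace.single k (1 : ℝ) := by
    ext k
    rw [WithLp.ofLp_sum, Finset.sum_apply]
    simp
  have h2 : fderiv ℝ φ x v = ∑ k, v k • fderiv ℝ φ x (EuclideanSpace.single k 1) := by
    conv_lhs => rw [h1, map_sum]
    simp only [map_smul]
  have h3 : ‖fderiv ℝ φ x v‖ ≤ ∑ k, |v k| * ‖fderiv ℝ φ x (EuclideanSpace.single k 1)‖ := by
    rw [h2]
    refine (norm_sum_le _ _).trans (le_of_eq ?_)
    exact Finset.sum_congr rfl fun k _ => by rw [norm_smul, Real.norm_eq_abs]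
  have h4 := Finset.sum_mul_sq_le_sq_mul_sq Finset.univ (fun k => |v k|)
    (fun k => ‖fderiv ℝ φ x (EuclideanSpace.single k 1)‖)
  have h5 : ‖v‖ ^ 2 = ∑ k, |v k| ^ 2 := by
    rw [EuclideanSpace.norm_sq_eq]
    simp only [Real.norm_eq_abs]
  calc ‖fderiv ℝ φ x v‖ ^ 2 ≤ (∑ k, |v k| * ‖fderiv ℝ φ x (EuclideanSpace.single k 1)‖) ^ 2 :=
        pow_le_pow_left₀ (norm_nonneg _) h3 2
    _ ≤ _ := h4
    _ = gsq φ x * ‖v‖ ^ 2 := by
        rw [h5, mul_comm]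
        rfl

theorem fderiv_norm_sq_le (φ : Cfg N → F) (x : Cfg N) : ‖fderiv ℝ φ x‖ ^ 2 ≤ gsq φ x := by
  have h1 : ‖fderiv ℝ φ x‖ ≤ √(gsq φ x) := by
    refine ContinuousLinearMap.opNorm_le_bound _ (Real.sqrt_nonneg _) fun v => ?_
    rw [← abs_of_nonneg (norm_nonneg (fderiv ℝ φ x v)),
      ← abs_of_nonneg (mul_nonneg (Real.sqrt_nonneg (gsq φ x)) (norm_nonneg v)), ← sq_le_sq,
      mul_pow, Real.sq_sqrt (gsq_nonneg φ x)]
    exact fderiv_sq_le φ x v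
  calc ‖fderiv ℝ φ x‖ ^ 2 ≤ √(gsq φ x) ^ 2 := pow_le_pow_left₀ (norm_nonneg _) h1 2
    _ = gsq φ x := Real.sq_sqrt (gsq_nonneg φ x)

/-! ### The moment density -/

/-- The moment density. -/
def mden (b : ColorBasis N) (g : ℝ) (φ : Cfg N → F) (x : Cfg N) : ℝ :=
  Bar186.pot b x * gsq φ x + g ^ 2 * (Bar186.pot b x ^ 2 * ‖φ x‖ ^ 2) +
    g * (Bar186.pot b x * ‖φ x‖ ^ 2) + g⁻¹ * gsq φ x

theorem mden_nonneg (b : ColorBasis N) {g : ℝ} (hg : 0 ≤ g) (φ : Cfg N → F) (x : Cfg N) :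
    0 ≤ mden b g φ x := by
  have h1 := pot_nonneg b x
  have h2 := gsq_nonneg φ x
  unfold mden
  positivity

theorem mden_act {b : ColorBasis N} {M : FermionRep N F} (R : GaugeAction b M) {φ : Cfg N → F}
    (hφ : Differentiable ℝ φ) (he : ∀ g x, φ (b.act g x) = R.ρ g (φ x)) (g : ℝ)
    (h : Matrix.specialUnitaryGroup (Fin N) ℂ) (x : Cfg N) :
    mden b g φ (b.act h x) = mden b g φ x := by
  unfold mden
  rw [pot_act, gsq_act R hφ he, he, Cov837.norm_rho]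

theorem continuous_gsq {φ : Cfg N → F} (hφ : ContDiff ℝ 1 φ) : Continuous (gsq φ) := by
  unfold gsq
  exact continuous_finsetSum _ fun k _ =>
    ((hφ.continuous_fderiv one_ne_zero).clm_apply continuous_const).norm.pow 2

theorem continuous_mden (b : ColorBasis N) (g : ℝ) {φ : Cfg N → F} (hφ : ContDiff ℝ 1 φ) :
    Continuous (mden b g φ) := by
  have h1 := continuous_pot b
  have h2 := continuous_gsq hφ
  have h3 := hφ.continuous
  unfold mden
  exact (((h1.mul h2).add (continuous_const.mul ((h1.pow 2).mul (h3.norm.pow 2)))).add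
    (continuous_const.mul (h1.mul (h3.norm.pow 2)))).add (continuous_const.mul h2)

theorem gsq_eq_zero {φ : Cfg N → F} {x : Cfg N} (hx : x ∉ tsupport φ) : gsq φ x = 0 := by
  have h0 : fderiv ℝ φ x = 0 := by
    by_contra h
    exact hx (support_fderiv_subset ℝ (f := φ) h)
  unfold gsq
  simp [h0]

theorem tsupport_subset_of_vanish {φ : Cfg N → F} {ρ : ℝ} (h0 : ∀ x, ρ < ‖x‖ → φ x = 0) :
    tsupport φ ⊆ Metric.closedBall 0 ρ := by
  refine closure_minimal (fun x hx => ?_) Metric.isClosed_closedBall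
  rw [Metric.mem_closedBall, dist_zero_right]
  by_contra h
  exact hx (h0 x (not_le.1 h))

theorem hasCompactSupport_of_vanish {φ : Cfg N → F} {ρ : ℝ} (h0 : ∀ x, ρ < ‖x‖ → φ x = 0) :
    HasCompactSupport φ :=
  (isCompact_closedBall (0 : Cfg N) ρ).of_isClosed_subset (isClosed_tsupport _)
    (tsupport_subset_of_vanish h0)

theorem hasCompactSupport_of_tsupport {φ : Cfg N → F} (hc : HasCompactSupport φ)
    {f : Cfg N → ℝ} (hf : ∀ x, x ∉ tsupport φ → f x = 0) : HasCompactSupport f := by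
  refine HasCompactSupport.intro' hc (isClosed_tsupport φ) hf

theorem integrable_of_vanish {φ : Cfg N → F} (hc : HasCompactSupport φ) {f : Cfg N → ℝ}
    (hf : Continuous f) (h0 : ∀ x, x ∉ tsupport φ → f x = 0) : Integrable f :=
  hf.integrable_of_hasCompactSupport (hasCompactSupport_of_tsupport hc h0)

theorem eq_zero_of_notMem {φ : Cfg N → F} {x : Cfg N} (hx : x ∉ tsupport φ) : φ x = 0 :=
  image_eq_zero_of_notMem_tsupport hx

theorem mden_eq_zero (b : ColorBasis N) (g : ℝ) {φ : Cfg N → F} {x : Cfg N}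
    (hx : x ∉ tsupport φ) : mden b g φ x = 0 := by
  unfold mden
  rw [gsq_eq_zero hx, eq_zero_of_notMem hx]
  simp

theorem integral_mden (b : ColorBasis N) (g : ℝ) {φ : Cfg N → F} (hφ : ContDiff ℝ 1 φ)
    (hc : HasCompactSupport φ) :
    ∫ x, mden b g φ x = (∫ x : Cfg N, Bar186.pot b x * gsq φ x) +
      g ^ 2 * (∫ x : Cfg N, Bar186.pot b x ^ 2 * ‖φ x‖ ^ 2) +
      g * (∫ x : Cfg N, Bar186.pot b x * ‖φ x‖ ^ 2) + g⁻¹ * (∫ x, gsq φ x) := by
  have h1 := continuous_pot b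
  have h2 := continuous_gsq hφ
  have h3 := hφ.continuous
  have i1 : Integrable fun x : Cfg N => Bar186.pot b x * gsq φ x :=
    integrable_of_vanish hc (h1.mul h2) fun x hx => by rw [gsq_eq_zero hx, mul_zero]
  have i2 : Integrable fun x : Cfg N => Bar186.pot b x ^ 2 * ‖φ x‖ ^ 2 :=
    integrable_of_vanish hc ((h1.pow 2).mul (h3.norm.pow 2)) fun x hx => by
      rw [eq_zero_of_notMem hx]; simp
  have i3 : Integrable fun x : Cfg N => Bar186.pot b x * ‖φ x‖ ^ 2 :=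
    integrable_of_vanish hc (h1.mul (h3.norm.pow 2)) fun x hx => by
      rw [eq_zero_of_notMem hx]; simp
  have i4 : Integrable fun x : Cfg N => gsq φ x :=
    integrable_of_vanish hc h2 fun x hx => gsq_eq_zero hx
  have j2 := i2.const_mul (g ^ 2)
  have j3 := i3.const_mul g
  have j4 := i4.const_mul g⁻¹
  have j12 : Integrable fun x : Cfg N => Bar186.pot b x * gsq φ x +
      g ^ 2 * (Bar186.pot b x ^ 2 * ‖φ x‖ ^ 2) := i1.add j2
  have j123 : Integrable fun x : Cfg N => Bar186.pot b x * gsq φ x +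
      g ^ 2 * (Bar186.pot b x ^ 2 * ‖φ x‖ ^ 2) + g * (Bar186.pot b x * ‖φ x‖ ^ 2) := j12.add j3
  unfold mden
  rw [integral_add j123 j4, integral_add j12 j3, integral_add i1 j2, integral_const_mul,
    integral_const_mul, integral_const_mul]

/-- **The moment lemma as one lower integral of a gauge invariant density.** -/
theorem moment_lintegral (b : ColorBasis N) (M : FermionRep N F) (G : GammaNine) {ρ K : ℝ}
    (hρ : 0 ≤ ρ) (hK : 0 ≤ K) : ∃ C : ℝ, 0 ≤ C ∧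
    ∀ g m : ℝ, 1 ≤ g → 0 ≤ m → m ^ 2 ≤ K * g → ∀ φ : Cfg N → F, ContDiff ℝ ∞ φ →
    (∀ x, ρ < ‖x‖ → φ x = 0) →
    ∫⁻ x, ENNReal.ofReal (mden b g φ x) ≤
      ENNReal.ofReal (C * (qf b M G g m φ + ∫ x, ‖φ x‖ ^ 2)) := by
  obtain ⟨C, hC, h⟩ := momentF b M G hρ hK
  refine ⟨C, hC, fun g m hg hm hmK φ hφ h0 => ?_⟩
  have h1 := h g m hg hm hmK φ hφ h0
  have hφ1 : ContDiff ℝ 1 φ := hφ.of_le (by simp)
  have hc := hasCompactSupport_of_vanish h0
  rw [← integral_mden b g hφ1 hc] at h1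
  have hi : Integrable (mden b g φ) :=
    integrable_of_vanish hc (continuous_mden b g hφ1) fun x hx => mden_eq_zero b g hx
  rw [← ofReal_integral_eq_lintegral_ofReal hi
    (Eventually.of_forall (mden_nonneg b (by linarith) φ))]
  exact ENNReal.ofReal_le_ofReal h1

/-! ### The abstract slice -/

/-- Slice hypothesis: the integral of an invariant non-negative function along the slice is at
most `C₀` times its integral over configuration space. -/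
def SliceLe (b : ColorBasis N) {S : Type*} [MeasurableSpace S] (ν : Measure S)
    (s : S → Cfg N) (C₀ : ℝ) : Prop :=
  ∀ f : Cfg N → ℝ≥0∞, Measurable f → (∀ h x, f (b.act h x) = f x) →
    ∫⁻ p, f (s p) ∂ν ≤ ENNReal.ofReal C₀ * ∫⁻ x, f x

/-- The slice moment density. -/
def sden (g ζ : ℝ) (φ : Cfg N → F) (x : Cfg N) : ℝ :=
  ζ ^ 2 * gsq φ x + g ^ 2 * (ζ ^ 4 * ‖φ x‖ ^ 2) + g * (ζ ^ 2 * ‖φ x‖ ^ 2) + g⁻¹ * gsq φ x

theorem sden_nonneg {g : ℝ} (hg : 0 ≤ g) (ζ : ℝ) (φ : Cfg N → F) (x : Cfg N) :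
    0 ≤ sden g ζ φ x := by
  have h2 := gsq_nonneg φ x
  unfold sden
  have h3 : 0 ≤ ζ ^ 4 := by positivity
  positivity

theorem sden_le {b : ColorBasis N} {g κ ζ : ℝ} (hg : 0 ≤ g) (hκ : 0 < κ) (hκ1 : κ ≤ 1)
    {φ : Cfg N → F} {x : Cfg N} (h : κ * ζ ^ 2 ≤ Bar186.pot b x) :
    sden g ζ φ x ≤ (κ⁻¹) ^ 2 * mden b g φ x := by
  have h1 := pot_nonneg b x
  have h2 := gsq_nonneg φ x
  have h3 : ζ ^ 2 ≤ κ⁻¹ * Bar186.pot b x := by
    rw [inv_mul_eq_div, le_div_iff₀ hκ]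
    linarith
  have hk1 : 1 ≤ κ⁻¹ := (one_le_inv₀ hκ).2 hκ1
  have hk : κ⁻¹ ≤ κ⁻¹ ^ 2 := by nlinarith
  have h4 : ζ ^ 2 ≤ κ⁻¹ ^ 2 * Bar186.pot b x :=
    h3.trans (mul_le_mul_of_nonneg_right hk h1)
  have h5 : ζ ^ 4 ≤ κ⁻¹ ^ 2 * Bar186.pot b x ^ 2 := by
    have : ζ ^ 4 = (ζ ^ 2) ^ 2 := by ring
    rw [this, ← mul_pow]
    exact pow_le_pow_left₀ (sq_nonneg _) h3 2
  have h6 : (1 : ℝ) ≤ κ⁻¹ ^ 2 := by nlinarith
  have e1 : ζ ^ 2 * gsq φ x ≤ κ⁻¹ ^ 2 * (Bar186.pot b x * gsq φ x) := by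
    rw [← mul_assoc]
    exact mul_le_mul_of_nonneg_right h4 h2
  have e2 : g ^ 2 * (ζ ^ 4 * ‖φ x‖ ^ 2) ≤
      κ⁻¹ ^ 2 * (g ^ 2 * (Bar186.pot b x ^ 2 * ‖φ x‖ ^ 2)) := by
    calc g ^ 2 * (ζ ^ 4 * ‖φ x‖ ^ 2)
        ≤ g ^ 2 * ((κ⁻¹ ^ 2 * Bar186.pot b x ^ 2) * ‖φ x‖ ^ 2) := by
          refine mul_le_mul_of_nonneg_left ?_ (sq_nonneg g)
          exact mul_le_mul_of_nonneg_right h5 (sq_nonneg _)
      _ = _ := by ring
  have e3 : g * (ζ ^ 2 * ‖φ x‖ ^ 2) ≤ κ⁻¹ ^ 2 * (g * (Bar186.pot b x * ‖φ x‖ ^ 2)) := by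
    calc g * (ζ ^ 2 * ‖φ x‖ ^ 2)
        ≤ g * ((κ⁻¹ ^ 2 * Bar186.pot b x) * ‖φ x‖ ^ 2) := by
          refine mul_le_mul_of_nonneg_left ?_ hg
          exact mul_le_mul_of_nonneg_right h4 (sq_nonneg _)
      _ = _ := by ring
  have e4 : g⁻¹ * gsq φ x ≤ κ⁻¹ ^ 2 * (g⁻¹ * gsq φ x) := by
    have : 0 ≤ g⁻¹ * gsq φ x := by positivity
    nlinarith
  unfold sden mden
  calc _ ≤ κ⁻¹ ^ 2 * (Bar186.pot b x * gsq φ x) +
        κ⁻¹ ^ 2 * (g ^ 2 * (Bar186.pot b x ^ 2 * ‖φ x‖ ^ 2)) +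
        κ⁻¹ ^ 2 * (g * (Bar186.pot b x * ‖φ x‖ ^ 2)) + κ⁻¹ ^ 2 * (g⁻¹ * gsq φ x) :=
        add_le_add (add_le_add (add_le_add e1 e2) e3) e4
    _ = _ := by ring

/-- **The moment lemma on a slice**, lower integral form. -/
theorem moment_slice_lintegral {b : ColorBasis N} {M : FermionRep N F} (R : GaugeAction b M)
    (G : GammaNine) {ρ K κ C₀ : ℝ} (hρ : 0 ≤ ρ) (hK : 0 ≤ K) (hκ : 0 < κ) (hκ1 : κ ≤ 1)
    (hC₀ : 0 ≤ C₀) : ∃ C : ℝ, 0 ≤ C ∧
    ∀ {S : Type} [MeasurableSpace S] (ν : Measure S) (s : S → Cfg N) (ζ : S → ℝ),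
    SliceLe b ν s C₀ → (∀ᵐ p ∂ν, κ * ζ p ^ 2 ≤ Bar186.pot b (s p)) →
    ∀ g m : ℝ, 1 ≤ g → 0 ≤ m → m ^ 2 ≤ K * g → ∀ φ : Cfg N → F, ContDiff ℝ ∞ φ →
    (∀ h x, φ (b.act h x) = R.ρ h (φ x)) → (∀ x, ρ < ‖x‖ → φ x = 0) →
    ∫⁻ p, ENNReal.ofReal (sden g (ζ p) φ (s p)) ∂ν ≤
      ENNReal.ofReal (C * (qf b M G g m φ + ∫ x, ‖φ x‖ ^ 2)) := by
  obtain ⟨C, hC, h⟩ := moment_lintegral b M G hρ hK
  refine ⟨(κ⁻¹) ^ 2 * C₀ * C, by positivity, ?_⟩
  intro S _ ν s ζ hs hζ g m hg hm hmK φ hφ he h0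
  have hg0 : 0 ≤ g := by linarith
  have hφ1 : ContDiff ℝ 1 φ := hφ.of_le (by simp)
  have h1 := h g m hg hm hmK φ hφ h0
  have h2 : ∫⁻ p, ENNReal.ofReal (sden g (ζ p) φ (s p)) ∂ν ≤
      ∫⁻ p, ENNReal.ofReal ((κ⁻¹) ^ 2) * ENNReal.ofReal (mden b g φ (s p)) ∂ν := by
    refine lintegral_mono_ae ?_
    filter_upwards [hζ] with p hp
    rw [← ENNReal.ofReal_mul (by positivity)]
    exact ENNReal.ofReal_le_ofReal (sden_le hg0 hκ hκ1 hp)
  have h3 := hs (fun x => ENNReal.ofReal (mden b g φ x))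
    (continuous_mden b g hφ1).measurable.ennreal_ofReal
    (fun k x => by simp only [mden_act R (hφ1.differentiable one_ne_zero) he])
  rw [lintegral_const_mul' _ _ ENNReal.ofReal_ne_top] at h2
  calc _ ≤ _ := h2
    _ ≤ ENNReal.ofReal ((κ⁻¹) ^ 2) * (ENNReal.ofReal C₀ *
        ENNReal.ofReal (C * (qf b M G g m φ + ∫ x, ‖φ x‖ ^ 2))) := by
        gcongr
        exact h3.trans (by gcongr)
    _ = _ := by
        rw [← ENNReal.ofReal_mul hC₀, ← ENNReal.ofReal_mul (by positivity)]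
        congr 1
        ring

end Crest.Agent.R330.LemRm349

end
end

-- ▼ part R330/LemRmB_349
section

/-!
# Row 330, section 7, leaf S7-B3, literal part (helper349)

* `pot_low` : `½ V4(u) + (r²/8) ‖z‖² ≤ V4 (c + u + z)` for commuting `c`, `u ∈ Uk b c`,
  `z ∈ Zs b c`, `56 (‖u‖² + ‖z‖²) ≤ r²`.
* `moment_slice` : the moment lemma in slice coordinates `(u, z) ∈ Uk b c × Zs b c`.
-/

set_option autoImplicit false
set_option linter.unusedSectionVars false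

open MeasureTheory Filter Topology
open Crest.MathPhysics.MatrixQM
open Crest.Agent.R330.Defs478 Crest.Agent.R330.Moment776
open Crest.Agent.R330.Frame839 Crest.Agent.R330.LS839 Crest.Agent.R330.Clus839
open Crest.Agent.R330.Bind6839
open scoped ContDiff InnerProductSpace ENNReal

noncomputable section

namespace Crest.Agent.R330.LemRm349

variable {N : ℕ} {b : ColorBasis N} {c : Cfg N}

/-! ### The quartic potential on the slice -/

theorem brBound : (Bind6839.colAlg b).BrBound 2 := Diag304.brBound b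

theorem V4_comp (x : Cfg N) : (Bind6839.colAlg b).V4 (comp x) = Cone741.V4 b x :=
  Diag304.V4_row b x

theorem gap_comp {r : ℝ} (hr0 : 0 ≤ r) (hr : GapAt (actB b) c r) :
    (Bind6839.colAlg b).Gap (comp c) r := by
  intro w hw
  rw [← kc_eq] at hw
  have h := hr w hw
  have h2 : (r * ‖w‖) ^ 2 ≤ ‖actB b w c‖ ^ 2 := pow_le_pow_left₀ (by positivity) h 2
  rw [mul_pow, norm_sq_comp] at h2
  refine h2.trans (le_of_eq ?_)
  refine Finset.sum_congr rfl fun i _ => ?_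
  rw [comp_act, (Bind6839.colAlg b).anti, norm_neg]

theorem zc_of_mem {z : Cfg N} (hz : z ∈ Zs b c) :
    (Bind6839.colAlg b).Zc (comp c) (comp z) := by
  refine ⟨fun i => ?_, ?_⟩
  · rw [← kc_eq]
    exact hz.1 i
  · have h : ∀ w, ⟪w, ∑ i, (Bind6839.colAlg b).br (comp c i) (comp z i)⟫_ℝ = 0 := by
      intro w
      have h1 := (Bind6839.colAlg b).inner_tang (comp c) w (comp z)
      have h2 : ⟪actB b w c, z⟫_ℝ = 0 :=
        (Submodule.mem_orthogonal _ _).1 hz.2 _ (mem_Tn (actB b) c w)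
      rw [inner_comp] at h2
      have h3 : ∑ i, ⟪(Bind6839.colAlg b).tang (comp c) w i, comp z i⟫_ℝ = 0 := by
        rw [← neg_eq_zero, ← Finset.sum_neg_distrib, ← h2]
        refine Finset.sum_congr rfl fun i _ => ?_
        rw [comp_act, (Bind6839.colAlg b).anti, inner_neg_left]
        rfl
      rw [h3] at h1
      linarith
    exact inner_self_eq_zero.1 (h _)

/-- **Lower bound of the quartic potential in the slice of a commuting configuration.** -/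
theorem pot_low {r : ℝ} (hc : Comc b c) (hr0 : 0 ≤ r) (hr : GapAt (actB b) c r) {u z : Cfg N}
    (hu : u ∈ Uk b c) (hz : z ∈ Zs b c) (h : 56 * (‖u‖ ^ 2 + ‖z‖ ^ 2) ≤ r ^ 2) :
    1 / 2 * Cone741.V4 b u + 1 / 8 * r ^ 2 * ‖z‖ ^ 2 ≤ Cone741.V4 b (c + u + z) := by
  have h1 := (Bind6839.colAlg b).V4_slice hc (gap_comp hr0 hr) brBound (ξ := comp u)
    (z := comp z) (fun i => by rw [← kc_eq]; exact hu i) (zc_of_mem hz) (by
      rw [← norm_sq_comp, ← norm_sq_comp]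
      linarith)
  rw [V4_comp, ← norm_sq_comp] at h1
  have h2 : (fun i => comp c i + comp u i + comp z i) = comp (c + u + z) := rfl
  rw [h2, V4_comp] at h1
  exact h1

theorem pot_low' {r : ℝ} (hc : Comc b c) (hr0 : 0 ≤ r) (hr : GapAt (actB b) c r) {u z : Cfg N}
    (hu : u ∈ Uk b c) (hz : z ∈ Zs b c) (h : 56 * (‖u‖ ^ 2 + ‖z‖ ^ 2) ≤ r ^ 2) :
    min 1 (1 / 8 * r ^ 2) * ‖z‖ ^ 2 ≤ Bar186.pot b (c + u + z) := by
  have h1 := pot_low hc hr0 hr hu hz h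
  have h2 := Cone741.V4_nonneg b u
  have h3 : min 1 (1 / 8 * r ^ 2) * ‖z‖ ^ 2 ≤ 1 / 8 * r ^ 2 * ‖z‖ ^ 2 :=
    mul_le_mul_of_nonneg_right (min_le_right _ _) (sq_nonneg _)
  have h4 : Cone741.V4 b (c + u + z) = Bar186.pot b (c + u + z) := rfl
  rw [← h4]
  linarith

/-! ### Slice measures -/

variable {F : Type*} [NormedAddCommGroup F] [InnerProductSpace ℂ F] [FiniteDimensional ℂ F]

theorem integral_le_of_lintegral {S : Type*} [MeasurableSpace S] {ν : Measure S} {f : S → ℝ}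
    {A : ℝ} (hA : 0 ≤ A) (hm : AEStronglyMeasurable f ν) (h0 : 0 ≤ᵐ[ν] f)
    (h : ∫⁻ p, ENNReal.ofReal (f p) ∂ν ≤ ENNReal.ofReal A) :
    Integrable f ν ∧ ∫ p, f p ∂ν ≤ A := by
  refine ⟨⟨hm, ?_⟩, ?_⟩
  · rw [hasFiniteIntegral_iff_ofReal h0]
    exact h.trans_lt ENNReal.ofReal_lt_top
  · rw [integral_eq_lintegral_of_nonneg_ae h0 hm]
    calc _ ≤ (ENNReal.ofReal A).toReal := ENNReal.toReal_mono ENNReal.ofReal_ne_top h
      _ = A := ENNReal.toReal_ofReal hA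


/-- If the density is bounded below, it can be dropped. -/
theorem sliceLe_of_density_ge {S : Type*} [MeasurableSpace S] {μ : Measure S} {s : S → Cfg N}
    {J : S → ℝ} {j₀ : ℝ} (hj₀ : 0 < j₀) (hJ : ∀ᵐ p ∂μ, j₀ ≤ J p) {T : Set (Cfg N)}
    (h : ∀ f : Cfg N → ℝ≥0∞, Measurable f → (∀ h x, f (b.act h x) = f x) →
      ∫⁻ p, ENNReal.ofReal (J p) * f (s p) ∂μ ≤ ∫⁻ x in T, f x) :
    SliceLe b μ s j₀⁻¹ := by
  intro f hf hi
  have h1 := (h f hf hi).trans (setLIntegral_le_lintegral _ _)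
  have h2 : ENNReal.ofReal j₀ * ∫⁻ p, f (s p) ∂μ ≤
      ∫⁻ p, ENNReal.ofReal (J p) * f (s p) ∂μ := by
    rw [← lintegral_const_mul' _ _ ENNReal.ofReal_ne_top]
    refine lintegral_mono_ae ?_
    filter_upwards [hJ] with p hp
    gcongr
  have h3 := h2.trans h1
  calc ∫⁻ p, f (s p) ∂μ = ENNReal.ofReal j₀⁻¹ * (ENNReal.ofReal j₀ * ∫⁻ p, f (s p) ∂μ) := by
        rw [← mul_assoc, ← ENNReal.ofReal_mul (by positivity), inv_mul_cancel₀ hj₀.ne',
          ENNReal.ofReal_one, one_mul]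
    _ ≤ _ := by gcongr

/-- Change of parametrisation. -/
theorem SliceLe.comp {S S' : Type*} [MeasurableSpace S] [MeasurableSpace S'] {ν : Measure S}
    {ν' : Measure S'} {s : S → Cfg N} {C₀ : ℝ} (h : SliceLe b ν s C₀) (e : S' → S)
    (he : MeasurableEmbedding e) {k : ℝ} (hk : 0 ≤ k)
    (hν : ν'.map e ≤ ENNReal.ofReal k • ν) :
    SliceLe b ν' (fun p => s (e p)) (k * C₀) := by
  intro f hf hi
  have h1 : ∫⁻ p, f (s (e p)) ∂ν' = ∫⁻ p, f (s p) ∂(ν'.map e) :=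
    (he.lintegral_map (fun p => f (s p))).symm
  rw [h1]
  calc _ ≤ ∫⁻ p, f (s p) ∂(ENNReal.ofReal k • ν) := lintegral_mono' hν le_rfl
    _ = ENNReal.ofReal k * ∫⁻ p, f (s p) ∂ν := lintegral_smul_measure _ _
    _ ≤ ENNReal.ofReal k * (ENNReal.ofReal C₀ * ∫⁻ x, f x) := by
        gcongr
        exact h f hf hi
    _ = _ := by rw [← mul_assoc, ENNReal.ofReal_mul hk]

theorem SliceLe.mono {S : Type*} [MeasurableSpace S] {ν ν' : Measure S} {s : S → Cfg N} {C₀ : ℝ}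
    (h : SliceLe b ν s C₀) (hν : ν' ≤ ν) : SliceLe b ν' s C₀ := fun f hf hi =>
  (lintegral_mono' hν le_rfl).trans (h f hf hi)

/-- The slice point in the coordinates `Uk b c × Zs b c`. -/
def spt (b : ColorBasis N) (c : Cfg N) (p : Uk b c × Zs b c) : Cfg N :=
  c + (p.1 : Cfg N) + (p.2 : Cfg N)

theorem continuous_spt : Continuous (spt b c) := by
  unfold spt
  fun_prop

/-- **(B3), the moment lemma on the slice**: `(u,z) ∈ Uk b c × Zs b c`, `x = c + u + z`, any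
measure `ν` carried by the ball with the slice hypothesis (`SliceLe`, from the integral formula
by `sliceLe_withDensity` or `sliceLe_of_density_ge`). -/
theorem moment_slice {M : FermionRep N F} (R : GaugeAction b M) (G : GammaNine) (hc : Comc b c)
    {r : ℝ} (hr0 : 0 < r) (hr : GapAt (actB b) c r) {ρ K C₀ : ℝ} (hρ : 0 ≤ ρ) (hK : 0 ≤ K)
    (hC₀ : 0 ≤ C₀) : ∃ C : ℝ, 0 ≤ C ∧
    ∀ ν : Measure (Uk b c × Zs b c), SliceLe b ν (spt b c) C₀ →
    (∀ᵐ p ∂ν, 56 * (‖p.1‖ ^ 2 + ‖p.2‖ ^ 2) ≤ r ^ 2) →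
    ∀ g m : ℝ, 1 ≤ g → 0 ≤ m → m ^ 2 ≤ K * g → ∀ φ : Cfg N → F, ContDiff ℝ ∞ φ →
    (∀ h x, φ (b.act h x) = R.ρ h (φ x)) → (∀ x, ρ < ‖x‖ → φ x = 0) →
    Integrable (fun p => sden g ‖p.2‖ φ (spt b c p)) ν ∧
    ∫ p, sden g ‖p.2‖ φ (spt b c p) ∂ν ≤ C * (qf b M G g m φ + ∫ x, ‖φ x‖ ^ 2) := by
  obtain ⟨C, hC, h⟩ := moment_slice_lintegral R G hρ hK (κ := min 1 (1 / 8 * r ^ 2))
    (lt_min one_pos (by positivity)) (min_le_left _ _) hC₀
  refine ⟨C, hC, ?_⟩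
  intro ν hs hν g m hg hm hmK φ hφ he h0
  have hφ1 : ContDiff ℝ 1 φ := hφ.of_le (by simp)
  have h1 := h ν (spt b c) (fun p => ‖p.2‖) hs (by
    filter_upwards [hν] with p hp
    exact pot_low' hc hr0.le hr p.1.2 p.2.2 hp) g m hg hm hmK φ hφ he h0
  refine integral_le_of_lintegral ?_ ?_ ?_ h1
  · have : 0 ≤ qf b M G g m φ := by
      unfold qf
      positivity
    have h3 : 0 ≤ ∫ x, ‖φ x‖ ^ 2 := integral_nonneg fun x => by positivity
    positivity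
  · have h2 := continuous_gsq hφ1
    have h3 := hφ.continuous
    have h4 := continuous_spt (b := b) (c := c)
    have h5 : Continuous fun p : Uk b c × Zs b c => ‖p.2‖ := continuous_snd.norm
    refine Continuous.aestronglyMeasurable ?_
    unfold sden
    have h6 := h2.comp h4
    have h7 := (h3.comp h4).norm
    exact ((((h5.pow 2).mul h6).add (continuous_const.mul ((h5.pow 4).mul (h7.pow 2)))).add
      (continuous_const.mul ((h5.pow 2).mul (h7.pow 2)))).add (continuous_const.mul h6)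
  · exact Eventually.of_forall fun p => sden_nonneg (by linarith) _ _ _

/-! ### From a parametrisation of the normal space to the coordinates `(u, z)` -/

section Nor

variable {V : Type*} [NormedAddCommGroup V] [InnerProductSpace ℝ V] [FiniteDimensional ℝ V]
  (ι : V →ₗᵢ[ℝ] Cfg N)

/-- `(u, z) ↦ ι⁻¹ (u + z)`. -/
theorem exists_uz (hι : LinearMap.range ι.toLinearMap = SlB314.Nor b c) :
    ∃ e : (Uk b c × Zs b c) ≃L[ℝ] V, ∀ p, ι (e p) = (p.1 : Cfg N) + (p.2 : Cfg N) := by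
  rw [← Nor_eq] at hι
  let f : (Uk b c × Zs b c) →ₗ[ℝ] Cfg N :=
    (Uk b c).subtype.coprod (Zs b c).subtype
  have hf : ∀ p, f p = (p.1 : Cfg N) + (p.2 : Cfg N) := fun p => rfl
  have hinj : Function.Injective f := by
    rw [injective_iff_map_eq_zero]
    intro p hp
    rw [hf] at hp
    have h1 : ⟪(p.1 : Cfg N), (p.2 : Cfg N)⟫_ℝ = 0 := Zs_perp_Uk p.1.2 p.2.2
    have h2 : (p.2 : Cfg N) = -(p.1 : Cfg N) := by
      rw [eq_neg_iff_add_eq_zero, add_comm]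
      exact hp
    rw [h2, inner_neg_right, neg_eq_zero] at h1
    have h3 : (p.1 : Cfg N) = 0 := inner_self_eq_zero.1 h1
    have h4 : (p.2 : Cfg N) = 0 := by rw [h2, h3, neg_zero]
    exact Prod.ext (Subtype.ext h3) (Subtype.ext h4)
  have hran : LinearMap.range f = LinearMap.range ι.toLinearMap := by
    rw [hι]
    apply le_antisymm
    · rintro _ ⟨p, rfl⟩
      rw [hf]
      exact Submodule.add_mem _ (Uk_le_Nor p.1.2) p.2.2.2
    · intro x hx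
      obtain ⟨y, hy, z, hz, rfl⟩ := nor_decomp hx
      exact ⟨(⟨y, hy⟩, ⟨z, hz⟩), rfl⟩
  let e1 : (Uk b c × Zs b c) ≃ₗ[ℝ] LinearMap.range f := LinearEquiv.ofInjective f hinj
  let e2 : LinearMap.range f ≃ₗ[ℝ] LinearMap.range ι.toLinearMap := LinearEquiv.ofEq _ _ hran
  let e3 : V ≃ₗ[ℝ] LinearMap.range ι.toLinearMap := LinearEquiv.ofInjective ι.toLinearMap ι.injective
  refine ⟨((e1.trans e2).trans e3.symm).toContinuousLinearEquiv, fun p => ?_⟩
  have h1 : e3 (((e1.trans e2).trans e3.symm) p) = e2 (e1 p) := e3.apply_symm_apply _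
  have h2 := congrArg (fun w : LinearMap.range ι.toLinearMap => (w : Cfg N)) h1
  exact h2

variable [MeasurableSpace V] [BorelSpace V]

/-- **Transfer of the slice hypothesis to the coordinates `(u, z)`, any Haar measures.** -/
theorem sliceLe_uz (hι : LinearMap.range ι.toLinearMap = SlB314.Nor b c)
    (μV : Measure V) [μV.IsAddHaarMeasure] (μU : Measure (Uk b c)) [μU.IsAddHaarMeasure]
    (μZ : Measure (Zs b c)) [μZ.IsAddHaarMeasure] : ∃ k : ℝ, 0 ≤ k ∧ ∀ (B : Set V),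
    MeasurableSet B → ∀ C₀ : ℝ, SliceLe b (μV.restrict B) (fun v => c + ι v) C₀ →
    ∀ e : (Uk b c × Zs b c) ≃L[ℝ] V, (∀ p, ι (e p) = (p.1 : Cfg N) + (p.2 : Cfg N)) →
    SliceLe b ((μU.prod μZ).restrict (e ⁻¹' B)) (spt b c) (k * C₀) := by
  obtain ⟨e, he⟩ := exists_uz ι hι
  obtain ⟨k, hk⟩ : ∃ k : NNReal, (μU.prod μZ).map e = (k : ℝ≥0∞) • μV := by
    have i1 : (μU.prod μZ).IsAddHaarMeasure := Measure.prod.instIsAddHaarMeasure μU μZ
    have i2 : ((μU.prod μZ).map e).IsAddHaarMeasure :=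
      ContinuousLinearEquiv.isAddHaarMeasure_map e (μU.prod μZ)
    refine ⟨Measure.addHaarScalarFactor ((μU.prod μZ).map e) μV, ?_⟩
    have := Measure.isAddLeftInvariant_eq_smul ((μU.prod μZ).map e) μV
    exact this
  refine ⟨k, k.2, fun B hB C₀ hs e' he' => ?_⟩
  have hee : e' = e := by
    ext p
    apply ι.injective
    rw [he, he']
  subst hee
  have h1 : MeasurableEmbedding e' := e'.toHomeomorph.measurableEmbedding
  have h2 := hs.comp (ν' := (μU.prod μZ).restrict (e' ⁻¹' B)) e' h1 (k := k) k.2 (by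
    rw [← Measure.restrict_map h1.measurable hB, hk, Measure.restrict_smul]
    simp)
  have h3 : (fun p => c + ι (e' p)) = spt b c := by
    funext p
    rw [he']
    unfold spt
    rw [add_assoc]
  rw [h3] at h2
  exact h2


end Nor

end Crest.Agent.R330.LemRm349

end
end

-- ▼ part R330/SlO_712
section

/-!
# Row 330, S5b-B4: the slice formula with the volume of the subspace `Nor b c` (helper712)

The same statements as in `SlN_712` for `ι = (Nor b c).subtypeₗᵢ`, i.e. on the type `Nor b c`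
with its volume as inner product space (as elaborated in `TDef_414`).
-/

set_option autoImplicit false
set_option linter.unusedSectionVars false
noncomputable section

open MeasureTheory Metric Set Matrix
open Crest.MathPhysics.MatrixQM
open Crest.Agent.R330.SlA314 Crest.Agent.R330.SlB314
open Crest.Agent.R330.SlD314 Crest.Agent.R330.SlP314
open Crest.Agent.R330.Dbl798 Crest.Agent.R330.SlI712 Crest.Agent.R330.SlK712
open Crest.Agent.R330.SlJ712 Crest.Agent.R330.SUgrp596 Crest.Agent.R330.SlN712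
open scoped ContDiff Topology NNReal InnerProductSpace

namespace Crest.Agent.R330.SlM712

variable {N : ℕ} {b : ColorBasis N} {c : Cfg N} {r0 C : ℝ}

theorem range_sub (W : Submodule ℝ (Cfg N)) :
    LinearMap.range W.subtypeₗᵢ.toLinearMap = W := W.range_subtype



section Bochner

variable {X : Type*} [NormedAddCommGroup X] [NormedSpace ℝ X] {h : Cfg N → X}





end Bochner

section Equivariant

variable {F : Type*} [NormedAddCommGroup F] [InnerProductSpace ℂ F] [FiniteDimensional ℂ F]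
  {M : FermionRep N F} {R : GaugeAction b M} {φ ψ : Cfg N → F}



end Equivariant

end Crest.Agent.R330.SlM712
end
end

-- ▼ part R330/LemR2_302

/-!
# Row 330, S7-R (helper302): Lemma R, part 2

For a commuting configuration `c` there is `s > 0` such that, for `η` smooth, supported in
`‖u‖² + ‖z‖² ≤ s²`, and every core vector `φ`, with `Φ (u,z) = η (u,z) φ (c + u + z)`:
`Σ_α ∫ ‖Aop Φ + Bop Φ‖² ≤ C (q_{g,m}(φ) + ∫ ‖φ‖²)` and `∫ ‖Φ‖² ≤ C ∫ ‖φ‖²`.
-/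

set_option autoImplicit false
set_option linter.unusedSectionVars false

open MeasureTheory Filter Topology Crest.MathPhysics.MatrixQM
open Crest.Agent.R330.Defs478 Crest.Agent.R330.Frame839
open Crest.Agent.R330.LS839 Crest.Agent.R330.Clus839 Crest.Agent.R330.Bind6839
open Crest.Agent.R330.SlQE87 Crest.Agent.R330.LemRm349 Crest.Agent.R330.LemA342
open Crest.Agent.R330.QM0363 Crest.Agent.R330.Moment776
open scoped ContDiff InnerProductSpace ENNReal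

noncomputable section

namespace Crest.Agent.R330.LemR2302

variable {N : ℕ} {F : Type*} [NormedAddCommGroup F] [InnerProductSpace ℂ F]
  [FiniteDimensional ℂ F]

/-! ### 1. The radial cut-off -/

theorem dcharge_cut (b : ColorBasis N) (M : FermionRep N F) (G : GammaNine) (g m : ℝ)
    (α : Fin 16) (L : ℝ) {φ : Cfg N → F} (hφ : Differentiable ℝ φ) (x : Cfg N) :
    dcharge b M G g m α (fun y => cut L y • φ y) x =
      cut L x • dcharge b M G g m α φ x +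
        Ims714.kin G M α (Ims714.grad (cut L) x) (φ x) := by
  have hcd : DifferentiableAt ℝ (cut (N := N) L) x :=
    (contDiff_cut L).differentiable (by simp) x
  rw [Ims2714.dcharge_eq_dop, Ims714.dop_mul G M α _ hcd (hφ x), ← Ims2714.dcharge_eq_dop]

/-- **the radial cut-off costs a constant times the mass** -/
theorem qf_cut (b : ColorBasis N) (M : FermionRep N F) (R : GaugeAction b M) (G : GammaNine)
    {L : ℝ} (hL : 0 < L) : ∃ C : ℝ, 0 ≤ C ∧ ∀ (g m : ℝ) (φ : Cfg N → F), IsCoreVec b R φ →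
      qf b M G g m (fun y => cut L y • φ y) ≤ 2 * qf b M G g m φ + C * ∫ x, ‖φ x‖ ^ 2 := by
  obtain ⟨C, hC0, hC⟩ := HIAnn245.exists_sT_bound
  set K : ℝ := 8 / 3 * C / L with hK
  have hK0 : 0 ≤ K := by positivity
  refine ⟨2 * K ^ 2, by positivity, fun g m φ hφ => ?_⟩
  have hp : ∀ (α : Fin 16) (x : Cfg N), ‖dcharge b M G g m α (fun y => cut L y • φ y) x‖ ^ 2 ≤
      2 * ‖dcharge b M G g m α φ x‖ ^ 2 + 2 * K ^ 2 * ‖φ x‖ ^ 2 := by
    intro α x
    have n1 : ‖cut L x • dcharge b M G g m α φ x‖ ≤ ‖dcharge b M G g m α φ x‖ := by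
      rw [norm_smul, Real.norm_eq_abs, abs_of_nonneg (cut_nonneg L x)]
      exact mul_le_of_le_one_left (norm_nonneg _) (cut_le_one L x)
    have n3 : ‖Ims714.kin G M α (Ims714.grad (cut L) x) (φ x)‖ ≤ K * ‖φ x‖ :=
      (Ims714.norm_kin_le G M α (Ims714.grad (cut L) x) (φ x)).trans
        (mul_le_mul_of_nonneg_right (norm_grad_cut hL hC0.le hC x) (norm_nonneg _))
    have h5 : ‖dcharge b M G g m α (fun y => cut L y • φ y) x‖ ≤
        ‖dcharge b M G g m α φ x‖ + K * ‖φ x‖ := by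
      rw [dcharge_cut b M G g m α L (cv_diff hφ) x]
      exact (norm_add_le _ _).trans (add_le_add n1 n3)
    calc ‖dcharge b M G g m α (fun y => cut L y • φ y) x‖ ^ 2
        ≤ (‖dcharge b M G g m α φ x‖ + K * ‖φ x‖) ^ 2 := by gcongr
      _ ≤ 2 * ‖dcharge b M G g m α φ x‖ ^ 2 + 2 * K ^ 2 * ‖φ x‖ ^ 2 := by
          nlinarith [sq_nonneg (‖dcharge b M G g m α φ x‖ - K * ‖φ x‖)]
  have h1 : ∀ α : Fin 16, ∫ x, ‖dcharge b M G g m α (fun y => cut L y • φ y) x‖ ^ 2 ≤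
      2 * (∫ x, ‖dcharge b M G g m α φ x‖ ^ 2) + 2 * K ^ 2 * ∫ x, ‖φ x‖ ^ 2 := by
    intro α
    have hI1 : Integrable fun x => 2 * ‖dcharge b M G g m α φ x‖ ^ 2 :=
      (int_sq_dcharge G g m α hφ).const_mul _
    have hI2 : Integrable fun x => 2 * K ^ 2 * ‖φ x‖ ^ 2 := (int_sq hφ).const_mul _
    rw [← integral_const_mul, ← integral_const_mul, ← integral_add hI1 hI2]
    exact integral_mono (int_sq_dcharge G g m α (core_cut L hφ)) (hI1.add hI2) (hp α)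
  unfold qf
  calc (1 / 16 : ℝ) * ∑ α : Fin 16, ∫ x, ‖dcharge b M G g m α (fun y => cut L y • φ y) x‖ ^ 2
      ≤ (1 / 16 : ℝ) * ∑ α : Fin 16, (2 * (∫ x, ‖dcharge b M G g m α φ x‖ ^ 2) +
        2 * K ^ 2 * ∫ x, ‖φ x‖ ^ 2) := by
        refine mul_le_mul_of_nonneg_left (Finset.sum_le_sum fun α _ => h1 α) (by norm_num)
    _ = _ := by
        rw [Finset.sum_add_distrib, Finset.sum_const, Finset.card_univ, Fintype.card_fin,
          ← Finset.mul_sum]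
        simp only [nsmul_eq_mul]
        push_cast
        ring

theorem mass_cut {b : ColorBasis N} {M : FermionRep N F} {R : GaugeAction b M} (L : ℝ)
    {φ : Cfg N → F} (hφ : IsCoreVec b R φ) :
    ∫ x, ‖cut L x • φ x‖ ^ 2 ≤ ∫ x, ‖φ x‖ ^ 2 := by
  refine integral_mono (int_sq (core_cut L hφ)) (int_sq hφ) fun x => ?_
  have h1 : ‖cut L x • φ x‖ ≤ ‖φ x‖ := by
    rw [norm_smul, Real.norm_eq_abs, abs_of_nonneg (cut_nonneg L x)]
    exact mul_le_of_le_one_left (norm_nonneg _) (cut_le_one L x)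
  exact pow_le_pow_left₀ (norm_nonneg _) h1 2

/-! ### 2. The slice hypothesis on the ball of the slice -/

section slice

variable {b : ColorBasis N} {c : Cfg N}

/-- the ball in the slice -/
def Tb (b : ColorBasis N) (c : Cfg N) (s : ℝ) : Set (Sc b c) :=
  {p | ‖p.1‖ ^ 2 + ‖p.2‖ ^ 2 < s ^ 2}

theorem measurableSet_Tb (s : ℝ) : MeasurableSet (Tb b c s) :=
  (isOpen_lt (by fun_prop) continuous_const).measurableSet

/-- **the slice hypothesis on the ball**, any Haar measures -/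
theorem sliceLe_Tb (μU : Measure (Uk b c)) [μU.IsAddHaarMeasure] (μZ : Measure (Zs b c))
    [μZ.IsAddHaarMeasure] {r0 C0 : ℝ} (H : SlM712.SRad b c r0 C0) {s : ℝ} (hs0 : 0 ≤ s)
    (hs : s ≤ r0) :
    ∃ C : ℝ, 0 ≤ C ∧ SliceLe b ((μU.prod μZ).restrict (Tb b c s)) (spt b c) C := by
  have hι : LinearMap.range (SlB314.Nor b c).subtypeₗᵢ.toLinearMap = SlB314.Nor b c :=
    SlM712.range_sub _
  obtain ⟨e, he⟩ := exists_uz (SlB314.Nor b c).subtypeₗᵢ hι
  have h1 : SliceLe b ((volume : Measure (SlB314.Nor b c)).restrict (Metric.ball 0 s))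
      (fun v => c + (SlB314.Nor b c).subtypeₗᵢ v) (C0 / 2)⁻¹ := by
    refine sliceLe_of_density_ge (J := fun v => SlN712.jd b c C0 ((SlB314.Nor b c).subtypeₗᵢ v))
      (T := SlD314.tube b c s) (half_pos H.Cpos) ?_ fun f hf hi => ?_
    · rw [ae_restrict_iff' Metric.isOpen_ball.measurableSet]
      refine Eventually.of_forall fun v hv => (H.jd_lb ?_).le
      rw [LinearIsometry.norm_map]
      have : ‖v‖ < s := by simpa using hv
      exact this.trans_le hs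
    · exact (H.lintegral_inv hι hs hf hi).symm.le
  obtain ⟨k, hk, h2⟩ := sliceLe_uz (SlB314.Nor b c).subtypeₗᵢ hι volume μU μZ
  have h3 := h2 _ Metric.isOpen_ball.measurableSet _ h1 e he
  have hC0 := H.Cpos
  refine ⟨k * (C0 / 2)⁻¹, by positivity, ?_⟩
  have hn : ∀ p : Sc b c, ‖e p‖ ^ 2 = ‖p.1‖ ^ 2 + ‖p.2‖ ^ 2 := by
    intro p
    rw [← (SlB314.Nor b c).subtypeₗᵢ.norm_map, he, @norm_add_sq_real, Zs_perp_Uk p.1.2 p.2.2]
    simp
  have hset : e ⁻¹' Metric.ball 0 s = Tb b c s := by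
    ext p
    unfold Tb
    rw [Set.mem_preimage, Metric.mem_ball, dist_zero_right, Set.mem_ofPred_eq, ← hn]
    exact (pow_lt_pow_iff_left₀ (norm_nonneg _) hs0 two_ne_zero).symm
  rw [hset] at h3
  exact h3

/-- a core vector along the slice -/
theorem slice_sq {M : FermionRep N F} {R : GaugeAction b M} {ν : Measure (Sc b c)} {C₀ : ℝ}
    (hC₀ : 0 ≤ C₀) (hs : SliceLe b ν (spt b c) C₀) {ψ : Cfg N → F} (hψ : IsCoreVec b R ψ) :
    Integrable (fun p => ‖ψ (spt b c p)‖ ^ 2) ν ∧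
      ∫ p, ‖ψ (spt b c p)‖ ^ 2 ∂ν ≤ C₀ * ∫ x, ‖ψ x‖ ^ 2 := by
  have h0 : 0 ≤ ∫ x, ‖ψ x‖ ^ 2 := integral_nonneg fun x => by positivity
  refine integral_le_of_lintegral (by positivity) ?_ (Eventually.of_forall fun x => by positivity)
    ?_
  · exact ((hψ.1.continuous.comp continuous_spt).norm.pow 2).aestronglyMeasurable
  · have h1 := hs (fun x => ENNReal.ofReal (‖ψ x‖ ^ 2))
      ((hψ.1.continuous.norm.pow 2).measurable.ennreal_ofReal) (fun h x => by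
        rw [hψ.2.2, Cov837.norm_rho])
    rw [← ofReal_integral_eq_lintegral_ofReal (int_sq hψ)
      (Eventually.of_forall fun x => by positivity), ← ENNReal.ofReal_mul hC₀] at h1
    exact h1

end slice

/-! ### 3. The pointwise bound -/

section pw

variable {b : ColorBasis N} {c : Cfg N}

theorem norm_add_sq_uz (x : Sc b c) :
    ‖(x.1 : Cfg N) + (x.2 : Cfg N)‖ ^ 2 = ‖x.1‖ ^ 2 + ‖x.2‖ ^ 2 := by
  rw [@norm_add_sq_real, Zs_perp_Uk x.1.2 x.2.2]
  simp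

theorem norm_lt_of_mem {s : ℝ} (hs : 0 ≤ s) {x : Sc b c} (hx : x ∈ Tb b c s) :
    ‖(x.1 : Cfg N) + (x.2 : Cfg N)‖ < s := by
  have h1 : ‖(x.1 : Cfg N) + (x.2 : Cfg N)‖ ^ 2 < s ^ 2 := by
    rw [norm_add_sq_uz]
    exact hx
  exact (pow_lt_pow_iff_left₀ (norm_nonneg _) hs two_ne_zero).1 h1

theorem norm_fderiv_half {η : Sc b c → ℝ} {φ : Cfg N → F} {x : Sc b c}
    (hη : DifferentiableAt ℝ η x) (hφ : DifferentiableAt ℝ φ (c + x.1 + x.2)) :
    ‖fderiv ℝ (half b c η φ) x‖ ≤ |η x| * (‖fderiv ℝ φ (c + x.1 + x.2)‖ * ‖slL b c‖) +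
      ‖fderiv ℝ η x‖ * ‖φ (c + x.1 + x.2)‖ := by
  refine ContinuousLinearMap.opNorm_le_bound _ (by positivity) fun y => ?_
  rw [fderiv_half hη hφ]
  have h1 : ‖fderiv ℝ φ (c + x.1 + x.2) (y.1 + y.2)‖ ≤
      ‖fderiv ℝ φ (c + x.1 + x.2)‖ * (‖slL b c‖ * ‖y‖) :=
    ((fderiv ℝ φ (c + x.1 + x.2)).le_opNorm _).trans
      (mul_le_mul_of_nonneg_left ((slL b c).le_opNorm y) (norm_nonneg _))
  have h2 : ‖fderiv ℝ η x y‖ ≤ ‖fderiv ℝ η x‖ * ‖y‖ := (fderiv ℝ η x).le_opNorm y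
  refine (norm_add_le _ _).trans ?_
  rw [norm_smul, norm_smul, Real.norm_eq_abs]
  have h3 := mul_le_mul_of_nonneg_left h1 (abs_nonneg (η x))
  have h4 := mul_le_mul_of_nonneg_right h2 (norm_nonneg (φ (c + x.1 + x.2)))
  calc _ ≤ |η x| * (‖fderiv ℝ φ (c + x.1 + x.2)‖ * (‖slL b c‖ * ‖y‖)) +
        ‖fderiv ℝ η x‖ * ‖y‖ * ‖φ (c + x.1 + x.2)‖ := add_le_add h3 h4
    _ = _ := by ring

/-- off the support everything vanishes -/
theorem AB_zero {M : FermionRep N F} {G : GammaNine} {g m : ℝ} {α : Fin 16}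
    {ι κ κ' : Type*} [Fintype ι] [Fintype κ] [Fintype κ']
    {e : OrthonormalBasis ι ℝ (Uk b c)} {v : OrthonormalBasis κ ℝ (Zs b c)}
    {t : OrthonormalBasis κ' ℝ (Tn (actB b) c)} {Φ : Sc b c → F} {x : Sc b c}
    (h : Φ =ᶠ[𝓝 x] fun _ => 0) : AB b M G g m α c e v t Φ x = 0 := by
  have h1 : fderiv ℝ Φ x = 0 := by
    rw [h.fderiv_eq]
    simp
  have h2 : Φ x = 0 := h.self_of_nhds
  unfold AB
  simp [h1, h2]

/-- **pointwise bound of the charge of `Φ`.** -/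
theorem AB_le (b : ColorBasis N) (M : FermionRep N F) (R : GaugeAction b M) (G : GammaNine)
    {c : Cfg N} (hc : Comc b c) {r B : ℝ} (hr0 : 0 < r) (hr : GapAt (actB b) c r)
    (hB : ActBound (actB b) B) (hB0 : 0 < B) {s : ℝ} (hs0 : 0 ≤ s) (hBs : B * s ≤ r / 2)
    {E : ℝ} (hE : 0 ≤ E) :
    ∃ K : ℝ, 0 ≤ K ∧ ∀ (η : Sc b c → ℝ), Differentiable ℝ η → (∀ x, |η x| ≤ E) →
      (∀ x, ‖fderiv ℝ η x‖ ≤ E) → ∀ (g m : ℝ), 1 ≤ g → 0 ≤ m → m ≤ 1 → ∀ (α : Fin 16)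
      (ι κ κ' : Type) [Fintype ι] [Fintype κ] [Fintype κ']
      (e : OrthonormalBasis ι ℝ (Uk b c)) (v : OrthonormalBasis κ ℝ (Zs b c))
      (t : OrthonormalBasis κ' ℝ (Tn (actB b) c)) (φ : Cfg N → F), IsCoreVec b R φ →
      ∀ x ∈ Tb b c s, ‖AB b M G g m α c e v t (half b c η φ) x‖ ^ 2 ≤
        K * (‖dcharge b M G g m α φ (spt b c x)‖ ^ 2 + ‖φ (spt b c x)‖ ^ 2 +
          sden g ‖x.2‖ φ (spt b c x)) := by
  obtain ⟨C1, hC1, hLS⟩ := LS_half_err b M G hr0 hB0 hB (m₀ := 1) zero_le_one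
  set Λ : ℝ := ‖slL b c‖ with hΛ
  have hΛ0 : 0 ≤ Λ := norm_nonneg (slL b c)
  refine ⟨4 * (E ^ 2 + (C1 * ((2 + s) * E)) ^ 2 + (C1 * (E * Λ)) ^ 2 + (C1 * E) ^ 2),
    by positivity, fun η hη hηE hdE g m hg hm hm1 α ι κ κ' _ _ _ e v t φ hφ x hx => ?_⟩
  have hd : DifferentiableAt ℝ φ (c + x.1 + x.2) := cv_diff hφ _
  have hns := norm_lt_of_mem hs0 hx
  have h1 := hLS g m (by linarith) (by rw [abs_of_nonneg hm]; exact hm1) α c hc hr ι κ κ' e v t
    η φ x (hη x) hd (infEq_core hφ _) ((mul_le_mul_of_nonneg_left hns.le hB0.le).trans hBs)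
  have h2 := norm_fderiv_half (b := b) (c := c) (hη x) hd
  have hZs : ‖(x.2 : Cfg N)‖ ≤ s := (SlQE87.norm_snd_le x).trans hns.le
  have hsp : spt b c x = c + (x.1 : Cfg N) + (x.2 : Cfg N) := rfl
  have hzz : ‖(x.2 : Cfg N)‖ = ‖x.2‖ := rfl
  have hhalf : ‖half b c η φ x‖ = |η x| * ‖φ (c + x.1 + x.2)‖ := by
    unfold half
    rw [norm_smul, Real.norm_eq_abs]
  have h3 : ‖AB b M G g m α c e v t (half b c η φ) x‖ ≤
      ‖η x • dcharge b M G g m α φ (c + x.1 + x.2)‖ +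
      ‖η x • dcharge b M G g m α φ (c + x.1 + x.2) -
        AB b M G g m α c e v t (half b c η φ) x‖ := by
    have := norm_sub_le (η x • dcharge b M G g m α φ (c + x.1 + x.2))
      (η x • dcharge b M G g m α φ (c + x.1 + x.2) -
        AB b M G g m α c e v t (half b c η φ) x)
    rwa [sub_sub_cancel] at this
  rw [norm_smul, Real.norm_eq_abs] at h3
  rw [hhalf] at h1
  have hgsq := fderiv_norm_sq_le φ (c + x.1 + x.2)
  have hηx := hηE x
  have hdx := hdE x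
  rw [hsp, ← hzz]
  unfold sden
  have hgs0 := gsq_nonneg φ (c + (x.1 : Cfg N) + (x.2 : Cfg N))
  have p1 := norm_nonneg (dcharge b M G g m α φ (c + x.1 + x.2))
  have p2 := norm_nonneg (φ (c + x.1 + x.2))
  have p3 := norm_nonneg (fderiv ℝ φ (c + x.1 + x.2))
  have p4 := norm_nonneg (x.2 : Cfg N)
  have p5 := norm_nonneg (fderiv ℝ (half b c η φ) x)
  have p6 := norm_nonneg (fderiv ℝ η x)
  have p7 := abs_nonneg (η x)
  have p8 := norm_nonneg (AB b M G g m α c e v t (half b c η φ) x)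
  generalize ‖AB b M G g m α c e v t (half b c η φ) x‖ = A at *
  generalize ‖η x • dcharge b M G g m α φ (c + x.1 + x.2) -
        AB b M G g m α c e v t (half b c η φ) x‖ = D0 at *
  generalize ‖dcharge b M G g m α φ (c + x.1 + x.2)‖ = q at *
  generalize ‖φ (c + x.1 + x.2)‖ = P at *
  generalize ‖fderiv ℝ φ (c + x.1 + x.2)‖ = D at *
  generalize gsq φ (c + (x.1 : Cfg N) + (x.2 : Cfg N)) = W at *
  generalize ‖(x.2 : Cfg N)‖ = Z at *
  generalize ‖fderiv ℝ (half b c η φ) x‖ = Q at *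
  generalize ‖fderiv ℝ η x‖ = L at *
  generalize |η x| = S at *
  have k1 : Z * Q ≤ Z * (E * (D * Λ)) + s * (E * P) := by
    have a1 : Q ≤ E * (D * Λ) + E * P :=
      h2.trans (add_le_add (mul_le_mul_of_nonneg_right hηx (by positivity))
        (mul_le_mul_of_nonneg_right hdx p2))
    calc Z * Q ≤ Z * (E * (D * Λ) + E * P) := mul_le_mul_of_nonneg_left a1 p4
      _ = Z * (E * (D * Λ)) + Z * (E * P) := by ring
      _ ≤ Z * (E * (D * Λ)) + s * (E * P) := by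
          have : Z * (E * P) ≤ s * (E * P) := mul_le_mul_of_nonneg_right hZs (by positivity)
          linarith
  have hg0 : 0 ≤ g := by linarith
  have k2 : g * Z ^ 2 * (S * P) ≤ E * (g * Z ^ 2 * P) := by
    have : g * Z ^ 2 * (S * P) ≤ g * Z ^ 2 * (E * P) :=
      mul_le_mul_of_nonneg_left (mul_le_mul_of_nonneg_right hηx p2) (by positivity)
    linarith
  have k3 : (S + L) * P ≤ 2 * E * P := mul_le_mul_of_nonneg_right (by linarith) p2
  have k4 : A ≤ E * q + C1 * ((2 + s) * E) * P + C1 * (E * Λ) * (Z * D) +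
      C1 * E * (g * Z ^ 2 * P) := by
    have a1 : S * q ≤ E * q := mul_le_mul_of_nonneg_right hηx p1
    have a2 : C1 * ((S + L) * P + Z * Q + g * Z ^ 2 * (S * P)) ≤
        C1 * (2 * E * P + (Z * (E * (D * Λ)) + s * (E * P)) + E * (g * Z ^ 2 * P)) :=
      mul_le_mul_of_nonneg_left (add_le_add (add_le_add k3 k1) k2) hC1
    calc A ≤ S * q + D0 := h3
      _ ≤ E * q + C1 * (2 * E * P + (Z * (E * (D * Λ)) + s * (E * P)) +
          E * (g * Z ^ 2 * P)) := add_le_add a1 (h1.trans a2)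
      _ = _ := by ring
  have k5 : A ^ 2 ≤ 4 * ((E * q) ^ 2 + (C1 * ((2 + s) * E) * P) ^ 2 +
      (C1 * (E * Λ) * (Z * D)) ^ 2 + (C1 * E * (g * Z ^ 2 * P)) ^ 2) := by
    refine (pow_le_pow_left₀ p8 k4 2).trans ?_
    generalize E * q = x1
    generalize C1 * ((2 + s) * E) * P = x2
    generalize C1 * (E * Λ) * (Z * D) = x3
    generalize C1 * E * (g * Z ^ 2 * P) = x4
    nlinarith [sq_nonneg (x1 - x2), sq_nonneg (x1 - x3), sq_nonneg (x1 - x4),
      sq_nonneg (x2 - x3), sq_nonneg (x2 - x4), sq_nonneg (x3 - x4)]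
  refine k5.trans ?_
  have hW : (Z * D) ^ 2 ≤ Z ^ 2 * W := by
    rw [mul_pow]
    exact mul_le_mul_of_nonneg_left hgsq (sq_nonneg _)
  have hginv : 0 ≤ g⁻¹ := inv_nonneg.2 hg0
  set S0 : ℝ := q ^ 2 + P ^ 2 + (Z ^ 2 * W + g ^ 2 * (Z ^ 4 * P ^ 2) + g * (Z ^ 2 * P ^ 2) +
    g⁻¹ * W) with hS0
  have z1 : 0 ≤ Z ^ 2 * W := by positivity
  have z2 : 0 ≤ g ^ 2 * (Z ^ 4 * P ^ 2) := by positivity
  have z3 : 0 ≤ g * (Z ^ 2 * P ^ 2) := by positivity
  have z4 : 0 ≤ g⁻¹ * W := by positivity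
  have z5 : 0 ≤ q ^ 2 := sq_nonneg _
  have z6 : 0 ≤ P ^ 2 := sq_nonneg _
  have b1 : q ^ 2 ≤ S0 := by linarith
  have b2 : P ^ 2 ≤ S0 := by linarith
  have b3 : (Z * D) ^ 2 ≤ S0 := by linarith
  have b4 : (g * Z ^ 2 * P) ^ 2 ≤ S0 := by
    have : (g * Z ^ 2 * P) ^ 2 = g ^ 2 * (Z ^ 4 * P ^ 2) := by ring
    rw [this]
    linarith
  have c1 : (E * q) ^ 2 ≤ E ^ 2 * S0 := by
    rw [mul_pow]; exact mul_le_mul_of_nonneg_left b1 (sq_nonneg _)
  have c2 : (C1 * ((2 + s) * E) * P) ^ 2 ≤ (C1 * ((2 + s) * E)) ^ 2 * S0 := by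
    rw [mul_pow]; exact mul_le_mul_of_nonneg_left b2 (sq_nonneg _)
  have c3 : (C1 * (E * Λ) * (Z * D)) ^ 2 ≤ (C1 * (E * Λ)) ^ 2 * S0 := by
    rw [mul_pow (C1 * (E * Λ))]; exact mul_le_mul_of_nonneg_left b3 (sq_nonneg _)
  have c4 : (C1 * E * (g * Z ^ 2 * P)) ^ 2 ≤ (C1 * E) ^ 2 * S0 := by
    rw [mul_pow (C1 * E)]; exact mul_le_mul_of_nonneg_left b4 (sq_nonneg _)
  calc 4 * ((E * q) ^ 2 + (C1 * ((2 + s) * E) * P) ^ 2 +
      (C1 * (E * Λ) * (Z * D)) ^ 2 + (C1 * E * (g * Z ^ 2 * P)) ^ 2)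
      ≤ 4 * (E ^ 2 * S0 + (C1 * ((2 + s) * E)) ^ 2 * S0 + (C1 * (E * Λ)) ^ 2 * S0 +
        (C1 * E) ^ 2 * S0) := by linarith
    _ = _ := by ring

end pw

/-! ### 4. Lemma R, part 2 -/

theorem exists_bounds {E : Type*} [NormedAddCommGroup E] [NormedSpace ℝ E] {η : E → ℝ}
    (hη : ContDiff ℝ ∞ η) (hηc : HasCompactSupport η) :
    ∃ C : ℝ, 0 ≤ C ∧ (∀ x, |η x| ≤ C) ∧ ∀ x, ‖fderiv ℝ η x‖ ≤ C := by
  obtain ⟨E1, hE1⟩ := hηc.exists_bound_of_continuous hη.continuous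
  obtain ⟨E2, hE2⟩ := (hηc.fderiv ℝ).exists_bound_of_continuous (hη.continuous_fderiv (by simp))
  exact ⟨max 0 (max E1 E2), le_max_left _ _,
      fun x => (hE1 x).trans ((le_max_left _ _).trans (le_max_right _ _)),
      fun x => (hE2 x).trans ((le_max_right _ _).trans (le_max_right _ _))⟩

theorem eventually_zero {c : Cfg N} {b : ColorBasis N} {s s' : ℝ} (hs0 : 0 < s) (hss : s < s')
    {η : Sc b c → ℝ} (hηs : ∀ x, s ^ 2 ≤ ‖x.1‖ ^ 2 + ‖x.2‖ ^ 2 → η x = 0) {x : Sc b c}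
    (hx : x ∉ Tb b c s') : η =ᶠ[𝓝 x] fun _ => 0 := by
  have h1 : s' ^ 2 ≤ ‖x.1‖ ^ 2 + ‖x.2‖ ^ 2 := not_lt.1 hx
  have h2 : s ^ 2 < s' ^ 2 := pow_lt_pow_left₀ hss hs0.le two_ne_zero
  have h3 : Continuous fun y : Sc b c => ‖y.1‖ ^ 2 + ‖y.2‖ ^ 2 := by fun_prop
  filter_upwards [(h3.tendsto x).eventually_const_lt (h2.trans_le h1)] with y hy
  exact hηs y hy.le

/-- one charge, given the pointwise bound -/
theorem R2_one {b : ColorBasis N} {c : Cfg N} {μ : Measure (Sc b c)} {T : Set (Sc b c)}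
    (hT : MeasurableSet T) {f : Sc b c → F} {q P S : Sc b c → ℝ} {K a1 a2 a3 : ℝ} (hK : 0 ≤ K)
    (hf : ∀ x ∈ T, ‖f x‖ ^ 2 ≤ K * (q x + P x + S x)) (hf0 : ∀ x, x ∉ T → f x = 0)
    (h1 : Integrable q (μ.restrict T) ∧ ∫ x, q x ∂(μ.restrict T) ≤ a1)
    (h2 : Integrable P (μ.restrict T) ∧ ∫ x, P x ∂(μ.restrict T) ≤ a2)
    (h3 : Integrable S (μ.restrict T) ∧ ∫ x, S x ∂(μ.restrict T) ≤ a3) :
    ∫ x, ‖f x‖ ^ 2 ∂μ ≤ K * (a1 + a2 + a3) := by
  have h4 : ∫ x, ‖f x‖ ^ 2 ∂μ ≤ ∫ x, T.indicator (fun x => K * (q x + P x + S x)) x ∂μ := by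
    refine integral_mono_of_nonneg (Eventually.of_forall fun x => by positivity) ?_
      (Eventually.of_forall fun x => ?_)
    · rw [integrable_indicator_iff hT]
      exact ((h1.1.add h2.1).add h3.1).const_mul K
    · simp only
      by_cases hx : x ∈ T
      · rw [Set.indicator_of_mem hx]
        exact hf x hx
      · rw [Set.indicator_of_notMem hx, hf0 x hx]
        simp
  rw [integral_indicator hT] at h4
  refine h4.trans ?_
  have i12 : Integrable (fun x => q x + P x) (μ.restrict T) := h1.1.add h2.1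
  rw [integral_const_mul, integral_add i12 h3.1, integral_add h1.1 h2.1]
  exact mul_le_mul_of_nonneg_left (add_le_add (add_le_add h1.2 h2.2) h3.2) hK

/-- the arithmetic at the end -/
theorem arith_end {q q' n n' K C₀ Cm Cc E : ℝ} (hK : 0 ≤ K) (hC₀ : 0 ≤ C₀) (hCm : 0 ≤ Cm)
    (hCc : 0 ≤ Cc) (hq : 0 ≤ q) (hq' : 0 ≤ q') (hn : 0 ≤ n) (hn' : 0 ≤ n') (h1 : n' ≤ n)
    (h2 : q' ≤ 2 * q + Cc * n) :
    K * (C₀ * (16 * q') + 16 * (C₀ * n') + 16 * (Cm * (q' + n'))) ≤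
      (K * (C₀ * 16 + 16 * C₀ + 16 * Cm) * (2 + Cc + 1) + E ^ 2 * C₀) * (q + n) := by
  have t1 : C₀ * (16 * q') + 16 * (C₀ * n') + 16 * (Cm * (q' + n')) ≤
      (C₀ * 16 + 16 * C₀ + 16 * Cm) * (q' + n') := by
    nlinarith [mul_nonneg hC₀ hq', mul_nonneg hC₀ hn']
  have t2 : q' + n' ≤ (2 + Cc + 1) * (q + n) := by
    nlinarith [mul_nonneg hCc hq]
  calc K * (C₀ * (16 * q') + 16 * (C₀ * n') + 16 * (Cm * (q' + n')))
      ≤ K * ((C₀ * 16 + 16 * C₀ + 16 * Cm) * ((2 + Cc + 1) * (q + n))) := by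
        refine mul_le_mul_of_nonneg_left (t1.trans ?_) hK
        exact mul_le_mul_of_nonneg_left t2 (by positivity)
    _ = K * (C₀ * 16 + 16 * C₀ + 16 * Cm) * (2 + Cc + 1) * (q + n) := by ring
    _ ≤ _ := by
        refine mul_le_mul_of_nonneg_right ?_ (by positivity)
        have : 0 ≤ E ^ 2 * C₀ := by positivity
        linarith

theorem sum_end {b : ColorBasis N} {M : FermionRep N F} {G : GammaNine} {g m : ℝ}
    {φ : Cfg N → F} {X : Fin 16 → ℝ} {K C₀ Y Z : ℝ}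
    (h : ∀ α, X α ≤ K * (C₀ * (∫ x, ‖dcharge b M G g m α φ x‖ ^ 2) + Y + Z)) :
    ∑ α, X α ≤ K * (C₀ * (16 * qf b M G g m φ) + 16 * Y + 16 * Z) := by
  refine (Finset.sum_le_sum fun α _ => h α).trans (le_of_eq ?_)
  have hsum : ∑ α : Fin 16, ∫ x, ‖dcharge b M G g m α φ x‖ ^ 2 = 16 * qf b M G g m φ := by
    unfold qf
    ring
  rw [← hsum, ← Finset.mul_sum, Finset.sum_add_distrib, Finset.sum_add_distrib,
    ← Finset.mul_sum, Finset.sum_const, Finset.sum_const, Finset.card_univ, Fintype.card_fin]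
  simp only [nsmul_eq_mul]
  push_cast
  ring

/-- **(R2)**: the charge of `Φ = η • φ(c + ·)` in slice coordinates. -/
theorem R2 {b : ColorBasis N} {M : FermionRep N F} (R : GaugeAction b M) (G : GammaNine)
    {c : Cfg N} (hc : Comc b c) {r B : ℝ} (hr0 : 0 < r) (hr : GapAt (actB b) c r)
    (hB : ActBound (actB b) B) (hB0 : 0 < B) {r0 C0 : ℝ} (H : SlM712.SRad b c r0 C0)
    (μU : Measure (Uk b c)) [μU.IsAddHaarMeasure] (μZ : Measure (Zs b c))
    [μZ.IsAddHaarMeasure] {s s' : ℝ} (hs0 : 0 < s) (hss : s < s') (hsr : s' ≤ r0)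
    (hBs : B * s' ≤ r / 2) (h56 : 56 * s' ^ 2 ≤ r ^ 2)
    {η : Sc b c → ℝ} (hη : ContDiff ℝ ∞ η) (hηc : HasCompactSupport η)
    (hηs : ∀ x, s ^ 2 ≤ ‖x.1‖ ^ 2 + ‖x.2‖ ^ 2 → η x = 0) :
    ∃ C : ℝ, 0 ≤ C ∧ ∀ g m : ℝ, 1 ≤ g → 0 ≤ m → m ≤ 1 → ∀ φ : Cfg N → F, IsCoreVec b R φ →
      (∀ (ι κ κ' : Type) [Fintype ι] [Fintype κ] [Fintype κ']
        (e : OrthonormalBasis ι ℝ (Uk b c)) (v : OrthonormalBasis κ ℝ (Zs b c))
        (t : OrthonormalBasis κ' ℝ (Tn (actB b) c)),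
        ∑ α, ∫ x, ‖Aop b c M G g m α e (half b c η φ) x +
          Bop b c M G g α v t (half b c η φ) x‖ ^ 2 ∂(μU.prod μZ) ≤
          C * (qf b M G g m φ + ∫ x, ‖φ x‖ ^ 2)) ∧
      ∫ x, ‖half b c η φ x‖ ^ 2 ∂(μU.prod μZ) ≤ C * ∫ x, ‖φ x‖ ^ 2 := by
  have hs'0 : 0 < s' := hs0.trans hss
  -- bounds of `η`
  obtain ⟨E, hE0, hηE, hdE⟩ := exists_bounds hη hηc
  have hηd : Differentiable ℝ η := hη.differentiable (by simp)
  -- the cut-off
  obtain ⟨L, hL, hcL⟩ : ∃ L : ℝ, 0 < L ∧ ‖c‖ + s' ≤ L / 2 :=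
    ⟨2 * (‖c‖ + s' + 1), by positivity, by linarith⟩
  obtain ⟨Cc, hCc, hcut⟩ := qf_cut b M R G hL
  obtain ⟨K, hK, hAB⟩ := AB_le b M R G hc hr0 hr hB hB0 hs'0.le hBs hE0
  obtain ⟨C₀, hC₀, hSl⟩ := sliceLe_Tb μU μZ H hs'0.le hsr
  obtain ⟨Cm, hCm, hmom⟩ := moment_slice R G hc hr0 hr (ρ := L) (K := 1) hL.le zero_le_one hC₀
  have hν56 : ∀ᵐ p ∂((μU.prod μZ).restrict (Tb b c s')), 56 * (‖p.1‖ ^ 2 + ‖p.2‖ ^ 2) ≤ r ^ 2 := by
    rw [ae_restrict_iff' (measurableSet_Tb s')]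
    refine Eventually.of_forall fun p hp => ?_
    have : ‖p.1‖ ^ 2 + ‖p.2‖ ^ 2 < s' ^ 2 := hp
    linarith
  refine ⟨K * (C₀ * 16 + 16 * C₀ + 16 * Cm) * (2 + Cc + 1) + E ^ 2 * C₀, by positivity,
    fun g m hg hm hm1 φ hφ => ?_⟩
  obtain ⟨φ', hφ'⟩ : ∃ φ' : Cfg N → F, φ' = fun y => cut L y • φ y := ⟨_, rfl⟩
  have hφc : IsCoreVec b R φ' := by rw [hφ']; exact core_cut L hφ
  have hhalf : half b c η φ = half b c η φ' := by
    funext x
    unfold half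
    by_cases hx : x ∈ Tb b c s'
    · have h1 := norm_lt_of_mem hs'0.le hx
      have h2 : ‖c + (x.1 : Cfg N) + (x.2 : Cfg N)‖ ≤ L / 2 := by
        rw [add_assoc]
        refine (norm_add_le _ _).trans ?_
        linarith
      rw [hφ']
      simp only
      rw [cut_one hL h2, one_smul]
    · rw [(eventually_zero hs0 hss hηs hx).self_of_nhds, zero_smul, zero_smul]
  have hm2 : m ^ 2 ≤ 1 * g := by nlinarith
  have hmass : ∫ x, ‖φ' x‖ ^ 2 ≤ ∫ x, ‖φ x‖ ^ 2 := by rw [hφ']; exact mass_cut L hφ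
  have hqf : qf b M G g m φ' ≤ 2 * qf b M G g m φ + Cc * ∫ x, ‖φ x‖ ^ 2 := by
    rw [hφ']; exact hcut g m φ hφ
  have hm0 : 0 ≤ ∫ x, ‖φ x‖ ^ 2 := integral_nonneg fun x => by positivity
  have hm0' : 0 ≤ ∫ x, ‖φ' x‖ ^ 2 := integral_nonneg fun x => by positivity
  have h3 := hmom _ hSl hν56 g m hg hm hm2 φ' hφc.1 hφc.2.2 (fun x hx => by
    rw [hφ']
    simp only
    rw [cut_zero hL hx.le, zero_smul])
  have h2 := slice_sq hC₀ hSl hφc
  rw [hhalf]
  clear hhalf hν56 hmom hcut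
  refine ⟨fun ι κ κ' _ _ _ e v t => ?_, ?_⟩
  · refine (sum_end (b := b) (M := M) (G := G) (g := g) (m := m) (φ := φ') (K := K) (C₀ := C₀)
      (Y := C₀ * ∫ x, ‖φ' x‖ ^ 2) (Z := Cm * (qf b M G g m φ' + ∫ x, ‖φ' x‖ ^ 2))
      fun α => ?_).trans (arith_end hK hC₀ hCm hCc (qf_nonneg b M G g m φ)
        (qf_nonneg b M G g m φ') hm0 hm0' hmass hqf)
    have h1 := slice_sq hC₀ hSl (Brid837.core_dcharge (G := G) (g := g) (m := m) (α := α) hφc)
    refine R2_one (measurableSet_Tb s') hK (fun x hx => ?_) (fun x hx => ?_) h1 h2 h3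
    · exact hAB η hηd hηE hdE g m hg hm hm1 α ι κ κ' e v t φ' hφc x hx
    · have h5 : AB b M G g m α c e v t (half b c η φ') x = 0 := by
        refine AB_zero ?_
        filter_upwards [eventually_zero hs0 hss hηs hx] with y hy
        unfold half
        rw [hy, zero_smul]
      exact h5
  · have h4 : ∫ x, ‖half b c η φ' x‖ ^ 2 ∂(μU.prod μZ) ≤ E ^ 2 * (C₀ * (∫ x, ‖φ' x‖ ^ 2) + 0 + 0) := by
      refine R2_one (measurableSet_Tb s') (sq_nonneg E) (P := fun _ => 0) (S := fun _ => 0)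
        (fun x hx => ?_) (fun x hx => ?_) h2 ⟨integrable_zero _ _ _, by simp⟩
        ⟨integrable_zero _ _ _, by simp⟩
      · unfold half
        rw [norm_smul, Real.norm_eq_abs, mul_pow, add_zero, add_zero]
        exact mul_le_mul_of_nonneg_right (pow_le_pow_left₀ (abs_nonneg _) (hηE x) 2)
          (sq_nonneg _)
      · unfold half
        rw [(eventually_zero hs0 hss hηs hx).self_of_nhds, zero_smul]
    refine h4.trans ?_
    calc E ^ 2 * (C₀ * (∫ x, ‖φ' x‖ ^ 2) + 0 + 0)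
        ≤ E ^ 2 * (C₀ * ∫ x, ‖φ x‖ ^ 2) := by
          rw [add_zero, add_zero]
          gcongr
      _ = E ^ 2 * C₀ * ∫ x, ‖φ x‖ ^ 2 := by ring
      _ ≤ _ := by
          refine mul_le_mul_of_nonneg_right ?_ hm0
          have : 0 ≤ K * (C₀ * 16 + 16 * C₀ + 16 * Cm) * (2 + Cc + 1) := by positivity
          linarith

/-- **(R2)** with a radius: the form of 342. -/
theorem R2' {b : ColorBasis N} {M : FermionRep N F} (R : GaugeAction b M) (G : GammaNine)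
    {c : Cfg N} (hc : Comc b c) {r B : ℝ} (hr0 : 0 < r) (hr : GapAt (actB b) c r)
    (hB : ActBound (actB b) B) (hB0 : 0 < B) {r0 C0 : ℝ} (H : SlM712.SRad b c r0 C0) :
    ∃ s : ℝ, 0 < s ∧ s ≤ r0 ∧ B * s ≤ r / 2 ∧ 56 * s ^ 2 ≤ r ^ 2 ∧
    ∀ η : Sc b c → ℝ, ContDiff ℝ ∞ η → HasCompactSupport η →
      (∀ x, s ^ 2 ≤ ‖x.1‖ ^ 2 + ‖x.2‖ ^ 2 → η x = 0) →
    ∃ C : ℝ, 0 ≤ C ∧ ∀ g m : ℝ, 1 ≤ g → 0 ≤ m → m ≤ 1 → ∀ φ : Cfg N → F, IsCoreVec b R φ →
      (∀ (ι κ κ' : Type) [Fintype ι] [Fintype κ] [Fintype κ']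
        (e : OrthonormalBasis ι ℝ (Uk b c)) (v : OrthonormalBasis κ ℝ (Zs b c))
        (t : OrthonormalBasis κ' ℝ (Tn (actB b) c)),
        ∑ α, ∫ x, ‖Aop b c M G g m α e (half b c η φ) x +
          Bop b c M G g α v t (half b c η φ) x‖ ^ 2 ∂(volume.prod volume) ≤
          C * (qf b M G g m φ + ∫ x, ‖φ x‖ ^ 2)) ∧
      ∫ x, ‖half b c η φ x‖ ^ 2 ∂(volume.prod volume) ≤ C * ∫ x, ‖φ x‖ ^ 2 := by
  set s' : ℝ := min r0 (min (r / (2 * B)) (r / 8)) with hs'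
  have h0 : 0 < s' := lt_min H.pos (lt_min (by positivity) (by positivity))
  have h1 : s' ≤ r0 := min_le_left _ _
  have h2 : B * s' ≤ r / 2 := by
    have : s' ≤ r / (2 * B) := (min_le_right _ _).trans (min_le_left _ _)
    calc B * s' ≤ B * (r / (2 * B)) := mul_le_mul_of_nonneg_left this hB0.le
      _ = r / 2 := by field_simp
  have h3 : 56 * s' ^ 2 ≤ r ^ 2 := by
    have : s' ≤ r / 8 := (min_le_right _ _).trans (min_le_right _ _)
    have h4 : s' ^ 2 ≤ (r / 8) ^ 2 := pow_le_pow_left₀ h0.le this 2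
    nlinarith [sq_nonneg r]
  refine ⟨s' / 2, by positivity, by linarith, by nlinarith, by nlinarith [sq_nonneg s'], ?_⟩
  intro η hη hηc hηs
  exact R2 R G hc hr0 hr hB hB0 H volume volume (s := s' / 2) (s' := s') (by positivity)
    (by linarith) h1 h2 h3 hη hηc hηs

end Crest.Agent.R330.LemR2302

end
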