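import Crest.Agent.R330.PairE2_547

-- ▼ part R330/PairE3_547
section

/-!
# Row 330, S8-PAIR (P3): pointwise bounds of the error list (helper547)
-/

set_option autoImplicit false
set_option linter.unusedSectionVars false

open MeasureTheory Filter Topology
open scoped ContDiff InnerProductSpace

noncomputable section

namespace Crest.Agent.R330.PairE547

open Crest.Agent.R330.Frame839 Crest.Agent.R330.IBP837 Crest.Agent.R330.PairA547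
  Crest.Agent.R330.PairB547

variable {V E : Type*} [NormedAddCommGroup V] [InnerProductSpace ℝ V] [FiniteDimensional ℝ V]
  [NormedAddCommGroup E] [InnerProductSpace ℝ E] [FiniteDimensional ℝ E]
  {F : Type*} [NormedAddCommGroup F] [InnerProductSpace ℂ F] [FiniteDimensional ℂ F]
  {ι κ η : Type*} [Fintype ι] [Fintype κ] [Fintype η]

variable {A : V →L[ℝ] E →L[ℝ] E} {c : E} {L Z : Submodule ℝ E} {r B ρ K : ℝ}
  {Θ : E →ₗ[ℝ] (F →ₗ[ℂ] F)} {Wq : E →ₗ[ℝ] E →ₗ[ℝ] (F →ₗ[ℂ] F)}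
  {Wl : E →ₗ[ℝ] (F →ₗ[ℂ] F)} {Bf : V →ₗ[ℝ] (F →ₗ[ℝ] F)} {Γ : F →ₗ[ℂ] F} {PX : L →ₗ[ℝ] E}

theorem norm_I_one : ‖Complex.I‖ = 1 := Complex.norm_I

theorem norm_negI_one : ‖(-Complex.I)‖ = 1 := by rw [norm_neg, Complex.norm_I]

theorem sum_bound {S : Type*} [Fintype S] (hC : Cst Θ Wq Wl Bf K) {ζ : ℂ} (hζ : ‖ζ‖ = 1)
    {e : S → E} (he : ∀ s, ‖e s‖ = 1) {f : S → F} {M : ℝ} (hf : ∀ s, ‖f s‖ ≤ M) :
    ‖∑ s, ζ • Θ (e s) (f s)‖ ≤ Fintype.card S * (K * M) := by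
  refine (norm_sum_le _ _).trans ?_
  have h1 : ∀ s ∈ (Finset.univ : Finset S), ‖ζ • Θ (e s) (f s)‖ ≤ K * M := by
    intro s _
    rw [norm_smul, hζ, one_mul]
    refine (hC.Th _ _).trans ?_
    rw [he s, mul_one]
    exact mul_le_mul_of_nonneg_left (hf s) hC.K0
  refine (Finset.sum_le_sum h1).trans ?_
  rw [Finset.sum_const, Finset.card_univ, nsmul_eq_mul]

/-! ## Geometry -/

theorem Geo.dom (hG : Geo A c L Z PX r B ρ) {p : L} {z : Z} (hp : ‖p‖ ≤ ρ) (hz : ‖z‖ ≤ ρ) :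
    B * ‖(p : E) + z‖ ≤ r / 2 := by
  refine le_trans ?_ hG.small
  refine mul_le_mul_of_nonneg_left ?_ hG.B0.le
  refine (norm_add_le _ _).trans ?_
  have h1 : ‖(p : E)‖ ≤ ρ := hp
  have h2 : ‖(z : E)‖ ≤ ρ := hz
  linarith

theorem Geo.domL (hG : Geo A c L Z PX r B ρ) {p : L} (hp : ‖p‖ ≤ ρ) : B * ‖p‖ ≤ r / 2 := by
  have h := hG.dom (z := 0) hp (by rw [norm_zero]; exact hG.ρ0.le)
  simpa using h

theorem Geo.domX (hG : Geo A c L Z PX r B ρ) {p : L} (hp : ‖p‖ ≤ ρ) : B * ‖PX p‖ ≤ r / 2 :=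
  (mul_le_mul_of_nonneg_left (hG.PX_le p) hG.B0.le).trans (hG.domL hp)

theorem add_sub_c (c y : E) : c + y - c = y := by abel

/-- `‖P_L nn (c+p+z)‖ ≤ (4B/r) ‖z‖` -/
theorem Geo.nP_fst (hG : Geo A c L Z PX r B ρ) (t : Tn A c) (ht : ‖t‖ = 1) {x : L × Z}
    (hp : ‖x.1‖ ≤ ρ) (hz : ‖x.2‖ ≤ ρ) : ‖(nP A c L Z t x).1‖ ≤ 4 * B / r * ‖x.2‖ := by
  have hx := hG.dom hp hz
  have hx' : B * ‖(c + x.1 + x.2 : E) - c‖ ≤ r / 2 := by
    rw [show (c + x.1 + x.2 : E) - c = x.1 + x.2 by abel]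
    exact hx
  have hy' : B * ‖(c + x.1 : E) - c‖ ≤ r / 2 := by
    rw [add_sub_c]
    exact hG.domL hp
  have h0 : L.orthogonalProjectionOnto (nn A c (c + x.1) t) = 0 := by
    refine Submodule.orthogonalProjection_mem_subspace_orthogonalComplement_eq_zero ?_
    refine (Submodule.mem_orthogonal _ _).2 fun w hw => ?_
    exact hG.dec.orth w hw _ (hG.nnZ x.1 (hG.domL hp) t)
  have h1 : (nP A c L Z t x).1 =
      L.orthogonalProjectionOnto (nn A c (c + x.1 + x.2) t - nn A c (c + x.1) t) := by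
    rw [map_sub, h0, sub_zero]
    rfl
  rw [h1]
  have h2 : ‖L.orthogonalProjectionOnto (nn A c (c + x.1 + x.2) t - nn A c (c + x.1) t)‖ ≤
      ‖nn A c (c + x.1 + x.2) t - nn A c (c + x.1) t‖ :=
    Submodule.norm_orthogonalProjectionOnto_apply_le L _
  refine h2.trans ((nn_sub_bound hG.r0 hG.gap hG.act hG.B0.le hx' hy' t).trans ?_)
  rw [ht, mul_one, show (c + x.1 + x.2 : E) - (c + x.1) = x.2 by abel]
  exact le_of_eq rfl

/-- `‖P_Z nn (c+p+z) - nZ‖ ≤ (4B/r) (‖Y‖ + ‖z‖)` -/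
theorem Geo.nP_snd (hG : Geo A c L Z PX r B ρ) (t : Tn A c) (ht : ‖t‖ = 1) {x : L × Z}
    (hp : ‖x.1‖ ≤ ρ) (hz : ‖x.2‖ ≤ ρ) :
    ‖(nP A c L Z t x).2 - nZ A c L Z PX t x.1‖ ≤
      4 * B / r * (‖(x.1 : E) - PX x.1‖ + ‖x.2‖) := by
  have hx := hG.dom hp hz
  have hx' : B * ‖(c + x.1 + x.2 : E) - c‖ ≤ r / 2 := by
    rw [show (c + x.1 + x.2 : E) - c = x.1 + x.2 by abel]
    exact hx
  have hy' : B * ‖(c + PX x.1 : E) - c‖ ≤ r / 2 := by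
    rw [add_sub_c]
    exact hG.domX hp
  have h1 : (nP A c L Z t x).2 - nZ A c L Z PX t x.1 =
      Z.orthogonalProjectionOnto (nn A c (c + x.1 + x.2) t - nn A c (c + PX x.1) t) := by
    rw [map_sub]
    rfl
  rw [h1]
  have h2 : ‖Z.orthogonalProjectionOnto (nn A c (c + x.1 + x.2) t - nn A c (c + PX x.1) t)‖ ≤
      ‖nn A c (c + x.1 + x.2) t - nn A c (c + PX x.1) t‖ :=
    Submodule.norm_orthogonalProjectionOnto_apply_le Z _
  refine h2.trans ((nn_sub_bound hG.r0 hG.gap hG.act hG.B0.le hx' hy' t).trans ?_)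
  rw [ht, mul_one]
  have h0 := hG.B0.le
  have hr := hG.r0.le
  gcongr
  rw [show (c + x.1 + x.2 : E) - (c + PX x.1) = ((x.1 : E) - PX x.1) + x.2 by abel]
  exact norm_add_le _ _

theorem Geo.nZ_le (hG : Geo A c L Z PX r B ρ) (t : Tn A c) (ht : ‖t‖ = 1) {p : L}
    (hp : ‖p‖ ≤ ρ) : ‖nZ A c L Z PX t p‖ ≤ 1 := by
  have hy' : B * ‖(c + PX p : E) - c‖ ≤ r / 2 := by
    rw [add_sub_c]
    exact hG.domX hp
  have h2 : ‖nZ A c L Z PX t p‖ ≤ ‖nn A c (c + PX p) t‖ :=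
    Submodule.norm_orthogonalProjectionOnto_apply_le Z _
  refine h2.trans ((nn_bound hG.r0 hG.gap hG.act hG.B0.le hy' t).trans ?_)
  rw [ht, mul_one, add_sub_c]
  rw [add_sub_c] at hy'
  have hr := hG.r0
  calc 2 * B / r * ‖PX p‖ = 2 / r * (B * ‖PX p‖) := by ring
    _ ≤ 2 / r * (r / 2) := by gcongr
    _ = 1 := by field_simp

/-- The divergence is bounded. -/
theorem exists_dvP_bound (hG : Geo A c L Z PX r B ρ) (eT : OrthonormalBasis η ℝ (Tn A c))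
    (u : OrthonormalBasis ι ℝ L) (v : OrthonormalBasis κ ℝ Z) :
    ∃ Cd : ℝ, 0 ≤ Cd ∧ ∀ (t : η) (x : L × Z), ‖x.1‖ ≤ ρ → ‖x.2‖ ≤ ρ →
      |dvP hG.dec eT u v t x| ≤ Cd := by
  have hcp : IsCompact {w : (Tn A c)ᗮ | B * ‖w‖ ≤ r / 2} := by
    have h1 : {w : (Tn A c)ᗮ | B * ‖w‖ ≤ r / 2} = Metric.closedBall 0 (r / 2 / B) := by
      ext w
      rw [Set.mem_setOf_eq, mem_closedBall_zero_iff, le_div_iff₀ hG.B0, mul_comm]
    rw [h1]
    exact isCompact_closedBall _ _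
  have h2 : ∀ (t : η) (n : ι ⊕ κ), ∃ C, ∀ w ∈ {w : (Tn A c)ᗮ | B * ‖w‖ ≤ r / 2},
      ‖fderiv ℝ (cf A c eT (norB hG.dec u v) n t) w (norB hG.dec u v n)‖ ≤ C := by
    intro t n
    refine hcp.exists_bound_of_continuousOn ?_
    intro w hw
    have h3 := contDiffAt_cf hG.r0 hG.gap hG.act eT (norB hG.dec u v) n t (u := w) hw
    have h4 : ContinuousAt (fderiv ℝ (cf A c eT (norB hG.dec u v) n t)) w :=
      (h3.fderiv_right (m := 0) (by simp)).continuousAt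
    exact (h4.clm_apply continuousAt_const).continuousWithinAt
  choose C hC using h2
  refine ⟨∑ t, ∑ n, |C t n|, by positivity, fun t x hp hz => ?_⟩
  have hx : B * ‖eLZ hG.dec x‖ ≤ r / 2 := hG.dom hp hz
  unfold dvP
  refine (Finset.abs_sum_le_sum_abs _ _).trans ?_
  refine le_trans ?_ (Finset.single_le_sum (f := fun t => ∑ n, |C t n|)
    (fun _ _ => by positivity) (Finset.mem_univ t))
  exact Finset.sum_le_sum fun n _ => (hC t n _ hx).trans (le_abs_self _)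

/-! ## The pieces -/

theorem EV_bound (hC : Cst Θ Wq Wl Bf K) (u : OrthonormalBasis ι ℝ L) {a : L × Z → ℝ}
    {ψ : L → F} {x : L × Z} {M : ℝ} (hM : ∀ s, |fderiv ℝ a x (u s, 0)| ≤ M) :
    ‖EV Θ u a ψ x‖ ≤ Fintype.card ι * (K * (M * ‖ψ x.1‖)) := by
  unfold EV
  refine sum_bound (e := fun s => (u s : E)) hC norm_negI_one (fun s => u.orthonormal.1 s)
    fun s => ?_
  rw [norm_smul]
  exact mul_le_mul_of_nonneg_right (hM s) (norm_nonneg _)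

theorem MX_bound (hG : Geo A c L Z PX r B ρ) (hC : Cst Θ Wq Wl Bf K)
    (eT : OrthonormalBasis η ℝ (Tn A c)) {g : ℝ} (hg : 0 ≤ g) {y : E} (hy : B * ‖y‖ ≤ r / 2)
    (z : Z) (f : F) : ‖MX A c Z Θ Wq Bf eT g y z f‖ ≤
      (Fintype.card η * (K * (2 / r) * K) + K * (g * ‖z‖ ^ 2)) * ‖f‖ := by
  unfold MX
  have hy' : B * ‖(c + y : E) - c‖ ≤ r / 2 := by
    rw [add_sub_c]
    exact hy
  have hr := hG.r0.le
  have hK := hC.K0
  refine (norm_add_le _ _).trans ?_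
  rw [add_mul]
  refine add_le_add ?_ ?_
  · refine (norm_sum_le _ _).trans ?_
    have h1 : ∀ t ∈ (Finset.univ : Finset η),
        ‖(-Complex.I) • Bf (om A c (c + y) (eT t)) (Θ (eT t) f)‖ ≤ K * (2 / r) * K * ‖f‖ := by
      intro t _
      rw [norm_smul, norm_negI_one, one_mul]
      have ht : ‖eT t‖ = 1 := eT.orthonormal.1 t
      have h2 := om_bound hG.r0 hG.gap hG.act hy' (eT t)
      rw [ht, mul_one] at h2
      have h3 : ‖((om A c (c + y) (eT t) : (kc A c)ᗮ) : V)‖ ≤ 2 / r := h2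
      have h4 := hC.Th (eT t) f
      have ht' : ‖((eT t : Tn A c) : E)‖ = 1 := ht
      rw [ht', mul_one] at h4
      refine (hC.Bf _ _).trans ?_
      calc K * ‖((om A c (c + y) (eT t) : (kc A c)ᗮ) : V)‖ * ‖Θ (eT t) f‖
          ≤ K * (2 / r) * (K * ‖f‖) := by gcongr
        _ = _ := by ring
    refine (Finset.sum_le_sum h1).trans ?_
    rw [Finset.sum_const, Finset.card_univ, nsmul_eq_mul]
    exact le_of_eq (by ring)
  · rw [norm_smul, Real.norm_of_nonneg hg]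
    have h5 := hC.Wq z z f
    calc g * ‖Wq z z f‖ ≤ g * (K * ‖(z : E)‖ * ‖(z : E)‖ * ‖f‖) := by gcongr
      _ = K * (g * ‖z‖ ^ 2) * ‖f‖ := by
          rw [Submodule.coe_norm]
          ring

theorem MX_sub_bound (hG : Geo A c L Z PX r B ρ) (hC : Cst Θ Wq Wl Bf K)
    (eT : OrthonormalBasis η ℝ (Tn A c)) (g : ℝ) {y y' : E} (hy : B * ‖y‖ ≤ r / 2)
    (hy2 : B * ‖y'‖ ≤ r / 2) (z : Z) (f : F) :
    ‖MX A c Z Θ Wq Bf eT g y z f - MX A c Z Θ Wq Bf eT g y' z f‖ ≤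
      Fintype.card η * (K * (4 * B / r ^ 2) * K) * ‖y - y'‖ * ‖f‖ := by
  unfold MX
  have hyc : B * ‖(c + y : E) - c‖ ≤ r / 2 := by
    rw [add_sub_c]
    exact hy
  have hyc' : B * ‖(c + y' : E) - c‖ ≤ r / 2 := by
    rw [add_sub_c]
    exact hy2
  have hr := hG.r0.le
  have hK := hC.K0
  have hB := hG.B0.le
  rw [add_sub_add_right_eq_sub, ← Finset.sum_sub_distrib]
  refine (norm_sum_le _ _).trans ?_
  have h1 : ∀ t ∈ (Finset.univ : Finset η),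
      ‖(-Complex.I) • Bf (om A c (c + y) (eT t)) (Θ (eT t) f) -
        (-Complex.I) • Bf (om A c (c + y') (eT t)) (Θ (eT t) f)‖ ≤
        K * (4 * B / r ^ 2) * K * ‖y - y'‖ * ‖f‖ := by
    intro t _
    have e1 : (-Complex.I) • Bf (om A c (c + y) (eT t)) (Θ (eT t) f) -
        (-Complex.I) • Bf (om A c (c + y') (eT t)) (Θ (eT t) f) =
        (-Complex.I) • Bf ((om A c (c + y) (eT t) - om A c (c + y') (eT t) : (kc A c)ᗮ) : V)
          (Θ (eT t) f) := by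
      rw [Submodule.coe_sub, map_sub, LinearMap.sub_apply, smul_sub]
    rw [e1, norm_smul, norm_negI_one, one_mul]
    have ht : ‖eT t‖ = 1 := eT.orthonormal.1 t
    have h2 := om_sub_bound hG.r0 hG.gap hG.act hyc hyc' hB (eT t)
    rw [ht, mul_one, show c + y - (c + y') = y - y' by abel] at h2
    have h3 : ‖((om A c (c + y) (eT t) - om A c (c + y') (eT t) : (kc A c)ᗮ) : V)‖ ≤
      4 * B / r ^ 2 * ‖y - y'‖ := h2
    have h4 := hC.Th (eT t) f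
    have ht' : ‖((eT t : Tn A c) : E)‖ = 1 := ht
    rw [ht', mul_one] at h4
    refine (hC.Bf _ _).trans ?_
    calc K * ‖((om A c (c + y) (eT t) - om A c (c + y') (eT t) : (kc A c)ᗮ) : V)‖ *
          ‖Θ (eT t) f‖
        ≤ K * (4 * B / r ^ 2 * ‖y - y'‖) * (K * ‖f‖) := by gcongr
      _ = _ := by ring
  refine (Finset.sum_le_sum h1).trans ?_
  rw [Finset.sum_const, Finset.card_univ, nsmul_eq_mul]
  exact le_of_eq (by ring)

/-! ## The cut-off -/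

theorem fderiv_cut {a₀ : L × Z → ℝ} {ϰ : Z → ℝ} {x : L × Z} (ha : DifferentiableAt ℝ a₀ x)
    (hϰ : DifferentiableAt ℝ ϰ x.2) (w : L × Z) :
    fderiv ℝ (fun x : L × Z => ϰ x.2 * a₀ x) x w =
      ϰ x.2 * fderiv ℝ a₀ x w + fderiv ℝ ϰ x.2 w.2 * a₀ x := by
  have h1 : HasFDerivAt (fun x : L × Z => ϰ x.2)
      ((fderiv ℝ ϰ x.2).comp (ContinuousLinearMap.snd ℝ L Z)) x :=
    hϰ.hasFDerivAt.comp x hasFDerivAt_snd
  have h2 := h1.fun_mul ha.hasFDerivAt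
  rw [h2.fderiv]
  simp only [ContinuousLinearMap.add_apply, ContinuousLinearMap.smul_apply,
    ContinuousLinearMap.comp_apply, ContinuousLinearMap.coe_snd', smul_eq_mul]
  ring


theorem EV_cut (u : OrthonormalBasis ι ℝ L) {a₀ : L × Z → ℝ} {ϰ : Z → ℝ} {x : L × Z}
    (ha : DifferentiableAt ℝ a₀ x) (hϰ : DifferentiableAt ℝ ϰ x.2) (ψ : L → F) :
    EV Θ u (fun x : L × Z => ϰ x.2 * a₀ x) ψ x = ϰ x.2 • EV Θ u a₀ ψ x := by
  unfold EV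
  rw [Finset.smul_sum]
  refine Finset.sum_congr rfl fun s _ => ?_
  rw [fderiv_cut ha hϰ, map_zero, zero_mul, add_zero, mul_smul, map_rsmul,
    smul_comm (-Complex.I) (ϰ x.2)]

theorem HM_cut (eT : OrthonormalBasis η ℝ (Tn A c)) (v : OrthonormalBasis κ ℝ Z) (g : ℝ)
    {a₀ : L × Z → ℝ} {ϰ : Z → ℝ} {x : L × Z}
    (ha : DifferentiableAt ℝ a₀ x) (hϰ : DifferentiableAt ℝ ϰ x.2) (ψ : L → F) :
    HM A c Z Θ Wq PX eT v g (fun x : L × Z => ϰ x.2 * a₀ x) ψ x =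
      ϰ x.2 • HM A c Z Θ Wq PX eT v g a₀ ψ x +
      ((∑ s, (-Complex.I) • Θ (v s) ((fderiv ℝ ϰ x.2 (v s) * a₀ x) • ψ x.1)) +
      ∑ t, Complex.I • Θ (eT t)
        ((fderiv ℝ ϰ x.2 (nZ A c L Z PX (eT t) x.1) * a₀ x) • ψ x.1)) := by
  unfold HM
  have e1 : (∑ s, (-Complex.I) • Θ (v s)
      (fderiv ℝ (fun x : L × Z => ϰ x.2 * a₀ x) x (0, v s) • ψ x.1)) =
      ϰ x.2 • (∑ s, (-Complex.I) • Θ (v s) (fderiv ℝ a₀ x (0, v s) • ψ x.1)) +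
      ∑ s, (-Complex.I) • Θ (v s) ((fderiv ℝ ϰ x.2 (v s) * a₀ x) • ψ x.1) := by
    rw [Finset.smul_sum, ← Finset.sum_add_distrib]
    refine Finset.sum_congr rfl fun s _ => ?_
    rw [fderiv_cut ha hϰ, add_smul, map_add, smul_add, mul_smul, map_rsmul _ (ϰ x.2),
      smul_comm (-Complex.I) (ϰ x.2)]
  have e2 : (∑ t, Complex.I • Θ (eT t)
      (fderiv ℝ (fun x : L × Z => ϰ x.2 * a₀ x) x (0, nZ A c L Z PX (eT t) x.1) • ψ x.1)) =
      ϰ x.2 • (∑ t, Complex.I • Θ (eT t)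
        (fderiv ℝ a₀ x (0, nZ A c L Z PX (eT t) x.1) • ψ x.1)) +
      ∑ t, Complex.I • Θ (eT t)
        ((fderiv ℝ ϰ x.2 (nZ A c L Z PX (eT t) x.1) * a₀ x) • ψ x.1) := by
    rw [Finset.smul_sum, ← Finset.sum_add_distrib]
    refine Finset.sum_congr rfl fun s _ => ?_
    rw [fderiv_cut ha hϰ, add_smul, map_add, smul_add, mul_smul, map_rsmul _ (ϰ x.2),
      smul_comm Complex.I (ϰ x.2)]
  rw [e1, e2]
  module

end Crest.Agent.R330.PairE547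

end
end

-- ▼ part R330/PairE4_547
section

/-!
# Row 330, S8-PAIR (P3): the pointwise error theorem (helper547)
-/

set_option autoImplicit false
set_option linter.unusedSectionVars false

open MeasureTheory Filter Topology
open scoped ContDiff InnerProductSpace

noncomputable section

namespace Crest.Agent.R330.PairE547

open Crest.Agent.R330.Frame839 Crest.Agent.R330.IBP837 Crest.Agent.R330.PairA547
  Crest.Agent.R330.PairB547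

variable {V E : Type*} [NormedAddCommGroup V] [InnerProductSpace ℝ V] [FiniteDimensional ℝ V]
  [NormedAddCommGroup E] [InnerProductSpace ℝ E] [FiniteDimensional ℝ E]
  {F : Type*} [NormedAddCommGroup F] [InnerProductSpace ℂ F] [FiniteDimensional ℂ F]
  {ι κ η : Type*} [Fintype ι] [Fintype κ] [Fintype η]

variable {A : V →L[ℝ] E →L[ℝ] E} {c : E} {L Z : Submodule ℝ E} {r B ρ K : ℝ}
  {Θ : E →ₗ[ℝ] (F →ₗ[ℂ] F)} {Wq : E →ₗ[ℝ] E →ₗ[ℝ] (F →ₗ[ℂ] F)}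
  {Wl : E →ₗ[ℝ] (F →ₗ[ℂ] F)} {Bf : V →ₗ[ℝ] (F →ₗ[ℝ] F)} {Γ : F →ₗ[ℂ] F} {PX : L →ₗ[ℝ] E}

theorem Y_le (hG : Geo A c L Z PX r B ρ) {p : L} (hp : ‖p‖ ≤ ρ) : ‖(p : E) - PX p‖ ≤ 2 := by
  have h1 : ‖(p : E)‖ ≤ ρ := hp
  have h2 := hG.PX_le p
  have h3 := norm_sub_le (p : E) (PX p)
  have h4 := hG.ρ1
  have h5 : ‖PX p‖ ≤ ρ := h2.trans hp
  linarith

/-- derivative of the amplitude in a general direction -/
theorem Da_bound {g K' : ℝ} (hg : 0 ≤ g) (hK' : 0 ≤ K') {a₀ : L × Z → ℝ} {ϰ : Z → ℝ}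
    (ha : AmpOk g K' ρ a₀) (hϰ : CutOk K' ρ ϰ) {x : L × Z} (hp : ‖x.1‖ ≤ ρ) (w : L × Z) :
    |fderiv ℝ (fun x : L × Z => ϰ x.2 * a₀ x) x w| ≤
      K' * (1 + g * ‖x.2‖ ^ 2) * a₀ x * ‖w.1‖ + K' * (g * ‖x.2‖ + 1) * a₀ x * ‖w.2‖ := by
  rw [fderiv_cut (ha.diff x) (hϰ.diff x.2)]
  have e1 : w = (w.1, 0) + (0, w.2) := by simp
  have e2 : fderiv ℝ a₀ x w = fderiv ℝ a₀ x (w.1, 0) + fderiv ℝ a₀ x (0, w.2) := by
    conv_lhs => rw [e1, map_add]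
  rw [e2]
  have h1 := ha.dL x hp w.1
  have h2 := ha.dZ x hp w.2
  have h3 := hϰ.der x.2 w.2
  have h0 := hϰ.nonneg x.2
  have h4 := hϰ.le_one x.2
  have ha0 := ha.nonneg x
  have n1 := norm_nonneg w.1
  have n2 := norm_nonneg w.2
  have n3 := norm_nonneg x.2
  have m1 : 0 ≤ K' * (1 + g * ‖x.2‖ ^ 2) * a₀ x * ‖w.1‖ := by positivity
  have m2 : 0 ≤ K' * (g * ‖x.2‖) * a₀ x * ‖w.2‖ := by positivity
  calc |ϰ x.2 * (fderiv ℝ a₀ x (w.1, 0) + fderiv ℝ a₀ x (0, w.2)) + fderiv ℝ ϰ x.2 w.2 * a₀ x|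
      ≤ |ϰ x.2 * (fderiv ℝ a₀ x (w.1, 0) + fderiv ℝ a₀ x (0, w.2))| +
        |fderiv ℝ ϰ x.2 w.2 * a₀ x| := abs_add_le _ _
    _ ≤ 1 * (K' * (1 + g * ‖x.2‖ ^ 2) * a₀ x * ‖w.1‖ + K' * (g * ‖x.2‖) * a₀ x * ‖w.2‖) +
        (K' * ‖w.2‖) * a₀ x := by
        rw [abs_mul, abs_mul, abs_of_nonneg h0, abs_of_nonneg ha0]
        gcongr
        exact (abs_add_le _ _).trans (add_le_add h1 h2)
    _ = _ := by ring

/-- bound of the odd list -/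
theorem OD_bound (hG : Geo A c L Z PX r B ρ) (hC : Cst Θ Wq Wl Bf K)
    (eT : OrthonormalBasis η ℝ (Tn A c)) (u : OrthonormalBasis ι ℝ L)
    (v : OrthonormalBasis κ ℝ Z) {K' m₀ Cd : ℝ} (hK' : 0 ≤ K') (hm₀ : 0 ≤ m₀) (hCd0 : 0 ≤ Cd)
    (hCd : ∀ (t : η) (x : L × Z), ‖x.1‖ ≤ ρ → ‖x.2‖ ≤ ρ → |dvP hG.dec eT u v t x| ≤ Cd)
    {g m : ℝ} (hg : 0 ≤ g) (hm : |m| ≤ m₀) {a₀ : L × Z → ℝ} {ϰ : Z → ℝ}
    (ha : AmpOk g K' ρ a₀) (hϰ : CutOk K' ρ ϰ) (ψ : L → F) {x : L × Z} (hp : ‖x.1‖ ≤ ρ)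
    (hz : ‖x.2‖ ≤ ρ) :
    ‖OD Θ Wq Wl PX eT u v hG.dec g m (fun x : L × Z => ϰ x.2 * a₀ x) ψ x‖ ≤
      (2 * K + m₀ * K + Fintype.card η * K * (Cd + 16 * K' * (B / r)) +
        Fintype.card η * K * (4 * (B / r))) *
        (a₀ x * ((1 + g * ‖x.2‖ ^ 2 + g * ‖(x.1 : E) - PX x.1‖ * ‖x.2‖) * ‖ψ x.1‖ +
          ‖x.2‖ * ‖fderiv ℝ ψ x.1‖)) := by
  have ha0 := ha.nonneg x
  have hϰ0 := hϰ.nonneg x.2
  have hϰ1 := hϰ.le_one x.2
  have hK := hC.K0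
  have hr := hG.r0
  have hB := hG.B0.le
  have hy2 := Y_le hG hp
  have hz1 : ‖x.2‖ ≤ 1 := hz.trans hG.ρ1
  set y := ‖(x.1 : E) - PX x.1‖ with hy
  set n := ‖x.2‖ with hn
  set q := ‖ψ x.1‖ with hq
  set D := ‖fderiv ℝ ψ x.1‖ with hD
  have hy0 : 0 ≤ y := norm_nonneg _
  have hn0 : 0 ≤ n := norm_nonneg _
  have hq0 : 0 ≤ q := norm_nonneg _
  have hD0 : 0 ≤ D := by rw [hD]; positivity
  have ha1 : ϰ x.2 * a₀ x ≤ a₀ x := by
    calc ϰ x.2 * a₀ x ≤ 1 * a₀ x := by gcongr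
      _ = a₀ x := one_mul _
  have ha2 : 0 ≤ ϰ x.2 * a₀ x := by positivity
  have hBr : 0 ≤ B / r := by positivity
  have t1 : ‖(2 * g * (ϰ x.2 * a₀ x)) • Wq ((x.1 : E) - PX x.1) x.2 (ψ x.1)‖ ≤
      2 * K * (a₀ x * (g * y * n * q)) := by
    rw [norm_smul, Real.norm_of_nonneg (by positivity)]
    have := hC.Wq ((x.1 : E) - PX x.1) x.2 (ψ x.1)
    have hn' : ‖((x.2 : Z) : E)‖ = n := rfl
    rw [hn'] at this
    calc 2 * g * (ϰ x.2 * a₀ x) * ‖Wq ((x.1 : E) - PX x.1) x.2 (ψ x.1)‖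
        ≤ 2 * g * a₀ x * (K * y * n * q) := by gcongr
      _ = _ := by ring
  have t2 : ‖(m * (ϰ x.2 * a₀ x)) • Wl x.2 (ψ x.1)‖ ≤ m₀ * K * (a₀ x * q) := by
    rw [norm_smul, norm_mul, Real.norm_of_nonneg ha2]
    have := hC.Wl x.2 (ψ x.1)
    have hn' : ‖((x.2 : Z) : E)‖ = n := rfl
    rw [hn'] at this
    have hm' : ‖m‖ ≤ m₀ := hm
    calc ‖m‖ * (ϰ x.2 * a₀ x) * ‖Wl x.2 (ψ x.1)‖ ≤ m₀ * a₀ x * (K * 1 * q) := by
          gcongr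
          exact this.trans (by gcongr)
      _ = _ := by ring
  have t3 : ‖∑ t, Complex.I • Θ (eT t)
      ((dvP hG.dec eT u v t x * (ϰ x.2 * a₀ x)) • ψ x.1 +
      fderiv ℝ (fun x : L × Z => ϰ x.2 * a₀ x) x
        (nP A c L Z (eT t) x - (0, nZ A c L Z PX (eT t) x.1)) • ψ x.1 +
      (ϰ x.2 * a₀ x) • fderiv ℝ ψ x.1 (nP A c L Z (eT t) x).1)‖ ≤
      Fintype.card η * (K * ((Cd + 16 * K' * (B / r)) * (a₀ x * ((1 + g * n ^ 2 + g * y * n) * q))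
        + 4 * (B / r) * (a₀ x * (n * D)))) := by
    refine sum_bound (e := fun t => (eT t : E)) hC norm_I_one (fun s => eT.orthonormal.1 s)
      fun t => ?_
    have ht : ‖eT t‖ = 1 := eT.orthonormal.1 t
    have w1 := hG.nP_fst (eT t) ht hp hz
    have w2 := hG.nP_snd (eT t) ht hp hz
    have q1 : ‖(dvP hG.dec eT u v t x * (ϰ x.2 * a₀ x)) • ψ x.1‖ ≤ Cd * (a₀ x * q) := by
      rw [norm_smul, norm_mul, Real.norm_of_nonneg ha2]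
      have h5 : ‖dvP hG.dec eT u v t x‖ ≤ Cd := hCd t x hp hz
      calc ‖dvP hG.dec eT u v t x‖ * (ϰ x.2 * a₀ x) * ‖ψ x.1‖ ≤ Cd * a₀ x * q := by gcongr
        _ = _ := by ring
    have q2 : ‖fderiv ℝ (fun x : L × Z => ϰ x.2 * a₀ x) x
        (nP A c L Z (eT t) x - (0, nZ A c L Z PX (eT t) x.1)) • ψ x.1‖ ≤
        16 * K' * (B / r) * (a₀ x * ((1 + g * n ^ 2 + g * y * n) * q)) := by
      rw [norm_smul]
      have h6 := Da_bound hg hK' ha hϰ hp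
        (nP A c L Z (eT t) x - (0, nZ A c L Z PX (eT t) x.1))
      have e1 : (nP A c L Z (eT t) x - (0, nZ A c L Z PX (eT t) x.1)).1 =
        (nP A c L Z (eT t) x).1 := by simp
      have e2 : (nP A c L Z (eT t) x - (0, nZ A c L Z PX (eT t) x.1)).2 =
        (nP A c L Z (eT t) x).2 - nZ A c L Z PX (eT t) x.1 := by simp
      rw [e1, e2] at h6
      have h7 : |fderiv ℝ (fun x : L × Z => ϰ x.2 * a₀ x) x
          (nP A c L Z (eT t) x - (0, nZ A c L Z PX (eT t) x.1))| ≤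
          K' * (1 + g * n ^ 2) * a₀ x * (4 * B / r * n) +
            K' * (g * n + 1) * a₀ x * (4 * B / r * (y + n)) := by
        refine h6.trans ?_
        gcongr
      have h8 : K' * (1 + g * n ^ 2) * a₀ x * (4 * B / r * n) +
            K' * (g * n + 1) * a₀ x * (4 * B / r * (y + n)) ≤
          16 * K' * (B / r) * (a₀ x * (1 + g * n ^ 2 + g * y * n)) := by
        have e3 : K' * (1 + g * n ^ 2) * a₀ x * (4 * B / r * n) +
            K' * (g * n + 1) * a₀ x * (4 * B / r * (y + n)) =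
            (4 * K' * (B / r) * a₀ x) * ((1 + g * n ^ 2) * n + (g * n + 1) * (y + n)) := by
          ring
        rw [e3]
        have e4 : 16 * K' * (B / r) * (a₀ x * (1 + g * n ^ 2 + g * y * n)) =
            (4 * K' * (B / r) * a₀ x) * (4 * (1 + g * n ^ 2 + g * y * n)) := by ring
        rw [e4]
        refine mul_le_mul_of_nonneg_left ?_ (by positivity)
        have a1 : 0 ≤ g * n ^ 2 := by positivity
        have a2 : 0 ≤ g * y * n := by positivity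
        have a3 : (1 + g * n ^ 2) * n ≤ (1 + g * n ^ 2) * 1 := by gcongr
        nlinarith
      refine (mul_le_mul_of_nonneg_right (h7.trans h8) hq0).trans (le_of_eq ?_)
      ring
    have q3 : ‖(ϰ x.2 * a₀ x) • fderiv ℝ ψ x.1 (nP A c L Z (eT t) x).1‖ ≤
        4 * (B / r) * (a₀ x * (n * D)) := by
      rw [norm_smul, Real.norm_of_nonneg ha2]
      have h9 := (fderiv ℝ ψ x.1).le_opNorm (nP A c L Z (eT t) x).1
      calc (ϰ x.2 * a₀ x) * ‖fderiv ℝ ψ x.1 (nP A c L Z (eT t) x).1‖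
          ≤ a₀ x * (D * (4 * B / r * n)) := by
            gcongr
            exact h9.trans (by gcongr)
        _ = _ := by ring
    refine (norm_add_le _ _).trans ((add_le_add (norm_add_le _ _) le_rfl).trans ?_)
    have q4 : Cd * (a₀ x * q) ≤ Cd * (a₀ x * ((1 + g * n ^ 2 + g * y * n) * q)) := by
      have a1 : 0 ≤ g * n ^ 2 := by positivity
      have a2 : 0 ≤ g * y * n := by positivity
      have a4 : q ≤ (1 + g * n ^ 2 + g * y * n) * q := by nlinarith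
      gcongr
    exact (add_le_add (add_le_add (q1.trans q4) q2) q3).trans (le_of_eq (by ring))
  unfold OD
  refine (norm_add_le _ _).trans ((add_le_add ((norm_sub_le _ _).trans (add_le_add t1 t2))
    t3).trans ?_)
  have hη : (0 : ℝ) ≤ Fintype.card η := Nat.cast_nonneg _
  have a1 : 0 ≤ g * n ^ 2 := by positivity
  have a2 : 0 ≤ g * y * n := by positivity
  have b1 : g * y * n * q ≤ (1 + g * n ^ 2 + g * y * n) * q + n * D := by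
    have : 0 ≤ n * D := by positivity
    nlinarith
  have b2 : q ≤ (1 + g * n ^ 2 + g * y * n) * q + n * D := by
    have : 0 ≤ n * D := by positivity
    nlinarith
  have b3 : (1 + g * n ^ 2 + g * y * n) * q ≤ (1 + g * n ^ 2 + g * y * n) * q + n * D := by
    have : 0 ≤ n * D := by positivity
    linarith
  have b4 : n * D ≤ (1 + g * n ^ 2 + g * y * n) * q + n * D := by
    have : 0 ≤ (1 + g * n ^ 2 + g * y * n) * q := by positivity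
    linarith
  set R := (1 + g * n ^ 2 + g * y * n) * q + n * D with hR
  calc 2 * K * (a₀ x * (g * y * n * q)) + m₀ * K * (a₀ x * q) +
      Fintype.card η * (K * ((Cd + 16 * K' * (B / r)) * (a₀ x * ((1 + g * n ^ 2 + g * y * n) * q))
        + 4 * (B / r) * (a₀ x * (n * D))))
      ≤ 2 * K * (a₀ x * R) + m₀ * K * (a₀ x * R) +
      Fintype.card η * (K * ((Cd + 16 * K' * (B / r)) * (a₀ x * R)
        + 4 * (B / r) * (a₀ x * R))) := by gcongr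
    _ = _ := by ring

end Crest.Agent.R330.PairE547

end
end

-- ▼ part R330/PairE5_547

/-!
# Row 330, S8-PAIR (P3): the pointwise error theorem, conclusion (helper547)
-/

set_option autoImplicit false
set_option linter.unusedSectionVars false

open MeasureTheory Filter Topology
open scoped ContDiff InnerProductSpace

noncomputable section

namespace Crest.Agent.R330.PairE547

open Crest.Agent.R330.Frame839 Crest.Agent.R330.IBP837 Crest.Agent.R330.PairA547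
  Crest.Agent.R330.PairB547

variable {V E : Type*} [NormedAddCommGroup V] [InnerProductSpace ℝ V] [FiniteDimensional ℝ V]
  [NormedAddCommGroup E] [InnerProductSpace ℝ E] [FiniteDimensional ℝ E]
  {F : Type*} [NormedAddCommGroup F] [InnerProductSpace ℂ F] [FiniteDimensional ℂ F]
  {ι κ η : Type*} [Fintype ι] [Fintype κ] [Fintype η]

variable {A : V →L[ℝ] E →L[ℝ] E} {c : E} {L Z : Submodule ℝ E} {r B ρ K : ℝ}
  {Θ : E →ₗ[ℝ] (F →ₗ[ℂ] F)} {Wq : E →ₗ[ℝ] E →ₗ[ℝ] (F →ₗ[ℂ] F)}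
  {Wl : E →ₗ[ℝ] (F →ₗ[ℂ] F)} {Bf : V →ₗ[ℝ] (F →ₗ[ℝ] F)} {Γ : F →ₗ[ℂ] F} {PX : L →ₗ[ℝ] E}

theorem HM_zero_of (eT : OrthonormalBasis η ℝ (Tn A c)) (v : OrthonormalBasis κ ℝ Z) (g : ℝ)
    (a : L × Z → ℝ) {ψ : L → F} {x : L × Z} (h : ψ x.1 = 0) :
    HM A c Z Θ Wq PX eT v g a ψ x = 0 := by
  unfold HM
  simp [h]

theorem EV_zero_of (u : OrthonormalBasis ι ℝ L) (a : L × Z → ℝ) {ψ : L → F} {x : L × Z}
    (h : ψ x.1 = 0) : EV Θ u a ψ x = 0 := by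
  unfold EV
  simp [h]

theorem MX_zero (eT : OrthonormalBasis η ℝ (Tn A c)) (g : ℝ) (y : E) (z : Z) :
    MX A c Z Θ Wq Bf eT g y z 0 = 0 := by
  unfold MX
  simp

theorem OD_zero_of (h : Dec A c L Z) (eT : OrthonormalBasis η ℝ (Tn A c))
    (u : OrthonormalBasis ι ℝ L) (v : OrthonormalBasis κ ℝ Z) (g m : ℝ) (a : L × Z → ℝ)
    {ψ : L → F} {x : L × Z} (h1 : ψ x.1 = 0) (h2 : fderiv ℝ ψ x.1 = 0) :
    OD Θ Wq Wl PX eT u v h g m a ψ x = 0 := by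
  unfold OD
  simp [h1, h2]

theorem OD_zero_cut (h : Dec A c L Z) (eT : OrthonormalBasis η ℝ (Tn A c))
    (u : OrthonormalBasis ι ℝ L) (v : OrthonormalBasis κ ℝ Z) (g m : ℝ) {a₀ : L × Z → ℝ}
    {ϰ : Z → ℝ} {ψ : L → F} {x : L × Z} (ha : DifferentiableAt ℝ a₀ x)
    (hϰ : DifferentiableAt ℝ ϰ x.2) (h1 : ϰ x.2 = 0) (h2 : fderiv ℝ ϰ x.2 = 0) :
    OD Θ Wq Wl PX eT u v h g m (fun x : L × Z => ϰ x.2 * a₀ x) ψ x = 0 := by
  unfold OD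
  simp only [fderiv_cut ha hϰ, h1, h2]
  simp

/-- **Pointwise bounds of the error list**, uniform in the coupling. -/
theorem exists_bounds (hG : Geo A c L Z PX r B ρ) (hC : Cst Θ Wq Wl Bf K)
    (hΓ : ∀ f, ‖Γ f‖ ≤ ‖f‖) (eT : OrthonormalBasis η ℝ (Tn A c)) (u : OrthonormalBasis ι ℝ L)
    (v : OrthonormalBasis κ ℝ Z) {K' m₀ : ℝ} (hK' : 0 ≤ K') (hm₀ : 0 ≤ m₀) :
    ∃ C : ℝ, 0 ≤ C ∧ ∀ (g m : ℝ), 0 ≤ g → |m| ≤ m₀ → ∀ (a₀ : L × Z → ℝ) (ϰ : Z → ℝ),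
      AmpOk g K' ρ a₀ → CutOk K' ρ ϰ → ∀ (ψ ρe ρs : L → F), (∀ p, ρ < ‖p‖ → ψ p = 0) →
      (∀ p, ρ < ‖p‖ → fderiv ℝ ψ p = 0) →
      (∀ x : L × Z, ‖x.1‖ ≤ ρ → HM A c Z Θ Wq PX eT v g a₀ ψ x = 0) → ∀ x : L × Z,
      ‖err1 Θ Wq Wl Bf Γ PX eT u v g m hG.dec (fun x : L × Z => ϰ x.2 * a₀ x) ψ ρs x‖ ≤
        C * a₀ x * ((1 + g * ‖x.2‖ ^ 2 + g * ‖(x.1 : E) - PX x.1‖ * ‖x.2‖) * ‖ψ x.1‖ +
          ‖x.2‖ * ‖fderiv ℝ ψ x.1‖ + ‖ρs x.1‖) ∧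
      ‖err2 Θ Wq Bf Γ PX eT u g a₀ ψ ρe x‖ ≤
        C * a₀ x * ((1 + g * ‖x.2‖ ^ 2) * ‖ψ x.1‖ + ‖ρe x.1‖) ∧
      ‖err3 Θ Wq Bf Γ PX eT u g a₀ (fun x : L × Z => ϰ x.2 * a₀ x) ψ ρe ρs x‖ ≤
        C * a₀ x * ((‖x.2‖ ^ 2 * (1 + g * ‖x.2‖ ^ 2) + ‖(x.1 : E) - PX x.1‖ + ‖x.2‖) *
          ‖ψ x.1‖ + ‖x.2‖ ^ 2 * ‖ρe x.1‖ + ‖ρs x.1‖) := by
  obtain ⟨Cd, hCd0, hCd⟩ := exists_dvP_bound hG eT u v
  have hK := hC.K0
  have hr := hG.r0
  have hB := hG.B0.le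
  have hη : (0 : ℝ) ≤ Fintype.card η := Nat.cast_nonneg _
  have hκ : (0 : ℝ) ≤ Fintype.card κ := Nat.cast_nonneg _
  have hι : (0 : ℝ) ≤ Fintype.card ι := Nat.cast_nonneg _
  set C1 : ℝ := 2 * K + m₀ * K + Fintype.card η * K * (Cd + 16 * K' * (B / r)) +
        Fintype.card η * K * (4 * (B / r)) with hC1
  set C2 : ℝ := Fintype.card κ * (K * K') + Fintype.card η * (K * K') with hC2
  set C3 : ℝ := Fintype.card η * (K * (2 / r) * K) + K with hC3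
  set C4 : ℝ := Fintype.card ι * (K * K') with hC4
  set C5 : ℝ := Fintype.card η * (K * (4 * B / r ^ 2) * K) with hC5
  have hC1' : 0 ≤ C1 := by positivity
  have hC2' : 0 ≤ C2 := by positivity
  have hC3' : 0 ≤ C3 := by positivity
  have hC4' : 0 ≤ C4 := by positivity
  have hC5' : 0 ≤ C5 := by positivity
  refine ⟨(C1 + C2 + C3 + 1) + (C4 + 1 + C3) + (K' * C4 + K' + 1 + C5 + K' * C3),
    by positivity, ?_⟩
  intro g m hg hm a₀ ϰ ha hϰ ψ ρe ρs hψ hψ' hHM x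
  have ha0 := ha.nonneg x
  have hϰ0 := hϰ.nonneg x.2
  have hϰ1 := hϰ.le_one x.2
  have hϰn := hϰ.near x.2
  have hz0 : 0 ≤ ‖x.2‖ := norm_nonneg _
  have hy0 : 0 ≤ ‖(x.1 : E) - PX x.1‖ := norm_nonneg _
  have hq0 : 0 ≤ ‖ψ x.1‖ := norm_nonneg _
  have hD0 : 0 ≤ ‖fderiv ℝ ψ x.1‖ := by positivity
  have hs0 : 0 ≤ ‖ρs x.1‖ := norm_nonneg _
  have he0 : 0 ≤ ‖ρe x.1‖ := norm_nonneg _
  have ha1 : ϰ x.2 * a₀ x ≤ a₀ x := by
    calc ϰ x.2 * a₀ x ≤ 1 * a₀ x := by gcongr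
      _ = a₀ x := one_mul _
  have ha2 : 0 ≤ ϰ x.2 * a₀ x := by positivity
  have hgz : 0 ≤ g * ‖x.2‖ ^ 2 := by positivity
  have hgy : 0 ≤ g * ‖(x.1 : E) - PX x.1‖ * ‖x.2‖ := by positivity
  -- outside the support of `ϰ`
  have hout : ρ < ‖x.2‖ → ϰ x.2 = 0 ∧ fderiv ℝ ϰ x.2 = 0 := fun hz =>
    ⟨by
      by_contra hne
      exact absurd (hϰ.supp _ hne) (not_le.2 hz), by
      by_contra hne
      exact absurd (hϰ.dsupp _ hne) (not_le.2 hz)⟩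
  -- MX at the centre point
  have hMX0 : ‖MX A c Z Θ Wq Bf eT g (PX x.1) x.2 (ψ x.1)‖ ≤
      C3 * ((1 + g * ‖x.2‖ ^ 2) * ‖ψ x.1‖) := by
    by_cases hp : ‖x.1‖ ≤ ρ
    · refine (MX_bound hG hC eT hg (hG.domX hp) x.2 (ψ x.1)).trans ?_
      rw [← mul_assoc C3]
      refine mul_le_mul_of_nonneg_right ?_ hq0
      have e1 : 0 ≤ Fintype.card η * (K * (2 / r) * K) := by positivity
      have e2 := mul_nonneg e1 hgz
      rw [hC3]
      linarith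
    · rw [hψ _ (not_le.1 hp), MX_zero]
      simp
  have hMX : ‖x.2‖ ≤ ρ → ‖MX A c Z Θ Wq Bf eT g (x.1 + x.2) x.2 (ψ x.1)‖ ≤
      C3 * ((1 + g * ‖x.2‖ ^ 2) * ‖ψ x.1‖) := by
    intro hz
    by_cases hp : ‖x.1‖ ≤ ρ
    · refine (MX_bound hG hC eT hg (hG.dom hp hz) x.2 (ψ x.1)).trans ?_
      rw [← mul_assoc C3]
      refine mul_le_mul_of_nonneg_right ?_ hq0
      have e1 : 0 ≤ Fintype.card η * (K * (2 / r) * K) := by positivity
      have e2 := mul_nonneg e1 hgz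
      rw [hC3]
      linarith
    · rw [hψ _ (not_le.1 hp), MX_zero]
      simp
  have hMXd : ‖x.2‖ ≤ ρ → ‖MX A c Z Θ Wq Bf eT g (x.1 + x.2) x.2 (ψ x.1) -
      MX A c Z Θ Wq Bf eT g (PX x.1) x.2 (ψ x.1)‖ ≤
      C5 * ((‖(x.1 : E) - PX x.1‖ + ‖x.2‖) * ‖ψ x.1‖) := by
    intro hz
    by_cases hp : ‖x.1‖ ≤ ρ
    · refine (MX_sub_bound hG hC eT g (hG.dom hp hz) (hG.domX hp) x.2 (ψ x.1)).trans ?_
      rw [← mul_assoc C5]
      have e1 : ‖(x.1 : E) + x.2 - PX x.1‖ ≤ ‖(x.1 : E) - PX x.1‖ + ‖x.2‖ := by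
        rw [show (x.1 : E) + x.2 - PX x.1 = ((x.1 : E) - PX x.1) + x.2 by abel]
        exact norm_add_le _ _
      exact mul_le_mul_of_nonneg_right (mul_le_mul_of_nonneg_left e1 hC5') hq0
    · rw [hψ _ (not_le.1 hp), MX_zero, MX_zero]
      simp
  have hEV : ‖EV Θ u a₀ ψ x‖ ≤ C4 * (a₀ x * ((1 + g * ‖x.2‖ ^ 2) * ‖ψ x.1‖)) := by
    by_cases hp : ‖x.1‖ ≤ ρ
    · refine (EV_bound hC u (M := K' * (1 + g * ‖x.2‖ ^ 2) * a₀ x) fun s => ?_).trans ?_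
      · have h1 := ha.dL x hp (u s)
        have h2 : ‖u s‖ = 1 := u.orthonormal.1 s
        rwa [h2, mul_one] at h1
      · rw [hC4]
        exact le_of_eq (by ring)
    · rw [EV_zero_of u a₀ (hψ _ (not_le.1 hp)), norm_zero]
      positivity
  have hEVc : EV Θ u (fun x : L × Z => ϰ x.2 * a₀ x) ψ x = ϰ x.2 • EV Θ u a₀ ψ x :=
    EV_cut u (ha.diff x) (hϰ.diff x.2) ψ
  have hOD : ‖OD Θ Wq Wl PX eT u v hG.dec g m (fun x : L × Z => ϰ x.2 * a₀ x) ψ x‖ ≤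
      C1 * (a₀ x * ((1 + g * ‖x.2‖ ^ 2 + g * ‖(x.1 : E) - PX x.1‖ * ‖x.2‖) * ‖ψ x.1‖ +
          ‖x.2‖ * ‖fderiv ℝ ψ x.1‖)) := by
    by_cases hp : ‖x.1‖ ≤ ρ
    · by_cases hz : ‖x.2‖ ≤ ρ
      · exact OD_bound hG hC eT u v hK' hm₀ hCd0 hCd hg hm ha hϰ ψ hp hz
      · have h1 := hout (not_le.1 hz)
        rw [OD_zero_cut hG.dec eT u v g m (ha.diff x) (hϰ.diff x.2) h1.1 h1.2, norm_zero]
        positivity
    · rw [OD_zero_of hG.dec eT u v g m _ (hψ _ (not_le.1 hp)) (hψ' _ (not_le.1 hp)), norm_zero]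
      positivity
  have hHMb : ‖HM A c Z Θ Wq PX eT v g (fun x : L × Z => ϰ x.2 * a₀ x) ψ x‖ ≤
      C2 * (a₀ x * ‖ψ x.1‖) := by
    by_cases hp : ‖x.1‖ ≤ ρ
    · rw [HM_cut eT v g (ha.diff x) (hϰ.diff x.2) ψ, hHM x hp, smul_zero, zero_add, hC2, add_mul]
      refine (norm_add_le _ _).trans (add_le_add ?_ ?_)
      · refine (sum_bound (e := fun s => (v s : E)) (M := K' * (a₀ x * ‖ψ x.1‖)) hC norm_negI_one
          (fun s => v.orthonormal.1 s) fun s => ?_).trans (le_of_eq (by ring))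
        have h1 := hϰ.der x.2 (v s)
        have h2 : ‖v s‖ = 1 := v.orthonormal.1 s
        rw [h2, mul_one] at h1
        rw [norm_smul, norm_mul, Real.norm_of_nonneg ha0]
        have h1' : ‖fderiv ℝ ϰ x.2 (v s)‖ ≤ K' := h1
        calc ‖fderiv ℝ ϰ x.2 (v s)‖ * a₀ x * ‖ψ x.1‖ ≤ K' * a₀ x * ‖ψ x.1‖ := by gcongr
          _ = _ := by ring
      · refine (sum_bound (e := fun s => (eT s : E)) (M := K' * (a₀ x * ‖ψ x.1‖)) hC norm_I_one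
          (fun s => eT.orthonormal.1 s) fun s => ?_).trans (le_of_eq (by ring))
        have h1 := hϰ.der x.2 (nZ A c L Z PX (eT s) x.1)
        have h2 := hG.nZ_le (eT s) (eT.orthonormal.1 s) hp
        rw [norm_smul, norm_mul, Real.norm_of_nonneg ha0]
        have h1' : ‖fderiv ℝ ϰ x.2 (nZ A c L Z PX (eT s) x.1)‖ ≤ K' * 1 :=
          le_trans h1 (by gcongr)
        rw [mul_one] at h1'
        calc ‖fderiv ℝ ϰ x.2 (nZ A c L Z PX (eT s) x.1)‖ * a₀ x * ‖ψ x.1‖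
            ≤ K' * a₀ x * ‖ψ x.1‖ := by gcongr
          _ = _ := by ring
    · rw [HM_zero_of eT v g _ (hψ _ (not_le.1 hp)), norm_zero]
      positivity
  refine ⟨?_, ?_, ?_⟩
  · -- err1
    set R := (1 + g * ‖x.2‖ ^ 2 + g * ‖(x.1 : E) - PX x.1‖ * ‖x.2‖) * ‖ψ x.1‖ +
          ‖x.2‖ * ‖fderiv ℝ ψ x.1‖ + ‖ρs x.1‖ with hR
    have b0 : 0 ≤ ‖x.2‖ * ‖fderiv ℝ ψ x.1‖ := by positivity
    have r1 : (1 + g * ‖x.2‖ ^ 2 + g * ‖(x.1 : E) - PX x.1‖ * ‖x.2‖) * ‖ψ x.1‖ +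
        ‖x.2‖ * ‖fderiv ℝ ψ x.1‖ ≤ R := by linarith
    have hgzq := mul_nonneg hgz hq0
    have hgyq := mul_nonneg hgy hq0
    have hR2 : R = ‖ψ x.1‖ + g * ‖x.2‖ ^ 2 * ‖ψ x.1‖ +
        g * ‖(x.1 : E) - PX x.1‖ * ‖x.2‖ * ‖ψ x.1‖ + ‖x.2‖ * ‖fderiv ℝ ψ x.1‖ + ‖ρs x.1‖ := by
      rw [hR]
      ring
    have r2 : ‖ψ x.1‖ ≤ R := by linarith
    have r3 : (1 + g * ‖x.2‖ ^ 2) * ‖ψ x.1‖ ≤ R := by linarith
    have r4 : ‖ρs x.1‖ ≤ R := by linarith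
    have hR0 : 0 ≤ R := hq0.trans r2
    have c1 : ‖(ϰ x.2 * a₀ x) • odp Γ (MX A c Z Θ Wq Bf eT g (x.1 + x.2) x.2 (ψ x.1))‖ ≤
        C3 * (a₀ x * R) := by
      by_cases hz : ‖x.2‖ ≤ ρ
      · rw [norm_smul, Real.norm_of_nonneg ha2]
        calc (ϰ x.2 * a₀ x) * ‖odp Γ (MX A c Z Θ Wq Bf eT g (x.1 + x.2) x.2 (ψ x.1))‖
            ≤ a₀ x * (C3 * R) := by
              gcongr
              exact (norm_odp_le hΓ _).trans ((hMX hz).trans (by gcongr))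
          _ = _ := by ring
      · rw [(hout (not_le.1 hz)).1]
        simp only [zero_mul, zero_smul, norm_zero]
        positivity
    have c2 : ‖(ϰ x.2 * a₀ x) • odp Γ (ρs x.1)‖ ≤ a₀ x * R := by
      rw [norm_smul, Real.norm_of_nonneg ha2]
      gcongr
      exact (norm_odp_le hΓ _).trans r4
    unfold err1
    refine (norm_add_le _ _).trans ((add_le_add ((norm_add_le _ _).trans
      (add_le_add ((norm_add_le _ _).trans (add_le_add hHMb hOD)) c1)) c2).trans ?_)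
    have c3 : C2 * (a₀ x * ‖ψ x.1‖) ≤ C2 * (a₀ x * R) := by gcongr
    have c4 : C1 * (a₀ x * ((1 + g * ‖x.2‖ ^ 2 + g * ‖(x.1 : E) - PX x.1‖ * ‖x.2‖) * ‖ψ x.1‖ +
          ‖x.2‖ * ‖fderiv ℝ ψ x.1‖)) ≤ C1 * (a₀ x * R) := by gcongr
    have c5 : 0 ≤ ((C4 + 1 + C3) + (K' * C4 + K' + 1 + C5 + K' * C3)) * (a₀ x * R) := by
      positivity
    have c6 : ((C1 + C2 + C3 + 1) + (C4 + 1 + C3) + (K' * C4 + K' + 1 + C5 + K' * C3)) *
        a₀ x * R = C2 * (a₀ x * R) + C1 * (a₀ x * R) + C3 * (a₀ x * R) + a₀ x * R +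
        ((C4 + 1 + C3) + (K' * C4 + K' + 1 + C5 + K' * C3)) * (a₀ x * R) := by ring
    rw [c6]
    linarith
  · -- err2
    set R := (1 + g * ‖x.2‖ ^ 2) * ‖ψ x.1‖ + ‖ρe x.1‖ with hR
    have r1 : (1 + g * ‖x.2‖ ^ 2) * ‖ψ x.1‖ ≤ R := by linarith
    have hgzq : 0 ≤ (1 + g * ‖x.2‖ ^ 2) * ‖ψ x.1‖ := by positivity
    have r2 : ‖ρe x.1‖ ≤ R := by linarith
    have hR0 : 0 ≤ R := he0.trans r2
    have c1 : ‖a₀ x • ρe x.1‖ ≤ a₀ x * R := by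
      rw [norm_smul, Real.norm_of_nonneg ha0]
      gcongr
    have c2 : ‖a₀ x • evp Γ (MX A c Z Θ Wq Bf eT g (PX x.1) x.2 (ψ x.1))‖ ≤
        C3 * (a₀ x * R) := by
      rw [norm_smul, Real.norm_of_nonneg ha0]
      calc a₀ x * ‖evp Γ (MX A c Z Θ Wq Bf eT g (PX x.1) x.2 (ψ x.1))‖
          ≤ a₀ x * (C3 * R) := by
            gcongr
            exact (norm_evp_le hΓ _).trans (hMX0.trans (by gcongr))
        _ = _ := by ring
    unfold err2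
    refine (norm_add_le _ _).trans ((add_le_add ((norm_add_le _ _).trans
      (add_le_add hEV c1)) c2).trans ?_)
    have c3 : C4 * (a₀ x * ((1 + g * ‖x.2‖ ^ 2) * ‖ψ x.1‖)) ≤ C4 * (a₀ x * R) := by gcongr
    have c5 : 0 ≤ ((C1 + C2 + C3 + 1) + (K' * C4 + K' + 1 + C5 + K' * C3)) * (a₀ x * R) := by
      positivity
    have c6 : ((C1 + C2 + C3 + 1) + (C4 + 1 + C3) + (K' * C4 + K' + 1 + C5 + K' * C3)) *
        a₀ x * R = C4 * (a₀ x * R) + a₀ x * R + C3 * (a₀ x * R) +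
        ((C1 + C2 + C3 + 1) + (K' * C4 + K' + 1 + C5 + K' * C3)) * (a₀ x * R) := by ring
    rw [c6]
    linarith
  · -- err3
    set R := (‖x.2‖ ^ 2 * (1 + g * ‖x.2‖ ^ 2) + ‖(x.1 : E) - PX x.1‖ + ‖x.2‖) *
          ‖ψ x.1‖ + ‖x.2‖ ^ 2 * ‖ρe x.1‖ + ‖ρs x.1‖ with hR
    have hz2 : 0 ≤ ‖x.2‖ ^ 2 := by positivity
    have b1 : 0 ≤ ‖x.2‖ ^ 2 * (1 + g * ‖x.2‖ ^ 2) * ‖ψ x.1‖ := by positivity
    have b2 : 0 ≤ (‖(x.1 : E) - PX x.1‖ + ‖x.2‖) * ‖ψ x.1‖ := by positivity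
    have b3 : 0 ≤ ‖x.2‖ ^ 2 * ‖ρe x.1‖ := by positivity
    have hR' : R = ‖x.2‖ ^ 2 * (1 + g * ‖x.2‖ ^ 2) * ‖ψ x.1‖ +
        (‖(x.1 : E) - PX x.1‖ + ‖x.2‖) * ‖ψ x.1‖ + ‖x.2‖ ^ 2 * ‖ρe x.1‖ + ‖ρs x.1‖ := by
      rw [hR]
      ring
    have r1 : ‖x.2‖ ^ 2 * (1 + g * ‖x.2‖ ^ 2) * ‖ψ x.1‖ ≤ R := by linarith
    have r2 : (‖(x.1 : E) - PX x.1‖ + ‖x.2‖) * ‖ψ x.1‖ ≤ R := by linarith
    have r3 : ‖x.2‖ ^ 2 * ‖ρe x.1‖ ≤ R := by linarith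
    have r4 : ‖ρs x.1‖ ≤ R := by linarith
    have hR0 : 0 ≤ R := hs0.trans r4
    have hd : |ϰ x.2 - 1| ≤ K' * ‖x.2‖ ^ 2 := by
      rw [abs_sub_comm, abs_of_nonneg (by linarith)]
      exact hϰn
    have c1 : ‖EV Θ u (fun x : L × Z => ϰ x.2 * a₀ x) ψ x - EV Θ u a₀ ψ x‖ ≤
        K' * C4 * (a₀ x * R) := by
      rw [hEVc]
      have e1 : ϰ x.2 • EV Θ u a₀ ψ x - EV Θ u a₀ ψ x = (ϰ x.2 - 1) • EV Θ u a₀ ψ x := by
        module
      rw [e1, norm_smul]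
      calc ‖ϰ x.2 - 1‖ * ‖EV Θ u a₀ ψ x‖
          ≤ (K' * ‖x.2‖ ^ 2) * (C4 * (a₀ x * ((1 + g * ‖x.2‖ ^ 2) * ‖ψ x.1‖))) := by
            gcongr
            exact hd
        _ = K' * C4 * (a₀ x * (‖x.2‖ ^ 2 * (1 + g * ‖x.2‖ ^ 2) * ‖ψ x.1‖)) := by ring
        _ ≤ _ := by gcongr
    have c2 : ‖(ϰ x.2 * a₀ x - a₀ x) • ρe x.1‖ ≤ K' * (a₀ x * R) := by
      rw [norm_smul, show ϰ x.2 * a₀ x - a₀ x = (ϰ x.2 - 1) * a₀ x by ring, norm_mul,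
        Real.norm_of_nonneg ha0]
      calc ‖ϰ x.2 - 1‖ * a₀ x * ‖ρe x.1‖ ≤ (K' * ‖x.2‖ ^ 2) * a₀ x * ‖ρe x.1‖ := by
            gcongr
            exact hd
        _ = K' * (a₀ x * (‖x.2‖ ^ 2 * ‖ρe x.1‖)) := by ring
        _ ≤ _ := by gcongr
    have c3 : ‖(ϰ x.2 * a₀ x) • evp Γ (ρs x.1)‖ ≤ a₀ x * R := by
      rw [norm_smul, Real.norm_of_nonneg ha2]
      gcongr
      exact (norm_evp_le hΓ _).trans r4
    have c4 : ‖(ϰ x.2 * a₀ x) • evp Γ (MX A c Z Θ Wq Bf eT g (x.1 + x.2) x.2 (ψ x.1)) -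
        a₀ x • evp Γ (MX A c Z Θ Wq Bf eT g (PX x.1) x.2 (ψ x.1))‖ ≤
        (C5 + K' * C3) * (a₀ x * R) := by
      have e1 : (ϰ x.2 * a₀ x) • evp Γ (MX A c Z Θ Wq Bf eT g (x.1 + x.2) x.2 (ψ x.1)) -
          a₀ x • evp Γ (MX A c Z Θ Wq Bf eT g (PX x.1) x.2 (ψ x.1)) =
          (ϰ x.2 * a₀ x) • evp Γ (MX A c Z Θ Wq Bf eT g (x.1 + x.2) x.2 (ψ x.1) -
            MX A c Z Θ Wq Bf eT g (PX x.1) x.2 (ψ x.1)) +
          ((ϰ x.2 - 1) * a₀ x) • evp Γ (MX A c Z Θ Wq Bf eT g (PX x.1) x.2 (ψ x.1)) := by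
        rw [evp_sub]
        module
      rw [e1, add_mul]
      refine (norm_add_le _ _).trans (add_le_add ?_ ?_)
      · by_cases hz : ‖x.2‖ ≤ ρ
        · rw [norm_smul, Real.norm_of_nonneg ha2]
          calc (ϰ x.2 * a₀ x) * ‖evp Γ (MX A c Z Θ Wq Bf eT g (x.1 + x.2) x.2 (ψ x.1) -
                MX A c Z Θ Wq Bf eT g (PX x.1) x.2 (ψ x.1))‖
              ≤ a₀ x * (C5 * R) := by
                gcongr
                exact (norm_evp_le hΓ _).trans ((hMXd hz).trans (by gcongr))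
            _ = _ := by ring
        · rw [(hout (not_le.1 hz)).1]
          simp only [zero_mul, zero_smul, norm_zero]
          positivity
      · rw [norm_smul, norm_mul, Real.norm_of_nonneg ha0]
        calc ‖ϰ x.2 - 1‖ * a₀ x * ‖evp Γ (MX A c Z Θ Wq Bf eT g (PX x.1) x.2 (ψ x.1))‖
            ≤ (K' * ‖x.2‖ ^ 2) * a₀ x * (C3 * ((1 + g * ‖x.2‖ ^ 2) * ‖ψ x.1‖)) := by
              gcongr
              · exact hd
              · exact (norm_evp_le hΓ _).trans hMX0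
          _ = K' * C3 * (a₀ x * (‖x.2‖ ^ 2 * (1 + g * ‖x.2‖ ^ 2) * ‖ψ x.1‖)) := by ring
          _ ≤ _ := by gcongr
    unfold err3
    refine (norm_add_le _ _).trans ((add_le_add ((norm_add_le _ _).trans
      (add_le_add ((norm_add_le _ _).trans (add_le_add c1 c2)) c3)) c4).trans ?_)
    have c5 : 0 ≤ ((C1 + C2 + C3 + 1) + (C4 + 1 + C3)) * (a₀ x * R) := by
      positivity
    have c6 : ((C1 + C2 + C3 + 1) + (C4 + 1 + C3) + (K' * C4 + K' + 1 + C5 + K' * C3)) *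
        a₀ x * R = K' * C4 * (a₀ x * R) + K' * (a₀ x * R) + a₀ x * R +
        (C5 + K' * C3) * (a₀ x * R) + ((C1 + C2 + C3 + 1) + (C4 + 1 + C3)) * (a₀ x * R) := by
      ring
    rw [c6]
    linarith

end Crest.Agent.R330.PairE547

end
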