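import Crest.Agent.R330.PairA_547
import Crest.Agent.R330.BrT5c_658
import Crest.Agent.R330.PairE5_547
import Crest.Agent.R330.LightC_916

-- ▼ part R330/PairE_839
section

/-!
# Row 330, S8-PAIR: expansion of the formal adjoint `Qd` (helper839)

On top of `PairA_547` (abstract `V, E, A, c` of `Frame_839`).

* `fderiv_nn_bound`, `abs_fderiv_cf_le`, `dv`, `abs_dv_le` : derivative and divergence of the
  horizontal remainder.
* `Qd_eq` : `Qd τ u = Σ_n (-i) Θ(e_n) Dτ(u) e_n + W (c+u) τ + Σ_t (-i) Bf (om_t) Θ(t) τ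
  + Σ_t i Θ(t) Dτ(u)[nn_t] + Σ_t i (div nn_t) Θ(t) τ`.
* `obl` : `Σ_t ⟪v, nn_X(t)⟫ Θ(t) = -Θ(P_T v)` if `v` is orthogonal to `[V, X]`; `obl_full` : the
  transverse gradient plus the oblique term give `Θ(v)`.
-/

set_option autoImplicit false
set_option linter.unusedSectionVars false

open MeasureTheory Filter Topology
open scoped ContDiff InnerProductSpace

noncomputable section

namespace Crest.Agent.R330.PairE839

open Crest.Agent.R330.Frame839 Crest.Agent.R330.IBP837 Crest.Agent.R330.PairA547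

variable {V E : Type*} [NormedAddCommGroup V] [InnerProductSpace ℝ V] [FiniteDimensional ℝ V]
  [NormedAddCommGroup E] [InnerProductSpace ℝ E] [FiniteDimensional ℝ E]
  {F : Type*} [NormedAddCommGroup F] [InnerProductSpace ℂ F] [FiniteDimensional ℂ F]
  {ι κ : Type*} [Fintype ι] [Fintype κ]
  {A : V →L[ℝ] E →L[ℝ] E} {c : E} {r B : ℝ}

/-! ## Derivatives of the horizontal remainder -/









/-! ## The expansion -/





/-! ## The oblique term -/

/-- If `v` is orthogonal to `[V, X]` then `Σ_t ⟪v, nn_X(t)⟫ Θ(t) = -Θ(P_T v)`. -/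
theorem obl (Θ : E →ₗ[ℝ] (F →ₗ[ℂ] F)) (eT : OrthonormalBasis ι ℝ (Tn A c)) {v X : E}
    (hv : ∀ w, ⟪v, A w X⟫_ℝ = 0) :
    ∑ t, ⟪v, nn A c X (eT t)⟫_ℝ • Θ (eT t) = -Θ ((Tn A c).starProjection v) := by
  have h1 : ∀ t, ⟪v, nn A c X (eT t)⟫_ℝ = -⟪((eT t : Tn A c) : E), v⟫_ℝ := by
    intro t
    unfold nn
    rw [inner_sub_right, hv, zero_sub, real_inner_comm]
  have h2 : (Tn A c).starProjection v = ∑ t, ⟪((eT t : Tn A c) : E), v⟫_ℝ • (eT t : E) := by
    have h3 := eT.sum_repr' ((Tn A c).orthogonalProjectionOnto v)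
    have h4 := congrArg (fun w : Tn A c => (w : E)) h3
    simp only [Submodule.coe_sum, Submodule.coe_smul] at h4
    rw [Submodule.starProjection_apply, ← h4]
    refine Finset.sum_congr rfl fun t _ => ?_
    rw [Submodule.inner_orthogonalProjectionOnto_eq_of_mem_left]
  rw [h2, map_sum, ← Finset.sum_neg_distrib]
  refine Finset.sum_congr rfl fun t _ => ?_
  rw [h1, map_smul, neg_smul]

/-- Transverse gradient plus oblique term: `Θ(P_Z v) - Σ_t ⟪v, nn_X(t)⟫ Θ(t) = Θ(v)` for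
`v ∈ T ⊕ Z` orthogonal to `[V, X]`. -/
theorem obl_full (Θ : E →ₗ[ℝ] (F →ₗ[ℂ] F)) (eT : OrthonormalBasis ι ℝ (Tn A c)) {v X : E}
    {Z : Submodule ℝ E} {σ : Type*} [Fintype σ] (z : OrthonormalBasis σ ℝ Z)
    (hv : ∀ w, ⟪v, A w X⟫_ℝ = 0)
    (hTZ : v = (Tn A c).starProjection v + Z.starProjection v) :
    ∑ s, ⟪v, (z s : E)⟫_ℝ • Θ (z s) - ∑ t, ⟪v, nn A c X (eT t)⟫_ℝ • Θ (eT t) = Θ v := by
  rw [obl Θ eT hv]
  have h2 : Z.starProjection v = ∑ s, ⟪v, (z s : E)⟫_ℝ • (z s : E) := by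
    have h3 := z.sum_repr' (Z.orthogonalProjectionOnto v)
    have h4 := congrArg (fun w : Z => (w : E)) h3
    simp only [Submodule.coe_sum, Submodule.coe_smul] at h4
    rw [Submodule.starProjection_apply, ← h4]
    refine Finset.sum_congr rfl fun t _ => ?_
    rw [Submodule.inner_orthogonalProjectionOnto_eq_of_mem_left, real_inner_comm]
  have h5 : ∑ s, ⟪v, (z s : E)⟫_ℝ • Θ (z s) = Θ (Z.starProjection v) := by
    rw [h2, map_sum]
    exact Finset.sum_congr rfl fun s _ => (map_smul _ _ _).symm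
  rw [h5, sub_neg_eq_add, add_comm, ← map_add, ← hTZ]

end Crest.Agent.R330.PairE839

end
end

-- ▼ part R330/PairI_658
section

/-!
# Row 330, S8-T5: the literal instances of the structures of `PairE2_547` (helper658)

`L = Tup C.kk`, `Z = C.Zt σ.X0`, `c = C.cf σ.X0`, `PX p = C.cf (C.cfT p)`.

* `parI`, `cstI`, `geoI` : `PairE547.Par`, `Cst`, `Geo`.
* `HM_lit`  : the heavy main part vanishes on the Gaussian times the heavy vacuum.
* `LC_lit`  : the light charge of `om`.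
* `err_lit` : `QdP τ - τ' = err1 + err2 + err3`.
-/

set_option autoImplicit false
set_option linter.unusedSectionVars false

open MeasureTheory Filter Topology Crest.MathPhysics.MatrixQM
open scoped ContDiff InnerProductSpace ENNReal

noncomputable section

namespace Crest.Agent.R330.PairI658

open Crest.Agent.R330.Defs478 Crest.Agent.R330.LS839 Crest.Agent.R330.Frame839
  Crest.Agent.R330.Clus839 Crest.Agent.R330.Bind6839 Crest.Agent.R330.TDef414
  Crest.Agent.R330.SlG944 Crest.Agent.R330.IBP837 Crest.Agent.R330.PairA547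
  Crest.Agent.R330.PairB547 Crest.Agent.R330.PairE547 Crest.Agent.R330.PairL_862
  Crest.Agent.R330.BrT5658 Crest.Agent.R330.BrT5b658 Crest.Agent.R330.BrT5c658
open Crest.Agent.R330.SlB314 (Nor Tan)
open Crest.Agent.R330.SlD314 (tube)

variable {N p : ℕ} {b : ColorBasis N} {S : Type} [Group S] [Fintype S] {C : Chn b p S}
  {F : Type*} [NormedAddCommGroup F] [InnerProductSpace ℂ F] [FiniteDimensional ℂ F]
  {M : FermionRep N F} {R : GaugeAction b M} {G : GammaNine}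

/-- The position part of a light configuration. -/
def PXI (C : Chn b p S) (L : Submodule ℝ (Cfg N)) : L →ₗ[ℝ] Cfg N :=
  (C.cf.toLinearMap ∘ₗ C.cfT.toLinearMap) ∘ₗ L.subtype

theorem PXI_apply (L : Submodule ℝ (Cfg N)) (x : L) : PXI C L x = C.cf (C.cfT x) := rfl

theorem PXI_le (L : Submodule ℝ (Cfg N)) (x : L) : ‖PXI C L x‖ ≤ ‖x‖ := by
  rw [PXI_apply, C.cf.norm_map]
  exact LitA974.norm_cfT_le C x

/-! ## Instances -/

/-- the parity -/
theorem parI {σ : Sl C} {L Z : Submodule ℝ (Cfg N)} (hL : L = Tup C.kk) (hZ : Z = C.Zt σ.X0)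
    {Γ : F →ₗ[ℂ] F} (h : PairL_862.Par b M (C.cf σ.X0) Γ) (α : Fin 16) :
    PairE547.Par (actB b) (C.cf σ.X0) L Z (ThL M G α) (WqL b M G α) (WlL M G α) Γ := by
  rw [← Uk_eq (reg0 σ)] at hL
  rw [← Zs_eq (reg0 σ)] at hZ
  subst hL hZ
  exact
    { inv := h.inv
      norm_le := fun f => (h.norm f).le
      ThL := fun x f => h.ThU G α x.2 f
      ThZ := fun z f => h.ThZ G α z f
      ThT := fun t f => h.ThT G α t f
      Wqz := fun x z f => h.WqM G α x.2 z.2.1 f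
      Wlz := fun z f => h.WlM G α z.2.1 f
      cL := self_mem_Uk (comc_cf σ.X0) }

/-- the constants -/
theorem cstI (b : ColorBasis N) (M : FermionRep N F) (G : GammaNine) : ∃ K : ℝ, 0 < K ∧ ∀ α,
    Cst (ThL M G α) (WqL b M G α) (WlL M G α) (BfL b M) K := by
  obtain ⟨K, hK, h1, h2, h3, h4⟩ := PairL_862.exists_bounds b M G
  exact ⟨K, hK, fun α => ⟨hK.le, h1 α, h2 α, h3 α, h4⟩⟩

/-- the geometry -/
theorem geoI (σ : Sl C) {L Z : Submodule ℝ (Cfg N)} (hL : L = Tup C.kk) (hZ : Z = C.Zt σ.X0)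
    {ρ : ℝ} (hρ : 0 < ρ) (hρ1 : ρ ≤ 1) (hρr : ρ ≤ σ.r / 2) :
    ∃ r B : ℝ, Geo (actB b) (C.cf σ.X0) L Z (PXI C L) r B ρ := by
  obtain ⟨r₀, B, hr0, hB0, hB, hgap, hBr⟩ := σ.gap
  have hσ := σ.pos
  have hB' : ActBound (actB b) (max B (r₀ / (4 * σ.r))) := fun w x =>
    (hB w x).trans (by gcongr; exact le_max_left _ _)
  have hm : max B (r₀ / (4 * σ.r)) * σ.r ≤ r₀ / 2 := by
    rw [max_mul_of_nonneg _ _ hσ.le]
    refine max_le hBr ?_
    have : r₀ / (4 * σ.r) * σ.r = r₀ / 4 := by field_simp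
    rw [this]
    linarith
  refine ⟨r₀, max B (r₀ / (4 * σ.r)), dec_of hL hZ, hr0, hgap, hB',
    lt_max_of_lt_right (by positivity), hρ, hρ1, ?_, fun x => PXI_le L x, fun x => ?_,
    fun x hx t => ?_⟩
  · refine le_trans ?_ hm
    have : 0 ≤ max B (r₀ / (4 * σ.r)) := hB0.trans (le_max_left _ _)
    exact mul_le_mul_of_nonneg_left (by linarith) this
  · have hmem : ∀ y, y ∈ Tup C.kk → y ∈ L := fun y hy => by rwa [hL]
    exact hmem _ (cf_mem _)
  · rw [hZ, ← Zs_eq (reg0 σ)]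
    refine nn_mem_Zs hr0 hgap hB' ?_ ?_ t
    · refine Submodule.add_mem _ (self_mem_Uk (comc_cf σ.X0)) ?_
      rw [Uk_eq (reg0 σ), ← hL]
      exact x.2
    · rw [add_sub_cancel_left]
      exact hx

/-! ## The heavy main part -/

/-- **The heavy main part vanishes.** -/
theorem HM_lit (P : TPack C M R G) (σ : Sl C) {L Z : Submodule ℝ (Cfg N)}
    (hZ : Z = C.Zt σ.X0) {ρ r B : ℝ} (hG : Geo (actB b) (C.cf σ.X0) L Z (PXI C L) r B ρ)
    {κ η : Type*} [Fintype κ] [Fintype η]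
    (eT : OrthonormalBasis η ℝ (Tn (actB b) (C.cf σ.X0))) (v : OrthonormalBasis κ ℝ Z)
    (g : ℝ) (α : Fin 16) {a : L × Z → ℝ} {ψ : L → F} {x : L × Z} (hx : ‖x.1‖ ≤ ρ)
    (hB : C.BReg (σ.X0 + C.cfT x.1))
    (ha : ∀ w : Z, fderiv ℝ a x (0, w) =
      -(g * ⟪P.A (σ.X0 + C.cfT x.1) x.2, (w : Cfg N)⟫_ℝ) * a x)
    {f : F} (hf : f ∈ C.Fl M G) (hψ : ψ x.1 = P.U (σ.X0 + C.cfT x.1) f) :
    HM (actB b) (C.cf σ.X0) Z (ThL M G α) (WqL b M G α) (PXI C L) eT v g a ψ x = 0 := by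
  classical
  set X := σ.X0 + C.cfT x.1 with hX
  set u := P.A X x.2 with hu
  have hcX : C.cf σ.X0 + PXI C L x.1 = C.cf X := by
    rw [PXI_apply, ← map_add]
  have hmZ : ∀ y, y ∈ Z → y ∈ C.Zt σ.X0 := fun y hy => by rwa [hZ] at hy
  have hzm : ((x.2 : Z) : Cfg N) ∈ Tup C.kkᗮ := (hmZ _ x.2.2).1
  -- the horizontal remainder at the centre point is in `Z`
  have hnn : ∀ t, nn (actB b) (C.cf σ.X0) (C.cf X) t ∈ Z := by
    intro t
    have h1 : PXI C L x.1 ∈ L := hG.PX_mem x.1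
    have h2 := hG.nnZ ⟨PXI C L x.1, h1⟩ (hG.domX hx) t
    rw [hcX] at h2
    exact h2
  have hnZ : ∀ t, ((nZ (actB b) (C.cf σ.X0) L Z (PXI C L) t x.1 : Z) : Cfg N) =
      nn (actB b) (C.cf σ.X0) (C.cf X) t := by
    intro t
    unfold nZ
    rw [hcX]
    exact Submodule.starProjection_eq_self_iff.2 (hnn t)
  -- `u` is orthogonal to the gauge directions at `X`
  have hperp : ∀ w, ⟪u, actB b w (C.cf X)⟫_ℝ = 0 := by
    intro w
    rw [hu, P.A_symm, P.A_gauge X hB.reg w, inner_zero_right]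
  -- `u ∈ T ⊕ Z`
  have huM : u ∈ Mm b (C.cf σ.X0) := by
    rw [Mm_eq (reg0 σ)]
    exact P.A_off X hB.reg _
  have hTZ : u = (Tn (actB b) (C.cf σ.X0)).starProjection u + Z.starProjection u := by
    have h1 := Submodule.starProjection_add_starProjection_orthogonal
      (K := Tn (actB b) (C.cf σ.X0)) u
    set u' := (Tn (actB b) (C.cf σ.X0))ᗮ.starProjection u with hu'
    have h2 : u' ∈ Z := by
      rw [hZ, ← Zs_eq (reg0 σ)]
      refine ⟨?_, Submodule.starProjection_apply_mem _ _⟩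
      have h3 : u' = u - (Tn (actB b) (C.cf σ.X0)).starProjection u :=
        eq_sub_of_add_eq' h1
      rw [h3]
      exact Submodule.sub_mem _ huM (Tn_le_Mm (Submodule.starProjection_apply_mem _ _))
    have h4 : Z.starProjection u = u' := by
      have h5 : ∀ z ∈ Z, z ∈ (Tn (actB b) (C.cf σ.X0))ᗮ := fun z hz => hG.dec.Z_le hz
      conv_lhs => rw [← h1]
      rw [map_add, Submodule.starProjection_eq_self_iff.2 h2]
      have h6 : Z.starProjection ((Tn (actB b) (C.cf σ.X0)).starProjection u) = 0 := by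
        rw [Submodule.starProjection_apply_eq_zero_iff, Submodule.mem_orthogonal]
        intro z hz
        rw [real_inner_comm]
        exact (Submodule.mem_orthogonal _ _).1 (h5 z hz) _
          (Submodule.starProjection_apply_mem _ _)
      rw [h6, zero_add]
    rw [h4]
    exact h1.symm
  have key := PairE839.obl_full (ThL M G α) eT v hperp hTZ
  have key2 := congrArg (fun T : F →ₗ[ℂ] F => T (ψ x.1)) key
  simp only [LinearMap.sub_apply, LinearMap.sum_apply, LinearMap.smul_apply] at key2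
  -- the heavy vacuum
  have hk := P.U_kill X hB f hf x.2 hzm α
  have hk2 : wB b M G 1 α (C.cf X) x.2 (P.U X f) =
      (2 : ℝ) • WqL b M G α (C.cf X) x.2 (P.U X f) := by
    unfold wB
    rw [WqL_apply]
    have h1 : (fun β A => 2 * 1 * wb b G α β A (C.cf X) (x.2 : Cfg N)) =
        fun β A => (2 : ℝ) * wb b G α β A (C.cf X) (x.2 : Cfg N) := by
      funext β A
      ring
    rw [h1, vco_rsmul]
    rfl
  rw [hk2] at hk
  unfold HM
  rw [hcX]
  simp only [ha, hnZ]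
  rw [hψ] at key2 ⊢
  set φ := P.U X f with hφ
  have e1 : (∑ s, (-Complex.I) • ThL M G α (v s)
      ((-(g * ⟪u, ((v s : Z) : Cfg N)⟫_ℝ) * a x) • φ)) =
      (g * a x) • Complex.I • ∑ s, ⟪u, ((v s : Z) : Cfg N)⟫_ℝ • ThL M G α (v s) φ := by
    rw [Finset.smul_sum, Finset.smul_sum]
    refine Finset.sum_congr rfl fun s _ => ?_
    rw [map_rsmul]
    module
  have e2 : (∑ t, Complex.I • ThL M G α (eT t)
      ((-(g * ⟪u, nn (actB b) (C.cf σ.X0) (C.cf X) (eT t)⟫_ℝ) * a x) • φ)) =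
      -((g * a x) • Complex.I •
        ∑ t, ⟪u, nn (actB b) (C.cf σ.X0) (C.cf X) (eT t)⟫_ℝ • ThL M G α (eT t) φ) := by
    rw [Finset.smul_sum, Finset.smul_sum, ← Finset.sum_neg_distrib]
    refine Finset.sum_congr rfl fun s _ => ?_
    rw [map_rsmul]
    module
  rw [e1, e2, ← sub_eq_add_neg, ← smul_sub, ← smul_sub, key2]
  have hk3 : Complex.I • ThL M G α u φ = -((2 : ℝ) • WqL b M G α (C.cf X) x.2 φ) :=
    eq_neg_of_add_eq_zero_left hk
  rw [hk3]
  module

/-! ## The light charge -/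

open LightC916 (rhoE rhoS fderiv_om)

theorem om_eq (P : TPack C M R G) (σ : Sl C) (g : ℝ) (χ : Pos p → C.Fx M G) (q : Cfg N) :
    omT P σ g χ q = LightC916.om P σ.X0 g χ q := rfl

theorem om_zero (P : TPack C M R G) (X0 : Pos p) (g : ℝ) {χ : Pos p → C.Fx M G} {q : Cfg N}
    (h : χ (X0 + C.cfT q) = 0) : LightC916.om P X0 g χ q = 0 := by
  unfold LightC916.om
  rw [h]
  simp

theorem om_eventually (P : TPack C M R G) (X0 : Pos p) (g : ℝ) {χ : Pos p → C.Fx M G}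
    {q : Cfg N} (h : X0 + C.cfT q ∉ tsupport χ) : LightC916.om P X0 g χ =ᶠ[𝓝 q] fun _ => 0 := by
  have h1 : ContinuousAt (fun u : Cfg N => X0 + C.cfT u) q :=
    continuousAt_const.add C.cfT.continuous.continuousAt
  filter_upwards [h1.eventually ((isClosed_tsupport χ).isOpen_compl.mem_nhds h)] with u hu
  exact om_zero P X0 g (image_eq_zero_of_notMem_tsupport hu)

/-- differentiability of the light function -/
theorem diff_om (P : TPack C M R G) (σ : Sl C) {g : ℝ} (hP : ContDiff ℝ 1 (P.Psi g))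
    (χ : Amp M G σ) (q : Cfg N) : DifferentiableAt ℝ (LightC916.om P σ.X0 g χ.fn) q := by
  by_cases h : σ.X0 + C.cfT q ∈ tsupport χ.fn
  · exact (fderiv_om hP (χ.smooth.of_le (by norm_num)) (χ.off _ h) q).1.differentiableAt
  · exact (differentiableAt_const _).congr_of_eventuallyEq (om_eventually P σ.X0 g h)

theorem hasFDerivAt_omL (P : TPack C M R G) (σ : Sl C) {g : ℝ} (hP : ContDiff ℝ 1 (P.Psi g))
    (χ : Amp M G σ) (L : Submodule ℝ (Cfg N)) (q : L) :
    HasFDerivAt (fun q : L => LightC916.om P σ.X0 g χ.fn (q : Cfg N))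
      ((fderiv ℝ (LightC916.om P σ.X0 g χ.fn) (q : Cfg N)).comp L.subtypeL) q :=
  (diff_om P σ hP χ q).hasFDerivAt.comp q L.subtypeL.hasFDerivAt

/-- **The light charge of the light function.** -/
theorem LC_lit (P : TPack C M R G) (σ : Sl C) {g : ℝ} (m : ℝ) (α : Fin 16)
    (hP : ContDiff ℝ 1 (P.Psi g)) (χ : Amp M G σ) {L : Submodule ℝ (Cfg N)} (hL : L = Tup C.kk)
    {ι : Type*} [Fintype ι] (u : OrthonormalBasis ι ℝ L) (q : L) :
    LC (C.cf σ.X0) (ThL M G α) (WqL b M G α) (WlL M G α) u g m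
      (fun q : L => LightC916.om P σ.X0 g χ.fn (q : Cfg N)) q =
    LightC916.om P σ.X0 g (χ.D m α).fn q + rhoE P σ.X0 g α χ.fn q + rhoS P σ.X0 g m α χ.fn q := by
  subst hL
  have hW : ∀ f, Wp (WqL b M G α) (WlL M G α) g m (C.cf σ.X0 + q) f =
      wA b M G g m α (C.cf σ.X0 + q) f := fun f => by
    rw [Wp_lit]
    rfl
  unfold LC
  rw [(hasFDerivAt_omL P σ hP χ _ q).fderiv, hW]
  by_cases h : σ.X0 + C.cfT q ∈ tsupport χ.fn
  · have h1 := LightC916.LC P σ.X0 (g := g) m α hP (χ.smooth.of_le (by norm_num)) u q.2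
      (χ.off _ h)
    exact h1
  · have h0 : χ.fn (σ.X0 + C.cfT q) = 0 := image_eq_zero_of_notMem_tsupport h
    have h1 : fderiv ℝ (LightC916.om P σ.X0 g χ.fn) (q : Cfg N) = 0 := by
      rw [(om_eventually P σ.X0 g h).fderiv_eq]
      simp
    have h2 : (χ.D m α).fn (σ.X0 + C.cfT q) = 0 := by
      by_contra hne
      exact h (tsupport_dirac _ _ _ (subset_tsupport _ hne))
    have h3 : qblk C M G g α (fun Y => P.Psi g Y ((χ.fn (σ.X0 + C.cfT q) : C.Fx M G) : F)) =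
        fun _ => 0 := by
      funext Y
      rw [h0]
      unfold qblk
      simp
    have h4 : LightC916.om P σ.X0 g χ.fn (q : Cfg N) = 0 := om_zero P σ.X0 g h0
    have h5 : LightC916.om P σ.X0 g (χ.D m α).fn (q : Cfg N) = 0 := om_zero P σ.X0 g h2
    simp only [h1, h4, h5]
    unfold rhoE rhoS
    rw [h3, h4, h0]
    simp

/-! ## The error list -/

/-- the trial function in product coordinates -/
theorem tau_lit (P : TPack C M R G) (σ : Sl C) (g : ℝ) {χ : Pos p → C.Fx M G}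
    (hχ : tsupport χ ⊆ Metric.ball σ.X0 (σ.r / 4))
    {L Z : Submodule ℝ (Cfg N)} (hL : L = Tup C.kk) (hZ : Z = C.Zt σ.X0)
    {a₀ : L × Z → ℝ} (ha : ∀ x : L × Z, ‖C.cfT x.1‖ < σ.r / 4 →
      a₀ x = nrm P σ g (σ.X0 + C.cfT x.1) *
        Real.exp (-(g / 2 * ⟪P.A (σ.X0 + C.cfT x.1) x.2, x.2⟫_ℝ))) (x : L × Z) :
    tau P σ g χ ((x.1 : Cfg N) + x.2) =
      (kap σ.r (‖x.2‖ ^ 2) * a₀ x) • LightC916.om P σ.X0 g χ x.1 := by
  have h1 : ((x.1 : L) : Cfg N) ∈ Tup C.kk := by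
    have : ∀ y, y ∈ L → y ∈ Tup C.kk := fun y hy => by rwa [hL] at hy
    exact this _ x.1.2
  have h2 : ((x.2 : Z) : Cfg N) ∈ Tup C.kkᗮ := by
    have : ∀ y, y ∈ Z → y ∈ C.Zt σ.X0 := fun y hy => by rwa [hZ] at hy
    exact (this _ x.2.2).1
  rw [BrT5658.tau_eq P σ g χ h1 h2, om_eq]
  by_cases h : χ (σ.X0 + C.cfT x.1) = 0
  · rw [om_zero P σ.X0 g h, smul_zero, smul_zero]
  · have h3 := hχ (subset_tsupport _ h)
    rw [Metric.mem_ball, dist_eq_norm, add_sub_cancel_left] at h3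
    rw [ha x h3, Complex.coe_smul]
    unfold BrT5658.aT
    congr 1
    have h4 : ‖((x.2 : Z) : Cfg N)‖ = ‖x.2‖ := rfl
    rw [h4]
    ring

/-- **The integrand of the bridge is the error list.** -/
theorem err_lit (P : TPack C M R G) (σ : Sl C) {g : ℝ} (m : ℝ) (α : Fin 16)
    (hP : ContDiff ℝ 1 (P.Psi g)) (χ : Amp M G σ) {L Z : Submodule ℝ (Cfg N)}
    (hL : L = Tup C.kk) (hZ : Z = C.Zt σ.X0) (h : Dec (actB b) (C.cf σ.X0) L Z)
    {ι κ η : Type*} [Fintype ι] [Fintype κ] [Fintype η]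
    (eT : OrthonormalBasis η ℝ (Tn (actB b) (C.cf σ.X0))) (u : OrthonormalBasis ι ℝ L)
    (v : OrthonormalBasis κ ℝ Z) (Γ : F →ₗ[ℂ] F)
    {a₀ : L × Z → ℝ} (ha : ∀ x : L × Z, ‖C.cfT x.1‖ < σ.r / 4 →
      a₀ x = nrm P σ g (σ.X0 + C.cfT x.1) *
        Real.exp (-(g / 2 * ⟪P.A (σ.X0 + C.cfT x.1) x.2, x.2⟫_ℝ)))
    (had : Differentiable ℝ a₀) (x : L × Z) :
    QdP h (ThL M G α) (Wp (WqL b M G α) (WlL M G α) g m) (BfL b M) eT u v
        (fun x : L × Z => tau P σ g χ.fn ((x.1 : Cfg N) + x.2)) x -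
      tau P σ g (χ.D m α).fn ((x.1 : Cfg N) + x.2) =
    err1 (ThL M G α) (WqL b M G α) (WlL M G α) (BfL b M) Γ (PXI C L) eT u v g m h
        (fun x : L × Z => kap σ.r (‖x.2‖ ^ 2) * a₀ x) (fun q => LightC916.om P σ.X0 g χ.fn q)
        (fun q => rhoS P σ.X0 g m α χ.fn q) x +
      err2 (ThL M G α) (WqL b M G α) (BfL b M) Γ (PXI C L) eT u g a₀
        (fun q => LightC916.om P σ.X0 g χ.fn q) (fun q => rhoE P σ.X0 g α χ.fn q) x +
      err3 (ThL M G α) (WqL b M G α) (BfL b M) Γ (PXI C L) eT u g a₀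
        (fun x : L × Z => kap σ.r (‖x.2‖ ^ 2) * a₀ x) (fun q => LightC916.om P σ.X0 g χ.fn q)
        (fun q => rhoE P σ.X0 g α χ.fn q) (fun q => rhoS P σ.X0 g m α χ.fn q) x := by
  have h1 : (fun x : L × Z => tau P σ g χ.fn ((x.1 : Cfg N) + x.2)) =
      fun x => (kap σ.r (‖x.2‖ ^ 2) * a₀ x) • LightC916.om P σ.X0 g χ.fn x.1 := by
    funext x
    exact tau_lit P σ g χ.supp hL hZ ha x
  rw [h1, tau_lit P σ g (χ.D m α).supp hL hZ ha x]
  have hkd : DifferentiableAt ℝ (fun x : L × Z => kap σ.r (‖x.2‖ ^ 2) * a₀ x) x := by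
    have h2 : DifferentiableAt ℝ (fun x : L × Z => kap σ.r (‖x.2‖ ^ 2)) x :=
      ((((contDiff_kap σ.r).comp ((contDiff_norm_sq ℝ).comp
        (contDiff_snd (𝕜 := ℝ) (E := L) (F := Z)))).differentiable (by simp)) x)
    exact h2.fun_mul (had x)
  exact err_eq h (ThL M G α) (fun x y => WqL_comm b M G α x y) (WlL M G α) (BfL b M) Γ
    (PXI C L) eT u v g m (ψ := fun q : L => LightC916.om P σ.X0 g χ.fn (q : Cfg N))
    (ψ' := fun q : L => LightC916.om P σ.X0 g (χ.D m α).fn (q : Cfg N)) hkd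
    (hasFDerivAt_omL P σ hP χ L x.1).differentiableAt
    (LC_lit P σ m α hP χ hL u x.1)

end Crest.Agent.R330.PairI658

end
end

-- ▼ part R330/PairI2_658

/-!
# Row 330, S8-T5: the light function of a trial state (helper658)

`om P σ.X0 g χ.fn q = U_X (Psi_g(Y) (χ X))`, `X = σ.X0 + cfT q`, `Y = PY q`.

* `contDiff_om`, `contDiff_omL` : smoothness on `Cfg N` and on `L = R⁹ ⊗ kk`.
* `om_supp`, `om_far`  : supports: `om` and its derivative vanish for `‖q‖ > r / 3` (`g` large).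
* `par_Fl`, `par_om`   : a parity of `kkᗮ` which is `1` on the heavy vacua at `X0` is `1` on `Fl`, on
  all heavy vacua and on `om`.
-/

set_option autoImplicit false
set_option linter.unusedSectionVars false

open MeasureTheory Filter Topology Crest.MathPhysics.MatrixQM
open scoped ContDiff InnerProductSpace ENNReal

noncomputable section

namespace Crest.Agent.R330.PairI658

open Crest.Agent.R330.Defs478 Crest.Agent.R330.LS839 Crest.Agent.R330.Frame839
  Crest.Agent.R330.Clus839 Crest.Agent.R330.Bind6839 Crest.Agent.R330.TDef414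
  Crest.Agent.R330.SlG944 Crest.Agent.R330.IBP837 Crest.Agent.R330.PairA547
  Crest.Agent.R330.PairB547 Crest.Agent.R330.PairE547 Crest.Agent.R330.PairL_862
  Crest.Agent.R330.BrT5658 Crest.Agent.R330.BrT5b658 Crest.Agent.R330.BrT5c658
open LightC916 (rhoE rhoS fderiv_om)

variable {N p : ℕ} {b : ColorBasis N} {S : Type} [Group S] [Fintype S] {C : Chn b p S}
  {F : Type*} [NormedAddCommGroup F] [InnerProductSpace ℂ F] [FiniteDimensional ℂ F]
  {M : FermionRep N F} {R : GaugeAction b M} {G : GammaNine}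

/-! ## Smoothness and supports -/

theorem contDiff_om (P : TPack C M R G) (σ : Sl C) {g : ℝ} (hΨ : ContDiff ℝ ∞ (P.Psi g))
    (χ : Amp M G σ) : ContDiff ℝ ∞ (LightC916.om P σ.X0 g χ.fn) := by
  rw [contDiff_iff_contDiffAt]
  exact fun y => TCore383.contDiffAt_wT P σ hΨ χ y

theorem contDiff_omL (P : TPack C M R G) (σ : Sl C) {g : ℝ} (hΨ : ContDiff ℝ ∞ (P.Psi g))
    (χ : Amp M G σ) (L : Submodule ℝ (Cfg N)) :
    ContDiff ℝ ∞ fun q : L => LightC916.om P σ.X0 g χ.fn (q : Cfg N) :=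
  (contDiff_om P σ hΨ χ).comp L.subtypeL.contDiff

theorem om_supp (P : TPack C M R G) (σ : Sl C) (g : ℝ) (χ : Amp M G σ) {q : Cfg N}
    (h : LightC916.om P σ.X0 g χ.fn q ≠ 0) :
    σ.X0 + C.cfT q ∈ tsupport χ.fn ∧ ‖C.cfT q‖ < σ.r / 4 ∧ ‖C.PY q‖ < P.s g := by
  have h1 : χ.fn (σ.X0 + C.cfT q) ≠ 0 := fun h0 => h (om_zero P σ.X0 g h0)
  have h2 := subset_tsupport _ h1
  refine ⟨h2, ?_, ?_⟩
  · have h3 := χ.supp h2
    rw [Metric.mem_ball, dist_eq_norm, add_sub_cancel_left] at h3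
    exact h3
  · by_contra h3
    apply h
    unfold LightC916.om
    rw [P.Psi_supp g _ (LitA974.PY_mem C q) (not_lt.1 h3)]
    simp

theorem norm_light (q : Cfg N) (hq : q ∈ Tup C.kk) : ‖q‖ ≤ ‖C.cfT q‖ + ‖C.PY q‖ := by
  have h1 : q = C.cf (C.cfT q) + C.PY q := by
    unfold Chn.PY
    rw [PK_of_mem hq]
    abel
  calc ‖q‖ = ‖C.cf (C.cfT q) + C.PY q‖ := by rw [← h1]
    _ ≤ ‖C.cf (C.cfT q)‖ + ‖C.PY q‖ := norm_add_le _ _
    _ = _ := by rw [C.cf.norm_map]

theorem om_near (P : TPack C M R G) (σ : Sl C) {g : ℝ} (hs : P.s g < σ.r / 12) (χ : Amp M G σ)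
    {L : Submodule ℝ (Cfg N)} (hL : L = Tup C.kk) {q : L}
    (h : LightC916.om P σ.X0 g χ.fn (q : Cfg N) ≠ 0) : ‖q‖ < σ.r / 3 := by
  obtain ⟨-, h2, h3⟩ := om_supp P σ g χ h
  have h4 : ((q : L) : Cfg N) ∈ Tup C.kk := by
    have : ∀ y, y ∈ L → y ∈ Tup C.kk := fun y hy => by rwa [hL] at hy
    exact this _ q.2
  have h5 := norm_light _ h4
  have h6 : ‖q‖ = ‖(q : Cfg N)‖ := rfl
  rw [h6]
  linarith

/-- outside the ball of radius `r / 3` the light function and its derivative vanish -/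
theorem om_far (P : TPack C M R G) (σ : Sl C) {g : ℝ} (hs : P.s g < σ.r / 12) (χ : Amp M G σ)
    {L : Submodule ℝ (Cfg N)} (hL : L = Tup C.kk) {q : L} (h : σ.r / 3 < ‖q‖) :
    LightC916.om P σ.X0 g χ.fn (q : Cfg N) = 0 ∧
      fderiv ℝ (fun q : L => LightC916.om P σ.X0 g χ.fn (q : Cfg N)) q = 0 := by
  have h1 : ∀ q : L, σ.r / 3 < ‖q‖ → LightC916.om P σ.X0 g χ.fn (q : Cfg N) = 0 := by
    intro q hq
    by_contra hne
    exact absurd (om_near P σ hs χ hL hne) (not_lt.2 hq.le)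
  refine ⟨h1 q h, ?_⟩
  have h2 : (fun q : L => LightC916.om P σ.X0 g χ.fn (q : Cfg N)) =ᶠ[𝓝 q] fun _ => 0 := by
    filter_upwards [(isOpen_lt continuous_const continuous_norm).mem_nhds h] with y hy
    exact h1 y hy
  rw [h2.fderiv_eq]
  simp


/-- all the conditions on `g` hold eventually -/
theorem eventually_s (P : TPack C M R G) (σ : Sl C) : ∀ᶠ g in atTop, P.s g < σ.r / 12 :=
  P.s_lim.eventually (isOpen_Iio.mem_nhds (by
    have := σ.pos
    simp only [Set.mem_Iio]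
    linarith))

/-! ## The parity -/









/-- the light function has values in the heavy vacua -/
theorem om_vac (P : TPack C M R G) (X0 : Pos p) (g : ℝ) (χ : Pos p → C.Fx M G) (q : Cfg N) :
    ∃ f ∈ C.Fl M G, LightC916.om P X0 g χ q = P.U (X0 + C.cfT q) f :=
  ⟨_, P.Psi_mem g _ (LitA974.PY_mem C q) _ (χ _).2, rfl⟩

end Crest.Agent.R330.PairI658

end
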