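import Crest.Agent.R330.GPar_984
import Crest.Agent.R330.BrT5_658
import Crest.Agent.R330.PairE2_547
import Crest.Agent.R330.PairC_714
import Crest.Agent.R330.AX_984
import Crest.Agent.R330.PairT_714

-- ▼ part R330/A0_416
section

/-!
# Row 330, S8-PAIR (e1): the bosonic amplitude `a0 = √(J X) · G_g(A_X; z)` (helper416)

`P` parameter space (centre directions), `Z` the fibre of heavy transverse directions.
`a0 J A g X z = √(J X) * G g (A X) z`.  Everything is uniform for `X` in an open set `W`.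

* `Pk` : the package of hypotheses on an open set; `exists_pk` : it exists near every point.
* `contDiffAt_a0`, `hasFDerivAt_a0`, `fderiv_a0` : joint smoothness and derivative.
* `abs_dx_le` : `|∂_x a0| ≤ C (1 + g|z|²) a0`.
* `int_a0_sq`, `moment`, `tail`, `int_dx_sq_le` : `L²` bounds.
* `vac_dx` : `∫ G ∂_e a0 = ∂_e √J`; `vac_dx_cut` : the same with a cut-off.
-/

set_option autoImplicit false
set_option linter.unusedSectionVars false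
set_option linter.unusedVariables false
set_option linter.deprecated false

open MeasureTheory Filter Topology Real
open scoped InnerProductSpace ContDiff

noncomputable section

namespace Crest.Agent.R330.A0416

open Crest.Agent.R330.SqrtPD984 Crest.Agent.R330.GPar984

variable {P : Type*} [NormedAddCommGroup P] [NormedSpace ℝ P]
  {Z : Type*} [NormedAddCommGroup Z] [InnerProductSpace ℝ Z] [FiniteDimensional ℝ Z]
  [MeasurableSpace Z] [BorelSpace Z]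

/-- logarithmic derivative of `G` (or `a0`) in the parameter -/
def xi (l : P →L[ℝ] ℝ) (A' : P →L[ℝ] (Z →L[ℝ] Z)) (g : ℝ) (z : Z) : P →L[ℝ] ℝ :=
  l - (g / 2) • ((innerSL ℝ z).comp ((ContinuousLinearMap.apply ℝ Z z).comp A'))

theorem xi_apply (l : P →L[ℝ] ℝ) (A' : P →L[ℝ] (Z →L[ℝ] Z)) (g : ℝ) (z : Z) (v : P) :
    xi l A' g z v = l v - (g / 2) * ⟪z, (A' v) z⟫_ℝ := by
  simp only [xi, ContinuousLinearMap.sub_apply, ContinuousLinearMap.smul_apply,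
    ContinuousLinearMap.comp_apply, ContinuousLinearMap.apply_apply, innerSL_apply_apply,
    smul_eq_mul]

/-- the amplitude -/
def a0 (J : P → ℝ) (A : P → (Z →L[ℝ] Z)) (g : ℝ) (X : P) (z : Z) : ℝ :=
  Real.sqrt (J X) * G g (A X) z

/-- the package, on the open set `W` -/
structure Pk (m : WithTop ℕ∞) (A : P → (Z →L[ℝ] Z)) (J : P → ℝ) (l : P → (P →L[ℝ] ℝ))
    (a K M j0 : ℝ) (W : Set P) : Prop where
  isOpen : IsOpen W
  a_pos : 0 < a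
  M_nonneg : 0 ≤ M
  j_pos : 0 < j0
  cdA : ∀ X ∈ W, ContDiffAt ℝ m A X
  cdJ : ∀ X ∈ W, ContDiffAt ℝ m J X
  ub : ∀ X ∈ W, UB a K (A X)
  dA : ∀ X ∈ W, ‖fderiv ℝ A X‖ ≤ M
  hl : ∀ X ∈ W, ‖l X‖ ≤ M
  dG : ∀ X ∈ W, ∀ (g : ℝ) (z : Z),
    HasFDerivAt (fun c => G g (A c) z) (G g (A X) z • xi (l X) (fderiv ℝ A X) g z) X
  J0 : ∀ X ∈ W, j0 ≤ J X
  J1 : ∀ X ∈ W, J X ≤ M
  dJ : ∀ X ∈ W, ‖fderiv ℝ J X‖ ≤ M

theorem exists_pk {m : WithTop ℕ∞} (hm : m ≠ 0) {A : P → (Z →L[ℝ] Z)} {J : P → ℝ} {b : P}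
    {W0 : Set P} (hW : IsOpen W0) (hb : b ∈ W0) (hA : ∀ X ∈ W0, ContDiffAt ℝ m A X)
    (hs : ∀ X ∈ W0, Sy (A X)) (hp : PD (A b)) (hJ : ∀ X ∈ W0, ContDiffAt ℝ m J X)
    (hJ0 : 0 < J b) :
    ∃ (l : P → (P →L[ℝ] ℝ)) (a K M j0 : ℝ) (W : Set P), b ∈ W ∧ W ⊆ W0 ∧
      Pk m A J l a K M j0 W := by
  have hW' : ∀ᶠ X in 𝓝 b, X ∈ W0 := hW.mem_nhds hb
  obtain ⟨a, K, M, l, ha, hM, h⟩ := exists_param_bounds hm (hA b hb)
    (hW'.mono fun X hX => hs X hX) hp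
  have h1m : (1 : WithTop ℕ∞) ≤ m := ENat.one_le_iff_ne_zero_withTop.mpr hm
  have hJ1 : ContDiffAt ℝ 1 J b := (hJ b hb).of_le h1m
  have hJc : ContinuousAt J b := hJ1.continuousAt
  have hdJ : ContinuousAt (fderiv ℝ J) b :=
    (hJ1.fderiv_right (m := 0) (by norm_num)).continuousAt
  have hdJ' : Tendsto (fun b' => ‖fderiv ℝ J b'‖) (𝓝 b) (𝓝 ‖fderiv ℝ J b‖) :=
    (continuous_norm (E := P →L[ℝ] ℝ)).continuousAt.tendsto.comp hdJ
  set M' : ℝ := max M (max (J b + 1) (‖fderiv ℝ J b‖ + 1)) with hM'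
  have e1 : ∀ᶠ X in 𝓝 b, J b / 2 < J X := hJc.eventually (lt_mem_nhds (by linarith))
  have e2 : ∀ᶠ X in 𝓝 b, J X < J b + 1 := hJc.eventually (gt_mem_nhds (by linarith))
  have e3 : ∀ᶠ X in 𝓝 b, ‖fderiv ℝ J X‖ < ‖fderiv ℝ J b‖ + 1 :=
    Filter.Tendsto.eventually_lt_const (by linarith) hdJ'
  have hall := (((h.and e1).and e2).and e3).and hW'
  obtain ⟨W, hWs, hWo, hbW⟩ := eventually_nhds_iff.mp hall
  refine ⟨l, a, K, M', J b / 2, W, hbW, fun X hX => (hWs X hX).2, ?_⟩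
  have hMM : M ≤ M' := le_max_left _ _
  refine ⟨hWo, ha, hM.trans hMM, by linarith, fun X hX => hA X (hWs X hX).2,
    fun X hX => hJ X (hWs X hX).2, fun X hX => (hWs X hX).1.1.1.1.1,
    fun X hX => (hWs X hX).1.1.1.1.2.1.trans hMM, fun X hX => (hWs X hX).1.1.1.1.2.2.1.trans hMM,
    fun X hX g z => (hWs X hX).1.1.1.1.2.2.2 g z, fun X hX => (hWs X hX).1.1.1.2.le,
    fun X hX => (hWs X hX).1.1.2.le.trans ((le_max_left _ _).trans (le_max_right _ _)),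
    fun X hX => (hWs X hX).1.2.le.trans ((le_max_right _ _).trans (le_max_right _ _))⟩

section use

variable {m : WithTop ℕ∞} {A : P → (Z →L[ℝ] Z)} {J : P → ℝ} {l : P → (P →L[ℝ] ℝ)}
  {a K M j0 : ℝ} {W : Set P}

theorem Pk.pd (h : Pk m A J l a K M j0 W) {X : P} (hX : X ∈ W) : PD (A X) := (h.ub X hX).1

theorem Pk.J_pos (h : Pk m A J l a K M j0 W) {X : P} (hX : X ∈ W) : 0 < J X :=
  h.j_pos.trans_le (h.J0 X hX)

theorem Pk.a0_pos (h : Pk m A J l a K M j0 W) {X : P} (hX : X ∈ W) {g : ℝ} (hg : 0 < g) (z : Z) :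
    0 < a0 J A g X z :=
  mul_pos (Real.sqrt_pos.mpr (h.J_pos hX)) (G_pos hg (h.pd hX) z)

theorem Pk.a0_sq (h : Pk m A J l a K M j0 W) {X : P} (hX : X ∈ W) (g : ℝ) (z : Z) :
    a0 J A g X z ^ 2 = J X * G g (A X) z ^ 2 := by
  rw [a0, mul_pow, Real.sq_sqrt (h.J_pos hX).le]



/-- the logarithmic derivative of `a0` -/
def la (J : P → ℝ) (l : P → (P →L[ℝ] ℝ)) (X : P) : P →L[ℝ] ℝ :=
  l X + (2 * J X)⁻¹ • fderiv ℝ J X

theorem Pk.hasFDerivAt_sqrt (h : Pk m A J l a K M j0 W) (hm : m ≠ 0) {X : P} (hX : X ∈ W) :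
    HasFDerivAt (fun X => Real.sqrt (J X)) ((Real.sqrt (J X) * (2 * J X)⁻¹) • fderiv ℝ J X) X := by
  have hJ : HasFDerivAt J (fderiv ℝ J X) X :=
    ((h.cdJ X hX).differentiableAt hm).hasFDerivAt
  have h1 := hJ.sqrt (h.J_pos hX).ne'
  refine h1.congr_fderiv ?_
  congr 1
  have h2 : Real.sqrt (J X) * Real.sqrt (J X) = J X := Real.mul_self_sqrt (h.J_pos hX).le
  have h3 : 0 < Real.sqrt (J X) := Real.sqrt_pos.mpr (h.J_pos hX)
  rw [← h2]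
  rw [Real.sqrt_mul_self h3.le]
  field_simp

/-- derivative in the parameter -/
theorem Pk.hasFDerivAt_x (h : Pk m A J l a K M j0 W) (hm : m ≠ 0) {X : P} (hX : X ∈ W) (g : ℝ)
    (z : Z) : HasFDerivAt (fun X' => a0 J A g X' z)
      (a0 J A g X z • xi (la J l X) (fderiv ℝ A X) g z) X := by
  have h1 := (h.hasFDerivAt_sqrt hm hX).mul (h.dG X hX g z)
  refine h1.congr_fderiv ?_
  ext v
  simp only [ContinuousLinearMap.add_apply, ContinuousLinearMap.smul_apply, smul_eq_mul, xi_apply,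
    la, a0]
  ring

/-- derivative in the fibre -/
theorem Pk.hasFDerivAt_z (h : Pk m A J l a K M j0 W) {X : P} (hX : X ∈ W) (g : ℝ) (z : Z) :
    HasFDerivAt (a0 J A g X) ((-(g * a0 J A g X z)) • innerSL ℝ (A X z)) z := by
  have h1 := (hasFDerivAt_G g (h.pd hX).1 z).const_mul (Real.sqrt (J X))
  refine h1.congr_fderiv ?_
  ext v
  simp only [ContinuousLinearMap.smul_apply, smul_eq_mul, a0]
  ring

theorem Pk.contDiffAt_a0 (h : Pk m A J l a K M j0 W) (hm : m ≠ 0) {X : P} (hX : X ∈ W) (g : ℝ)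
    (z : Z) : ContDiffAt ℝ m (fun q : P × Z => a0 J A g q.1 q.2) (X, z) := by
  have h1 : ContDiffAt ℝ m (fun q : P × Z => G g (A q.1) q.2) (X, z) :=
    contDiffAt_G hm g (h.cdA X hX)
      (by filter_upwards [h.isOpen.mem_nhds hX] with X' h' using (h.pd h').1) (h.pd hX)
  have h2 : ContDiffAt ℝ m (fun q : P × Z => Real.sqrt (J q.1)) (X, z) := by
    have h3 : ContDiffAt ℝ m (fun q : P × Z => J q.1) (X, z) :=
      ContDiffAt.comp (X, z) (g := J) (f := Prod.fst) (h.cdJ X hX) contDiffAt_fst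
    exact h3.sqrt (h.J_pos hX).ne'
  exact h2.mul h1

/-- joint derivative -/
theorem Pk.hasFDerivAt_a0 (h : Pk m A J l a K M j0 W) (hm : m ≠ 0) {X : P} (hX : X ∈ W) (g : ℝ)
    (z : Z) : HasFDerivAt (fun q : P × Z => a0 J A g q.1 q.2)
      (a0 J A g X z • ((xi (la J l X) (fderiv ℝ A X) g z).comp (ContinuousLinearMap.fst ℝ P Z) -
        g • (innerSL ℝ (A X z)).comp (ContinuousLinearMap.snd ℝ P Z))) (X, z) := by
  have hd : DifferentiableAt ℝ (fun q : P × Z => a0 J A g q.1 q.2) (X, z) :=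
    (h.contDiffAt_a0 hm hX g z).differentiableAt hm
  have h0 := hd.hasFDerivAt
  have e1 : HasFDerivAt (fun X' => a0 J A g X' z)
      ((fderiv ℝ (fun q : P × Z => a0 J A g q.1 q.2) (X, z)).comp
        (ContinuousLinearMap.inl ℝ P Z)) X := by
    exact HasFDerivAt.comp (g := fun q : P × Z => a0 J A g q.1 q.2) (f := fun X' : P => (X', z))
      X h0 (hasFDerivAt_prodMk_left X z)
  have e2 : HasFDerivAt (a0 J A g X)
      ((fderiv ℝ (fun q : P × Z => a0 J A g q.1 q.2) (X, z)).comp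
        (ContinuousLinearMap.inr ℝ P Z)) z := by
    exact HasFDerivAt.comp (g := fun q : P × Z => a0 J A g q.1 q.2) (f := fun z' : Z => (X, z'))
      z h0 (hasFDerivAt_prodMk_right X z)
  have u1 := e1.unique (h.hasFDerivAt_x hm hX g z)
  have u2 := e2.unique (h.hasFDerivAt_z hX g z)
  refine h0.congr_fderiv ?_
  ext v
  · have := congrArg (fun L : P →L[ℝ] ℝ => L v) u1
    simp only [ContinuousLinearMap.comp_apply, ContinuousLinearMap.smul_apply, smul_eq_mul] at this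
    simp only [ContinuousLinearMap.comp_apply, ContinuousLinearMap.smul_apply,
      ContinuousLinearMap.sub_apply, smul_eq_mul]
    rw [this]
    simp
  · have := congrArg (fun L : Z →L[ℝ] ℝ => L v) u2
    simp only [ContinuousLinearMap.comp_apply, ContinuousLinearMap.smul_apply, smul_eq_mul] at this
    simp only [ContinuousLinearMap.comp_apply, ContinuousLinearMap.smul_apply,
      ContinuousLinearMap.sub_apply, smul_eq_mul]
    rw [this]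
    simp
    ring

theorem Pk.fderiv_a0 (h : Pk m A J l a K M j0 W) (hm : m ≠ 0) {X : P} (hX : X ∈ W) (g : ℝ)
    (z : Z) (e : P) (ζ : Z) : fderiv ℝ (fun q : P × Z => a0 J A g q.1 q.2) (X, z) (e, ζ) =
      a0 J A g X z * (xi (la J l X) (fderiv ℝ A X) g z e - g * ⟪A X z, ζ⟫_ℝ) := by
  rw [(h.hasFDerivAt_a0 hm hX g z).fderiv]
  simp

/-- the constant of the logarithmic derivative -/
theorem Pk.norm_la (h : Pk m A J l a K M j0 W) {X : P} (hX : X ∈ W) :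
    ‖la J l X‖ ≤ M + M / (2 * j0) := by
  have h0 := h.J_pos hX
  have h1 : ‖(2 * J X)⁻¹ • fderiv ℝ J X‖ ≤ M / (2 * j0) := by
    rw [norm_smul, norm_inv, Real.norm_of_nonneg (by positivity), inv_mul_eq_div]
    have := h.j_pos
    have hM := h.M_nonneg
    gcongr
    · exact h.dJ X hX
    · exact h.J0 X hX
  exact (norm_add_le _ _).trans (add_le_add (h.hl X hX) h1)

/-- the uniform constant -/
def CC (M j0 : ℝ) : ℝ := M + M / (2 * j0)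

theorem Pk.CC_nonneg (h : Pk m A J l a K M j0 W) : 0 ≤ CC M j0 := by
  have := h.M_nonneg; have := h.j_pos; unfold CC; positivity

theorem Pk.M_le_CC (h : Pk m A J l a K M j0 W) : M ≤ CC M j0 := by
  have := h.M_nonneg; have := h.j_pos
  have : 0 ≤ M / (2 * j0) := by positivity
  unfold CC; linarith

theorem Pk.norm_xi_le (h : Pk m A J l a K M j0 W) {X : P} (hX : X ∈ W) {g : ℝ} (hg : 0 < g)
    (z : Z) : ‖xi (la J l X) (fderiv ℝ A X) g z‖ ≤ CC M j0 * (1 + g * ‖z‖ ^ 2) :=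
  norm_L_le g hg h.CC_nonneg (h.norm_la hX) ((h.dA X hX).trans h.M_le_CC) z

theorem Pk.abs_xi_le (h : Pk m A J l a K M j0 W) {X : P} (hX : X ∈ W) {g : ℝ} (hg : 0 < g)
    (z : Z) (e : P) :
    |xi (la J l X) (fderiv ℝ A X) g z e| ≤ CC M j0 * (1 + g * ‖z‖ ^ 2) * ‖e‖ := by
  have h1 := (xi (la J l X) (fderiv ℝ A X) g z).le_opNorm e
  rw [Real.norm_eq_abs] at h1
  exact h1.trans (mul_le_mul_of_nonneg_right (h.norm_xi_le hX hg z) (norm_nonneg _))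

/-- `|∂_e a0| ≤ C (1 + g|z|²) a0 |e|` -/
theorem Pk.abs_dx_le (h : Pk m A J l a K M j0 W) {X : P} (hX : X ∈ W) {g : ℝ} (hg : 0 < g)
    (z : Z) (e : P) : |a0 J A g X z * xi (la J l X) (fderiv ℝ A X) g z e| ≤
      CC M j0 * (1 + g * ‖z‖ ^ 2) * ‖e‖ * a0 J A g X z := by
  rw [abs_mul, abs_of_pos (h.a0_pos hX hg z), mul_comm]
  exact mul_le_mul_of_nonneg_right (h.abs_xi_le hX hg z e) (h.a0_pos hX hg z).le

theorem Pk.integrable_mom (h : Pk m A J l a K M j0 W) {X : P} (hX : X ∈ W) {g : ℝ} (hg : 0 < g)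
    (k : ℕ) : Integrable (fun z : Z => (g * ‖z‖ ^ 2) ^ k * a0 J A g X z ^ 2) := by
  have h1 := (integrable_mul_G_sq h.a_pos hg (h.ub X hX) k).const_mul (J X)
  refine h1.congr (ae_of_all _ fun z => ?_)
  simp only [h.a0_sq hX]
  ring


theorem memLp_G {a K g : ℝ} (ha : 0 < a) (hg : 0 < g) {B : Z →L[ℝ] Z} (h : UB a K B) :
    MemLp (G g B) 2 := by
  rw [memLp_two_iff_integrable_sq (continuous_G g B).aestronglyMeasurable]
  simpa using integrable_mul_G_sq ha hg h 0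

/-- all moments, uniformly on `W` -/
theorem Pk.moment (h : Pk m A J l a K M j0 W) (k : ℕ) :
    ∃ C : ℝ, 0 ≤ C ∧ ∀ g : ℝ, 0 < g → ∀ X ∈ W,
      ∫ z : Z, (g * ‖z‖ ^ 2) ^ k * a0 J A g X z ^ 2 ≤ C := by
  obtain ⟨C, hC0, hC⟩ := moment_le (Z := Z) a K h.a_pos k
  refine ⟨M * C, mul_nonneg h.M_nonneg hC0, fun g hg X hX => ?_⟩
  have h1 : ∀ z : Z, (g * ‖z‖ ^ 2) ^ k * a0 J A g X z ^ 2 =
      J X * ((g * ‖z‖ ^ 2) ^ k * G g (A X) z ^ 2) := fun z => by rw [h.a0_sq hX]; ring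
  simp only [h1]
  rw [integral_const_mul]
  have h2 : 0 ≤ ∫ z : Z, (g * ‖z‖ ^ 2) ^ k * G g (A X) z ^ 2 :=
    integral_nonneg fun z => by positivity
  exact mul_le_mul (h.J1 X hX) (hC g hg _ (h.ub X hX)) h2 h.M_nonneg

/-- tails, uniformly on `W` -/
theorem Pk.tail (h : Pk m A J l a K M j0 W) (k n : ℕ) :
    ∃ C : ℝ, 0 ≤ C ∧ ∀ g : ℝ, 0 < g → ∀ δ : ℝ, 0 < δ → ∀ X ∈ W,
      ∫ z in {z : Z | δ ≤ ‖z‖}, (g * ‖z‖ ^ 2) ^ k * a0 J A g X z ^ 2 ≤ C * (g * δ ^ 2)⁻¹ ^ n := by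
  obtain ⟨C, hC0, hC⟩ := tail_le (Z := Z) a K h.a_pos k n
  refine ⟨M * C, mul_nonneg h.M_nonneg hC0, fun g hg δ hδ X hX => ?_⟩
  have h1 : ∀ z : Z, (g * ‖z‖ ^ 2) ^ k * a0 J A g X z ^ 2 =
      J X * ((g * ‖z‖ ^ 2) ^ k * G g (A X) z ^ 2) := fun z => by rw [h.a0_sq hX]; ring
  simp only [h1]
  rw [integral_const_mul, mul_assoc]
  have h2 : 0 ≤ ∫ z in {z : Z | δ ≤ ‖z‖}, (g * ‖z‖ ^ 2) ^ k * G g (A X) z ^ 2 :=
    integral_nonneg fun z => by positivity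
  exact mul_le_mul (h.J1 X hX) (hC g hg δ hδ _ (h.ub X hX)) h2 h.M_nonneg

theorem continuous_xi (l : P →L[ℝ] ℝ) (A' : P →L[ℝ] (Z →L[ℝ] Z)) (g : ℝ) (e : P) :
    Continuous fun z : Z => xi l A' g z e := by
  simp only [xi_apply]
  fun_prop


/-- the vacuum mean of the logarithmic derivative of the normalised Gaussian vanishes -/
theorem Pk.vac_G (h : Pk m A J l a K M j0 W) {X : P} (hX : X ∈ W) {g : ℝ} (hg : 0 < g) (e : P) :
    ∫ z : Z, G g (A X) z ^ 2 * xi (l X) (fderiv ℝ A X) g z e = 0 := by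
  have hev : ∀ᶠ b' in 𝓝 X, UB a K (A b') ∧ ‖fderiv ℝ A b'‖ ≤ M ∧ ‖l b'‖ ≤ M ∧
      (∀ (g : ℝ) (z : Z), HasFDerivAt (fun c => G g (A c) z) ((G g (A b') z) • (l b' -
        (g / 2) • ((innerSL ℝ z).comp ((ContinuousLinearMap.apply ℝ Z z).comp
          (fderiv ℝ A b'))))) b') := by
    filter_upwards [h.isOpen.mem_nhds hX] with b' hb'
    exact ⟨h.ub b' hb', h.dA b' hb', h.hl b' hb', h.dG b' hb'⟩
  have := param_orth h.a_pos h.M_nonneg hev g hg e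
  simpa only [xi_apply] using this

/-- `∫ G ∂_e a0 = ∂_e √J` -/
theorem Pk.vac_dx (h : Pk m A J l a K M j0 W) {X : P} (hX : X ∈ W) {g : ℝ} (hg : 0 < g) (e : P) :
    Integrable (fun z : Z => G g (A X) z * (a0 J A g X z * xi (la J l X) (fderiv ℝ A X) g z e)) ∧
    ∫ z : Z, G g (A X) z * (a0 J A g X z * xi (la J l X) (fderiv ℝ A X) g z e) =
      Real.sqrt (J X) * ((2 * J X)⁻¹ * fderiv ℝ J X e) := by
  have i1 : Integrable (fun z : Z => G g (A X) z ^ 2 * xi (l X) (fderiv ℝ A X) g z e) := by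
    have hb := ((integrable_mul_G_sq h.a_pos hg (h.ub X hX) 0).add
      (integrable_mul_G_sq h.a_pos hg (h.ub X hX) 1)).const_mul (M * ‖e‖)
    refine hb.mono' ((((continuous_G g (A X)).pow 2).mul
      (continuous_xi _ _ g e)).aestronglyMeasurable) (ae_of_all _ fun z => ?_)
    have h1 : |xi (l X) (fderiv ℝ A X) g z e| ≤ M * (1 + g * ‖z‖ ^ 2) * ‖e‖ := by
      have h2 := (xi (l X) (fderiv ℝ A X) g z).le_opNorm e
      rw [Real.norm_eq_abs] at h2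
      exact h2.trans (mul_le_mul_of_nonneg_right
        (norm_L_le g hg h.M_nonneg (h.hl X hX) (h.dA X hX) z) (norm_nonneg _))
    simp only [Pi.add_apply]
    rw [norm_mul, Real.norm_of_nonneg (sq_nonneg _), Real.norm_eq_abs]
    calc G g (A X) z ^ 2 * |xi (l X) (fderiv ℝ A X) g z e|
        ≤ G g (A X) z ^ 2 * (M * (1 + g * ‖z‖ ^ 2) * ‖e‖) := by gcongr
      _ = _ := by ring
  have i0 : Integrable (fun z : Z => G g (A X) z ^ 2) := by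
    simpa using integrable_mul_G_sq h.a_pos hg (h.ub X hX) 0
  have hpt : ∀ z : Z, G g (A X) z * (a0 J A g X z * xi (la J l X) (fderiv ℝ A X) g z e) =
      Real.sqrt (J X) * (G g (A X) z ^ 2 * xi (l X) (fderiv ℝ A X) g z e) +
      (Real.sqrt (J X) * ((2 * J X)⁻¹ * fderiv ℝ J X e)) * G g (A X) z ^ 2 := by
    intro z
    simp only [xi_apply, la, a0, ContinuousLinearMap.add_apply, ContinuousLinearMap.smul_apply,
      smul_eq_mul]
    ring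
  refine ⟨?_, ?_⟩
  · simp only [hpt]
    exact (i1.const_mul _).add (i0.const_mul _)
  · simp only [hpt]
    rw [integral_add (i1.const_mul _) (i0.const_mul _), integral_const_mul, integral_const_mul,
      h.vac_G hX hg e, integral_G_sq hg (h.pd hX)]
    ring


end use

end Crest.Agent.R330.A0416

end
end

-- ▼ part R330/A0_151
section

/-!
# The Gaussian amplitude `a0` of the trial maps in the normal form of 547 (helper151)

`nh A j g X = j X / ∫ z, exp (-g ⟪A X z, z⟫)`, `a0 A j g X z = √(nh A j g X) * exp (-(g/2) ⟪A X z, z⟫)`.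

* `a0_eq` : `a0 = √(j X) * GPar984.G g (A X) z`.
* `a0_sq`, `integral_a0_sq` (`= j X`), `hasFDerivAt_a0` (in `z`), `moment_a0`, `tail_a0`,
  `second_moment_a0`, `odd_a0`; `exists_bounds` : uniformity near a point.
-/

set_option autoImplicit false
set_option linter.unusedSectionVars false

open MeasureTheory Filter Topology Set Real
open scoped InnerProductSpace

noncomputable section

namespace Crest.Agent.R330.A0151

open SqrtPD984 GPar984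

variable {P Z : Type*} [NormedAddCommGroup Z] [InnerProductSpace ℝ Z] [FiniteDimensional ℝ Z]
  [MeasurableSpace Z] [BorelSpace Z]

/-- Squared normalisation. -/
def nh (A : P → (Z →L[ℝ] Z)) (j : P → ℝ) (g : ℝ) (X : P) : ℝ :=
  j X / ∫ z : Z, exp (-g * ⟪A X z, z⟫_ℝ)

/-- Gaussian amplitude. -/
def a0 (A : P → (Z →L[ℝ] Z)) (j : P → ℝ) (g : ℝ) (X : P) (z : Z) : ℝ :=
  √(nh A j g X) * exp (-(g / 2) * ⟪A X z, z⟫_ℝ)

variable {A : P → (Z →L[ℝ] Z)} {j : P → ℝ} {g : ℝ} {X : P}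





/-- The amplitude is `√j` times the normalised Gaussian. -/
theorem a0_eq (hg : 0 < g) (hA : PD (A X)) (_hj : 0 ≤ j X) (z : Z) :
    a0 A j g X z = √(j X) * G g (A X) z := by
  have hd : 0 < |dt (psq (A X))| := abs_pos.2 (dt_ne_zero (psq_pd hA))
  have hgp : 0 < g / π := div_pos hg pi_pos
  unfold a0 nh G
  rw [integral_exp_quad hA hg, Real.sqrt_div' _ (by positivity)]
  have h1 : √((π / g) ^ (Module.finrank ℝ Z / 2 : ℝ) / |dt (psq (A X))|) =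
      ((g / π) ^ (Module.finrank ℝ Z / 4 : ℝ))⁻¹ * (√|dt (psq (A X))|)⁻¹ := by
    rw [Real.sqrt_div' _ hd.le, div_eq_mul_inv]
    congr 1
    rw [Real.sqrt_eq_rpow, ← Real.rpow_mul (by positivity), ← inv_div g π,
      Real.inv_rpow hgp.le]
    congr 2
    ring
  rw [h1]
  have h2 : 0 < (g / π) ^ (Module.finrank ℝ Z / 4 : ℝ) := by positivity
  have h3 : 0 < √|dt (psq (A X))| := Real.sqrt_pos.2 hd
  field_simp

theorem a0_sq (hg : 0 < g) (hA : PD (A X)) (hj : 0 ≤ j X) (z : Z) :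
    a0 A j g X z ^ 2 = j X * G g (A X) z ^ 2 := by
  rw [a0_eq hg hA hj, mul_pow, Real.sq_sqrt hj]




/-- Derivative in `z`. -/
theorem hasFDerivAt_a0 (hA : Sy (A X)) (z : Z) :
    HasFDerivAt (a0 A j g X) ((-(g * a0 A j g X z)) • innerSL ℝ (A X z)) z := by
  have h := ((hasFDerivAt_quad hA z).const_mul (-(g / 2))).exp.const_mul (√(nh A j g X))
  refine h.congr_fderiv ?_
  ext v
  simp only [_root_.smul_apply, innerSL_apply_apply, smul_eq_mul, a0]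
  ring

theorem fderiv_a0 (hA : Sy (A X)) (z v : Z) :
    fderiv ℝ (a0 A j g X) z v = -(g * a0 A j g X z) * ⟪A X z, v⟫_ℝ := by
  rw [(hasFDerivAt_a0 hA z).fderiv]
  rfl


/-- Integrals against `a0²`. -/
theorem integral_mul_a0_sq (hg : 0 < g) (hA : PD (A X)) (hj : 0 ≤ j X) (u : Z → ℝ) :
    ∫ z : Z, u z * a0 A j g X z ^ 2 = j X * ∫ z : Z, u z * G g (A X) z ^ 2 := by
  rw [← integral_const_mul]
  refine integral_congr_ae (ae_of_all _ fun z => ?_)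
  show u z * a0 A j g X z ^ 2 = j X * (u z * G g (A X) z ^ 2)
  rw [a0_sq hg hA hj]
  ring

theorem setIntegral_mul_a0_sq (hg : 0 < g) (hA : PD (A X)) (hj : 0 ≤ j X) (u : Z → ℝ) (S : Set Z) :
    ∫ z in S, u z * a0 A j g X z ^ 2 = j X * ∫ z in S, u z * G g (A X) z ^ 2 := by
  rw [← integral_const_mul]
  refine integral_congr_ae (ae_of_all _ fun z => ?_)
  show u z * a0 A j g X z ^ 2 = j X * (u z * G g (A X) z ^ 2)
  rw [a0_sq hg hA hj]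
  ring




/-- **Moments.** -/
theorem moment_a0 (a K J : ℝ) (ha : 0 < a) (k : ℕ) :
    ∃ C : ℝ, 0 ≤ C ∧ ∀ (A : P → (Z →L[ℝ] Z)) (j : P → ℝ) (g : ℝ) (X : P), 0 < g →
      UB a K (A X) → 0 ≤ j X → j X ≤ J →
      ∫ z : Z, (g * ‖z‖ ^ 2) ^ k * a0 A j g X z ^ 2 ≤ C := by
  obtain ⟨C, hC0, hC⟩ := moment_le (Z := Z) a K ha k
  refine ⟨|J| * C, by positivity, fun A j g X hg hA hj hJ => ?_⟩
  rw [integral_mul_a0_sq hg hA.1 hj]
  have h1 : j X ≤ |J| := hJ.trans (le_abs_self J)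
  have h2 : 0 ≤ ∫ z : Z, (g * ‖z‖ ^ 2) ^ k * G g (A X) z ^ 2 :=
    integral_nonneg fun z => by positivity
  exact mul_le_mul h1 (hC g hg (A X) hA) h2 (abs_nonneg _)

/-- Moments, `|z|` form: `∫ ‖z‖^(2k) a0² ≤ C g^(-k)`. -/
theorem moment_a0' (a K J : ℝ) (ha : 0 < a) (k : ℕ) :
    ∃ C : ℝ, 0 ≤ C ∧ ∀ (A : P → (Z →L[ℝ] Z)) (j : P → ℝ) (g : ℝ) (X : P), 0 < g →
      UB a K (A X) → 0 ≤ j X → j X ≤ J →
      ∫ z : Z, ‖z‖ ^ (2 * k) * a0 A j g X z ^ 2 ≤ C * (g ^ k)⁻¹ := by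
  obtain ⟨C, hC0, hC⟩ := moment_a0 (P := P) (Z := Z) a K J ha k
  refine ⟨C, hC0, fun A j g X hg hA hj hJ => ?_⟩
  have h1 := hC A j g X hg hA hj hJ
  have h2 : ∀ z : Z, (g * ‖z‖ ^ 2) ^ k * a0 A j g X z ^ 2 =
      g ^ k * (‖z‖ ^ (2 * k) * a0 A j g X z ^ 2) := fun z => by
    rw [mul_pow, ← pow_mul]
    ring
  simp only [h2] at h1
  rw [integral_const_mul] at h1
  have h3 : 0 < g ^ k := by positivity
  rw [← div_eq_mul_inv, le_div_iff₀ h3]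
  linarith

/-- **Tails.** -/
theorem tail_a0 (a K J : ℝ) (ha : 0 < a) (k l : ℕ) :
    ∃ C : ℝ, 0 ≤ C ∧ ∀ (A : P → (Z →L[ℝ] Z)) (j : P → ℝ) (g : ℝ) (X : P) (δ : ℝ), 0 < g →
      0 < δ → UB a K (A X) → 0 ≤ j X → j X ≤ J →
      ∫ z in {z : Z | δ ≤ ‖z‖}, (g * ‖z‖ ^ 2) ^ k * a0 A j g X z ^ 2 ≤
        C * (g * δ ^ 2)⁻¹ ^ l := by
  obtain ⟨C, hC0, hC⟩ := tail_le (Z := Z) a K ha k l
  refine ⟨|J| * C, by positivity, fun A j g X δ hg hδ hA hj hJ => ?_⟩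
  rw [setIntegral_mul_a0_sq hg hA.1 hj]
  have h1 : j X ≤ |J| := hJ.trans (le_abs_self J)
  have h2 : 0 ≤ ∫ z in {z : Z | δ ≤ ‖z‖}, (g * ‖z‖ ^ 2) ^ k * G g (A X) z ^ 2 :=
    integral_nonneg fun z => by positivity
  have h3 := mul_le_mul h1 (hC g hg δ hδ (A X) hA) h2 (abs_nonneg _)
  rw [mul_assoc]
  exact h3



/-! ### Uniformity near a point -/

variable [NormedAddCommGroup P] [NormedSpace ℝ P]

/-- Uniform class near a point. -/
theorem exists_UB {X₀ : P} {m : WithTop ℕ∞} (hm : m ≠ 0) (hA : ContDiffAt ℝ m A X₀)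
    (hs : ∀ᶠ X in 𝓝 X₀, Sy (A X)) (hp : PD (A X₀)) :
    ∃ a K : ℝ, 0 < a ∧ ∀ᶠ X in 𝓝 X₀, UB a K (A X) := by
  obtain ⟨a, K, M, l, ha, _, h⟩ := exists_param_bounds hm hA hs hp
  exact ⟨a, K, ha, h.mono fun X hX => hX.1⟩

/-- **All bounds near a point.** -/
theorem exists_bounds {X₀ : P} {m : WithTop ℕ∞} (hm : m ≠ 0) (hA : ContDiffAt ℝ m A X₀)
    (hs : ∀ᶠ X in 𝓝 X₀, Sy (A X)) (hp : PD (A X₀)) (hj : ContinuousAt j X₀) (hj0 : 0 < j X₀) :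
    ∃ (a K J : ℝ) (C : ℕ → ℝ) (T : ℕ → ℕ → ℝ), 0 < a ∧ (∀ k, 0 ≤ C k) ∧ (∀ k l, 0 ≤ T k l) ∧
      ∀ᶠ X in 𝓝 X₀, UB a K (A X) ∧ 0 < j X ∧ j X ≤ J ∧ ∀ g : ℝ, 0 < g →
        (∀ k, ∫ z : Z, (g * ‖z‖ ^ 2) ^ k * a0 A j g X z ^ 2 ≤ C k) ∧
        (∀ k, ∫ z : Z, ‖z‖ ^ (2 * k) * a0 A j g X z ^ 2 ≤ C k * (g ^ k)⁻¹) ∧
        ∀ k l, ∀ δ : ℝ, 0 < δ → ∫ z in {z : Z | δ ≤ ‖z‖}, (g * ‖z‖ ^ 2) ^ k * a0 A j g X z ^ 2 ≤
          T k l * (g * δ ^ 2)⁻¹ ^ l := by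
  obtain ⟨a, K, ha, h⟩ := exists_UB hm hA hs hp
  choose C1 hC1 hC1' using fun k => moment_a0 (P := P) (Z := Z) a K (j X₀ + 1) ha k
  choose C2 hC2 hC2' using fun k => moment_a0' (P := P) (Z := Z) a K (j X₀ + 1) ha k
  choose T hT hT' using fun k l => tail_a0 (P := P) (Z := Z) a K (j X₀ + 1) ha k l
  refine ⟨a, K, j X₀ + 1, fun k => max (C1 k) (C2 k), T, ha, fun k => le_max_of_le_left (hC1 k),
    hT, ?_⟩
  filter_upwards [h, hj.eventually (eventually_gt_nhds hj0),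
    hj.eventually (eventually_lt_nhds (lt_add_one (j X₀)))] with X h1 h2 h3
  refine ⟨h1, h2, h3.le, fun g hg => ⟨fun k => ?_, fun k => ?_, fun k l δ hδ => ?_⟩⟩
  · exact (hC1' k A j g X hg h1 h2.le h3.le).trans (le_max_left _ _)
  · exact (hC2' k A j g X hg h1 h2.le h3.le).trans
      (mul_le_mul_of_nonneg_right (le_max_right _ _) (by positivity))
  · exact hT' k l A j g X δ hg hδ h1 h2.le h3.le

end Crest.Agent.R330.A0151

end
end

-- ▼ part R330/T5G_151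
section

/-!
# Row 330, S8-T5: the literal Gaussian amplitude of the trial states (helper151)

For `P : TPack C M R G`, `σ : Sl C`:

* `AZ`, `jX` : the Gaussian exponent on the fibre `C.Zt σ.X0`, the density at the centre.
* `gsT` : the normalised Gaussian; `aG` : the Gaussian amplitude `√j · gsT`; `exists_pk_at`.
* `unif` : uniform bounds on compact subsets of the chart.
* `aL` : the amplitude on `L × Z`; `contDiff_aL`, `fderiv_aL_z`, `ampOk`; `kapZ`, `cutOk`;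
  `fibMom_of`; `tau_smul`; `int_gs_aL`, `vac_dL` : vacuum means.
-/

set_option autoImplicit false
set_option linter.unusedSectionVars false

open MeasureTheory Filter Topology Crest.MathPhysics.MatrixQM
open scoped ContDiff InnerProductSpace ENNReal

noncomputable section

namespace Crest.Agent.R330.T5G151

open Crest.Agent.R330.TDef414 Crest.Agent.R330.SlG944 Crest.Agent.R330.Cov837
open Crest.Agent.R330.Defs478 Crest.Agent.R330.LS839 Crest.Agent.R330.Frame839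
  Crest.Agent.R330.Clus839 Crest.Agent.R330.Bind6839 Crest.Agent.R330.PairB547
  Crest.Agent.R330.SlInt658 Crest.Agent.R330.BrT5658 Crest.Agent.R330.PairE547
  Crest.Agent.R330.PairC714
open Crest.Agent.R330.SqrtPD984 Crest.Agent.R330.GPar984 Crest.Agent.R330.AX984
open Crest.Agent.R330.SlB314 (Nor Tan brx)
open Crest.Agent.R330.SlD314 (tube)

variable {N p : ℕ} {b : ColorBasis N} {S : Type} [Group S] [Fintype S] {C : Chn b p S}
  {F : Type*} [NormedAddCommGroup F] [InnerProductSpace ℂ F] [FiniteDimensional ℂ F]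
  {M : FermionRep N F} {R : GaugeAction b M} {G : GammaNine}

/-! ## the fibre -/

/-- The Gaussian exponent on the fibre. -/
def AZ (P : TPack C M R G) (σ : Sl C) (X : Pos p) : C.Zt σ.X0 →L[ℝ] C.Zt σ.X0 :=
  cmp (C.Zt σ.X0) (P.A X)

/-- The density at the centre. -/
def jX (σ : Sl C) (X : Pos p) : ℝ := σ.j (C.cf (X - σ.X0))

theorem inner_AZ (P : TPack C M R G) (σ : Sl C) (X : Pos p) (z w : C.Zt σ.X0) :
    ⟪AZ P σ X z, w⟫_ℝ = ⟪P.A X z, (w : Cfg N)⟫_ℝ := inner_cmp _ _ _ _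

theorem sy_A (P : TPack C M R G) (X : Pos p) : Sy (P.A X) := fun z w => P.A_symm X z w

theorem AZ_sy (P : TPack C M R G) (σ : Sl C) (X : Pos p) : Sy (AZ P σ X) := cmp_sy (sy_A P X)

theorem AZ_pd (P : TPack C M R G) (σ : Sl C) {X : Pos p} (hX : ‖X - σ.X0‖ < σ.r) :
    PD (AZ P σ X) := by
  refine ⟨AZ_sy P σ X, fun z hz => ?_⟩
  rw [inner_AZ]
  exact A_pos P σ hX z.2 fun h => hz (Subtype.ext h)

theorem AZ_smooth (P : TPack C M R G) (σ : Sl C) {X : Pos p} (hX : ‖X - σ.X0‖ < σ.r) :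
    ContDiffAt ℝ ∞ (AZ P σ) X :=
  contDiffAt_cmp _ (P.A_smooth X (σ.reg X hX))

theorem cf_mem_nor (σ : Sl C) (X : Pos p) : C.cf X ∈ Nor b (C.cf σ.X0) := by
  rw [← Nor_eq]
  exact tup_le_nor σ (cf_mem _)

theorem jX_pos (σ : Sl C) {X : Pos p} (hX : ‖X - σ.X0‖ < σ.r) : 0 < jX σ X :=
  σ.jpos _ (cf_mem_nor σ _) (by rw [C.cf.norm_map]; exact hX)

theorem jX_smooth (σ : Sl C) {X : Pos p} (hX : ‖X - σ.X0‖ < σ.r) :
    ContDiffAt ℝ ∞ (jX σ) X := by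
  have h1 := σ.smooth _ (cf_mem_nor σ (X - σ.X0)) (by rw [C.cf.norm_map]; exact hX)
  have h2 : ContDiffAt ℝ ∞ (fun X : Pos p => C.cf (X - σ.X0)) X :=
    (C.cf.toContinuousLinearMap.contDiff.comp (contDiff_id.sub contDiff_const)).contDiffAt
  exact ContDiffAt.comp X (g := σ.j) (f := fun X : Pos p => C.cf (X - σ.X0)) h1 h2

/-- The package of 416 near every point of the chart. -/
theorem exists_pk_at (P : TPack C M R G) (σ : Sl C) {X : Pos p} (hX : ‖X - σ.X0‖ < σ.r) :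
    ∃ (l : Pos p → (Pos p →L[ℝ] ℝ)) (a K M' j0 : ℝ) (W : Set (Pos p)), X ∈ W ∧
      W ⊆ Metric.ball σ.X0 σ.r ∧ A0416.Pk ∞ (AZ P σ) (jX σ) l a K M' j0 W :=
  A0416.exists_pk (by simp) Metric.isOpen_ball (by simpa [dist_eq_norm] using hX)
    (fun Y hY => AZ_smooth P σ (by simpa [dist_eq_norm] using hY))
    (fun Y _ => AZ_sy P σ Y) (AZ_pd P σ hX)
    (fun Y hY => jX_smooth σ (by simpa [dist_eq_norm] using hY)) (jX_pos σ hX)

/-! ## the Gaussian -/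

theorem nI_eq (P : TPack C M R G) (σ : Sl C) (g : ℝ) (X : Pos p) :
    nI P σ g X = ∫ z : C.Zt σ.X0, Real.exp (-g * ⟪AZ P σ X z, z⟫_ℝ) := by
  unfold nI
  refine integral_congr_ae (ae_of_all _ fun z => ?_)
  show Real.exp (-(g * ⟪P.A X z, z⟫_ℝ)) = Real.exp (-g * ⟪AZ P σ X z, z⟫_ℝ)
  rw [inner_AZ, neg_mul]


/-- The normalised Gaussian at the positions `X`. -/
def gsT (P : TPack C M R G) (σ : Sl C) (g : ℝ) (X : Pos p) (z : Cfg N) : ℝ :=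
  Real.exp (-(g / 2 * ⟪P.A X z, z⟫_ℝ)) / Real.sqrt (nI P σ g X)

/-- The Gaussian amplitude. -/
def aG (P : TPack C M R G) (σ : Sl C) (g : ℝ) (X : Pos p) (z : Cfg N) : ℝ :=
  nrm P σ g X * Real.exp (-(g / 2 * ⟪P.A X z, z⟫_ℝ))

theorem aT_eq (P : TPack C M R G) (σ : Sl C) (g : ℝ) (X : Pos p) (z : Cfg N) :
    aT P σ g X z = kap σ.r (‖z‖ ^ 2) * aG P σ g X z := by
  unfold aT aG
  ring

theorem aG_nonneg (P : TPack C M R G) (σ : Sl C) (g : ℝ) (X : Pos p) (z : Cfg N) :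
    0 ≤ aG P σ g X z := mul_nonneg (Real.sqrt_nonneg _) (Real.exp_pos _).le

theorem aG_eq_gsT (P : TPack C M R G) (σ : Sl C) {g : ℝ} (X : Pos p) (hj : 0 ≤ jX σ X)
    (z : Cfg N) : aG P σ g X z = Real.sqrt (jX σ X) * gsT P σ g X z := by
  have h1 : nrm P σ g X = Real.sqrt (jX σ X) / Real.sqrt (nI P σ g X) := Real.sqrt_div hj _
  unfold aG gsT
  rw [h1]
  ring

theorem aG_eq (P : TPack C M R G) (σ : Sl C) {g : ℝ} (hg : 0 < g) {X : Pos p}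
    (hX : ‖X - σ.X0‖ < σ.r) (z : C.Zt σ.X0) :
    aG P σ g X z = A0416.a0 (jX σ) (AZ P σ) g X z := by
  have h1 := A0151.a0_eq (A := AZ P σ) (j := jX σ) (X := X) hg (AZ_pd P σ hX) (jX_pos σ hX).le z
  unfold A0416.a0
  rw [← h1]
  unfold aG nrm A0151.a0 A0151.nh
  rw [nI_eq, inner_AZ]
  congr 2
  ring

theorem gsT_eq (P : TPack C M R G) (σ : Sl C) {g : ℝ} (hg : 0 < g) {X : Pos p}
    (hX : ‖X - σ.X0‖ < σ.r) (z : C.Zt σ.X0) :
    gsT P σ g X z = GPar984.G g (AZ P σ X) z := by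
  have h1 := aG_eq P σ hg hX z
  rw [aG_eq_gsT P σ X (jX_pos σ hX).le] at h1
  unfold A0416.a0 at h1
  exact mul_left_cancel₀ (Real.sqrt_pos.2 (jX_pos σ hX)).ne' h1

theorem integral_gsT_sq (P : TPack C M R G) (σ : Sl C) {g : ℝ} (hg : 0 < g) {X : Pos p}
    (hX : ‖X - σ.X0‖ < σ.r) : ∫ z : C.Zt σ.X0, gsT P σ g X z ^ 2 = 1 := by
  simp only [gsT_eq P σ hg hX]
  exact integral_G_sq hg (AZ_pd P σ hX)

theorem continuous_gsT (P : TPack C M R G) (σ : Sl C) (g : ℝ) (X : Pos p) :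
    Continuous (gsT P σ g X) := by
  unfold gsT
  fun_prop

theorem continuous_aG (P : TPack C M R G) (σ : Sl C) (g : ℝ) (X : Pos p) :
    Continuous (aG P σ g X) := by
  unfold aG
  fun_prop

/-! ## uniform bounds on compact sets -/

theorem unif {Q : Pos p → ℝ → Prop} (hQ : ∀ X c c', c ≤ c' → Q X c → Q X c') {S : Set (Pos p)}
    (hS : IsCompact S) (h : ∀ X ∈ S, ∃ c, ∀ᶠ X' in 𝓝 X, Q X' c) :
    ∃ c, 0 ≤ c ∧ ∀ X ∈ S, Q X c := by
  refine hS.induction_on (p := fun S => ∃ c, 0 ≤ c ∧ ∀ X ∈ S, Q X c) ?_ ?_ ?_ ?_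
  · exact ⟨0, le_rfl, fun X hX => absurd hX (Set.notMem_empty X)⟩
  · rintro s t hst ⟨c, hc, h1⟩
    exact ⟨c, hc, fun X hX => h1 X (hst hX)⟩
  · rintro s t ⟨c, hc, h1⟩ ⟨c', hc', h2⟩
    refine ⟨max c c', hc.trans (le_max_left _ _), ?_⟩
    rintro X (hX | hX)
    · exact hQ X c _ (le_max_left _ _) (h1 X hX)
    · exact hQ X c' _ (le_max_right _ _) (h2 X hX)
  · intro X hX
    obtain ⟨c, hc⟩ := h X hX
    refine ⟨{X' | Q X' c}, mem_nhdsWithin_of_mem_nhds hc, max c 0, le_max_right _ _, ?_⟩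
    exact fun X' hX' => hQ X' c _ (le_max_left _ _) hX'

theorem isCompact_cb (σ : Sl C) (ρ : ℝ) : IsCompact {X : Pos p | ‖X - σ.X0‖ ≤ ρ} := by
  have : {X : Pos p | ‖X - σ.X0‖ ≤ ρ} = Metric.closedBall σ.X0 ρ := by
    ext X
    simp [dist_eq_norm]
  rw [this]
  exact isCompact_closedBall _ _

/-- Joint differentiability and the derivative in the positions. -/
theorem aG_dX (P : TPack C M R G) (σ : Sl C) {ρ : ℝ} (hρ : ρ < σ.r) :
    ∃ K : ℝ, 0 ≤ K ∧ ∀ X, ‖X - σ.X0‖ ≤ ρ → ∀ g : ℝ, 0 < g → ∀ (z : C.Zt σ.X0) (e : Pos p),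
      |fderiv ℝ (fun q : Pos p × C.Zt σ.X0 => aG P σ g q.1 q.2) (X, z) (e, 0)| ≤
        K * (1 + g * ‖z‖ ^ 2) * aG P σ g X z * ‖e‖ := by
  refine unif (Q := fun X K => ∀ g : ℝ, 0 < g → ∀ (z : C.Zt σ.X0) (e : Pos p),
      |fderiv ℝ (fun q : Pos p × C.Zt σ.X0 => aG P σ g q.1 q.2) (X, z) (e, 0)| ≤
        K * (1 + g * ‖z‖ ^ 2) * aG P σ g X z * ‖e‖) (S := {X : Pos p | ‖X - σ.X0‖ ≤ ρ}) ?_
    (isCompact_cb σ ρ) ?_
  · intro X c c' hc h g hg z e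
    refine (h g hg z e).trans ?_
    have := aG_nonneg P σ g X z
    gcongr
  · intro X hX
    obtain ⟨l, a, K, M', j0, W, hXW, hW, hpk⟩ := exists_pk_at P σ (X := X) (lt_of_le_of_lt hX hρ)
    refine ⟨A0416.CC M' j0, ?_⟩
    filter_upwards [hpk.isOpen.mem_nhds hXW] with X' hX' g hg z e
    have hb : ∀ Y ∈ W, ‖Y - σ.X0‖ < σ.r := fun Y hY => by
      simpa [dist_eq_norm] using hW hY
    have hev : (fun q : Pos p × C.Zt σ.X0 => aG P σ g q.1 q.2) =ᶠ[𝓝 (X', z)]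
        fun q : Pos p × C.Zt σ.X0 => A0416.a0 (jX σ) (AZ P σ) g q.1 q.2 := by
      have h1 : ∀ᶠ q : Pos p × C.Zt σ.X0 in 𝓝 (X', z), q.1 ∈ W :=
        continuousAt_fst.eventually (hpk.isOpen.mem_nhds hX')
      filter_upwards [h1] with q hq
      exact aG_eq P σ hg (hb _ hq) q.2
    rw [hev.fderiv_eq, hpk.fderiv_a0 (by simp) hX' g z e 0, inner_zero_right, mul_zero, sub_zero,
      aG_eq P σ hg (hb X' hX') z]
    refine (hpk.abs_dx_le hX' hg z e).trans (le_of_eq ?_)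
    ring

/-- The derivative in the fibre. -/
theorem aG_dZ_eq (P : TPack C M R G) (σ : Sl C) {X : Pos p} (hX : ‖X - σ.X0‖ < σ.r) {g : ℝ}
    (hg : 0 < g) (z ζ : C.Zt σ.X0) :
    fderiv ℝ (fun q : Pos p × C.Zt σ.X0 => aG P σ g q.1 q.2) (X, z) (0, ζ) =
      -(g * ⟪P.A X z, (ζ : Cfg N)⟫_ℝ) * aG P σ g X z := by
  obtain ⟨l, a, K, M', j0, W, hXW, hW, hpk⟩ := exists_pk_at P σ hX
  have hb : ∀ Y ∈ W, ‖Y - σ.X0‖ < σ.r := fun Y hY => by
    simpa [dist_eq_norm] using hW hY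
  have hev : (fun q : Pos p × C.Zt σ.X0 => aG P σ g q.1 q.2) =ᶠ[𝓝 (X, z)]
      fun q : Pos p × C.Zt σ.X0 => A0416.a0 (jX σ) (AZ P σ) g q.1 q.2 := by
    have h1 : ∀ᶠ q : Pos p × C.Zt σ.X0 in 𝓝 (X, z), q.1 ∈ W :=
      continuousAt_fst.eventually (hpk.isOpen.mem_nhds hXW)
    filter_upwards [h1] with q hq
    exact aG_eq P σ hg (hb _ hq) q.2
  rw [hev.fderiv_eq, hpk.fderiv_a0 (by simp) hXW g z 0 ζ, map_zero, zero_sub,
    aG_eq P σ hg hX z, inner_AZ]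
  ring

theorem A_bdd (P : TPack C M R G) (σ : Sl C) {ρ : ℝ} (hρ : ρ < σ.r) :
    ∃ K : ℝ, 0 ≤ K ∧ ∀ X, ‖X - σ.X0‖ ≤ ρ → ‖P.A X‖ ≤ K := by
  refine unif (Q := fun X K => ‖P.A X‖ ≤ K)
    (S := {X : Pos p | ‖X - σ.X0‖ ≤ ρ}) (fun X c c' hc h => h.trans hc) (isCompact_cb σ ρ) ?_
  · intro X hX
    refine ⟨‖P.A X‖ + 1, ?_⟩
    have h1 := (P.A_smooth X (σ.reg X (lt_of_le_of_lt hX hρ))).continuousAt.norm
    have h2 : ‖P.A X‖ < ‖P.A X‖ + 1 := by linarith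
    exact (h1.eventually (gt_mem_nhds h2)).mono fun X' h => h.le

theorem contDiffAt_aG (P : TPack C M R G) (σ : Sl C) {X : Pos p} (hX : ‖X - σ.X0‖ < σ.r) {g : ℝ}
    (hg : 0 < g) (z : C.Zt σ.X0) :
    ContDiffAt ℝ ∞ (fun q : Pos p × C.Zt σ.X0 => aG P σ g q.1 q.2) (X, z) := by
  obtain ⟨l, a, K, M', j0, W, hXW, hW, hpk⟩ := exists_pk_at P σ hX
  have hb : ∀ Y ∈ W, ‖Y - σ.X0‖ < σ.r := fun Y hY => by
    simpa [dist_eq_norm] using hW hY
  have hev : (fun q : Pos p × C.Zt σ.X0 => aG P σ g q.1 q.2) =ᶠ[𝓝 (X, z)]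
      fun q : Pos p × C.Zt σ.X0 => A0416.a0 (jX σ) (AZ P σ) g q.1 q.2 := by
    have h1 : ∀ᶠ q : Pos p × C.Zt σ.X0 in 𝓝 (X, z), q.1 ∈ W :=
      continuousAt_fst.eventually (hpk.isOpen.mem_nhds hXW)
    filter_upwards [h1] with q hq
    exact aG_eq P σ hg (hb _ hq) q.2
  exact (hpk.contDiffAt_a0 (by simp) hXW g z).congr_of_eventuallyEq hev

/-- Moments on compact sets. -/
theorem aG_mom (P : TPack C M R G) (σ : Sl C) {ρ : ℝ} (hρ : ρ < σ.r) (k : ℕ) :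
    ∃ K : ℝ, 0 ≤ K ∧ ∀ X, ‖X - σ.X0‖ ≤ ρ → ∀ g : ℝ, 0 < g →
      Integrable (fun z : C.Zt σ.X0 => (g * ‖z‖ ^ 2) ^ k * aG P σ g X z ^ 2) ∧
      ∫ z : C.Zt σ.X0, (g * ‖z‖ ^ 2) ^ k * aG P σ g X z ^ 2 ≤ K := by
  refine unif (Q := fun X K => ∀ g : ℝ, 0 < g →
      Integrable (fun z : C.Zt σ.X0 => (g * ‖z‖ ^ 2) ^ k * aG P σ g X z ^ 2) ∧
      ∫ z : C.Zt σ.X0, (g * ‖z‖ ^ 2) ^ k * aG P σ g X z ^ 2 ≤ K)
      (S := {X : Pos p | ‖X - σ.X0‖ ≤ ρ}) ?_ (isCompact_cb σ ρ) ?_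
  · intro X c c' hc h g hg
    exact ⟨(h g hg).1, (h g hg).2.trans hc⟩
  · intro X hX
    obtain ⟨l, a, K, M', j0, W, hXW, hW, hpk⟩ := exists_pk_at P σ (X := X) (lt_of_le_of_lt hX hρ)
    obtain ⟨c, hc0, hc⟩ := hpk.moment k
    refine ⟨c, ?_⟩
    filter_upwards [hpk.isOpen.mem_nhds hXW] with X' hX' g hg
    have hb : ‖X' - σ.X0‖ < σ.r := by simpa [dist_eq_norm] using hW hX'
    have e : ∀ z : C.Zt σ.X0, aG P σ g X' z = A0416.a0 (jX σ) (AZ P σ) g X' z := fun z =>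
      aG_eq P σ hg hb z
    simp only [e]
    exact ⟨hpk.integrable_mom hX' hg k, hc g hg X' hX'⟩

/-! ## cut-offs -/

theorem cfT_le (u : Cfg N) : ‖C.cfT u‖ ≤ ‖u‖ := by
  have h1 : ‖C.cfT u‖ ^ 2 ≤ ‖u‖ * ‖C.cfT u‖ := by
    have h2 : ⟪C.cfT u, C.cfT u⟫_ℝ = ⟪u, C.cf (C.cfT u)⟫_ℝ := by
      unfold Chn.cfT
      exact ContinuousLinearMap.adjoint_inner_left _ _ _
    rw [← real_inner_self_eq_norm_sq, h2]
    refine (real_inner_le_norm _ _).trans (le_of_eq ?_)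
    rw [C.cf.norm_map]
  by_contra h
  push Not at h
  have := norm_nonneg u
  nlinarith

/-- Smooth cut-off in the positions: one for `‖X - X0‖ ≤ r/2`, zero for `‖X - X0‖ ≥ 3r/4`. -/
def th (σ : Sl C) (X : Pos p) : ℝ :=
  Real.smoothTransition ((9 * σ.r ^ 2 / 16 - ‖X - σ.X0‖ ^ 2) / (9 * σ.r ^ 2 / 16 - σ.r ^ 2 / 4))

theorem contDiff_th (σ : Sl C) : ContDiff ℝ ∞ (th σ) :=
  Real.smoothTransition.contDiff.comp
    ((contDiff_const.sub ((contDiff_id.sub contDiff_const).norm_sq ℝ)).div_const _)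

theorem th_one (σ : Sl C) {X : Pos p} (h : ‖X - σ.X0‖ ≤ σ.r / 2) : th σ X = 1 := by
  have hr := σ.pos
  have hn := norm_nonneg (X - σ.X0)
  unfold th
  apply Real.smoothTransition.one_of_one_le
  rw [le_div_iff₀ (by nlinarith [sq_pos_of_pos hr])]
  nlinarith

theorem th_zero (σ : Sl C) {X : Pos p} (h : 3 * σ.r / 4 ≤ ‖X - σ.X0‖) : th σ X = 0 := by
  have hr := σ.pos
  unfold th
  apply Real.smoothTransition.zero_of_nonpos
  exact div_nonpos_of_nonpos_of_nonneg (by nlinarith) (by nlinarith [sq_pos_of_pos hr])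

theorem th_nonneg (σ : Sl C) (X : Pos p) : 0 ≤ th σ X := Real.smoothTransition.nonneg _

theorem th_le_one (σ : Sl C) (X : Pos p) : th σ X ≤ 1 := Real.smoothTransition.le_one _

/-! ## the amplitude on `L × Z` -/

/-- The amplitude on `L × Z` without the cut-off in the fibre. -/
def aL (P : TPack C M R G) (σ : Sl C) (L Z : Submodule ℝ (Cfg N)) (g : ℝ) (x : L × Z) : ℝ :=
  th σ (σ.X0 + C.cfT x.1) * aG P σ g (σ.X0 + C.cfT x.1) x.2

/-- The cut-off in the fibre. -/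
def kapZ (σ : Sl C) (Z : Submodule ℝ (Cfg N)) (z : Z) : ℝ := kap σ.r (‖z‖ ^ 2)

theorem aL_nonneg (P : TPack C M R G) (σ : Sl C) (L Z : Submodule ℝ (Cfg N)) (g : ℝ)
    (x : L × Z) : 0 ≤ aL P σ L Z g x := mul_nonneg (th_nonneg _ _) (aG_nonneg _ _ _ _ _)

/-- The base point of `x`, affine map. -/
def bp (σ : Sl C) (L Z : Submodule ℝ (Cfg N)) (x : L × Z) : Pos p × Z :=
  (σ.X0 + C.cfT x.1, x.2)

theorem hasFDerivAt_bp (σ : Sl C) (L Z : Submodule ℝ (Cfg N)) (x : L × Z) :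
    HasFDerivAt (bp σ L Z) (((C.cfT.comp L.subtypeL).comp (ContinuousLinearMap.fst ℝ L Z)).prod
      (ContinuousLinearMap.snd ℝ L Z)) x := by
  have h1 : HasFDerivAt (fun x : L × Z => σ.X0 + C.cfT x.1)
      ((C.cfT.comp L.subtypeL).comp (ContinuousLinearMap.fst ℝ L Z)) x :=
    (((C.cfT.comp L.subtypeL).comp (ContinuousLinearMap.fst ℝ L Z)).hasFDerivAt).const_add _
  exact h1.prodMk hasFDerivAt_snd

theorem contDiff_bp (σ : Sl C) (L Z : Submodule ℝ (Cfg N)) : ContDiff ℝ ∞ (bp σ L Z) := by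
  have h1 : ContDiff ℝ ∞ (fun x : L × Z => σ.X0 + C.cfT x.1) :=
    contDiff_const.add
      ((C.cfT.comp L.subtypeL).comp (ContinuousLinearMap.fst ℝ L Z)).contDiff
  exact h1.prodMk contDiff_snd

theorem contDiff_aL (P : TPack C M R G) (σ : Sl C) {L Z : Submodule ℝ (Cfg N)}
    (hZ : Z = C.Zt σ.X0) {g : ℝ} (hg : 0 < g) : ContDiff ℝ ∞ (aL P σ L Z g) := by
  subst hZ
  rw [contDiff_iff_contDiffAt]
  intro x
  have hX0 : ∀ y : L × C.Zt σ.X0, σ.X0 + C.cfT y.1 - σ.X0 = C.cfT y.1 := fun y => by abel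
  by_cases hx : ‖C.cfT (x.1 : Cfg N)‖ < σ.r
  · have h1 : ContDiffAt ℝ ∞ (fun x : L × C.Zt σ.X0 => aG P σ g (σ.X0 + C.cfT x.1) x.2) x :=
      ContDiffAt.comp x (g := fun q : Pos p × C.Zt σ.X0 => aG P σ g q.1 q.2)
        (f := bp σ L (C.Zt σ.X0))
        (contDiffAt_aG P σ (X := σ.X0 + C.cfT x.1) (by rw [hX0]; exact hx) hg x.2)
        (contDiff_bp σ L _).contDiffAt
    have h2 : ContDiffAt ℝ ∞ (fun x : L × C.Zt σ.X0 => th σ (σ.X0 + C.cfT x.1)) x :=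
      ((contDiff_th σ).comp (contDiff_fst.comp (contDiff_bp σ L (C.Zt σ.X0)))).contDiffAt
    exact h2.mul h1
  · have hev : aL P σ L (C.Zt σ.X0) g =ᶠ[𝓝 x] fun _ => 0 := by
      have hc : Continuous fun y : L × C.Zt σ.X0 => ‖C.cfT (y.1 : Cfg N)‖ := by fun_prop
      have hr := σ.pos
      have h3 : 3 * σ.r / 4 < ‖C.cfT (x.1 : Cfg N)‖ := by
        push Not at hx
        linarith
      filter_upwards [hc.continuousAt.eventually (lt_mem_nhds h3)] with y hy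
      unfold aL
      rw [th_zero σ (by rw [hX0]; exact hy.le), zero_mul]
    exact contDiffAt_const.congr_of_eventuallyEq hev

theorem aL_eq (P : TPack C M R G) (σ : Sl C) (L Z : Submodule ℝ (Cfg N)) (g : ℝ)
    {x : L × Z} (hx : ‖C.cfT (x.1 : Cfg N)‖ ≤ σ.r / 2) :
    aL P σ L Z g x = aG P σ g (σ.X0 + C.cfT x.1) x.2 := by
  unfold aL
  rw [th_one σ (by rw [add_sub_cancel_left]; exact hx), one_mul]

/-- The derivative of the amplitude. -/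
theorem fderiv_aL (P : TPack C M R G) (σ : Sl C) {L : Submodule ℝ (Cfg N)} {g : ℝ} (hg : 0 < g)
    {x : L × C.Zt σ.X0} (hx : ‖C.cfT (x.1 : Cfg N)‖ < σ.r / 2) (w : L × C.Zt σ.X0) :
    fderiv ℝ (aL P σ L (C.Zt σ.X0) g) x w =
      fderiv ℝ (fun q : Pos p × C.Zt σ.X0 => aG P σ g q.1 q.2) (σ.X0 + C.cfT x.1, x.2)
        (C.cfT w.1, w.2) := by
  have hr := σ.pos
  have hev : aL P σ L (C.Zt σ.X0) g =ᶠ[𝓝 x]
      (fun q : Pos p × C.Zt σ.X0 => aG P σ g q.1 q.2) ∘ bp σ L (C.Zt σ.X0) := by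
    have hc : Continuous fun y : L × C.Zt σ.X0 => ‖C.cfT (y.1 : Cfg N)‖ := by fun_prop
    filter_upwards [hc.continuousAt.eventually (gt_mem_nhds hx)] with y hy
    exact aL_eq P σ _ _ g hy.le
  have h1 : DifferentiableAt ℝ (fun q : Pos p × C.Zt σ.X0 => aG P σ g q.1 q.2)
      (bp σ L (C.Zt σ.X0) x) :=
    (contDiffAt_aG P σ (X := σ.X0 + C.cfT x.1) (by rw [add_sub_cancel_left]; linarith) hg
      x.2).differentiableAt (by simp)
  have h2 := h1.hasFDerivAt.comp x (hasFDerivAt_bp σ L (C.Zt σ.X0) x)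
  rw [hev.fderiv_eq, h2.fderiv]
  rfl

/-- The derivative in the fibre. -/
theorem fderiv_aL_z (P : TPack C M R G) (σ : Sl C) {L : Submodule ℝ (Cfg N)} {g : ℝ} (hg : 0 < g)
    {x : L × C.Zt σ.X0} (hx : ‖C.cfT (x.1 : Cfg N)‖ < σ.r / 2) (w : C.Zt σ.X0) :
    fderiv ℝ (aL P σ L (C.Zt σ.X0) g) x (0, w) =
      -(g * ⟪P.A (σ.X0 + C.cfT x.1) x.2, (w : Cfg N)⟫_ℝ) * aL P σ L (C.Zt σ.X0) g x := by
  have hr := σ.pos
  rw [fderiv_aL P σ hg hx, aL_eq P σ _ _ g hx.le]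
  have h5 : C.cfT ((0 : L) : Cfg N) = 0 := by simp
  show fderiv ℝ (fun q : Pos p × C.Zt σ.X0 => aG P σ g q.1 q.2) (σ.X0 + C.cfT x.1, x.2)
    (C.cfT ((0 : L) : Cfg N), w) = _
  rw [h5, aG_dZ_eq P σ (by rw [add_sub_cancel_left]; linarith) hg]

/-- **The bounds of 547.** -/
theorem ampOk (P : TPack C M R G) (σ : Sl C) {L Z : Submodule ℝ (Cfg N)}
    (hZ : Z = C.Zt σ.X0) {ρ : ℝ} (hρ : ρ < σ.r / 2) :
    ∃ K : ℝ, 0 ≤ K ∧ ∀ g : ℝ, 0 < g → AmpOk g K ρ (aL P σ L Z g) := by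
  subst hZ
  have hr := σ.pos
  have hρr : ρ < σ.r := by linarith
  obtain ⟨K1, hK1, h1⟩ := aG_dX P σ hρr
  obtain ⟨K2, hK2, h2⟩ := A_bdd P σ hρr
  refine ⟨max K1 K2, le_max_of_le_left hK1, fun g hg => ⟨?_, ?_, ?_, ?_⟩⟩
  · exact (contDiff_aL P σ rfl hg).differentiable (by simp)
  · exact aL_nonneg P σ _ _ g
  · intro x hx w
    have hx' : ‖C.cfT (x.1 : Cfg N)‖ ≤ ρ := (cfT_le _).trans hx
    rw [fderiv_aL P σ hg (lt_of_le_of_lt hx' hρ), aL_eq P σ _ _ g (hx'.trans hρ.le)]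
    refine (h1 _ (by rw [add_sub_cancel_left]; exact hx') g hg x.2 (C.cfT w)).trans ?_
    have h3 := aG_nonneg P σ g (σ.X0 + C.cfT x.1) x.2
    have h4 : ‖C.cfT (w : Cfg N)‖ ≤ ‖w‖ := cfT_le _
    gcongr
    exact le_max_left _ _
  · intro x hx w
    have hx' : ‖C.cfT (x.1 : Cfg N)‖ ≤ ρ := (cfT_le _).trans hx
    rw [fderiv_aL P σ hg (lt_of_le_of_lt hx' hρ), aL_eq P σ _ _ g (hx'.trans hρ.le)]
    have h5 : C.cfT ((0 : L) : Cfg N) = 0 := by simp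
    show |fderiv ℝ (fun q : Pos p × C.Zt σ.X0 => aG P σ g q.1 q.2) (σ.X0 + C.cfT x.1, x.2)
      (C.cfT ((0 : L) : Cfg N), w)| ≤ _
    rw [h5, aG_dZ_eq P σ (by rw [add_sub_cancel_left]; linarith) hg]
    have h3 := aG_nonneg P σ g (σ.X0 + C.cfT x.1) x.2
    rw [abs_mul, abs_of_nonneg h3, abs_neg, abs_mul, abs_of_pos hg]
    have h6 : |⟪P.A (σ.X0 + C.cfT x.1) x.2, (w : Cfg N)⟫_ℝ| ≤ K2 * ‖x.2‖ * ‖w‖ := by
      refine (abs_real_inner_le_norm _ _).trans ?_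
      refine mul_le_mul_of_nonneg_right ?_ (norm_nonneg _)
      refine ((P.A (σ.X0 + C.cfT x.1)).le_opNorm _).trans ?_
      exact mul_le_mul_of_nonneg_right (h2 _ (by rw [add_sub_cancel_left]; exact hx'))
        (norm_nonneg _)
    calc g * |⟪P.A (σ.X0 + C.cfT x.1) x.2, (w : Cfg N)⟫_ℝ| *
          aG P σ g (σ.X0 + C.cfT x.1) x.2
        ≤ g * (K2 * ‖x.2‖ * ‖w‖) * aG P σ g (σ.X0 + C.cfT x.1) x.2 := by gcongr
      _ = K2 * (g * ‖x.2‖) * aG P σ g (σ.X0 + C.cfT x.1) x.2 * ‖w‖ := by ring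
      _ ≤ max K1 K2 * (g * ‖x.2‖) * aG P σ g (σ.X0 + C.cfT x.1) x.2 * ‖w‖ := by
          gcongr
          exact le_max_right _ _

/-! ## the cut-off in the fibre -/

theorem contDiff_kapZ (σ : Sl C) (Z : Submodule ℝ (Cfg N)) : ContDiff ℝ ∞ (kapZ σ Z) :=
  (contDiff_kap σ.r).comp (contDiff_norm_sq ℝ)

theorem kapZ_zero (σ : Sl C) {Z : Submodule ℝ (Cfg N)} {z : Z} (hz : σ.r / 4 ≤ ‖z‖) :
    kapZ σ Z z = 0 := by
  have hr := σ.pos
  refine kap_zero hr ?_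
  nlinarith [norm_nonneg z]

theorem kapZ_supp (σ : Sl C) {Z : Submodule ℝ (Cfg N)} {z : Z} (hz : kapZ σ Z z ≠ 0) :
    ‖z‖ < σ.r / 4 := by
  by_contra h
  push Not at h
  exact hz (kapZ_zero σ h)

theorem tsupport_kapZ (σ : Sl C) (Z : Submodule ℝ (Cfg N)) :
    tsupport (kapZ σ Z) ⊆ Metric.closedBall 0 (σ.r / 4) := by
  refine closure_minimal (fun z hz => ?_) Metric.isClosed_closedBall
  rw [mem_closedBall_zero_iff]
  exact (kapZ_supp σ hz).le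


theorem kapZ_dsupp (σ : Sl C) {Z : Submodule ℝ (Cfg N)} {z : Z}
    (hz : fderiv ℝ (kapZ σ Z) z ≠ 0) : ‖z‖ ≤ σ.r / 4 := by
  have h1 : z ∈ tsupport (kapZ σ Z) := by
    by_contra h
    exact hz (fderiv_of_notMem_tsupport ℝ h)
  have h2 := tsupport_kapZ σ Z h1
  rwa [mem_closedBall_zero_iff] at h2

theorem kap_fderiv_bdd {Z : Type*} [NormedAddCommGroup Z] [InnerProductSpace ℝ Z]
    [FiniteDimensional ℝ Z] {r : ℝ} (hr : 0 < r) :
    ∃ K : ℝ, ∀ z : Z, ‖fderiv ℝ (fun z : Z => kap r (‖z‖ ^ 2)) z‖ ≤ K := by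
  have hs : ContDiff ℝ ∞ (fun z : Z => kap r (‖z‖ ^ 2)) := (contDiff_kap r).comp (contDiff_norm_sq ℝ)
  have h0 : Continuous (fderiv ℝ (fun z : Z => kap r (‖z‖ ^ 2))) :=
    hs.continuous_fderiv (by simp)
  have ht : tsupport (fun z : Z => kap r (‖z‖ ^ 2)) ⊆ Metric.closedBall 0 (r / 4) := by
    refine closure_minimal (fun z hz => ?_) Metric.isClosed_closedBall
    rw [mem_closedBall_zero_iff]
    by_contra h
    push Not at h
    exact hz (kap_zero hr (by nlinarith [norm_nonneg z]))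
  have hcs : HasCompactSupport (fun z : Z => kap r (‖z‖ ^ 2)) :=
    (isCompact_closedBall _ _).of_isClosed_subset (isClosed_tsupport _) ht
  obtain ⟨K, hK⟩ := (hcs.fderiv ℝ).exists_bound_of_continuous h0
  exact ⟨K, hK⟩

theorem kapZ_fderiv_bdd (σ : Sl C) (Z : Submodule ℝ (Cfg N)) :
    ∃ K : ℝ, ∀ z, ‖fderiv ℝ (kapZ σ Z) z‖ ≤ K := kap_fderiv_bdd (Z := Z) σ.pos

theorem kapZ_near (σ : Sl C) {Z : Submodule ℝ (Cfg N)} (z : Z) :
    1 - kapZ σ Z z ≤ 64 / σ.r ^ 2 * ‖z‖ ^ 2 := by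
  have hr := σ.pos
  by_cases hz : ‖z‖ ^ 2 ≤ σ.r ^ 2 / 64
  · have : kapZ σ Z z = 1 := kap_one hr hz
    rw [this, sub_self]
    positivity
  · push Not at hz
    have h1 : 0 ≤ kapZ σ Z z := kap_nonneg _ _
    have h2 : 1 ≤ 64 / σ.r ^ 2 * ‖z‖ ^ 2 := by
      rw [div_mul_eq_mul_div, le_div_iff₀ (by positivity)]
      linarith
    linarith

/-- **The cut-off of 547.** -/
theorem cutOk (σ : Sl C) (Z : Submodule ℝ (Cfg N)) {ρ : ℝ} (hρ : σ.r / 4 ≤ ρ) :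
    ∃ K : ℝ, 0 ≤ K ∧ CutOk K ρ (kapZ σ Z) := by
  have hr := σ.pos
  obtain ⟨K, hK⟩ := kapZ_fderiv_bdd σ Z
  have hK0 : 0 ≤ max K (64 / σ.r ^ 2) := le_max_of_le_right (by positivity)
  refine ⟨max K (64 / σ.r ^ 2), hK0, ?_⟩
  constructor
  · exact (contDiff_kapZ σ Z).differentiable (by simp)
  · exact fun z => kap_nonneg _ _
  · exact fun z => kap_le_one _ _
  · exact fun z => (kapZ_near σ z).trans
      (mul_le_mul_of_nonneg_right (le_max_right _ _) (sq_nonneg _))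
  · intro z w
    rw [← Real.norm_eq_abs]
    refine ((fderiv ℝ (kapZ σ Z) z).le_opNorm w).trans ?_
    exact mul_le_mul_of_nonneg_right ((hK z).trans (le_max_left _ _)) (norm_nonneg _)
  · exact fun z hz => (kapZ_supp σ hz).le.trans hρ
  · exact fun z hz => (kapZ_dsupp σ hz).trans hρ

/-! ## fibre moments -/

theorem add_pow8 {t : ℝ} (ht : 0 ≤ t) : (1 + t) ^ 8 ≤ 128 * (1 + (t ^ 2) ^ 4) := by
  have h1 : (1 + t) ^ 2 ≤ 2 * (1 + t ^ 2) := by nlinarith [sq_nonneg (1 - t)]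
  have h2 : (1 + t ^ 2) ^ 2 ≤ 2 * (1 + (t ^ 2) ^ 2) := by nlinarith [sq_nonneg (1 - t ^ 2)]
  have h3 : (1 + (t ^ 2) ^ 2) ^ 2 ≤ 2 * (1 + (t ^ 2) ^ 4) := by
    nlinarith [sq_nonneg (1 - (t ^ 2) ^ 2)]
  have h4 : (1 + t) ^ 8 = ((1 + t) ^ 2) ^ 4 := by ring
  have h5 : ((1 + t) ^ 2) ^ 4 ≤ (2 * (1 + t ^ 2)) ^ 4 := by gcongr
  have h6 : (2 * (1 + t ^ 2)) ^ 4 = 16 * ((1 + t ^ 2) ^ 2) ^ 2 := by ring
  have h7 : ((1 + t ^ 2) ^ 2) ^ 2 ≤ (2 * (1 + (t ^ 2) ^ 2)) ^ 2 := by gcongr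
  have h8 : (2 * (1 + (t ^ 2) ^ 2)) ^ 2 = 4 * (1 + (t ^ 2) ^ 2) ^ 2 := by ring
  linarith

/-- **The fibre moments of 714**, for the amplitude with and without cut-off. -/
theorem fibMom_of (P : TPack C M R G) (σ : Sl C) {L Z : Submodule ℝ (Cfg N)}
    (hZ : Z = C.Zt σ.X0) {S : Set L} {ρ : ℝ} (hρ : ρ < σ.r)
    (hS : ∀ q ∈ S, ‖C.cfT (q : Cfg N)‖ ≤ ρ) :
    FibMom (volume : Measure Z) (fun g (q : L) (z : Z) => aL P σ L Z g (q, z)) S := by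
  subst hZ
  obtain ⟨K0, hK0, h0⟩ := aG_mom P σ hρ 0
  obtain ⟨K4, hK4, h4⟩ := aG_mom P σ hρ 4
  refine ⟨128 * (K0 + K4), by positivity, ?_⟩
  filter_upwards [eventually_gt_atTop 0] with g hg q hq
  obtain ⟨i0, b0⟩ := h0 (σ.X0 + C.cfT q) (by rw [add_sub_cancel_left]; exact hS q hq) g hg
  obtain ⟨i4, b4⟩ := h4 (σ.X0 + C.cfT q) (by rw [add_sub_cancel_left]; exact hS q hq) g hg
  have hb : ∀ z : C.Zt σ.X0, (aL P σ L (C.Zt σ.X0) g (q, z) * wt g z) ^ 2 ≤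
      128 * ((g * ‖z‖ ^ 2) ^ 0 * aG P σ g (σ.X0 + C.cfT q) z ^ 2 +
        (g * ‖z‖ ^ 2) ^ 4 * aG P σ g (σ.X0 + C.cfT q) z ^ 2) := by
    intro z
    have h1 : wt g z ^ 2 = (1 + Real.sqrt g * ‖z‖) ^ 8 := by
      unfold wt
      ring
    have h2 : (1 + Real.sqrt g * ‖z‖) ^ 8 ≤ 128 * (1 + ((Real.sqrt g * ‖z‖) ^ 2) ^ 4) :=
      add_pow8 (by positivity)
    have h3 : (Real.sqrt g * ‖z‖) ^ 2 = g * ‖z‖ ^ 2 := by
      rw [mul_pow, Real.sq_sqrt hg.le]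
    rw [h3] at h2
    have h5 : aL P σ L (C.Zt σ.X0) g (q, z) ^ 2 ≤ aG P σ g (σ.X0 + C.cfT q) z ^ 2 := by
      have h6 : aL P σ L (C.Zt σ.X0) g (q, z) ≤ aG P σ g (σ.X0 + C.cfT q) z :=
        mul_le_of_le_one_left (aG_nonneg _ _ _ _ _) (th_le_one _ _)
      exact pow_le_pow_left₀ (aL_nonneg _ _ _ _ _ _) h6 2
    rw [mul_pow, h1]
    calc aL P σ L (C.Zt σ.X0) g (q, z) ^ 2 * (1 + Real.sqrt g * ‖z‖) ^ 8
        ≤ aG P σ g (σ.X0 + C.cfT q) z ^ 2 * (128 * (1 + (g * ‖z‖ ^ 2) ^ 4)) := by gcongr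
      _ = _ := by ring
  have hi : Integrable (fun z : C.Zt σ.X0 =>
      128 * ((g * ‖z‖ ^ 2) ^ 0 * aG P σ g (σ.X0 + C.cfT q) z ^ 2 +
        (g * ‖z‖ ^ 2) ^ 4 * aG P σ g (σ.X0 + C.cfT q) z ^ 2)) := (i0.add i4).const_mul 128
  have hc : Continuous fun z : C.Zt σ.X0 => (aL P σ L (C.Zt σ.X0) g (q, z) * wt g z) ^ 2 := by
    have h1 : Continuous fun z : C.Zt σ.X0 => aL P σ L (C.Zt σ.X0) g (q, z) := by
      exact (continuous_const (y := th σ (σ.X0 + C.cfT q))).mul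
        ((continuous_aG P σ g (σ.X0 + C.cfT q)).comp continuous_subtype_val)
    unfold wt
    fun_prop
  have hi2 : Integrable (fun z : C.Zt σ.X0 => (aL P σ L (C.Zt σ.X0) g (q, z) * wt g z) ^ 2) := by
    refine hi.mono' hc.aestronglyMeasurable (ae_of_all _ fun z => ?_)
    rw [Real.norm_of_nonneg (sq_nonneg _)]
    exact hb z
  refine ⟨hi2, (integral_mono hi2 hi hb).trans ?_⟩
  rw [integral_const_mul, integral_add i0 i4]
  linarith

/-! ## normal form and vacuum means -/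

/-- **Normal form** of the trial function with the amplitude `aL`. -/
theorem tau_smul (P : TPack C M R G) (σ : Sl C) {L Z : Submodule ℝ (Cfg N)}
    (hL : L = Tup C.kk) (hZ : Z = C.Zt σ.X0) (g : ℝ) (χ : Amp M G σ) (x : L × Z) :
    tau P σ g χ.fn (x.1 + x.2) =
      (kapZ σ Z x.2 * aL P σ L Z g x) • omT P σ g χ.fn x.1 := by
  subst hL hZ
  rw [tau_eq P σ g χ.fn x.1.2 x.2.2.1, Complex.coe_smul]
  by_cases hx : ‖C.cfT (x.1 : Cfg N)‖ ≤ σ.r / 2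
  · rw [aL_eq P σ _ _ g hx, aT_eq]
    rfl
  · have h1 : χ.fn (σ.X0 + C.cfT x.1) = 0 := by
      by_contra h0
      have h2 := χ.supp (subset_tsupport _ h0)
      rw [Metric.mem_ball, dist_eq_norm, add_sub_cancel_left] at h2
      have := σ.pos
      exact hx (by linarith)
    have h2 : omT P σ g χ.fn x.1 = 0 := by
      unfold omT
      rw [h1]
      simp
    rw [h2, smul_zero, smul_zero]

theorem aL_eq_gsT (P : TPack C M R G) (σ : Sl C) (L Z : Submodule ℝ (Cfg N)) (g : ℝ)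
    {x : L × Z} (hx : ‖C.cfT (x.1 : Cfg N)‖ ≤ σ.r / 2) :
    aL P σ L Z g x = Real.sqrt (jX σ (σ.X0 + C.cfT x.1)) * gsT P σ g (σ.X0 + C.cfT x.1) x.2 := by
  have := σ.pos
  rw [aL_eq P σ L Z g hx, aG_eq_gsT P σ _ (jX_pos σ (by rw [add_sub_cancel_left]; linarith)).le]

theorem memLp_gsT (P : TPack C M R G) (σ : Sl C) {g : ℝ} (hg : 0 < g) {X : Pos p}
    (hX : ‖X - σ.X0‖ < σ.r) : MemLp (fun z : C.Zt σ.X0 => gsT P σ g X z) 2 := by
  obtain ⟨l, a, K, M', j0, W, hXW, hW, hpk⟩ := exists_pk_at P σ hX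
  simp only [gsT_eq P σ hg hX]
  exact A0416.memLp_G hpk.a_pos hg (hpk.ub X hXW)

/-- `∫ gs a = √j`. -/
theorem int_gs_aL (P : TPack C M R G) (σ : Sl C) {L : Submodule ℝ (Cfg N)} {g : ℝ} (hg : 0 < g)
    {q : L} (hq : ‖C.cfT (q : Cfg N)‖ ≤ σ.r / 2) :
    Integrable (fun z : C.Zt σ.X0 => gsT P σ g (σ.X0 + C.cfT q) z *
      aL P σ L (C.Zt σ.X0) g (q, z)) ∧
    ∫ z : C.Zt σ.X0, gsT P σ g (σ.X0 + C.cfT q) z * aL P σ L (C.Zt σ.X0) g (q, z) =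
      Real.sqrt (jX σ (σ.X0 + C.cfT q)) := by
  have hr := σ.pos
  have hX : ‖σ.X0 + C.cfT (q : Cfg N) - σ.X0‖ < σ.r := by rw [add_sub_cancel_left]; linarith
  have e : ∀ z : C.Zt σ.X0, gsT P σ g (σ.X0 + C.cfT q) z * aL P σ L (C.Zt σ.X0) g (q, z) =
      Real.sqrt (jX σ (σ.X0 + C.cfT q)) * gsT P σ g (σ.X0 + C.cfT q) z ^ 2 := fun z => by
    rw [aL_eq_gsT P σ L _ g (x := (q, z)) hq]
    ring
  have hi := (memLp_two_iff_integrable_sq (memLp_gsT P σ hg hX).1).1 (memLp_gsT P σ hg hX)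
  simp only [e]
  refine ⟨hi.const_mul _, ?_⟩
  rw [integral_const_mul, integral_gsT_sq P σ hg hX, mul_one]

/-- `∫ gs ∂_w a = ∂_w √j`. -/
theorem vac_dL (P : TPack C M R G) (σ : Sl C) {L : Submodule ℝ (Cfg N)} {g : ℝ} (hg : 0 < g)
    {q : L} (hq : ‖C.cfT (q : Cfg N)‖ < σ.r / 2) (w : L) :
    Integrable (fun z : C.Zt σ.X0 => gsT P σ g (σ.X0 + C.cfT q) z *
      fderiv ℝ (aL P σ L (C.Zt σ.X0) g) (q, z) (w, 0)) ∧
    ∫ z : C.Zt σ.X0, gsT P σ g (σ.X0 + C.cfT q) z *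
        fderiv ℝ (aL P σ L (C.Zt σ.X0) g) (q, z) (w, 0) =
      Real.sqrt (jX σ (σ.X0 + C.cfT q)) * ((2 * jX σ (σ.X0 + C.cfT q))⁻¹ *
        fderiv ℝ (jX σ) (σ.X0 + C.cfT q) (C.cfT w)) := by
  have hr := σ.pos
  have hX : ‖σ.X0 + C.cfT (q : Cfg N) - σ.X0‖ < σ.r := by rw [add_sub_cancel_left]; linarith
  obtain ⟨l, a, K, M', j0, W, hXW, hW, hpk⟩ := exists_pk_at P σ hX
  have hb : ∀ Y ∈ W, ‖Y - σ.X0‖ < σ.r := fun Y hY => by
    simpa [dist_eq_norm] using hW hY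
  have e : ∀ z : C.Zt σ.X0, gsT P σ g (σ.X0 + C.cfT q) z *
      fderiv ℝ (aL P σ L (C.Zt σ.X0) g) (q, z) (w, 0) =
      GPar984.G g (AZ P σ (σ.X0 + C.cfT q)) z *
        (A0416.a0 (jX σ) (AZ P σ) g (σ.X0 + C.cfT q) z *
        A0416.xi (A0416.la (jX σ) l (σ.X0 + C.cfT q)) (fderiv ℝ (AZ P σ) (σ.X0 + C.cfT q)) g z
          (C.cfT w)) := by
    intro z
    have hev : (fun q : Pos p × C.Zt σ.X0 => aG P σ g q.1 q.2) =ᶠ[𝓝 (σ.X0 + C.cfT q, z)]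
        fun q : Pos p × C.Zt σ.X0 => A0416.a0 (jX σ) (AZ P σ) g q.1 q.2 := by
      have h1 : ∀ᶠ q : Pos p × C.Zt σ.X0 in 𝓝 (σ.X0 + C.cfT q, z), q.1 ∈ W :=
        continuousAt_fst.eventually (hpk.isOpen.mem_nhds hXW)
      filter_upwards [h1] with q hq
      exact aG_eq P σ hg (hb _ hq) q.2
    rw [fderiv_aL P σ hg (x := (q, z)) hq, gsT_eq P σ hg hX z]
    show _ * fderiv ℝ (fun q : Pos p × C.Zt σ.X0 => aG P σ g q.1 q.2) (σ.X0 + C.cfT q, z)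
      (C.cfT w, 0) = _
    rw [hev.fderiv_eq, hpk.fderiv_a0 (by simp) hXW g z _ 0, inner_zero_right, mul_zero, sub_zero]
  simp only [e]
  exact hpk.vac_dx hXW hg (C.cfT w)

end Crest.Agent.R330.T5G151

end
end

-- ▼ part R330/T5Gb_151

/-!
# Row 330, S8-T5: the Gaussian inputs in the names of `PairT_714` (helper151)
-/

set_option autoImplicit false
set_option linter.unusedSectionVars false

open MeasureTheory Filter Topology Crest.MathPhysics.MatrixQM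
open scoped ContDiff InnerProductSpace ENNReal

noncomputable section

namespace Crest.Agent.R330.T5G151

open Crest.Agent.R330.Defs478
  Crest.Agent.R330.LS839 Crest.Agent.R330.Frame839
  Crest.Agent.R330.Bind6839 Crest.Agent.R330.TDef414 Crest.Agent.R330.PairB547
  Crest.Agent.R330.PairE547 Crest.Agent.R330.PairL_862 Crest.Agent.R330.PairC714
  Crest.Agent.R330.PairD714 Crest.Agent.R330.TrialSys796 Crest.Agent.R330.PairT714

variable {N p : ℕ} {b : ColorBasis N} {S : Type} [Group S] [Fintype S] {C : Chn b p S}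
variable {F : Type*} [NormedAddCommGroup F] [InnerProductSpace ℂ F] [FiniteDimensional ℂ F]
variable {M : FermionRep N F} {R : GaugeAction b M} {G : GammaNine}

/-- The amplitude of the trial functions of the chart. -/
def aT5 (P : TPack C M R G) (σ : Sl C) (g : ℝ) (q : LL σ) (z : ZZ σ) : ℝ :=
  aL P σ (Tup C.kk) (C.Zt σ.X0) g (q, z)

theorem gsT_714 (P : TPack C M R G) (σ : Sl C) {L Z : Submodule ℝ (Cfg N)} (g : ℝ) (q : L)
    (z : Z) : PairT714.gsT P σ g q z = T5G151.gsT P σ g (Xq σ q) z := rfl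

theorem cfT_Sb (σ : Sl C) {L : Submodule ℝ (Cfg N)} {q : L} (hq : q ∈ Sb σ L) :
    ‖C.cfT (q : Cfg N)‖ ≤ σ.r / 3 := (cfT_le _).trans hq

theorem Xq_lt (σ : Sl C) {L : Submodule ℝ (Cfg N)} {q : L} (hq : q ∈ Sb σ L) :
    ‖Xq σ q - σ.X0‖ < σ.r := by
  have h1 := cfT_Sb σ hq
  have hr := σ.pos
  unfold Xq
  rw [add_sub_cancel_left]
  linarith

/-- `FibMom` of `dualAt_of`. -/
theorem fibMomT (P : TPack C M R G) (σ : Sl C) :
    FibMom (volume : Measure (ZZ σ)) (aT5 P σ) (Sb σ (Tup C.kk)) :=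
  fibMom_of P σ rfl (ρ := σ.r / 3) (by have := σ.pos; linarith) fun _ hq => cfT_Sb σ hq

/-- `hgs` of `dualAt_of`. -/
theorem memLpT (P : TPack C M R G) (σ : Sl C) :
    ∀ᶠ g in atTop, ∀ q ∈ Sb σ (Tup C.kk),
      MemLp (fun z : ZZ σ => PairT714.gsT P σ g q z) 2 volume := by
  filter_upwards [eventually_gt_atTop 0] with g hg q hq
  exact memLp_gsT P σ hg (Xq_lt σ hq)


/-- `∫ gs a = √j`. -/
theorem int_gs_aT5 (P : TPack C M R G) (σ : Sl C) {g : ℝ} (hg : 0 < g) {q : LL σ}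
    (hq : q ∈ Sb σ (Tup C.kk)) :
    Integrable (fun z : ZZ σ => PairT714.gsT P σ g q z * aT5 P σ g q z) ∧
    ∫ z : ZZ σ, PairT714.gsT P σ g q z * aT5 P σ g q z = Real.sqrt (jX σ (Xq σ q)) :=
  int_gs_aL P σ hg (by have := cfT_Sb σ hq; have := σ.pos; linarith)

/-- `∫ gs ∂_w a = ∂_w √j`. -/
theorem vac_dT5 (P : TPack C M R G) (σ : Sl C) {g : ℝ} (hg : 0 < g) {q : LL σ}
    (hq : q ∈ Sb σ (Tup C.kk)) (w : LL σ) :
    Integrable (fun z : ZZ σ => PairT714.gsT P σ g q z *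
      fderiv ℝ (aL P σ (Tup C.kk) (C.Zt σ.X0) g) (q, z) (w, 0)) ∧
    ∫ z : ZZ σ, PairT714.gsT P σ g q z *
        fderiv ℝ (aL P σ (Tup C.kk) (C.Zt σ.X0) g) (q, z) (w, 0) =
      Real.sqrt (jX σ (Xq σ q)) * ((2 * jX σ (Xq σ q))⁻¹ *
        fderiv ℝ (jX σ) (Xq σ q) (C.cfT w)) :=
  vac_dL P σ hg (by have := cfT_Sb σ hq; have := σ.pos; linarith) w

/-- `τ = κ a om`. -/
theorem tauT_smul (P : TPack C M R G) (σ : Sl C) (g : ℝ) (χ : Amp M G σ) (x : LL σ × ZZ σ) :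
    tauT P σ g χ.fn x = (kapZ σ (C.Zt σ.X0) x.2 * aT5 P σ g x.1 x.2) •
      BrT5658.omT P σ g χ.fn x.1 :=
  tau_smul P σ rfl rfl g χ x


end Crest.Agent.R330.T5G151

end
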