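import Crest.Agent.R330.Dbl_798

/-!
# Row 330, S5b-B4: the integration formula on a slice (helper712), abstract part

A compact group `G` (probability measure `μ`, left and right invariant) acts by measure preserving
isometries on a finite dimensional real inner product space `E`.  `c : E`, `ι : V →ₗᵢ E` (normal
space) and `τ : T →ₗᵢ E` (tangent space of the orbit), `E = τ T ⊕ ι V` orthogonally;
chart `(t,u) ↦ act (e t) (c + ι u)`, with `|det| = a t * J u`.

Main result `slice_lintegral`: for every measurable `f : E → [0,∞]`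
`κ * ∫⁻_{tube r} f = A * ∫⁻_g ∫⁻_{|u|<r} J u * f (act g (c + ι u))`.
-/

set_option autoImplicit false
set_option linter.unusedSectionVars false

open MeasureTheory Metric Set
open scoped ENNReal NNReal InnerProductSpace

noncomputable section

namespace Crest.Agent.R330.SlI712

open Crest.Agent.R330.Dbl798

/-! ## The orthogonal splitting -/

section Split

variable {E T V : Type*}
  [NormedAddCommGroup E] [InnerProductSpace ℝ E] [FiniteDimensional ℝ E] [MeasurableSpace E]
  [BorelSpace E]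
  [NormedAddCommGroup T] [InnerProductSpace ℝ T] [FiniteDimensional ℝ T] [MeasurableSpace T]
  [BorelSpace T]
  [NormedAddCommGroup V] [InnerProductSpace ℝ V] [FiniteDimensional ℝ V] [MeasurableSpace V]
  [BorelSpace V]

/-- the isometry `WithLp 2 (T × V) ≃ E` of an orthogonal splitting -/
def splitIso (τ : T →ₗᵢ[ℝ] E) (ι : V →ₗᵢ[ℝ] E) (orth : ∀ t u, ⟪τ t, ι u⟫_ℝ = 0)
    (span : ∀ x, ∃ t u, x = τ t + ι u) : WithLp 2 (T × V) ≃ₗᵢ[ℝ] E :=
  LinearIsometryEquiv.ofSurjective
    { toLinearMap :=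
        (τ.toLinearMap.comp (LinearMap.fst ℝ T V) + ι.toLinearMap.comp (LinearMap.snd ℝ T V)).comp
          (WithLp.linearEquiv 2 ℝ (T × V)).toLinearMap
      norm_map' := fun p => by
        have h1 : ‖τ p.ofLp.1 + ι p.ofLp.2‖ ^ 2 = ‖p‖ ^ 2 := by
          rw [norm_add_sq_real, orth, WithLp.prod_norm_sq_eq_of_L2, τ.norm_map, ι.norm_map]
          simp
        have h2 := (sq_eq_sq₀ (norm_nonneg _) (norm_nonneg _)).1 h1
        simpa using h2 }
    (fun x => by
      obtain ⟨t, u, rfl⟩ := span x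
      exact ⟨WithLp.toLp 2 (t, u), by simp⟩)


/-- the linear equivalence `T × V ≃ E` -/
def splitL (τ : T →ₗᵢ[ℝ] E) (ι : V →ₗᵢ[ℝ] E) (orth : ∀ t u, ⟪τ t, ι u⟫_ℝ = 0)
    (span : ∀ x, ∃ t u, x = τ t + ι u) : (T × V) ≃L[ℝ] E :=
  (WithLp.prodContinuousLinearEquiv 2 ℝ T V).symm.trans
    (splitIso τ ι orth span).toContinuousLinearEquiv


theorem splitL_mp (τ : T →ₗᵢ[ℝ] E) (ι : V →ₗᵢ[ℝ] E) (orth : ∀ t u, ⟪τ t, ι u⟫_ℝ = 0)
    (span : ∀ x, ∃ t u, x = τ t + ι u) :
    MeasurePreserving (splitL τ ι orth span) (volume : Measure (T × V)) volume := by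
  have h1 := WithLp.volume_preserving_toLp T V
  have h2 := (splitIso τ ι orth span).measurePreserving
  exact h2.comp h1

end Split

/-! ## Slice charts -/

section Chart

variable {G E T V : Type*}
  [Group G] [TopologicalSpace G] [IsTopologicalGroup G] [SecondCountableTopology G]
  [MeasurableSpace G] [BorelSpace G]
  [NormedAddCommGroup E] [InnerProductSpace ℝ E] [FiniteDimensional ℝ E] [MeasurableSpace E]
  [BorelSpace E]
  [NormedAddCommGroup T] [InnerProductSpace ℝ T] [FiniteDimensional ℝ T] [MeasurableSpace T]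
  [BorelSpace T]
  [NormedAddCommGroup V] [InnerProductSpace ℝ V] [FiniteDimensional ℝ V] [MeasurableSpace V]
  [BorelSpace V]

/-- the tube `G (c + ι (ball 0 r))` -/
def tube (act : G → E → E) (c : E) (ι : V → E) (r : ℝ) : Set E :=
  {x | ∃ g u, ‖u‖ < r ∧ act g (c + ι u) = x}

/-- A slice chart: `(t,u) ↦ act (e t) (c + ι u)` on `|t| < d`, `|u| < r0`, with Jacobian
`a t * J u`. -/
structure Chart (act : G → E → E) (c : E) (τ : T →ₗᵢ[ℝ] E) (ι : V →ₗᵢ[ℝ] E) (e : T → G)
    (d r0 : ℝ) (a : T → ℝ) (J : V → ℝ) : Prop where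
  iso : IsoAct act
  mp : ∀ g, MeasurePreserving (act g) (volume : Measure E) volume
  orth : ∀ t u, ⟪τ t, ι u⟫_ℝ = 0
  span : ∀ x, ∃ t u, x = τ t + ι u
  star : ∀ g u u', ‖u‖ < r0 → ‖u'‖ < r0 → act g (c + ι u) = c + ι u' → act g c = c
  stab : ∀ g, act g c = c → ∀ u, ‖u‖ < r0 → ∃ u', ‖u'‖ = ‖u‖ ∧ act g (c + ι u) = c + ι u'
  inj : InjOn (fun t => act (e t) c) (ball 0 d)
  der : ∀ t ∈ ball (0 : T) d, ∀ u ∈ ball (0 : V) r0, ∃ D : T × V →L[ℝ] E,
    HasFDerivAt (fun p : T × V => act (e p.1) (c + ι p.2)) D (t, u) ∧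
      |(D.comp ((splitL τ ι orth span).symm : E →L[ℝ] T × V)).det| = a t * J u
  a_nonneg : ∀ t, 0 ≤ a t
  J_nonneg : ∀ u, 0 ≤ J u
  a_meas : Measurable a
  J_meas : Measurable J
  e_meas : Measurable e

namespace Chart

variable {act : G → E → E} {c : E} {τ : T →ₗᵢ[ℝ] E} {ι : V →ₗᵢ[ℝ] E} {e : T → G}
  {d r0 : ℝ} {a : T → ℝ} {J : V → ℝ}

/-- the chart map -/
def Psi (act : G → E → E) (c : E) (ι : V →ₗᵢ[ℝ] E) (e : T → G) (p : T × V) : E :=
  act (e p.1) (c + ι p.2)


/-- transition: an element moving one slice point to another -/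
theorem trans_elt (H : Chart act c τ ι e d r0 a J) {g h : G} {u u' : V} (hu : ‖u‖ < r0)
    (hu' : ‖u'‖ < r0) (he : act g (c + ι u) = act h (c + ι u')) :
    act g c = act h c ∧ ‖u‖ = ‖u'‖ := by
  have h1 : act (h⁻¹ * g) (c + ι u) = c + ι u' := by
    rw [H.iso.mul, he, H.iso.inv_act]
  have h2 : act (h⁻¹ * g) c = c := H.star _ _ _ hu hu' h1
  refine ⟨?_, ?_⟩
  · rw [H.iso.mul] at h2
    have := congrArg (act h) h2
    rwa [H.iso.act_inv] at this
  · obtain ⟨v, hv, hv'⟩ := H.stab _ h2 u hu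
    rw [h1] at hv'
    have : ι u' = ι v := add_left_cancel hv'
    rw [ι.injective this, hv]

theorem injOn_Psi (H : Chart act c τ ι e d r0 a J) {r : ℝ} (hr : r ≤ r0) :
    InjOn (Psi act c ι e) (ball 0 d ×ˢ ball 0 r) := by
  rintro ⟨t, u⟩ ⟨ht, hu⟩ ⟨t', u'⟩ ⟨ht', hu'⟩ h
  simp only [mem_ball_zero_iff] at hu hu'
  have h1 := H.trans_elt (hu.trans_le hr) (hu'.trans_le hr) h
  have h2 : t = t' := H.inj ht ht' h1.1
  subst h2
  have h3 : act (e t) (c + ι u) = act (e t) (c + ι u') := h
  have h4 := congrArg (act (e t)⁻¹) h3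
  rw [H.iso.inv_act, H.iso.inv_act] at h4
  have h5 := ι.injective (add_left_cancel h4)
  rw [h5]

/-- The orbit patch `{act (e t) c : |t| < d}`. -/
def patch (act : G → E → E) (c : E) (e : T → G) (d : ℝ) : Set E :=
  (fun t => act (e t) c) '' ball (0 : T) d

theorem mem_image_iff (H : Chart act c τ ι e d r0 a J) {r : ℝ} (hr : r ≤ r0) (g : G) {u : V}
    (hu : ‖u‖ < r) :
    act g (c + ι u) ∈ Psi act c ι e '' (ball 0 d ×ˢ ball 0 r) ↔ act g c ∈ patch act c e d := by
  constructor
  · rintro ⟨⟨t, u'⟩, ⟨ht, hu'⟩, h⟩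
    simp only [mem_ball_zero_iff] at hu'
    have h1 := H.trans_elt (hu'.trans_le hr) (hu.trans_le hr) h
    exact ⟨t, ht, h1.1⟩
  · rintro ⟨t, ht, h⟩
    have h1 : act ((e t)⁻¹ * g) c = c := by
      rw [H.iso.mul, ← h, H.iso.inv_act]
    obtain ⟨u', hu', h2⟩ := H.stab _ h1 u (hu.trans_le hr)
    refine ⟨(t, u'), ⟨ht, by simpa [hu'] using hu⟩, ?_⟩
    unfold Psi
    simp only
    rw [← h2, H.iso.mul, H.iso.act_inv]

theorem image_subset_tube {r : ℝ} :
    Psi act c ι e '' (ball 0 d ×ˢ ball 0 r) ⊆ tube act c ι r := by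
  rintro _ ⟨⟨t, u⟩, ⟨_, hu⟩, rfl⟩
  exact ⟨e t, u, by simpa using hu, rfl⟩

theorem tube_inv (H : IsoAct act) {r : ℝ} (g : G) (x : E) :
    act g x ∈ tube act c ι r ↔ x ∈ tube act c ι r := by
  constructor
  · rintro ⟨h, u, hu, he⟩
    refine ⟨g⁻¹ * h, u, hu, ?_⟩
    rw [H.mul, he, H.inv_act]
  · rintro ⟨h, u, hu, rfl⟩
    exact ⟨g * h, u, hu, by rw [H.mul]⟩

/-- the chart as a map `E → E` -/
def PsiE (H : Chart act c τ ι e d r0 a J) (x : E) : E :=
  Psi act c ι e ((splitL τ ι H.orth H.span).symm x)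

/-- the box in `E` -/
def box (H : Chart act c τ ι e d r0 a J) (r : ℝ) : Set E :=
  splitL τ ι H.orth H.span '' (ball 0 d ×ˢ ball 0 r)

theorem box_eq (H : Chart act c τ ι e d r0 a J) (r : ℝ) :
    H.box r = (splitL τ ι H.orth H.span).symm ⁻¹' (ball 0 d ×ˢ ball 0 r) := by
  unfold box
  ext x
  constructor
  · rintro ⟨p, hp, rfl⟩
    simpa using hp
  · intro hx
    exact ⟨_, hx, by simp⟩

theorem measurableSet_box (H : Chart act c τ ι e d r0 a J) (r : ℝ) :
    MeasurableSet (H.box r) := by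
  rw [box_eq]
  exact ((isOpen_ball.prod isOpen_ball).preimage
    (splitL τ ι H.orth H.span).symm.continuous).measurableSet

theorem image_PsiE (H : Chart act c τ ι e d r0 a J) (r : ℝ) :
    H.PsiE '' H.box r = Psi act c ι e '' (ball 0 d ×ˢ ball 0 r) := by
  unfold box
  rw [image_image]
  refine image_congr fun p _ => ?_
  simp [PsiE]

theorem injOn_PsiE (H : Chart act c τ ι e d r0 a J) {r : ℝ} (hr : r ≤ r0) :
    InjOn H.PsiE (H.box r) := by
  rintro x hx y hy h
  rw [box_eq] at hx hy
  exact (splitL τ ι H.orth H.span).symm.injective (H.injOn_Psi hr hx hy h)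

theorem exists_derE (H : Chart act c τ ι e d r0 a J) {r : ℝ} (hr : r ≤ r0) :
    ∃ D : E → E →L[ℝ] E, (∀ x ∈ H.box r, HasFDerivWithinAt H.PsiE (D x) (H.box r) x) ∧
      ∀ x ∈ H.box r, |(D x).det| = a ((splitL τ ι H.orth H.span).symm x).1 *
        J ((splitL τ ι H.orth H.span).symm x).2 := by
  classical
  have key : ∀ x, ∃ D : E →L[ℝ] E, x ∈ H.box r → HasFDerivWithinAt H.PsiE D (H.box r) x ∧
      |D.det| = a ((splitL τ ι H.orth H.span).symm x).1 *
        J ((splitL τ ι H.orth H.span).symm x).2 := by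
    intro x
    by_cases hx : x ∈ H.box r
    · have hx' := hx
      rw [box_eq] at hx'
      obtain ⟨D, hD, hdet⟩ := H.der _ hx'.1 _ (ball_subset_ball hr hx'.2)
      refine ⟨D.comp ((splitL τ ι H.orth H.span).symm : E →L[ℝ] T × V), fun _ => ⟨?_, hdet⟩⟩
      have h1 : HasFDerivAt (fun y => (splitL τ ι H.orth H.span).symm y)
          ((splitL τ ι H.orth H.span).symm : E →L[ℝ] T × V) x :=
        (splitL τ ι H.orth H.span).symm.hasFDerivAt
      exact (HasFDerivAt.comp x hD h1).hasFDerivWithinAt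
    · exact ⟨0, fun h => absurd h hx⟩
  choose D hD using key
  exact ⟨D, fun x hx => (hD x hx).1, fun x hx => (hD x hx).2⟩

theorem measurableSet_image (H : Chart act c τ ι e d r0 a J) {r : ℝ} (hr : r ≤ r0) :
    MeasurableSet (Psi act c ι e '' (ball 0 d ×ˢ ball 0 r)) := by
  obtain ⟨D, hD, _⟩ := H.exists_derE hr
  rw [← H.image_PsiE]
  exact measurable_image_of_fderivWithin (H.measurableSet_box r) hD (H.injOn_PsiE hr)

/-- change of variables in the chart -/
theorem lintegral_image (H : Chart act c τ ι e d r0 a J) {r : ℝ} (hr : r ≤ r0)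
    (f : E → ℝ≥0∞) (hf : Measurable f) :
    ∫⁻ x in Psi act c ι e '' (ball 0 d ×ˢ ball 0 r), f x =
      ∫⁻ t in ball (0 : T) d, ENNReal.ofReal (a t) *
        ∫⁻ u in ball (0 : V) r, ENNReal.ofReal (J u) * f (act (e t) (c + ι u)) := by
  obtain ⟨D, hD, hdet⟩ := H.exists_derE hr
  rw [← H.image_PsiE, lintegral_image_eq_lintegral_abs_det_fderiv_mul volume
    (H.measurableSet_box r) hD (H.injOn_PsiE hr) f]
  have h1 : ∫⁻ x in H.box r, ENNReal.ofReal |(D x).det| * f (H.PsiE x) =
      ∫⁻ x in H.box r, ENNReal.ofReal (a ((splitL τ ι H.orth H.span).symm x).1 *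
        J ((splitL τ ι H.orth H.span).symm x).2) *
          f (Psi act c ι e ((splitL τ ι H.orth H.span).symm x)) := by
    refine setLIntegral_congr_fun (H.measurableSet_box r) fun x hx => ?_
    simp only [hdet x hx]
    rfl
  rw [h1]
  have hemb : MeasurableEmbedding (splitL τ ι H.orth H.span) :=
    (splitL τ ι H.orth H.span).toHomeomorph.measurableEmbedding
  have h2 := (splitL_mp τ ι H.orth H.span).setLIntegral_comp_emb hemb
    (fun x => ENNReal.ofReal (a ((splitL τ ι H.orth H.span).symm x).1 *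
        J ((splitL τ ι H.orth H.span).symm x).2) *
          f (Psi act c ι e ((splitL τ ι H.orth H.span).symm x))) (ball 0 d ×ˢ ball 0 r)
  have h3 : H.box r = splitL τ ι H.orth H.span '' (ball 0 d ×ˢ ball 0 r) := rfl
  rw [h3, ← h2]
  simp only [ContinuousLinearEquiv.symm_apply_apply]
  have hcont : ContinuousOn (Psi act c ι e) (ball 0 d ×ˢ ball 0 r) := by
    intro p hp
    obtain ⟨D', hD', _⟩ := H.der p.1 hp.1 p.2 (ball_subset_ball hr hp.2)
    exact hD'.continuousAt.continuousWithinAt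
  have hms : MeasurableSet (ball (0 : T) d ×ˢ ball (0 : V) r) :=
    measurableSet_ball.prod measurableSet_ball
  have hmeas : AEMeasurable (fun p : T × V => ENNReal.ofReal (a p.1 * J p.2) *
      f (Psi act c ι e p)) ((volume.restrict (ball (0 : T) d)).prod
        (volume.restrict (ball (0 : V) r))) := by
    rw [Measure.prod_restrict]
    refine AEMeasurable.mul ?_ ?_
    · exact ((H.a_meas.comp measurable_fst).mul
        (H.J_meas.comp measurable_snd)).ennreal_ofReal.aemeasurable
    · exact hf.comp_aemeasurable (hcont.aemeasurable hms)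
  rw [Measure.volume_eq_prod, ← Measure.prod_restrict, lintegral_prod _ hmeas]
  refine lintegral_congr fun t => ?_
  rw [← lintegral_const_mul' _ _ ENNReal.ofReal_ne_top]
  refine lintegral_congr fun u => ?_
  rw [ENNReal.ofReal_mul (H.a_nonneg t), mul_assoc]
  rfl

theorem measurable_act (H : IsoAct act) : Measurable fun q : G × E => act q.1 q.2 :=
  H.cont.measurable

/-- **Slice integration formula** (all nonnegative functions, with constants). -/
theorem slice_lintegral (H : Chart act c τ ι e d r0 a J) (μ : Measure G)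
    [IsProbabilityMeasure μ] [μ.IsMulLeftInvariant] [μ.IsMulRightInvariant] {r : ℝ}
    (hr : r ≤ r0) (hU : MeasurableSet (tube act c ι r)) (f : E → ℝ≥0∞) (hf : Measurable f) :
    μ {g | act g⁻¹ c ∈ patch act c e d} * ∫⁻ x in tube act c ι r, f x =
      (∫⁻ t in ball (0 : T) d, ENNReal.ofReal (a t)) *
        ∫⁻ g, (∫⁻ u in ball (0 : V) r, ENNReal.ofReal (J u) * f (act g (c + ι u))) ∂μ := by
  classical
  set P : Set E := Psi act c ι e '' (ball 0 d ×ˢ ball 0 r) with hP
  have hPm : MeasurableSet P := H.measurableSet_image hr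
  set κ : ℝ≥0∞ := μ {g | act g⁻¹ c ∈ patch act c e d} with hκ
  set F : G → E → ℝ≥0∞ := fun g x => P.indicator 1 (act g⁻¹ x) * f x with hF
  have hactm := measurable_act H.iso
  have hFm : Measurable (Function.uncurry F) := by
    have h1 : Measurable fun q : G × E => act q.1⁻¹ q.2 :=
      hactm.comp ((measurable_fst.inv).prodMk measurable_snd)
    have h2 : Measurable fun q : G × E => P.indicator (1 : E → ℝ≥0∞) (act q.1⁻¹ q.2) :=
      (measurable_one.indicator hPm).comp h1
    exact h2.mul (hf.comp measurable_snd)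
  -- fibre integrals
  have hfib : ∀ x, ∫⁻ g, F g x ∂μ = (tube act c ι r).indicator (fun x => κ * f x) x := by
    intro x
    by_cases hx : x ∈ tube act c ι r
    · rw [indicator_of_mem hx]
      obtain ⟨g0, u, hu, rfl⟩ := hx
      have h1 : ∀ g, F g (act g0 (c + ι u)) =
          {g | act (g0⁻¹ * g)⁻¹ c ∈ patch act c e d}.indicator
            (fun _ => f (act g0 (c + ι u))) g := by
        intro g
        simp only [hF]
        have h2 : act g⁻¹ (act g0 (c + ι u)) = act (g⁻¹ * g0) (c + ι u) := by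
          rw [H.iso.mul]
        have h3 : (g0⁻¹ * g)⁻¹ = g⁻¹ * g0 := by group
        by_cases hg : act (g⁻¹ * g0) c ∈ patch act c e d
        · have h4 : act g⁻¹ (act g0 (c + ι u)) ∈ P := by
            rw [h2]; exact (H.mem_image_iff hr _ hu).2 hg
          rw [indicator_of_mem h4, indicator_of_mem (by simpa [h3] using hg)]
          simp
        · have h4 : act g⁻¹ (act g0 (c + ι u)) ∉ P := by
            rw [h2]; exact fun h => hg ((H.mem_image_iff hr _ hu).1 h)
          rw [indicator_of_notMem h4, indicator_of_notMem (by simpa [h3] using hg)]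
          simp
      have hset : MeasurableSet {g | act (g0⁻¹ * g)⁻¹ c ∈ patch act c e d} := by
        have h5 : {g | act (g0⁻¹ * g)⁻¹ c ∈ patch act c e d} =
            (fun g => act g⁻¹ (act g0 (c + ι u))) ⁻¹' P := by
          ext g
          have h2 : act g⁻¹ (act g0 (c + ι u)) = act (g0⁻¹ * g)⁻¹ (c + ι u) := by
            rw [← H.iso.mul]; congr 1; group
          simp only [Set.mem_ofPred_eq, mem_preimage]
          rw [h2]
          exact (H.mem_image_iff hr _ hu).symm
        rw [h5]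
        refine hPm.preimage ?_
        exact (hactm.comp (measurable_inv.prodMk measurable_const))
      simp only [h1]
      rw [lintegral_indicator hset, setLIntegral_const, mul_comm]
      congr 1
      have h6 : {g | act (g0⁻¹ * g)⁻¹ c ∈ patch act c e d} =
          (fun g => g0⁻¹ * g) ⁻¹' {g | act g⁻¹ c ∈ patch act c e d} := rfl
      rw [h6, measure_preimage_mul]
    · rw [indicator_of_notMem hx]
      have h1 : ∀ g, F g x = 0 := by
        intro g
        simp only [hF]
        have h2 : act g⁻¹ x ∉ P := fun h =>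
          hx ((tube_inv H.iso g⁻¹ x).1 (image_subset_tube h))
        rw [indicator_of_notMem h2, zero_mul]
      simp [h1]
  have hL : κ * ∫⁻ x in tube act c ι r, f x = ∫⁻ x, ∫⁻ g, F g x ∂μ := by
    simp only [hfib]
    rw [lintegral_indicator hU, lintegral_const_mul _ hf]
  rw [hL, lintegral_lintegral_swap (f := fun x g => F g x)
    ((hFm.comp measurable_swap).aemeasurable)]
  -- unfold in the chart
  set Θ : G → ℝ≥0∞ := fun g => ∫⁻ u in ball (0 : V) r,
    ENNReal.ofReal (J u) * f (act g (c + ι u)) with hΘ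
  have hΘm : Measurable Θ := by
    have h1 : Measurable fun q : G × V => ENNReal.ofReal (J q.2) * f (act q.1 (c + ι q.2)) := by
      refine (H.J_meas.comp measurable_snd).ennreal_ofReal.mul (hf.comp ?_)
      have h2 : Measurable fun q : G × V => (q.1, c + ι q.2) :=
        measurable_fst.prodMk ((ι.continuous.measurable.comp measurable_snd).const_add c)
      exact hactm.comp h2
    exact h1.lintegral_prod_right'
  have hg : ∀ g, ∫⁻ x, F g x = ∫⁻ t in ball (0 : T) d, ENNReal.ofReal (a t) * Θ (g * e t) := by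
    intro g
    have h1 : ∫⁻ x, F g x = ∫⁻ x, P.indicator 1 x * f (act g x) := by
      have h0 : Measurable (F g) := hFm.comp (measurable_const.prodMk measurable_id)
      rw [← (H.mp g).lintegral_comp h0]
      refine lintegral_congr fun x => ?_
      simp only [hF]
      rw [H.iso.inv_act]
    have h2 : ∫⁻ x, P.indicator 1 x * f (act g x) = ∫⁻ x in P, f (act g x) := by
      rw [← lintegral_indicator hPm]
      refine lintegral_congr fun x => ?_
      by_cases hx : x ∈ P
      · simp [hx]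
      · simp [hx]
    have hfg : Measurable fun x => f (act g x) :=
      hf.comp (hactm.comp (measurable_const.prodMk measurable_id))
    rw [h1, h2, H.lintegral_image hr _ hfg]
    refine lintegral_congr fun t => ?_
    simp only [hΘ, H.iso.mul]
  simp only [hg]
  rw [lintegral_lintegral_swap]
  · have h3 : ∀ t, ∫⁻ g, ENNReal.ofReal (a t) * Θ (g * e t) ∂μ =
        ENNReal.ofReal (a t) * ∫⁻ g, Θ g ∂μ := by
      intro t
      rw [lintegral_const_mul' _ _ ENNReal.ofReal_ne_top, lintegral_mul_right_eq_self Θ (e t)]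
    simp only [h3]
    rw [lintegral_mul_const _ H.a_meas.ennreal_ofReal]
  · have h4 : Measurable fun q : G × T => ENNReal.ofReal (a q.2) * Θ (q.1 * e q.2) :=
      (H.a_meas.comp measurable_snd).ennreal_ofReal.mul
        (hΘm.comp (measurable_fst.mul (H.e_meas.comp measurable_snd)))
    exact h4.aemeasurable

end Chart

end Chart

end Crest.Agent.R330.SlI712
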