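import Crest.Agent.R330.PairE2_547
import Crest.Agent.R330.FactI_161
import Crest.Agent.R330.TDef_414
import Crest.Agent.R330.VJacC_969
import Crest.Agent.R330.SlJ_712
import Crest.Agent.R330.VacC_288
import Crest.Agent.R330.Cliff7_442
import Crest.Agent.R330.Kill_942_Mg
import Crest.Agent.R330.T5Gb_151
import Crest.Agent.R330.AX_984
import Crest.Agent.R330.GBind_984
import Crest.Agent.R330.Bind6b_839
import Crest.Agent.R330.AFld_984
import Crest.Agent.R330.PairU_714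
import Crest.Agent.R330.PairI2_658
import Crest.Agent.R330.LemC_342
import Crest.Agent.R330.PairD_714
import Crest.Agent.R330.SlQE_87
import Crest.Agent.R330.LemP_342
import Crest.Agent.R330.LemR2_302
import Crest.Agent.R330.LemF_581
import Crest.Agent.R330.SlEx_814
import Crest.Agent.R330.CapZA_818
import Crest.Agent.R330.PairT_714
import Crest.Agent.R330.Gram_167
import Crest.Agent.R330.Pou_365
import Crest.Agent.R330.TCore_383
import Crest.Agent.R330.Brid_837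
import Crest.Agent.R330.ChSys_399

-- ▼ part R330/PairV_547
section

/-!
# Row 330, S8-PAIR: the vacuum component of the even errors of order one (helper547)

At a fixed base point `p`: `⟪w, ∫ gs z • err2 (p, z)⟫ = 0` from the four facts
(moments of `∂_L a₀`, weak form of (V*), mean of the quadratic potential, Berry).
-/

set_option autoImplicit false
set_option linter.unusedSectionVars false

open MeasureTheory Filter Topology
open scoped ContDiff InnerProductSpace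

noncomputable section

namespace Crest.Agent.R330.PairE547

open Crest.Agent.R330.Frame839 Crest.Agent.R330.IBP837 Crest.Agent.R330.PairA547
  Crest.Agent.R330.PairB547

variable {V E : Type*} [NormedAddCommGroup V] [InnerProductSpace ℝ V] [FiniteDimensional ℝ V]
  [NormedAddCommGroup E] [InnerProductSpace ℝ E] [FiniteDimensional ℝ E]
  {F : Type*} [NormedAddCommGroup F] [InnerProductSpace ℂ F] [FiniteDimensional ℂ F]
  {ι κ η : Type*} [Fintype ι] [Fintype κ] [Fintype η]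

variable {A : V →L[ℝ] E →L[ℝ] E} {c : E} {L Z : Submodule ℝ E}

theorem inner_evp {Γ : F →ₗ[ℂ] F} {w : F} (hw : ∀ f, ⟪w, Γ f⟫_ℂ = ⟪w, f⟫_ℂ) (f : F) :
    ⟪w, evp Γ f⟫_ℂ = ⟪w, f⟫_ℂ := by
  unfold evp
  rw [← Complex.coe_smul, inner_smul_right, inner_add_right, hw]
  push_cast
  ring

theorem evp_add (Γ : F →ₗ[ℂ] F) (f f' : F) : evp Γ (f + f') = evp Γ f + evp Γ f' := by
  unfold evp
  rw [map_add]
  module

/-- **(v), abstract.** -/
theorem vac_abs [MeasurableSpace Z] {μ : Measure Z} (Θ : E →ₗ[ℝ] (F →ₗ[ℂ] F))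
    (Wq : E →ₗ[ℝ] E →ₗ[ℝ] (F →ₗ[ℂ] F)) (Bf : V →ₗ[ℝ] (F →ₗ[ℝ] F)) {Γ : F →ₗ[ℂ] F}
    (PX : L →ₗ[ℝ] E) (eT : OrthonormalBasis η ℝ (Tn A c)) (u : OrthonormalBasis ι ℝ L) (g : ℝ)
    {a₀ : L × Z → ℝ} {ψ ρe : L → F} {p : L} {gs : Z → ℝ} {sj : ℝ} {dsj : ι → ℝ} {w : F}
    (hw : ∀ f, ⟪w, Γ f⟫_ℂ = ⟪w, f⟫_ℂ)
    (i1 : ∀ s, Integrable (fun z => gs z * fderiv ℝ a₀ (p, z) (u s, 0)) μ)
    (h1 : ∀ s, ∫ z, gs z * fderiv ℝ a₀ (p, z) (u s, 0) ∂μ = dsj s)
    (i2 : Integrable (fun z => gs z * a₀ (p, z)) μ)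
    (h2 : ∫ z, gs z * a₀ (p, z) ∂μ = sj)
    (h3 : ⟪w, (∑ s, (-Complex.I) • Θ (u s) (dsj s • ψ p)) +
      sj • ∑ t, (-Complex.I) • Bf (om A c (c + PX p) (eT t)) (Θ (eT t) (ψ p))⟫_ℂ = 0)
    (i4 : Integrable (fun z => (gs z * a₀ (p, z)) • evp Γ (Wq (z : E) z (ψ p))) μ)
    (h4 : ⟪w, ∫ z, (gs z * a₀ (p, z)) • evp Γ (Wq (z : E) z (ψ p)) ∂μ⟫_ℂ = 0)
    (h5 : ⟪w, ρe p⟫_ℂ = 0) :
    ⟪w, ∫ z, gs z • err2 Θ Wq Bf Γ PX eT u g a₀ ψ ρe (p, z) ∂μ⟫_ℂ = 0 := by
  have hD : ∀ z : Z, gs z • err2 Θ Wq Bf Γ PX eT u g a₀ ψ ρe (p, z) =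
      (∑ s, (gs z * fderiv ℝ a₀ (p, z) (u s, 0)) • ((-Complex.I) • Θ (u s) (ψ p))) +
      (gs z * a₀ (p, z)) • ρe p +
      (gs z * a₀ (p, z)) • evp Γ (∑ t, (-Complex.I) • Bf (om A c (c + PX p) (eT t))
        (Θ (eT t) (ψ p))) +
      g • ((gs z * a₀ (p, z)) • evp Γ (Wq (z : E) z (ψ p))) := by
    intro z
    unfold err2 EV MX
    simp only
    rw [evp_add]
    have e1 : evp Γ (g • Wq (z : E) z (ψ p)) = g • evp Γ (Wq (z : E) z (ψ p)) := by
      unfold evp
      rw [map_rsmul]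
      module
    have e2 : gs z • (∑ s, (-Complex.I) • Θ (u s) (fderiv ℝ a₀ (p, z) (u s, 0) • ψ p)) =
        ∑ s, (gs z * fderiv ℝ a₀ (p, z) (u s, 0)) • ((-Complex.I) • Θ (u s) (ψ p)) := by
      rw [Finset.smul_sum]
      refine Finset.sum_congr rfl fun s _ => ?_
      rw [map_rsmul, smul_comm (-Complex.I), smul_smul]
    rw [e1, ← e2]
    module
  simp only [hD]
  rw [integral_add, integral_add, integral_add, integral_finset_sum]
  · simp only [integral_smul_const, integral_smul, h1, h2]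
    rw [inner_add_right, inner_add_right, inner_add_right]
    have r1 : ∀ (r : ℝ) (f : F), ⟪w, r • f⟫_ℂ = r * ⟪w, f⟫_ℂ := fun r f => by
      rw [← Complex.coe_smul, inner_smul_right]
    rw [r1 g, h4, r1 sj (ρe p), h5, r1 sj (evp _ _), inner_evp hw, ← r1 sj]
    rw [inner_add_right] at h3
    have e3 : ∀ s, dsj s • ((-Complex.I) • Θ (u s) (ψ p)) =
        (-Complex.I) • Θ (u s) (dsj s • ψ p) := fun s => by
      rw [map_rsmul, smul_comm (-Complex.I)]
    simp only [e3]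
    rw [mul_zero, mul_zero, add_zero, add_zero]
    exact h3
  · intro s _
    exact (i1 s).smul_const _
  · exact integrable_finset_sum _ fun s _ => (i1 s).smul_const _
  · exact i2.smul_const _
  · exact (integrable_finset_sum _ fun s _ => (i1 s).smul_const _).add (i2.smul_const _)
  · exact i2.smul_const _
  · exact ((integrable_finset_sum _ fun s _ => (i1 s).smul_const _).add (i2.smul_const _)).add
      (i2.smul_const _)
  · exact i4.smul g

/-- projection form -/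
theorem proj_zero_of_inner {S : Submodule ℂ F} {f : F} (h : ∀ w ∈ S, ⟪w, f⟫_ℂ = 0) :
    S.starProjection f = 0 := by
  rw [Submodule.starProjection_apply, Submodule.coe_eq_zero]
  exact Submodule.orthogonalProjectionOnto_apply_of_mem_orthogonal
    ((Submodule.mem_orthogonal S f).2 h)

end Crest.Agent.R330.PairE547

end
end

-- ▼ part R330/IrrX_566
section

/-!
# R330 (helper566), S10-LIM: the vacuum space of `Kᗮ` is irreducible under `θ(u)`, `u ∈ K`

* `irr_vacOf` : a subspace of `vacOf M G Kᗮ` which is invariant under `thv M β u`, `u ∈ K`, is `0` or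
  everything;
* `gvac_mem`, `vacOf_ne_bot`, `isGVac_of` : reference vacua.
-/

set_option autoImplicit false
set_option linter.unusedSectionVars false
set_option linter.unusedVariables false

open MeasureTheory Crest.MathPhysics.MatrixQM
open scoped BigOperators InnerProductSpace

noncomputable section
namespace Crest.Agent.R330.IrrX566

open Crest.Agent.R330.Cliff442 Crest.Agent.R330.Cliff442.CRep
open Crest.Agent.R330.LS839 Crest.Agent.R330.Bind6839 Crest.Agent.R330.Defs478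
open Crest.Agent.R330.SInd478 Crest.Agent.R330.FactI161 Crest.Agent.R330.TDef414

variable {N : ℕ}

/-! ### the partial complex structure -/

section pj

variable (G : GammaNine) (K : Submodule ℝ (Colg N))

/-- the orthogonal projection on `Kᗮ`, as a linear map -/
def piL : Colg N →ₗ[ℝ] Colg N := (Kᗮ.starProjection : Colg N →L[ℝ] Colg N)





/-- `1 ⊗ P_{Kᗮ}` -/
def Pi : W16 N →ₗ[ℝ] W16 N := teL (piL K)












end pj

/-! ### the vacuum space -/

section vac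

variable {F : Type*} [NormedAddCommGroup F] [InnerProductSpace ℂ F] [FiniteDimensional ℂ F]
variable (M : FermionRep N F) (G : GammaNine)

/-- `gan` through the Clifford module -/
theorem gan_eq (β : Fin 16) (u : Colg N) (f : F) : gan M G β u f =
    (cr M).θ (ins β u) f - Complex.I • (cr M).θ (GJ G N (ins β u)) f := by
  unfold gan
  rw [GJ_ins, CRep.sum, LinearMap.sub_apply, LinearMap.smul_apply, LinearMap.sum_apply,
    LinearMap.sum_apply, cr_ins]
  congr 2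
  refine Finset.sum_congr rfl fun β' _ => ?_
  rw [map_smul, CRep.smul, cr_ins]

/-- vacuum vectors through the Clifford module -/
theorem mem_vacOf_iff (K : Submodule ℝ (Colg N)) (f : F) : f ∈ vacOf M G K ↔
    ∀ x : W16 N, (∀ β, row β x ∈ K) → (cr M).θ x f = Complex.I • (cr M).θ (GJ G N x) f := by
  rw [mem_vacOf]
  constructor
  · intro h x hx
    conv_lhs => rw [← sum_ins_row x]
    conv_rhs => rw [← sum_ins_row x]
    rw [map_sum, CRep.sum, CRep.sum, LinearMap.sum_apply, LinearMap.sum_apply, Finset.smul_sum]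
    refine Finset.sum_congr rfl fun β _ => ?_
    have := h β _ (hx β)
    rw [gan_eq, sub_eq_zero] at this
    exact this
  · intro h β u hu
    rw [gan_eq, sub_eq_zero]
    refine h _ fun β' => ?_
    rw [row_ins]
    split_ifs
    · exact hu
    · exact K.zero_mem

theorem mem_vacOf_top_iff (f : F) : f ∈ vacOf M G ⊤ ↔ IsGVac M G f := by
  rw [mem_vacOf_iff, isGVac_iff]
  exact ⟨fun h x => h x fun _ => trivial, fun h x _ => h x⟩

theorem gvac_mem {f : F} (hf : IsGVac M G f) (K : Submodule ℝ (Colg N)) : f ∈ vacOf M G K :=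
  vacOf_mono le_top ((mem_vacOf_top_iff M G f).2 hf)

theorem vacOf_ne_bot [Nontrivial F] (K : Submodule ℝ (Colg N)) : vacOf M G K ≠ ⊥ := by
  obtain ⟨Ω, h1, h2⟩ := exists_gvac M G
  intro h
  have h3 := gvac_mem M G h2 K
  rw [h, Submodule.mem_bot] at h3
  rw [h3, norm_zero] at h1
  exact zero_ne_one h1



end vac

end Crest.Agent.R330.IrrX566
end
end

-- ▼ part R330/SlJ_186
section

/-!
# Row 330, S6-SLQ / S8-SL (helper186): the slice density

* `det_JL_eq` : 969's determinant is 712's `jac`.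
* `jd_act`, `jn_act` : invariance of the density under the stabiliser.
* `jn_bounds` : two-sided bounds on the ball.
-/

set_option autoImplicit false
noncomputable section

open MeasureTheory Metric Set
open Crest.MathPhysics.MatrixQM
open Crest.Agent.R330.SlA314 Crest.Agent.R330.SlB314 Crest.Agent.R330.SlC314
open Crest.Agent.R330.SlD314 Crest.Agent.R330.SlP314
open Crest.Agent.R330.SUgrp596
open scoped ContDiff Topology ENNReal InnerProductSpace

namespace Crest.Agent.R330.SlJ186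

open Crest.Agent.R330.VJac969

variable {N : ℕ} (b : ColorBasis N)

theorem det_JL_eq (c u : Cfg N) :
    LinearMap.det (VJac969.JL b c u) = SlJ712.jac b c u := by
  unfold SlJ712.jac
  symm
  refine det_block (Tan b c) (SlJ712.JL b c u) (VJac969.JL b c u) ?_ ?_
  · intro v hv
    rw [SlJ712.JL_apply, omL_of_Nor b hv, PN_of_mem b hv]
    have h : brx b (0 : Fin (N ^ 2 - 1) → ℝ) (c + u) = 0 := by
      have := brx_smul_left b 0 (0 : Fin (N ^ 2 - 1) → ℝ) (c + u)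
      rwa [zero_smul, zero_smul] at this
    rw [h, map_zero, zero_add]
  · intro x
    change PT b c (SlJ712.JL b c u x) = _
    rw [SlJ712.JL_apply, map_add, PT_of_mem b (PT_mem b c _), PT_of_mem_Nor b (PN_mem b c _),
      add_zero]
    rfl

theorem jd_eq_abs (c u : Cfg N) : jd b c u = |SlJ712.jac b c u| := by
  unfold jd
  rw [det_JL_eq]

/-- **Stabiliser invariance** of the Jacobian factor. -/
theorem jd_act {g : Matrix.specialUnitaryGroup (Fin N) ℂ} {c : Cfg N} (hg : b.act g c = c)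
    {u : Cfg N} (hu : u ∈ Nor b c) : jd b c (b.act g u) = jd b c u := by
  rw [jd_eq_abs, jd_eq_abs, SlJ712.jac_act b hg hu]

/-- **Stabiliser invariance** of the slice density. -/
theorem jn_act {g : Matrix.specialUnitaryGroup (Fin N) ℂ} {c : Cfg N} (δ : ℝ)
    (hg : b.act g c = c) {u : Cfg N} (hu : u ∈ Nor b c) :
    jn b c δ (b.act g u) = jn b c δ u := by
  unfold jn
  rw [jd_act b hg hu]


end Crest.Agent.R330.SlJ186

end
end

-- ▼ part R330/SlU_692
section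

/-!
# Row 330, S8 (helper692): the density of a slice chart is the explicit Jacobian

* `slice_inv'` : 969's slice formula on the whole tube of radius `r` for `Good b c r`.
* `dens_le`, `dens_eq` : a density on the slice which is continuous and invariant under the
  stabiliser is determined by the integrals of the invariant functions.
* `j_eq` : `σ.j u = cst * |det (J_{c+u})|` on `Nor b c`, `‖u‖ < σ.r`, for every chart `σ : Sl C`.
-/

set_option autoImplicit false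
set_option linter.unusedSectionVars false

open MeasureTheory Metric Set Filter
open Crest.MathPhysics.MatrixQM
open Crest.Agent.R330.SlA314 Crest.Agent.R330.SlB314 Crest.Agent.R330.SlC314
open Crest.Agent.R330.SlD314 Crest.Agent.R330.SlP314 Crest.Agent.R330.SlF944
open Crest.Agent.R330.SUgrp596
open scoped ContDiff Topology ENNReal InnerProductSpace

noncomputable section

namespace Crest.Agent.R330.SlU692

open Crest.Agent.R330.VJac969

variable {N : ℕ} (b : ColorBasis N)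

/-! ## The slice formula on large tubes -/

/-- The chart with radius `δ` in the group direction and `r` in the normal direction. -/
theorem chart' {c : Cfg N} {δ r : ℝ} (h : GoodRad b c δ) (hg : Good b c r) :
    SlI712.Chart (G := SU N) b.act c (Tan b c).subtypeₗᵢ (Nor b c).subtypeₗᵢ
      (fun t : Tan b c => gexp b (omL b c t)) δ r (fun t => ad b c t) (fun u => jd b c u) where
  iso := (chart b h).iso
  mp := (chart b h).mp
  orth := orth b c
  span := span b c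
  star g u u' hu hu' he := hg.star g u u' u.2 u'.2 (by simpa using hu) (by simpa using hu') he
  stab g hg' u _ := by
    refine ⟨⟨b.act g u, act_mem_Nor b u.2 hg'⟩, ?_, ?_⟩
    · change ‖b.act g (u : Cfg N)‖ = ‖(u : Cfg N)‖
      exact act_norm b g _
    · change b.act g (c + (u : Cfg N)) = c + b.act g (u : Cfg N)
      rw [act_add, hg']
  inj := (chart b h).inj
  der t _ u _ := chart_der b c (orth b c) (span b c) t u
  a_nonneg t := ad_nonneg b c t
  J_nonneg u := jd_nonneg b c u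
  a_meas := (chart b h).a_meas
  J_meas := (chart b h).J_meas
  e_meas := (chart b h).e_meas

/-- **Slice integration formula**, general functions, large tubes. -/
theorem slice_gen' {c : Cfg N} {δ r : ℝ} (h : GoodRad b c δ) (hg : Good b c r)
    (f : Cfg N → ℝ≥0∞) (hf : Measurable f) :
    ∫⁻ x in tube b c r, f x = ∫⁻ g, (∫⁻ u in ball (0 : Nor b c) r,
      ENNReal.ofReal (jn b c δ u) * f (b.act g (c + u))) ∂(haarSU N) := by
  have h1 := (chart' b h hg).slice_lintegral (haarSU N) le_rfl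
    (by rw [tube_eq]; exact (isOpen_tube b c r).measurableSet) f hf
  rw [tube_eq] at h1
  have h2 : ∫⁻ x in tube b c r, f x = (kap b c δ)⁻¹ * (vol b c δ *
      ∫⁻ g, (∫⁻ u in ball (0 : Nor b c) r, ENNReal.ofReal (jd b c u) *
        f (b.act g (c + (Nor b c).subtypeₗᵢ u))) ∂(haarSU N)) := by
    have h3 : vol b c δ * ∫⁻ g, (∫⁻ u in ball (0 : Nor b c) r, ENNReal.ofReal (jd b c u) *
        f (b.act g (c + (Nor b c).subtypeₗᵢ u))) ∂(haarSU N) =
        kap b c δ * ∫⁻ x in tube b c r, f x := h1.symm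
    rw [h3, ← mul_assoc, ENNReal.inv_mul_cancel (kap_ne_zero b h) (kap_ne_top b c δ), one_mul]
  rw [h2, ← mul_assoc, mul_comm (kap b c δ)⁻¹, ← div_eq_mul_inv, ← ofReal_cst b h,
    ← lintegral_const_mul' _ _ ENNReal.ofReal_ne_top]
  refine lintegral_congr fun g => ?_
  rw [← lintegral_const_mul' _ _ ENNReal.ofReal_ne_top]
  refine lintegral_congr fun u => ?_
  rw [← mul_assoc, ← ENNReal.ofReal_mul (cst_pos b h).le]
  rfl

/-- **Slice integration formula**, invariant functions, large tubes. -/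
theorem slice_inv' {c : Cfg N} {δ r : ℝ} (h : GoodRad b c δ) (hg : Good b c r)
    (f : Cfg N → ℝ≥0∞) (hf : Measurable f) (hi : ∀ (g : SU N) x, f (b.act g x) = f x) :
    ∫⁻ x in tube b c r, f x = ∫⁻ u in ball (0 : Nor b c) r,
      ENNReal.ofReal (jn b c δ u) * f (c + u) := by
  rw [slice_gen' b h hg f hf]
  simp only [hi]
  rw [lintegral_const, measure_univ, mul_one]

/-! ## Small neighbourhoods of an orbit in the slice -/

variable {b}

theorem norm_lt_of_near {c : Cfg N} {r : ℝ} (hg : Good b c r) {y y0 : Cfg N} (hy : y ∈ Nor b c)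
    (hyr : ‖y‖ < r) {ρ : ℝ} (hρ : ‖y0‖ + ρ ≤ r) (hn : c + y ∈ tube b (c + y0) ρ) :
    ‖y‖ < ‖y0‖ + ρ := by
  obtain ⟨g, hg1⟩ := hn
  have h1 : c + y ∈ tube b c (‖y0‖ + ρ) := by
    refine ⟨g, ?_⟩
    have h2 : c + y - b.act g c = (c + y - b.act g (c + y0)) + b.act g y0 := by
      rw [act_add]
      abel
    rw [h2]
    refine (norm_add_le _ _).trans_lt ?_
    rw [act_norm]
    linarith
  obtain ⟨g', y', hy', hn', he⟩ := (mem_tube_iff b c _ _).1 h1
  have h3 := hg.star g' y' y hy' hy (hn'.trans_le hρ) hyr he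
  have h4 : b.act g' y' = y := by
    rw [act_add, h3] at he
    exact add_left_cancel he
  rw [← h4, act_norm]
  exact hn'

/-- A continuous invariant function is nearly constant near an orbit. -/
theorem shrink {c : Cfg N} {r : ℝ} (hg : Good b c r) {f : Cfg N → ℝ}
    (hf : ∀ y ∈ Nor b c, ‖y‖ < r → ContinuousAt f y)
    (hi : ∀ k : SU N, b.act k c = c → ∀ y ∈ Nor b c, ‖y‖ < r → f (b.act k y) = f y)
    {y0 : Cfg N} (hy0 : y0 ∈ Nor b c) (hn0 : ‖y0‖ < r) {ε : ℝ} (hε : 0 < ε) :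
    ∃ ρ : ℝ, 0 < ρ ∧ ∀ ρ', 0 < ρ' → ρ' ≤ ρ → ∀ y ∈ Nor b c, ‖y‖ < r →
      c + y ∈ tube b (c + y0) ρ' → |f y - f y0| < ε := by
  by_contra hcon
  push Not at hcon
  have key : ∀ n : ℕ, ∃ (y : Cfg N) (g : SU N), y ∈ Nor b c ∧ ‖y‖ < r ∧
      ‖y‖ < ‖y0‖ + 1 / ((n : ℝ) + 1) ∧
      ‖c + y - b.act g (c + y0)‖ < 1 / ((n : ℝ) + 1) ∧ ε ≤ |f y - f y0| := by
    intro n
    have hp : 0 < min (1 / ((n : ℝ) + 1)) (r - ‖y0‖) := lt_min (by positivity) (by linarith)
    obtain ⟨ρ', hρ', hle, y, hy, hyr, hyt, hyf⟩ := hcon _ hp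
    have h1 := norm_lt_of_near hg hy hyr (ρ := ρ') (by
      have := hle.trans (min_le_right _ _)
      linarith) hyt
    obtain ⟨g, hg1⟩ := hyt
    have h2 := hle.trans (min_le_left _ _)
    exact ⟨y, g, hy, hyr, by linarith, hg1.trans_le h2, hyf⟩
  choose y g hy hyr hyn hyg hyf using key
  have hK : IsCompact ((Set.univ : Set (SU N)) ×ˢ Metric.closedBall (0 : Cfg N) r) :=
    isCompact_univ.prod (isCompact_closedBall _ _)
  obtain ⟨⟨g', y'⟩, -, φ, hφ, hlim⟩ := hK.tendsto_subseq (x := fun n => (g n, y n))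
    (fun n => ⟨trivial, by simpa using (hyr n).le⟩)
  have hgl : Tendsto (fun n => g (φ n)) atTop (𝓝 g') := (continuous_fst.tendsto _).comp hlim
  have hyl : Tendsto (fun n => y (φ n)) atTop (𝓝 y') := (continuous_snd.tendsto _).comp hlim
  have h0 : Tendsto (fun n : ℕ => 1 / ((n : ℝ) + 1)) atTop (𝓝 0) :=
    tendsto_one_div_add_atTop_nhds_zero_nat
  have h0' := h0.comp hφ.tendsto_atTop
  have hyN : y' ∈ Nor b c :=
    (Nor b c).closed_of_finiteDimensional.mem_of_tendsto hyl (Eventually.of_forall fun n => hy _)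
  have hyn' : ‖y'‖ ≤ ‖y0‖ := by
    have h1 : Tendsto (fun n => ‖y0‖ + 1 / (((φ n : ℕ) : ℝ) + 1)) atTop (𝓝 (‖y0‖ + 0)) :=
      tendsto_const_nhds.add h0'
    rw [add_zero] at h1
    exact le_of_tendsto_of_tendsto' hyl.norm h1 fun n => (hyn _).le
  have hact : b.act g' (c + y0) = c + y' := by
    have h1 : Tendsto (fun n => ‖c + y (φ n) - b.act (g (φ n)) (c + y0)‖) atTop
        (𝓝 ‖c + y' - b.act g' (c + y0)‖) :=
      (((tendsto_const_nhds (x := c)).add hyl).sub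
        (((continuous_act_left b (c + y0)).tendsto g').comp hgl)).norm
    have h2 : ‖c + y' - b.act g' (c + y0)‖ ≤ 0 :=
      le_of_tendsto_of_tendsto' h1 h0' fun n => (hyg _).le
    have h3 := norm_le_zero_iff.1 h2
    exact (sub_eq_zero.1 h3).symm
  have hst := hg.star g' y0 y' hy0 hyN hn0 (hyn'.trans_lt hn0) hact
  have hy'' : b.act g' y0 = y' := by
    rw [act_add, hst] at hact
    exact add_left_cancel hact
  have hfy : f y' = f y0 := by rw [← hy'', hi g' hst y0 hy0 hn0]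
  have hcont : Tendsto (fun n => |f (y (φ n)) - f y0|) atTop (𝓝 |f y' - f y0|) :=
    (((hf y' hyN (hyn'.trans_lt hn0)).tendsto.comp hyl).sub tendsto_const_nhds).abs
  rw [hfy, sub_self, abs_zero] at hcont
  have := ge_of_tendsto' hcont fun n => hyf _
  linarith

/-! ## Uniqueness of the density -/

/-- The neighbourhood of the orbit of `y0` in the ball of the slice. -/
def W (c y0 : Cfg N) (r ρ : ℝ) : Set (Nor b c) :=
  {u | ‖u‖ < r ∧ c + (u : Cfg N) ∈ tube b (c + y0) ρ}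

theorem isOpen_W (c y0 : Cfg N) (r ρ : ℝ) : IsOpen (W (b := b) c y0 r ρ) := by
  have h1 : IsOpen {u : Nor b c | ‖u‖ < r} := isOpen_lt continuous_norm continuous_const
  have h2 : IsOpen {u : Nor b c | c + (u : Cfg N) ∈ tube b (c + y0) ρ} :=
    (isOpen_tube b _ _).preimage (continuous_const.add continuous_subtype_val)
  exact h1.inter h2

theorem mem_W {c y0 : Cfg N} (hy0 : y0 ∈ Nor b c) {r ρ : ℝ} (hr : ‖y0‖ < r) (hρ : 0 < ρ) :
    (⟨y0, hy0⟩ : Nor b c) ∈ W (b := b) c y0 r ρ := by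
  refine ⟨hr, 1, ?_⟩
  rw [act_one, sub_self, norm_zero]
  exact hρ

theorem dens_le {c : Cfg N} {r : ℝ} (hg : Good b c r) {j1 j2 : Cfg N → ℝ}
    (h1c : ∀ y ∈ Nor b c, ‖y‖ < r → ContinuousAt j1 y)
    (h1i : ∀ k : SU N, b.act k c = c → ∀ y ∈ Nor b c, ‖y‖ < r → j1 (b.act k y) = j1 y)
    (h2c : ∀ y ∈ Nor b c, ‖y‖ < r → ContinuousAt j2 y)
    (h2i : ∀ k : SU N, b.act k c = c → ∀ y ∈ Nor b c, ‖y‖ < r → j2 (b.act k y) = j2 y)
    (h2p : ∀ y ∈ Nor b c, ‖y‖ < r → 0 ≤ j2 y)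
    (h : ∀ h : Cfg N → ℝ≥0∞, Measurable h → (∀ (k : SU N) x, h (b.act k x) = h x) →
      ∫⁻ y in ball (0 : Nor b c) r, ENNReal.ofReal (j1 y) * h (c + y) =
        ∫⁻ y in ball (0 : Nor b c) r, ENNReal.ofReal (j2 y) * h (c + y))
    {y0 : Cfg N} (hy0 : y0 ∈ Nor b c) (hn0 : ‖y0‖ < r) : j1 y0 ≤ j2 y0 := by
  refine le_of_forall_pos_le_add fun ε hε => ?_
  obtain ⟨ρ1, hρ1, hs1⟩ := shrink hg h1c h1i hy0 hn0 (half_pos hε)
  obtain ⟨ρ2, hρ2, hs2⟩ := shrink hg h2c h2i hy0 hn0 (half_pos hε)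
  set ρ := min ρ1 ρ2 with hρ
  have hρ0 : 0 < ρ := lt_min hρ1 hρ2
  set w : Set (Nor b c) := W (b := b) c y0 r ρ with hw
  have hwo : IsOpen w := isOpen_W c y0 r ρ
  have hwm : MeasurableSet w := hwo.measurableSet
  have hwsub : w ⊆ ball (0 : Nor b c) r := fun u hu => by
    rw [mem_ball_zero_iff]
    exact hu.1
  have hw0 : (volume : Measure (Nor b c)) w ≠ 0 :=
    (hwo.measure_pos volume ⟨_, mem_W hy0 hn0 hρ0⟩).ne'
  have hwt : (volume : Measure (Nor b c)) w ≠ ⊤ :=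
    ((measure_mono hwsub).trans_lt measure_ball_lt_top).ne
  set hh : Cfg N → ℝ≥0∞ := (tube b (c + y0) ρ).indicator 1 with hhh
  have hhm : Measurable hh := measurable_one.indicator (isOpen_tube b _ _).measurableSet
  have hhi : ∀ (k : SU N) x, hh (b.act k x) = hh x := by
    intro k x
    by_cases hx : x ∈ tube b (c + y0) ρ
    · rw [hhh, indicator_of_mem ((act_mem_tube (b := b) k).2 hx), indicator_of_mem hx]
      rfl
    · rw [hhh, indicator_of_notMem (fun h' => hx ((act_mem_tube (b := b) k).1 h')),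
        indicator_of_notMem hx]
  have hred : ∀ j : Cfg N → ℝ, ∫⁻ y in ball (0 : Nor b c) r, ENNReal.ofReal (j y) * hh (c + y) =
      ∫⁻ y in w, ENNReal.ofReal (j y) := by
    intro j
    rw [← lintegral_indicator measurableSet_ball, ← lintegral_indicator hwm]
    refine lintegral_congr fun u => ?_
    by_cases hu : u ∈ w
    · rw [indicator_of_mem hu, indicator_of_mem (hwsub hu), hhh, indicator_of_mem hu.2]
      simp
    · rw [indicator_of_notMem hu]
      by_cases hub : u ∈ ball (0 : Nor b c) r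
      · rw [indicator_of_mem hub, hhh, indicator_of_notMem, mul_zero]
        intro h'
        exact hu ⟨mem_ball_zero_iff.1 hub, h'⟩
      · rw [indicator_of_notMem hub]
  have heq := h hh hhm hhi
  rw [hred, hred] at heq
  have hlow : ENNReal.ofReal (j1 y0 - ε / 2) * volume w ≤ ∫⁻ y in w, ENNReal.ofReal (j1 y) := by
    rw [← setLIntegral_const]
    refine setLIntegral_mono' hwm fun u hu => ENNReal.ofReal_le_ofReal ?_
    have h3 := hs1 ρ hρ0 (min_le_left _ _) u u.2 hu.1 hu.2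
    have h4 := (abs_lt.1 h3).1
    linarith
  have hup : ∫⁻ y in w, ENNReal.ofReal (j2 y) ≤ ENNReal.ofReal (j2 y0 + ε / 2) * volume w := by
    rw [← setLIntegral_const]
    refine setLIntegral_mono' hwm fun u hu => ENNReal.ofReal_le_ofReal ?_
    have h3 := hs2 ρ hρ0 (min_le_right _ _) u u.2 hu.1 hu.2
    have h4 := (abs_lt.1 h3).2
    linarith
  have h5 : ENNReal.ofReal (j1 y0 - ε / 2) * volume w ≤ ENNReal.ofReal (j2 y0 + ε / 2) * volume w :=
    hlow.trans (heq.le.trans hup)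
  have h6 : ENNReal.ofReal (j1 y0 - ε / 2) ≤ ENNReal.ofReal (j2 y0 + ε / 2) :=
    (ENNReal.mul_le_mul_iff_left hw0 hwt).1 h5
  have h7 : j1 y0 - ε / 2 ≤ j2 y0 + ε / 2 := by
    rw [ENNReal.ofReal_le_ofReal_iff] at h6
    · exact h6
    · have := h2p y0 hy0 hn0
      linarith
  linarith

/-- **Uniqueness of the density.** -/
theorem dens_eq {c : Cfg N} {r : ℝ} (hg : Good b c r) {j1 j2 : Cfg N → ℝ}
    (h1c : ∀ y ∈ Nor b c, ‖y‖ < r → ContinuousAt j1 y)
    (h1i : ∀ k : SU N, b.act k c = c → ∀ y ∈ Nor b c, ‖y‖ < r → j1 (b.act k y) = j1 y)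
    (h1p : ∀ y ∈ Nor b c, ‖y‖ < r → 0 ≤ j1 y)
    (h2c : ∀ y ∈ Nor b c, ‖y‖ < r → ContinuousAt j2 y)
    (h2i : ∀ k : SU N, b.act k c = c → ∀ y ∈ Nor b c, ‖y‖ < r → j2 (b.act k y) = j2 y)
    (h2p : ∀ y ∈ Nor b c, ‖y‖ < r → 0 ≤ j2 y)
    (h : ∀ h : Cfg N → ℝ≥0∞, Measurable h → (∀ (k : SU N) x, h (b.act k x) = h x) →
      ∫⁻ y in ball (0 : Nor b c) r, ENNReal.ofReal (j1 y) * h (c + y) =
        ∫⁻ y in ball (0 : Nor b c) r, ENNReal.ofReal (j2 y) * h (c + y))
    {y0 : Cfg N} (hy0 : y0 ∈ Nor b c) (hn0 : ‖y0‖ < r) : j1 y0 = j2 y0 :=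
  le_antisymm (dens_le hg h1c h1i h2c h2i h2p h hy0 hn0)
    (dens_le hg h2c h2i h1c h1i h1p (fun h' h1 h2 => (h h' h1 h2).symm) hy0 hn0)

/-! ## The density of a chart -/

open Crest.Agent.R330.TDef414

variable {p : ℕ} {S : Type} [Group S] [Fintype S] {C : Chn b p S}

/-- **The density of a chart is 969's `jn`** on the whole ball. -/
theorem j_eq_jn (σ : Sl C) {δ : ℝ} (h : GoodRad b (C.cf σ.X0) δ) {u : Cfg N}
    (hu : u ∈ Nor b (C.cf σ.X0)) (hn : ‖u‖ < σ.r) : σ.j u = jn b (C.cf σ.X0) δ u := by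
  refine dens_eq σ.good (fun y hy hyr => (σ.smooth y hy hyr).continuousAt) σ.inv
    (fun y hy hyr => (σ.jpos y hy hyr).le)
    (fun y _ _ => (continuous_jn b (C.cf σ.X0) δ).continuousAt)
    (fun k hk y hy _ => SlJ186.jn_act b δ hk hy)
    (fun y _ _ => mul_nonneg (cst_pos b h).le (jd_nonneg b (C.cf σ.X0) y))
    (fun h' hm hi => ?_) hu hn
  rw [← σ.int h' hm hi, ← slice_inv' b h σ.good h' hm hi]

/-- **The density of a chart is a constant times 288's determinant** on the whole ball. -/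
theorem j_eq (σ : Sl C) : ∃ κ : ℝ, 0 < κ ∧ ∀ (rr B : ℝ), 0 < rr →
    Frame839.GapAt (LS839.actB b) (C.cf σ.X0) rr → Frame839.ActBound (LS839.actB b) B →
    ∀ u ∈ Nor b (C.cf σ.X0), ‖u‖ < σ.r →
      σ.j u = κ * |LinearMap.det (VacJ288.J (LS839.actB b) (C.cf σ.X0) (C.cf σ.X0 + u))| := by
  obtain ⟨δ, h⟩ := exists_goodRad b (C.cf σ.X0)
  refine ⟨cst b (C.cf σ.X0) δ, cst_pos b h, fun rr B hr0 hr hB u hu hn => ?_⟩
  rw [j_eq_jn σ h hu hn, jn_eq_J b δ hr0 hr hB hu]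


end Crest.Agent.R330.SlU692

end
end

-- ▼ part R330/VacT_288
section

/-!
# Row 330, S8-PAIR (V*) in the names of `TDef_414` (helper288)

* `act_frame`, `frame_centre`, `grad_blk` : the frame vector `Σ_a [om_p t_a, t_a]` commutes with the
  stabiliser algebra; the gradient of `log |det J|` at a centre position has no block component.
* `A_eq'`, `range_U`, `star_proj` : `P.A X = AXc`, `P.U X '' Fl = vacJ (Jc ..)`, its orthogonal
  projection is `proj`.
* `ctr` : the contraction rules for `proj (Jc ..)`.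
* `vstar` : (V*), `vstar_j` : with the density of a chart, over the centre directions.
-/

set_option autoImplicit false
set_option linter.unusedSectionVars false

open scoped InnerProductSpace ContDiff

noncomputable section

namespace Crest.Agent.R330.VacT288

open Crest.MathPhysics.MatrixQM
open Crest.Agent.R330.AX984 Crest.Agent.R330.GBind984
open Crest.Agent.R330.FactI161 Crest.Agent.R330.HMain942 Crest.Agent.R330.Cliff442
open Crest.Agent.R330.Bind6839 Crest.Agent.R330.LS839 Crest.Agent.R330.Frame839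
open Crest.Agent.R330.Defs478 Crest.Agent.R330.TDef414 Crest.Agent.R330.VacC288
open Crest.Agent.R330.Kill942 Crest.Agent.R330.AEq288 Crest.Agent.R330.Clus839
open Crest.Agent.R330.Lift406 (Bop)
open Crest.Agent.R330.SlB314 (Nor)

variable {N : ℕ} {b : ColorBasis N}

/-! ## The frame vector is centralised -/

section frame

variable {c q : Cfg N} {r B : ℝ}

theorem act_act (T η : Colg N) (x : Cfg N) :
    actB b T (actB b η x) = actB b ((colAlg b).br T η) x + actB b η (actB b T x) := by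
  refine ext_comp fun i => ?_
  rw [comp_add, comp_act, comp_act, comp_act, comp_act, comp_act, (colAlg b).jac]

theorem act_cen (hq : Cen b c q) {T : Colg N} (hT : T ∈ kc (actB b) c) : actB b T q = 0 := by
  refine ext_comp fun i => ?_
  rw [comp_act, hq i T hT, comp_zero]

theorem act_Tn {T : Colg N} (hT : T ∈ kc (actB b) c) {t : Cfg N} (ht : t ∈ Tn (actB b) c) :
    actB b T t ∈ Tn (actB b) c := by
  obtain ⟨η, rfl⟩ := ht
  have h1 : actB b T (actB b η c) = actB b ((colAlg b).br T η) c := by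
    rw [act_act]
    have : actB b T c = 0 := hT
    rw [this, map_zero, add_zero]
  exact ⟨(colAlg b).br T η, h1.symm⟩

theorem act_Tn_orth {T : Colg N} (hT : T ∈ kc (actB b) c) {t : Cfg N}
    (ht : t ∈ (Tn (actB b) c)ᗮ) : actB b T t ∈ (Tn (actB b) c)ᗮ := by
  rw [Submodule.mem_orthogonal]
  intro u hu
  have h1 : ⟪actB b T u, t⟫_ℝ = 0 := (Submodule.mem_orthogonal _ _).1 ht _ (act_Tn hT hu)
  rw [VacJ288.actB_skew] at h1
  linarith

/-- `[T, ·]` on the tangent space -/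
def tT (T : kc (actB b) c) : Tn (actB b) c →ₗ[ℝ] Tn (actB b) c :=
  ((actB b T).toLinearMap).restrict fun _ ht => act_Tn T.2 ht

theorem tT_coe (T : kc (actB b) c) (t : Tn (actB b) c) :
    ((tT T t : Tn (actB b) c) : Cfg N) = actB b T t := rfl

/-- `om_q` is equivariant under the stabiliser algebra. -/
theorem om_tT (hr0 : 0 < r) (hr : GapAt (actB b) c r) (hB : ActBound (actB b) B)
    (hq : Cen b c q) (hx : B * ‖q - c‖ ≤ r / 2) (T : kc (actB b) c) (t : Tn (actB b) c) :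
    (om (actB b) c q (tT T t) : Colg N) = (colAlg b).br T (om (actB b) c q t : Colg N) := by
  set w : (kc (actB b) c)ᗮ := om (actB b) c q t with hw
  have hmem : (colAlg b).br (T : Colg N) (w : Colg N) ∈ (kc (actB b) c)ᗮ :=
    br_mem_kc_orth T.2 w.2
  have h1 : S (actB b) c q ⟨_, hmem⟩ = tT T t := by
    apply Subtype.ext
    rw [tT_coe]
    have h2 : ((S (actB b) c q ⟨_, hmem⟩ : Tn (actB b) c) : Cfg N) =
        (Tn (actB b) c).starProjection (actB b ((colAlg b).br (T : Colg N) (w : Colg N)) q) := rfl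
    have h3 : actB b ((colAlg b).br (T : Colg N) (w : Colg N)) q =
        actB b T (actB b (w : Colg N) q) := by
      rw [act_act, act_cen hq T.2, map_zero, add_zero]
    have h4 : (Tn (actB b) c).starProjection (actB b T (actB b (w : Colg N) q)) =
        actB b T ((Tn (actB b) c).starProjection (actB b (w : Colg N) q)) :=
      (proj_comm (Tn (actB b) c) (actB b T).toLinearMap (fun u hu => act_Tn T.2 hu)
        (fun u hu => act_Tn_orth T.2 hu) _).symm
    have h5 : (Tn (actB b) c).starProjection (actB b (w : Colg N) q) = t := by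
      have h6 := congrArg (fun t : Tn (actB b) c => (t : Cfg N)) (S_om hr0 hr hB hx t)
      exact h6
    rw [h2, h3, h4, h5]
  have h2 := om_S hr0 hr hB hx ⟨_, hmem⟩
  rw [h1] at h2
  rw [h2]

/-- **The frame vector commutes with the stabiliser algebra.** -/
theorem act_frame (hr0 : 0 < r) (hr : GapAt (actB b) c r) (hB : ActBound (actB b) B)
    (hq : Cen b c q) (hx : B * ‖q - c‖ ≤ r / 2) (T : kc (actB b) c) {κ : Type*} [Fintype κ]
    (t : OrthonormalBasis κ ℝ (Tn (actB b) c)) :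
    actB b T (∑ a, actB b (om (actB b) c q (t a)) (t a)) = 0 := by
  have h1 : ∀ a, actB b T (actB b (om (actB b) c q (t a)) (t a)) =
      actB b (om (actB b) c q (tT T (t a))) (t a) +
        actB b (om (actB b) c q (t a)) (tT T (t a)) := by
    intro a
    rw [act_act, om_tT hr0 hr hB hq hx T, tT_coe]
  rw [map_sum, Finset.sum_congr rfl fun a _ => h1 a, Finset.sum_add_distrib]
  set f : Tn (actB b) c →ₗ[ℝ] Tn (actB b) c →ₗ[ℝ] Cfg N :=
    LinearMap.mk₂ ℝ (fun u v => actB b (om (actB b) c q u) (v : Cfg N))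
      (fun u u' v => by
        rw [map_add, Submodule.coe_add, map_add, add_apply])
      (fun r u v => by
        rw [map_smul, Submodule.coe_smul, map_smul, smul_apply])
      (fun u v v' => by rw [Submodule.coe_add, map_add])
      (fun r u v => by rw [Submodule.coe_smul, map_smul]) with hf
  have h2 := sum_adj f t (tT T) (-tT T) fun u v => by
    rw [LinearMap.neg_apply, inner_neg_right]
    exact VacJ288.actB_skew b _ _ _
  have h3 : ∑ a, f (tT T (t a)) (t a) = ∑ a, actB b (om (actB b) c q (tT T (t a))) (t a) := rfl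
  have h4 : ∑ a, f (t a) ((-tT T) (t a)) =
      -∑ a, actB b (om (actB b) c q (t a)) (tT T (t a)) := by
    rw [← Finset.sum_neg_distrib]
    refine Finset.sum_congr rfl fun a _ => ?_
    rw [LinearMap.neg_apply, map_neg]
    rfl
  rw [← h3, h2, h4, neg_add_cancel]

/-- components of the light part of the frame vector commute with the stabiliser algebra -/
theorem frame_centre (hr0 : 0 < r) (hr : GapAt (actB b) c r)
    (hB : ActBound (actB b) B) (hq : Cen b c q) (hx : B * ‖q - c‖ ≤ r / 2)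
    {κ : Type*} [Fintype κ] (t : OrthonormalBasis κ ℝ (Tn (actB b) c)) {T : Colg N}
    (hT : T ∈ kc (actB b) c) (i : Fin 9) :
    (colAlg b).br T (comp ((Uk b c).starProjection
      (∑ a, actB b (om (actB b) c q (t a)) (t a))) i) = 0 := by
  rw [comp_proj]
  have h1 := proj_comm (kc (actB b) c) ((colAlg b).br T) (fun u hu => br_mem_kc hT hu)
    (fun u hu => br_mem_kc_orth hT hu) (comp (∑ a, actB b (om (actB b) c q (t a)) (t a)) i)
  rw [h1, ← comp_act]
  have h2 : actB b T (∑ a, actB b (om (actB b) c q (t a)) (t a)) = 0 :=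
    act_frame hr0 hr hB hq hx ⟨T, hT⟩ t
  rw [h2, comp_zero, map_zero]

end frame

section chn

variable {p : ℕ} {S : Type} [Group S] [Fintype S] {C : Chn b p S}

theorem cen_cf {X0 : Pos p} (h0 : C.Reg X0) (X : Pos p) : Cen b (C.cf X0) (C.cf X) := by
  intro i T hT
  have hT' : T ∈ C.kk := h0 ▸ hT
  rw [(colAlg b).anti, C.comp_cf, C.cen_comm _ T hT', neg_zero]

theorem Uk_eq {X0 : Pos p} (h0 : C.Reg X0) : Uk b (C.cf X0) = Tup C.kk := by
  have h : kc (actB b) (C.cf X0) = C.kk := h0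
  unfold Uk
  rw [h]

/-- a light configuration with central components is in `Cen` -/
theorem mem_Cen {x : Cfg N} (hx : x ∈ Tup C.kk)
    (h : ∀ T ∈ C.kk, ∀ i, (colAlg b).br T (comp x i) = 0) : x ∈ C.Cen := by
  have h1 : ∀ i, ∃ t, C.cen t = comp x i := fun i =>
    C.cen_all _ (hx i) fun v hv => by rw [(colAlg b).anti, h v hv i, neg_zero]
  choose t ht using h1
  refine ⟨mkp t, ext_comp fun i => ?_⟩
  exact ht i

/-- **The gradient of the density at a centre position has no block component.** -/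
theorem grad_blk {X0 X : Pos p} (h0 : C.Reg X0) {r B : ℝ} (hr0 : 0 < r)
    (hr : GapAt (actB b) (C.cf X0) r) (hB : ActBound (actB b) B)
    (hx : B * ‖C.cf X - C.cf X0‖ ≤ r / 2) {y : Cfg N} (hy : y ∈ C.Blk) :
    fderiv ℝ (fun x : Cfg N => Real.log |LinearMap.det (VacJ288.J (actB b) (C.cf X0) x)|)
      (C.cf X) y = 0 := by
  set t := stdOrthonormalBasis ℝ (Tn (actB b) (C.cf X0)) with ht
  rw [VacJ288.fderiv_log_detJ_skew hr0 hr hB (fun w u v => VacJ288.actB_skew b w u v) hx y t]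
  set W := ∑ a, actB b (om (actB b) (C.cf X0) (C.cf X) (t a)) (t a) with hW
  have hyU : y ∈ Uk b (C.cf X0) := by
    rw [Uk_eq h0]
    exact hy.1
  have h1 : ⟪W, y⟫_ℝ = ⟪(Uk b (C.cf X0)).starProjection W, y⟫_ℝ := by
    have h2 : ⟪W - (Uk b (C.cf X0)).starProjection W, y⟫_ℝ = 0 := by
      rw [real_inner_comm]
      exact (Submodule.mem_orthogonal _ _).1 (Submodule.sub_starProjection_mem_orthogonal W) y hyU
    rw [inner_sub_left] at h2
    linarith
  have h3 : (Uk b (C.cf X0)).starProjection W ∈ C.Cen := by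
    refine mem_Cen ?_ fun T hT i => ?_
    · rw [← Uk_eq h0]
      exact Submodule.starProjection_apply_mem _ _
    · have hT' : T ∈ kc (actB b) (C.cf X0) := h0.symm ▸ hT
      exact frame_centre hr0 hr hB (cen_cf h0 X) hx t hT' i
  rw [h1, (Submodule.mem_orthogonal _ _).1 hy.2 _ h3, neg_zero]

end chn

/-! ## The heavy vacuum at `X` -/

section vac

variable {F : Type*} [NormedAddCommGroup F] [InnerProductSpace ℂ F] [FiniteDimensional ℂ F]
  {M : FermionRep N F} {G : GammaNine} {K : Submodule ℝ (Colg N)} {X : Cfg N}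

/-- `E_k = - ad X_k |ad X|⁻¹`. -/
def Ek (b : ColorBasis N) (K : Submodule ℝ (Colg N)) (X : Cfg N) (k : Fin 9) :
    Colg N →ₗ[ℝ] Colg N :=
  -((adX b X k).toLinearMap ∘ₗ (li K (adX b X)).toLinearMap)

theorem Ek_apply (k : Fin 9) (u : Colg N) :
    Ek b K X k u = -adX b X k (li K (adX b X) u) := rfl

theorem row_Jc_ins (β γ : Fin 16) (u : Colg N) :
    row β (Jc b G K X (ins γ u)) = ∑ k, G.γ k β γ • Ek b K X k u := by
  rw [row_Jc, ← Finset.sum_neg_distrib]
  refine Finset.sum_congr rfl fun k _ => ?_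
  rw [Finset.sum_eq_single γ]
  · rw [row_ins_self, Ek_apply, smul_neg]
  · intro β' _ hβ
    rw [row_ins, if_neg hβ, map_zero, map_zero, smul_zero]
  · intro h
    exact absurd (Finset.mem_univ _) h

theorem mem_range_of {V : Type*} [NormedAddCommGroup V] [InnerProductSpace ℝ V] {J : V →ₗ[ℝ] V}
    {y : V} (h : J (J y) + y = 0) : y ∈ LinearMap.range J :=
  ⟨-J y, by rw [map_neg, eq_neg_of_add_eq_zero_left h, neg_neg]⟩

/-- **The contraction rules of the projection on the heavy vacuum.** -/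
theorem ctr (hX : Comc b X) (hK : kc (actB b) X = K) {f : F}
    (hf : f ∈ (cr M).vacJ (Jc b G K X)) :
    Ctr M G K (fun k => Ek b K X k) ((cr M).proj (Jc b G K X)) f := by
  obtain ⟨s, hs, hF⟩ := fam_of_eq (b := b) hX hK
  have hJ := pcs_Jc (G := G) hX hK
  have hlight : ∀ β, ∀ u ∈ K, Jc b G K X (ins β u) = 0 := by
    intro β u hu
    refine ext_row fun β' => ?_
    rw [row_Jc_ins, map_zero]
    refine Finset.sum_eq_zero fun k _ => ?_
    rw [Ek_apply, hF.D_li hs, hF.ker k u hu, map_zero, neg_zero, smul_zero]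
  have hrange : ∀ β, ∀ u ∈ Kᗮ, ins β u ∈ LinearMap.range (Jc b G K X) := by
    intro β u hu
    refine mem_range_of ?_
    have h1 : ∀ (x : W16 N) (β : Fin 16), row β (Jc b G K X x) =
      -∑ i, ∑ β', G.γ i β β' • adX b X i (li K (adX b X) (row β' x)) := row_Jc
    have h2 := J_J h1 hF hs (x := ins β u) fun β' => by
      rw [row_ins]
      split_ifs
      · exact hu
      · exact Kᗮ.zero_mem
    rw [h2]
    exact neg_add_cancel _
  refine ⟨fun β u hu h => ?_, fun β γ u hu v hv => ?_, fun β γ δ u hu v hv w hw => ?_⟩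
  · rw [← cr_ins, (cr M).proj_comm_th hJ.skew (hlight β u hu)]
  · rw [← cr_ins, ← cr_ins, (cr M).proj_theta_theta hJ hf (hrange β u hu)]
    unfold CRep.cst
    rw [hJ.skew]
    congr 2
    have e1 : ⟪ins β u, ins γ v⟫_ℝ = if β = γ then ⟪u, v⟫_ℝ else 0 := by
      rw [inner_ins, row_ins]
      split_ifs
      · rfl
      · exact inner_zero_right _
    have e2 : ⟪ins β u, Jc b G K X (ins γ v)⟫_ℝ = ∑ k, G.γ k β γ * ⟪u, Ek b K X k v⟫_ℝ := by
      rw [inner_ins, row_Jc_ins, inner_sum]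
      exact Finset.sum_congr rfl fun k _ => by rw [real_inner_smul_right]
    rw [e1, e2]
    push_cast
    split_ifs <;> simp
  · rw [← cr_ins, ← cr_ins, ← cr_ins]
    exact (cr M).proj_three hJ hf (hrange β u hu) (hrange γ v hv) (hrange δ w hw)

theorem Ek_skew (hX : Comc b X) (hK : kc (actB b) X = K) (k : Fin 9) (u v : Colg N) :
    ⟪Ek b K X k u, v⟫_ℝ = -⟪u, Ek b K X k v⟫_ℝ := by
  obtain ⟨s, hs, hF⟩ := fam_of_eq (b := b) hX hK
  rw [Ek_apply, Ek_apply, inner_neg_left, inner_neg_right, hF.skew, (hF.li_pd hs).1,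
    ← hF.D_li hs]

theorem Ek_ker (hX : Comc b X) (hK : kc (actB b) X = K) (k : Fin 9) {u : Colg N} (hu : u ∈ K) :
    Ek b K X k u = 0 := by
  obtain ⟨s, hs, hF⟩ := fam_of_eq (b := b) hX hK
  rw [Ek_apply, hF.D_li hs, hF.ker k u hu, map_zero, neg_zero]

theorem Ek_comm (hX : Comc b X) (hK : kc (actB b) X = K) {T : Colg N} (hT : T ∈ K)
    (hc : ∀ i, (colAlg b).br T (comp X i) = 0) (k : Fin 9) (u : Colg N) :
    Ek b K X k ((colAlg b).br T u) = (colAlg b).br T (Ek b K X k u) := by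
  obtain ⟨s, hs, hF⟩ := fam_of_eq (b := b) hX hK
  have h1 : ∀ j v, (colAlg b).br T (adX b X j v) = adX b X j ((colAlg b).br T v) := fun j v =>
    br_comm_of (hc j) v
  have h3 : ∀ u ∈ K, (colAlg b).br T u ∈ K := by
    intro u hu
    rw [← hK] at hT hu ⊢
    exact br_mem_kc hT hu
  have h4 : ∀ u ∈ Kᗮ, (colAlg b).br T u ∈ Kᗮ := by
    intro u hu
    rw [← hK] at hT hu ⊢
    exact br_mem_kc_orth hT hu
  have h2 : ∀ v, (colAlg b).br T (li K (adX b X) v) = li K (adX b X) ((colAlg b).br T v) := by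
    intro v
    refine hF.comm_li_of hs (T := LinearMap.toContinuousLinearMap ((colAlg b).br T))
      (fun v => ?_) v
    change (colAlg b).br T _ = ll _ _ ((colAlg b).br T v)
    rw [ll_apply, ll_apply, map_sub, map_sum]
    congr 1
    · exact proj_comm _ ((colAlg b).br T) h3 h4 v
    · refine Finset.sum_congr rfl fun j _ => ?_
      rw [h1, h1]
  rw [Ek_apply, Ek_apply, map_neg, h1, h2]


end vac

/-! ## (V*) -/

section tpack

variable {p : ℕ} {S : Type} [Group S] [Fintype S] {C : Chn b p S}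
  {F : Type*} [NormedAddCommGroup F] [InnerProductSpace ℂ F] [FiniteDimensional ℂ F]
  {M : FermionRep N F} {R : GaugeAction b M} {G : GammaNine}

/-- The heavy vacuum space at the positions `X`. -/
def VX (C : Chn b p S) (M : FermionRep N F) (G : GammaNine) (X : Pos p) : Submodule ℂ F :=
  (cr M).vacJ (Jc b G C.kk (C.cf X))

/-- Its orthogonal projection. -/
def PV (C : Chn b p S) (M : FermionRep N F) (G : GammaNine) (X : Pos p) : F →ₗ[ℂ] F :=
  (cr M).proj (Jc b G C.kk (C.cf X))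

theorem pcs_cf {X : Pos p} (hX : C.Reg X) : PCS (Jc b G C.kk (C.cf X)) :=
  pcs_Jc (comc_cf X) hX


theorem A_eq' [Nontrivial F] (P : TPack C M R G) {X : Pos p} (hX : C.BReg X) :
    P.A X = AXc b C.kk (C.cf X) := by
  obtain ⟨f, hf, hf0⟩ := (Submodule.ne_bot_iff _).1 (IrrX566.vacOf_ne_bot M G C.kkᗮ)
  exact A_eq P hX hf hf0

theorem U_mem [Nontrivial F] (P : TPack C M R G) {X : Pos p} (hX : C.BReg X) {f : F}
    (hf : f ∈ C.Fl M G) : P.U X f ∈ VX C M G X := by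
  have h1 := P.U_kill X hX f hf
  rw [A_eq' P hX] at h1
  exact (kill_iff_Jc M (comc_cf X) hX.reg (P.U X f)).1 h1

/-- **The range of `U X` is the heavy vacuum space.** -/
theorem mem_VX_iff [Nontrivial F] (P : TPack C M R G) {X : Pos p} (hX : C.BReg X) {f : F} :
    f ∈ VX C M G X ↔ ∃ f' ∈ C.Fl M G, P.U X f' = f := by
  constructor
  · intro h
    refine P.U_full X hX f ?_
    rw [A_eq' P hX]
    exact (kill_iff_Jc M (comc_cf X) hX.reg f).2 h
  · rintro ⟨f', hf', rfl⟩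
    exact U_mem P hX hf'

theorem map_U [Nontrivial F] (P : TPack C M R G) {X : Pos p} (hX : C.BReg X) :
    (C.Fl M G).map (P.U X : F →ₗ[ℂ] F) = VX C M G X := by
  ext f
  rw [mem_VX_iff P hX]
  rfl


/-- **(V*)**: the vacuum component of the frame term is the gradient of the density. -/
theorem vstar {X0 X : Pos p} (h0 : C.Reg X0) (hX : C.Reg X) {r B : ℝ} (hr0 : 0 < r)
    (hr : GapAt (actB b) (C.cf X0) r) (hB : ActBound (actB b) B)
    (hx : B * ‖C.cf X - C.cf X0‖ ≤ r / 2) {f : F} (hf : f ∈ VX C M G X) (α : Fin 16)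
    {κ ι : Type*} [Fintype κ] [Fintype ι]
    (t : OrthonormalBasis κ ℝ (Tn (actB b) (C.cf X0)))
    (n : OrthonormalBasis ι ℝ (Uk b (C.cf X0))) :
    PV C M G X (∑ a, (-Complex.I) • Bop b M (om (actB b) (C.cf X0) (C.cf X) (t a) : Colg N).ofLp
        (Theta M G α (t a) f)) =
      (Complex.I / 2) • ∑ s, ((fderiv ℝ (fun y : Cfg N =>
        Real.log |LinearMap.det (VacJ288.J (actB b) (C.cf X0) y)|) (C.cf X) (n s) : ℝ) : ℂ) •
          Theta M G α (n s) f := by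
  have hc := ctr (comc_cf X) hX hf
  have hK : kc (actB b) (C.cf X0) = C.kk := h0
  rw [← hK] at hc
  refine frame_vac_grad (comc_cf X0) hr0 hr hB (cen_cf h0 X) hx (M := M) (G := G)
    (E := Ek b (kc (actB b) (C.cf X0)) (C.cf X)) ?_ ?_ ?_ ?_ α t n
  · intro k u v
    exact Ek_skew (comc_cf X) (hX.trans hK.symm) k u v
  · intro k T hT u
    exact Ek_comm (comc_cf X) (hX.trans hK.symm) hT (fun i => cen_cf h0 X i T hT) k u
  · intro k u hu
    exact Ek_ker (comc_cf X) (hX.trans hK.symm) k hu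
  · unfold PV
    rw [← hK]
    exact hc

end tpack

end Crest.Agent.R330.VacT288
end
end

-- ▼ part R330/VacP_288
section

/-!
# Row 330, S8-PAIR (v): (V*) as the hypothesis `h3` of `PairE547.vac_abs` (helper288)

* `fderiv_log_light` : for `e` light, `∂_e log |det J|` at the centre position `X` is
  `∂_{cfT e} log j`.
* `h3` : the vacuum component of `Σ (-i) Θ(∂√j) f + √j Σ (-i) Bop(om t) Θ(t) f` is zero.
-/

set_option autoImplicit false
set_option linter.unusedSectionVars false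

open MeasureTheory Filter Topology Crest.MathPhysics.MatrixQM
open scoped InnerProductSpace ContDiff

noncomputable section

namespace Crest.Agent.R330.VacP288

open Crest.Agent.R330.Defs478
  Crest.Agent.R330.LS839 Crest.Agent.R330.Frame839
  Crest.Agent.R330.Bind6839 Crest.Agent.R330.TDef414 Crest.Agent.R330.PairB547
  Crest.Agent.R330.PairE547 Crest.Agent.R330.PairL_862 Crest.Agent.R330.PairT714
  Crest.Agent.R330.T5G151 Crest.Agent.R330.VacC288 Crest.Agent.R330.VacT288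
  Crest.Agent.R330.FactI161 Crest.Agent.R330.Cliff442
open Crest.Agent.R330.Lift406 (Bop)
open Crest.Agent.R330.SlB314 (Nor)

variable {N p : ℕ} {b : ColorBasis N} {S : Type} [Group S] [Fintype S] {C : Chn b p S}
variable {F : Type*} [NormedAddCommGroup F] [InnerProductSpace ℂ F] [FiniteDimensional ℂ F]
variable {M : FermionRep N F} {R : GaugeAction b M} {G : GammaNine}

theorem reg0 (σ : Sl C) : C.Reg σ.X0 := σ.reg σ.X0 (by rw [sub_self, norm_zero]; exact σ.pos)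

/-- The heavy vacua of 714 are those of `VacT_288`. -/
theorem VT_eq [Nontrivial F] (P : TPack C M R G) {X : Pos p} (hX : C.BReg X) :
    VT P X = VX C M G X := map_U P hX


theorem smallX (σ : Sl C) {r B : ℝ} (hB0 : 0 ≤ B) (h : B * σ.r ≤ r / 2) {X : Pos p}
    (hX : ‖X - σ.X0‖ < σ.r) : B * ‖C.cf X - C.cf σ.X0‖ ≤ r / 2 := by
  rw [← map_sub, C.cf.norm_map]
  exact (mul_le_mul_of_nonneg_left hX.le hB0).trans h

/-- `∂_e log |det J| = ∂_{cfT e} log j` for light `e`. -/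
theorem fderiv_log_light (σ : Sl C) {r B : ℝ} (hr0 : 0 < r)
    (hr : GapAt (actB b) (C.cf σ.X0) r) (hB0 : 0 ≤ B) (hB : ActBound (actB b) B)
    (h : B * σ.r ≤ r / 2) {X : Pos p} (hX : ‖X - σ.X0‖ < σ.r) {e : Cfg N} (he : e ∈ Tup C.kk) :
    fderiv ℝ (fun y : Cfg N => Real.log |LinearMap.det (VacJ288.J (actB b) (C.cf σ.X0) y)|)
      (C.cf X) e = (jX σ X)⁻¹ * fderiv ℝ (jX σ) X (C.cfT e) := by
  set D : Cfg N → ℝ := fun y => Real.log |LinearMap.det (VacJ288.J (actB b) (C.cf σ.X0) y)|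
    with hD
  have hx := smallX σ hB0 h hX
  have hdf : DifferentiableAt ℝ D (C.cf X) :=
    (VacJ288.contDiffAt_log_detJ hr0 hr hB hx).differentiableAt (by simp)
  have h1 : fderiv ℝ D (C.cf X) e = fderiv ℝ D (C.cf X) (C.cf (C.cfT e)) := by
    have h2 : e = C.cf (C.cfT e) + C.PY e := by
      have h3 : C.PK e = e := Submodule.starProjection_eq_self_iff.2 he
      unfold Chn.PY
      rw [h3]
      abel
    have h4 : fderiv ℝ D (C.cf X) (C.PY e) = 0 :=
      grad_blk (reg0 σ) hr0 hr hB hx (BrT5658.PY_mem he)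
    conv_lhs => rw [h2]
    rw [map_add, h4, add_zero]
  obtain ⟨κ, hκ, hj⟩ := SlU692.j_eq σ
  have hcf : HasFDerivAt (fun Y : Pos p => C.cf Y) (C.cf.toContinuousLinearMap) X :=
    C.cf.toContinuousLinearMap.hasFDerivAt
  have h2 : HasFDerivAt (fun Y : Pos p => Real.log κ + D (C.cf Y))
      ((fderiv ℝ D (C.cf X)).comp C.cf.toContinuousLinearMap) X :=
    (HasFDerivAt.comp X (g := D) (f := fun Y : Pos p => C.cf Y) hdf.hasFDerivAt hcf).const_add _
  have hpos := jX_pos σ hX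
  have h3 : HasFDerivAt (fun Y : Pos p => Real.log (jX σ Y)) ((jX σ X)⁻¹ • fderiv ℝ (jX σ) X) X :=
    ((jX_smooth σ hX).differentiableAt (by simp)).hasFDerivAt.log hpos.ne'
  have hev : (fun Y : Pos p => Real.log (jX σ Y)) =ᶠ[𝓝 X]
      fun Y : Pos p => Real.log κ + D (C.cf Y) := by
    have hopen : ∀ᶠ Y : Pos p in 𝓝 X, ‖Y - σ.X0‖ < σ.r := by
      have hc : Continuous fun Y : Pos p => ‖Y - σ.X0‖ := by fun_prop
      exact hc.continuousAt.eventually (gt_mem_nhds hX)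
    filter_upwards [hopen] with Y hY
    have h5 := hj r B hr0 hr hB (C.cf (Y - σ.X0)) (cf_mem_nor σ _) (by rw [C.cf.norm_map]; exact hY)
    have h6 : C.cf σ.X0 + C.cf (Y - σ.X0) = C.cf Y := by rw [← map_add]; congr 1; abel
    rw [h6] at h5
    have h7 : jX σ Y = κ * |LinearMap.det (VacJ288.J (actB b) (C.cf σ.X0) (C.cf Y))| := h5
    have h8 : |LinearMap.det (VacJ288.J (actB b) (C.cf σ.X0) (C.cf Y))| ≠ 0 := by
      intro h0
      have := jX_pos σ hY
      rw [h7, h0, mul_zero] at this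
      exact lt_irrefl _ this
    rw [h7, Real.log_mul hκ.ne' h8]
  have h4 := (h3.congr_of_eventuallyEq hev.symm).unique h2
  rw [h1]
  have h5 := congrArg (fun T : Pos p →L[ℝ] ℝ => T (C.cfT e)) h4
  exact h5.symm

/-- (V*) with an orthonormal basis of any space equal to the light space. -/
theorem vstar_L {X0 X : Pos p} (h0 : C.Reg X0) (hX : C.Reg X) {r B : ℝ} (hr0 : 0 < r)
    (hr : GapAt (actB b) (C.cf X0) r) (hB : ActBound (actB b) B)
    (hx : B * ‖C.cf X - C.cf X0‖ ≤ r / 2) {f : F} (hf : f ∈ VX C M G X) (α : Fin 16)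
    {κ ι : Type*} [Fintype κ] [Fintype ι]
    (t : OrthonormalBasis κ ℝ (Tn (actB b) (C.cf X0)))
    {L : Submodule ℝ (Cfg N)} (hL : Uk b (C.cf X0) = L) (n : OrthonormalBasis ι ℝ L) :
    PV C M G X (∑ a, (-Complex.I) • Bop b M (om (actB b) (C.cf X0) (C.cf X) (t a) : Colg N).ofLp
        (Theta M G α (t a) f)) =
      (Complex.I / 2) • ∑ s, ((fderiv ℝ (fun y : Cfg N =>
        Real.log |LinearMap.det (VacJ288.J (actB b) (C.cf X0) y)|) (C.cf X) (n s) : ℝ) : ℂ) •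
          Theta M G α (n s) f := by
  subst hL
  exact vstar h0 hX hr0 hr hB hx hf α t n

/-- light operators commute with the projection -/
theorem PV_light {X : Pos p} (hX : C.Reg X) {e : Cfg N} (he : e ∈ Tup C.kk) {f : F}
    (hf : f ∈ VX C M G X) (α : Fin 16) : PV C M G X (Theta M G α e f) = Theta M G α e f := by
  have hc := ctr (AEq288.comc_cf X) hX hf
  have h1 : PV C M G X f = f := (cr M).proj_of_mem (pcs_cf hX) hf
  have hy : ∀ γ, yv G α e γ ∈ C.kk := fun γ =>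
    Submodule.sum_mem _ fun i _ => Submodule.smul_mem _ _ (he i)
  rw [Theta_thv, LinearMap.sum_apply, map_sum]
  refine Finset.sum_congr rfl fun γ _ => ?_
  have h2 := hc.light γ _ (hy γ) f
  unfold PV at h1 ⊢
  rw [h2, h1]

/-- `⟪w, v⟫` sees the vacuum component of `v` only. -/
theorem inner_PV {X : Pos p} (hX : C.Reg X) {w : F} (hw : w ∈ VX C M G X) (v : F) :
    ⟪w, v⟫_ℂ = ⟪w, PV C M G X v⟫_ℂ := by
  have h1 : PV C M G X w = w := (cr M).proj_of_mem (pcs_cf hX) hw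
  have h2 : ⟪PV C M G X w, v⟫_ℂ = ⟪w, PV C M G X v⟫_ℂ := (cr M).proj_symm (pcs_cf hX) w v
  rw [← h2, h1]

/-- **`h3` of `PairE547.vac_abs`.** -/
theorem h3 (σ : Sl C) {q : LL σ} (hq : q ∈ Sb σ (Tup C.kk)) {f w : F}
    (hf : f ∈ VX C M G (Xq σ q)) (hw : w ∈ VX C M G (Xq σ q)) (α : Fin 16)
    {κ ι : Type*} [Fintype κ] [Fintype ι]
    (eT : OrthonormalBasis κ ℝ (Tn (actB b) (C.cf σ.X0)))
    (u : OrthonormalBasis ι ℝ (Tup C.kk)) :
    ⟪w, (∑ s, (-Complex.I) • ThL M G α (u s) ((Real.sqrt (jX σ (Xq σ q)) *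
        ((2 * jX σ (Xq σ q))⁻¹ * fderiv ℝ (jX σ) (Xq σ q) (C.cfT (u s)))) • f)) +
      Real.sqrt (jX σ (Xq σ q)) • ∑ t, (-Complex.I) • BfL b M
        (om (actB b) (C.cf σ.X0) (C.cf σ.X0 + C.cf (C.cfT q)) (eT t))
        (ThL M G α (eT t) f)⟫_ℂ = 0 := by
  obtain ⟨r, B, hr0, hB0, hB, hr, h⟩ := σ.gap
  have hXn := Xq_lt σ hq
  have hX := σ.reg _ hXn
  have hx := smallX σ hB0 h hXn
  have hcX : C.cf σ.X0 + C.cf (C.cfT q) = C.cf (Xq σ q) := by
    unfold Xq
    rw [map_add]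
  rw [hcX, inner_PV hX hw, map_add]
  set X := Xq σ q with hXd
  have e1 : PV C M G X (∑ s, (-Complex.I) • ThL M G α (u s) ((Real.sqrt (jX σ X) *
        ((2 * jX σ X)⁻¹ * fderiv ℝ (jX σ) X (C.cfT (u s)))) • f)) =
      ∑ s, ((-Complex.I) * ((Real.sqrt (jX σ X) *
        ((2 * jX σ X)⁻¹ * fderiv ℝ (jX σ) X (C.cfT (u s))) : ℝ) : ℂ)) • Theta M G α (u s) f := by
    rw [map_sum]
    refine Finset.sum_congr rfl fun s _ => ?_
    rw [ThL_apply, ← Complex.coe_smul, map_smul, map_smul, map_smul, PV_light hX (u s).2 hf α,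
      smul_smul]
  have e2 := vstar_L (reg0 σ) hX hr0 hr hB hx hf α eT (Uk_eq (reg0 σ)) u
  have e3 : PV C M G X (Real.sqrt (jX σ X) • ∑ t, (-Complex.I) • BfL b M
        (om (actB b) (C.cf σ.X0) (C.cf X) (eT t)) (ThL M G α (eT t) f)) =
      ((Real.sqrt (jX σ X) : ℝ) : ℂ) • (Complex.I / 2) • ∑ s, ((fderiv ℝ (fun y : Cfg N =>
        Real.log |LinearMap.det (VacJ288.J (actB b) (C.cf σ.X0) y)|) (C.cf X) (u s) : ℝ) : ℂ) •
          Theta M G α (u s) f := by
    rw [← Complex.coe_smul, map_smul]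
    congr 1
  rw [e1, e3, Finset.smul_sum, Finset.smul_sum, ← Finset.sum_add_distrib]
  rw [Finset.sum_eq_zero, inner_zero_right]
  intro s _
  rw [fderiv_log_light σ hr0 hr hB0 hB h hXn (u s).2, smul_smul, smul_smul, ← add_smul]
  have hj := (jX_pos σ hXn).ne'
  have : (-Complex.I) * ((Real.sqrt (jX σ X) *
        ((2 * jX σ X)⁻¹ * fderiv ℝ (jX σ) X (C.cfT (u s))) : ℝ) : ℂ) +
      ((Real.sqrt (jX σ X) : ℝ) : ℂ) * (Complex.I / 2) *
        (((jX σ X)⁻¹ * fderiv ℝ (jX σ) X (C.cfT (u s)) : ℝ) : ℂ) = 0 := by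
    push_cast
    have hj' : ((jX σ X : ℝ) : ℂ) ≠ 0 := by exact_mod_cast hj
    field_simp
    ring
  rw [this, zero_smul]

end Crest.Agent.R330.VacP288

end
end

-- ▼ part R330/E4_776
section

/-!
# Row 330, S8-PAIR, error term e4, abstract part (helper776)

The heavy Gaussian at `X` on the fixed transverse space `Z_c`: every weight
`wt z = Φ ‖z‖ ⟪A_X z, z⟫` satisfies `∫ wt(z) ⟪T z_i, z_j⟫ dz = 0` for every skew `T` on colour space
and all `i, j` (the covariance is symmetric in the colour indices, for each pair `i, j`).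

* `rf v` : reflection of colour space in `v^⊥`; `RInv τ Z wt v` : `1 ⊗ rf v` preserves `Z` and `wt`.
* `cov_symm`, `mean_skew` : the statement when the invariant unit vectors span.
* `Fam.rinv`, `Fam.span` : joint eigenvectors of `D_i D_j`, `D⁰_i D⁰_j`, `P_K`.
* `Fam.mean_skew` : the conclusion.
-/

set_option autoImplicit false
set_option linter.unusedSectionVars false

open MeasureTheory Filter Topology
open scoped InnerProductSpace ContDiff

noncomputable section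

namespace Crest.Agent.R330.E4776

open Crest.Agent.R330.SqrtPD984 Crest.Agent.R330.GPar984 Crest.Agent.R330.AX984

/-! ## Haar measures and isometries -/

section haar

variable {W : Type*} [NormedAddCommGroup W] [InnerProductSpace ℝ W] [FiniteDimensional ℝ W]
  [MeasurableSpace W] [BorelSpace W]

theorem mp_haar (μ : Measure W) [μ.IsAddHaarMeasure] (U : W ≃ₗᵢ[ℝ] W) :
    MeasurePreserving U μ μ := by
  have h1 := U.measurePreserving
  have h2 : μ = Measure.addHaarScalarFactor μ (volume : Measure W) • (volume : Measure W) :=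
    Measure.isAddLeftInvariant_eq_smul μ volume
  rw [h2]
  exact h1.smul_measure _

end haar

/-! ## Colour reflections -/

section refl

variable {V : Type*} [NormedAddCommGroup V] [InnerProductSpace ℝ V]

/-- reflection in the hyperplane orthogonal to `v` (`v` a unit vector) -/
def rf (v : V) : V →L[ℝ] V := ContinuousLinearMap.id ℝ V - (2 : ℝ) • (innerSL ℝ v).smulRight v

theorem rf_apply (v u : V) : rf v u = u - (2 * ⟪v, u⟫_ℝ) • v := by
  simp [rf, smul_smul]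

theorem rf_self {v : V} (hv : ‖v‖ = 1) : rf v v = -v := by
  rw [rf_apply, real_inner_self_eq_norm_sq, hv, one_pow, mul_one, two_smul]
  abel

theorem rf_adj (v u w : V) : ⟪rf v u, w⟫_ℝ = ⟪u, rf v w⟫_ℝ := by
  rw [rf_apply, rf_apply, inner_sub_left, inner_sub_right, inner_smul_left, inner_smul_right,
    real_inner_comm u v]
  simp only [conj_trivial]
  ring

theorem rf_rf {v : V} (hv : ‖v‖ = 1) (u : V) : rf v (rf v u) = u := by
  rw [rf_apply v (rf v u), rf_apply, inner_sub_right, inner_smul_right,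
    real_inner_self_eq_norm_sq, hv]
  module

theorem rf_inner {v : V} (hv : ‖v‖ = 1) (u w : V) : ⟪rf v u, rf v w⟫_ℝ = ⟪u, w⟫_ℝ := by
  rw [rf_adj, rf_rf hv]

theorem rf_comm {T : V →L[ℝ] V} (hT : Sy T) {v : V} {c : ℝ} (hc : T v = c • v) (u : V) :
    T (rf v u) = rf v (T u) := by
  rw [rf_apply, rf_apply, map_sub, map_smul, hc, ← hT v u, hc, inner_smul_left]
  simp only [conj_trivial]
  module

end refl

variable {ι : Type*} [Fintype ι] {V E : Type*}
  [NormedAddCommGroup V] [InnerProductSpace ℝ V] [FiniteDimensional ℝ V]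
  [NormedAddCommGroup E] [InnerProductSpace ℝ E] [FiniteDimensional ℝ E]

/-- The weight `wt` on `Z` is invariant under the colour reflection `1 ⊗ rf v`. -/
structure RInv (τ : Ten ι V E) (Z : Submodule ℝ E) (wt : Z → ℝ) (v : V) : Prop where
  mem : ∀ z ∈ Z, τ.ten (rf v) z ∈ Z
  inv : ∀ (z : E) (hz : z ∈ Z) (h : τ.ten (rf v) z ∈ Z),
    wt ⟨τ.ten (rf v) z, h⟩ = wt ⟨z, hz⟩

section inv

variable {τ : Ten ι V E} {Z : Submodule ℝ E} {wt : Z → ℝ} {v : V}

theorem ten_rf_rf (τ : Ten ι V E) (hv : ‖v‖ = 1) (e : E) :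
    τ.ten (rf v) (τ.ten (rf v) e) = e :=
  τ.ext' fun i => by rw [τ.pr_ten, τ.pr_ten, rf_rf hv]

theorem norm_ten_rf (τ : Ten ι V E) (hv : ‖v‖ = 1) (e : E) : ‖τ.ten (rf v) e‖ = ‖e‖ := by
  have h : ‖τ.ten (rf v) e‖ ^ 2 = ‖e‖ ^ 2 := by
    rw [τ.norm_sq, τ.norm_sq e]
    refine Finset.sum_congr rfl fun i _ => ?_
    rw [τ.pr_ten, ← real_inner_self_eq_norm_sq, rf_inner hv, real_inner_self_eq_norm_sq]
  exact (pow_left_inj₀ (norm_nonneg _) (norm_nonneg _) two_ne_zero).1 h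

/-- the reflection as an isometry of `Z` -/
def rfZ (τ : Ten ι V E) (Z : Submodule ℝ E) (v : V) (hv : ‖v‖ = 1)
    (hm : ∀ z ∈ Z, τ.ten (rf v) z ∈ Z) : Z ≃ₗᵢ[ℝ] Z where
  toLinearEquiv := LinearEquiv.ofInvolutive
    (((τ.ten (rf v)).toLinearMap).restrict hm) (fun z => Subtype.ext (ten_rf_rf τ hv z))
  norm_map' := fun z => norm_ten_rf τ hv z

theorem rfZ_coe (τ : Ten ι V E) (Z : Submodule ℝ E) (v : V) (hv : ‖v‖ = 1)
    (hm : ∀ z ∈ Z, τ.ten (rf v) z ∈ Z) (z : Z) :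
    ((rfZ τ Z v hv hm z : Z) : E) = τ.ten (rf v) z := rfl

variable [MeasurableSpace E] [BorelSpace E]

theorem integrable_pr {μ : Measure Z} (hm : AEStronglyMeasurable wt μ)
    (hi : Integrable (fun z : Z => wt z * ‖z‖ ^ 2) μ) (i j : ι) (u w : V) :
    Integrable (fun z : Z => wt z * (⟪u, τ.pr i z⟫_ℝ * ⟪w, τ.pr j z⟫_ℝ)) μ := by
  have hc : Continuous fun z : Z => ⟪u, τ.pr i z⟫_ℝ * ⟪w, τ.pr j z⟫_ℝ := by fun_prop
  have hle : ∀ (k : ι) (z : Z), ‖τ.pr k z‖ ≤ ‖z‖ := by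
    intro k z
    have h1 : ‖τ.pr k (z : E)‖ ^ 2 ≤ ‖(z : E)‖ ^ 2 := by
      rw [τ.norm_sq (z : E)]
      exact Finset.single_le_sum (f := fun i => ‖τ.pr i (z : E)‖ ^ 2) (fun i _ => sq_nonneg _)
        (Finset.mem_univ k)
    exact (pow_le_pow_iff_left₀ (norm_nonneg _) (norm_nonneg _) two_ne_zero).1 h1
  refine (hi.const_mul (‖u‖ * ‖w‖)).mono (hm.mul hc.aestronglyMeasurable)
    (ae_of_all _ fun z => ?_)
  have h1 : |⟪u, τ.pr i z⟫_ℝ| ≤ ‖u‖ * ‖z‖ :=
    (abs_real_inner_le_norm _ _).trans (by gcongr; exact hle i z)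
  have h2 : |⟪w, τ.pr j z⟫_ℝ| ≤ ‖w‖ * ‖z‖ :=
    (abs_real_inner_le_norm _ _).trans (by gcongr; exact hle j z)
  rw [norm_mul, norm_mul, norm_mul, norm_mul (wt z), Real.norm_eq_abs, Real.norm_eq_abs,
    Real.norm_eq_abs]
  have h3 : |⟪u, τ.pr i z⟫_ℝ| * |⟪w, τ.pr j z⟫_ℝ| ≤ (‖u‖ * ‖z‖) * (‖w‖ * ‖z‖) := by gcongr
  rw [Real.norm_of_nonneg (by positivity : (0 : ℝ) ≤ ‖u‖ * ‖w‖),
    Real.norm_of_nonneg (by positivity : (0 : ℝ) ≤ ‖z‖ ^ 2)]
  calc |wt z| * (|⟪u, τ.pr i z⟫_ℝ| * |⟪w, τ.pr j z⟫_ℝ|)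
      ≤ |wt z| * ((‖u‖ * ‖z‖) * (‖w‖ * ‖z‖)) := by gcongr
    _ = ‖u‖ * ‖w‖ * (|wt z| * ‖z‖ ^ 2) := by ring

/-- invariance of the second moments under one reflection -/
theorem cov_rf {μ : Measure Z} [μ.IsAddHaarMeasure] (hv : ‖v‖ = 1) (h : RInv τ Z wt v)
    (i j : ι) (u w : V) :
    ∫ z : Z, wt z * (⟪u, τ.pr i z⟫_ℝ * ⟪w, τ.pr j z⟫_ℝ) ∂μ =
      ∫ z : Z, wt z * (⟪rf v u, τ.pr i z⟫_ℝ * ⟪rf v w, τ.pr j z⟫_ℝ) ∂μ := by
  have h1 := (mp_haar μ (rfZ τ Z v hv h.mem)).integral_comp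
    (rfZ τ Z v hv h.mem).toHomeomorph.measurableEmbedding
    (fun z : Z => wt z * (⟪u, τ.pr i z⟫_ℝ * ⟪w, τ.pr j z⟫_ℝ))
  rw [← h1]
  refine integral_congr_ae (ae_of_all _ fun z => ?_)
  simp only
  rw [rfZ_coe, τ.pr_ten, τ.pr_ten, ← rf_adj, ← rf_adj,
    show wt (rfZ τ Z v hv h.mem z) = wt z from h.inv z z.2 (h.mem z z.2)]

/-- the second moments against an invariant unit vector -/
theorem cov_unit {μ : Measure Z} [μ.IsAddHaarMeasure] (hm : AEStronglyMeasurable wt μ)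
    (hi : Integrable (fun z : Z => wt z * ‖z‖ ^ 2) μ) (hv : ‖v‖ = 1) (h : RInv τ Z wt v)
    (i j : ι) (u : V) :
    ∫ z : Z, wt z * (⟪u, τ.pr i z⟫_ℝ * ⟪v, τ.pr j z⟫_ℝ) ∂μ =
      ∫ z : Z, wt z * (⟪v, τ.pr i z⟫_ℝ * ⟪u, τ.pr j z⟫_ℝ) ∂μ := by
  have e1 : ∫ z : Z, wt z * (⟪u, τ.pr i z⟫_ℝ * ⟪v, τ.pr j z⟫_ℝ) ∂μ =
      ⟪v, u⟫_ℝ * ∫ z : Z, wt z * (⟪v, τ.pr i z⟫_ℝ * ⟪v, τ.pr j z⟫_ℝ) ∂μ := by
    have h1 := cov_rf (μ := μ) hv h i j u v
    rw [rf_self hv, rf_apply] at h1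
    have h2 : ∀ z : Z, wt z * (⟪u - (2 * ⟪v, u⟫_ℝ) • v, τ.pr i z⟫_ℝ * ⟪-v, τ.pr j z⟫_ℝ) =
        (2 * ⟪v, u⟫_ℝ) * (wt z * (⟪v, τ.pr i z⟫_ℝ * ⟪v, τ.pr j z⟫_ℝ)) -
          wt z * (⟪u, τ.pr i z⟫_ℝ * ⟪v, τ.pr j z⟫_ℝ) := by
      intro z
      rw [inner_sub_left, inner_smul_left, inner_neg_left]
      simp only [conj_trivial]
      ring
    simp only [h2] at h1
    rw [integral_sub ((integrable_pr hm hi i j v v).const_mul _) (integrable_pr hm hi i j u v),
      integral_const_mul] at h1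
    linarith
  have e2 : ∫ z : Z, wt z * (⟪v, τ.pr i z⟫_ℝ * ⟪u, τ.pr j z⟫_ℝ) ∂μ =
      ⟪v, u⟫_ℝ * ∫ z : Z, wt z * (⟪v, τ.pr i z⟫_ℝ * ⟪v, τ.pr j z⟫_ℝ) ∂μ := by
    have h1 := cov_rf (μ := μ) hv h i j v u
    rw [rf_self hv, rf_apply] at h1
    have h2 : ∀ z : Z, wt z * (⟪-v, τ.pr i z⟫_ℝ * ⟪u - (2 * ⟪v, u⟫_ℝ) • v, τ.pr j z⟫_ℝ) =
        (2 * ⟪v, u⟫_ℝ) * (wt z * (⟪v, τ.pr i z⟫_ℝ * ⟪v, τ.pr j z⟫_ℝ)) -
          wt z * (⟪v, τ.pr i z⟫_ℝ * ⟪u, τ.pr j z⟫_ℝ) := by
      intro z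
      rw [inner_sub_left, inner_smul_left, inner_neg_left]
      simp only [conj_trivial]
      ring
    simp only [h2] at h1
    rw [integral_sub ((integrable_pr hm hi i j v v).const_mul _) (integrable_pr hm hi i j v u),
      integral_const_mul] at h1
    linarith
  rw [e1, e2]

/-- **The covariance is symmetric in the colour indices.** -/
theorem cov_symm {μ : Measure Z} [μ.IsAddHaarMeasure] (hm : AEStronglyMeasurable wt μ)
    (hi : Integrable (fun z : Z => wt z * ‖z‖ ^ 2) μ)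
    (hsp : Submodule.span ℝ {v : V | ‖v‖ = 1 ∧ RInv τ Z wt v} = ⊤) (i j : ι) (u w : V) :
    ∫ z : Z, wt z * (⟪u, τ.pr i z⟫_ℝ * ⟪w, τ.pr j z⟫_ℝ) ∂μ =
      ∫ z : Z, wt z * (⟪w, τ.pr i z⟫_ℝ * ⟪u, τ.pr j z⟫_ℝ) ∂μ := by
  have hw : w ∈ Submodule.span ℝ {v : V | ‖v‖ = 1 ∧ RInv τ Z wt v} := by
    rw [hsp]; trivial
  induction hw using Submodule.span_induction with
  | mem x hx => exact cov_unit hm hi hx.1 hx.2 i j u
  | zero => simp
  | add x y _ _ h1 h2 =>
    have e1 : ∀ z : Z, wt z * (⟪u, τ.pr i z⟫_ℝ * ⟪x + y, τ.pr j z⟫_ℝ) =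
        wt z * (⟪u, τ.pr i z⟫_ℝ * ⟪x, τ.pr j z⟫_ℝ) +
        wt z * (⟪u, τ.pr i z⟫_ℝ * ⟪y, τ.pr j z⟫_ℝ) := fun z => by
      rw [inner_add_left]; ring
    have e2 : ∀ z : Z, wt z * (⟪x + y, τ.pr i z⟫_ℝ * ⟪u, τ.pr j z⟫_ℝ) =
        wt z * (⟪x, τ.pr i z⟫_ℝ * ⟪u, τ.pr j z⟫_ℝ) +
        wt z * (⟪y, τ.pr i z⟫_ℝ * ⟪u, τ.pr j z⟫_ℝ) := fun z => by
      rw [inner_add_left]; ring
    simp only [e1, e2]
    rw [integral_add (integrable_pr hm hi i j u x) (integrable_pr hm hi i j u y),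
      integral_add (integrable_pr hm hi i j x u) (integrable_pr hm hi i j y u), h1, h2]
  | smul r x _ h1 =>
    have e1 : ∀ z : Z, wt z * (⟪u, τ.pr i z⟫_ℝ * ⟪r • x, τ.pr j z⟫_ℝ) =
        r * (wt z * (⟪u, τ.pr i z⟫_ℝ * ⟪x, τ.pr j z⟫_ℝ)) := fun z => by
      rw [inner_smul_left]; simp only [conj_trivial]; ring
    have e2 : ∀ z : Z, wt z * (⟪r • x, τ.pr i z⟫_ℝ * ⟪u, τ.pr j z⟫_ℝ) =
        r * (wt z * (⟪x, τ.pr i z⟫_ℝ * ⟪u, τ.pr j z⟫_ℝ)) := fun z => by
      rw [inner_smul_left]; simp only [conj_trivial]; ring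
    simp only [e1, e2]
    rw [integral_const_mul, integral_const_mul, h1]

/-- **Skew operators have mean zero.** -/
theorem mean_skew {μ : Measure Z} [μ.IsAddHaarMeasure] (hm : AEStronglyMeasurable wt μ)
    (hi : Integrable (fun z : Z => wt z * ‖z‖ ^ 2) μ)
    (hsp : Submodule.span ℝ {v : V | ‖v‖ = 1 ∧ RInv τ Z wt v} = ⊤)
    {T : V →L[ℝ] V} (hT : ∀ u w, ⟪T u, w⟫_ℝ = -⟪u, T w⟫_ℝ) (i j : ι) :
    ∫ z : Z, wt z * ⟪T (τ.pr i z), τ.pr j z⟫_ℝ ∂μ = 0 := by
  set e := stdOrthonormalBasis ℝ V with he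
  have h1 : ∀ z : Z, wt z * ⟪T (τ.pr i z), τ.pr j z⟫_ℝ =
      -∑ a, wt z * (⟪T (e a), τ.pr i z⟫_ℝ * ⟪e a, τ.pr j z⟫_ℝ) := by
    intro z
    rw [← e.sum_inner_mul_inner (T (τ.pr i z)) (τ.pr j z), Finset.mul_sum,
      ← Finset.sum_neg_distrib]
    refine Finset.sum_congr rfl fun a _ => ?_
    rw [hT, real_inner_comm (T (e a))]
    ring
  have h2 : ∫ z : Z, wt z * ⟪T (τ.pr i z), τ.pr j z⟫_ℝ ∂μ =
      -∑ a, ∫ z : Z, wt z * (⟪T (e a), τ.pr i z⟫_ℝ * ⟪e a, τ.pr j z⟫_ℝ) ∂μ := by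
    simp only [h1]
    rw [integral_neg, integral_finsetSum _ fun a _ => integrable_pr hm hi i j _ _]
  have h3 : ∀ a, ∫ z : Z, wt z * (⟪T (e a), τ.pr i z⟫_ℝ * ⟪e a, τ.pr j z⟫_ℝ) ∂μ =
      ∑ b, ⟪e b, T (e a)⟫_ℝ * ∫ z : Z, wt z * (⟪e b, τ.pr i z⟫_ℝ * ⟪e a, τ.pr j z⟫_ℝ) ∂μ := by
    intro a
    have h4 : ∀ z : Z, wt z * (⟪T (e a), τ.pr i z⟫_ℝ * ⟪e a, τ.pr j z⟫_ℝ) =
        ∑ b, ⟪e b, T (e a)⟫_ℝ * (wt z * (⟪e b, τ.pr i z⟫_ℝ * ⟪e a, τ.pr j z⟫_ℝ)) := by
      intro z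
      rw [← e.sum_inner_mul_inner (T (e a)) (τ.pr i z), Finset.sum_mul, Finset.mul_sum]
      refine Finset.sum_congr rfl fun b _ => ?_
      rw [real_inner_comm (e b) (T (e a))]
      ring
    simp only [h4]
    rw [integral_finsetSum _ fun b _ => (integrable_pr hm hi i j _ _).const_mul _]
    exact Finset.sum_congr rfl fun b _ => integral_const_mul _ _
  rw [h2, neg_eq_zero]
  simp only [h3]
  have h5 : ∑ a, ∑ b, ⟪e b, T (e a)⟫_ℝ *
      ∫ z : Z, wt z * (⟪e b, τ.pr i z⟫_ℝ * ⟪e a, τ.pr j z⟫_ℝ) ∂μ =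
      -∑ a, ∑ b, ⟪e b, T (e a)⟫_ℝ *
      ∫ z : Z, wt z * (⟪e b, τ.pr i z⟫_ℝ * ⟪e a, τ.pr j z⟫_ℝ) ∂μ := by
    conv_lhs => rw [Finset.sum_comm]
    rw [← Finset.sum_neg_distrib]
    refine Finset.sum_congr rfl fun a _ => ?_
    rw [← Finset.sum_neg_distrib]
    refine Finset.sum_congr rfl fun b _ => ?_
    rw [cov_symm hm hi hsp i j (e a) (e b), ← neg_eq_iff_eq_neg.2 (hT (e a) (e b)),
      real_inner_comm (T (e a)) (e b)]
    ring
  linarith

end inv

/-! ## The family of a commuting configuration -/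

section fam

variable {K : Submodule ℝ V} {s s₀ : ℝ} {D D₀ : ι → V →L[ℝ] V}

theorem Fam.DD_sy (h : Fam K s D) (i j : ι) (u w : V) :
    ⟪D i (D j u), w⟫_ℝ = ⟪u, D i (D j w)⟫_ℝ := by
  rw [h.skew, h.skew, neg_neg, h.comm]

/-- joint eigenvectors -/
structure JE (K : Submodule ℝ V) (D D₀ : ι → V →L[ℝ] V) (v : V) : Prop where
  one : ‖v‖ = 1
  e1 : ∀ i j, ∃ c : ℝ, D i (D j v) = c • v
  e2 : ∀ i j, ∃ c : ℝ, D₀ i (D₀ j v) = c • v
  e3 : ∃ c : ℝ, K.starProjection v = c • v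

theorem sy_DD (h : Fam K s D) (i j : ι) : Sy (D i * D j) := fun u w => Fam.DD_sy h i j u w

theorem DD_rf (h : Fam K s D) {v : V} (e1 : ∀ i j, ∃ c : ℝ, D i (D j v) = c • v) (i j : ι)
    (u : V) : D i (D j (rf v u)) = rf v (D i (D j u)) := by
  obtain ⟨c, hc⟩ := e1 i j
  exact rf_comm (sy_DD h i j) hc u

theorem sy_proj (K : Submodule ℝ V) : Sy K.starProjection := fun u w => by
  rw [proj_inner, real_inner_comm (K.starProjection w) u, proj_inner K w u,
    real_inner_comm (K.starProjection w)]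

theorem proj_rf {v : V} (e3 : ∃ c : ℝ, K.starProjection v = c • v) (u : V) :
    K.starProjection (rf v u) = rf v (K.starProjection u) := by
  obtain ⟨c, hc⟩ := e3
  exact rf_comm (sy_proj K) hc u

theorem ll_rf (h : Fam K s D) {v : V} (e1 : ∀ i j, ∃ c : ℝ, D i (D j v) = c • v)
    (e3 : ∃ c : ℝ, K.starProjection v = c • v) : rf v * ll K D = ll K D * rf v := by
  ext u
  change rf v (ll K D u) = ll K D (rf v u)
  rw [ll_apply, ll_apply, map_sub, map_sum, proj_rf e3]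
  congr 1
  exact Finset.sum_congr rfl fun i _ => (DD_rf h e1 i i u).symm

theorem lr_rf (h : Fam K s D) (hs : 0 < s) {v : V}
    (e1 : ∀ i j, ∃ c : ℝ, D i (D j v) = c • v) (e3 : ∃ c : ℝ, K.starProjection v = c • v)
    (u : V) : lr K D (rf v u) = rf v (lr K D u) := by
  have h1 := comm_psq (h.ll_pd hs) (ll_rf h e1 e3)
  have h2 := congrArg (fun R : V →L[ℝ] V => R u) h1
  exact h2.symm

theorem li_rf (h : Fam K s D) (hs : 0 < s) {v : V}
    (e1 : ∀ i j, ∃ c : ℝ, D i (D j v) = c • v) (e3 : ∃ c : ℝ, K.starProjection v = c • v)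
    (u : V) : li K D (rf v u) = rf v (li K D u) := by
  have h0 : rf v * lr K D = lr K D * rf v := by
    ext u
    exact (lr_rf h hs e1 e3 u).symm
  have h1 := comm_inverse (h.lr_pd hs) h0
  have h2 := congrArg (fun R : V →L[ℝ] V => R u) h1
  exact h2.symm

theorem AX_rf (τ : Ten ι V E) (h : Fam K s D) (hs : 0 < s) {v : V}
    (e1 : ∀ i j, ∃ c : ℝ, D i (D j v) = c • v) (e3 : ∃ c : ℝ, K.starProjection v = c • v)
    (e : E) : τ.AX K D (τ.ten (rf v) e) = τ.ten (rf v) (τ.AX K D e) := by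
  refine τ.ext' fun i => ?_
  rw [τ.pr_AX, τ.pr_ten, τ.pr_ten, τ.pr_AX, map_add, map_sub, lr_rf h hs e1 e3, proj_rf e3]
  congr 1
  rw [τ.dv_apply, τ.dv_apply, map_sum, map_sum, map_sum, map_sum, map_sum]
  refine Finset.sum_congr rfl fun j _ => ?_
  rw [τ.pr_ten, ← h.D_li hs, ← h.D_li hs, li_rf h hs e1 e3, DD_rf h e1]

theorem ZZ_rf (τ : Ten ι V E) (h₀ : Fam K s₀ D₀) (hs₀ : 0 < s₀) {v : V}
    (e2 : ∀ i j, ∃ c : ℝ, D₀ i (D₀ j v) = c • v) (e3 : ∃ c : ℝ, K.starProjection v = c • v)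
    {z : E} (hz : z ∈ τ.ZZ K D₀) : τ.ten (rf v) z ∈ τ.ZZ K D₀ := by
  obtain ⟨h1, h2⟩ := (τ.mem_ZZ).1 hz
  refine (τ.mem_ZZ).2 ⟨fun i => ?_, ?_⟩
  · rw [τ.pr_ten, ← Submodule.starProjection_apply_eq_zero_iff, proj_rf e3, proj_zero (h1 i),
      map_zero]
  · set w := τ.dv D₀ (τ.ten (rf v) z) with hw
    have hwK : w ∈ Kᗮ := h₀.dv_mem τ _
    have h3 : ∀ i, D₀ i w = 0 := by
      intro i
      rw [hw, τ.dv_apply, map_sum]
      have h4 : ∀ j, D₀ i (D₀ j (τ.pr j (τ.ten (rf v) z))) = rf v (D₀ i (D₀ j (τ.pr j z))) := by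
        intro j
        rw [τ.pr_ten, DD_rf h₀ e2]
      simp only [h4]
      rw [← map_sum, ← map_sum, ← τ.dv_apply, h2, map_zero, map_zero]
    have h5 := h₀.gap w hwK
    simp only [h3, norm_zero] at h5
    have h6 : ‖w‖ ^ 2 ≤ 0 := by
      have h7 : 0 < s₀ ^ 2 := by positivity
      have h8 : ∑ _i : ι, (0 : ℝ) ^ 2 = 0 := by simp
      rw [h8] at h5
      by_contra hne
      push Not at hne
      nlinarith [mul_pos h7 hne]
    have h9 : ‖w‖ = 0 := by nlinarith [norm_nonneg w]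
    exact norm_eq_zero.1 h9



/-- joint eigenvectors span -/
theorem span_JE (h : Fam K s D) (h₀ : Fam K s₀ D₀)
    (hc : ∀ i k u, D i (D₀ k u) = D₀ k (D i u)) :
    Submodule.span ℝ {v : V | JE K D D₀ v} = ⊤ := by
  classical
  let T : (ι × ι) ⊕ (ι × ι) ⊕ Unit → (V →ₗ[ℝ] V) := fun
    | Sum.inl p => (D p.1 * D p.2 : V →L[ℝ] V).toLinearMap
    | Sum.inr (Sum.inl p) => (D₀ p.1 * D₀ p.2 : V →L[ℝ] V).toLinearMap
    | Sum.inr (Sum.inr _) => (K.starProjection : V →L[ℝ] V).toLinearMap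
  have hT : ∀ p, (T p).IsSymmetric := by
    rintro (p | p | p) u w
    · exact sy_DD h p.1 p.2 u w
    · exact sy_DD h₀ p.1 p.2 u w
    · exact sy_proj K u w
  have hcc : ∀ p q u, T p (T q u) = T q (T p u) := by
    have a1 : ∀ (p q : ι × ι) (u : V), D p.1 (D p.2 (D q.1 (D q.2 u))) =
        D q.1 (D q.2 (D p.1 (D p.2 u))) := by
      intro p q u
      rw [h.comm p.2 q.1, h.comm p.1 q.1, h.comm p.2 q.2, h.comm p.1 q.2]
    have a2 : ∀ (p q : ι × ι) (u : V), D₀ p.1 (D₀ p.2 (D₀ q.1 (D₀ q.2 u))) =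
        D₀ q.1 (D₀ q.2 (D₀ p.1 (D₀ p.2 u))) := by
      intro p q u
      rw [h₀.comm p.2 q.1, h₀.comm p.1 q.1, h₀.comm p.2 q.2, h₀.comm p.1 q.2]
    have a3 : ∀ (p q : ι × ι) (u : V), D p.1 (D p.2 (D₀ q.1 (D₀ q.2 u))) =
        D₀ q.1 (D₀ q.2 (D p.1 (D p.2 u))) := by
      intro p q u
      rw [hc p.2 q.1, hc p.1 q.1, hc p.2 q.2, hc p.1 q.2]
    have a4 : ∀ (p : ι × ι) (u : V), D p.1 (D p.2 (K.starProjection u)) =
        K.starProjection (D p.1 (D p.2 u)) := by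
      intro p u
      rw [h.D_proj, map_zero, h.proj_D]
    have a5 : ∀ (p : ι × ι) (u : V), D₀ p.1 (D₀ p.2 (K.starProjection u)) =
        K.starProjection (D₀ p.1 (D₀ p.2 u)) := by
      intro p u
      rw [h₀.D_proj, map_zero, h₀.proj_D]
    rintro (p | p | p) (q | q | q) u
    · exact a1 p q u
    · exact a3 p q u
    · exact a4 p u
    · exact (a3 q p u).symm
    · exact a2 p q u
    · exact a5 p u
    · exact (a4 q u).symm
    · exact (a5 q u).symm
    · rfl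
  have hC : Pairwise (Function.onFun Commute T) := fun p q _ => LinearMap.ext fun u => hcc p q u
  have htop := LinearMap.IsSymmetric.iSup_iInf_eq_top_of_commute hT hC
  rw [eq_top_iff, ← htop]
  refine iSup_le fun χ => ?_
  intro v hv
  rw [Submodule.mem_iInf] at hv
  have hev : ∀ p, T p v = χ p • v := fun p => Module.End.mem_eigenspace_iff.1 (hv p)
  by_cases h0 : v = 0
  · rw [h0]; exact Submodule.zero_mem _
  have hn : ‖v‖ ≠ 0 := norm_ne_zero_iff.2 h0
  have h1 : v = ‖v‖ • (‖v‖⁻¹ • v) := by rw [smul_smul, mul_inv_cancel₀ hn, one_smul]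
  rw [h1]
  refine Submodule.smul_mem _ _ (Submodule.subset_span ?_)
  refine ⟨?_, fun i j => ⟨χ (Sum.inl (i, j)), ?_⟩, fun i j => ⟨χ (Sum.inr (Sum.inl (i, j))), ?_⟩,
    ⟨χ (Sum.inr (Sum.inr ())), ?_⟩⟩
  · rw [norm_smul, norm_inv, norm_norm, inv_mul_cancel₀ hn]
  · have := hev (Sum.inl (i, j))
    rw [map_smul, map_smul, show D i (D j v) = χ (Sum.inl (i, j)) • v from this, smul_comm]
  · have := hev (Sum.inr (Sum.inl (i, j)))
    rw [map_smul, map_smul, show D₀ i (D₀ j v) = χ (Sum.inr (Sum.inl (i, j))) • v from this,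
      smul_comm]
  · have := hev (Sum.inr (Sum.inr ()))
    rw [map_smul, show K.starProjection v = χ (Sum.inr (Sum.inr ())) • v from this, smul_comm]

variable [MeasurableSpace E] [BorelSpace E]


end fam

end Crest.Agent.R330.E4776

end
end

-- ▼ part R330/E4L_776
section

/-!
# Row 330, S8-PAIR, error term e4, literal (helper776)

On `Zs b c`, for a commuting `X` with `kc X = kc c` and every weight
`wt z = Φ ‖z‖ (QX b (kc c) X z)` (product of the Gaussians and of the radial cut-off):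

* `mean_skew_lit` : `∫ wt(z) ⟪T z_i, z_j⟫ = 0` for skew `T`.
* `wk` : the `kc`-part of `wb(z, z)`; `half_Wq` : `(1/2)(1 + Γ) (Wq z z f) = vco (wk z) f` on `Γ f = f`.
* `e4_mean` : `∫ wt(z) • vco (wk z) f = 0`; `e4_half` : the same for `(1/2)(1 + Γ) (Wq z z f)`.
* `e4_bound` : `‖vco (wk z) f‖ ≤ C ‖z‖² ‖f‖`.
-/

set_option autoImplicit false
set_option linter.unusedSectionVars false

open MeasureTheory Filter Topology Crest.MathPhysics.MatrixQM
open scoped ContDiff InnerProductSpace ENNReal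

noncomputable section

namespace Crest.Agent.R330.E4L776

open Crest.Agent.R330.IBP837 Crest.Agent.R330.Defs478 Crest.Agent.R330.Frame839
  Crest.Agent.R330.LS839 Crest.Agent.R330.Clus839 Crest.Agent.R330.Bind6839
  Crest.Agent.R330.AX984 Crest.Agent.R330.SqrtPD984 Crest.Agent.R330.GPar984
  Crest.Agent.R330.GBind984 Crest.Agent.R330.E4776

variable {N : ℕ} {b : ColorBasis N} {c X : Cfg N}

theorem Zs_eq (b : ColorBasis N) (c : Cfg N) :
    Zs b c = (tenC (N := N)).ZZ (kc (actB b) c) (adX b c) := by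
  ext z
  rw [mem_Zs_iff, Ten.mem_ZZ]
  rfl

/-- commuting configurations with the same stabiliser algebra -/
theorem cross (hc : Comc b c) (hK : kc (actB b) X = kc (actB b) c) (i k : Fin 9)
    (u : Colg N) : adX b X i (adX b c k u) = adX b c k (adX b X i u) := by
  have h1 : comp c k ∈ kc (actB b) X := by
    rw [hK]
    exact self_mem_Uk hc k
  have h2 : adX b X i (comp c k) = 0 := (mem_kc_iff' b).1 h1 i
  rw [adX_apply, adX_apply, adX_apply, adX_apply, (colAlg b).jac]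
  rw [adX_apply] at h2
  rw [h2]
  simp

/-- invariance of the weight under joint eigenvector reflections -/
theorem rinv_lit (hc : Comc b c) (hX : Comc b X) (hK : kc (actB b) X = kc (actB b) c)
    (Φ : ℝ → ℝ → ℝ) {v : Colg N} (hv : JE (kc (actB b) c) (adX b X) (adX b c) v) :
    RInv tenC (Zs b c) (fun z => Φ ‖z‖ (QX b (kc (actB b) c) X z)) v := by
  obtain ⟨s, hs, h⟩ := fam_of_eq hX hK
  obtain ⟨s₀, hs₀, h₀⟩ := exists_fam b hc
  refine ⟨fun z hz => ?_, fun z hz hz' => ?_⟩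
  · rw [Zs_eq] at hz ⊢
    exact ZZ_rf tenC h₀ hs₀ hv.e2 hv.e3 hz
  · have h1 : ‖(⟨tenC.ten (rf v) z, hz'⟩ : Zs b c)‖ = ‖(⟨z, hz⟩ : Zs b c)‖ :=
      norm_ten_rf tenC hv.one z
    have h2 : QX b (kc (actB b) c) X (tenC.ten (rf v) z) = QX b (kc (actB b) c) X z := by
      unfold QX AXc
      rw [AX_rf tenC h hs hv.e1 hv.e3, tenC.inner_eq, tenC.inner_eq]
      refine Finset.sum_congr rfl fun i _ => ?_
      rw [tenC.pr_ten, tenC.pr_ten, rf_inner hv.one]
    simp only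
    rw [h1, h2]

theorem span_lit (hc : Comc b c) (hX : Comc b X) (hK : kc (actB b) X = kc (actB b) c)
    (Φ : ℝ → ℝ → ℝ) :
    Submodule.span ℝ {v : Colg N | ‖v‖ = 1 ∧
      RInv tenC (Zs b c) (fun z => Φ ‖z‖ (QX b (kc (actB b) c) X z)) v} = ⊤ := by
  obtain ⟨s, _, h⟩ := fam_of_eq hX hK
  obtain ⟨s₀, _, h₀⟩ := exists_fam b hc
  rw [eq_top_iff, ← span_JE h h₀ (cross hc hK)]
  exact Submodule.span_mono fun v hv => ⟨hv.one, rinv_lit hc hX hK Φ hv⟩

/-- **Mean zero of skew colour forms, literal.** -/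
theorem mean_skew_lit (hc : Comc b c) (hX : Comc b X) (hK : kc (actB b) X = kc (actB b) c)
    (Φ : ℝ → ℝ → ℝ) (μ : Measure (Zs b c)) [μ.IsAddHaarMeasure]
    (hm : AEStronglyMeasurable (fun z : Zs b c => Φ ‖z‖ (QX b (kc (actB b) c) X z)) μ)
    (hi : Integrable (fun z : Zs b c => Φ ‖z‖ (QX b (kc (actB b) c) X z) * ‖z‖ ^ 2) μ)
    {T : Colg N →L[ℝ] Colg N} (hT : ∀ u w, ⟪T u, w⟫_ℝ = -⟪u, T w⟫_ℝ) (i j : Fin 9) :
    ∫ z : Zs b c, Φ ‖z‖ (QX b (kc (actB b) c) X z) * ⟪T (comp z i), comp z j⟫_ℝ ∂μ = 0 :=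
  E4776.mean_skew (τ := tenC) hm hi (span_lit hc hX hK Φ) hT i j


/-! ## the light part of `wb(z, z)` -/

section fermions

variable {F : Type*} [NormedAddCommGroup F] [InnerProductSpace ℂ F] [FiniteDimensional ℂ F]

/-- the colour vector `wb(z, z')` -/
def wv (b : ColorBasis N) (G : GammaNine) (α β : Fin 16) (z z' : Cfg N) : Colg N :=
  WithLp.toLp 2 fun A => wb b G α β A z z'

/-- the `kc`-part of `wb(z, z)` -/
def wk (b : ColorBasis N) (G : GammaNine) (c : Cfg N) (α : Fin 16) (z : Cfg N) (β : Fin 16)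
    (A : Fin (N ^ 2 - 1)) : ℝ := (kc (actB b) c).starProjection (wv b G α β z z) A

/-- the off-diagonal part of `wb(z, z)` -/
def wm (b : ColorBasis N) (G : GammaNine) (c : Cfg N) (α : Fin 16) (z : Cfg N) (β : Fin 16)
    (A : Fin (N ^ 2 - 1)) : ℝ := (wv b G α β z z - (kc (actB b) c).starProjection (wv b G α β z z)) A

theorem wk_add_wm (b : ColorBasis N) (G : GammaNine) (c : Cfg N) (α : Fin 16) (z : Cfg N)
    (M : FermionRep N F) (f : F) :
    vco M (fun β A => wb b G α β A z z) f = vco M (wk b G c α z) f + vco M (wm b G c α z) f := by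
  rw [← LS839.vco_add]
  congr 2
  funext β A
  have h : (wv b G α β z z) A = wb b G α β A z z := rfl
  unfold wk wm
  rw [PiLp.sub_apply, h]
  ring

theorem wk_mem (M : FermionRep N F) (G : GammaNine) (α : Fin 16) (z : Cfg N) :
    vco M (wk b G c α z) ∈ Od M (kc (actB b) c) := by
  refine vco_mem M fun β => ?_
  have h : (WithLp.toLp 2 (wk b G c α z β) : Colg N) =
      (kc (actB b) c).starProjection (wv b G α β z z) := rfl
  rw [h]
  exact Submodule.starProjection_apply_mem _ _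

theorem wm_mem (M : FermionRep N F) (G : GammaNine) (α : Fin 16) (z : Cfg N) :
    vco M (wm b G c α z) ∈ Od M (kc (actB b) c)ᗮ := by
  refine vco_mem M fun β => ?_
  have h : (WithLp.toLp 2 (wm b G c α z β) : Colg N) =
      wv b G α β z z - (kc (actB b) c).starProjection (wv b G α β z z) := rfl
  rw [h]
  exact Submodule.sub_starProjection_mem_orthogonal _

/-- **the even half of `Wq z z f` is its light part** -/
theorem half_Wq {M : FermionRep N F} {Γ : F →ₗ[ℂ] F}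
    (h1 : ∀ L ∈ Od M (kc (actB b) c), ∀ f, Γ (L f) = L (Γ f))
    (h2 : ∀ L ∈ Od M (kc (actB b) c)ᗮ, ∀ f, Γ (L f) = - L (Γ f)) (G : GammaNine) (α : Fin 16)
    (z : Cfg N) {f : F} (hf : Γ f = f) :
    (1 / 2 : ℂ) • (vco M (fun β A => wb b G α β A z z) f +
      Γ (vco M (fun β A => wb b G α β A z z) f)) = vco M (wk b G c α z) f := by
  rw [wk_add_wm b G c α z M f, map_add, h1 _ (wk_mem M G α z), h2 _ (wm_mem M G α z), hf]
  module

/-- one component of the light part -/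
theorem wk_apply (b : ColorBasis N) (G : GammaNine) (c : Cfg N) (α : Fin 16) (z : Cfg N)
    (β : Fin 16) (A : Fin (N ^ 2 - 1)) :
    wk b G c α z β A = ∑ i, ∑ j, -(1 / 2 * G.γ2 i j α β) *
      ⟪(colAlg b).br ((kc (actB b) c).starProjection (EuclideanSpace.single A 1)) (comp z j),
        comp z i⟫_ℝ := by
  have h0 : wk b G c α z β A =
      ⟪(kc (actB b) c).starProjection (wv b G α β z z), (EuclideanSpace.single A 1 : Colg N)⟫_ℝ := by
    rw [real_inner_comm, EuclideanSpace.inner_single_left]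
    simp [wk]
  have h1 : wv b G α β z z = ∑ i, ∑ j, (1 / 2 * G.γ2 i j α β) •
      (colAlg b).br (comp z i) (comp z j) := wbv_eq b G α β z z
  rw [h0, sy_proj, h1, sum_inner]
  refine Finset.sum_congr rfl fun i _ => ?_
  rw [sum_inner]
  refine Finset.sum_congr rfl fun j _ => ?_
  rw [inner_smul_left, (colAlg b).inv, (colAlg b).anti (comp z j), inner_neg_right,
    real_inner_comm (comp z i)]
  simp only [conj_trivial]
  ring

/-- **(e4), mean zero of the light part of `wb(z, z)`.** -/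
theorem e4_mean (hc : Comc b c) (hX : Comc b X) (hK : kc (actB b) X = kc (actB b) c)
    (Φ : ℝ → ℝ → ℝ) (μ : Measure (Zs b c)) [μ.IsAddHaarMeasure]
    (hm : AEStronglyMeasurable (fun z : Zs b c => Φ ‖z‖ (QX b (kc (actB b) c) X z)) μ)
    (hi : Integrable (fun z : Zs b c => Φ ‖z‖ (QX b (kc (actB b) c) X z) * ‖z‖ ^ 2) μ)
    (M : FermionRep N F) (G : GammaNine) (α : Fin 16) (f : F) :
    ∫ z : Zs b c, Φ ‖z‖ (QX b (kc (actB b) c) X z) • vco M (wk b G c α z) f ∂μ = 0 := by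
  set wt : Zs b c → ℝ := fun z => Φ ‖z‖ (QX b (kc (actB b) c) X z) with hwt
  let T : Fin (N ^ 2 - 1) → Colg N →L[ℝ] Colg N := fun A => LinearMap.toContinuousLinearMap
    ((colAlg b).br ((kc (actB b) c).starProjection (EuclideanSpace.single A 1)))
  have hT : ∀ A u w, ⟪T A u, w⟫_ℝ = -⟪u, T A w⟫_ℝ := fun A u w => (colAlg b).skew _ _ _
  have hint : ∀ A i j, Integrable (fun z : Zs b c => wt z * ⟪T A (comp z j), comp z i⟫_ℝ) μ := by
    intro A i j
    have hc1 : ∀ k : Fin 9, Continuous fun z : Zs b c => comp (z : Cfg N) k := fun k =>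
      (rowL (N := N) k).continuous.comp continuous_subtype_val
    have hcont : Continuous fun z : Zs b c => ⟪T A (comp z j), comp z i⟫_ℝ :=
      ((T A).continuous.comp (hc1 j)).inner (hc1 i)
    have hle : ∀ (k : Fin 9) (z : Zs b c), ‖comp (z : Cfg N) k‖ ≤ ‖z‖ := by
      intro k z
      have h1 : ‖comp (z : Cfg N) k‖ ^ 2 ≤ ‖(z : Cfg N)‖ ^ 2 := by
        rw [norm_sq_comp (z : Cfg N)]
        exact Finset.single_le_sum (f := fun i => ‖comp (z : Cfg N) i‖ ^ 2)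
          (fun i _ => sq_nonneg _) (Finset.mem_univ k)
      exact (pow_le_pow_iff_left₀ (norm_nonneg _) (norm_nonneg _) two_ne_zero).1 h1
    refine (hi.const_mul ‖T A‖).mono (hm.mul hcont.aestronglyMeasurable)
      (ae_of_all _ fun z => ?_)
    have h1 : |⟪T A (comp z j), comp z i⟫_ℝ| ≤ ‖T A‖ * ‖z‖ * ‖z‖ :=
      (abs_real_inner_le_norm _ _).trans (mul_le_mul (((T A).le_opNorm _).trans
        (by gcongr; exact hle j z)) (hle i z) (norm_nonneg _) (by positivity))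
    have hwz : wt z = Φ ‖z‖ (QX b (kc (actB b) c) X z) := rfl
    rw [hwz, norm_mul, norm_mul, norm_mul, Real.norm_eq_abs, Real.norm_eq_abs,
      Real.norm_of_nonneg (norm_nonneg (T A)), Real.norm_of_nonneg (by positivity : 0 ≤ ‖z‖ ^ 2)]
    calc |Φ ‖z‖ (QX b (kc (actB b) c) X z)| * |⟪T A (comp z j), comp z i⟫_ℝ|
        ≤ |Φ ‖z‖ (QX b (kc (actB b) c) X z)| * (‖T A‖ * ‖z‖ * ‖z‖) := by gcongr
      _ = ‖T A‖ * (|Φ ‖z‖ (QX b (kc (actB b) c) X z)| * ‖z‖ ^ 2) := by ring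
  have e1 : ∀ z : Zs b c, wt z • vco M (wk b G c α z) f =
      ∑ A, ∑ β, (wt z * wk b G c α z β A) • M.θ β A f := by
    intro z
    unfold vco
    simp only [LinearMap.sum_apply, LinearMap.smul_apply, Finset.smul_sum]
    refine Finset.sum_congr rfl fun A _ => Finset.sum_congr rfl fun β _ => ?_
    rw [← Complex.coe_smul, ← Complex.coe_smul, smul_smul, Complex.ofReal_mul]
  have e2 : ∀ (A : Fin (N ^ 2 - 1)) (β : Fin 16) (z : Zs b c), wt z * wk b G c α z β A =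
      ∑ i, ∑ j, -(1 / 2 * G.γ2 i j α β) * (wt z * ⟪T A (comp z j), comp z i⟫_ℝ) := by
    intro A β z
    rw [wk_apply, Finset.mul_sum]
    refine Finset.sum_congr rfl fun i _ => ?_
    rw [Finset.mul_sum]
    refine Finset.sum_congr rfl fun j _ => ?_
    have : ⟪T A (comp z j), comp z i⟫_ℝ = ⟪(colAlg b).br ((kc (actB b) c).starProjection
      (EuclideanSpace.single A 1)) (comp z j), comp z i⟫_ℝ := rfl
    rw [this]
    ring
  have hint2 : ∀ A β, Integrable (fun z : Zs b c => wt z * wk b G c α z β A) μ := by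
    intro A β
    simp only [e2]
    exact integrable_finsetSum _ fun i _ => integrable_finsetSum _ fun j _ =>
      (hint A i j).const_mul _
  have e3 : ∀ A β, ∫ z : Zs b c, wt z * wk b G c α z β A ∂μ = 0 := by
    intro A β
    simp only [e2]
    rw [integral_finsetSum _ fun i _ => integrable_finsetSum _ fun j _ =>
      (hint A i j).const_mul _]
    refine Finset.sum_eq_zero fun i _ => ?_
    rw [integral_finsetSum _ fun j _ => (hint A i j).const_mul _]
    refine Finset.sum_eq_zero fun j _ => ?_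
    rw [integral_const_mul]
    have := mean_skew_lit hc hX hK Φ μ hm hi (hT A) j i
    rw [show ∫ z : Zs b c, wt z * ⟪T A (comp z j), comp z i⟫_ℝ ∂μ = 0 from this, mul_zero]
  change ∫ z : Zs b c, wt z • vco M (wk b G c α z) f ∂μ = 0
  simp only [e1]
  rw [integral_finsetSum _ fun A _ => integrable_finsetSum _ fun β _ =>
    (hint2 A β).smul_const _]
  refine Finset.sum_eq_zero fun A _ => ?_
  rw [integral_finsetSum _ fun β _ => (hint2 A β).smul_const _]
  refine Finset.sum_eq_zero fun β _ => ?_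
  rw [integral_smul_const, e3, zero_smul]



end fermions

end Crest.Agent.R330.E4L776

end
end

-- ▼ part R330/E4T_776
section

/-!
# Row 330, S8-PAIR, e4 in the names of `TDef_414` (helper776)

`e4_half_T` : for a chart centre `X0` and a point `X` (both regular), any submodule `Z` equal to
`C.Zt X0`, any weight `Φ ‖z‖ ⟪A z, z⟫` with `⟪A z, z⟫ = QX b C.kk (C.cf X) z` (e.g. `A = Afld C X`,
or `P.A X` through 288's identification): the even half of `Wq z z f` has mean zero.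
-/

set_option autoImplicit false
set_option linter.unusedSectionVars false

open MeasureTheory Filter Topology Crest.MathPhysics.MatrixQM
open scoped ContDiff InnerProductSpace ENNReal

noncomputable section

namespace Crest.Agent.R330.E4T776

open Crest.Agent.R330.IBP837 Crest.Agent.R330.Defs478 Crest.Agent.R330.Frame839
  Crest.Agent.R330.LS839 Crest.Agent.R330.Clus839 Crest.Agent.R330.Bind6839
  Crest.Agent.R330.GBind984 Crest.Agent.R330.E4L776 Crest.Agent.R330.TDef414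
  Crest.Agent.R330.AFld984

variable {N p : ℕ} {b : ColorBasis N} {S : Type} [Group S] [Fintype S] {C : Chn b p S}
  {F : Type*} [NormedAddCommGroup F] [InnerProductSpace ℂ F] [FiniteDimensional ℂ F]

theorem reg_kc {X : Pos p} (h : C.Reg X) : kc (actB b) (C.cf X) = C.kk := h

/-- **(e4) for the charts of `TDef_414`.** -/
theorem e4_mean_T {X0 X : Pos p} (h0 : C.Reg X0) (hX : C.Reg X) {Z : Submodule ℝ (Cfg N)}
    (hZ : Z = C.Zt X0) {A : Cfg N →L[ℝ] Cfg N}
    (hA : ∀ z ∈ Z, ⟪A z, z⟫_ℝ = QX b C.kk (C.cf X) z)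
    (Φ : ℝ → ℝ → ℝ) (μ : Measure Z) [μ.IsAddHaarMeasure]
    (hm : AEStronglyMeasurable (fun z : Z => Φ ‖z‖ ⟪A z, z⟫_ℝ) μ)
    (hi : Integrable (fun z : Z => Φ ‖z‖ ⟪A z, z⟫_ℝ * ‖z‖ ^ 2) μ)
    (M : FermionRep N F) (G : GammaNine) (α : Fin 16) (f : F) :
    ∫ z : Z, Φ ‖z‖ ⟪A z, z⟫_ℝ • vco M (wk b G (C.cf X0) α z) f ∂μ = 0 := by
  rw [Zt_eq C h0] at hZ
  subst hZ
  have hA' : ∀ z : Zs b (C.cf X0), ⟪A z, z⟫_ℝ = QX b (kc (actB b) (C.cf X0)) (C.cf X) z := by
    intro z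
    rw [hA z z.2, reg_kc h0]
  simp only [hA'] at hm hi ⊢
  exact e4_mean (comc_cf C X0) (comc_cf C X) ((reg_kc hX).trans (reg_kc h0).symm) Φ μ hm hi M G α f

/-- **(e4) for the charts of `TDef_414`, even half.** -/
theorem e4_half_T {X0 X : Pos p} (h0 : C.Reg X0) (hX : C.Reg X) {Z : Submodule ℝ (Cfg N)}
    (hZ : Z = C.Zt X0) {A : Cfg N →L[ℝ] Cfg N}
    (hA : ∀ z ∈ Z, ⟪A z, z⟫_ℝ = QX b C.kk (C.cf X) z)
    (Φ : ℝ → ℝ → ℝ) (μ : Measure Z) [μ.IsAddHaarMeasure]
    (hm : AEStronglyMeasurable (fun z : Z => Φ ‖z‖ ⟪A z, z⟫_ℝ) μ)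
    (hi : Integrable (fun z : Z => Φ ‖z‖ ⟪A z, z⟫_ℝ * ‖z‖ ^ 2) μ)
    {M : FermionRep N F} {Γ : F →ₗ[ℂ] F}
    (h1 : ∀ L ∈ Od M C.kk, ∀ f, Γ (L f) = L (Γ f))
    (h2 : ∀ L ∈ Od M C.kkᗮ, ∀ f, Γ (L f) = - L (Γ f)) (G : GammaNine) (α : Fin 16)
    {f : F} (hf : Γ f = f) :
    ∫ z : Z, Φ ‖z‖ ⟪A z, z⟫_ℝ •
      ((1 / 2 : ℂ) • (vco M (fun β A => wb b G α β A z z) f +
        Γ (vco M (fun β A => wb b G α β A z z) f))) ∂μ = 0 := by
  rw [← reg_kc h0] at h1 h2
  have e : ∀ z : Z, (1 / 2 : ℂ) • (vco M (fun β A => wb b G α β A z z) f +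
        Γ (vco M (fun β A => wb b G α β A z z) f)) = vco M (wk b G (C.cf X0) α z) f := fun z =>
    half_Wq h1 h2 G α z hf
  simp only [e]
  exact e4_mean_T h0 hX hZ hA Φ μ hm hi M G α f


end Crest.Agent.R330.E4T776

end
end

-- ▼ part R330/PairV_776
section

/-!
# Row 330, S8-PAIR: the vacuum component of the even errors, literal (helper776)

`q ∈ Sb`, `X = Xq σ q`: `PT P X (∫ z, gsT P σ g q z • err2 .. (q, z)) = 0`.

* `hw_T` : `⟪w, Γ f⟫ = ⟪w, f⟫` for `w ∈ VT P X`.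
* `wq_int`, `wq_zero` : integrability and mean zero of `(gs a₀) • evp Γ (Wq z z ψ)`.
* `vac_of` : the statement at `X ∈ BReg` from the frame identity; `frm` : the frame identity (288).
* `vac_T5` : the statement for every amplitude and every `q ∈ Sb`.
-/

set_option autoImplicit false
set_option linter.unusedSectionVars false

open MeasureTheory Filter Topology Crest.MathPhysics.MatrixQM
open scoped ContDiff InnerProductSpace ENNReal

noncomputable section

namespace Crest.Agent.R330.PairV776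

open Crest.Agent.R330.Defs478 Crest.Agent.R330.LS839 Crest.Agent.R330.Frame839
  Crest.Agent.R330.Clus839 Crest.Agent.R330.Bind6839 Crest.Agent.R330.TDef414
  Crest.Agent.R330.PairB547 Crest.Agent.R330.PairE547 Crest.Agent.R330.PairL_862
  Crest.Agent.R330.PairT714 Crest.Agent.R330.T5G151 Crest.Agent.R330.PairI658
  Crest.Agent.R330.GBind984
open LightC916 (rhoE rhoS om)

variable {N p : ℕ} {b : ColorBasis N} {S : Type} [Group S] [Fintype S] {C : Chn b p S}
  {F : Type*} [NormedAddCommGroup F] [InnerProductSpace ℂ F] [FiniteDimensional ℂ F]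
  {M : FermionRep N F} {R : GaugeAction b M} {G : GammaNine}

/-! ## The parity -/

/-- the parity is `1` against the heavy vacua -/
theorem hw_T (P : TPack C M R G) {σ : Sl C} {Γ : F →ₗ[ℂ] F} (hΓ : ParT M G σ Γ) {X : Pos p}
    (hX : C.BReg X) {w : F} (hw : w ∈ VT P X) (f : F) : ⟪w, Γ f⟫_ℂ = ⟪w, f⟫_ℂ := by
  obtain ⟨f', hf', rfl⟩ := hw
  have h1 : Γ (P.U X f') = P.U X f' := PairU714.ParT.vac hΓ P hX hf'
  show ⟪P.U X f', Γ f⟫_ℂ = ⟪P.U X f', f⟫_ℂ
  rw [← hΓ.par.symm, h1]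

/-! ## The quadratic potential -/

theorem gs_aL (P : TPack C M R G) (σ : Sl C) {g : ℝ} {q : LL σ}
    (hq : q ∈ Sb σ (Tup C.kk)) (z : ZZ σ) :
    PairT714.gsT P σ g q z * aL P σ (Tup C.kk) (C.Zt σ.X0) g (q, z) =
      Real.sqrt (jX σ (Xq σ q)) * PairT714.gsT P σ g q z ^ 2 := by
  have h1 := cfT_Sb σ hq
  have hr := σ.pos
  have h2 := aL_eq_gsT P σ (Tup C.kk) (C.Zt σ.X0) g (x := (q, z))
    (h1.trans (by linarith))
  rw [h2]
  show PairT714.gsT P σ g q z * (Real.sqrt (jX σ (Xq σ q)) * PairT714.gsT P σ g q z) = _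
  ring

/-- second moments of the squared Gaussian -/
theorem int_gs_sq_norm (P : TPack C M R G) (σ : Sl C) {g : ℝ} (hg : 0 < g) {q : LL σ}
    (hq : q ∈ Sb σ (Tup C.kk)) :
    Integrable (fun z : ZZ σ => PairT714.gsT P σ g q z ^ 2 * ‖z‖ ^ 2) := by
  have hr := σ.pos
  have h1 := cfT_Sb σ hq
  obtain ⟨K, -, hK⟩ := aG_mom P σ (ρ := σ.r / 2) (by linarith) 1
  have hX : ‖Xq σ q - σ.X0‖ ≤ σ.r / 2 := by
    unfold Xq
    rw [add_sub_cancel_left]
    linarith
  have h2 := (hK (Xq σ q) hX g hg).1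
  have hj := jX_pos σ (Xq_lt σ hq)
  have h3 := h2.const_mul (g * jX σ (Xq σ q))⁻¹
  refine h3.congr (ae_of_all _ fun z => ?_)
  simp only
  rw [aG_eq_gsT P σ (Xq σ q) hj.le, pow_one, mul_pow, Real.sq_sqrt hj.le]
  show _ = PairT714.gsT P σ g q z ^ 2 * ‖z‖ ^ 2
  rw [gsT_714]
  have hg' := hg.ne'
  have hj' := hj.ne'
  field_simp

theorem norm_WqL_le (b : ColorBasis N) (M : FermionRep N F) (G : GammaNine) : ∃ K : ℝ, 0 < K ∧
    ∀ α x f, ‖WqL b M G α x x f‖ ≤ K * ‖x‖ ^ 2 * ‖f‖ := by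
  obtain ⟨K, hK, hC⟩ := cstI b M G
  refine ⟨K, hK, fun α x f => ((hC α).Wq x x f).trans (le_of_eq ?_)⟩
  ring

theorem wq_int (P : TPack C M R G) (σ : Sl C) {Γ : F →ₗ[ℂ] F} (hΓ : ParT M G σ Γ) {g : ℝ}
    (hg : 0 < g) {q : LL σ} (hq : q ∈ Sb σ (Tup C.kk)) (α : Fin 16) (f : F) :
    Integrable (fun z : ZZ σ => (PairT714.gsT P σ g q z *
      aL P σ (Tup C.kk) (C.Zt σ.X0) g (q, z)) • evp Γ (WqL b M G α (z : Cfg N) z f)) := by
  obtain ⟨K, hK, hW⟩ := norm_WqL_le b M G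
  have h1 := (int_gs_sq_norm P σ hg hq).const_mul (Real.sqrt (jX σ (Xq σ q)) * (K * ‖f‖))
  refine h1.mono' ?_ (ae_of_all _ fun z => ?_)
  · have hc1 : Continuous fun z : ZZ σ => PairT714.gsT P σ g q z *
        aL P σ (Tup C.kk) (C.Zt σ.X0) g (q, z) := by
      simp only [gs_aL P σ hq]
      have hc0 : Continuous fun z : ZZ σ => PairT714.gsT P σ g q z :=
        (continuous_gsT P σ g (Xq σ q)).comp continuous_subtype_val
      exact continuous_const.mul (hc0.pow 2)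
    have hc2 : Continuous fun z : ZZ σ => WqL b M G α (z : Cfg N) z f :=
      continuous_WqL b M G α continuous_subtype_val continuous_subtype_val continuous_const
    have hc3 : Continuous fun z : ZZ σ => evp Γ (WqL b M G α (z : Cfg N) z f) := by
      unfold evp
      exact (hc2.add (Γ.continuous_of_finiteDimensional.comp hc2)).const_smul _
    exact (hc1.smul hc3).aestronglyMeasurable
  · rw [norm_smul, gs_aL P σ hq, Real.norm_of_nonneg (by positivity)]
    have h2 : ‖evp Γ (WqL b M G α (z : Cfg N) z f)‖ ≤ K * ‖z‖ ^ 2 * ‖f‖ :=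
      (norm_evp_le (fun f => (hΓ.par.norm f).le) _).trans (hW α z f)
    calc Real.sqrt (jX σ (Xq σ q)) * PairT714.gsT P σ g q z ^ 2 *
        ‖evp Γ (WqL b M G α (z : Cfg N) z f)‖ ≤
        Real.sqrt (jX σ (Xq σ q)) * PairT714.gsT P σ g q z ^ 2 * (K * ‖z‖ ^ 2 * ‖f‖) := by
          gcongr
      _ = _ := by ring

/-- **the quadratic potential has mean zero** -/
theorem wq_zero [Nontrivial F] (P : TPack C M R G) (σ : Sl C) {Γ : F →ₗ[ℂ] F}
    (hΓ : ParT M G σ Γ) {g : ℝ} (hg : 0 < g) {q : LL σ} (hq : q ∈ Sb σ (Tup C.kk))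
    (hX : C.BReg (Xq σ q)) (α : Fin 16) {f : F} (hf : Γ f = f) :
    ∫ z : ZZ σ, (PairT714.gsT P σ g q z *
      aL P σ (Tup C.kk) (C.Zt σ.X0) g (q, z)) • evp Γ (WqL b M G α (z : Cfg N) z f) = 0 := by
  have h0 : C.Reg σ.X0 := BrT5658.reg0 σ
  have hA : ∀ z ∈ C.Zt σ.X0, ⟪P.A (Xq σ q) z, z⟫_ℝ = QX b C.kk (C.cf (Xq σ q)) z := by
    intro z _
    rw [VacT288.A_eq' P hX]
    rfl
  set Φ : ℝ → ℝ → ℝ := fun _ t => Real.sqrt (jX σ (Xq σ q)) *
    (Real.exp (-(g / 2 * t)) / Real.sqrt (nI P σ g (Xq σ q))) ^ 2 with hΦ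
  have e1 : ∀ z : ZZ σ, PairT714.gsT P σ g q z *
      aL P σ (Tup C.kk) (C.Zt σ.X0) g (q, z) = Φ ‖z‖ ⟪P.A (Xq σ q) z, z⟫_ℝ := fun z => by
    rw [gs_aL P σ hq]
    rfl
  have e2 : ∀ z : ZZ σ, evp Γ (WqL b M G α (z : Cfg N) z f) =
      (1 / 2 : ℂ) • (IBP837.vco M (fun β A => wb b G α β A z z) f +
        Γ (IBP837.vco M (fun β A => wb b G α β A z z) f)) := fun z => by
    unfold evp
    rw [WqL_apply, ← Complex.coe_smul]
    norm_num
  have hc : Continuous fun z : ZZ σ => Φ ‖z‖ ⟪P.A (Xq σ q) z, z⟫_ℝ := by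
    rw [hΦ]
    fun_prop
  have hi : Integrable fun z : ZZ σ => Φ ‖z‖ ⟪P.A (Xq σ q) z, z⟫_ℝ * ‖z‖ ^ 2 := by
    refine ((int_gs_sq_norm P σ hg hq).const_mul (Real.sqrt (jX σ (Xq σ q)))).congr
      (ae_of_all _ fun z => ?_)
    simp only
    rw [← e1, gs_aL P σ hq]
    ring
  simp only [e1, e2]
  refine E4T776.e4_half_T h0 hX.reg rfl hA Φ volume hc.aestronglyMeasurable hi ?_ ?_ G α hf
  · intro L hL f
    refine hΓ.par.even L ?_ f
    rwa [E4T776.reg_kc h0]
  · intro L hL f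
    refine hΓ.par.odd L ?_ f
    rwa [E4T776.reg_kc h0]

/-! ## The statement -/

section main

variable {ι η : Type*} [Fintype ι] [Fintype η]

/-- the frame identity at `q` (288) -/
def Frm (P : TPack C M R G) (σ : Sl C) (α : Fin 16)
    (eT : OrthonormalBasis η ℝ (Tn (actB b) (C.cf σ.X0)))
    (u : OrthonormalBasis ι ℝ (LL σ)) (q : LL σ) : Prop :=
  ∀ w ∈ VT P (Xq σ q), ∀ f ∈ VT P (Xq σ q),
    ⟪w, (∑ s, (-Complex.I) • ThL M G α (u s) ((Real.sqrt (jX σ (Xq σ q)) *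
        ((2 * jX σ (Xq σ q))⁻¹ * fderiv ℝ (jX σ) (Xq σ q) (C.cfT (u s)))) • f)) +
      Real.sqrt (jX σ (Xq σ q)) • ∑ t, (-Complex.I) • BfL b M
        (Frame839.om (actB b) (C.cf σ.X0) (C.cf σ.X0 + PXI C (Tup C.kk) q) (eT t))
          (ThL M G α (eT t) f)⟫_ℂ = 0

/-- **(v) at a regular point from the frame identity.** -/
theorem vac_of [Nontrivial F] (P : TPack C M R G) (σ : Sl C) {Γ : F →ₗ[ℂ] F}
    (hΓ : ParT M G σ Γ) {g : ℝ} (hg : 0 < g) {q : LL σ} (hq : q ∈ Sb σ (Tup C.kk))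
    (hX : C.BReg (Xq σ q)) (α : Fin 16) (χ : Pos p → C.Fx M G)
    (eT : OrthonormalBasis η ℝ (Tn (actB b) (C.cf σ.X0))) (u : OrthonormalBasis ι ℝ (LL σ))
    (h3 : Frm P σ α eT u q) :
    PT P (Xq σ q) (∫ z : ZZ σ, PairT714.gsT P σ g q z • err2 (ThL M G α) (WqL b M G α)
      (BfL b M) Γ (PXI C (Tup C.kk)) eT u g (aL P σ (Tup C.kk) (C.Zt σ.X0) g)
      (fun q => om P σ.X0 g χ q) (fun q => rhoE P σ.X0 g α χ q) (q, z)) = 0 := by
  refine proj_zero_of_inner fun w hw => ?_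
  obtain ⟨f, hf, hψ⟩ := om_vac P σ.X0 g χ (q : Cfg N)
  have hψV : om P σ.X0 g χ (q : Cfg N) ∈ VT P (Xq σ q) := ⟨f, hf, hψ.symm⟩
  have hΓψ : Γ (om P σ.X0 g χ (q : Cfg N)) = om P σ.X0 g χ (q : Cfg N) := by
    rw [hψ]
    exact PairU714.ParT.vac hΓ P hX hf
  refine vac_abs (ThL M G α) (WqL b M G α) (BfL b M) (PXI C (Tup C.kk)) eT u g
    (hw_T P hΓ hX hw) (fun s => (vac_dT5 P σ hg hq (u s)).1)
    (fun s => (vac_dT5 P σ hg hq (u s)).2) (int_gs_aT5 P σ hg hq).1 (int_gs_aT5 P σ hg hq).2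
    (h3 w hw _ hψV) (wq_int P σ hΓ hg hq α _) ?_ ?_
  · rw [wq_zero P σ hΓ hg hq hX α hΓψ, inner_zero_right]
  · obtain ⟨f', hf', rfl⟩ := hw
    exact LightC916.berry_zero P σ.X0 g α χ q hX hf'

/-- At a point where the amplitude vanishes. -/
theorem vac_zero (P : TPack C M R G) (σ : Sl C) (Γ : F →ₗ[ℂ] F) (g : ℝ) {q : LL σ}
    (α : Fin 16) {χ : Pos p → C.Fx M G} (h : χ (Xq σ q) = 0)
    (eT : OrthonormalBasis η ℝ (Tn (actB b) (C.cf σ.X0))) (u : OrthonormalBasis ι ℝ (LL σ))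
    (z : ZZ σ) :
    err2 (ThL M G α) (WqL b M G α)
      (BfL b M) Γ (PXI C (Tup C.kk)) eT u g (aL P σ (Tup C.kk) (C.Zt σ.X0) g)
      (fun q => om P σ.X0 g χ q) (fun q => rhoE P σ.X0 g α χ q) (q, z) = 0 := by
  have h1 : om P σ.X0 g χ (q : Cfg N) = 0 := om_zero P σ.X0 g h
  have h2 : rhoE P σ.X0 g α χ (q : Cfg N) = 0 := by
    unfold rhoE
    have h3 : χ (σ.X0 + C.cfT q) = 0 := h
    rw [h3]
    simp
  unfold err2 EV MX evp
  simp only [h1, h2, smul_zero, map_zero, Finset.sum_const_zero, add_zero]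

/-- The frame identity (288). -/
theorem frm [Nontrivial F] (P : TPack C M R G) (σ : Sl C) (α : Fin 16)
    (eT : OrthonormalBasis η ℝ (Tn (actB b) (C.cf σ.X0)))
    (u : OrthonormalBasis ι ℝ (LL σ)) {q : LL σ} (hq : q ∈ Sb σ (Tup C.kk))
    (hX : C.BReg (Xq σ q)) : Frm P σ α eT u q := by
  intro w hw f hf
  rw [VacP288.VT_eq P hX] at hw hf
  exact VacP288.h3 σ hq hf hw α eT u

/-- **(v)**: the vacuum component of the even errors of order one is zero. -/
theorem vac_T5 [Nontrivial F] (P : TPack C M R G) (σ : Sl C) {Γ : F →ₗ[ℂ] F}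
    (hΓ : ParT M G σ Γ) {g : ℝ} (hg : 0 < g) (α : Fin 16) (χ : Amp M G σ)
    (eT : OrthonormalBasis η ℝ (Tn (actB b) (C.cf σ.X0))) (u : OrthonormalBasis ι ℝ (LL σ))
    {q : LL σ} (hq : q ∈ Sb σ (Tup C.kk)) :
    PT P (Xq σ q) (∫ z : ZZ σ, PairT714.gsT P σ g q z • err2 (ThL M G α) (WqL b M G α)
      (BfL b M) Γ (PXI C (Tup C.kk)) eT u g (aL P σ (Tup C.kk) (C.Zt σ.X0) g)
      (fun q => om P σ.X0 g χ.fn q) (fun q => rhoE P σ.X0 g α χ.fn q) (q, z)) = 0 := by
  by_cases hX : Xq σ q ∈ tsupport χ.fn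
  · exact vac_of P σ hΓ hg hq (χ.off _ hX) α χ.fn eT u (frm P σ α eT u hq (χ.off _ hX))
  · have h0 : χ.fn (Xq σ q) = 0 := image_eq_zero_of_notMem_tsupport hX
    simp only [vac_zero P σ Γ g α h0 eT u, smul_zero, integral_zero, map_zero]

end main

end Crest.Agent.R330.PairV776

end
end

-- ▼ part R330/TestA_350
section

/-!
# Row 330, T5-TEST (helper350), part A: the test function of a core vector

Slice coordinates `x = (u, z) ∈ Sc b c`, `Φ = half b c η φ`.

* `exists_cut` : the cut-off `η`.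
* `contDiff_half`, `hcs_half`, `memLp_half`, `half_zero`.
* `adm_of` : 714's `Adm` from 342's `Out` and the fibre inequality (F2).
-/

set_option autoImplicit false
set_option linter.unusedSectionVars false

open MeasureTheory Filter Topology Crest.MathPhysics.MatrixQM Set
open Crest.Agent.R330.Defs478 Crest.Agent.R330.Frame839
open Crest.Agent.R330.LS839 Crest.Agent.R330.Clus839 Crest.Agent.R330.Bind6839
open Crest.Agent.R330.LemA342 Crest.Agent.R330.LemC342 Crest.Agent.R330.SlQE87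
open Crest.Agent.R330.PairD714
open scoped ContDiff InnerProductSpace ENNReal

noncomputable section

namespace Crest.Agent.R330.TestA350

variable {N : ℕ} {b : ColorBasis N} {c : Cfg N}
  {F : Type*} [NormedAddCommGroup F] [InnerProductSpace ℂ F] [FiniteDimensional ℂ F]
  {M : FermionRep N F} {G : GammaNine}

/-- the cut-off on the slice -/
theorem exists_cut (b : ColorBasis N) (c : Cfg N) {s s' : ℝ} (hs : 0 < s) (hs' : s < s') :
    ∃ η : Sc b c → ℝ, ContDiff ℝ ∞ η ∧ HasCompactSupport η ∧ (∀ x, 0 ≤ η x) ∧ (∀ x, η x ≤ 1) ∧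
      (∀ x, ‖x.1‖ ^ 2 + ‖x.2‖ ^ 2 ≤ s ^ 2 → η x = 1) ∧
      (∀ x, s' ^ 2 ≤ ‖x.1‖ ^ 2 + ‖x.2‖ ^ 2 → η x = 0) := by
  have hd : 0 < s' ^ 2 - s ^ 2 := by nlinarith
  let f : Sc b c → ℝ := fun x => (s' ^ 2 - (‖x.1‖ ^ 2 + ‖x.2‖ ^ 2)) / (s' ^ 2 - s ^ 2)
  have hf : ContDiff ℝ ∞ f := by
    refine ContDiff.div_const (contDiff_const.sub ?_) _
    exact (contDiff_fst.norm_sq ℝ).add (contDiff_snd.norm_sq ℝ)
  refine ⟨fun x => Real.smoothTransition (f x), Real.smoothTransition.contDiff.comp hf, ?_,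
    fun x => Real.smoothTransition.nonneg _, fun x => Real.smoothTransition.le_one _,
    fun x hx => ?_, fun x hx => ?_⟩
  · refine HasCompactSupport.of_support_subset_isCompact
      (isCompact_closedBall (0 : Sc b c) s') fun x hx => ?_
    rw [Metric.mem_closedBall, dist_zero_right]
    by_contra hx'
    rw [not_le] at hx'
    refine hx (Real.smoothTransition.zero_of_nonpos ?_)
    refine div_nonpos_of_nonpos_of_nonneg ?_ hd.le
    rw [Prod.norm_def, lt_sup_iff] at hx'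
    rcases hx' with h | h
    · nlinarith [norm_nonneg x.1, sq_nonneg ‖x.2‖]
    · nlinarith [norm_nonneg x.2, sq_nonneg ‖x.1‖]
  · refine Real.smoothTransition.one_of_one_le ?_
    rw [le_div_iff₀ hd]
    linarith
  · refine Real.smoothTransition.zero_of_nonpos ?_
    exact div_nonpos_of_nonpos_of_nonneg (by linarith) hd.le

section half

variable {η : Sc b c → ℝ} {φ : Cfg N → F}

theorem contDiff_half {n : WithTop ℕ∞} (hη : ContDiff ℝ n η) (hφ : ContDiff ℝ n φ) :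
    ContDiff ℝ n (half b c η φ) := by
  unfold half
  refine hη.smul (hφ.comp ?_)
  have : (fun x : Sc b c => c + (x.1 : Cfg N) + (x.2 : Cfg N)) = fun x => c + slL b c x := by
    funext x
    rw [slL_apply, add_assoc]
  rw [this]
  exact contDiff_const.add (slL b c).contDiff

theorem hcs_half (hη : HasCompactSupport η) : HasCompactSupport (half b c η φ) := by
  refine hη.mono fun x hx => ?_
  intro h0
  apply hx
  show η x • φ _ = 0
  rw [h0, zero_smul]

theorem half_zero {x : Sc b c} (h : η x = 0) : half b c η φ x = 0 := by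
  show η x • φ _ = 0
  rw [h, zero_smul]

theorem half_one {x : Sc b c} (h : η x = 1) : half b c η φ x = φ (c + x.1 + x.2) := by
  show η x • φ _ = _
  rw [h, one_smul]


end half

/-! ### Admissibility -/

section adm

variable {ι κ κ' : Type*} [Fintype ι] [Fintype κ] [Fintype κ']

/-- the fibre projection in the form of 714 -/
def Pr (gs : Uk b c → Zs b c → ℝ) (P : Uk b c → F →L[ℂ] F) (u : Uk b c) (f : Zs b c → F)
    (z : Zs b c) : F := gs u z • P u (∫ z', gs u z' • f z')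

/-- **(F2)** on the fibres `c + u`, `‖u‖ ≤ ρ`, in the form of 714. -/
def F2 (M : FermionRep N F) (G : GammaNine) (v : OrthonormalBasis κ ℝ (Zs b c))
    (t : OrthonormalBasis κ' ℝ (Tn (actB b) c)) (gs : Uk b c → Zs b c → ℝ)
    (P : Uk b c → F →L[ℂ] F) (y : Uk b c → ℝ) (ρ g K : ℝ) : Prop :=
  ∀ u : Uk b c, ‖u‖ ≤ ρ → ∀ f : Zs b c → F, ContDiff ℝ 2 f → HasCompactSupport f →
    g * ∫ z, ‖f z - Pr gs P u f z‖ ^ 2 ≤
      K * ((∑ α, ∫ z, ‖Bfib b c M G g α v t (c + u) f z‖ ^ 2) +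
        y u ^ 2 * (g * ∫ z, ‖f z‖ ^ 2))

theorem adm_of {r B ρ g m K E : ℝ} (hr0 : 0 < r) (hr : GapAt (actB b) c r)
    (hB : ActBound (actB b) B) (hρ : B * ρ ≤ r / 2) (hB0 : 0 ≤ B) (hK : 0 ≤ K)
    {Γ : F →ₗ[ℂ] F} {e : OrthonormalBasis ι ℝ (Uk b c)} {v : OrthonormalBasis κ ℝ (Zs b c)}
    {t : OrthonormalBasis κ' ℝ (Tn (actB b) c)} {gs : Uk b c → Zs b c → ℝ}
    {P : Uk b c → F →L[ℂ] F} {y : Uk b c → ℝ} (hF : F2 M G v t gs P y ρ g K)
    {Φ : Sc b c → F} (hΦ : ContDiff ℝ 2 Φ) (hc : HasCompactSupport Φ)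
    (h0 : ∀ x : Sc b c, ρ < ‖x.1‖ → Φ x = 0)
    (hO : Out (volume.prod volume) M G Γ e v t g m Φ E) (S : Set (Uk b c)) :
    Adm volume volume S gs P Γ y (Real.sqrt K) g Φ ((1 + K) * E) := by
  have hE : 0 ≤ E := (integral_nonneg fun x => by positivity).trans hO.s0
  have hE1 : E ≤ (1 + K) * E := by nlinarith [mul_nonneg hK hE]
  obtain ⟨i1, i2⟩ := integrable_en (μU := volume) (μZ := volume) (M := M) (G := G) (v := v)
    (t := t) (g := g) (K := K) hr0 hr hB hρ hB0 (hΦ.of_le (by norm_num)) hc h0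
  refine ⟨hΦ.continuous.memLp_of_hasCompactSupport hc, hO.s0.trans hE1, hO.s1.trans hE1,
    en volume M G v t g K Φ, en_nonneg hK Φ, i1, ?_, Eventually.of_forall fun u _ => ?_⟩
  · rw [i2]
    have := mul_le_mul_of_nonneg_left hO.sB hK
    nlinarith
  · unfold F2 at hF
    refine (h2_of (μZ := volume) (M := M) (G := G) (v := v) (t := t) (ρ := ρ) (g := g)
      (Pr := Pr gs P) (d := y) (fun u z => ?_) hK hF hΦ hc h0 u)
    unfold Pr
    simp

end adm

end Crest.Agent.R330.TestA350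

end
end

-- ▼ part R330/TestB_350
section

/-!
# Row 330, T5-TEST (helper350), part B: `TestAt`

* `pr_eq` : 714's fibre projection is 149's `PrK` with the literal Gaussian and projection.
* `f2_of` : (F2) in the form of 714.
* `testAt` : at every `X0 ∈ BReg`, for all small charts: `PairT714.TestAt P σ`.
-/

set_option autoImplicit false
set_option linter.unusedSectionVars false
set_option maxSynthPendingDepth 3

open MeasureTheory Filter Topology Crest.MathPhysics.MatrixQM Set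
open Crest.Agent.R330.Defs478 Crest.Agent.R330.Frame839
open Crest.Agent.R330.LS839 Crest.Agent.R330.Clus839 Crest.Agent.R330.Bind6839
open Crest.Agent.R330.LemA342 Crest.Agent.R330.LemB342 Crest.Agent.R330.LemC342
open Crest.Agent.R330.LemP342 Crest.Agent.R330.LemRe149
open Crest.Agent.R330.SlQE87 Crest.Agent.R330.TDef414 Crest.Agent.R330.PairD714
open Crest.Agent.R330.PairT714 Crest.Agent.R330.TrialSys796 Crest.Agent.R330.GBind984
open Crest.Agent.R330.Fib892 Crest.Agent.R330.FactI161 Crest.Agent.R330.Transp491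
open Crest.Agent.R330.TestA350
open scoped ContDiff InnerProductSpace ENNReal

noncomputable section

namespace Crest.Agent.R330.TestB350

variable {N p : ℕ} {b : ColorBasis N} {S : Type} [Group S] [Fintype S] {C : Chn b p S}
  {F : Type*} [NormedAddCommGroup F] [InnerProductSpace ℂ F] [FiniteDimensional ℂ F]
  {M : FermionRep N F} {G : GammaNine} {R : GaugeAction b M}

theorem integral_sub_congr {Z Z' : Submodule ℝ (Cfg N)} (h : Z = Z') (f : Cfg N → ℝ) :
    ∫ z : Z, f z = ∫ z : Z', f z := by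
  subst h
  rfl

/-- the projection -/
theorem PT_eq [Nontrivial F] (P : TPack C M R G) {X : Pos p} (hX : C.BReg X) (f : F) :
    PT P X f = (cr M).proj (Jl b G C.kk (C.cf X)) f :=
  star_eq P hX.reg (VT P X) (fun f => mem_range_U P hX f) f

/-- the fibre projection -/
theorem pr_eq [Nontrivial F] (P : TPack C M R G) (σ : Sl C) {g : ℝ} (u : Uk b (C.cf σ.X0))
    (hX : C.BReg (Xq σ u)) (f : Zs b (C.cf σ.X0) → F) (z : Zs b (C.cf σ.X0)) :
    Pr (gsT P σ g) (fun q => PT P (Xq σ q)) u f z =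
      PrK (Zs b (C.cf σ.X0)) (gam b (C.cf σ.X0) g u) (Lp b (C.cf σ.X0) M G (tenS N) u) f z := by
  have h0 : C.Reg σ.X0 := BrT5658.reg0 σ
  have hk : kc (actB b) (C.cf σ.X0) = C.kk := h0
  have hXu : Xu b (C.cf σ.X0) u = C.cf (Xq σ u) := Xu_cf h0 u
  have hg : ∀ z : Cfg N, gam b (C.cf σ.X0) g u z =
      Real.exp (-(g / 2 * ⟪P.A (Xq σ u) z, z⟫_ℝ)) := by
    intro z
    unfold gam
    rw [hXu, hk, QX_reg P hX.reg, neg_mul]
  have hI : ∫ y : Zs b (C.cf σ.X0), gam b (C.cf σ.X0) g u y ^ 2 = nI P σ g (Xq σ u) := by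
    unfold nI
    rw [integral_sub_congr (LitA974.Zs_cf C h0) (fun y => gam b (C.cf σ.X0) g u y ^ 2)]
    refine integral_congr_ae (Eventually.of_forall fun y => ?_)
    simp only
    rw [hg, ← Real.exp_nat_mul]
    congr 1
    push_cast
    ring
  have hL : ∀ w, PT P (Xq σ u) w = Lp b (C.cf σ.X0) M G (tenS N) u w := by
    intro w
    rw [PT_eq P hX]
    unfold LemRe149.Lp
    rw [hXu, hk]
    rfl
  unfold Pr PrK
  simp only [hI, ← hL]
  set I := nI P σ g (Xq σ u) with hIdef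
  have hI0 : 0 ≤ I := by
    rw [hIdef]
    unfold nI
    exact integral_nonneg fun y => (Real.exp_pos _).le
  have e1 : ∀ z' : Zs b (C.cf σ.X0), gsT P σ g u z' • f z' =
      (√I)⁻¹ • (gam b (C.cf σ.X0) g u z' • f z') := by
    intro z'
    unfold gsT
    rw [smul_smul, hg, ← hIdef, div_eq_mul_inv, mul_comm]
  simp only [e1]
  rw [integral_smul]
  set J := ∫ z' : Zs b (C.cf σ.X0), gam b (C.cf σ.X0) g u z' • f z' with hJ
  have e2 : PT P (Xq σ u) ((√I)⁻¹ • J) = (√I)⁻¹ • PT P (Xq σ u) J := by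
    rw [← Complex.coe_smul, map_smul, Complex.coe_smul]
  rw [e2, smul_smul]
  congr 1
  unfold gsT
  rw [hg, ← hIdef]
  rw [div_mul_eq_mul_div, ← div_eq_mul_inv, div_div, Real.mul_self_sqrt hI0]

/-- **(F2)** in the form of 714. -/
theorem f2_of [Nontrivial F] (P : TPack C M R G) (σ : Sl C) {κ κ' : Type} [Fintype κ]
    [Fintype κ'] {v : OrthonormalBasis κ ℝ (Zs b (C.cf σ.X0))}
    {t : OrthonormalBasis κ' ℝ (Tn (actB b) (C.cf σ.X0))} {ρ g K : ℝ}
    (hρ : ∀ X, ‖X - σ.X0‖ ≤ ρ → C.BReg X)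
    (h : F2u b (C.cf σ.X0) M G v t g ρ K (gam b (C.cf σ.X0) g)
      (Lp b (C.cf σ.X0) M G (tenS N)) (du b (C.cf σ.X0))) :
    F2 M G v t (gsT P σ g) (fun q => PT P (Xq σ q)) (fun q => ‖C.PY q‖) ρ g K := by
  intro u hu f hf hc
  have h0 : C.Reg σ.X0 := BrT5658.reg0 σ
  have hX : C.BReg (Xq σ u) := by
    refine hρ _ ?_
    unfold Xq
    rw [add_sub_cancel_left]
    exact (LitA974.norm_cfT_le C (u : Cfg N)).trans hu
  have h1 := h u hu f hf hc
  rw [du_cf h0] at h1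
  simp only [pr_eq P σ u hX]
  exact h1

/-- monotonicity in the constant -/
theorem adm_mono {U Z : Type*} [MeasurableSpace U] [MeasurableSpace Z] [NormedAddCommGroup Z]
    {μ : Measure U} {ν : Measure Z} {S : Set U} {gs : U → Z → ℝ} {P : U → F →L[ℂ] F}
    {Γ : F →ₗ[ℂ] F} {y : U → ℝ} (hy : ∀ u, 0 ≤ y u) {K K' g E E' : ℝ} (hg : 0 ≤ g) (hK0 : 0 ≤ K)
    (hK : K ≤ K') (hE : E ≤ E') {Φ : U × Z → F} (h : Adm μ ν S gs P Γ y K g Φ E) :
    Adm μ ν S gs P Γ y K' g Φ E' := by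
  obtain ⟨en, h1, h2, h3, h4⟩ := h.b2
  refine ⟨h.mem, h.b0.trans hE, h.b1.trans hE, en, h1, h2, h3.trans hE, ?_⟩
  filter_upwards [h4] with u hu huS
  refine (hu huS).trans ?_
  have h5 : 0 ≤ ∫ z, ‖Φ (u, z)‖ ^ 2 ∂ν := integral_nonneg fun z => sq_nonneg _
  have h6 : K * y u ≤ K' * y u := mul_le_mul_of_nonneg_right hK (hy u)
  have h7 : 0 ≤ K * y u := mul_nonneg hK0 (hy u)
  gcongr

/-- **T5-TEST.** -/
theorem testAt [Nontrivial F] (P : TPack C M R G) {X0 : Pos p} (hX0 : C.BReg X0) :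
    ∃ δ : ℝ, 0 < δ ∧ ∀ σ : Sl C, σ.X0 = X0 → σ.r ≤ δ → TestAt P σ := by
  have hc : Comc b (C.cf X0) := AFld984.comc_cf C X0
  obtain ⟨B, hB0, hB⟩ := LS839.exists_actBound b
  obtain ⟨r, hr0, hr⟩ := SlEx814.exists_gapAt (b := b) (C.cf X0)
  obtain ⟨r0, C0, H⟩ := SlM712.exists_SRad (b := b) (C.cf X0)
  obtain ⟨ρ, hρ0, hBρ, K, hK, hF⟩ := LemF581.lemF b M G hc hr0 hr hB hB0.le
  obtain ⟨ε, hε, hBR⟩ := Metric.isOpen_iff.1 C.isOpen_breg X0 hX0
  -- the radii
  obtain ⟨s', hs'0, h1, h2, h3, h4, h5⟩ : ∃ s' : ℝ, 0 < s' ∧ s' ≤ r0 ∧ B * s' ≤ r / 2 ∧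
      56 * s' ^ 2 ≤ r ^ 2 ∧ s' ≤ ρ ∧ s' < ε := by
    refine ⟨min (min r0 ρ) (min (min (r / (2 * B)) (r / 8)) (ε / 2)), ?_, ?_, ?_, ?_, ?_, ?_⟩
    · exact lt_min (lt_min H.pos hρ0) (lt_min (lt_min (by positivity) (by positivity))
        (by positivity))
    · exact (min_le_left _ _).trans (min_le_left _ _)
    · have : min (min r0 ρ) (min (min (r / (2 * B)) (r / 8)) (ε / 2)) ≤ r / (2 * B) :=
        (min_le_right _ _).trans ((min_le_left _ _).trans (min_le_left _ _))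
      calc B * _ ≤ B * (r / (2 * B)) := mul_le_mul_of_nonneg_left this hB0.le
        _ = r / 2 := by field_simp
    · set s' := min (min r0 ρ) (min (min (r / (2 * B)) (r / 8)) (ε / 2)) with hs'
      have h0 : 0 ≤ s' := (lt_min (lt_min H.pos hρ0) (lt_min (lt_min (by positivity)
        (by positivity)) (by positivity))).le
      have : s' ≤ r / 8 := (min_le_right _ _).trans ((min_le_left _ _).trans (min_le_right _ _))
      have h4 : s' ^ 2 ≤ (r / 8) ^ 2 := pow_le_pow_left₀ h0 this 2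
      nlinarith [sq_nonneg r]
    · exact (min_le_left _ _).trans (min_le_right _ _)
    · exact ((min_le_right _ _).trans (min_le_right _ _)).trans_lt (by linarith)
  set s := s' / 2 with hs
  have hs0 : 0 < s := by positivity
  have hss : s < s' := by rw [hs]; linarith
  obtain ⟨η, hη, hηc, -, -, hη1, hη0⟩ := exists_cut b (C.cf X0) (s := s / 2) (s' := s) (by positivity)
    (by linarith)
  obtain ⟨C1, hC1, hR2⟩ := LemR2302.R2 R G hc hr0 hr hB hB0 H volume volume hs0 hss h1 h2 h3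
    hη hηc hη0
  refine ⟨s, hs0, fun σ hσ hσr => ?_⟩
  rw [testAt_iff]
  subst hσ
  intro Γ hΓ
  have hpar : LemA342.IsPar b (C.cf σ.X0) M Γ := ⟨hΓ.par.even, hΓ.par.odd, hΓ.par.inv, hΓ.par.symm⟩
  have hv : ∀ f ∈ (cr M).vacJ (FibP581.JX b G (C.cf σ.X0) (C.cf σ.X0)), Γ f = f := by
    intro f hf
    refine PairU714.ParT.vac' hΓ P hX0 ((isVac_iff P hX0.reg f).2 ?_)
    have hk : kc (actB b) (C.cf σ.X0) = C.kk := hX0.reg
    unfold FibP581.JX at hf
    rwa [hk] at hf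
  have hpk := (hF Γ hpar hv).mono (hss.le.trans h4)
  let e := stdOrthonormalBasis ℝ (Uk b (C.cf σ.X0))
  let v := stdOrthonormalBasis ℝ (Zs b (C.cf σ.X0))
  let t := stdOrthonormalBasis ℝ (Tn (actB b) (C.cf σ.X0))
  have hHaar : (((volume : Measure (Uk b (C.cf σ.X0))).prod
      (volume : Measure (Zs b (C.cf σ.X0)))) : Measure (Sc b (C.cf σ.X0))).IsAddHaarMeasure :=
    MeasureTheory.Measure.prod.instIsAddHaarMeasure _ _
  obtain ⟨C2, hC2, hout⟩ := out_of ((volume : Measure (Uk b (C.cf σ.X0))).prod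
    (volume : Measure (Zs b (C.cf σ.X0)))) hr0 hr hB hB0.le hc M G hpar e v t hs0 hss h2 hK
  have hBs : B * s ≤ r / 2 := (mul_le_mul_of_nonneg_left hss.le hB0.le).trans h2
  refine ⟨max (√K) ((1 + K) * (C2 * C1)), le_max_of_le_left (Real.sqrt_nonneg K), fun m hm => ?_⟩
  have hm0 : 0 ≤ m ∧ m ≤ 1 := by rcases hm with rfl | rfl <;> norm_num
  filter_upwards [eventually_ge_atTop (1 : ℝ)] with g hg φ hφ
  have hg0 : 0 < g := by linarith
  have hEn : 0 ≤ En b M G g m φ := by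
    unfold En
    exact add_nonneg (integral_nonneg fun x => sq_nonneg _) (CapZA818.qf_nonneg' b M G g m φ)
  have hEn2 : ∫ x, ‖φ x‖ ^ 2 ≤ En b M G g m φ := by
    unfold En
    linarith [CapZA818.qf_nonneg' b M G g m φ]
  obtain ⟨hAB, h00⟩ := hR2 g m hg hm0.1 hm0.2 φ hφ
  set Φ : Sc b (C.cf σ.X0) → F := half b (C.cf σ.X0) η φ with hΦ
  have h2t : (2 : WithTop ℕ∞) ≤ ((⊤ : ℕ∞) : WithTop ℕ∞) := WithTop.coe_le_coe.2 (le_top : (2 : ℕ∞) ≤ ⊤)
  have hφ2 : ContDiff ℝ 2 φ := hφ.1.of_le h2t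
  have hΦ2 : ContDiff ℝ 2 Φ := contDiff_half (hη.of_le h2t) hφ2
  have hΦc : HasCompactSupport Φ := hcs_half hηc
  have hΦ0 : ∀ x : Sc b (C.cf σ.X0), s < ‖x.1‖ → Φ x = 0 := fun x hx =>
    half_zero (hη0 x (by nlinarith [sq_nonneg ‖x.2‖]))
  refine ⟨Φ, fun x hx1 hx2 => half_one (hη1 x ?_), ?_⟩
  · have a1 : ‖x.1‖ ^ 2 ≤ (s / 3) ^ 2 :=
      pow_le_pow_left₀ (norm_nonneg _) (hx1.trans (by linarith)) 2
    have a2 : ‖x.2‖ ^ 2 ≤ (s / 4) ^ 2 :=
      pow_le_pow_left₀ (norm_nonneg _) (hx2.trans (by linarith)) 2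
    nlinarith [sq_nonneg s]
  · have hO := hout g m hg0.le (hpk.odd _ _ v t g hg0 volume) Φ (C1 * En b M G g m φ) hΦ2 hΦc hΦ0
      (by
        have := hAB _ _ _ e v t
        unfold En
        rw [add_comm]
        exact this)
      (h00.trans (mul_le_mul_of_nonneg_left hEn2 hC1))
    have hF2 := f2_of P σ (v := v) (t := t) (g := g) (K := K) (ρ := s)
      (fun X hX => hBR (by
        rw [Metric.mem_ball, dist_eq_norm]
        linarith)) (hpk.f2u _ _ v t g hg0)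
    have key := adm_of hr0 hr hB hBs hB0.le hK hF2 hΦ2 hΦc hΦ0 hO (Sb σ (Uk b (C.cf σ.X0)))
    refine adm_mono (fun u => norm_nonneg _) hg0.le (Real.sqrt_nonneg K) (le_max_left _ _) ?_ key
    calc (1 + K) * (C2 * (C1 * En b M G g m φ)) = (1 + K) * (C2 * C1) * En b M G g m φ := by ring
      _ ≤ _ := mul_le_mul_of_nonneg_right (le_max_right _ _) hEn

end Crest.Agent.R330.TestB350

end
end

-- ▼ part R330/T5Sm_478

/-!
# Row 330, T5-SM: the dual estimate from small charts (helper478)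

* `hchart_of_gramT` : change of charts from the Gram matrix.
* `dual_move` : the dual estimate for one amplitude moves to another chart.
* `dualT_of_small` : `DualT P` from one chart with `DualAt P σ` at every centre in `BReg`.
-/

set_option autoImplicit false
set_option linter.unusedSectionVars false

open MeasureTheory Filter Topology Crest.MathPhysics.MatrixQM
open scoped ContDiff InnerProductSpace ENNReal

noncomputable section

namespace Crest.Agent.R330.T5Sm478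

open Crest.Agent.R330.Defs478 Crest.Agent.R330.TDef414 Crest.Agent.R330.TrialSys796
  Crest.Agent.R330.IBP837 Crest.Agent.R330.Brid837 Crest.Agent.R330.PairT714
  Crest.Agent.R330.ChSys399 Crest.Agent.R330.FreeX399

variable {N p : ℕ} {b : ColorBasis N} {S : Type} [Group S] [Fintype S] {C : Chn b p S}
  {F : Type} [NormedAddCommGroup F] [InnerProductSpace ℂ F] [FiniteDimensional ℂ F]
  {M : FermionRep N F} {R : GaugeAction b M} {G : GammaNine}

theorem inner_self_int (f : Cfg N → F) : ∫ x, ⟪f x, f x⟫_ℂ = ((∫ x, ‖f x‖ ^ 2 : ℝ) : ℂ) := by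
  rw [← integral_complex_ofReal]
  refine integral_congr_ae (Eventually.of_forall fun x => ?_)
  show ⟪f x, f x⟫_ℂ = _
  rw [inner_self_eq_norm_sq_to_K]
  push_cast
  rfl

theorem int4 {f₁ f₂ f₃ f₄ : Cfg N → ℂ} (i1 : Integrable f₁) (i2 : Integrable f₂)
    (i3 : Integrable f₃) (i4 : Integrable f₄) :
    ∫ x, (f₁ x - f₂ x - f₃ x + f₄ x) =
      (∫ x, f₁ x) - (∫ x, f₂ x) - (∫ x, f₃ x) + ∫ x, f₄ x := by
  have a1 : ∫ x, (f₁ x - f₂ x) = (∫ x, f₁ x) - ∫ x, f₂ x := integral_sub i1 i2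
  have a2 : ∫ x, (f₁ x - f₂ x - f₃ x) = (∫ x, (f₁ x - f₂ x)) - ∫ x, f₃ x :=
    integral_sub (i1.sub i2) i3
  have a3 : ∫ x, (f₁ x - f₂ x - f₃ x + f₄ x) = (∫ x, (f₁ x - f₂ x - f₃ x)) + ∫ x, f₄ x :=
    integral_add ((i1.sub i2).sub i3) i4
  rw [a3, a2, a1]

theorem int3 {f₁ f₂ f₃ : Cfg N → ℂ} (i1 : Integrable f₁) (i2 : Integrable f₂)
    (i3 : Integrable f₃) :
    ∫ x, (f₁ x + f₂ x - f₃ x) = (∫ x, f₁ x) + (∫ x, f₂ x) - ∫ x, f₃ x := by
  have a1 : ∫ x, (f₁ x + f₂ x) = (∫ x, f₁ x) + ∫ x, f₂ x := integral_add i1 i2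
  have a2 : ∫ x, (f₁ x + f₂ x - f₃ x) = (∫ x, (f₁ x + f₂ x)) - ∫ x, f₃ x :=
    integral_sub (i1.add i2) i3
  rw [a2, a1]

/-- (G3) from the Gram matrix: all four pairings have the same limit. -/
theorem hchart_of_gramT [Nontrivial F] {P : TPack C M R G} (hG : GramT P) :
    Gram167.HChart P := by
  intro σ σ' χ χ' h
  set L : ℂ := ∑ s, ∫ X, ⟪R.ρ (C.w s) (χ.fn X : F), (χ.fn (C.O s X) : F)⟫_ℂ with hL
  have h1 : Tendsto (fun g => ∫ x, ⟪Tgen P σ g χ.fn x, Tgen P σ g χ.fn x⟫_ℂ) atTop (𝓝 L) :=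
    hG σ σ χ χ
  have h2 : Tendsto (fun g => ∫ x, ⟪Tgen P σ g χ.fn x, Tgen P σ' g χ'.fn x⟫_ℂ) atTop (𝓝 L) := by
    have := hG σ σ' χ χ'
    rw [← h] at this ⊢
    exact this
  have h3 : Tendsto (fun g => ∫ x, ⟪Tgen P σ' g χ'.fn x, Tgen P σ g χ.fn x⟫_ℂ) atTop (𝓝 L) := by
    have := hG σ' σ χ' χ
    rw [← h] at this ⊢
    exact this
  have h4 : Tendsto (fun g => ∫ x, ⟪Tgen P σ' g χ'.fn x, Tgen P σ' g χ'.fn x⟫_ℂ) atTop
      (𝓝 L) := by
    have := hG σ' σ' χ' χ'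
    rw [← h] at this ⊢
    exact this
  have h5 : Tendsto (fun g => (∫ x, ⟪Tgen P σ g χ.fn x, Tgen P σ g χ.fn x⟫_ℂ) -
      (∫ x, ⟪Tgen P σ g χ.fn x, Tgen P σ' g χ'.fn x⟫_ℂ) -
      (∫ x, ⟪Tgen P σ' g χ'.fn x, Tgen P σ g χ.fn x⟫_ℂ) +
      (∫ x, ⟪Tgen P σ' g χ'.fn x, Tgen P σ' g χ'.fn x⟫_ℂ)) atTop (𝓝 0) := by
    have := ((h1.sub h2).sub h3).add h4
    have h0 : L - L - L + L = 0 := by ring
    rwa [h0] at this
  have h6 := (Complex.continuous_re.tendsto 0).comp h5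
  rw [Complex.zero_re] at h6
  refine h6.congr' ?_
  filter_upwards [TCore383.core P σ χ, TCore383.core P σ' χ'] with g hg hg'
  have e1 : ∀ x, ⟪Tgen P σ g χ.fn x - Tgen P σ' g χ'.fn x,
      Tgen P σ g χ.fn x - Tgen P σ' g χ'.fn x⟫_ℂ =
      ⟪Tgen P σ g χ.fn x, Tgen P σ g χ.fn x⟫_ℂ - ⟪Tgen P σ g χ.fn x, Tgen P σ' g χ'.fn x⟫_ℂ -
        ⟪Tgen P σ' g χ'.fn x, Tgen P σ g χ.fn x⟫_ℂ +
        ⟪Tgen P σ' g χ'.fn x, Tgen P σ' g χ'.fn x⟫_ℂ := by
    intro x
    rw [inner_sub_left, inner_sub_right, inner_sub_right]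
    ring
  have i1 := core_inner_int hg hg.1.continuous
  have i2 := core_inner_int hg hg'.1.continuous
  have i3 := core_inner_int hg' hg.1.continuous
  have i4 := core_inner_int hg' hg'.1.continuous
  have e2 : ((∫ x, ‖Tgen P σ g χ.fn x - Tgen P σ' g χ'.fn x‖ ^ 2 : ℝ) : ℂ) =
      (∫ x, ⟪Tgen P σ g χ.fn x, Tgen P σ g χ.fn x⟫_ℂ) -
      (∫ x, ⟪Tgen P σ g χ.fn x, Tgen P σ' g χ'.fn x⟫_ℂ) -
      (∫ x, ⟪Tgen P σ' g χ'.fn x, Tgen P σ g χ.fn x⟫_ℂ) +
      (∫ x, ⟪Tgen P σ' g χ'.fn x, Tgen P σ' g χ'.fn x⟫_ℂ) := by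
    rw [← inner_self_int]
    simp only [e1]
    exact int4 i1 i2 i3 i4
  exact (congrArg Complex.re e2.symm).trans (Complex.ofReal_re _)

/-! ## the estimate moves to another chart -/

theorem sqrt_int_le {g m : ℝ} {φ : Cfg N → F} :
    Real.sqrt (∫ x, ‖φ x‖ ^ 2) ≤ Real.sqrt (En b M G g m φ) := by
  refine Real.sqrt_le_sqrt ?_
  unfold En
  have : 0 ≤ qf b M G g m φ := by
    unfold qf
    refine mul_nonneg (by norm_num) (Finset.sum_nonneg fun α _ => integral_nonneg fun x => ?_)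
    positivity
  linarith

theorem sqrt_charge_le {g m : ℝ} {α : Fin 16} {φ : Cfg N → F} :
    Real.sqrt (∫ x, ‖dcharge b M G g m α φ x‖ ^ 2) ≤ 4 * Real.sqrt (En b M G g m φ) := by
  have h0 : ∀ β, 0 ≤ ∫ x, ‖dcharge b M G g m β φ x‖ ^ 2 := fun β =>
    integral_nonneg fun x => by positivity
  have h1 : ∫ x, ‖dcharge b M G g m α φ x‖ ^ 2 ≤ 4 ^ 2 * En b M G g m φ := by
    have h2 : ∫ x, ‖dcharge b M G g m α φ x‖ ^ 2 ≤ ∑ β, ∫ x, ‖dcharge b M G g m β φ x‖ ^ 2 :=
      Finset.single_le_sum (f := fun β => ∫ x, ‖dcharge b M G g m β φ x‖ ^ 2)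
        (fun β _ => h0 β) (Finset.mem_univ α)
    have h3 : 0 ≤ ∫ x, ‖φ x‖ ^ 2 := integral_nonneg fun x => by positivity
    unfold En qf
    linarith
  calc Real.sqrt (∫ x, ‖dcharge b M G g m α φ x‖ ^ 2)
      ≤ Real.sqrt (4 ^ 2 * En b M G g m φ) := Real.sqrt_le_sqrt h1
    _ = 4 * Real.sqrt (En b M G g m φ) := by
        rw [Real.sqrt_mul (by norm_num), Real.sqrt_sq (by norm_num)]

/-- The dual estimate for one amplitude, from the same amplitude in another chart. -/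
theorem dual_move [Nontrivial F] {P : TPack C M R G} (hCh : Gram167.HChart P) {σ σ' : Sl C}
    (hD : DualAt P σ') {m : ℝ} (hm : m = 0 ∨ m = 1) (ψ : Amp M G σ) (ψ' : Amp M G σ')
    (h : ψ.fn = ψ'.fn) (α : Fin 16) {ε : ℝ} (hε : 0 < ε) :
    ∀ᶠ g in atTop, ∀ φ : Cfg N → F, IsCoreVec b R φ →
      ‖∫ x, ⟪φ x, dcharge b M G g m α (Tgen P σ g ψ.fn) x -
        Tgen P σ g (C.Dx M G m α ψ.fn) x⟫_ℂ‖ ≤ ε * Real.sqrt (En b M G g m φ) := by
  have hδ : 0 < ε / 10 := by positivity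
  have hd : (ψ.D m α).fn = (ψ'.D m α).fn := by
    show C.Dx M G m α ψ.fn = C.Dx M G m α ψ'.fn
    rw [h]
  have c1 : ∀ᶠ g in atTop,
      ∫ x, ‖Tgen P σ g ψ.fn x - Tgen P σ' g ψ'.fn x‖ ^ 2 < (ε / 10) ^ 2 :=
    (hCh σ σ' ψ ψ' h).eventually (gt_mem_nhds (by positivity))
  have c2 : ∀ᶠ g in atTop,
      ∫ x, ‖Tgen P σ g (ψ.D m α).fn x - Tgen P σ' g (ψ'.D m α).fn x‖ ^ 2 < (ε / 10) ^ 2 :=
    (hCh σ σ' (ψ.D m α) (ψ'.D m α) hd).eventually (gt_mem_nhds (by positivity))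
  filter_upwards [c1, c2, hD m hm ψ' α (ε / 2) (by positivity), TCore383.core P σ ψ,
    TCore383.core P σ' ψ', TCore383.core P σ (ψ.D m α), TCore383.core P σ' (ψ'.D m α)]
    with g g1 g2 g3 k1 k2 k3 k4 φ hφ
  set T := Tgen P σ g ψ.fn with hT
  set T' := Tgen P σ' g ψ'.fn with hT'
  set U := Tgen P σ g (C.Dx M G m α ψ.fn) with hU
  set U' := Tgen P σ' g (C.Dx M G m α ψ'.fn) with hU'
  have k3' : IsCoreVec b R U := k3
  have k4' : IsCoreVec b R U' := k4
  have hA : IsCoreVec b R (T - T') := core_sub k1 k2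
  have hB : IsCoreVec b R (U - U') := core_sub k3' k4'
  have e1 : ∀ x, ⟪φ x, dcharge b M G g m α T x - U x⟫_ℂ =
      ⟪φ x, dcharge b M G g m α T' x - U' x⟫_ℂ + ⟪φ x, dcharge b M G g m α (T - T') x⟫_ℂ -
        ⟪φ x, (U - U') x⟫_ℂ := by
    intro x
    rw [dcharge_sub (cv_diff k1) (cv_diff k2), Pi.sub_apply, Pi.sub_apply, ← inner_add_right,
      ← inner_sub_right]
    congr 1
    abel
  have i1 : Integrable fun x => ⟪φ x, dcharge b M G g m α T' x - U' x⟫_ℂ :=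
    core_inner_int hφ ((continuous_dcharge b M G g m α (cv_c1 k2)).sub k4'.1.continuous)
  have i2 : Integrable fun x => ⟪φ x, dcharge b M G g m α (T - T') x⟫_ℂ :=
    core_inner_int hφ (continuous_dcharge b M G g m α (cv_c1 hA))
  have i3 : Integrable fun x => ⟪φ x, (U - U') x⟫_ℂ := core_inner_int hφ hB.1.continuous
  have e2 : ∫ x, ⟪φ x, dcharge b M G g m α T x - U x⟫_ℂ =
      (∫ x, ⟪φ x, dcharge b M G g m α T' x - U' x⟫_ℂ) +
        (∫ x, ⟪dcharge b M G g m α φ x, (T - T') x⟫_ℂ) - ∫ x, ⟪φ x, (U - U') x⟫_ℂ := by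
    rw [dcharge_symm (cv_c1 hφ) (cv_c1 hA) (Or.inl hφ.2.1)]
    simp only [e1]
    exact int3 i1 i2 i3
  have s0 : 0 ≤ Real.sqrt (En b M G g m φ) := Real.sqrt_nonneg _
  have b2 : ‖∫ x, ⟪dcharge b M G g m α φ x, (T - T') x⟫_ℂ‖ ≤
      4 * Real.sqrt (En b M G g m φ) * (ε / 10) := by
    refine (Gram167.norm_inner_le (core_memLp_dcharge hφ) (core_memLp hA)).trans ?_
    refine mul_le_mul sqrt_charge_le ?_ (Real.sqrt_nonneg _) (by positivity)
    rw [← Real.sqrt_sq hδ.le]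
    exact Real.sqrt_le_sqrt (le_of_lt g1)
  have b3 : ‖∫ x, ⟪φ x, (U - U') x⟫_ℂ‖ ≤ Real.sqrt (En b M G g m φ) * (ε / 10) := by
    refine (Gram167.norm_inner_le (core_memLp hφ) (core_memLp hB)).trans ?_
    refine mul_le_mul sqrt_int_le ?_ (Real.sqrt_nonneg _) s0
    rw [← Real.sqrt_sq hδ.le]
    exact Real.sqrt_le_sqrt (le_of_lt g2)
  rw [e2]
  calc ‖(∫ x, ⟪φ x, dcharge b M G g m α T' x - U' x⟫_ℂ) +
        (∫ x, ⟪dcharge b M G g m α φ x, (T - T') x⟫_ℂ) - ∫ x, ⟪φ x, (U - U') x⟫_ℂ‖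
      ≤ ‖∫ x, ⟪φ x, dcharge b M G g m α T' x - U' x⟫_ℂ‖ +
        ‖∫ x, ⟪dcharge b M G g m α φ x, (T - T') x⟫_ℂ‖ + ‖∫ x, ⟪φ x, (U - U') x⟫_ℂ‖ :=
        (norm_sub_le _ _).trans (add_le_add_left (norm_add_le _ _) _)
    _ ≤ ε / 2 * Real.sqrt (En b M G g m φ) + 4 * Real.sqrt (En b M G g m φ) * (ε / 10) +
        Real.sqrt (En b M G g m φ) * (ε / 10) := add_le_add (add_le_add (g3 φ hφ) b2) b3
    _ = ε * Real.sqrt (En b M G g m φ) := by ring

/-! ## sums of amplitudes -/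

theorem Dx_sum {ι : Type*} (s : Finset ι) {f : ι → Pos p → C.Fx M G}
    (hf : ∀ i ∈ s, ContDiff ℝ ∞ (f i)) (m : ℝ) (α : Fin 16) :
    C.Dx M G m α (fun X => ∑ i ∈ s, f i X) = fun X => ∑ i ∈ s, C.Dx M G m α (f i) X := by
  classical
  induction s using Finset.induction_on with
  | empty =>
    funext X
    simp only [Finset.sum_empty]
    have h0 : (fun _ : Pos p => (0 : C.Fx M G)) = 0 := rfl
    rw [h0]
    exact dirac_zero
  | insert i s hi ih =>
    have h1 : (fun X => ∑ j ∈ insert i s, f j X) = f i + fun X => ∑ j ∈ s, f j X := by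
      funext y
      simp [Finset.sum_insert hi]
    have h2 : ∀ j ∈ s, ContDiff ℝ ∞ (f j) := fun j hj => hf j (Finset.mem_insert_of_mem hj)
    have h3 := ih h2
    rw [h1]
    funext X
    rw [Finset.sum_insert hi, ← congrFun h3 X]
    exact dirac_add ((hf i (Finset.mem_insert_self i s)).differentiable (by simp) X)
      ((ContDiff.sum fun j hj => h2 j hj).differentiable (by simp) X)

/-- **T5-SM**: the dual estimate from one chart at every centre. -/
theorem dualT_of_small' [Nontrivial F] {P : TPack C M R G} (hCh : Gram167.HChart P)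
    (hS : ∀ X0 : Pos p, C.BReg X0 → ∃ σ : Sl C, σ.X0 = X0 ∧ DualAt P σ) : DualT P := by
  classical
  intro m hm σ χ α ε hε
  have h1 : ∀ X0 : {X : Pos p // C.BReg X}, ∃ σ : Sl C, σ.X0 = X0.1 ∧ DualAt P σ :=
    fun X0 => hS X0.1 X0.2
  choose τ hτ hD using h1
  have hcov : tsupport χ.fn ⊆ ⋃ X0 : {X : Pos p // C.BReg X},
      Metric.ball (X0 : Pos p) ((τ X0).r / 4) := by
    intro x hx
    have hr : 0 < (τ ⟨x, χ.off x hx⟩).r / 4 := by
      have := (τ ⟨x, χ.off x hx⟩).pos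
      positivity
    exact Set.mem_iUnion.2 ⟨⟨x, χ.off x hx⟩, Metric.mem_ball_self hr⟩
  obtain ⟨s, ψ, h2, h3, h4, h5⟩ := Pou365.exists_rep
    (U := fun X0 : {X : Pos p // C.BReg X} => Metric.ball (X0 : Pos p) ((τ X0).r / 4))
    (fun X0 => Metric.isOpen_ball) χ.smooth χ.compact hcov
  -- the pieces as amplitudes of both charts
  let A : {X : Pos p // C.BReg X} → Amp M G σ := fun i =>
    ⟨ψ i, h2 i, (h4 i).trans (Set.inter_subset_right.trans χ.supp), fun X hX => χ.off X (h4 i hX).2⟩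
  let B : ∀ i : {X : Pos p // C.BReg X}, Amp M G (τ i) := fun i =>
    ⟨ψ i, h2 i, by rw [hτ i]; exact (h4 i).trans Set.inter_subset_left,
      fun X hX => χ.off X (h4 i hX).2⟩
  have hc : 0 < ε / (s.card + 1) := by positivity
  have h6 : ∀ᶠ g in atTop, ∀ i ∈ s, ∀ φ : Cfg N → F, IsCoreVec b R φ →
      ‖∫ x, ⟪φ x, dcharge b M G g m α (Tgen P σ g (A i).fn) x -
        Tgen P σ g (C.Dx M G m α (A i).fn) x⟫_ℂ‖ ≤
        ε / (s.card + 1) * Real.sqrt (En b M G g m φ) :=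
    (eventually_all_finset s).2 fun i _ => dual_move hCh (hD i) hm (A i) (B i) rfl α hc
  have h7 : ∀ᶠ g in atTop, ∀ i ∈ s, IsCoreVec b R (Tgen P σ g (A i).fn) :=
    (eventually_all_finset s).2 fun i _ => TCore383.core P σ (A i)
  have h8 : ∀ᶠ g in atTop, ∀ i ∈ s, IsCoreVec b R (Tgen P σ g (C.Dx M G m α (A i).fn)) :=
    (eventually_all_finset s).2 fun i _ => TCore383.core P σ ((A i).D m α)
  filter_upwards [h6, h7, h8] with g g1 g2 g3 φ hφ
  have hχ : χ.fn = fun X => ∑ i ∈ s, (A i).fn X := funext h5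
  have e1 : ∀ x, Tgen P σ g χ.fn x = ∑ i ∈ s, (1 : ℂ) • Tgen P σ g (A i).fn x := by
    intro x
    rw [hχ, Perm167.Tgen_sum]
    simp
  have e2 : ∀ x, Tgen P σ g (C.Dx M G m α χ.fn) x =
      ∑ i ∈ s, Tgen P σ g (C.Dx M G m α (A i).fn) x := by
    intro x
    rw [hχ, Dx_sum s (fun i _ => (A i).smooth) m α, Perm167.Tgen_sum]
  have e3 : ∀ x, dcharge b M G g m α (Tgen P σ g χ.fn) x =
      ∑ i ∈ s, dcharge b M G g m α (Tgen P σ g (A i).fn) x := by
    intro x
    have e4 : Tgen P σ g χ.fn = fun x => ∑ i ∈ s, (1 : ℂ) • Tgen P σ g (A i).fn x := funext e1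
    rw [e4, FreeX399.dcharge_sum s (fun _ => (1 : ℂ)) (fun i hi => cv_diff (g2 i hi))]
    simp
  have e5 : ∀ x, ⟪φ x, dcharge b M G g m α (Tgen P σ g χ.fn) x -
      Tgen P σ g (C.Dx M G m α χ.fn) x⟫_ℂ = ∑ i ∈ s, ⟪φ x,
        dcharge b M G g m α (Tgen P σ g (A i).fn) x -
          Tgen P σ g (C.Dx M G m α (A i).fn) x⟫_ℂ := by
    intro x
    rw [e3, e2, ← Finset.sum_sub_distrib, inner_sum]
  have hI : ∀ i ∈ s, Integrable fun x => ⟪φ x,
      dcharge b M G g m α (Tgen P σ g (A i).fn) x -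
        Tgen P σ g (C.Dx M G m α (A i).fn) x⟫_ℂ := fun i hi =>
    core_inner_int hφ ((continuous_dcharge b M G g m α (cv_c1 (g2 i hi))).sub
      (g3 i hi).1.continuous)
  simp only [e5]
  rw [integral_finsetSum _ hI]
  have s0 : 0 ≤ Real.sqrt (En b M G g m φ) := Real.sqrt_nonneg _
  have hcard : (0 : ℝ) < s.card + 1 := by positivity
  calc ‖∑ i ∈ s, ∫ x, ⟪φ x, dcharge b M G g m α (Tgen P σ g (A i).fn) x -
        Tgen P σ g (C.Dx M G m α (A i).fn) x⟫_ℂ‖
      ≤ ∑ i ∈ s, ε / (s.card + 1) * Real.sqrt (En b M G g m φ) :=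
        (norm_sum_le _ _).trans (Finset.sum_le_sum fun i hi => g1 i hi φ hφ)
    _ = s.card / (s.card + 1) * (ε * Real.sqrt (En b M G g m φ)) := by
        rw [Finset.sum_const, nsmul_eq_mul]
        ring
    _ ≤ 1 * (ε * Real.sqrt (En b M G g m φ)) := by
        refine mul_le_mul_of_nonneg_right ?_ (by positivity)
        rw [div_le_one hcard]
        linarith
    _ = ε * Real.sqrt (En b M G g m φ) := one_mul _

/-- **T5-SM** in 714's form. -/
theorem dualT_of_small [Nontrivial F] {P : TPack C M R G} (hG : GramT P)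
    (hS : ∀ X0 : Pos p, C.BReg X0 → ∃ σ : Sl C, σ.X0 = X0 ∧ DualAt P σ) : DualT P :=
  dualT_of_small' (hchart_of_gramT hG) hS

end Crest.Agent.R330.T5Sm478

end
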