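import Crest.Agent.R330.Hardy_151
import Crest.Agent.R330.LocB_8
import Crest.Agent.R330.MCut_365
import Crest.Agent.R330.PairT_245

-- ▼ part R330/FlatTail_924
section

/-!
# Row 330, S9 capture: the tail near a flat (helper924)

* `flat_tail` : `∫_{‖L u - c‖ ≤ δ} ‖Φ‖² ≤ C δ² Σ_k ∫ ‖∂_{v k} Φ‖²` for a flat of codimension at least
  three of the base (Hardy inequality).
-/

set_option autoImplicit false
set_option linter.unusedSectionVars false

noncomputable section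

namespace Crest.Agent.R330.CapSl924

open MeasureTheory Filter Topology Set
open scoped ContDiff InnerProductSpace ENNReal

/-! ### the tail near a flat -/

section flat

open Crest.Agent.R330.Hardy151

variable {F : Type*} [NormedAddCommGroup F] [InnerProductSpace ℝ F]
  {U Z V : Type*} [NormedAddCommGroup U] [InnerProductSpace ℝ U] [FiniteDimensional ℝ U]
  [MeasurableSpace U] [BorelSpace U]
  [NormedAddCommGroup Z] [NormedSpace ℝ Z] [FiniteDimensional ℝ Z] [MeasurableSpace Z]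
  [BorelSpace Z] [NormedAddCommGroup V] [NormedSpace ℝ V] [FiniteDimensional ℝ V]
  {μ : Measure U} [μ.IsAddHaarMeasure] {ν : Measure Z} [ν.IsAddHaarMeasure]

/-- a linear map controls the distance to its kernel -/
theorem exists_ker_bound (L : U →L[ℝ] V) : ∃ C : ℝ, 0 < C ∧
    ∀ x ∈ (LinearMap.ker L.toLinearMap)ᗮ, ‖x‖ ≤ C * ‖L x‖ := by
  set W : Submodule ℝ U := (LinearMap.ker L.toLinearMap)ᗮ with hW
  let T : W →ₗ[ℝ] V := L.toLinearMap.domRestrict W
  have hT : LinearMap.ker T = ⊥ := by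
    rw [LinearMap.ker_eq_bot']
    intro x hx
    have h1 : (x : U) ∈ LinearMap.ker L.toLinearMap := hx
    have h2 : ⟪(x : U), (x : U)⟫_ℝ = 0 := (Submodule.mem_orthogonal _ _).1 x.2 _ h1
    exact Subtype.ext (inner_self_eq_zero.1 h2)
  obtain ⟨K, hK, hAL⟩ := T.exists_antilipschitzWith hT
  refine ⟨K, by exact_mod_cast hK, fun x hx => ?_⟩
  have := hAL.le_mul_dist ⟨x, hx⟩ 0
  rw [map_zero, dist_zero_right, dist_zero_right] at this
  exact this

/-- **Tail near a flat**, no parameters. -/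
theorem flat_tail_fib (L : U →L[ℝ] V) (hL : Function.Surjective L) (h3 : 3 ≤ Module.finrank ℝ V)
    (W : Submodule ℝ U) (hW : (LinearMap.ker L.toLinearMap)ᗮ ≤ W) :
    ∃ C : ℝ, 0 ≤ C ∧ ∀ {κ : Type} [Fintype κ] (v : OrthonormalBasis κ ℝ W) (c : V) (δ : ℝ),
      0 < δ → ∀ f : U → F, ContDiff ℝ 1 f → HasCompactSupport f →
      ∫ u in {u : U | ‖L u - c‖ ≤ δ}, ‖f u‖ ^ 2 ∂μ ≤
        C * δ ^ 2 * ∑ k, ∫ u, ‖fderiv ℝ f u (v k : U)‖ ^ 2 ∂μ := by
  classical
  obtain ⟨C, hC, hker⟩ := exists_ker_bound L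
  set M : Submodule ℝ U := (LinearMap.ker L.toLinearMap)ᗮ with hM
  have hMo : Mᗮ = LinearMap.ker L.toLinearMap := by
    rw [hM, Submodule.orthogonal_orthogonal]
  set n := Module.finrank ℝ M with hn
  have hn3 : 3 ≤ n := by
    have h1 : Module.finrank ℝ (LinearMap.ker L.toLinearMap) + Module.finrank ℝ M =
        Module.finrank ℝ U := Submodule.finrank_add_finrank_orthogonal _
    have h2 : Module.finrank ℝ (LinearMap.range L.toLinearMap) +
        Module.finrank ℝ (LinearMap.ker L.toLinearMap) = Module.finrank ℝ U :=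
      LinearMap.finrank_range_add_finrank_ker _
    have h3' : Module.finrank ℝ (LinearMap.range L.toLinearMap) = Module.finrank ℝ V := by
      rw [LinearMap.range_eq_top.2 hL, finrank_top]
    omega
  let e : OrthonormalBasis (Fin n) ℝ M := stdOrthonormalBasis ℝ M
  let e' : Fin n → U := fun k => (e k : U)
  have he : Orthonormal ℝ e' := e.orthonormal.comp_linearIsometry M.subtypeₗᵢ
  refine ⟨4 * (C ^ 2 + 1) * n, by positivity, fun {κ} _ v c δ hδ f hf hcf => ?_⟩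
  obtain ⟨x0, hx0⟩ := hL c
  set cc : Fin n → ℝ := fun k => ⟪e' k, x0⟫_ℝ with hcc
  -- the distance
  have hr2 : ∀ u, r2 e' cc u = ‖M.starProjection (u - x0)‖ ^ 2 := by
    intro u
    have h1 : ∀ k, yc e' cc k u = ⟪e k, (⟨M.starProjection (u - x0),
        Submodule.starProjection_apply_mem _ _⟩ : M)⟫_ℝ := by
      intro k
      show ⟪e' k, u⟫_ℝ - ⟪e' k, x0⟫_ℝ = ⟪(e k : U), M.starProjection (u - x0)⟫_ℝ
      rw [← inner_sub_right, ← Submodule.inner_starProjection_left_eq_right,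
        Submodule.starProjection_eq_self_iff.2 (e k).2]
    unfold r2
    simp only [h1]
    rw [e.sum_sq_inner_right]
    rfl
  have hdist : ∀ u, ‖L u - c‖ ≤ δ → r2 e' cc u ≤ C ^ 2 * δ ^ 2 := by
    intro u hu
    rw [hr2, ← mul_pow]
    refine pow_le_pow_left₀ (norm_nonneg _) ?_ 2
    have h1 := hker (M.starProjection (u - x0)) (Submodule.starProjection_apply_mem _ _)
    have h2 : L (M.starProjection (u - x0)) = L u - c := by
      have h3 : (u - x0) - M.starProjection (u - x0) ∈ LinearMap.ker L.toLinearMap :=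
        hMo.le (Submodule.sub_starProjection_mem_orthogonal _)
      have h4 : L ((u - x0) - M.starProjection (u - x0)) = 0 := h3
      rw [map_sub, sub_eq_zero] at h4
      rw [← h4, map_sub, hx0]
    rw [h2] at h1
    exact h1.trans (mul_le_mul_of_nonneg_left hu hC.le)
  -- Hardy
  have hH := hardy_reg (μ := μ) (v := e') (c := cc) hf hcf he (δ := δ ^ 2)
    (by rw [Fintype.card_fin]; omega) (by positivity)
  rw [Fintype.card_fin] at hH
  have hnr : (3 : ℝ) ≤ n := by exact_mod_cast hn3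
  have hI0 : 0 ≤ ∫ x, ‖f x‖ ^ 2 / (r2 e' cc x + δ ^ 2) ∂μ :=
    integral_nonneg fun x => div_nonneg (by positivity)
      (add_nonneg (r2_nonneg x) (by positivity))
  have hH2 : ∫ x, ‖f x‖ ^ 2 / (r2 e' cc x + δ ^ 2) ∂μ ≤
      4 * ∫ x, ∑ k, ‖fderiv ℝ f x (e' k)‖ ^ 2 ∂μ := by
    have h1 : (1 / 4 : ℝ) ≤ (((n : ℝ) - 2) / 2) ^ 2 := by nlinarith
    have h2 := mul_le_mul_of_nonneg_right h1 hI0
    linarith
  have c1 : Continuous fun x => ‖f x‖ ^ 2 / (r2 e' cc x + δ ^ 2) := by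
    refine (hf.continuous.norm.pow 2).div ?_ fun x => ?_
    · exact ((contDiff_r2 (n := 1)).continuous).add continuous_const
    · have := r2_nonneg (v := e') (c := cc) x
      positivity
  have s1 : HasCompactSupport fun x => ‖f x‖ ^ 2 / (r2 e' cc x + δ ^ 2) :=
    hcf.mono' fun x hx => subset_tsupport _ (by intro h0; apply hx; simp [h0])
  have i1 : Integrable (fun x => ‖f x‖ ^ 2 / (r2 e' cc x + δ ^ 2)) μ :=
    c1.integrable_of_hasCompactSupport s1
  have i2 : Integrable (fun x => ‖f x‖ ^ 2) μ := by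
    have c0 : Continuous fun x => ‖f x‖ ^ 2 := hf.continuous.norm.pow 2
    exact c0.integrable_of_hasCompactSupport
      (hcf.norm.comp_left (g := fun t : ℝ => t ^ 2) (by norm_num))
  have hmeas : MeasurableSet {u : U | ‖L u - c‖ ≤ δ} :=
    (isClosed_le (L.continuous.sub continuous_const).norm continuous_const).measurableSet
  have st1 : ∫ u in {u : U | ‖L u - c‖ ≤ δ}, ‖f u‖ ^ 2 ∂μ ≤
      ((C ^ 2 + 1) * δ ^ 2) * ∫ x, ‖f x‖ ^ 2 / (r2 e' cc x + δ ^ 2) ∂μ := by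
    calc ∫ u in {u : U | ‖L u - c‖ ≤ δ}, ‖f u‖ ^ 2 ∂μ
        ≤ ∫ u in {u : U | ‖L u - c‖ ≤ δ},
            ((C ^ 2 + 1) * δ ^ 2) * (‖f u‖ ^ 2 / (r2 e' cc u + δ ^ 2)) ∂μ := by
          refine setIntegral_mono_on i2.integrableOn (i1.const_mul _).integrableOn hmeas
            fun u hu => ?_
          have h1 : r2 e' cc u + δ ^ 2 ≤ (C ^ 2 + 1) * δ ^ 2 := by
            have := hdist u hu
            linarith
          have h2 : 0 < r2 e' cc u + δ ^ 2 := by
            have := r2_nonneg (v := e') (c := cc) u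
            positivity
          rw [mul_div_assoc', le_div_iff₀ h2, mul_comm]
          exact mul_le_mul_of_nonneg_right h1 (by positivity)
      _ ≤ ∫ u, ((C ^ 2 + 1) * δ ^ 2) * (‖f u‖ ^ 2 / (r2 e' cc u + δ ^ 2)) ∂μ :=
          setIntegral_le_integral (i1.const_mul _) (Eventually.of_forall fun u =>
            mul_nonneg (by positivity) (div_nonneg (by positivity)
              (add_nonneg (r2_nonneg u) (by positivity))))
      _ = _ := integral_const_mul _ _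
  -- the gradient
  have cd : ∀ w : U, Continuous fun u => ‖fderiv ℝ f u w‖ ^ 2 := fun w =>
    (((hf.continuous_fderiv one_ne_zero).clm_apply continuous_const).norm).pow 2
  have sd : ∀ w : U, HasCompactSupport fun u => ‖fderiv ℝ f u w‖ ^ 2 := fun w =>
    (hcf.fderiv (𝕜 := ℝ)).mono' fun x hx => subset_tsupport _ (by
      intro h0; apply hx; simp [h0])
  have id : ∀ w : U, Integrable (fun u => ‖fderiv ℝ f u w‖ ^ 2) μ := fun w =>
    (cd w).integrable_of_hasCompactSupport (sd w)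
  have hgr : ∀ u k, ‖fderiv ℝ f u (e' k)‖ ^ 2 ≤ ∑ i, ‖fderiv ℝ f u (v i : U)‖ ^ 2 := by
    intro u k
    set ek : W := ⟨e' k, hW (e k).2⟩ with hek
    have h1 : e' k = ∑ i, ⟪v i, ek⟫_ℝ • (v i : U) := by
      have := congrArg (fun w : W => (w : U)) (v.sum_repr' ek)
      simp only [Submodule.coe_sum, Submodule.coe_smul] at this
      exact this.symm
    have h2 : ∑ i, ⟪v i, ek⟫_ℝ ^ 2 = 1 := by
      rw [v.sum_sq_inner_right]
      have : ‖ek‖ = 1 := he.1 k
      rw [this]; norm_num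
    conv_lhs => rw [h1]
    rw [map_sum]
    have h3 : ‖∑ i, fderiv ℝ f u (⟪v i, ek⟫_ℝ • (v i : U))‖ ≤
        ∑ i, |⟪v i, ek⟫_ℝ| * ‖fderiv ℝ f u (v i : U)‖ := by
      refine (norm_sum_le _ _).trans (le_of_eq (Finset.sum_congr rfl fun i _ => ?_))
      rw [map_smul, norm_smul, Real.norm_eq_abs]
    calc ‖∑ i, fderiv ℝ f u (⟪v i, ek⟫_ℝ • (v i : U))‖ ^ 2
        ≤ (∑ i, |⟪v i, ek⟫_ℝ| * ‖fderiv ℝ f u (v i : U)‖) ^ 2 :=
          pow_le_pow_left₀ (norm_nonneg _) h3 2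
      _ ≤ (∑ i, |⟪v i, ek⟫_ℝ| ^ 2) * ∑ i, ‖fderiv ℝ f u (v i : U)‖ ^ 2 :=
          Finset.sum_mul_sq_le_sq_mul_sq _ _ _
      _ = _ := by simp only [sq_abs]; rw [h2, one_mul]
  have st2 : ∫ x, ∑ k, ‖fderiv ℝ f x (e' k)‖ ^ 2 ∂μ ≤
      n * ∑ i, ∫ u, ‖fderiv ℝ f u (v i : U)‖ ^ 2 ∂μ := by
    rw [← integral_finsetSum _ fun i _ => id _, ← integral_const_mul]
    refine integral_mono (integrable_finsetSum _ fun k _ => id _)
      ((integrable_finsetSum _ fun i _ => id _).const_mul _) fun u => ?_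
    calc ∑ k, ‖fderiv ℝ f u (e' k)‖ ^ 2 ≤ ∑ _k : Fin n, ∑ i, ‖fderiv ℝ f u (v i : U)‖ ^ 2 :=
          Finset.sum_le_sum fun k _ => hgr u k
      _ = _ := by simp
  calc ∫ u in {u : U | ‖L u - c‖ ≤ δ}, ‖f u‖ ^ 2 ∂μ
      ≤ ((C ^ 2 + 1) * δ ^ 2) * ∫ x, ‖f x‖ ^ 2 / (r2 e' cc x + δ ^ 2) ∂μ := st1
    _ ≤ ((C ^ 2 + 1) * δ ^ 2) * (4 * (n * ∑ i, ∫ u, ‖fderiv ℝ f u (v i : U)‖ ^ 2 ∂μ)) := by
        refine mul_le_mul_of_nonneg_left (hH2.trans ?_) (by positivity)
        exact mul_le_mul_of_nonneg_left st2 (by norm_num)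
    _ = _ := by ring

/-- **Tail near a flat.** `W` any subspace containing the normal directions of the flat, `v` an
orthonormal basis of `W`. -/
theorem flat_tail (L : U →L[ℝ] V) (hL : Function.Surjective L) (h3 : 3 ≤ Module.finrank ℝ V)
    (W : Submodule ℝ U) (hW : (LinearMap.ker L.toLinearMap)ᗮ ≤ W) :
    ∃ C : ℝ, 0 ≤ C ∧ ∀ {κ : Type} [Fintype κ] (v : OrthonormalBasis κ ℝ W) (c : V) (δ : ℝ),
      0 < δ → ∀ Φ : U × Z → F, ContDiff ℝ 1 Φ → HasCompactSupport Φ →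
      ∫ q in {q : U × Z | ‖L q.1 - c‖ ≤ δ}, ‖Φ q‖ ^ 2 ∂(μ.prod ν) ≤
        C * δ ^ 2 * ∑ k, ∫ q, ‖fderiv ℝ Φ q ((v k : U), 0)‖ ^ 2 ∂(μ.prod ν) := by
  obtain ⟨C, hC, h⟩ := flat_tail_fib (F := F) (μ := μ) L hL h3 W hW
  refine ⟨C, hC, fun {κ} _ v c δ hδ Φ hΦ hc => ?_⟩
  have hmeas : MeasurableSet {u : U | ‖L u - c‖ ≤ δ} :=
    (isClosed_le (L.continuous.sub continuous_const).norm continuous_const).measurableSet
  have e0 : {q : U × Z | ‖L q.1 - c‖ ≤ δ} = {u : U | ‖L u - c‖ ≤ δ} ×ˢ univ := by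
    ext q; simp
  have c2 : Continuous fun q => ‖Φ q‖ ^ 2 := hΦ.continuous.norm.pow 2
  have s2 : HasCompactSupport fun q => ‖Φ q‖ ^ 2 :=
    hc.norm.comp_left (g := fun t : ℝ => t ^ 2) (by norm_num)
  have i2 : Integrable (fun q => ‖Φ q‖ ^ 2) (μ.prod ν) := c2.integrable_of_hasCompactSupport s2
  have e1 : ∫ q in {q : U × Z | ‖L q.1 - c‖ ≤ δ}, ‖Φ q‖ ^ 2 ∂(μ.prod ν) =
      ∫ z, ∫ u in {u : U | ‖L u - c‖ ≤ δ}, ‖Φ (u, z)‖ ^ 2 ∂μ ∂ν := by
    have h1 : (μ.prod ν).restrict ({u : U | ‖L u - c‖ ≤ δ} ×ˢ (univ : Set Z)) =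
        (μ.restrict {u : U | ‖L u - c‖ ≤ δ}).prod ν := by
      rw [← Measure.prod_restrict, Measure.restrict_univ]
    rw [e0, h1]
    refine integral_prod_symm _ ?_
    rw [← h1]
    exact i2.integrableOn
  have hsl : ∀ z, ContDiff ℝ 1 fun u => Φ (u, z) := fun z =>
    hΦ.comp (contDiff_id.prodMk contDiff_const)
  have hslc : ∀ z, HasCompactSupport fun u => Φ (u, z) := fun z =>
    HasCompactSupport.of_support_subset_isCompact (hc.image continuous_fst) fun u hu =>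
      ⟨(u, z), subset_tsupport _ hu, rfl⟩
  have hfd : ∀ z u (w : U), fderiv ℝ (fun u => Φ (u, z)) u w = fderiv ℝ Φ (u, z) (w, 0) := by
    intro z u w
    have h1 : HasFDerivAt (fun u : U => (u, z)) (ContinuousLinearMap.inl ℝ U Z) u := by
      exact (hasFDerivAt_id (𝕜 := ℝ) u).prodMk (hasFDerivAt_const z u)
    have h2 := ((hΦ.differentiable one_ne_zero) (u, z)).hasFDerivAt.comp u h1
    have h3 : fderiv ℝ (fun u => Φ (u, z)) u =
        (fderiv ℝ Φ (u, z)).comp (ContinuousLinearMap.inl ℝ U Z) := h2.fderiv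
    rw [h3]
    simp
  have cd : ∀ w : U, Continuous fun q => ‖fderiv ℝ Φ q (w, 0)‖ ^ 2 := fun w =>
    (((hΦ.continuous_fderiv one_ne_zero).clm_apply continuous_const).norm).pow 2
  have sd : ∀ w : U, HasCompactSupport fun q => ‖fderiv ℝ Φ q (w, 0)‖ ^ 2 := fun w =>
    (hc.fderiv (𝕜 := ℝ)).mono' fun x hx => subset_tsupport _ (by
      intro h0; apply hx; simp [h0])
  have id : ∀ w : U, Integrable (fun q => ‖fderiv ℝ Φ q (w, 0)‖ ^ 2) (μ.prod ν) := fun w =>
    (cd w).integrable_of_hasCompactSupport (sd w)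
  have e2 : ∀ w : U, ∫ q, ‖fderiv ℝ Φ q (w, 0)‖ ^ 2 ∂(μ.prod ν) =
      ∫ z, ∫ u, ‖fderiv ℝ (fun u => Φ (u, z)) u w‖ ^ 2 ∂μ ∂ν := by
    intro w
    rw [integral_prod_symm _ (id w)]
    simp only [hfd]
  have i3 : ∀ w : U, Integrable (fun z => ∫ u, ‖fderiv ℝ (fun u => Φ (u, z)) u w‖ ^ 2 ∂μ) ν := by
    intro w
    have := (id w).integral_prod_right
    simpa only [hfd] using this
  rw [e1]
  simp only [e2]
  rw [← integral_finsetSum _ fun k _ => i3 _, ← integral_const_mul]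
  refine integral_mono_of_nonneg (Eventually.of_forall fun z => integral_nonneg fun u => by
    positivity) ((integrable_finsetSum _ fun k _ => i3 _).const_mul _)
    (Eventually.of_forall fun z => ?_)
  exact h v c δ hδ (fun u => Φ (u, z)) (hsl z) (hslc z)

end flat

end Crest.Agent.R330.CapSl924
end
end

-- ▼ part R330/XCut_924

/-!
# Row 330, S9-XCUT (helper924): the cut-off of the positions near the flats of a channel

* `cfU h0` : the positions inside `Uk b (C.cf X0)`; `cfW` its range, `cfB` the orthonormal basis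
  `cf (single q 1)`.
* `exists_theta` : smooth cut-offs of the positions with support in `BReg`, and the mass of
  `(1 - θ) Φ` is at most `K δ²` times the energy of `Φ` along the centre.
-/

set_option autoImplicit false
set_option linter.unusedSectionVars false

open MeasureTheory Filter Topology Set Crest.MathPhysics.MatrixQM
open scoped ContDiff InnerProductSpace ENNReal

noncomputable section

namespace Crest.Agent.R330.XCut924

open Crest.Agent.R330.Defs478 Crest.Agent.R330.LS839 Crest.Agent.R330.Frame839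
  Crest.Agent.R330.Clus839 Crest.Agent.R330.Bind6839 Crest.Agent.R330.TDef414
  Crest.Agent.R330.LemA342 Crest.Agent.R330.MCut365 Crest.Agent.R330.LocB8

variable {N p : ℕ} {b : ColorBasis N} {S : Type} [Group S] [Fintype S] {C : Chn b p S}
  {F : Type*} [NormedAddCommGroup F] [InnerProductSpace ℂ F] [FiniteDimensional ℂ F]

/-! ## The positions inside the slice -/

section cfU

variable {X0 : Pos p} (h0 : C.Reg X0)

theorem cf_mem_Uk (h0 : C.Reg X0) (X : Pos p) : C.cf X ∈ Uk b (C.cf X0) := by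
  rw [PairT245.Uk_eq h0]
  exact PairT245.cf_mem_Tup X

/-- the positions inside `Uk b (C.cf X0)` -/
def cfU : Pos p →ₗᵢ[ℝ] Uk b (C.cf X0) where
  toFun X := ⟨C.cf X, cf_mem_Uk h0 X⟩
  map_add' X Y := Subtype.ext (map_add C.cf X Y)
  map_smul' r X := Subtype.ext (map_smul C.cf r X)
  norm_map' X := C.cf.norm_map X

theorem coe_cfU (X : Pos p) : ((cfU h0 X : Uk b (C.cf X0)) : Cfg N) = C.cf X := rfl

/-- its range -/
def cfW : Submodule ℝ (Uk b (C.cf X0)) := LinearMap.range (cfU h0).toLinearMap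

/-- the orthonormal basis `cf (single q 1)` of the centre directions -/
def cfB : OrthonormalBasis (Fin 9 × Fin p) ℝ (cfW h0) :=
  (EuclideanSpace.basisFun (Fin 9 × Fin p) ℝ).map (cfU h0).equivRange

theorem coe_cfB (q : Fin 9 × Fin p) :
    ((cfB h0 q : cfW h0) : Uk b (C.cf X0)) = cfU h0 (EuclideanSpace.single q 1) := by
  have h1 : ((cfB h0 q : cfW h0) : Uk b (C.cf X0)) =
      cfU h0 (EuclideanSpace.basisFun (Fin 9 × Fin p) ℝ q) := rfl
  rw [h1, EuclideanSpace.basisFun_apply]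

/-- a position function on the slice -/
def cfL (X0 : Pos p) (C : Chn b p S) (a : C.J) : Uk b (C.cf X0) →L[ℝ] EuclideanSpace ℝ (Fin 6) :=
  (C.Lf a).comp (C.cfT.comp (Uk b (C.cf X0)).subtypeL)

theorem cfL_apply (a : C.J) (u : Uk b (C.cf X0)) : cfL X0 C a u = C.Lf a (C.cfT u) := rfl

theorem cfL_surj (h0 : C.Reg X0) (a : C.J) : Function.Surjective (cfL X0 C a) := fun y => by
  obtain ⟨X, hX⟩ := C.Lf_surj a y
  refine ⟨cfU h0 X, ?_⟩
  rw [cfL_apply, coe_cfU, C.cfT_cf, hX]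

theorem inner_cfU (X : Pos p) (u : Uk b (C.cf X0)) : ⟪cfU h0 X, u⟫_ℝ = ⟪X, C.cfT u⟫_ℝ := by
  unfold Chn.cfT
  rw [ContinuousLinearMap.adjoint_inner_right]
  rfl

theorem ker_le (a : C.J) : (LinearMap.ker (cfL X0 C a).toLinearMap)ᗮ ≤ cfW h0 := by
  have h1 : (cfW h0)ᗮ ≤ LinearMap.ker (cfL X0 C a).toLinearMap := by
    intro u hu
    have h2 : C.cfT u = 0 := by
      refine ext_inner_left ℝ fun X => ?_
      rw [← inner_cfU h0, inner_zero_right]
      exact (Submodule.mem_orthogonal _ _).1 hu _ ⟨X, rfl⟩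
    rw [LinearMap.mem_ker]
    show C.Lf a (C.cfT u) = 0
    rw [h2, map_zero]
  have h3 := Submodule.orthogonal_le h1
  rwa [Submodule.orthogonal_orthogonal] at h3

end cfU

/-! ## The cut-off -/

/-- the cut-off of the positions near the flats -/
def thc (C : Chn b p S) (δ : ℝ) (X : Pos p) : ℝ :=
  letI := C.hJ
  mcut (Finset.univ : Finset C.J) C.Lf (fun _ => 0) δ X

theorem thc_smooth (δ : ℝ) : ContDiff ℝ ∞ (thc C δ) := by
  let _ := C.hJ
  exact mcut_smooth _ _ _ δ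

theorem thc_nonneg (δ : ℝ) (X : Pos p) : 0 ≤ thc C δ X := by
  let _ := C.hJ
  exact mcut_nonneg _ _ _ δ X

theorem thc_le_one (δ : ℝ) (X : Pos p) : thc C δ X ≤ 1 := by
  let _ := C.hJ
  exact mcut_le_one _ _ _ δ X

theorem thc_one {δ : ℝ} (hδ : 0 < δ) {X : Pos p} (h : thc C δ X ≠ 1) :
    ∃ a, ‖C.Lf a X‖ ≤ 2 * δ := by
  let _ := C.hJ
  by_contra hn
  push Not at hn
  refine h (mcut_one hδ ?_)
  rintro ⟨a, -, ha⟩
  rw [sub_zero] at ha
  exact absurd ha (not_le.2 (hn a))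

theorem thc_zero {δ : ℝ} (hδ : 0 < δ) {X : Pos p} {a : C.J} (h : ‖C.Lf a X‖ ≤ δ) :
    thc C δ X = 0 := by
  let _ := C.hJ
  exact mcut_zero hδ ⟨a, Finset.mem_univ a, by rwa [sub_zero]⟩

theorem tsupport_thc {δ : ℝ} (hδ : 0 < δ) : tsupport (thc C δ) ⊆ {X | C.BReg X} := by
  have h1 : tsupport (thc C δ) ⊆ {X | ∀ a, δ ≤ ‖C.Lf a X‖} := by
    refine closure_minimal (fun X hX a => ?_) ?_
    · by_contra hn
      exact hX (thc_zero hδ (not_le.1 hn).le)
    · rw [Set.ofPred_forall]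
      exact isClosed_iInter fun a => isClosed_le continuous_const (C.Lf a).continuous.norm
  intro X hX a ha
  have h2 := h1 hX a
  rw [ha, norm_zero] at h2
  linarith

/-! ## The tail -/

theorem integrable_sq_cs {E : Type*} [NormedAddCommGroup E] [NormedSpace ℝ E]
    [FiniteDimensional ℝ E] [MeasurableSpace E] [BorelSpace E] {μ : Measure E}
    [IsFiniteMeasureOnCompacts μ] {f : E → F} (hf : Continuous f) (hc : HasCompactSupport f) :
    Integrable (fun x => ‖f x‖ ^ 2) μ := by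
  have h1 : Continuous fun x => ‖f x‖ ^ 2 := hf.norm.pow 2
  have h2 : HasCompactSupport fun x => ‖f x‖ ^ 2 :=
    hc.norm.comp_left (g := fun t : ℝ => t ^ 2) (by norm_num)
  exact h1.integrable_of_hasCompactSupport h2

/-- **The tail near the flats.** -/
theorem exists_tail (C : Chn b p S) {X0 : Pos p} (h0 : C.Reg X0) : ∃ K : ℝ, 0 ≤ K ∧
    ∀ δ : ℝ, 0 < δ → ∀ Φ : Sc b (C.cf X0) → F, ContDiff ℝ 1 Φ → HasCompactSupport Φ →
      ∫ x, ‖(1 - thc C δ (X0 + C.cfT (x.1 : Cfg N))) • Φ x‖ ^ 2 ≤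
        K * δ ^ 2 * ∑ q : Fin 9 × Fin p,
          ∫ x, ‖fderiv ℝ Φ x (cfU h0 (EuclideanSpace.single q 1), 0)‖ ^ 2 := by
  classical
  let _ := C.hJ
  letI : InnerProductSpace ℝ F := InnerProductSpace.complexToReal
  have hflat : ∀ a : C.J, ∃ K : ℝ, 0 ≤ K ∧ ∀ δ : ℝ, 0 < δ → ∀ Φ : Sc b (C.cf X0) → F,
      ContDiff ℝ 1 Φ → HasCompactSupport Φ →
      ∫ x in {x : Sc b (C.cf X0) | ‖C.Lf a (X0 + C.cfT (x.1 : Cfg N))‖ ≤ 2 * δ}, ‖Φ x‖ ^ 2 ≤
        K * δ ^ 2 * ∑ q : Fin 9 × Fin p,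
          ∫ x, ‖fderiv ℝ Φ x (cfU h0 (EuclideanSpace.single q 1), 0)‖ ^ 2 := by
    intro a
    obtain ⟨K, hK, h⟩ := CapSl924.flat_tail (F := F) (μ := (volume : Measure (Uk b (C.cf X0))))
      (ν := (volume : Measure (Zs b (C.cf X0)))) (cfL X0 C a) (cfL_surj h0 a)
      (by rw [finrank_euclideanSpace_fin]; norm_num) (cfW h0) (ker_le h0 a)
    refine ⟨4 * K, by positivity, fun δ hδ Φ hΦ hc => ?_⟩
    have h1 := h (cfB h0) (-(C.Lf a X0)) (2 * δ) (by positivity) Φ hΦ hc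
    have e1 : {x : Sc b (C.cf X0) | ‖C.Lf a (X0 + C.cfT (x.1 : Cfg N))‖ ≤ 2 * δ} =
        {x : Sc b (C.cf X0) | ‖cfL X0 C a x.1 - -(C.Lf a X0)‖ ≤ 2 * δ} := by
      ext x
      rw [mem_ofPred_eq, mem_ofPred_eq, cfL_apply, map_add, sub_neg_eq_add, add_comm]
    rw [e1]
    simp only [coe_cfB] at h1
    refine h1.trans (le_of_eq ?_)
    rw [← Measure.volume_eq_prod]
    ring
  choose K hK hflat using hflat
  refine ⟨∑ a, K a, Finset.sum_nonneg fun a _ => hK a, fun δ hδ Φ hΦ hc => ?_⟩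
  set D : ℝ := ∑ q : Fin 9 × Fin p,
    ∫ x, ‖fderiv ℝ Φ x (cfU h0 (EuclideanSpace.single q 1), 0)‖ ^ 2 with hD
  set T : C.J → Set (Sc b (C.cf X0)) := fun a =>
    {x | ‖C.Lf a (X0 + C.cfT (x.1 : Cfg N))‖ ≤ 2 * δ} with hT
  have hTm : ∀ a, MeasurableSet (T a) := fun a => by
    refine (isClosed_le ?_ continuous_const).measurableSet
    exact ((C.Lf a).continuous.comp (continuous_const.add
      (C.cfT.continuous.comp (continuous_subtype_val.comp continuous_fst)))).norm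
  have iΦ : Integrable (fun x => ‖Φ x‖ ^ 2) (volume : Measure (Sc b (C.cf X0))) :=
    integrable_sq_cs hΦ.continuous hc
  have h1 : ∫ x, ‖(1 - thc C δ (X0 + C.cfT (x.1 : Cfg N))) • Φ x‖ ^ 2 ≤
      ∫ x, ∑ a, (T a).indicator (fun x => ‖Φ x‖ ^ 2) x := by
    refine integral_mono_of_nonneg (Eventually.of_forall fun x => sq_nonneg _)
      (integrable_finsetSum _ fun a _ => iΦ.indicator (hTm a)) (Eventually.of_forall fun x => ?_)
    simp only
    set X := X0 + C.cfT (x.1 : Cfg N) with hX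
    have hle : ‖(1 - thc C δ X) • Φ x‖ ^ 2 ≤ ‖Φ x‖ ^ 2 := by
      rw [norm_smul, mul_pow]
      have h2 : ‖1 - thc C δ X‖ ^ 2 ≤ 1 := by
        rw [Real.norm_eq_abs, sq_abs]
        have := thc_nonneg (C := C) δ X
        have := thc_le_one (C := C) δ X
        nlinarith
      calc _ ≤ 1 * ‖Φ x‖ ^ 2 := mul_le_mul_of_nonneg_right h2 (sq_nonneg _)
        _ = _ := one_mul _
    have hnn : ∀ a ∈ (Finset.univ : Finset C.J), 0 ≤ (T a).indicator (fun x => ‖Φ x‖ ^ 2) x :=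
      fun a _ => indicator_nonneg (fun x _ => sq_nonneg _) x
    by_cases h3 : thc C δ X = 1
    · rw [h3, sub_self, zero_smul, norm_zero]
      rw [zero_pow two_ne_zero]
      exact Finset.sum_nonneg hnn
    · obtain ⟨a, ha⟩ := thc_one hδ h3
      refine hle.trans ?_
      refine le_trans (le_of_eq ?_) (Finset.single_le_sum hnn (Finset.mem_univ a))
      exact (indicator_of_mem (f := fun x => ‖Φ x‖ ^ 2) (show x ∈ T a from ha)).symm
  refine h1.trans ?_
  rw [integral_finsetSum _ fun a _ => iΦ.indicator (hTm a)]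
  simp only [integral_indicator (hTm _)]
  calc ∑ a, ∫ x in T a, ‖Φ x‖ ^ 2 ≤ ∑ a, K a * δ ^ 2 * D :=
        Finset.sum_le_sum fun a _ => hflat a δ hδ Φ hΦ hc
    _ = (∑ a, K a) * δ ^ 2 * D := by rw [← Finset.sum_mul, ← Finset.sum_mul]

end Crest.Agent.R330.XCut924

end
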