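import Crest.Agent.R330.T5Fin_714
import Crest.Agent.R330.T5Sm_478_Mg
import Crest.Agent.R330.Gram6_372_Mg
import Crest.Agent.R330.H6_596
import Crest.Agent.R330.GXB_818
import Crest.Agent.R330.CapIntC_737
import Crest.Agent.R330.HQ_8X_998
import Crest.Agent.R330.LocD_8
import Crest.Agent.R330.XCut_924
import Crest.Agent.R330.LocF_8
import Crest.Agent.R330.LocC_8
import Crest.Agent.R330.LemR_342
import Crest.Agent.R330.GX_818
import Crest.Agent.R330.MassIn_879_Mg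
import Crest.Agent.R330.Amp_406
import Crest.Agent.R330.Amp_837
import Crest.Agent.R330.FibProj_837
import Crest.Agent.R330.GBind_984
import Crest.Agent.R330.AFld_984
import Crest.Agent.R330.PairT_245

-- ▼ part R330/Dual_478
section

/-!
# Row 330, (T5): the dual estimate (plug, helper478)

* `dualAt` : one small chart around every centre in `BReg` (714, 776, 350).
* `dualT` : `DualT P`.
-/

set_option autoImplicit false
set_option linter.unusedSectionVars false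

open MeasureTheory Filter Topology Crest.MathPhysics.MatrixQM
open scoped ContDiff InnerProductSpace ENNReal

noncomputable section

namespace Crest.Agent.R330.Dual478

open Crest.Agent.R330.TDef414 Crest.Agent.R330.PairT714 Crest.Agent.R330.T5Fin714
  Crest.Agent.R330.T5Err714

variable {N p : ℕ} {b : ColorBasis N} {S : Type} [Group S] [Fintype S] {C : Chn b p S}
  {F : Type} [NormedAddCommGroup F] [InnerProductSpace ℂ F] [FiniteDimensional ℂ F]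
  [Nontrivial F] {M : FermionRep N F} {R : GaugeAction b M} {G : GammaNine}

theorem vacAt (P : TPack C M R G) (σ : Sl C) {Γ : F →ₗ[ℂ] F} (hΓ : ParT M G σ Γ) :
    VacAt P σ Γ := fun _ hg α χ _ hq => PairV776.vac_T5 P σ hΓ hg α χ (bT σ) (bU σ) hq

/-- **(T5) in one small chart around every centre.** -/
theorem dualAt (P : TPack C M R G) {X0 : Pos p} (h0 : C.BReg X0) :
    ∃ σ : Sl C, σ.X0 = X0 ∧ DualAt P σ := by
  obtain ⟨δ, hδ, hT⟩ := TestB350.testAt P h0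
  obtain ⟨σ, hσ, h1, h2, h3⟩ := exists_small X0 h0 hδ
  exact ⟨σ, hσ, dualAt_of_test P σ h2 h3 (fun Γ hΓ => vacAt P σ hΓ) (hT σ hσ h1)⟩

/-- **(T5).** -/
theorem dualT (P : TPack C M R G) : ChSys399.DualT P :=
  T5Sm478.dualT_of_small (GramX167.gramT_of_cross P (Gram6372.cross P)) fun _ h => dualAt P h

end Crest.Agent.R330.Dual478

end
end

-- ▼ part R330/H6B_596
section

/-!
# Row 330, S9 capture (H6) part (i), the bound (helper596)

* `cen_blk_le`, `cen_blk_sum_le` : the two parts are bounded by `Aop`, up to `m² ‖c + x.1‖² ‖Φ‖²`.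
-/

set_option autoImplicit false
set_option linter.unusedSectionVars false

open MeasureTheory Filter Topology Crest.MathPhysics.MatrixQM
open scoped ContDiff InnerProductSpace ENNReal

noncomputable section

namespace Crest.Agent.R330.H6596

open Crest.Agent.R330.Defs478 Crest.Agent.R330.LS839 Crest.Agent.R330.Frame839
  Crest.Agent.R330.Bind6839 Crest.Agent.R330.IBP837 Crest.Agent.R330.TDef414
  Crest.Agent.R330.PairT245 Crest.Agent.R330.LemA342 Crest.Agent.R330.Decoup924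
  Crest.Agent.R330.BlkSplit837 Crest.Agent.R330.BlkSplit837.EmbFam

variable {N p : ℕ} {b : ColorBasis N} {S : Type} [Group S] [Fintype S] {C : Chn b p S}
  {X0 : Pos p}
  {F : Type*} [NormedAddCommGroup F] [InnerProductSpace ℂ F] [FiniteDimensional ℂ F]
  {M : FermionRep N F} {G : GammaNine} {g m : ℝ} {α : Fin 16}

theorem norm_Wl_le (x : Cfg N) (v : F) : ‖Wl M G α x v‖ ≤ ‖Wl M G α‖ * ‖x‖ * ‖v‖ :=
  ContinuousLinearMap.le_opNorm₂ _ x v

variable (M G) in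
/-- the constant of `cen_blk_sum_le` -/
def KW : ℝ := 2 * ∑ α, ‖Wl M G α‖ ^ 2

theorem KW_nonneg : 0 ≤ KW M G := by unfold KW; positivity

/-- abstract form of the bound -/
theorem bound_aux {E : Type*} [NormedAddCommGroup E] [NormedSpace ℝ E] [FiniteDimensional ℝ E]
    [MeasurableSpace E] [BorelSpace E] {μ : Measure E} [μ.IsAddHaarMeasure]
    {A O W : E → F} {r : E → ℝ} {K : ℝ} (cO : Continuous O) (sO : HasCompactSupport O)
    (cA : Continuous A) (sA : HasCompactSupport A) (cr : Continuous r) (sr : HasCompactSupport r)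
    (hA : ∀ x, A x = O x + W x) (hW : ∀ x, ‖W x‖ ^ 2 ≤ K * r x) :
    ∫ x, ‖A x‖ ^ 2 ∂μ ≤ 2 * ∫ x, ‖O x‖ ^ 2 ∂μ + 2 * K * ∫ x, r x ∂μ := by
  have iO : Integrable (fun x => ‖O x‖ ^ 2) μ :=
    (cO.norm.pow 2).integrable_of_hasCompactSupport
      (sO.mono' fun x hx => subset_tsupport _ (by intro h; apply hx; simp [h]))
  have iS : Integrable (fun x => ‖A x‖ ^ 2) μ :=
    (cA.norm.pow 2).integrable_of_hasCompactSupport
      (sA.mono' fun x hx => subset_tsupport _ (by intro h; apply hx; simp [h]))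
  have iR : Integrable r μ := cr.integrable_of_hasCompactSupport sr
  rw [← integral_const_mul, ← integral_const_mul, ← integral_add (iO.const_mul _)
    (iR.const_mul _)]
  refine integral_mono iS ((iO.const_mul _).add (iR.const_mul _)) fun x => ?_
  change ‖A x‖ ^ 2 ≤ 2 * ‖O x‖ ^ 2 + 2 * K * r x
  have h1 : ‖A x‖ ≤ ‖O x‖ + ‖W x‖ := by rw [hA]; exact norm_add_le _ _
  have h2 := hW x
  have h3 : ‖A x‖ ^ 2 ≤ (‖O x‖ + ‖W x‖) ^ 2 := by gcongr
  nlinarith [sq_nonneg (‖O x‖ - ‖W x‖)]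

section integrals

variable {μ : Measure (Sc b (C.cf X0))} [μ.IsAddHaarMeasure]

theorem cont_c : Continuous fun x : Sc b (C.cf X0) => C.cf X0 + (x.1 : Cfg N) :=
  continuous_const.add (continuous_subtype_val.comp continuous_fst)

theorem cont_W {Φ : Sc b (C.cf X0) → F} (hΦ : Continuous Φ) :
    Continuous fun x : Sc b (C.cf X0) => Wl M G α (C.cf X0 + x.1) (Φ x) :=
  ((Wl M G α).continuous.comp cont_c).clm_apply hΦ


theorem cont_Aop {ι : Type*} [Fintype ι] (h0 : C.Reg X0)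
    (e : OrthonormalBasis ι ℝ (Uk b (C.cf X0))) {Φ : Sc b (C.cf X0) → F} (hΦ : ContDiff ℝ 2 Φ) :
    Continuous (Aop b (C.cf X0) M G g m α e Φ) := by
  have h1 : Aop b (C.cf X0) M G g m α e Φ = fun x =>
      Acen M G h0 α Φ x + Ablk M G h0 g α Φ x - m • Wl M G α (C.cf X0 + x.1) (Φ x) :=
    funext fun x => Aop_eq h0 e Φ x
  rw [h1]
  exact ((contDiff_Acen (k := 1) h0 (by norm_num) hΦ).continuous.add
    (contDiff_Ablk (k := 1) h0 (by norm_num) hΦ).continuous).sub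
      ((cont_W hΦ.continuous).const_smul m)

theorem hcs_Aop {ι : Type*} [Fintype ι] (e : OrthonormalBasis ι ℝ (Uk b (C.cf X0)))
    {Φ : Sc b (C.cf X0) → F} (hc : HasCompactSupport Φ) :
    HasCompactSupport (Aop b (C.cf X0) M G g m α e Φ) := by
  refine hc.mono' fun x hx => ?_
  by_contra h0
  apply hx
  have h1 : Φ =ᶠ[𝓝 x] 0 := notMem_tsupport_iff_eventuallyEq.mp h0
  have h2 : fderiv ℝ Φ x = 0 := by
    rw [h1.fderiv_eq]; simp
  have h3 : Φ x = 0 := h1.eq_of_nhds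
  simp [Aop, h2, h3]

theorem W_bound {Φ : Sc b (C.cf X0) → F} (x : Sc b (C.cf X0)) :
    ‖m • Wl M G α (C.cf X0 + x.1) (Φ x)‖ ^ 2 ≤
      ‖Wl M G α‖ ^ 2 * m ^ 2 * (‖C.cf X0 + x.1‖ ^ 2 * ‖Φ x‖ ^ 2) := by
  have h1 : ‖m • Wl M G α (C.cf X0 + x.1) (Φ x)‖ ≤
      |m| * (‖Wl M G α‖ * ‖C.cf X0 + x.1‖ * ‖Φ x‖) := by
    rw [norm_smul, Real.norm_eq_abs]
    exact mul_le_mul_of_nonneg_left (norm_Wl_le _ _) (abs_nonneg _)
  calc ‖m • Wl M G α (C.cf X0 + x.1) (Φ x)‖ ^ 2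
      ≤ (|m| * (‖Wl M G α‖ * ‖C.cf X0 + x.1‖ * ‖Φ x‖)) ^ 2 :=
        pow_le_pow_left₀ (norm_nonneg _) h1 2
    _ = _ := by rw [mul_pow, sq_abs]; ring

theorem cen_blk_le {ι : Type*} [Fintype ι] (h0 : C.Reg X0)
    (e : OrthonormalBasis ι ℝ (Uk b (C.cf X0))) {Φ : Sc b (C.cf X0) → F} (hΦ : ContDiff ℝ 2 Φ)
    (hc : HasCompactSupport Φ) :
    ∫ x, ‖Acen M G h0 α Φ x‖ ^ 2 ∂μ + ∫ x, ‖Ablk M G h0 g α Φ x‖ ^ 2 ∂μ ≤
      2 * ∫ x, ‖Aop b (C.cf X0) M G g m α e Φ x‖ ^ 2 ∂μ +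
        2 * (‖Wl M G α‖ ^ 2 * m ^ 2) * ∫ x, ‖C.cf X0 + x.1‖ ^ 2 * ‖Φ x‖ ^ 2 ∂μ := by
  rw [← cen_blk_eq h0 hΦ hc]
  refine bound_aux (μ := μ) (A := fun x => Acen M G h0 α Φ x + Ablk M G h0 g α Φ x)
    (O := Aop b (C.cf X0) M G g m α e Φ)
    (W := fun x => m • Wl M G α (C.cf X0 + x.1) (Φ x))
    (r := fun x => ‖C.cf X0 + x.1‖ ^ 2 * ‖Φ x‖ ^ 2) (K := ‖Wl M G α‖ ^ 2 * m ^ 2)
    (cont_Aop h0 e hΦ) (hcs_Aop e hc)
    ((contDiff_Acen (k := 1) h0 (by norm_num) hΦ).continuous.add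
      (contDiff_Ablk (k := 1) h0 (by norm_num) hΦ).continuous)
    ((hcs_Acen h0 hc).add (hcs_Ablk h0 hc))
    ((cont_c.norm.pow 2).mul (hΦ.continuous.norm.pow 2))
    (hc.mono' fun x hx => subset_tsupport _ (by intro h; apply hx; simp [h]))
    (fun x => ?_) (fun x => W_bound x)
  rw [Aop_eq h0 e Φ x]
  abel

/-- **(H6)(i).** -/
theorem cen_blk_sum_le {ι : Type*} [Fintype ι] (h0 : C.Reg X0)
    (e : OrthonormalBasis ι ℝ (Uk b (C.cf X0))) {Φ : Sc b (C.cf X0) → F} (hΦ : ContDiff ℝ 2 Φ)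
    (hc : HasCompactSupport Φ) :
    ∑ α, ∫ x, ‖Acen M G h0 α Φ x‖ ^ 2 ∂μ + ∑ α, ∫ x, ‖Ablk M G h0 g α Φ x‖ ^ 2 ∂μ ≤
      2 * ∑ α, ∫ x, ‖Aop b (C.cf X0) M G g m α e Φ x‖ ^ 2 ∂μ +
        KW M G * m ^ 2 * ∫ x, ‖C.cf X0 + x.1‖ ^ 2 * ‖Φ x‖ ^ 2 ∂μ := by
  rw [← Finset.sum_add_distrib]
  refine (Finset.sum_le_sum fun α _ => cen_blk_le (g := g) (m := m) h0 e hΦ hc).trans
    (le_of_eq ?_)
  unfold KW
  rw [Finset.sum_add_distrib, ← Finset.mul_sum, ← Finset.sum_mul]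
  congr 1
  rw [← Finset.mul_sum, ← Finset.sum_mul]
  ring

end integrals

end Crest.Agent.R330.H6596

end
end

-- ▼ part R330/GXC_818
section

/-!
# Row 330, S9 (helper818): GX, the centre gradient bound for core vectors

* `gx` : `8 Σ_q ∫‖∂_qΦ‖² ≤ 2 Σ_α∫‖Aop Φ‖² + K m² ∫‖c + x.1‖²‖Φ‖²`.
* `grad_bound` : for `Φ = half b c η φ`, `c = C.cf X0`, `X0` regular, `η` smooth with small support,
  `φ` a core vector: `Σ_q ∫‖∂_qΦ‖² + ∫‖Φ‖² ≤ K (q(φ) + ∫‖φ‖²)`, uniformly in `g ≥ 1`,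
  `0 ≤ m ≤ 1`.
-/

set_option autoImplicit false
set_option linter.unusedSectionVars false

open MeasureTheory Filter Topology Crest.MathPhysics.MatrixQM
open Crest.Agent.R330.IBP837 Crest.Agent.R330.Defs478 Crest.Agent.R330.Frame839
open Crest.Agent.R330.LS839 Crest.Agent.R330.Clus839 Crest.Agent.R330.Bind6839
open Crest.Agent.R330.SlQE87 Crest.Agent.R330.LemA342 Crest.Agent.R330.LemB342
open Crest.Agent.R330.LemC342 Crest.Agent.R330.TDef414 Crest.Agent.R330.H6596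
open scoped ContDiff InnerProductSpace ENNReal

noncomputable section

namespace Crest.Agent.R330.GXB818

variable {N p : ℕ} {b : ColorBasis N} {S : Type} [Group S] [Fintype S] {C : Chn b p S}
  {F : Type*} [NormedAddCommGroup F] [InnerProductSpace ℂ F] [FiniteDimensional ℂ F]
  {M : FermionRep N F} {G : GammaNine} {X0 : Pos p}

/-- **GX.** -/
theorem gx {μ : Measure (Sc b (C.cf X0))} [μ.IsAddHaarMeasure] {ι : Type*} [Fintype ι]
    (h0 : C.Reg X0) (g m : ℝ) (e : OrthonormalBasis ι ℝ (Uk b (C.cf X0)))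
    {Φ : Sc b (C.cf X0) → F} (hΦ : ContDiff ℝ 2 Φ) (hc : HasCompactSupport Φ) :
    8 * ∑ q, ∫ x, ‖fderiv ℝ Φ x (dC h0 q, 0)‖ ^ 2 ∂μ ≤
      2 * ∑ α, ∫ x, ‖Aop b (C.cf X0) M G g m α e Φ x‖ ^ 2 ∂μ +
        KW M G * m ^ 2 * ∫ x, ‖C.cf X0 + x.1‖ ^ 2 * ‖Φ x‖ ^ 2 ∂μ := by
  have h1 := cen_blk_sum_le (μ := μ) (M := M) (G := G) (g := g) (m := m) h0 e hΦ hc
  have h2 : ∑ α, ∫ x, ‖Acen M G h0 α Φ x‖ ^ 2 ∂μ =
      8 * ∫ x, ∑ q, ‖fderiv ℝ Φ x (dC h0 q, 0)‖ ^ 2 ∂μ :=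
    GX818.gx_cen C M G (fun q => (dC h0 q, 0)) hΦ hc
  have h3 : ∫ x, ∑ q, ‖fderiv ℝ Φ x (dC h0 q, 0)‖ ^ 2 ∂μ =
      ∑ q, ∫ x, ‖fderiv ℝ Φ x (dC h0 q, 0)‖ ^ 2 ∂μ := by
    refine integral_finsetSum _ fun q _ => ?_
    have h4 := (GX818.int_pair (μ := μ) hΦ hc (LinearMap.id : F →ₗ[ℂ] F) LinearMap.id
      (dC h0 q, 0) (dC h0 q, 0)).re
    refine h4.congr (ae_of_all _ fun x => ?_)
    simp only [LinearMap.id_coe, id_eq]
    exact inner_self_eq_norm_sq (𝕜 := ℂ) _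
  have h5 : 0 ≤ ∑ α, ∫ x, ‖Ablk M G h0 g α Φ x‖ ^ 2 ∂μ :=
    Finset.sum_nonneg fun α _ => integral_nonneg fun x => sq_nonneg _
  rw [← h3, ← h2]
  linarith

/-- **The centre gradient bound for core vectors.** -/
theorem grad_bound (R : GaugeAction b M) (G : GammaNine) (h0 : C.Reg X0) {r B : ℝ}
    (hr0 : 0 < r) (hr : GapAt (actB b) (C.cf X0) r) (hB : ActBound (actB b) B) (hB0 : 0 < B) :
    ∃ s : ℝ, 0 < s ∧ ∀ η : Sc b (C.cf X0) → ℝ, ContDiff ℝ ∞ η → HasCompactSupport η →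
      (∀ x, s ^ 2 ≤ ‖x.1‖ ^ 2 + ‖x.2‖ ^ 2 → η x = 0) →
      ∃ K : ℝ, 0 ≤ K ∧ ∀ g m : ℝ, 1 ≤ g → 0 ≤ m → m ≤ 1 → ∀ φ : Cfg N → F, IsCoreVec b R φ →
        ∑ q, ∫ x, ‖fderiv ℝ (half b (C.cf X0) η φ) x (dC h0 q, 0)‖ ^ 2 ≤
          K * (qf b M G g m φ + ∫ x, ‖φ x‖ ^ 2) ∧
        ∫ x, ‖half b (C.cf X0) η φ x‖ ^ 2 ≤ K * (qf b M G g m φ + ∫ x, ‖φ x‖ ^ 2) := by
  have hcm : Comc b (C.cf X0) := fun i j => by
    rw [C.comp_cf, C.comp_cf]
    exact C.cen_comm _ _ (C.cen_mem _)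
  rcases subsingleton_or_nontrivial F with hF | hF
  · refine ⟨1, one_pos, fun η _ _ _ => ⟨0, le_rfl, fun g m _ _ _ φ _ => ?_⟩⟩
    have hz : ∀ v : F, ‖v‖ = 0 := fun v => by rw [Subsingleton.elim v 0, norm_zero]
    simp [hz]
  obtain ⟨s, hs, H⟩ := light_bound R G hcm hr0 hr hB hB0
  refine ⟨s, hs, fun η hη hηc hηs => ?_⟩
  obtain ⟨K, hK, hKb⟩ := H η hη hηc hηs _ (stdOrthonormalBasis ℝ (Uk b (C.cf X0)))
  set L : ℝ := ‖C.cf X0‖ + s with hL
  have hL0 : 0 ≤ L := by positivity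
  have i1 : ((volume : Measure (Uk b (C.cf X0))).prod
      (volume : Measure (Zs b (C.cf X0)))).IsAddHaarMeasure :=
    Measure.prod.instIsAddHaarMeasure _ _
  have hKW : 0 ≤ KW M G := by
    unfold KW
    positivity
  refine ⟨(2 * K + KW M G * (L ^ 2 * K)) + K, by positivity,
    fun g m hg hm hm1 φ hφ => ?_⟩
  obtain ⟨h1, h2⟩ := hKb g m hg hm hm1 φ hφ
  have hq0 : 0 ≤ qf b M G g m φ := CapZA818.qf_nonneg' b M G _ _ _
  have hn0 : 0 ≤ ∫ x, ‖φ x‖ ^ 2 := integral_nonneg fun _ => sq_nonneg _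
  set E : ℝ := qf b M G g m φ + ∫ x, ‖φ x‖ ^ 2 with hE
  have hE0 : 0 ≤ E := by positivity
  have hΦ : ContDiff ℝ 2 (half b (C.cf X0) η φ) := (contDiff_half hη hφ.1).of_le (by norm_cast)
  have hΦc : HasCompactSupport (half b (C.cf X0) η φ) := compact_half hηc φ
  have h3 := gx (μ := (volume : Measure (Uk b (C.cf X0))).prod
    (volume : Measure (Zs b (C.cf X0)))) (M := M) (G := G) h0 g m
    (stdOrthonormalBasis ℝ (Uk b (C.cf X0))) hΦ hΦc
  have h4 : ∫ x : Sc b (C.cf X0), ‖C.cf X0 + x.1‖ ^ 2 * ‖half b (C.cf X0) η φ x‖ ^ 2 ≤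
      L ^ 2 * ∫ x, ‖half b (C.cf X0) η φ x‖ ^ 2 := by
    rw [← integral_const_mul]
    have hi : Integrable (fun x : Sc b (C.cf X0) => L ^ 2 * ‖half b (C.cf X0) η φ x‖ ^ 2)
        ((volume : Measure (Uk b (C.cf X0))).prod (volume : Measure (Zs b (C.cf X0)))) := by
      refine Integrable.const_mul ?_ _
      refine (hΦ.continuous.norm.pow 2).integrable_of_hasCompactSupport ?_
      exact hΦc.norm.comp_left (g := fun t : ℝ => t ^ 2) (by norm_num)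
    refine integral_mono_of_nonneg (ae_of_all _ fun x => by positivity) hi
      (ae_of_all _ fun x => ?_)
    simp only
    by_cases hx : s ^ 2 ≤ ‖x.1‖ ^ 2 + ‖x.2‖ ^ 2
    · have h5 : half b (C.cf X0) η φ x = 0 := by
        unfold half
        rw [hηs x hx, zero_smul]
      rw [h5]
      simp
    · push Not at hx
      have h6 : ‖x.1‖ ^ 2 < s ^ 2 := by nlinarith [sq_nonneg ‖x.2‖]
      have h7 : ‖x.1‖ < s := lt_of_pow_lt_pow_left₀ 2 hs.le h6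
      have h8 : ‖C.cf X0 + (x.1 : Cfg N)‖ ≤ L := (norm_add_le _ _).trans (by
        rw [hL]
        exact add_le_add le_rfl h7.le)
      exact mul_le_mul_of_nonneg_right (pow_le_pow_left₀ (norm_nonneg _) h8 2) (sq_nonneg _)
  have hm2 : m ^ 2 ≤ 1 := pow_le_one₀ hm hm1
  refine ⟨?_, ?_⟩
  · have h9 : KW M G * m ^ 2 * ∫ x : Sc b (C.cf X0), ‖C.cf X0 + x.1‖ ^ 2 *
        ‖half b (C.cf X0) η φ x‖ ^ 2 ≤ KW M G * (L ^ 2 * (K * E)) := by
      have h10 : 0 ≤ ∫ x : Sc b (C.cf X0), ‖C.cf X0 + x.1‖ ^ 2 *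
          ‖half b (C.cf X0) η φ x‖ ^ 2 := integral_nonneg fun x => by positivity
      calc KW M G * m ^ 2 * ∫ x : Sc b (C.cf X0), ‖C.cf X0 + x.1‖ ^ 2 *
            ‖half b (C.cf X0) η φ x‖ ^ 2
          ≤ KW M G * 1 * ∫ x : Sc b (C.cf X0), ‖C.cf X0 + x.1‖ ^ 2 *
            ‖half b (C.cf X0) η φ x‖ ^ 2 := by gcongr
        _ ≤ KW M G * (L ^ 2 * (K * E)) := by
          rw [mul_one]
          refine mul_le_mul_of_nonneg_left (h4.trans ?_) hKW
          exact mul_le_mul_of_nonneg_left h2 (sq_nonneg _)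
    have h11 : 0 ≤ ∑ q, ∫ x, ‖fderiv ℝ (half b (C.cf X0) η φ) x (dC h0 q, 0)‖ ^ 2 :=
      Finset.sum_nonneg fun q _ => integral_nonneg fun x => sq_nonneg _
    have h12 : 8 * ∑ q, ∫ x, ‖fderiv ℝ (half b (C.cf X0) η φ) x (dC h0 q, 0)‖ ^ 2 ≤
        2 * (K * E) + KW M G * (L ^ 2 * (K * E)) := by
      refine h3.trans (add_le_add ?_ h9)
      exact mul_le_mul_of_nonneg_left h1 (by norm_num)
    have h13 : 0 ≤ K * E := mul_nonneg hK hE0
    nlinarith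
  · have h13 : 0 ≤ K * E := mul_nonneg hK hE0
    have h14 : 0 ≤ KW M G * (L ^ 2 * K) * E := by positivity
    nlinarith

end Crest.Agent.R330.GXB818

end
end

-- ▼ part R330/GXD_818
section

/-!
# Row 330, S9 (helper818): GX in the names of the charts

* `grad_chart` : for every chart `σ` there is `r₁ > 0` such that for every smooth cut-off `κ` with
  compact support in `‖x.1 + x.2‖ < r₁`: `Σ_q ∫‖∂_q (half κ φ)‖² ≤ K En(φ)`, `∫‖half κ φ‖² ≤ K En(φ)`,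
  uniformly in `g ≥ 1`, `0 ≤ m ≤ 1` and the core vector `φ`.
* `grad_uE` : the same in 245's coordinates `uE`.
* `grad_null` : the same along a sequence of bounded energy.
-/

set_option autoImplicit false
set_option linter.unusedSectionVars false

open MeasureTheory Filter Topology Crest.MathPhysics.MatrixQM
open Crest.Agent.R330.IBP837 Crest.Agent.R330.Defs478 Crest.Agent.R330.Frame839
open Crest.Agent.R330.LS839 Crest.Agent.R330.Clus839 Crest.Agent.R330.Bind6839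
open Crest.Agent.R330.SlQE87 Crest.Agent.R330.LemA342 Crest.Agent.R330.LemB342
open Crest.Agent.R330.LemC342 Crest.Agent.R330.TDef414 Crest.Agent.R330.H6596
open Crest.Agent.R330.PairT245 Crest.Agent.R330.TrialSys796
open scoped ContDiff InnerProductSpace ENNReal

noncomputable section

namespace Crest.Agent.R330.GXB818

variable {N p : ℕ} {b : ColorBasis N} {S : Type} [Group S] [Fintype S] {C : Chn b p S}
  {F : Type*} [NormedAddCommGroup F] [InnerProductSpace ℂ F] [FiniteDimensional ℂ F]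
  {M : FermionRep N F}

theorem reg_X0 (σ : Sl C) : C.Reg σ.X0 := σ.reg σ.X0 (by
  rw [sub_self, norm_zero]
  exact σ.pos)

/-- **GX on a chart.** -/
theorem grad_chart (R : GaugeAction b M) (G : GammaNine) (σ : Sl C) :
    ∃ r₁ : ℝ, 0 < r₁ ∧ ∀ κ : Sc b (C.cf σ.X0) → ℝ, ContDiff ℝ ∞ κ → HasCompactSupport κ →
      (∀ x, κ x ≠ 0 → ‖(x.1 : Cfg N) + x.2‖ < r₁) →
      ∃ K : ℝ, 0 ≤ K ∧ ∀ g m : ℝ, 1 ≤ g → 0 ≤ m → m ≤ 1 → ∀ φ : Cfg N → F, IsCoreVec b R φ →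
        ∑ q, ∫ x, ‖fderiv ℝ (half b (C.cf σ.X0) κ φ) x (dC (reg_X0 σ) q, 0)‖ ^ 2 ≤
          K * En b M G g m φ ∧
        ∫ x, ‖half b (C.cf σ.X0) κ φ x‖ ^ 2 ≤ K * En b M G g m φ := by
  obtain ⟨r₀, -, hr₀, -, -, hgap, -⟩ := σ.gap
  obtain ⟨B, hB0, hB⟩ := exists_actBound b
  obtain ⟨s, hs, H⟩ := grad_bound R G (reg_X0 σ) hr₀ hgap hB hB0
  refine ⟨s, hs, fun κ hκ hκc hκs => ?_⟩
  obtain ⟨K, hK, h1⟩ := H κ hκ hκc fun x hx => by
    by_contra h0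
    have h2 := hκs x h0
    have h3 : ‖(x.1 : Cfg N) + x.2‖ ^ 2 = ‖x.1‖ ^ 2 + ‖x.2‖ ^ 2 := by
      rw [@norm_add_sq_real, Zs_perp_Uk x.1.2 x.2.2]
      simp
    have h4 : ‖(x.1 : Cfg N) + x.2‖ ^ 2 < s ^ 2 := pow_lt_pow_left₀ h2 (norm_nonneg _) two_ne_zero
    linarith
  refine ⟨K, hK, fun g m hg hm hm1 φ hφ => ?_⟩
  have h5 := h1 g m hg hm hm1 φ hφ
  have h6 : En b M G g m φ = qf b M G g m φ + ∫ x, ‖φ x‖ ^ 2 := add_comm _ _
  rw [h6]
  exact h5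


end Crest.Agent.R330.GXB818

end
end

-- ▼ part R330/HQ2_998
section

/-!
# Row 330, S9-LOC (helper998): the cut-offs of 8 and 924

* `cut_cutm` : `ϑ(X) κ0` is a `Cut` if `tsupport ϑ` is in `BReg`.
* `rad_inv` : invariance of the radial cut-off in the relational form.
-/

set_option autoImplicit false
set_option linter.unusedSectionVars false

open MeasureTheory Filter Topology Crest.MathPhysics.MatrixQM
open scoped ContDiff InnerProductSpace ENNReal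

noncomputable section

namespace Crest.Agent.R330.HQ2998

open Crest.Agent.R330.Defs478 Crest.Agent.R330.LS839 Crest.Agent.R330.Frame839
  Crest.Agent.R330.Clus839
  Crest.Agent.R330.Bind6839 Crest.Agent.R330.TDef414
  Crest.Agent.R330.LemA342 Crest.Agent.R330.LocB8 Crest.Agent.R330.HQ998
  Crest.Agent.R330.LocC8 Crest.Agent.R330.LocD8 Crest.Agent.R330.SlQE87
open Crest.Agent.R330.KEq823 (actU actZ)

variable {N p : ℕ} {b : ColorBasis N} {S : Type} [Group S] [Fintype S] {C : Chn b p S}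
  {F : Type*} [NormedAddCommGroup F] [InnerProductSpace ℂ F] [FiniteDimensional ℂ F]
  {σ : Sl C} {κ0 : Sc b (C.cf σ.X0) → ℝ} {ϑ : Pos p → ℝ}






theorem cut_cutm_rad {s : ℝ} (hs : 0 < s) (hϑ : ContDiff ℝ ∞ ϑ)
    (hb : ∀ X ∈ tsupport ϑ, C.BReg X) : Cut σ (cutm σ ϑ (rad s)) := cut_radT hs hϑ hb




end Crest.Agent.R330.HQ2998

end
end

-- ▼ part R330/XCutB_924
section

/-!
# Row 330, S9-XCUT (helper924): the tail input of the local capture estimate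

* `tailIn_of` : `TailIn` from the bound of the gradient along the centre.
* `tail` : `LocAt.tail` of `LocF_8`.
-/

set_option autoImplicit false
set_option linter.unusedSectionVars false

open MeasureTheory Filter Topology Set Crest.MathPhysics.MatrixQM
open scoped ContDiff InnerProductSpace ENNReal

noncomputable section

namespace Crest.Agent.R330.XCut924

open Crest.Agent.R330.Defs478 Crest.Agent.R330.LS839 Crest.Agent.R330.Frame839
  Crest.Agent.R330.Clus839 Crest.Agent.R330.Bind6839 Crest.Agent.R330.TDef414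
  Crest.Agent.R330.LemA342 Crest.Agent.R330.LocB8 Crest.Agent.R330.LocC8
  Crest.Agent.R330.LocD8 Crest.Agent.R330.LocF8 Crest.Agent.R330.SlQE87
  Crest.Agent.R330.H6596 Crest.Agent.R330.TrialSys796
open Crest.Agent.R330.HQ998 (rad)

variable {N p : ℕ} {b : ColorBasis N} {S : Type} [Group S] [Fintype S] {C : Chn b p S}
  {F : Type*} [NormedAddCommGroup F] [InnerProductSpace ℂ F] [FiniteDimensional ℂ F]
  {M : FermionRep N F} {R : GaugeAction b M} {G : GammaNine}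

theorem cfU_single {X0 : Pos p} (h0 : C.Reg X0) (q : Fin 9 × Fin p) :
    cfU h0 (EuclideanSpace.single q 1) = dC h0 q :=
  Subtype.ext (by rw [coe_cfU, coe_dC])

/-- **The tail input** from the gradient along the centre. -/
theorem tailIn_of {σ : Sl C} (h0 : C.Reg σ.X0) {κ0 : Sc b (C.cf σ.X0) → ℝ} {m K : ℝ}
    (hκ : ContDiff ℝ ∞ κ0) (hκc : HasCompactSupport κ0)
    (hcut : ∀ ϑ : Pos p → ℝ, ContDiff ℝ ∞ ϑ → (∀ X ∈ tsupport ϑ, C.BReg X) →
      Cut σ (cutm σ ϑ κ0)) (hK : 0 ≤ K)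
    (hG : ∀ᶠ g in atTop, ∀ φ : Cfg N → F, IsCoreVec b R φ →
      ∑ q, ∫ x, ‖fderiv ℝ (half b (C.cf σ.X0) κ0 φ) x (dC h0 q, 0)‖ ^ 2 ≤
        K * En b M G g m φ) : TailIn (R := R) (G := G) σ κ0 m := by
  obtain ⟨K1, hK1, htail⟩ := exists_tail (F := F) C h0
  intro e he
  obtain ⟨δ, hδ, hδe⟩ : ∃ δ : ℝ, 0 < δ ∧ K1 * δ ^ 2 * K ≤ e := by
    refine ⟨Real.sqrt (e / (K1 * K + 1)), Real.sqrt_pos.2 (by positivity), ?_⟩
    rw [Real.sq_sqrt (by positivity)]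
    have h1 : K1 * (e / (K1 * K + 1)) * K = e * ((K1 * K) / (K1 * K + 1)) := by ring
    have h2 : K1 * K / (K1 * K + 1) ≤ 1 := by
      rw [div_le_one (by positivity)]
      linarith
    rw [h1]
    nlinarith
  refine ⟨thc C δ, thc_smooth δ, thc_nonneg δ, thc_le_one δ,
    hcut _ (thc_smooth δ) fun X hX => tsupport_thc hδ hX, ?_⟩
  filter_upwards [hG] with g hg φ hφ
  have hΦs : ContDiff ℝ ∞ (half b (C.cf σ.X0) κ0 φ) := LocC8.contDiff_half hκ hφ.1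
  have hΦc : HasCompactSupport (half b (C.cf σ.X0) κ0 φ) := LocC8.hcs_half hκc
  set Φ := half b (C.cf σ.X0) κ0 φ with hΦ
  have hθ : Continuous fun x : Sc b (C.cf σ.X0) =>
      1 - thc C δ (σ.X0 + C.cfT (x.1 : Cfg N)) :=
    continuous_const.sub ((thc_smooth (C := C) δ).continuous.comp (continuous_const.add
      (C.cfT.continuous.comp (continuous_subtype_val.comp continuous_fst))))
  have h1 : ∫ u : Uk b (C.cf σ.X0), (1 - thc C δ (posu σ (u : Cfg N))) ^ 2 *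
      ∫ z, ‖Φ (u, z)‖ ^ 2 =
      ∫ x, ‖(1 - thc C δ (σ.X0 + C.cfT (x.1 : Cfg N))) • Φ x‖ ^ 2 := by
    have hi : Integrable (fun x => ‖(1 - thc C δ (σ.X0 + C.cfT (x.1 : Cfg N))) • Φ x‖ ^ 2)
        (volume : Measure (Sc b (C.cf σ.X0))) :=
      integrable_sq_cs (hθ.smul hΦs.continuous) hΦc.smul_left
    rw [Measure.volume_eq_prod] at hi ⊢
    rw [integral_prod _ hi]
    refine integral_congr_ae (Eventually.of_forall fun u => ?_)
    simp only [norm_smul, mul_pow, Real.norm_eq_abs, sq_abs]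
    rw [integral_const_mul]
    rfl
  rw [h1]
  have h2 := htail δ hδ Φ (hΦs.of_le (by norm_cast)) hΦc
  simp only [cfU_single] at h2
  have h3 := hg φ hφ
  have hE : 0 ≤ En b M G g m φ := LocD8.En_nonneg _ _ _
  calc _ ≤ K1 * δ ^ 2 * ∑ q, ∫ x, ‖fderiv ℝ Φ x (dC h0 q, 0)‖ ^ 2 := h2
    _ ≤ K1 * δ ^ 2 * (K * En b M G g m φ) := mul_le_mul_of_nonneg_left h3 (by positivity)
    _ = (K1 * δ ^ 2 * K) * En b M G g m φ := by ring
    _ ≤ e * En b M G g m φ := mul_le_mul_of_nonneg_right hδe hE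

/-- **`LocAt.tail`.** -/
theorem tail (M : FermionRep N F) (R : GaugeAction b M) (G : GammaNine) (σ : Sl C) {m : ℝ}
    (hm : 0 ≤ m) (hm1 : m ≤ 1) :
    Small σ fun _ s => TailIn (R := R) (G := G) σ (rad s) m := by
  obtain ⟨r₁, hr₁, h⟩ := GXB818.grad_chart (M := M) R G σ
  refine ⟨r₁, 1, hr₁, one_pos, fun s hs hs' ρ _ => ?_⟩
  obtain ⟨K, hK, hg⟩ := h (rad s) (HQ998.contDiff_rad s) (HQ998.hcs_rad hs) fun x hx => by
    by_contra hn
    exact hx (HQ998.rad_zero hs (hs'.trans (not_lt.1 hn)))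
  refine tailIn_of (GXB818.reg_X0 σ) (HQ998.contDiff_rad s) (HQ998.hcs_rad hs)
    (fun ϑ h1 h2 => HQ2998.cut_cutm_rad hs h1 h2) hK ?_
  filter_upwards [eventually_ge_atTop (1 : ℝ)] with g hg1 φ hφ
  exact (hg g m hg1 hm hm1 φ hφ).1

end Crest.Agent.R330.XCut924

end
end

-- ▼ part R330/H6C_596
section

/-!
# Row 330, S9 capture (H6) part (ii): the block charges of the fibre projection (helper596)

`wB P σ ρ κ g φ X Y` of `LocC_8` (fibre projection of `half b c κ φ` in block coordinates).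

* `pV_comm` : the projection on the heavy vacua commutes with the light coefficients.
* `qblkB_eq` : `qblkB (wB X) Y = pV X ∫ gs (Ablk Φ)`.
* `qblkB_wB_le`, `qblkB_wB_sum_le` : `Σ_α ∫∫ ‖qblkB (wB X)‖² ≤ Σ_α ∫ ‖Ablk α Φ‖²`.
* `qblkB_wB_Aop_le` : the same, bounded by `Aop`.
-/

set_option autoImplicit false
set_option linter.unusedSectionVars false

open MeasureTheory Filter Topology Crest.MathPhysics.MatrixQM
open scoped ContDiff InnerProductSpace ENNReal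

noncomputable section

namespace Crest.Agent.R330.H6596

open Crest.Agent.R330.Defs478 Crest.Agent.R330.LS839 Crest.Agent.R330.Frame839
  Crest.Agent.R330.Bind6839 Crest.Agent.R330.IBP837 Crest.Agent.R330.TDef414
  Crest.Agent.R330.PairT245 Crest.Agent.R330.LemA342 Crest.Agent.R330.Decoup924
  Crest.Agent.R330.BlkSplit837 Crest.Agent.R330.BlkSplit837.EmbFam
  Crest.Agent.R330.FibProj837 Crest.Agent.R330.DirG837 Crest.Agent.R330.SlQE87
open Crest.Agent.R330.LocB8 (posu Vac pV gsl posu pV_mem norm_pV_le contDiff_gsl integral_gsl_sq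
  memLp_gsl)
open Crest.Agent.R330.LocC8 (Cut wf vf ks bs contDiff_half hcs_half contDiff_vf wB_zero ks_breg
  posu_uE wf_eq contDiff_wB)

variable {N p : ℕ} {b : ColorBasis N} {S : Type} [Group S] [Fintype S] {C : Chn b p S}
  {F : Type*} [NormedAddCommGroup F] [InnerProductSpace ℂ F] [FiniteDimensional ℂ F]
  {M : FermionRep N F} {R : GaugeAction b M} {G : GammaNine}

/-! ## Commutation -/

theorem sproj_comm {V : Submodule ℂ F} {L : F →ₗ[ℂ] F} {ε : ℂ} (hL : ∀ f ∈ V, L f ∈ V)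
    (hs : ∀ f h, ⟪L f, h⟫_ℂ = ε * ⟪f, L h⟫_ℂ) (f : F) :
    V.starProjection (L f) = L (V.starProjection f) := by
  refine Submodule.eq_starProjection_of_mem_of_inner_eq_zero
    (hL _ (Submodule.starProjection_apply_mem _ _)) fun w hw => ?_
  rw [← map_sub, hs, Submodule.starProjection_inner_eq_zero _ _ (hL w hw), mul_zero]

/-- light coefficients preserve the heavy vacua -/
theorem od_Vac (P : TPack C M R G) {X : Pos p} (hX : C.Reg X) {L : F →ₗ[ℂ] F}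
    (hL : L ∈ Od M C.kk) {f : F} (hf : f ∈ Vac P X) : L f ∈ Vac P X := by
  intro z hz α
  have hkc : kc (actB b) (C.cf X) = C.kk := hX
  have h1 : Theta M G α (P.A X z) ∈ Od M C.kkᗮ := Theta_mem M G α (P.A_off X hX z)
  have h2 : wB b M G 1 α (C.cf X) z ∈ Od M C.kkᗮ := by
    have h3 : z ∈ Mm b (C.cf X) := by
      unfold Mm
      rw [hkc]
      exact hz
    have h4 := wB_mem M G 1 α (self_mem_Uk (Comc_cf (C := C) X)) h3
    rwa [hkc] at h4
  set T : F →ₗ[ℂ] F := Complex.I • Theta M G α (P.A X z) + wB b M G 1 α (C.cf X) z with hT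
  have hTm : T ∈ Od M C.kkᗮ := Submodule.add_mem _ (Submodule.smul_mem _ _ h1) h2
  have h5 : T (L f) = -L (T f) :=
    Od_anti M (fun u hu v hv => by
      rw [real_inner_comm]
      exact (Submodule.mem_orthogonal _ _).1 hu v hv) hTm hL f
  have h6 : T f = 0 := hf z hz α
  change T (L f) = 0
  rw [h5, h6, map_zero, neg_zero]

theorem pV_comm (P : TPack C M R G) {X : Pos p} (hX : C.Reg X) {L : F →ₗ[ℂ] F}
    (hL : L ∈ Od M C.kk) {ε : ℂ} (hs : ∀ f h, ⟪L f, h⟫_ℂ = ε * ⟪f, L h⟫_ℂ) (f : F) :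
    pV P X (L f) = L (pV P X f) :=
  sproj_comm (fun _ hf => od_Vac P hX hL hf) hs f

theorem pV_aA (P : TPack C M R G) {X : Pos p} (hX : C.Reg X) {α : Fin 16} {e : Cfg N}
    (he : e ∈ Tup C.kk) (f : F) : pV P X (aA M G α e f) = aA M G α e (pV P X f) :=
  pV_comm P hX (ε := -1) (Submodule.smul_mem _ _ (Theta_mem M G α he))
    (fun f h => by rw [neg_one_mul]; exact aA_skew M G α e f h) f

theorem wA_mem_kk {g m : ℝ} {α : Fin 16} {X : Pos p} (hX : C.Reg X) {Y : Cfg N}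
    (hY : Y ∈ Tup C.kk) : wA b M G g m α Y ∈ Od M C.kk := by
  have hkc : kc (actB b) (C.cf X) = C.kk := hX
  have h1 : Y ∈ Uk b (C.cf X) := (Uk_eq hX).ge hY
  have h2 := wA_mem M G g m α h1
  rwa [hkc] at h2

theorem pV_wA (P : TPack C M R G) {X : Pos p} (hX : C.Reg X) {α : Fin 16} {g m : ℝ} {Y : Cfg N}
    (hY : Y ∈ Tup C.kk) (f : F) : pV P X (wA b M G g m α Y f) = wA b M G g m α Y (pV P X f) :=
  pV_comm P hX (ε := 1) (wA_mem_kk hX hY)
    (fun f h => by rw [one_mul]; exact wA_symm M G g m α Y f h) f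

/-! ## Derivatives along the blocks -/

theorem fderiv_zero_of_const {E H : Type*} [NormedAddCommGroup E] [NormedSpace ℝ E]
    [NormedAddCommGroup H] [NormedSpace ℝ H] {f : E → H} {x v : E}
    (h : ∀ t : ℝ, f (x + t • v) = f x) : fderiv ℝ f x v = 0 := by
  by_cases hd : DifferentiableAt ℝ f x
  · have h1 : HasDerivAt (fun t : ℝ => f (x + t • v)) (fderiv ℝ f x v) 0 :=
      hd.hasFDerivAt.hasLineDerivAt v
    have h2 : HasDerivAt (fun t : ℝ => f (x + t • v)) 0 0 := by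
      simp only [h]
      exact hasDerivAt_const _ _
    exact h1.unique h2
  · rw [fderiv_zero_of_not_differentiableAt hd]
    rfl

variable {P : TPack C M R G} {σ : Sl C} {ρ : Pos p → Pos p} {κ : Sc b (C.cf σ.X0) → ℝ} {g : ℝ}
  {φ : Cfg N → F} {α : Fin 16}

theorem posu_blk (u : Cfg N) (t : ℝ) {Y : Cfg N} (hY : Y ∈ C.Blk) :
    posu σ (u + t • Y) = posu σ u := by
  unfold posu
  rw [map_add, map_smul, cfT_of_perp hY.2, smul_zero, add_zero]

theorem fderiv_gsl_blk (x : Sc b (C.cf σ.X0)) (n : Fin (Module.finrank ℝ C.Blk)) :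
    fderiv ℝ (gsl P σ ρ g) x (dB (BrT5658.reg0 σ) n, 0) = 0 := by
  refine fderiv_zero_of_const fun t => ?_
  unfold gsl
  have h1 : posu σ ((x + t • ((dB (BrT5658.reg0 σ) n, 0) : Sc b (C.cf σ.X0))).1 : Cfg N) =
      posu σ (x.1 : Cfg N) := posu_blk _ t (stdOrthonormalBasis ℝ C.Blk n).2
  have h2 : (x + t • ((dB (BrT5658.reg0 σ) n, 0) : Sc b (C.cf σ.X0))).2 = x.2 := by
    simp
  rw [h1, h2]

theorem vf_qblk (hρ : ContDiff ℝ ∞ ρ) (hr : ∀ X, ‖ρ X - σ.X0‖ < σ.r) (hκ : Cut σ κ)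
    (hφ : ContDiff ℝ ∞ φ) (u : Uk b (C.cf σ.X0)) :
    (∑ n, aA M G α (dB (BrT5658.reg0 σ) n : Cfg N)
        (fderiv ℝ (vf P σ ρ κ g φ) u (dB (BrT5658.reg0 σ) n))) +
      wA b M G g 0 α (C.PY u) (vf P σ ρ κ g φ u) =
    fpr volume (gsl P σ ρ g) (fun _ => LinearMap.id)
      (Ablk M G (BrT5658.reg0 σ) g α (half b (C.cf σ.X0) κ φ)) u := by
  have h := dirG_fpr (μ := (volume : Measure (Zs b (C.cf σ.X0)))) (gs := gsl P σ ρ g)
    (p := fun _ => (LinearMap.id : F →ₗ[ℂ] F)) (Φ := half b (C.cf σ.X0) κ φ)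
    (e := fun n => dB (BrT5658.reg0 σ) n)
    (a := fun n _ => Theta M G α (dB (BrT5658.reg0 σ) n : Cfg N))
    (V := fun u => wA b M G g 0 α (C.PY u))
    ((contDiff_gsl hρ hr g).of_le (by simp)) (fun _ => contDiff_const)
    ((contDiff_half hκ.smooth hφ).of_le (by simp)) (hcs_half hκ.supp)
    (fun n u z => fderiv_gsl_blk (u, z) n) (fun _ _ _ => by simp) (fun _ _ _ => rfl)
    (fun _ _ => rfl) u
  exact h

/-- `wB` in terms of `vf` -/
theorem wB_eq (X : Pos p) : LocC8.wB P σ ρ κ g φ X = fun Y : C.Blk =>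
    pV P X (vf P σ ρ κ g φ (uE (BrT5658.reg0 σ) (X - σ.X0, Y))) := by
  funext Y
  unfold LocC8.wB
  rw [wf_eq, posu_uE, add_sub_cancel]

theorem fderiv_wB (hρ : ContDiff ℝ ∞ ρ) (hr : ∀ X, ‖ρ X - σ.X0‖ < σ.r) (hκ : Cut σ κ)
    (hφ : ContDiff ℝ ∞ φ) (X : Pos p) (Y : C.Blk) (n : Fin (Module.finrank ℝ C.Blk)) :
    fderiv ℝ (LocC8.wB P σ ρ κ g φ X) Y (stdOrthonormalBasis ℝ C.Blk n) =
      pV P X (fderiv ℝ (vf P σ ρ κ g φ) (uE (BrT5658.reg0 σ) (X - σ.X0, Y))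
        (dB (BrT5658.reg0 σ) n)) := by
  have hv : HasFDerivAt (vf P σ ρ κ g φ)
      (fderiv ℝ (vf P σ ρ κ g φ) (uE (BrT5658.reg0 σ) (X - σ.X0, Y)))
      (uE (BrT5658.reg0 σ) (X - σ.X0, Y)) :=
    ((contDiff_vf hρ hr hκ.smooth hκ.supp hφ).differentiable (by simp) _).hasFDerivAt
  have h1 : HasFDerivAt (fun Y : C.Blk => ((X - σ.X0, Y) : Pos p × C.Blk))
      ((0 : C.Blk →L[ℝ] Pos p).prod (ContinuousLinearMap.id ℝ C.Blk)) Y :=
    (hasFDerivAt_const _ _).prodMk (hasFDerivAt_id _)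
  have h2 := (uE (BrT5658.reg0 σ)).hasFDerivAt (x := ((X - σ.X0, Y) : Pos p × C.Blk))
  have h3 := hv.comp Y (h2.comp Y h1)
  have h4 := (toR (pV P X)).hasFDerivAt.comp Y h3
  have h5 : LocC8.wB P σ ρ κ g φ X = (toR (pV P X)) ∘ ((vf P σ ρ κ g φ) ∘
      ((uE (BrT5658.reg0 σ)) ∘ fun Y : C.Blk => ((X - σ.X0, Y) : Pos p × C.Blk))) := wB_eq X
  rw [h5, h4.fderiv]
  have h6 : uE (BrT5658.reg0 σ) ((0, stdOrthonormalBasis ℝ C.Blk n) : Pos p × C.Blk) =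
      dB (BrT5658.reg0 σ) n := by
    apply Subtype.ext
    rw [coe_uE, coe_dB]
    simp
  simp only [ContinuousLinearMap.comp_apply, toR_apply]
  rw [← h6]
  rfl

theorem PY_uE (X' : Pos p) (Y : C.Blk) :
    C.PY (uE (BrT5658.reg0 σ) (X', Y) : Cfg N) = Y := by
  rw [coe_uE, PY_sum' X' Y.2]

/-- **The block charges of the fibre projection.** -/
theorem qblkB_eq (hρ : ContDiff ℝ ∞ ρ) (hr : ∀ X, ‖ρ X - σ.X0‖ < σ.r) (hκ : Cut σ κ)
    (hφ : ContDiff ℝ ∞ φ) {X : Pos p} (hX : C.Reg X) (Y : C.Blk) :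
    qblkB M G g α (LocC8.wB P σ ρ κ g φ X) Y =
      pV P X (fpr volume (gsl P σ ρ g) (fun _ => LinearMap.id)
        (Ablk M G (BrT5658.reg0 σ) g α (half b (C.cf σ.X0) κ φ))
          (uE (BrT5658.reg0 σ) (X - σ.X0, Y))) := by
  rw [← vf_qblk hρ hr hκ hφ]
  unfold qblkB
  simp only [fderiv_wB hρ hr hκ hφ]
  rw [map_add, map_sum, PY_uE, pV_wA P hX Y.2.1, wB_eq]
  congr 1
  refine Finset.sum_congr rfl fun n _ => ?_
  rw [pV_aA P hX (e := (dB (BrT5658.reg0 σ) n : Cfg N))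
    (stdOrthonormalBasis ℝ C.Blk n).2.1]
  rfl

theorem qblkB_zero (Y : C.Blk) :
    qblkB M G g α (fun _ : C.Blk => (0 : F)) Y = 0 := by
  unfold qblkB
  simp

theorem cont_Ablk {X0 : Pos p} (h0 : C.Reg X0) {Φ : Sc b (C.cf X0) → F} (hΦ : ContDiff ℝ ∞ Φ) :
    Continuous (Ablk M G h0 g α Φ) :=
  (contDiff_Ablk (k := 1) (n := 2) h0 (by norm_num)
    (hΦ.of_le ENat.LEInfty.out)).continuous

/-- pointwise bound -/
theorem qblkB_sq_le (hρ : ContDiff ℝ ∞ ρ) (hr : ∀ X, ‖ρ X - σ.X0‖ < σ.r) (hκ : Cut σ κ)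
    (hφ : ContDiff ℝ ∞ φ) (hg : 0 < g) (X : Pos p) (Y : C.Blk) :
    ‖qblkB M G g α (LocC8.wB P σ ρ κ g φ X) Y‖ ^ 2 ≤
      ∫ z, ‖Ablk M G (BrT5658.reg0 σ) g α (half b (C.cf σ.X0) κ φ)
        (uE (BrT5658.reg0 σ) (X - σ.X0, Y), z)‖ ^ 2 := by
  by_cases hX : X ∈ ks κ
  · rw [qblkB_eq hρ hr hκ hφ (ks_breg hκ hX).reg]
    have h1 := norm_fpr_sq_le (μ := (volume : Measure (Zs b (C.cf σ.X0))))
      (gs := gsl P σ ρ g) (p := fun _ => (LinearMap.id : F →ₗ[ℂ] F))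
      (Φ := Ablk M G (BrT5658.reg0 σ) g α (half b (C.cf σ.X0) κ φ))
      (contDiff_gsl hρ hr g).continuous
      (cont_Ablk _ (contDiff_half hκ.smooth hφ)) (hcs_Ablk _ (hcs_half hκ.supp))
      (uE (BrT5658.reg0 σ) (X - σ.X0, Y)) (memLp_gsl hr hg _) (C := 1)
      (le_of_eq (integral_gsl_sq hr hg _)) (fun v => le_rfl)
    rw [one_mul] at h1
    refine le_trans ?_ h1
    exact pow_le_pow_left₀ (norm_nonneg _) (norm_pV_le P X _) 2
  · have h0 : LocC8.wB P σ ρ κ g φ X = fun _ => 0 := funext fun Y => wB_zero hX Y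
    rw [h0, qblkB_zero Y, norm_zero]
    have : (0 : ℝ) ≤ ∫ z, ‖Ablk M G (BrT5658.reg0 σ) g α (half b (C.cf σ.X0) κ φ)
        (uE (BrT5658.reg0 σ) (X - σ.X0, Y), z)‖ ^ 2 := integral_nonneg fun _ => by positivity
    simpa using this

theorem integrable_Ablk_sq {X0 : Pos p} (h0 : C.Reg X0) {Φ : Sc b (C.cf X0) → F}
    (hΦ : ContDiff ℝ ∞ Φ) (hc : HasCompactSupport Φ) :
    Integrable (fun x => ‖Ablk M G h0 g α Φ x‖ ^ 2)
      ((volume : Measure (Uk b (C.cf X0))).prod (volume : Measure (Zs b (C.cf X0)))) :=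
  ((cont_Ablk h0 hΦ).norm.pow 2).integrable_of_hasCompactSupport
    ((hcs_Ablk (M := M) (G := G) (g := g) (α := α) h0 hc).mono' fun x hx => subset_tsupport _ (by intro h; apply hx; simp [h]))

/-- Fubini in the coordinates (position, blocks, off-diagonal), positions translated -/
theorem fubini_sc {X0 : Pos p} (h0 : C.Reg X0) {f : Sc b (C.cf X0) → ℝ}
    (hf : Integrable f ((volume : Measure (Uk b (C.cf X0))).prod volume)) :
    (∫ X : Pos p, ∫ Y : C.Blk, ∫ z, f (uE h0 (X - X0, Y), z)) =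
      ∫ x, f x ∂((volume : Measure (Uk b (C.cf X0))).prod volume) := by
  have h1 : ∫ x, f x ∂((volume : Measure (Uk b (C.cf X0))).prod volume) =
      ∫ u, ∫ z, f (u, z) := integral_prod _ hf
  have h2 : Integrable (fun u : Uk b (C.cf X0) => ∫ z, f (u, z)) := hf.integral_prod_left
  rw [h1, integral_uk h0]
  have h3 : Integrable (fun q : Pos p × C.Blk => ∫ z, f (uE h0 q, z))
      ((volume : Measure (Pos p)).prod volume) := (integrable_uk h0 _).1 h2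
  have h4 : ∫ q : Pos p × C.Blk, ∫ z, f (uE h0 q, z) =
      ∫ X' : Pos p, ∫ Y : C.Blk, ∫ z, f (uE h0 (X', Y), z) := integral_prod _ h3
  rw [h4]
  exact integral_sub_right_eq_self
    (fun X' : Pos p => ∫ Y : C.Blk, ∫ z, f (uE h0 (X', Y), z)) X0

/-- integrability of the fibre integrals in the same coordinates -/
theorem fubini_int {X0 : Pos p} (h0 : C.Reg X0) {f : Sc b (C.cf X0) → ℝ}
    (hf : Integrable f ((volume : Measure (Uk b (C.cf X0))).prod volume)) :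
    Integrable (fun q : Pos p × C.Blk => ∫ z, f (uE h0 (q.1 - X0, q.2), z))
      ((volume : Measure (Pos p)).prod volume) := by
  have h2 : Integrable (fun u : Uk b (C.cf X0) => ∫ z, f (u, z)) := hf.integral_prod_left
  have h3 : Integrable (fun q : Pos p × C.Blk => ∫ z, f (uE h0 q, z))
      ((volume : Measure (Pos p)).prod volume) := (integrable_uk h0 _).1 h2
  have h4 : MeasurePreserving (fun q : Pos p × C.Blk => (q.1 - X0, q.2))
      ((volume : Measure (Pos p)).prod volume) ((volume : Measure (Pos p)).prod volume) :=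
    (measurePreserving_sub_right volume X0).prod (MeasurePreserving.id _)
  exact (h4.integrable_comp h3.aestronglyMeasurable).2 h3

theorem continuous_qblkB_wB (hρ : ContDiff ℝ ∞ ρ) (hr : ∀ X, ‖ρ X - σ.X0‖ < σ.r) (hκ : Cut σ κ)
    (hφ : ContDiff ℝ ∞ φ) :
    Continuous fun q : Pos p × C.Blk => qblkB M G g α (LocC8.wB P σ ρ κ g φ q.1) q.2 := by
  have hw := contDiff_wB (P := P) (σ := σ) (ρ := ρ) (g := g) hρ hr hκ hφ
  have hd : ∀ (q : Pos p × C.Blk) (e : C.Blk), fderiv ℝ (LocC8.wB P σ ρ κ g φ q.1) q.2 e =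
      fderiv ℝ (fun q : Pos p × C.Blk => LocC8.wB P σ ρ κ g φ q.1 q.2) q (0, e) := by
    intro q e
    have h1 : HasFDerivAt (fun Y : C.Blk => ((q.1, Y) : Pos p × C.Blk))
        ((0 : C.Blk →L[ℝ] Pos p).prod (ContinuousLinearMap.id ℝ C.Blk)) q.2 :=
      (hasFDerivAt_const _ _).prodMk (hasFDerivAt_id _)
    have h2 : HasFDerivAt (fun q : Pos p × C.Blk => LocC8.wB P σ ρ κ g φ q.1 q.2)
        (fderiv ℝ (fun q : Pos p × C.Blk => LocC8.wB P σ ρ κ g φ q.1 q.2) q) (q.1, q.2) :=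
      (hw.differentiable (by simp) _).hasFDerivAt
    have h3 := (h2.comp q.2 h1).fderiv
    have h4 : (fun q : Pos p × C.Blk => LocC8.wB P σ ρ κ g φ q.1 q.2) ∘
        (fun Y : C.Blk => ((q.1, Y) : Pos p × C.Blk)) = LocC8.wB P σ ρ κ g φ q.1 := rfl
    rw [h4] at h3
    rw [h3]
    rfl
  unfold qblkB
  simp only [hd]
  refine Continuous.add (continuous_finsetSum _ fun n _ => ?_) ?_
  · refine (LinearMap.continuous_of_finiteDimensional
      (aA M G α ((stdOrthonormalBasis ℝ C.Blk n : C.Blk) : Cfg N))).comp ?_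
    exact (hw.continuous_fderiv (by simp)).clm_apply continuous_const
  · have h5 : Continuous fun q : Pos p × C.Blk => toR (wA b M G g 0 α ((q.2 : C.Blk) : Cfg N)) :=
      contDiff_toR_wA.continuous.comp (continuous_subtype_val.comp continuous_snd)
    exact h5.clm_apply hw.continuous

/-- **(H6)(ii).** -/
theorem qblkB_wB_le (hρ : ContDiff ℝ ∞ ρ) (hr : ∀ X, ‖ρ X - σ.X0‖ < σ.r) (hκ : Cut σ κ)
    (hφ : ContDiff ℝ ∞ φ) (hg : 0 < g) :
    ∫ X : Pos p, ∫ Y : C.Blk, ‖qblkB M G g α (LocC8.wB P σ ρ κ g φ X) Y‖ ^ 2 ≤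
      ∫ x, ‖Ablk M G (BrT5658.reg0 σ) g α (half b (C.cf σ.X0) κ φ) x‖ ^ 2
        ∂((volume : Measure (Uk b (C.cf σ.X0))).prod volume) := by
  have hi := integrable_Ablk_sq (M := M) (G := G) (g := g) (α := α) (BrT5658.reg0 σ)
    (contDiff_half hκ.smooth hφ) (hcs_half hκ.supp)
  rw [← fubini_sc (BrT5658.reg0 σ) hi]
  have h1 := fubini_int (BrT5658.reg0 σ) hi
  have h2 : Integrable (fun q : Pos p × C.Blk =>
      ‖qblkB M G g α (LocC8.wB P σ ρ κ g φ q.1) q.2‖ ^ 2)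
      ((volume : Measure (Pos p)).prod volume) := by
    refine h1.mono' ((continuous_qblkB_wB hρ hr hκ hφ).norm.pow 2).aestronglyMeasurable
      (Eventually.of_forall fun q => ?_)
    rw [Real.norm_of_nonneg (by positivity)]
    exact qblkB_sq_le hρ hr hκ hφ hg q.1 q.2
  have e1 := integral_prod _ h1
  have e2 := integral_prod _ h2
  simp only at e1 e2
  rw [← e1, ← e2]
  exact integral_mono h2 h1 fun q => qblkB_sq_le hρ hr hκ hφ hg q.1 q.2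

theorem qblkB_wB_sum_le (hρ : ContDiff ℝ ∞ ρ) (hr : ∀ X, ‖ρ X - σ.X0‖ < σ.r) (hκ : Cut σ κ)
    (hφ : ContDiff ℝ ∞ φ) (hg : 0 < g) :
    ∑ α, ∫ X : Pos p, ∫ Y : C.Blk, ‖qblkB M G g α (LocC8.wB P σ ρ κ g φ X) Y‖ ^ 2 ≤
      ∑ α, ∫ x, ‖Ablk M G (BrT5658.reg0 σ) g α (half b (C.cf σ.X0) κ φ) x‖ ^ 2
        ∂((volume : Measure (Uk b (C.cf σ.X0))).prod volume) :=
  Finset.sum_le_sum fun _ _ => qblkB_wB_le hρ hr hκ hφ hg

/-- **(H6).** -/
theorem qblkB_wB_Aop_le {m : ℝ} {ι : Type*} [Fintype ι]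
    (e : OrthonormalBasis ι ℝ (Uk b (C.cf σ.X0))) (hρ : ContDiff ℝ ∞ ρ)
    (hr : ∀ X, ‖ρ X - σ.X0‖ < σ.r) (hκ : Cut σ κ) (hφ : ContDiff ℝ ∞ φ) (hg : 0 < g) :
    ∑ α, ∫ X : Pos p, ∫ Y : C.Blk, ‖qblkB M G g α (LocC8.wB P σ ρ κ g φ X) Y‖ ^ 2 ≤
      2 * ∑ α, ∫ x, ‖Aop b (C.cf σ.X0) M G g m α e (half b (C.cf σ.X0) κ φ) x‖ ^ 2
        ∂((volume : Measure (Uk b (C.cf σ.X0))).prod volume) +
      KW M G * m ^ 2 * ∫ x, ‖C.cf σ.X0 + x.1‖ ^ 2 * ‖half b (C.cf σ.X0) κ φ x‖ ^ 2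
        ∂((volume : Measure (Uk b (C.cf σ.X0))).prod volume) := by
  have h1 := qblkB_wB_sum_le (P := P) (g := g) hρ hr hκ hφ hg
  haveI : ((volume : Measure (Uk b (C.cf σ.X0))).prod
      (volume : Measure (Zs b (C.cf σ.X0)))).IsAddHaarMeasure :=
    Measure.prod.instIsAddHaarMeasure _ _
  have h2 := cen_blk_sum_le (M := M) (G := G) (g := g) (m := m)
    (μ := (volume : Measure (Uk b (C.cf σ.X0))).prod (volume : Measure (Zs b (C.cf σ.X0))))
    (BrT5658.reg0 σ) e ((contDiff_half (b := b) (c := C.cf σ.X0) hκ.smooth hφ).of_le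
      ENat.LEInfty.out) (hcs_half hκ.supp)
  have h3 : 0 ≤ ∑ α, ∫ x, ‖Acen M G (BrT5658.reg0 σ) α (half b (C.cf σ.X0) κ φ) x‖ ^ 2
      ∂((volume : Measure (Uk b (C.cf σ.X0))).prod (volume : Measure (Zs b (C.cf σ.X0)))) :=
    Finset.sum_nonneg fun _ _ => integral_nonneg fun _ => by positivity
  linarith

end Crest.Agent.R330.H6596

end
end

-- ▼ part R330/I3In_815
section

/-!
# Row 330, S9-LOC (helper815): the input `I3In` of the local capture estimate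

* `gx_le` : the centre gradient of a slice function is bounded by the light charges.
* `grad_small` : mass and centre gradient of the cut-off slice functions of core vectors are bounded
  by the energy.
* `I3Lit P σ` : the amplitude is bounded in `H¹` by mass and centre gradient (helper186).
* `i3_of` : `Small σ fun ρ s => ∀ κ, CutS σ κ s → I3In P σ ρ κ m`.
-/

set_option autoImplicit false
set_option linter.unusedSectionVars false

open MeasureTheory Filter Topology Crest.MathPhysics.MatrixQM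
open scoped ContDiff InnerProductSpace ENNReal

noncomputable section

namespace Crest.Agent.R330.I3In815

open Crest.Agent.R330.Defs478 Crest.Agent.R330.LS839 Crest.Agent.R330.Frame839
  Crest.Agent.R330.Clus839
  Crest.Agent.R330.Bind6839 Crest.Agent.R330.SlG944 Crest.Agent.R330.SlF944
  Crest.Agent.R330.IBP837 Crest.Agent.R330.TDef414
  Crest.Agent.R330.LemA342 Crest.Agent.R330.FibProj837 Crest.Agent.R330.LocB8
  Crest.Agent.R330.LocC8 Crest.Agent.R330.LocD8 Crest.Agent.R330.LocF8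
  Crest.Agent.R330.SlQE87 Crest.Agent.R330.HBX450 Crest.Agent.R330.TrialSys796
  Crest.Agent.R330.H6596

variable {N p : ℕ} {b : ColorBasis N} {S : Type} [Group S] [Fintype S] {C : Chn b p S}
  {F : Type*} [NormedAddCommGroup F] [InnerProductSpace ℂ F] [FiniteDimensional ℂ F]
  {M : FermionRep N F} {R : GaugeAction b M} {G : GammaNine}

theorem int_sq {V : Type*} [TopologicalSpace V] [MeasurableSpace V] [OpensMeasurableSpace V]
    {μ : Measure V} [IsFiniteMeasureOnCompacts μ] {E : Type*} [NormedAddCommGroup E] {f : V → E}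
    (hf : Continuous f) (hc : HasCompactSupport f) : Integrable (fun x => ‖f x‖ ^ 2) μ := by
  have h1 : Continuous fun x => ‖f x‖ ^ 2 := hf.norm.pow 2
  refine h1.integrable_of_hasCompactSupport ?_
  exact hc.norm.comp_left (g := fun t : ℝ => t ^ 2) (by norm_num)

theorem int_sq_fderiv {V : Type*} [NormedAddCommGroup V] [NormedSpace ℝ V] [MeasurableSpace V]
    [OpensMeasurableSpace V] {μ : Measure V} [IsFiniteMeasureOnCompacts μ] {E : Type*}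
    [NormedAddCommGroup E] [NormedSpace ℝ E] {f : V → E}
    (hf : ContDiff ℝ ∞ f) (hc : HasCompactSupport f) (v : V) :
    Integrable (fun x => ‖fderiv ℝ f x v‖ ^ 2) μ := by
  have h1 : Continuous fun x => fderiv ℝ f x v :=
    (hf.continuous_fderiv (by norm_num)).clm_apply continuous_const
  have h2 : HasCompactSupport fun x => fderiv ℝ f x v :=
    (hc.fderiv ℝ).comp_left (g := fun L : V →L[ℝ] E => L v) rfl
  exact int_sq h1 h2

/-- **(GX)** -/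
theorem gx_le {X0 : Pos p} (h0 : C.Reg X0) {μ : Measure (Sc b (C.cf X0))} [μ.IsAddHaarMeasure]
    {ι : Type*} [Fintype ι] (e : OrthonormalBasis ι ℝ (Uk b (C.cf X0))) (g m : ℝ)
    {Φ : Sc b (C.cf X0) → F} (hΦ : ContDiff ℝ 2 Φ) (hc : HasCompactSupport Φ) :
    8 * ∫ x, ∑ q, ‖fderiv ℝ Φ x (dC h0 q, 0)‖ ^ 2 ∂μ ≤
      2 * ∑ α, ∫ x, ‖Aop b (C.cf X0) M G g m α e Φ x‖ ^ 2 ∂μ +
        KW M G * m ^ 2 * ∫ x, ‖C.cf X0 + x.1‖ ^ 2 * ‖Φ x‖ ^ 2 ∂μ := by
  have h1 := GX818.gx_cen (μ := μ) C M G (fun q => ((dC h0 q, 0) : Sc b (C.cf X0))) hΦ hc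
  have h2 := cen_blk_sum_le (μ := μ) (M := M) (G := G) (g := g) (m := m) h0 e hΦ hc
  have h3 : 0 ≤ ∑ α, ∫ x, ‖Ablk M G h0 g α Φ x‖ ^ 2 ∂μ :=
    Finset.sum_nonneg fun α _ => integral_nonneg fun x => by positivity
  have h4 : ∑ α, ∫ x, ‖Acen M G h0 α Φ x‖ ^ 2 ∂μ =
      8 * ∫ x, ∑ q, ‖fderiv ℝ Φ x (dC h0 q, 0)‖ ^ 2 ∂μ := h1
  linarith

/-- mass and centre gradient of the cut-off slice functions -/
def GradIn (σ : Sl C) (h0 : C.Reg σ.X0) (κ : Sc b (C.cf σ.X0) → ℝ) (M : FermionRep N F)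
    (R : GaugeAction b M) (G : GammaNine) (m : ℝ) : Prop :=
  ∃ K : ℝ, 0 ≤ K ∧ ∀ g : ℝ, 1 ≤ g → ∀ φ : Cfg N → F, IsCoreVec b R φ →
    (∫ x, ‖half b (C.cf σ.X0) κ φ x‖ ^ 2 ∂(volume.prod volume)) ≤ K * En b M G g m φ ∧
    (∫ x, ∑ q, ‖fderiv ℝ (half b (C.cf σ.X0) κ φ) x (dC h0 q, 0)‖ ^ 2 ∂(volume.prod volume)) ≤
      K * En b M G g m φ

theorem norm_sc {c : Cfg N} (x : Sc b c) : ‖(x.1 : Cfg N) + x.2‖ ^ 2 = ‖x.1‖ ^ 2 + ‖x.2‖ ^ 2 := by
  rw [@norm_add_sq_real, Zs_perp_Uk x.1.2 x.2.2]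
  simp

/-- **Mass and centre gradient are bounded by the energy.** -/
theorem grad_small [Nontrivial F] (P : TPack C M R G) (σ : Sl C) {m : ℝ} (hm0 : 0 ≤ m)
    (hm1 : m ≤ 1) : ∃ s0 : ℝ, 0 < s0 ∧ ∀ s : ℝ, 0 < s → s ≤ s0 →
      ∀ κ : Sc b (C.cf σ.X0) → ℝ, CutS σ κ s →
        GradIn σ (BrT5658.reg0 σ) κ M R G m := by
  obtain ⟨s1, ρ, hs1, -, -, h⟩ := LemR342.lemR_pack P σ
  have h0 := BrT5658.reg0 σ
  refine ⟨s1 / 2, by positivity, fun s hs hss κ hκ => ?_⟩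
  have hz : ∀ x : Sc b (C.cf σ.X0), s < ‖(x.1 : Cfg N) + x.2‖ → κ x = 0 := hκ.zero
  have hz1 : ∀ x : Sc b (C.cf σ.X0), s1 ^ 2 ≤ ‖x.1‖ ^ 2 + ‖x.2‖ ^ 2 → κ x = 0 := by
    intro x hx
    refine hz x ?_
    rw [← norm_sc] at hx
    have h2 : s1 ≤ ‖(x.1 : Cfg N) + x.2‖ := le_of_sq_le_sq hx (norm_nonneg _)
    linarith
  obtain ⟨D, hD, h1⟩ := h _ _ _ (stdOrthonormalBasis ℝ (Uk b (C.cf σ.X0)))
    (stdOrthonormalBasis ℝ (Zs b (C.cf σ.X0))) (stdOrthonormalBasis ℝ (Tn (actB b) (C.cf σ.X0)))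
    κ hκ.cut.smooth hκ.cut.supp hz1
  set B : ℝ := ‖C.cf σ.X0‖ + s with hB
  have hB0 : 0 ≤ B := by positivity
  have hKW := KW_nonneg (M := M) (G := G)
  refine ⟨D + (2 * D + KW M G * (B ^ 2 * D)) / 8, by positivity, fun g hg φ hφ => ?_⟩
  obtain ⟨a1, -, a3, -⟩ := h1 g m hg hm0 hm1 φ hφ
  have hE : qf b M G g m φ + ∫ x, ‖φ x‖ ^ 2 = En b M G g m φ := by
    unfold En; ring
  rw [hE] at a1 a3
  have hEn : 0 ≤ En b M G g m φ := En_nonneg g m φ
  have hΦ : ContDiff ℝ ∞ (half b (C.cf σ.X0) κ φ) := contDiff_half hκ.cut.smooth hφ.1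
  have hc : HasCompactSupport (half b (C.cf σ.X0) κ φ) := hcs_half hκ.cut.supp
  have hsq : Integrable (fun x => ‖half b (C.cf σ.X0) κ φ x‖ ^ 2) (volume.prod volume) :=
    int_sq hΦ.continuous hc
  have a4 : ∫ x : Sc b (C.cf σ.X0), ‖C.cf σ.X0 + (x.1 : Cfg N)‖ ^ 2 * ‖half b (C.cf σ.X0) κ φ x‖ ^ 2 ∂(volume.prod volume) ≤
      B ^ 2 * (D * En b M G g m φ) := by
    refine le_trans (integral_mono_of_nonneg (Eventually.of_forall fun x => by positivity)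
      (hsq.const_mul (B ^ 2)) (Eventually.of_forall fun x => ?_)) (le_trans
        (le_of_eq (integral_const_mul _ _)) (mul_le_mul_of_nonneg_left a3 (by positivity)))
    by_cases hx : κ x = 0
    · simp only [half_eq_zero hx, norm_zero]
      simp
    · have h5 : ‖(x.1 : Cfg N) + x.2‖ ≤ s := not_lt.1 fun h6 => hx (hz x h6)
      have h6 : ‖(x.1 : Cfg N)‖ ≤ s := by
        refine le_trans ?_ h5
        refine le_of_sq_le_sq ?_ (norm_nonneg _)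
        rw [norm_sc]
        have : ‖(x.1 : Cfg N)‖ = ‖x.1‖ := rfl
        rw [this]
        nlinarith [sq_nonneg ‖x.2‖]
      have h7 : ‖C.cf σ.X0 + (x.1 : Cfg N)‖ ≤ B := (norm_add_le _ _).trans (by linarith)
      show ‖C.cf σ.X0 + (x.1 : Cfg N)‖ ^ 2 * _ ≤ B ^ 2 * _
      exact mul_le_mul_of_nonneg_right (pow_le_pow_left₀ (norm_nonneg _) h7 2) (by positivity)
  have hH : ((volume : Measure (Uk b (C.cf σ.X0))).prod
      (volume : Measure (Zs b (C.cf σ.X0)))).IsAddHaarMeasure :=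
    Measure.prod.instIsAddHaarMeasure _ _
  have a5 := gx_le (M := M) (G := G) (μ := (volume : Measure (Uk b (C.cf σ.X0))).prod
      (volume : Measure (Zs b (C.cf σ.X0)))) h0
    (stdOrthonormalBasis ℝ (Uk b (C.cf σ.X0))) g m (hΦ.of_le (by norm_cast)) hc
  have hm2 : m ^ 2 ≤ 1 := by nlinarith
  have a6 : KW M G * m ^ 2 * ∫ x : Sc b (C.cf σ.X0), ‖C.cf σ.X0 + (x.1 : Cfg N)‖ ^ 2 * ‖half b (C.cf σ.X0) κ φ x‖ ^ 2
      ∂(volume.prod volume) ≤ KW M G * (B ^ 2 * (D * En b M G g m φ)) := by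
    have h8 : 0 ≤ ∫ x : Sc b (C.cf σ.X0), ‖C.cf σ.X0 + (x.1 : Cfg N)‖ ^ 2 * ‖half b (C.cf σ.X0) κ φ x‖ ^ 2
      ∂(volume.prod volume) := integral_nonneg fun x => by positivity
    have h9 : KW M G * m ^ 2 ≤ KW M G := by nlinarith
    calc _ ≤ KW M G * ∫ x : Sc b (C.cf σ.X0), ‖C.cf σ.X0 + (x.1 : Cfg N)‖ ^ 2 * ‖half b (C.cf σ.X0) κ φ x‖ ^ 2
      ∂(volume.prod volume) := mul_le_mul_of_nonneg_right h9 h8
      _ ≤ _ := mul_le_mul_of_nonneg_left a4 hKW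
  have hp1 : 0 ≤ (2 * D + KW M G * (B ^ 2 * D)) / 8 := by positivity
  constructor
  · refine a3.trans (mul_le_mul_of_nonneg_right ?_ hEn)
    linarith
  · have a7 : 8 * ∫ x, ∑ q, ‖fderiv ℝ (half b (C.cf σ.X0) κ φ) x (dC h0 q, 0)‖ ^ 2
        ∂(volume.prod volume) ≤ 2 * (D * En b M G g m φ) +
          KW M G * (B ^ 2 * (D * En b M G g m φ)) :=
      a5.trans (add_le_add (mul_le_mul_of_nonneg_left a1 (by norm_num)) a6)
    have a8 : (∫ x, ∑ q, ‖fderiv ℝ (half b (C.cf σ.X0) κ φ) x (dC h0 q, 0)‖ ^ 2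
        ∂(volume.prod volume)) ≤ (2 * D + KW M G * (B ^ 2 * D)) / 8 * En b M G g m φ := by
      linarith
    refine a8.trans (mul_le_mul_of_nonneg_right ?_ hEn)
    linarith



theorem dC_eq {X0 : Pos p} (h0 : C.Reg X0) (q : Fin 9 × Fin p) :
    PairT245.uE h0 ((EuclideanSpace.single q 1 : Pos p), (0 : C.Blk)) = dC h0 q := by
  apply Subtype.ext
  rw [PairT245.coe_uE, coe_dC]
  simp

theorem sum_int_grad {X0 : Pos p} {Φ : Sc b (C.cf X0) → F} (hΦ : ContDiff ℝ ∞ Φ)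
    (hc : HasCompactSupport Φ) (v : Fin 9 × Fin p → Sc b (C.cf X0)) :
    ∑ q, ∫ x, ‖fderiv ℝ Φ x (v q)‖ ^ 2 ∂(volume.prod volume) =
      ∫ x, ∑ q, ‖fderiv ℝ Φ x (v q)‖ ^ 2 ∂(volume.prod volume) := by
  exact (integral_finsetSum _ fun q _ => int_sq_fderiv hΦ hc (v q)).symm


end Crest.Agent.R330.I3In815

end
end

-- ▼ part R330/LocG_8
section

/-!
# Row 330, S9-LOC (helper8): the inputs plugged in
-/

set_option autoImplicit false
set_option linter.unusedSectionVars false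

open MeasureTheory Filter Topology Crest.MathPhysics.MatrixQM
open scoped ContDiff InnerProductSpace ENNReal

noncomputable section

namespace Crest.Agent.R330.LocG8

open Crest.Agent.R330.Defs478 Crest.Agent.R330.LS839 Crest.Agent.R330.Frame839
  Crest.Agent.R330.Clus839
  Crest.Agent.R330.Bind6839 Crest.Agent.R330.SlG944 Crest.Agent.R330.SlF944
  Crest.Agent.R330.IBP837 Crest.Agent.R330.TDef414
  Crest.Agent.R330.LemA342 Crest.Agent.R330.FibProj837 Crest.Agent.R330.LocB8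
  Crest.Agent.R330.LocC8 Crest.Agent.R330.LocD8 Crest.Agent.R330.LocE8 Crest.Agent.R330.LocF8
  Crest.Agent.R330.SlQE87 Crest.Agent.R330.HBX450 Crest.Agent.R330.CapBind737
  Crest.Agent.R330.TrialSys796 Crest.Agent.R330.CapIntC737 Crest.Agent.R330.CapGlue737
open Crest.Agent.R330.HQ998 (rad)

variable {N p : ℕ} {b : ColorBasis N} {S : Type} [Group S] [Fintype S] {C : Chn b p S}
  {F : Type*} [NormedAddCommGroup F] [InnerProductSpace ℂ F] [FiniteDimensional ℂ F]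
  {M : FermionRep N F} {R : GaugeAction b M} {G : GammaNine}
  (P : TPack C M R G) (σ : Sl C) (m : ℝ)

/-- (I4), 245 -/
theorem i4 : Small σ fun ρ s => ∀ κ, CutS σ κ s → I4In P σ ρ κ m := by
  refine ⟨σ.r / 8, σ.r, by have := σ.pos; positivity, σ.pos, fun s hs hs' ρ hρ κ hκ => ?_⟩
  refine I4245.i4In P σ hρ.smooth hρ.ball hκ.cut (r₁ := s) ?_ (fun x hx => ?_) hρ.eq_id m
  · have := σ.pos
    linarith
  · by_contra h
    exact hx (hκ.zero x (not_le.1 h))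

/-- (I1), 342 -/
theorem i1 [Nontrivial F] (hm : 0 ≤ m) (hm1 : m ≤ 1) :
    Small σ fun ρ s => I1In P σ ρ (rad s) m := by
  obtain ⟨s0, hs0, h⟩ := I1In342.i1In P σ hm hm1
  exact ⟨s0, σ.r, hs0, σ.pos, fun s hs hs' ρ hρ => h s hs hs' ρ hρ.ball hρ.eq_id⟩

theorem cutS_zero_sq {σ : Sl C} {κ : Sc b (C.cf σ.X0) → ℝ} {s : ℝ} (hs : 0 < s)
    (h : CutS σ κ s) (x : Sc b (C.cf σ.X0)) (hx : (2 * s) ^ 2 ≤ ‖x.1‖ ^ 2 + ‖x.2‖ ^ 2) :
    κ x = 0 := by
  refine h.zero x ?_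
  rw [← HQ998.norm_sq_pt] at hx
  have h1 := (pow_le_pow_iff_left₀ (by positivity) (norm_nonneg _) two_ne_zero).1 hx
  linarith

/-- the masses, 879 -/
theorem mass : Small σ fun ρ s => ∀ κ, CutS σ κ s → MassIn P σ ρ κ m := by
  obtain ⟨s0, hs0, h⟩ := MassIn879.exists_mass C M R G σ.X0
  refine ⟨s0 / 2, σ.r, by positivity, σ.pos, fun s hs hs' ρ hρ κ hκ => ?_⟩
  exact (h (2 * s) (by positivity) (by linarith) σ rfl m).2 P ρ κ hρ.smooth hρ.ball hκ.cut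
    (cutS_zero_sq hs hκ)

/-- the tail, 924 -/
theorem tail (hm : 0 ≤ m) (hm1 : m ≤ 1) :
    Small σ fun _ s => TailIn (R := R) (G := G) σ (rad s) m :=
  XCut924.tail M R G σ hm hm1

/-- (H6), 596 -/
theorem hq [Nontrivial F] (hm0 : 0 ≤ m) (hm1 : m ≤ 1) :
    Small σ fun ρ s => ∀ κ, CutS σ κ s → HQIn P σ ρ κ m := by
  obtain ⟨s1, ρ1, hs1, -, -, h⟩ := LemR342.lemR_pack P σ
  refine ⟨s1 / 2, σ.r, by positivity, σ.pos, fun s hs hss ρ hρ κ hκ => ?_⟩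
  have hz : ∀ x : Sc b (C.cf σ.X0), s < ‖(x.1 : Cfg N) + x.2‖ → κ x = 0 := hκ.zero
  have hz1 : ∀ x : Sc b (C.cf σ.X0), s1 ^ 2 ≤ ‖x.1‖ ^ 2 + ‖x.2‖ ^ 2 → κ x = 0 := by
    intro x hx
    refine hz x ?_
    rw [← I3In815.norm_sc] at hx
    have h2 : s1 ≤ ‖(x.1 : Cfg N) + x.2‖ := le_of_sq_le_sq hx (norm_nonneg _)
    linarith
  obtain ⟨D, hD, h1⟩ := h _ _ _ (stdOrthonormalBasis ℝ (Uk b (C.cf σ.X0)))
    (stdOrthonormalBasis ℝ (Zs b (C.cf σ.X0))) (stdOrthonormalBasis ℝ (Tn (actB b) (C.cf σ.X0)))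
    κ hκ.cut.smooth hκ.cut.supp hz1
  set B : ℝ := ‖C.cf σ.X0‖ + s with hB
  have hB0 : 0 ≤ B := by positivity
  have hKW := H6596.KW_nonneg (M := M) (G := G)
  refine ⟨2 * D + H6596.KW M G * (B ^ 2 * D), by positivity, ?_⟩
  filter_upwards [eventually_ge_atTop 1] with g hg φ hφ
  obtain ⟨a1, -, a3, -⟩ := h1 g m hg hm0 hm1 φ hφ
  have hE : qf b M G g m φ + ∫ x, ‖φ x‖ ^ 2 = En b M G g m φ := by
    unfold En; ring
  rw [hE] at a1 a3
  have hEn : 0 ≤ En b M G g m φ := En_nonneg g m φ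
  have hΦ : ContDiff ℝ ∞ (half b (C.cf σ.X0) κ φ) := contDiff_half hκ.cut.smooth hφ.1
  have hc : HasCompactSupport (half b (C.cf σ.X0) κ φ) := hcs_half hκ.cut.supp
  have hsq : Integrable (fun x => ‖half b (C.cf σ.X0) κ φ x‖ ^ 2) (volume.prod volume) :=
    I3In815.int_sq hΦ.continuous hc
  have a4 : ∫ x : Sc b (C.cf σ.X0), ‖C.cf σ.X0 + (x.1 : Cfg N)‖ ^ 2 *
      ‖half b (C.cf σ.X0) κ φ x‖ ^ 2 ∂(volume.prod volume) ≤
      B ^ 2 * (D * En b M G g m φ) := by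
    refine le_trans (integral_mono_of_nonneg (Eventually.of_forall fun x => by positivity)
      (hsq.const_mul (B ^ 2)) (Eventually.of_forall fun x => ?_)) (le_trans
        (le_of_eq (integral_const_mul _ _)) (mul_le_mul_of_nonneg_left a3 (by positivity)))
    by_cases hx : κ x = 0
    · simp only [half_eq_zero hx, norm_zero]
      simp
    · have h5 : ‖(x.1 : Cfg N) + x.2‖ ≤ s := not_lt.1 fun h6 => hx (hz x h6)
      have h6 : ‖(x.1 : Cfg N)‖ ≤ s := by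
        refine le_trans ?_ h5
        refine le_of_sq_le_sq ?_ (norm_nonneg _)
        rw [I3In815.norm_sc]
        have : ‖(x.1 : Cfg N)‖ = ‖x.1‖ := rfl
        rw [this]
        nlinarith [sq_nonneg ‖x.2‖]
      have h7 : ‖C.cf σ.X0 + (x.1 : Cfg N)‖ ≤ B := (norm_add_le _ _).trans (by linarith)
      show ‖C.cf σ.X0 + (x.1 : Cfg N)‖ ^ 2 * _ ≤ B ^ 2 * _
      exact mul_le_mul_of_nonneg_right (pow_le_pow_left₀ (norm_nonneg _) h7 2) (by positivity)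
  have a5 := H6596.qblkB_wB_Aop_le (P := P) (G := G) (M := M) (m := m)
    (stdOrthonormalBasis ℝ (Uk b (C.cf σ.X0))) hρ.smooth hρ.ball hκ.cut hφ.1
    (show (0 : ℝ) < g by linarith)
  have hm2 : m ^ 2 ≤ 1 := by nlinarith
  have a6 : H6596.KW M G * m ^ 2 * ∫ x : Sc b (C.cf σ.X0), ‖C.cf σ.X0 + (x.1 : Cfg N)‖ ^ 2 *
      ‖half b (C.cf σ.X0) κ φ x‖ ^ 2 ∂(volume.prod volume) ≤
      H6596.KW M G * (B ^ 2 * (D * En b M G g m φ)) := by
    have h8 : 0 ≤ ∫ x : Sc b (C.cf σ.X0), ‖C.cf σ.X0 + (x.1 : Cfg N)‖ ^ 2 *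
      ‖half b (C.cf σ.X0) κ φ x‖ ^ 2 ∂(volume.prod volume) :=
      integral_nonneg fun x => by positivity
    have h9 : H6596.KW M G * m ^ 2 ≤ H6596.KW M G := by nlinarith
    calc _ ≤ H6596.KW M G * ∫ x : Sc b (C.cf σ.X0), ‖C.cf σ.X0 + (x.1 : Cfg N)‖ ^ 2 *
          ‖half b (C.cf σ.X0) κ φ x‖ ^ 2 ∂(volume.prod volume) := mul_le_mul_of_nonneg_right h9 h8
      _ ≤ _ := mul_le_mul_of_nonneg_left a4 hKW
  refine a5.trans ?_
  have a7 := add_le_add (mul_le_mul_of_nonneg_left a1 (by norm_num : (0 : ℝ) ≤ 2)) a6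
  refine a7.trans (le_of_eq ?_)
  ring

end Crest.Agent.R330.LocG8

end
end

-- ▼ part R330/Amp2_406
section

/-!
Row 330 (helper406): amplitudes with values in a finite dimensional space, leaf `S9-AMP` (G2).

`ampx μ Ψ Φ r = ∫ Ψ(r,w)^† Φ(r,w) dw`, `Ψ(r,w) : Fx →L[ℂ] F`: smoothness, product rule, bounds by the
fibre norms `∫ ‖Ψ(r,w) v‖² dw ≤ C ‖v‖²`, Fubini pairing with test functions, weakly null sequences have
strongly null amplitudes, Pythagoras.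
-/

set_option autoImplicit false
set_option linter.unusedSectionVars false

noncomputable section

namespace Crest.Agent.R330.Amp406

open MeasureTheory Filter Topology Set Crest.Agent.R330.Fib837 Crest.Agent.R330.Amp837
open scoped ContDiff InnerProductSpace ENNReal

section G2

variable {X Ω : Type*} [NormedAddCommGroup X] [NormedSpace ℝ X] [FiniteDimensional ℝ X]
  [MeasurableSpace X] [BorelSpace X]
  [NormedAddCommGroup Ω] [NormedSpace ℝ Ω] [FiniteDimensional ℝ Ω] [MeasurableSpace Ω]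
  [BorelSpace Ω] {ν : Measure X} [ν.IsAddHaarMeasure] {μ : Measure Ω} [μ.IsAddHaarMeasure]
  {F : Type*} [NormedAddCommGroup F] [InnerProductSpace ℂ F] [FiniteDimensional ℂ F]
  {Fx : Type*} [NormedAddCommGroup Fx] [InnerProductSpace ℂ Fx] [FiniteDimensional ℂ Fx]

/-- adjoint of a continuous linear map between finite dimensional spaces -/
def adj (T : Fx →L[ℂ] F) : F →L[ℂ] Fx :=
  haveI : CompleteSpace F := FiniteDimensional.complete ℂ F
  haveI : CompleteSpace Fx := FiniteDimensional.complete ℂ Fx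
  ContinuousLinearMap.adjoint T

theorem inner_adj_right (T : Fx →L[ℂ] F) (v : Fx) (u : F) : ⟪v, adj T u⟫_ℂ = ⟪T v, u⟫_ℂ := by
  have : CompleteSpace F := FiniteDimensional.complete ℂ F
  have : CompleteSpace Fx := FiniteDimensional.complete ℂ Fx
  exact ContinuousLinearMap.adjoint_inner_right T v u


theorem continuous_adj : Continuous (adj : (Fx →L[ℂ] F) → (F →L[ℂ] Fx)) := by
  have : CompleteSpace F := FiniteDimensional.complete ℂ F
  have : CompleteSpace Fx := FiniteDimensional.complete ℂ Fx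
  exact (ContinuousLinearMap.adjoint : (Fx →L[ℂ] F) ≃ₗᵢ⋆[ℂ] (F →L[ℂ] Fx)).continuous

/-- the `Fx`-valued amplitude -/
def ampx (μ : Measure Ω) (Ψ : X × Ω → Fx →L[ℂ] F) (Φ : X × Ω → F) (r : X) : Fx :=
  ∫ w, adj (Ψ (r, w)) (Φ (r, w)) ∂μ

variable {Ψ : X × Ω → Fx →L[ℂ] F} {Φ : X × Ω → F}

theorem integrable_ampx (hΨ : Continuous Ψ) (hΦ : Continuous Φ) (hc : HasCompactSupport Φ) (r : X) :
    Integrable (fun w => adj (Ψ (r, w)) (Φ (r, w))) μ := by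
  obtain ⟨K, k, hK, hk, h1, h2⟩ := exists_fibre_supports hc
  have hpr : Continuous fun w : Ω => (r, w) := by fun_prop
  have hcont : Continuous fun w => adj (Ψ (r, w)) (Φ (r, w)) :=
    (continuous_adj.comp (hΨ.comp hpr)).clm_apply (hΦ.comp hpr)
  exact hcont.integrable_of_hasCompactSupport
    (HasCompactSupport.intro hk fun w hw => by rw [h2 r w hw, map_zero])

theorem inner_ampx (hΨ : Continuous Ψ) (hΦ : Continuous Φ) (hc : HasCompactSupport Φ) (r : X)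
    (v : Fx) : ⟪v, ampx μ Ψ Φ r⟫_ℂ = amp μ (fun q => Ψ q v) Φ r := by
  have : CompleteSpace Fx := FiniteDimensional.complete ℂ Fx
  have h := (innerSL ℂ v).integral_comp_comm (integrable_ampx (μ := μ) hΨ hΦ hc r)
  simp only [innerSL_apply_apply] at h
  unfold ampx amp
  rw [← h]
  refine integral_congr_ae (Eventually.of_forall fun w => ?_)
  exact inner_adj_right _ _ _

/-- coordinates -/
theorem ampx_eq_sum (hΨ : Continuous Ψ) (hΦ : Continuous Φ) (hc : HasCompactSupport Φ) (r : X) :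
    ampx μ Ψ Φ r = ∑ i, amp μ (fun q => Ψ q (stdOrthonormalBasis ℂ Fx i)) Φ r •
      stdOrthonormalBasis ℂ Fx i := by
  rw [← (stdOrthonormalBasis ℂ Fx).sum_repr' (ampx μ Ψ Φ r)]
  exact Finset.sum_congr rfl fun i _ => by rw [inner_ampx hΨ hΦ hc]

theorem contDiff_apply {n : WithTop ℕ∞} (hΨ : ContDiff ℝ n Ψ) (v : Fx) :
    ContDiff ℝ n fun q => Ψ q v := by
  have h : ContDiff ℝ n (fun T : Fx →L[ℂ] F => T v) := by
    have h1 : IsBoundedLinearMap ℝ (fun T : Fx →L[ℂ] F => T v) :=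
      { map_add := fun S T => rfl
        map_smul := fun c T => rfl
        bound := ⟨‖v‖ + 1, by positivity, fun T => by
          calc ‖T v‖ ≤ ‖T‖ * ‖v‖ := T.le_opNorm v
            _ ≤ (‖v‖ + 1) * ‖T‖ := by nlinarith [norm_nonneg T]⟩ }
    exact h1.contDiff
  exact h.comp hΨ

theorem fderiv_apply_eq (hΨ : ContDiff ℝ 1 Ψ) (v : Fx) (q e : X × Ω) :
    fderiv ℝ (fun q => Ψ q v) q e = fderiv ℝ Ψ q e v := by
  let ev : (Fx →L[ℂ] F) →L[ℝ] F :=
    { toFun := fun T => T v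
      map_add' := fun S T => rfl
      map_smul' := fun c T => rfl
      cont := by fun_prop }
  have h1 : HasFDerivAt (fun q => Ψ q v) (ev.comp (fderiv ℝ Ψ q)) q :=
    ev.hasFDerivAt.comp q ((hΨ.differentiable (by norm_num)) q).hasFDerivAt
  rw [h1.fderiv]
  rfl

theorem contDiff_ampx {n : ℕ∞} (hΨ : ContDiff ℝ n Ψ) (hΦ : ContDiff ℝ n Φ)
    (hc : HasCompactSupport Φ) : ContDiff ℝ n (ampx μ Ψ Φ) := by
  rw [funext fun r => ampx_eq_sum (μ := μ) hΨ.continuous hΦ.continuous hc r]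
  exact ContDiff.sum fun i _ => (contDiff_amp (contDiff_apply hΨ _) hΦ hc).smul contDiff_const

theorem continuous_ampx (hΨ : Continuous Ψ) (hΦ : Continuous Φ) (hc : HasCompactSupport Φ) :
    Continuous (ampx μ Ψ Φ) := by
  have h1 : ContDiff ℝ ((0 : ℕ∞) : WithTop ℕ∞) Ψ := contDiff_zero.2 hΨ
  have h2 : ContDiff ℝ ((0 : ℕ∞) : WithTop ℕ∞) Φ := contDiff_zero.2 hΦ
  exact (contDiff_ampx h1 h2 hc).continuous

theorem ampx_eq_zero {r : X} (h : ∀ w, Φ (r, w) = 0) : ampx μ Ψ Φ r = 0 := by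
  unfold ampx
  simp [h]

theorem hasCompactSupport_ampx (hc : HasCompactSupport Φ) : HasCompactSupport (ampx μ Ψ Φ) := by
  obtain ⟨K, k, hK, hk, h1, h2⟩ := exists_fibre_supports hc
  exact HasCompactSupport.intro hK fun r hr => ampx_eq_zero (h1 r hr)

theorem hasCompactSupport_dir (hc : HasCompactSupport Φ) (e : X × Ω) :
    HasCompactSupport fun q => fderiv ℝ Φ q e :=
  (hc.fderiv (𝕜 := ℝ)).mono' fun x hx => subset_tsupport _ (by
    intro h0; apply hx; simp [h0])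

theorem continuous_dir {G : Type*} [NormedAddCommGroup G] [NormedSpace ℝ G] {H : X × Ω → G}
    (hH : ContDiff ℝ 1 H) (e : X × Ω) : Continuous fun q => fderiv ℝ H q e :=
  (hH.continuous_fderiv (by norm_num)).clm_apply continuous_const

/-- product rule -/
theorem fderiv_ampx (hΨ : ContDiff ℝ 1 Ψ) (hΦ : ContDiff ℝ 1 Φ) (hc : HasCompactSupport Φ)
    (r e : X) :
    fderiv ℝ (ampx μ Ψ Φ) r e = ampx μ Ψ (fun q => fderiv ℝ Φ q (e, 0)) r +
      ampx μ (fun q => fderiv ℝ Ψ q (e, 0)) Φ r := by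
  have hd : Differentiable ℝ (ampx μ Ψ Φ) :=
    (contDiff_ampx (n := 1) hΨ hΦ hc).differentiable (by norm_num)
  refine ext_inner_left ℂ fun v => ?_
  rw [inner_add_right, inner_ampx hΨ.continuous (continuous_dir hΦ _) (hasCompactSupport_dir hc _),
    inner_ampx (continuous_dir hΨ _) hΦ.continuous hc]
  have h1 : ⟪v, fderiv ℝ (ampx μ Ψ Φ) r e⟫_ℂ = fderiv ℝ (fun r => ⟪v, ampx μ Ψ Φ r⟫_ℂ) r e := by
    rw [fderiv_inner_apply ℂ (differentiableAt_const v) (hd r)]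
    simp
  rw [h1, funext fun r => inner_ampx (μ := μ) hΨ.continuous hΦ.continuous hc r v]
  have h2 := fderiv_amp (μ := μ) (contDiff_apply hΨ v) hΦ hc r e
  rw [h2]
  simp only [fderiv_apply_eq hΨ]

/-- pointwise bound -/
theorem norm_ampx_sq_le (hΨ : Continuous Ψ) (hΦ : Continuous Φ) (hc : HasCompactSupport Φ) (r : X)
    {C : ℝ} (hC0 : 0 ≤ C)
    (hC : ∀ v, MemLp (fun w => Ψ (r, w) v) 2 μ ∧ ∫ w, ‖Ψ (r, w) v‖ ^ 2 ∂μ ≤ C * ‖v‖ ^ 2) :
    ‖ampx μ Ψ Φ r‖ ^ 2 ≤ C * ∫ w, ‖Φ (r, w)‖ ^ 2 ∂μ := by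
  set v := ampx μ Ψ Φ r with hv
  have h1 : ‖v‖ ^ 2 = ‖amp μ (fun q => Ψ q v) Φ r‖ := by
    rw [← inner_ampx hΨ hΦ hc, ← hv, inner_self_eq_norm_sq_to_K]
    simp
  have h2 := norm_amp_sq_le (μ := μ) (Ψ := fun q => Ψ q v) (Φ := Φ) r (hC v).1
    (fibre_memLp hΦ hc r)
  rw [← h1] at h2
  have hB : 0 ≤ ∫ w, ‖Φ (r, w)‖ ^ 2 ∂μ := integral_nonneg fun _ => by positivity
  have h3 : (‖v‖ ^ 2) ^ 2 ≤ (C * ‖v‖ ^ 2) * ∫ w, ‖Φ (r, w)‖ ^ 2 ∂μ :=
    h2.trans (mul_le_mul_of_nonneg_right (hC v).2 hB)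
  by_cases hv0 : ‖v‖ ^ 2 = 0
  · rw [hv0]
    positivity
  · have h4 : 0 < ‖v‖ ^ 2 := lt_of_le_of_ne (by positivity) (Ne.symm hv0)
    have h5 : ‖v‖ ^ 2 * ‖v‖ ^ 2 ≤ (C * ∫ w, ‖Φ (r, w)‖ ^ 2 ∂μ) * ‖v‖ ^ 2 := by nlinarith
    exact le_of_mul_le_mul_right h5 h4


/-- `∫ ‖a‖² ≤ C ∫ ‖Φ‖²` if the fibre norms of `Ψ` are bounded by `C` where `Φ` lives -/
theorem integral_ampx_sq_le (hΨ : Continuous Ψ) (hΦ : Continuous Φ) (hc : HasCompactSupport Φ)
    {C : ℝ} (hC0 : 0 ≤ C) (hC : ∀ r, (∃ w, Φ (r, w) ≠ 0) → ∀ v, MemLp (fun w => Ψ (r, w) v) 2 μ ∧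
      ∫ w, ‖Ψ (r, w) v‖ ^ 2 ∂μ ≤ C * ‖v‖ ^ 2) :
    ∫ r, ‖ampx μ Ψ Φ r‖ ^ 2 ∂ν ≤ C * ∫ q, ‖Φ q‖ ^ 2 ∂(ν.prod μ) := by
  rw [← integral_fibre hΦ hc, ← integral_const_mul]
  have hpt : ∀ r, ‖ampx μ Ψ Φ r‖ ^ 2 ≤ C * ∫ w, ‖Φ (r, w)‖ ^ 2 ∂μ := by
    intro r
    by_cases h : ∃ w, Φ (r, w) ≠ 0
    · exact norm_ampx_sq_le hΨ hΦ hc r hC0 (hC r h)
    · push Not at h
      rw [ampx_eq_zero h, norm_zero, zero_pow two_ne_zero]
      have : 0 ≤ ∫ w, ‖Φ (r, w)‖ ^ 2 ∂μ := integral_nonneg fun _ => by positivity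
      positivity
  refine integral_mono_of_nonneg (Eventually.of_forall fun r => by positivity) ?_
    (Eventually.of_forall hpt)
  exact ((integrable_normSq (ν := ν) (μ := μ) hΦ hc).integral_prod_left).const_mul C

/-- `ampx` of a sum of the two terms of the product rule -/
theorem integral_fderiv_ampx_sq_le (hΨ : ContDiff ℝ 1 Ψ) (hΦ : ContDiff ℝ 1 Φ)
    (hc : HasCompactSupport Φ) (e : X) {C D : ℝ} (hC0 : 0 ≤ C) (hD0 : 0 ≤ D)
    (hC : ∀ r, (∃ w, Φ (r, w) ≠ 0 ∨ fderiv ℝ Φ (r, w) (e, 0) ≠ 0) → ∀ v,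
      MemLp (fun w => Ψ (r, w) v) 2 μ ∧ ∫ w, ‖Ψ (r, w) v‖ ^ 2 ∂μ ≤ C * ‖v‖ ^ 2)
    (hD : ∀ r, (∃ w, Φ (r, w) ≠ 0) → ∀ v,
      MemLp (fun w => fderiv ℝ Ψ (r, w) (e, 0) v) 2 μ ∧
        ∫ w, ‖fderiv ℝ Ψ (r, w) (e, 0) v‖ ^ 2 ∂μ ≤ D * ‖v‖ ^ 2) :
    ∫ r, ‖fderiv ℝ (ampx μ Ψ Φ) r e‖ ^ 2 ∂ν ≤
      2 * C * (∫ q, ‖fderiv ℝ Φ q (e, 0)‖ ^ 2 ∂(ν.prod μ)) +
        2 * D * ∫ q, ‖Φ q‖ ^ 2 ∂(ν.prod μ) := by
  have hc' := hasCompactSupport_dir hc (e, (0 : Ω))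
  have hΦ' := continuous_dir hΦ (e, (0 : Ω))
  have hΨ' := continuous_dir hΨ (e, (0 : Ω))
  have h1 := integral_ampx_sq_le (ν := ν) (μ := μ) hΨ.continuous hΦ' hc' hC0
    (fun r hr => hC r (by obtain ⟨w, hw⟩ := hr; exact ⟨w, Or.inr hw⟩))
  have h2 := integral_ampx_sq_le (ν := ν) (μ := μ) hΨ' hΦ.continuous hc hD0 hD
  have ha1 : Continuous (ampx μ Ψ fun q => fderiv ℝ Φ q (e, 0)) :=
    continuous_ampx hΨ.continuous hΦ' hc'
  have ha2 : Continuous (ampx μ (fun q => fderiv ℝ Ψ q (e, 0)) Φ) :=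
    continuous_ampx hΨ' hΦ.continuous hc
  have hI1 : Integrable (fun r => ‖ampx μ Ψ (fun q => fderiv ℝ Φ q (e, 0)) r‖ ^ 2) ν := by
    apply ((continuous_norm.comp ha1).pow 2).integrable_of_hasCompactSupport
    exact (hasCompactSupport_ampx (μ := μ) (Ψ := Ψ) hc').mono' fun x hx => subset_tsupport _ (by
      intro h0; apply hx; simp [h0])
  have hI2 : Integrable (fun r => ‖ampx μ (fun q => fderiv ℝ Ψ q (e, 0)) Φ r‖ ^ 2) ν := by
    apply ((continuous_norm.comp ha2).pow 2).integrable_of_hasCompactSupport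
    exact (hasCompactSupport_ampx (μ := μ) (Ψ := fun q => fderiv ℝ Ψ q (e, 0)) hc).mono' fun x hx => subset_tsupport _ (by
      intro h0; apply hx; simp [h0])
  calc ∫ r, ‖fderiv ℝ (ampx μ Ψ Φ) r e‖ ^ 2 ∂ν
      ≤ ∫ r, (2 * ‖ampx μ Ψ (fun q => fderiv ℝ Φ q (e, 0)) r‖ ^ 2 +
          2 * ‖ampx μ (fun q => fderiv ℝ Ψ q (e, 0)) Φ r‖ ^ 2) ∂ν := by
        refine integral_mono_of_nonneg (Eventually.of_forall fun r => by positivity)
          ((hI1.const_mul 2).add (hI2.const_mul 2)) (Eventually.of_forall fun r => ?_)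
        simp only
        rw [fderiv_ampx hΨ hΦ hc]
        have := norm_add_le (ampx μ Ψ (fun q => fderiv ℝ Φ q (e, 0)) r)
          (ampx μ (fun q => fderiv ℝ Ψ q (e, 0)) Φ r)
        have h0 := norm_nonneg (ampx μ Ψ (fun q => fderiv ℝ Φ q (e, 0)) r +
          ampx μ (fun q => fderiv ℝ Ψ q (e, 0)) Φ r)
        nlinarith [sq_nonneg (‖ampx μ Ψ (fun q => fderiv ℝ Φ q (e, 0)) r‖ -
          ‖ampx μ (fun q => fderiv ℝ Ψ q (e, 0)) Φ r‖)]
    _ = 2 * (∫ r, ‖ampx μ Ψ (fun q => fderiv ℝ Φ q (e, 0)) r‖ ^ 2 ∂ν) +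
          2 * ∫ r, ‖ampx μ (fun q => fderiv ℝ Ψ q (e, 0)) Φ r‖ ^ 2 ∂ν := by
        rw [integral_add (hI1.const_mul 2) (hI2.const_mul 2), integral_const_mul,
          integral_const_mul]
    _ ≤ _ := by nlinarith







end G2

section Null

variable {R Ω : Type*} [NormedAddCommGroup R] [InnerProductSpace ℝ R] [FiniteDimensional ℝ R]
  [MeasurableSpace R] [BorelSpace R]
  [NormedAddCommGroup Ω] [NormedSpace ℝ Ω] [FiniteDimensional ℝ Ω] [MeasurableSpace Ω]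
  [BorelSpace Ω] {μ : Measure Ω} [μ.IsAddHaarMeasure]
  {F : Type*} [NormedAddCommGroup F] [InnerProductSpace ℂ F] [FiniteDimensional ℂ F]
  {Fx : Type*} [NormedAddCommGroup Fx] [InnerProductSpace ℂ Fx] [FiniteDimensional ℂ Fx]


end Null



end Crest.Agent.R330.Amp406
end
end

-- ▼ part R330/Amp3_406
section

/-!
Row 330 (helper406): leaf C11 = (I3) of the slice estimate.

* `inner_ampx'`, `norm_ampx_sq_le'`, `bridge` : amplitudes for `Ψ` only square integrable in the fibre.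
* `amp_I3` : for `Ψ j`, `Φ j` jointly `C¹`, all fibre norms bounded: the amplitudes `a j` are `C¹`, live in
  one ball and are bounded in `H¹`.
* product form `Ψ(r,(y,z)) = gs(r,z) • Ψ₀(r,y)` : bounds, relation with `fpr`.
-/

set_option autoImplicit false
set_option linter.unusedSectionVars false

noncomputable section

namespace Crest.Agent.R330.Amp406

open MeasureTheory Filter Topology Set Crest.Agent.R330.Fib837 Crest.Agent.R330.Amp837
open Crest.Agent.R330.FibProj837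
open scoped ContDiff InnerProductSpace ENNReal

section L2

variable {X Ω : Type*} [NormedAddCommGroup X] [NormedSpace ℝ X] [FiniteDimensional ℝ X]
  [MeasurableSpace X] [BorelSpace X]
  [NormedAddCommGroup Ω] [NormedSpace ℝ Ω] [FiniteDimensional ℝ Ω] [MeasurableSpace Ω]
  [BorelSpace Ω] {ν : Measure X} [ν.IsAddHaarMeasure] {μ : Measure Ω} [μ.IsAddHaarMeasure]
  {F : Type*} [NormedAddCommGroup F] [InnerProductSpace ℂ F] [FiniteDimensional ℂ F]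
  {Fx : Type*} [NormedAddCommGroup Fx] [InnerProductSpace ℂ Fx] [FiniteDimensional ℂ Fx]
  {Ψ Ψ' : X × Ω → Fx →L[ℂ] F} {Φ : X × Ω → F}


theorem integrable_ampx' {r : X} (hΨ : ∀ v, MemLp (fun w => Ψ (r, w) v) 2 μ)
    (hΦ : MemLp (fun w => Φ (r, w)) 2 μ) : Integrable (fun w => adj (Ψ (r, w)) (Φ (r, w))) μ := by
  have h : (fun w => adj (Ψ (r, w)) (Φ (r, w))) = fun w =>
      ∑ i, ⟪Ψ (r, w) (stdOrthonormalBasis ℂ Fx i), Φ (r, w)⟫_ℂ • stdOrthonormalBasis ℂ Fx i := by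
    funext w
    rw [← (stdOrthonormalBasis ℂ Fx).sum_repr' (adj (Ψ (r, w)) (Φ (r, w)))]
    exact Finset.sum_congr rfl fun i _ => by rw [inner_adj_right]
  rw [h]
  exact integrable_finsetSum _ fun i _ =>
    (Crest.Agent.R330.IBP837.integrable_inner_of_memLp (hΨ _) hΦ).smul_const _

theorem inner_ampx' {r : X} (hΨ : ∀ v, MemLp (fun w => Ψ (r, w) v) 2 μ)
    (hΦ : MemLp (fun w => Φ (r, w)) 2 μ) (v : Fx) :
    ⟪v, ampx μ Ψ Φ r⟫_ℂ = ∫ w, ⟪Ψ (r, w) v, Φ (r, w)⟫_ℂ ∂μ := by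
  have : CompleteSpace Fx := FiniteDimensional.complete ℂ Fx
  have h := (innerSL ℂ v).integral_comp_comm (integrable_ampx' hΨ hΦ)
  simp only [innerSL_apply_apply] at h
  unfold ampx
  rw [← h]
  refine integral_congr_ae (Eventually.of_forall fun w => ?_)
  exact inner_adj_right _ _ _





end L2

section I3

variable {R Ω : Type*} [NormedAddCommGroup R] [InnerProductSpace ℝ R] [FiniteDimensional ℝ R]
  [MeasurableSpace R] [BorelSpace R]
  [NormedAddCommGroup Ω] [NormedSpace ℝ Ω] [FiniteDimensional ℝ Ω] [MeasurableSpace Ω]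
  [BorelSpace Ω] {μ : Measure Ω} [μ.IsAddHaarMeasure]
  {F : Type*} [NormedAddCommGroup F] [InnerProductSpace ℂ F] [FiniteDimensional ℂ F]
  {Fx : Type*} [NormedAddCommGroup Fx] [InnerProductSpace ℂ Fx] [FiniteDimensional ℂ Fx]

theorem opNorm_sq_le_basis {κ : Type*} [Fintype κ] (e : OrthonormalBasis κ ℝ R)
    {G : Type*} [NormedAddCommGroup G] [NormedSpace ℝ G] (T : R →L[ℝ] G) :
    ‖T‖ ^ 2 ≤ ∑ i, ‖T (e i)‖ ^ 2 := by
  have h2 : ‖T‖ ≤ Real.sqrt (∑ i, ‖T (e i)‖ ^ 2) := by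
    refine T.opNorm_le_bound (Real.sqrt_nonneg _) fun v => ?_
    calc ‖T v‖ = ‖T (∑ i, ⟪e i, v⟫_ℝ • e i)‖ := by rw [e.sum_repr' v]
      _ = ‖∑ i, ⟪e i, v⟫_ℝ • T (e i)‖ := by rw [map_sum]; simp only [map_smul]
      _ ≤ ∑ i, ‖T (e i)‖ * |⟪e i, v⟫_ℝ| := by
          refine (norm_sum_le _ _).trans (le_of_eq ?_)
          refine Finset.sum_congr rfl fun i _ => ?_
          rw [norm_smul, Real.norm_eq_abs, mul_comm]
      _ ≤ Real.sqrt (∑ i, ‖T (e i)‖ ^ 2) * Real.sqrt (∑ i, |⟪e i, v⟫_ℝ| ^ 2) :=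
          Real.sum_mul_le_sqrt_mul_sqrt _ _ _
      _ = Real.sqrt (∑ i, ‖T (e i)‖ ^ 2) * ‖v‖ := by
          congr 1
          have : ∑ i, |⟪e i, v⟫_ℝ| ^ 2 = ‖v‖ ^ 2 := by
            have := e.sum_sq_norm_inner_right v
            simpa [Real.norm_eq_abs] using this
          rw [this, Real.sqrt_sq (norm_nonneg _)]
  calc ‖T‖ ^ 2 ≤ Real.sqrt (∑ i, ‖T (e i)‖ ^ 2) ^ 2 := by gcongr
    _ = _ := Real.sq_sqrt (Finset.sum_nonneg fun i _ => by positivity)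

/-- support over the base -/
theorem fderiv_base_supp {Φ : R × Ω → F} {ρ : ℝ} (hρ : ∀ r w, ρ < ‖r‖ → Φ (r, w) = 0)
    {r : R} {w : Ω} (hr : ρ < ‖r‖) : fderiv ℝ Φ (r, w) = 0 := by
  have h2 : Φ =ᶠ[𝓝 (r, w)] fun _ => 0 := by
    have h3 : IsOpen {q : R × Ω | ρ < ‖q.1‖} := isOpen_lt continuous_const (by fun_prop)
    filter_upwards [h3.mem_nhds (show (r, w) ∈ {q : R × Ω | ρ < ‖q.1‖} from hr)] with q hq
    exact hρ q.1 q.2 hq
  rw [h2.fderiv_eq]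
  simp

theorem tsupport_ampx {Ψ : R × Ω → Fx →L[ℂ] F} {Φ : R × Ω → F} {ρ : ℝ}
    (hρ : ∀ r w, ρ < ‖r‖ → Φ (r, w) = 0) :
    tsupport (ampx μ Ψ Φ) ⊆ Metric.closedBall 0 ρ := by
  refine closure_minimal (fun r hr => ?_) Metric.isClosed_closedBall
  rw [mem_closedBall_zero_iff]
  by_contra h
  exact hr (ampx_eq_zero fun w => hρ r w (not_le.1 h))

/-- **(I3)** one amplitude: all bounds in terms of the fibre norms of `Ψ` over the ball `‖r‖ ≤ ρ` -/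
theorem amp_bounds {κ : Type*} [Fintype κ] (e : OrthonormalBasis κ ℝ R)
    {Ψ : R × Ω → Fx →L[ℂ] F} {Φ : R × Ω → F} (hΨ : ContDiff ℝ 1 Ψ) (hΦ : ContDiff ℝ 1 Φ)
    (hc : HasCompactSupport Φ) {C₀ C₁ D₀ D₁ ρ : ℝ} (hC0 : 0 ≤ C₀) (hC1 : 0 ≤ C₁)
    (hρ : ∀ r w, ρ < ‖r‖ → Φ (r, w) = 0)
    (hΨ2 : ∀ r, ‖r‖ ≤ ρ → ∀ v, MemLp (fun w => Ψ (r, w) v) 2 μ ∧
      ∫ w, ‖Ψ (r, w) v‖ ^ 2 ∂μ ≤ C₀ * ‖v‖ ^ 2)
    (hdΨ2 : ∀ r, ‖r‖ ≤ ρ → ∀ i v, MemLp (fun w => fderiv ℝ Ψ (r, w) (e i, 0) v) 2 μ ∧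
      ∫ w, ‖fderiv ℝ Ψ (r, w) (e i, 0) v‖ ^ 2 ∂μ ≤ C₁ * ‖v‖ ^ 2)
    (hΦ2 : ∫ q, ‖Φ q‖ ^ 2 ∂((volume : Measure R).prod μ) ≤ D₀)
    (hdΦ2 : ∀ i, ∫ q, ‖fderiv ℝ Φ q (e i, 0)‖ ^ 2 ∂((volume : Measure R).prod μ) ≤ D₁) :
    ContDiff ℝ 1 (ampx μ Ψ Φ) ∧ HasCompactSupport (ampx μ Ψ Φ) ∧
      tsupport (ampx μ Ψ Φ) ⊆ Metric.closedBall 0 ρ ∧ ∫ r, ‖ampx μ Ψ Φ r‖ ^ 2 ≤ C₀ * D₀ ∧
      ∫ r, ‖fderiv ℝ (ampx μ Ψ Φ) r‖ ^ 2 ≤ Fintype.card κ * (2 * C₀ * D₁ + 2 * C₁ * D₀) := by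
  have hsub : ∀ r w, Φ (r, w) ≠ 0 → ‖r‖ ≤ ρ := by
    intro r w h
    by_contra h1
    exact h (hρ r w (not_le.1 h1))
  have hsub' : ∀ r w (v : R), fderiv ℝ Φ (r, w) (v, 0) ≠ 0 → ‖r‖ ≤ ρ := by
    intro r w v h
    by_contra h1
    apply h
    rw [fderiv_base_supp hρ (not_le.1 h1)]
    rfl
  have hcd : ContDiff ℝ 1 (ampx μ Ψ Φ) := contDiff_ampx (n := 1) hΨ hΦ hc
  have hcs : HasCompactSupport (ampx μ Ψ Φ) := hasCompactSupport_ampx hc
  refine ⟨hcd, hcs, tsupport_ampx hρ, ?_, ?_⟩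
  · refine (integral_ampx_sq_le hΨ.continuous hΦ.continuous hc hC0
      (fun r ⟨w, hw⟩ => hΨ2 r (hsub r w hw))).trans ?_
    exact mul_le_mul_of_nonneg_left hΦ2 hC0
  · have hdc : Continuous (fderiv ℝ (ampx μ Ψ Φ)) := hcd.continuous_fderiv (by norm_num)
    have hdcs : HasCompactSupport (fderiv ℝ (ampx μ Ψ Φ)) := hcs.fderiv (𝕜 := ℝ)
    have hI0 : Integrable (fun r => ‖fderiv ℝ (ampx μ Ψ Φ) r‖ ^ 2) volume :=
      Rel893.integrable_norm_sq_of_memLp (hdc.memLp_of_hasCompactSupport hdcs)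
    have hIi : ∀ i, Integrable (fun r => ‖fderiv ℝ (ampx μ Ψ Φ) r (e i)‖ ^ 2) volume := by
      intro i
      refine Rel893.integrable_norm_sq_of_memLp
        ((hdc.clm_apply continuous_const).memLp_of_hasCompactSupport ?_)
      exact hdcs.mono' fun x hx => subset_tsupport _ (by intro h0; apply hx; simp [h0])
    have h1 : ∀ i, ∫ r, ‖fderiv ℝ (ampx μ Ψ Φ) r (e i)‖ ^ 2 ≤ 2 * C₀ * D₁ + 2 * C₁ * D₀ := by
      intro i
      refine (integral_fderiv_ampx_sq_le hΨ hΦ hc (e i) hC0 hC1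
        (fun r ⟨w, hw⟩ => hΨ2 r (hw.elim (hsub r w) (hsub' r w (e i))))
        (fun r ⟨w, hw⟩ => hdΨ2 r (hsub r w hw) i)).trans ?_
      have h2 := hdΦ2 i
      have h3 := mul_le_mul_of_nonneg_left h2 (by linarith : 0 ≤ 2 * C₀)
      have h4 := mul_le_mul_of_nonneg_left hΦ2 (by linarith : 0 ≤ 2 * C₁)
      linarith
    calc ∫ r, ‖fderiv ℝ (ampx μ Ψ Φ) r‖ ^ 2
        ≤ ∫ r, ∑ i, ‖fderiv ℝ (ampx μ Ψ Φ) r (e i)‖ ^ 2 :=
          integral_mono hI0 (integrable_finsetSum _ fun i _ => hIi i)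
            fun r => opNorm_sq_le_basis e _
      _ = ∑ i, ∫ r, ‖fderiv ℝ (ampx μ Ψ Φ) r (e i)‖ ^ 2 := integral_finsetSum _ fun i _ => hIi i
      _ ≤ ∑ _i : κ, (2 * C₀ * D₁ + 2 * C₁ * D₀) := Finset.sum_le_sum fun i _ => h1 i
      _ = _ := by rw [Finset.sum_const, Finset.card_univ, nsmul_eq_mul]

end I3

/-! ### product form -/

section Prod

variable {X Y Z : Type*} [NormedAddCommGroup X] [NormedSpace ℝ X] [FiniteDimensional ℝ X]
  [MeasurableSpace X] [BorelSpace X]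
  [NormedAddCommGroup Y] [NormedSpace ℝ Y] [FiniteDimensional ℝ Y] [MeasurableSpace Y]
  [BorelSpace Y] [NormedAddCommGroup Z] [NormedSpace ℝ Z] [FiniteDimensional ℝ Z]
  [MeasurableSpace Z] [BorelSpace Z]
  {ν : Measure X} [ν.IsAddHaarMeasure] {μY : Measure Y} [μY.IsAddHaarMeasure]
  {μZ : Measure Z} [μZ.IsAddHaarMeasure]
  {F : Type*} [NormedAddCommGroup F] [InnerProductSpace ℂ F] [FiniteDimensional ℂ F]
  {Fx : Type*} [NormedAddCommGroup Fx] [InnerProductSpace ℂ Fx] [FiniteDimensional ℂ Fx]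

/-- `Ψ(r,(y,z)) = gs(r,z) • Ψ₀(r,y)` -/
def pst (gs : X × Z → ℝ) (Ψ₀ : X × Y → Fx →L[ℂ] F) (q : X × (Y × Z)) : Fx →L[ℂ] F :=
  gs (q.1, q.2.2) • Ψ₀ (q.1, q.2.1)

variable {gs : X × Z → ℝ} {Ψ₀ : X × Y → Fx →L[ℂ] F}

theorem pst_apply (q : X × (Y × Z)) (v : Fx) :
    pst gs Ψ₀ q v = gs (q.1, q.2.2) • Ψ₀ (q.1, q.2.1) v := rfl

theorem contDiff_pst {n : WithTop ℕ∞} (hg : ContDiff ℝ n gs) (hΨ : ContDiff ℝ n Ψ₀) :
    ContDiff ℝ n (pst gs Ψ₀) := by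
  have h1 : ContDiff ℝ n fun q : X × (Y × Z) => gs (q.1, q.2.2) := hg.comp (by fun_prop)
  have h2 : ContDiff ℝ n fun q : X × (Y × Z) => Ψ₀ (q.1, q.2.1) := hΨ.comp (by fun_prop)
  exact h1.smul h2

theorem fderiv_pst (hg : ContDiff ℝ 1 gs) (hΨ : ContDiff ℝ 1 Ψ₀) (r e : X) (y : Y) (z : Z) :
    fderiv ℝ (pst gs Ψ₀) (r, (y, z)) (e, 0) =
      fderiv ℝ gs (r, z) (e, 0) • Ψ₀ (r, y) + gs (r, z) • fderiv ℝ Ψ₀ (r, y) (e, 0) := by
  let p1 : X × (Y × Z) →L[ℝ] X × Z :=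
    (ContinuousLinearMap.fst ℝ X (Y × Z)).prod
      ((ContinuousLinearMap.snd ℝ Y Z).comp (ContinuousLinearMap.snd ℝ X (Y × Z)))
  let p2 : X × (Y × Z) →L[ℝ] X × Y :=
    (ContinuousLinearMap.fst ℝ X (Y × Z)).prod
      ((ContinuousLinearMap.fst ℝ Y Z).comp (ContinuousLinearMap.snd ℝ X (Y × Z)))
  have h1 : HasFDerivAt (fun q : X × (Y × Z) => gs (q.1, q.2.2)) ((fderiv ℝ gs (r, z)).comp p1)
      (r, (y, z)) := by
    have h : HasFDerivAt gs (fderiv ℝ gs (r, z)) (p1 (r, (y, z))) :=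
      ((hg.differentiable (by norm_num)) (r, z)).hasFDerivAt
    exact h.comp _ p1.hasFDerivAt
  have h2 : HasFDerivAt (fun q : X × (Y × Z) => Ψ₀ (q.1, q.2.1))
      ((fderiv ℝ Ψ₀ (r, y)).comp p2) (r, (y, z)) := by
    have h : HasFDerivAt Ψ₀ (fderiv ℝ Ψ₀ (r, y)) (p2 (r, (y, z))) :=
      ((hΨ.differentiable (by norm_num)) (r, y)).hasFDerivAt
    exact h.comp _ p2.hasFDerivAt
  have h3 : HasFDerivAt (pst gs Ψ₀) _ (r, (y, z)) := h1.smul h2
  rw [h3.fderiv]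
  have e2 : p1 (e, 0) = (e, 0) := rfl
  have e3 : p2 (e, 0) = (e, 0) := rfl
  simp only [_root_.add_apply, _root_.smul_apply, ContinuousLinearMap.comp_apply,
    ContinuousLinearMap.smulRight_apply, e2, e3]
  rw [add_comm]

/-- a product of square integrable functions is square integrable on the product -/
theorem memLp_prod_smul {g : Z → ℝ} {f : Y → F} (hg : MemLp g 2 μZ) (hf : MemLp f 2 μY) :
    MemLp (fun q : Y × Z => g q.2 • f q.1) 2 (μY.prod μZ) := by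
  have hm : AEStronglyMeasurable (fun q : Y × Z => g q.2 • f q.1) (μY.prod μZ) :=
    (hg.1.comp_quasiMeasurePreserving Measure.quasiMeasurePreserving_snd).smul
      (hf.1.comp_quasiMeasurePreserving Measure.quasiMeasurePreserving_fst)
  rw [memLp_two_iff_integrable_sq_norm hm]
  have h1 := (memLp_two_iff_integrable_sq_norm hf.1).1 hf
  have h2 := (memLp_two_iff_integrable_sq_norm hg.1).1 hg
  refine (h1.mul_prod h2).congr (Eventually.of_forall fun q => ?_)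
  simp only [norm_smul, mul_pow]
  ring

theorem integral_prod_smul_sq (g : Z → ℝ) (f : Y → F) :
    ∫ q, ‖g q.2 • f q.1‖ ^ 2 ∂(μY.prod μZ) = (∫ z, g z ^ 2 ∂μZ) * ∫ y, ‖f y‖ ^ 2 ∂μY := by
  have h1 : ∀ q : Y × Z, ‖g q.2 • f q.1‖ ^ 2 = ‖f q.1‖ ^ 2 * g q.2 ^ 2 := by
    intro q
    rw [norm_smul, mul_pow, Real.norm_eq_abs, sq_abs, mul_comm]
  simp only [h1]
  rw [integral_prod_mul (fun y => ‖f y‖ ^ 2) (fun z => g z ^ 2), mul_comm]

/-- fibre norms of the product form -/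
theorem pst_norm {r : X} (hg : MemLp (fun z => gs (r, z)) 2 μZ) {G C : ℝ}
    (hG : ∫ z, gs (r, z) ^ 2 ∂μZ ≤ G)
    (hΨ : ∀ v, MemLp (fun y => Ψ₀ (r, y) v) 2 μY ∧ ∫ y, ‖Ψ₀ (r, y) v‖ ^ 2 ∂μY ≤ C * ‖v‖ ^ 2)
    (v : Fx) : MemLp (fun w : Y × Z => pst gs Ψ₀ (r, w) v) 2 (μY.prod μZ) ∧
      ∫ w, ‖pst gs Ψ₀ (r, w) v‖ ^ 2 ∂(μY.prod μZ) ≤ G * C * ‖v‖ ^ 2 := by
  refine ⟨memLp_prod_smul hg (hΨ v).1, ?_⟩
  have h1 : ∫ w, ‖pst gs Ψ₀ (r, w) v‖ ^ 2 ∂(μY.prod μZ) =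
      (∫ z, gs (r, z) ^ 2 ∂μZ) * ∫ y, ‖Ψ₀ (r, y) v‖ ^ 2 ∂μY :=
    integral_prod_smul_sq (fun z => gs (r, z)) (fun y => Ψ₀ (r, y) v)
  have h2 : 0 ≤ ∫ z, gs (r, z) ^ 2 ∂μZ := integral_nonneg fun _ => by positivity
  have h3 : 0 ≤ ∫ y, ‖Ψ₀ (r, y) v‖ ^ 2 ∂μY := integral_nonneg fun _ => by positivity
  rw [h1, mul_assoc]
  exact mul_le_mul hG (hΨ v).2 h3 (h2.trans hG)


/-- fibre norms of the derivative of the product form -/
theorem pst_dnorm (hg1 : ContDiff ℝ 1 gs) (hΨ1 : ContDiff ℝ 1 Ψ₀) {r e : X}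
    (hg : MemLp (fun z => gs (r, z)) 2 μZ)
    (hdg : MemLp (fun z => fderiv ℝ gs (r, z) (e, 0)) 2 μZ) {G G' C C' : ℝ}
    (hG : ∫ z, gs (r, z) ^ 2 ∂μZ ≤ G) (hG' : ∫ z, fderiv ℝ gs (r, z) (e, 0) ^ 2 ∂μZ ≤ G')
    (hΨ : ∀ v, MemLp (fun y => Ψ₀ (r, y) v) 2 μY ∧ ∫ y, ‖Ψ₀ (r, y) v‖ ^ 2 ∂μY ≤ C * ‖v‖ ^ 2)
    (hΨ' : ∀ v, MemLp (fun y => fderiv ℝ Ψ₀ (r, y) (e, 0) v) 2 μY ∧
      ∫ y, ‖fderiv ℝ Ψ₀ (r, y) (e, 0) v‖ ^ 2 ∂μY ≤ C' * ‖v‖ ^ 2)
    (v : Fx) :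
    MemLp (fun w : Y × Z => fderiv ℝ (pst gs Ψ₀) (r, w) (e, 0) v) 2 (μY.prod μZ) ∧
      ∫ w, ‖fderiv ℝ (pst gs Ψ₀) (r, w) (e, 0) v‖ ^ 2 ∂(μY.prod μZ) ≤
        2 * (G' * C + G * C') * ‖v‖ ^ 2 := by
  have hm1 : MemLp (fun w : Y × Z => fderiv ℝ gs (r, w.2) (e, 0) • Ψ₀ (r, w.1) v) 2 (μY.prod μZ) :=
    memLp_prod_smul (g := fun z => fderiv ℝ gs (r, z) (e, 0)) hdg (hΨ v).1
  have hm2 : MemLp (fun w : Y × Z => gs (r, w.2) • fderiv ℝ Ψ₀ (r, w.1) (e, 0) v) 2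
      (μY.prod μZ) :=
    memLp_prod_smul (g := fun z => gs (r, z)) hg (hΨ' v).1
  have he : ∀ w : Y × Z, fderiv ℝ (pst gs Ψ₀) (r, w) (e, 0) v =
      fderiv ℝ gs (r, w.2) (e, 0) • Ψ₀ (r, w.1) v +
        gs (r, w.2) • fderiv ℝ Ψ₀ (r, w.1) (e, 0) v := by
    intro w
    have := fderiv_pst hg1 hΨ1 r e w.1 w.2
    rw [show (r, w) = (r, (w.1, w.2)) from rfl, this]
    rfl
  simp only [he]
  refine ⟨hm1.add hm2, ?_⟩
  have hi1 := (memLp_two_iff_integrable_sq_norm hm1.1).1 hm1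
  have hi2 := (memLp_two_iff_integrable_sq_norm hm2.1).1 hm2
  have e1 : ∫ w : Y × Z, ‖fderiv ℝ gs (r, w.2) (e, 0) • Ψ₀ (r, w.1) v‖ ^ 2 ∂(μY.prod μZ) =
      (∫ z, fderiv ℝ gs (r, z) (e, 0) ^ 2 ∂μZ) * ∫ y, ‖Ψ₀ (r, y) v‖ ^ 2 ∂μY :=
    integral_prod_smul_sq (fun z => fderiv ℝ gs (r, z) (e, 0)) (fun y => Ψ₀ (r, y) v)
  have e2 : ∫ w : Y × Z, ‖gs (r, w.2) • fderiv ℝ Ψ₀ (r, w.1) (e, 0) v‖ ^ 2 ∂(μY.prod μZ) =
      (∫ z, gs (r, z) ^ 2 ∂μZ) * ∫ y, ‖fderiv ℝ Ψ₀ (r, y) (e, 0) v‖ ^ 2 ∂μY :=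
    integral_prod_smul_sq (fun z => gs (r, z)) (fun y => fderiv ℝ Ψ₀ (r, y) (e, 0) v)
  have p1 : 0 ≤ ∫ z, fderiv ℝ gs (r, z) (e, 0) ^ 2 ∂μZ := integral_nonneg fun _ => by positivity
  have p2 : 0 ≤ ∫ y, ‖Ψ₀ (r, y) v‖ ^ 2 ∂μY := integral_nonneg fun _ => by positivity
  have p3 : 0 ≤ ∫ z, gs (r, z) ^ 2 ∂μZ := integral_nonneg fun _ => by positivity
  have p4 : 0 ≤ ∫ y, ‖fderiv ℝ Ψ₀ (r, y) (e, 0) v‖ ^ 2 ∂μY :=
    integral_nonneg fun _ => by positivity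
  calc _ ≤ ∫ w : Y × Z, (2 * ‖fderiv ℝ gs (r, w.2) (e, 0) • Ψ₀ (r, w.1) v‖ ^ 2 +
          2 * ‖gs (r, w.2) • fderiv ℝ Ψ₀ (r, w.1) (e, 0) v‖ ^ 2) ∂(μY.prod μZ) := by
        refine integral_mono_of_nonneg (Eventually.of_forall fun w => by positivity)
          ((hi1.const_mul 2).add (hi2.const_mul 2)) (Eventually.of_forall fun w => ?_)
        simp only
        have := norm_add_le (fderiv ℝ gs (r, w.2) (e, 0) • Ψ₀ (r, w.1) v)
          (gs (r, w.2) • fderiv ℝ Ψ₀ (r, w.1) (e, 0) v)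
        have h0 := norm_nonneg (fderiv ℝ gs (r, w.2) (e, 0) • Ψ₀ (r, w.1) v +
          gs (r, w.2) • fderiv ℝ Ψ₀ (r, w.1) (e, 0) v)
        nlinarith [sq_nonneg (‖fderiv ℝ gs (r, w.2) (e, 0) • Ψ₀ (r, w.1) v‖ -
          ‖gs (r, w.2) • fderiv ℝ Ψ₀ (r, w.1) (e, 0) v‖)]
    _ = 2 * ((∫ z, fderiv ℝ gs (r, z) (e, 0) ^ 2 ∂μZ) * ∫ y, ‖Ψ₀ (r, y) v‖ ^ 2 ∂μY) +
          2 * ((∫ z, gs (r, z) ^ 2 ∂μZ) * ∫ y, ‖fderiv ℝ Ψ₀ (r, y) (e, 0) v‖ ^ 2 ∂μY) := by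
        rw [integral_add (hi1.const_mul 2) (hi2.const_mul 2), integral_const_mul,
          integral_const_mul, e1, e2]
    _ ≤ 2 * (G' * (C * ‖v‖ ^ 2)) + 2 * (G * (C' * ‖v‖ ^ 2)) := by
        have q1 := mul_le_mul hG' (hΨ v).2 p2 (p1.trans hG')
        have q2 := mul_le_mul hG (hΨ' v).2 p4 (p3.trans hG)
        linarith
    _ = _ := by ring


/-- the two forms of the amplitude: over the whole fibre, or through the fibre projection `fpr` -/
theorem ampx_pst_eq {Φ : (X × Y) × Z → F} (hΦ : Continuous Φ) (hc : HasCompactSupport Φ)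
    (hgs : Continuous gs) {p : X × Y → F →ₗ[ℂ] F} (hp : ∀ v, Continuous fun u => p u v)
    (hps : ∀ u, (p u).IsSymmetric) (r : X) (hg : MemLp (fun z => gs (r, z)) 2 μZ)
    (hΨ : ∀ v, MemLp (fun y => Ψ₀ (r, y) v) 2 μY)
    (hpr : ∀ y v, p (r, y) (Ψ₀ (r, y) v) = Ψ₀ (r, y) v) :
    ampx (μY.prod μZ) (pst gs Ψ₀) (fun q => Φ ((q.1, q.2.1), q.2.2)) r =
      ampx μY Ψ₀ (fpr μZ (fun q => gs (q.1.1, q.2)) p Φ) r := by
  have hgs' : Continuous fun q : (X × Y) × Z => gs (q.1.1, q.2) := hgs.comp (by fun_prop)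
  have hw1 : Continuous (fpr μZ (fun q => gs (q.1.1, q.2)) p Φ) := by
    have h0 : ContDiff ℝ ((0 : ℕ∞) : WithTop ℕ∞) (fpr μZ (fun q => gs (q.1.1, q.2)) p Φ) :=
      contDiff_fpr (contDiff_zero.2 hgs') (fun v => contDiff_zero.2 (hp v)) (contDiff_zero.2 hΦ) hc
    exact h0.continuous
  have hw2 : HasCompactSupport (fpr μZ (fun q => gs (q.1.1, q.2)) p Φ) :=
    hasCompactSupport_fpr hc
  have hwm : MemLp (fun y => fpr μZ (fun q => gs (q.1.1, q.2)) p Φ (r, y)) 2 μY :=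
    fibre_memLp hw1 hw2 r
  have hΦc : Continuous fun w : Y × Z => Φ ((r, w.1), w.2) := hΦ.comp (by fun_prop)
  have hΦcs : HasCompactSupport fun w : Y × Z => Φ ((r, w.1), w.2) := by
    obtain ⟨K, k, hK, hk, h1, h2⟩ := exists_fibre_supports hc
    refine HasCompactSupport.intro ((hK.image continuous_snd).prod hk) fun w hw => ?_
    rw [mem_prod, not_and_or] at hw
    rcases hw with hw | hw
    · exact h1 _ (fun hk => hw ⟨_, hk, rfl⟩) _
    · exact h2 _ _ hw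
  have hΦm : MemLp (fun w : Y × Z => Φ ((r, w.1), w.2)) 2 (μY.prod μZ) :=
    hΦc.memLp_of_hasCompactSupport hΦcs
  have hpm : ∀ v, MemLp (fun w : Y × Z => pst gs Ψ₀ (r, w) v) 2 (μY.prod μZ) := fun v =>
    memLp_prod_smul (g := fun z => gs (r, z)) hg (hΨ v)
  refine ext_inner_left ℂ fun v => ?_
  rw [inner_ampx' hΨ hwm v,
    inner_ampx' (Φ := fun q : X × (Y × Z) => Φ ((q.1, q.2.1), q.2.2)) hpm hΦm v]
  have hI : Integrable (fun w : Y × Z => ⟪pst gs Ψ₀ (r, w) v, Φ ((r, w.1), w.2)⟫_ℂ)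
      (μY.prod μZ) := Crest.Agent.R330.IBP837.integrable_inner_of_memLp (hpm v) hΦm
  change ∫ w : Y × Z, ⟪pst gs Ψ₀ (r, w) v, Φ ((r, w.1), w.2)⟫_ℂ ∂(μY.prod μZ) = _
  rw [integral_prod _ hI]
  refine integral_congr_ae (Eventually.of_forall fun y => ?_)
  simp only
  have : CompleteSpace F := FiniteDimensional.complete ℂ F
  have hint : Integrable (fun z => gs (r, z) • Φ ((r, y), z)) μZ := by
    obtain ⟨K, k, hK, hk, h1, h2⟩ := exists_fibre_supports hc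
    have hcont : Continuous fun z => gs (r, z) • Φ ((r, y), z) :=
      (hgs.comp (by fun_prop : Continuous fun z : Z => (r, z))).smul
        (hΦ.comp (by fun_prop : Continuous fun z : Z => ((r, y), z)))
    exact hcont.integrable_of_hasCompactSupport
      (HasCompactSupport.intro hk fun z hz => by rw [h2 _ _ hz, smul_zero])
  have e1 : ∀ z, ⟪pst gs Ψ₀ (r, (y, z)) v, Φ ((r, y), z)⟫_ℂ =
      ⟪Ψ₀ (r, y) v, gs (r, z) • Φ ((r, y), z)⟫_ℂ := by
    intro z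
    rw [pst_apply]
    simp only
    rw [Crest.Agent.R330.Moll350.inner_rs_left, Crest.Agent.R330.Moll350.inner_rs_right]
  simp only [e1]
  have e2 := (innerSL ℂ (Ψ₀ (r, y) v)).integral_comp_comm hint
  simp only [innerSL_apply_apply] at e2
  rw [e2]
  unfold fpr
  rw [← hps, hpr]

end Prod


/-! ### local versions: `Ψ` smooth only over an open set containing the ball -/

section Loc

variable {R Ω : Type*} [NormedAddCommGroup R] [InnerProductSpace ℝ R] [FiniteDimensional ℝ R]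
  [MeasurableSpace R] [BorelSpace R]
  [NormedAddCommGroup Ω] [NormedSpace ℝ Ω] [FiniteDimensional ℝ Ω] [MeasurableSpace Ω]
  [BorelSpace Ω] {μ : Measure Ω} [μ.IsAddHaarMeasure]
  {F : Type*} [NormedAddCommGroup F] [InnerProductSpace ℂ F] [FiniteDimensional ℂ F]
  {Fx : Type*} [NormedAddCommGroup Fx] [InnerProductSpace ℂ Fx] [FiniteDimensional ℂ Fx]







end Loc

/-! ### block states of the form `B(y) h(r)` -/

section HV

variable {X Y : Type*} [NormedAddCommGroup X] [NormedSpace ℝ X]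
  [NormedAddCommGroup Y] [NormedSpace ℝ Y] [MeasurableSpace Y] {μY : Measure Y}
  {F : Type*} [NormedAddCommGroup F] [InnerProductSpace ℂ F]
  {Fx : Type*} [NormedAddCommGroup Fx] [InnerProductSpace ℂ Fx]


variable {B : Y × F → Fx →L[ℂ] F} {h : X → F}






end HV

/-! ### smoothness of operator valued maps is pointwise -/

section Pt

variable {E F Fx : Type*} [NormedAddCommGroup E] [NormedSpace ℝ E]
  [NormedAddCommGroup F] [InnerProductSpace ℂ F]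
  [NormedAddCommGroup Fx] [InnerProductSpace ℂ Fx] [FiniteDimensional ℂ Fx]

theorem isBoundedLinearMap_smulRight (c : Fx →L[ℂ] ℂ) :
    IsBoundedLinearMap ℝ fun u : F => (c.smulRight u : Fx →L[ℂ] F) where
  map_add u v := by
    ext x
    simp [smul_add]
  map_smul r u := by
    ext x
    simp only [ContinuousLinearMap.smulRight_apply]
    exact smul_comm _ _ _
  bound := ⟨‖c‖ + 1, by positivity, fun u => by
    rw [ContinuousLinearMap.norm_smulRight_apply]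
    nlinarith [norm_nonneg u, norm_nonneg c]⟩

theorem eq_sum_smulRight (T : Fx →L[ℂ] F) :
    T = ∑ i, (innerSL ℂ (stdOrthonormalBasis ℂ Fx i)).smulRight
      (T (stdOrthonormalBasis ℂ Fx i)) := by
  ext v
  conv_lhs => rw [← (stdOrthonormalBasis ℂ Fx).sum_repr' v, map_sum]
  rw [_root_.sum_apply]
  refine Finset.sum_congr rfl fun i _ => ?_
  rw [map_smul]
  rfl

theorem contDiffOn_of_apply {n : WithTop ℕ∞} {T : E → Fx →L[ℂ] F} {S : Set E}
    (h : ∀ v, ContDiffOn ℝ n (fun x => T x v) S) : ContDiffOn ℝ n T S := by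
  have e : T = fun x => ∑ i, (innerSL ℂ (stdOrthonormalBasis ℂ Fx i)).smulRight
      (T x (stdOrthonormalBasis ℂ Fx i)) := funext fun x => eq_sum_smulRight (T x)
  rw [e]
  exact ContDiffOn.sum fun i _ =>
    (isBoundedLinearMap_smulRight (F := F) (innerSL ℂ (stdOrthonormalBasis ℂ Fx i))).contDiff.comp_contDiffOn
      (h _)

theorem contDiff_of_apply {n : WithTop ℕ∞} {T : E → Fx →L[ℂ] F}
    (h : ∀ v, ContDiff ℝ n (fun x => T x v)) : ContDiff ℝ n T := by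
  rw [← contDiffOn_univ]
  exact contDiffOn_of_apply fun v => (h v).contDiffOn

end Pt

end Crest.Agent.R330.Amp406
end
end

-- ▼ part R330/Gs_998
section

/-!
# Row 330, S9-LOC (helper998): the normalised Gaussian of a chart and its derivative in the position

* `AzX P X0 X` : compression of `P.A X` to `Zs b (C.cf X0)`.
* `exists_reg` : a ball of parameters (`E1984.PR`) around every regular position.
* `gsZ P X0 g X z` : `exp(-(g/2)⟪A z, z⟫) / (∫ exp(-g⟪A z, z⟫))^{1/2}`; `gsZ_eq` : it is `GPar984.G`.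
* `gsZ_pack`, `gsR_pack` : smoothness, normalisation, derivative in `X`, second moment.
-/

set_option autoImplicit false
set_option linter.unusedSectionVars false

open MeasureTheory Filter Topology Crest.MathPhysics.MatrixQM
open scoped ContDiff InnerProductSpace ENNReal

noncomputable section

namespace Crest.Agent.R330.Gs998

open Crest.Agent.R330.Defs478 Crest.Agent.R330.LS839 Crest.Agent.R330.Frame839
  Crest.Agent.R330.Bind6839 Crest.Agent.R330.TDef414 Crest.Agent.R330.SqrtPD984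
  Crest.Agent.R330.GPar984 Crest.Agent.R330.AX984 Crest.Agent.R330.E1984
open Crest.Agent.R330.SlB314 (Nor Tan br)

variable {N p : ℕ} {b : ColorBasis N} {S : Type} [Group S] [Fintype S] {C : Chn b p S}
  {F : Type*} [NormedAddCommGroup F] [InnerProductSpace ℂ F] [FiniteDimensional ℂ F]
  {M : FermionRep N F} {R : GaugeAction b M} {G' : GammaNine} {X0 : Pos p}

/-- the exponent compressed to the transverse heavy space of the centre -/
def AzX (P : TPack C M R G') (X0 X : Pos p) : Zs b (C.cf X0) →L[ℝ] Zs b (C.cf X0) :=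
  cmp (Zs b (C.cf X0)) (P.A X)

theorem inner_AzX (P : TPack C M R G') (X0 X : Pos p) (z z' : Zs b (C.cf X0)) :
    ⟪AzX P X0 X z, z'⟫_ℝ = ⟪P.A X z, (z' : Cfg N)⟫_ℝ := inner_cmp _ _ _ _

theorem AzX_sy (P : TPack C M R G') (X0 X : Pos p) : Sy (AzX P X0 X) :=
  cmp_sy fun z z' => P.A_symm X z z'

theorem AzX_pd (P : TPack C M R G') (h0 : C.Reg X0) : PD (AzX P X0 X0) := by
  refine ⟨AzX_sy P X0 X0, fun z hz => ?_⟩
  rw [inner_AzX]
  obtain ⟨c, ε, hc, hε, h⟩ := P.A_low X0 h0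
  have h1 : (z : Cfg N) ∈ C.Zt X0 := by
    rw [← PairT245.Zs_eq h0]
    exact z.2
  have h2 := h X0 (by simpa using hε) z h1
  have h3 : 0 < ‖(z : Cfg N)‖ := by
    rw [norm_pos_iff]
    exact fun h0 => hz (Subtype.ext h0)
  have h4 : 0 < c * ‖(z : Cfg N)‖ ^ 2 := by positivity
  linarith

theorem contDiffAt_AzX (P : TPack C M R G') (X0 : Pos p) {X : Pos p} (hX : C.Reg X) :
    ContDiffAt ℝ ∞ (AzX P X0) X := contDiffAt_cmp _ (P.A_smooth X hX)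

/-- a region of parameters around a regular position -/
theorem exists_reg (P : TPack C M R G') (h0 : C.Reg X0) :
    ∃ (δ a K L : ℝ) (l : Pos p → (Pos p →L[ℝ] ℝ)), 0 < δ ∧
      PR (AzX P X0) (Metric.ball X0 δ) a K L l ∧ ∀ X ∈ Metric.ball X0 δ, C.Reg X := by
  obtain ⟨δ, a, K, L, l, hδ, h⟩ := exists_PR (m := ∞) (by simp) (contDiffAt_AzX P X0 h0)
    (Eventually.of_forall fun X => AzX_sy P X0 X) (AzX_pd P h0)
  obtain ⟨δ', hδ', h'⟩ := Metric.eventually_nhds_iff_ball.mp (AFld984.eventually_reg C h0)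
  exact ⟨min δ δ', a, K, L, l, lt_min hδ hδ', h.mono Metric.isOpen_ball
    (Metric.ball_subset_ball (min_le_left _ _)),
    fun X hX => h' X (Metric.ball_subset_ball (min_le_right _ _) hX)⟩




theorem contDiffAt_gG (P : TPack C M R G') {X : Pos p} (hX : C.Reg X) (hp : PD (AzX P X0 X))
    (g : ℝ) (z : Zs b (C.cf X0)) :
    ContDiffAt ℝ ∞ (fun q : Pos p × Zs b (C.cf X0) => G g (AzX P X0 q.1) q.2) (X, z) :=
  contDiffAt_G (by simp) g (contDiffAt_AzX P X0 hX)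
    (Eventually.of_forall fun X => AzX_sy P X0 X) hp

/-- joint derivative in the direction of the position -/
theorem fderiv_gG (P : TPack C M R G') {Ω : Set (Pos p)} {a K L : ℝ}
    {l : Pos p → (Pos p →L[ℝ] ℝ)} (h : PR (AzX P X0) Ω a K L l) {X : Pos p} (hX : X ∈ Ω)
    (hr : C.Reg X) (g : ℝ) (z : Zs b (C.cf X0)) (e : Pos p) :
    fderiv ℝ (fun q : Pos p × Zs b (C.cf X0) => G g (AzX P X0 q.1) q.2) (X, z) (e, 0) =
      dG (AzX P X0) l g X e z := by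
  rw [← h.fderiv_eq hX g z e]
  have h1 : DifferentiableAt ℝ (fun q : Pos p × Zs b (C.cf X0) => G g (AzX P X0 q.1) q.2)
      (X, z) := (contDiffAt_gG P hr (h.ub X hX).1 g z).differentiableAt (by simp)
  have h2 : HasFDerivAt (fun Y : Pos p => (Y, z)) (ContinuousLinearMap.inl ℝ (Pos p)
      (Zs b (C.cf X0))) X := (hasFDerivAt_prodMk_left X z)
  have h3 := HasFDerivAt.comp X (g := fun q : Pos p × Zs b (C.cf X0) => G g (AzX P X0 q.1) q.2)
    (f := fun Y : Pos p => (Y, z)) h1.hasFDerivAt h2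
  have h4 : fderiv ℝ (fun Y => G g (AzX P X0 Y) z) X = _ := h3.fderiv
  rw [h4]
  rfl



end Crest.Agent.R330.Gs998

end
end

-- ▼ part R330/I3_186
section

/-!
# Row 330, S9 capture (I3): the amplitudes are bounded in `H¹` (helper186)

`κ` a cut-off of the slice over `BReg` (`LocC8.Cut`), `Φ = half b c κ φ`,
`a = ampX P g (wB P σ ρ κ g φ)` (450's amplitude of 8's fibre projection).

* `gsX` : the Gaussian in the coordinates `(X, z)`; `gsX_bounds` : `∫ (∂_X gsX)² ≤ C`.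
* `Uz P ζ X = ζ X • U X`, `Ps0` : the block state in the heavy vacuum; norms.
* `PhiX` : the slice function in the coordinates `(X, (Y, z))`.
* `ampX_eq` : `ampX` is 406's `ampx`.
* `I3` : `a` is `C¹`, supported over `ks κ`, `∫ ‖a‖² ≤ C ∫ ‖Φ‖²`,
  `∫ ‖Da‖² ≤ C (∫ ‖Φ‖² + Σ_q ∫ ‖∂_q Φ‖²)`, `C` independent of `g` and `φ`.
-/

set_option autoImplicit false
set_option linter.unusedSectionVars false
set_option maxHeartbeats 400000

open MeasureTheory Filter Topology Set Crest.MathPhysics.MatrixQM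
open scoped ContDiff InnerProductSpace ENNReal

noncomputable section

namespace Crest.Agent.R330.I3186

open Crest.Agent.R330.Bind6839 Crest.Agent.R330.TDef414 Crest.Agent.R330.LS839
  Crest.Agent.R330.Frame839 Crest.Agent.R330.Clus839 Crest.Agent.R330.Defs478
  Crest.Agent.R330.LemA342 Crest.Agent.R330.FibProj837 Crest.Agent.R330.LocB8
  Crest.Agent.R330.LocC8 Crest.Agent.R330.HBX450 Crest.Agent.R330.Amp406
  Crest.Agent.R330.SlQE87 Crest.Agent.R330.Gs998 Crest.Agent.R330.LocD8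

variable {N p : ℕ} {b : ColorBasis N} {S : Type} [Group S] [Fintype S] {C : Chn b p S}
  {F : Type*} [NormedAddCommGroup F] [InnerProductSpace ℂ F] [FiniteDimensional ℂ F]
  {M : FermionRep N F} {R : GaugeAction b M} {G : GammaNine}

/-! ### Families of operators -/

section absU

variable {E F F' : Type*} [NormedAddCommGroup E] [NormedSpace ℝ E] [FiniteDimensional ℝ E]
  [NormedAddCommGroup F] [InnerProductSpace ℂ F] [FiniteDimensional ℂ F]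
  [NormedAddCommGroup F'] [InnerProductSpace ℂ F'] [FiniteDimensional ℂ F']

theorem contDiff_ev {n : WithTop ℕ∞} {T : E → F' →L[ℂ] F} (hT : ContDiff ℝ n T) (v : F') :
    ContDiff ℝ n fun x => T x v :=
  ((ContinuousLinearMap.apply ℂ F v).restrictScalars ℝ).contDiff.comp hT

theorem fderiv_ev {T : E → F' →L[ℂ] F} {x : E} (h : DifferentiableAt ℝ T x) (d : E) (v : F') :
    fderiv ℝ T x d v = fderiv ℝ (fun y => T y v) x d := by
  have h1 := (((ContinuousLinearMap.apply ℂ F v).restrictScalars ℝ).hasFDerivAt (x := T x)).comp x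
    h.hasFDerivAt
  have h2 : HasFDerivAt (fun y => T y v) _ x := h1
  rw [h2.fderiv]
  rfl

/-- `T x (v x)` -/
theorem contDiff_app {n : WithTop ℕ∞} {T : E → F' →L[ℂ] F} {v : E → F'} (hT : ContDiff ℝ n T)
    (hv : ContDiff ℝ n v) : ContDiff ℝ n fun x => T x (v x) := by
  set e := stdOrthonormalBasis ℂ F' with he
  have h1 : (fun x => T x (v x)) = fun x => ∑ k, ⟪e k, v x⟫_ℂ • T x (e k) := by
    funext x
    conv_lhs => rw [← e.sum_repr' (v x)]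
    rw [map_sum]
    exact Finset.sum_congr rfl fun k _ => map_smul _ _ _
  rw [h1]
  refine ContDiff.sum fun k _ => ?_
  exact (contDiff_const.inner ℂ hv).smul (contDiff_ev hT (e k))

/-- uniform bound of the derivative of a compactly supported family of operators -/
theorem fderiv_bound {T : E → F →L[ℂ] F} (hT : ContDiff ℝ 1 T) (hc : HasCompactSupport T) :
    ∃ B : ℝ, 0 ≤ B ∧ ∀ x d v, ‖fderiv ℝ (fun y => T y v) x d‖ ≤ B * ‖d‖ * ‖v‖ := by
  set e := stdOrthonormalBasis ℂ F with he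
  have h1 : ∀ k, ∃ B : ℝ, ∀ x, ‖fderiv ℝ (fun y => T y (e k)) x‖ ≤ B := fun k => by
    have h2 : HasCompactSupport fun y => T y (e k) :=
      hc.mono fun x hx h0 => hx (by simp [h0])
    have h3 : Continuous (fderiv ℝ fun y => T y (e k)) :=
      (contDiff_ev hT (e k)).continuous_fderiv (by norm_num)
    exact (HasCompactSupport.fderiv ℝ h2).exists_bound_of_continuous h3
  choose B hB using h1
  have hB0 : ∀ k, 0 ≤ B k := fun k => (norm_nonneg _).trans (hB k 0)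
  refine ⟨∑ k, B k, Finset.sum_nonneg fun k _ => hB0 k, fun x d v => ?_⟩
  have h4 : fderiv ℝ (fun y => T y v) x d =
      ∑ k, ⟪e k, v⟫_ℂ • fderiv ℝ (fun y => T y (e k)) x d := by
    have hd : DifferentiableAt ℝ T x := (hT.differentiable (by norm_num)) x
    rw [← fderiv_ev hd]
    conv_lhs => rw [← e.sum_repr' v]
    rw [map_sum]
    refine Finset.sum_congr rfl fun k _ => ?_
    rw [map_smul, fderiv_ev hd]
  rw [h4]
  refine (norm_sum_le _ _).trans ?_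
  rw [Finset.sum_mul, Finset.sum_mul]
  refine Finset.sum_le_sum fun k _ => ?_
  rw [norm_smul]
  have h5 : ‖⟪e k, v⟫_ℂ‖ ≤ ‖v‖ := by
    have := norm_inner_le_norm (𝕜 := ℂ) (e k) v
    rwa [e.orthonormal.1 k, one_mul] at this
  have h6 : ‖fderiv ℝ (fun y => T y (e k)) x d‖ ≤ B k * ‖d‖ :=
    ((fderiv ℝ (fun y => T y (e k)) x).le_opNorm d).trans
      (mul_le_mul_of_nonneg_right (hB k x) (norm_nonneg _))
  calc ‖⟪e k, v⟫_ℂ‖ * ‖fderiv ℝ (fun y => T y (e k)) x d‖ ≤ ‖v‖ * (B k * ‖d‖) :=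
        mul_le_mul h5 h6 (norm_nonneg _) (norm_nonneg _)
    _ = _ := by ring

/-- transfer through a linear isometry -/
theorem transfer [MeasurableSpace E] [BorelSpace E] {μ : Measure E} [μ.IsAddHaarMeasure]
    (J : F' →ₗᵢ[ℂ] F) {a : E → F'} (ha : ContDiff ℝ 1 a) (hc : HasCompactSupport a) :
    ContDiff ℝ 1 (fun X => J (a X)) ∧ (∫ X, ‖J (a X)‖ ^ 2 ∂μ) = ∫ X, ‖a X‖ ^ 2 ∂μ ∧
      (∫ X, ‖fderiv ℝ (fun X => J (a X)) X‖ ^ 2 ∂μ) ≤ ∫ X, ‖fderiv ℝ a X‖ ^ 2 ∂μ := by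
  let K : F' →L[ℝ] F := J.toContinuousLinearMap.restrictScalars ℝ
  have hK : ∀ v, K v = J v := fun v => rfl
  refine ⟨K.contDiff.comp ha, by simp only [J.norm_map], ?_⟩
  have hd : ∀ X, ‖fderiv ℝ (fun X => J (a X)) X‖ ≤ ‖fderiv ℝ a X‖ := by
    intro X
    have h1 : HasFDerivAt (fun X => K (a X)) (K.comp (fderiv ℝ a X)) X :=
      K.hasFDerivAt.comp X ((ha.differentiable (by norm_num)) X).hasFDerivAt
    have h2 : fderiv ℝ (fun X => J (a X)) X = K.comp (fderiv ℝ a X) := h1.fderiv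
    rw [h2]
    refine ContinuousLinearMap.opNorm_le_bound _ (norm_nonneg _) fun v => ?_
    have h3 : ‖K (fderiv ℝ a X v)‖ = ‖fderiv ℝ a X v‖ := J.norm_map _
    rw [ContinuousLinearMap.comp_apply, h3]
    exact (fderiv ℝ a X).le_opNorm v
  have hdc : Continuous (fderiv ℝ a) := ha.continuous_fderiv (by norm_num)
  have hdi : Integrable (fun X => ‖fderiv ℝ a X‖ ^ 2) μ :=
    Rel893.integrable_norm_sq_of_memLp (hdc.memLp_of_hasCompactSupport (hc.fderiv (𝕜 := ℝ)))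
  exact integral_mono_of_nonneg (Eventually.of_forall fun X => by positivity) hdi
    (Eventually.of_forall fun X => pow_le_pow_left₀ (norm_nonneg _) (hd X) 2)

end absU

/-! ### The Gaussian -/

/-- the Gaussian as a function of the position and `z` -/
def gsX (P : TPack C M R G) (σ : Sl C) (ρ : Pos p → Pos p) (g : ℝ)
    (q : Pos p × Zs b (C.cf σ.X0)) : ℝ := GPar984.G g (Az P σ (ρ q.1)) q.2

section gauss

variable {P : TPack C M R G} {σ : Sl C} {ρ : Pos p → Pos p}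

theorem gsl_eq_gsX (g : ℝ) (x : Sc b (C.cf σ.X0)) :
    gsl P σ ρ g x = gsX P σ ρ g (posu σ (x.1 : Cfg N), x.2) := rfl

theorem contDiff_gsX (hρ : ContDiff ℝ ∞ ρ) (hr : ∀ X, ‖ρ X - σ.X0‖ < σ.r) (g : ℝ) :
    ContDiff ℝ ∞ (gsX P σ ρ g) := by
  have h4 : ContDiff ℝ ∞ (fun x : Pos p × Zs b (C.cf σ.X0) => (ρ x.1, x.2)) :=
    (hρ.comp contDiff_fst).prodMk contDiff_snd
  rw [contDiff_iff_contDiffAt]
  intro x
  have h1 := contDiffAt_gX (P := P) g (hr x.1) x.2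
  exact h1.comp x h4.contDiffAt

theorem integral_gsX_sq (hr : ∀ X, ‖ρ X - σ.X0‖ < σ.r) {g : ℝ} (hg : 0 < g) (X : Pos p) :
    ∫ z : Zs b (C.cf σ.X0), gsX P σ ρ g (X, z) ^ 2 = 1 := by
  have h := GPar984.integral_G_sq hg (Az_pd P σ (hr X))
  unfold gsX
  exact h

theorem memLp_gsX (hr : ∀ X, ‖ρ X - σ.X0‖ < σ.r) {g : ℝ} (hg : 0 < g) (X : Pos p) :
    MemLp (fun z : Zs b (C.cf σ.X0) => gsX P σ ρ g (X, z)) 2 := by
  have hc : Continuous fun z : Zs b (C.cf σ.X0) => gsX P σ ρ g (X, z) :=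
    GPar984.continuous_G g (Az P σ (ρ X))
  rw [memLp_two_iff_integrable_sq hc.aestronglyMeasurable]
  by_contra h
  have h1 := integral_undef h
  rw [integral_gsX_sq hr hg X] at h1
  exact one_ne_zero h1

/-- derivative of the Gaussian in the position: uniform bounds -/
theorem gsX_bounds (P : TPack C M R G) (σ : Sl C) : ∃ δ : ℝ, 0 < δ ∧ ∀ ρ : Pos p → Pos p,
    ContDiff ℝ ∞ ρ → (∀ X, ‖ρ X - σ.X0‖ < δ) → ∀ rad : ℝ, ∃ C₁ : ℝ, 0 ≤ C₁ ∧ ∀ g : ℝ, 0 < g →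
      ∀ X, ‖X‖ ≤ rad → ∀ e : Pos p,
        MemLp (fun z : Zs b (C.cf σ.X0) => fderiv ℝ (gsX P σ ρ g) (X, z) (e, 0)) 2 ∧
        ∫ z : Zs b (C.cf σ.X0), fderiv ℝ (gsX P σ ρ g) (X, z) (e, 0) ^ 2 ≤ C₁ * ‖e‖ ^ 2 := by
  obtain ⟨δ, a, K, L, l, hδ, h, hreg⟩ := exists_reg P (BrT5658.reg0 σ)
  obtain ⟨c2, hc2, h2⟩ := E1984.dG_mom (Z := Zs b (C.cf σ.X0)) (P := Pos p) a K L h.pos 0
  refine ⟨δ, hδ, fun ρ hρ hr rad => ?_⟩
  obtain ⟨B, hB⟩ := (isCompact_closedBall (0 : Pos p) rad).exists_bound_of_continuousOn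
    (f := fderiv ℝ ρ) (hρ.continuous_fderiv (by simp)).continuousOn
  refine ⟨c2 * B ^ 2, by positivity, fun g hg X hX e => ?_⟩
  have hm : ρ X ∈ Metric.ball σ.X0 δ := by rw [mem_ball_iff_norm]; exact hr X
  have hd : ∀ z : Zs b (C.cf σ.X0), fderiv ℝ (gsX P σ ρ g) (X, z) (e, 0) =
      E1984.dG (AzX P σ.X0) l g (ρ X) (fderiv ℝ ρ X e) z := by
    intro z
    rw [← fderiv_gG P h hm (hreg _ hm) g z]
    have h3 : HasFDerivAt (fun q : Pos p × Zs b (C.cf σ.X0) => (ρ q.1, q.2))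
        (((fderiv ℝ ρ X).comp (ContinuousLinearMap.fst ℝ (Pos p) (Zs b (C.cf σ.X0)))).prod
          (ContinuousLinearMap.snd ℝ (Pos p) (Zs b (C.cf σ.X0)))) (X, z) := by
      refine HasFDerivAt.prodMk ?_ hasFDerivAt_snd
      have h5 : HasFDerivAt ρ (fderiv ℝ ρ X) ((X, z) : Pos p × Zs b (C.cf σ.X0)).1 :=
        ((hρ.differentiable (by simp)) X).hasFDerivAt
      exact h5.comp (X, z) hasFDerivAt_fst
    have h4 : HasFDerivAt (fun q : Pos p × Zs b (C.cf σ.X0) => GPar984.G g (AzX P σ.X0 q.1) q.2)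
        (fderiv ℝ (fun q : Pos p × Zs b (C.cf σ.X0) => GPar984.G g (AzX P σ.X0 q.1) q.2)
          (ρ X, z)) ((fun q : Pos p × Zs b (C.cf σ.X0) => (ρ q.1, q.2)) (X, z)) :=
      ((contDiffAt_gG P (hreg _ hm) (h.ub _ hm).1 g z).differentiableAt (by simp)).hasFDerivAt
    have h6 := (h4.comp (X, z) h3).fderiv
    have h7 : gsX P σ ρ g = (fun q : Pos p × Zs b (C.cf σ.X0) =>
        GPar984.G g (AzX P σ.X0 q.1) q.2) ∘ fun q => (ρ q.1, q.2) := rfl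
    rw [h7, h6]
    rfl
  simp only [hd]
  have hB' : ‖fderiv ℝ ρ X e‖ ≤ B * ‖e‖ :=
    ((fderiv ℝ ρ X).le_opNorm e).trans (mul_le_mul_of_nonneg_right
      (hB X (by rw [mem_closedBall_zero_iff]; exact hX)) (norm_nonneg _))
  constructor
  · rw [memLp_two_iff_integrable_sq (E1984.continuous_dG _ _ _ _ _).aestronglyMeasurable]
    simpa using h.integrable_dG hm hg (fderiv ℝ ρ X e) 0
  · have h5 := h2 _ _ _ h (ρ X) hm g hg (fderiv ℝ ρ X e)
    simp only [pow_zero, one_mul] at h5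
    refine h5.trans ?_
    have h6 : ‖fderiv ℝ ρ X e‖ ^ 2 ≤ (B * ‖e‖) ^ 2 := pow_le_pow_left₀ (norm_nonneg _) hB' 2
    calc c2 * ‖fderiv ℝ ρ X e‖ ^ 2 ≤ c2 * (B * ‖e‖) ^ 2 := mul_le_mul_of_nonneg_left h6 hc2
      _ = _ := by ring

end gauss

/-! ### The block state in the heavy vacuum -/

/-- the heavy vacuum, cut off -/
def Uz (P : TPack C M R G) (ζ : Pos p → ℝ) (X : Pos p) : F →L[ℂ] F := ((ζ X : ℝ) : ℂ) • P.U X

/-- the block state in the heavy vacuum -/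
def Ps0 (P : TPack C M R G) (ζ : Pos p → ℝ) (g : ℝ) (q : Pos p × C.Blk) : C.Fx M G →L[ℂ] F :=
  (Uz P ζ q.1).comp ((P.Psi g (q.2 : Cfg N)).comp (C.Fx M G).subtypeL)

theorem Ps0_apply (P : TPack C M R G) (ζ : Pos p → ℝ) (g : ℝ) (X : Pos p) (Y : C.Blk)
    (v : C.Fx M G) : Ps0 P ζ g (X, Y) v = Uz P ζ X (P.Psi g (Y : Cfg N) (v : F)) := rfl

section blk

variable {P : TPack C M R G} {ζ : Pos p → ℝ}

theorem contDiff_Uz (hζ : ContDiff ℝ ∞ ζ) (hs : ∀ X ∈ tsupport ζ, C.BReg X) :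
    ContDiff ℝ ∞ (Uz P ζ) := by
  rw [contDiff_iff_contDiffAt]
  intro X
  by_cases hX : X ∈ tsupport ζ
  · exact (Complex.ofRealCLM.contDiff.comp hζ).contDiffAt.smul (P.U_smooth X (hs X hX))
  · have h1 : Uz P ζ =ᶠ[𝓝 X] fun _ => 0 := by
      have h2 := notMem_tsupport_iff_eventuallyEq.1 hX
      filter_upwards [h2] with y hy
      unfold Uz
      rw [hy]; simp
    exact (contDiffAt_const (c := (0 : F →L[ℂ] F))).congr_of_eventuallyEq h1

theorem hcs_Uz (hc : HasCompactSupport ζ) : HasCompactSupport (Uz P ζ) :=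
  hc.mono fun X hX h0 => hX (by simp [Uz, h0])

theorem Uz_bound (hζ : ContDiff ℝ ∞ ζ) (hs : ∀ X ∈ tsupport ζ, C.BReg X)
    (hc : HasCompactSupport ζ) : ∃ B : ℝ, 0 ≤ B ∧
      ∀ X d v, ‖fderiv ℝ (fun X => Uz P ζ X v) X d‖ ≤ B * ‖d‖ * ‖v‖ :=
  fderiv_bound ((contDiff_Uz hζ hs).of_le (by simp)) (hcs_Uz hc)

theorem contDiff_Psi_blk {g : ℝ} (hg : ContDiff ℝ ∞ (P.Psi g)) (v : F) :
    ContDiff ℝ ∞ fun Y : C.Blk => P.Psi g (Y : Cfg N) v :=
  (contDiff_ev hg v).comp C.Blk.subtypeL.contDiff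

theorem contDiff_Ps0 (hζ : ContDiff ℝ ∞ ζ) (hs : ∀ X ∈ tsupport ζ, C.BReg X) {g : ℝ}
    (hg : ContDiff ℝ ∞ (P.Psi g)) : ContDiff ℝ ∞ (Ps0 P ζ g) := by
  refine contDiff_of_apply fun v => ?_
  have h1 : ContDiff ℝ ∞ fun q : Pos p × C.Blk => P.Psi g (q.2 : Cfg N) (v : F) :=
    (contDiff_Psi_blk hg (v : F)).comp contDiff_snd
  have h2 : ContDiff ℝ ∞ fun q : Pos p × C.Blk => Uz P ζ q.1 :=
    (contDiff_Uz hζ hs).comp contDiff_fst
  have h3 : ContDiff ℝ ∞ fun q : Pos p × C.Blk =>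
      Uz P ζ q.1 (P.Psi g (q.2 : Cfg N) (v : F)) := contDiff_app h2 h1
  exact h3

theorem fderiv_Ps0 (hζ : ContDiff ℝ ∞ ζ) (hs : ∀ X ∈ tsupport ζ, C.BReg X) {g : ℝ}
    (hg : ContDiff ℝ ∞ (P.Psi g)) (X e : Pos p) (Y : C.Blk) (v : C.Fx M G) :
    fderiv ℝ (Ps0 P ζ g) (X, Y) (e, 0) v =
      fderiv ℝ (fun X => Uz P ζ X (P.Psi g (Y : Cfg N) (v : F))) X e := by
  have hd := (contDiff_Ps0 hζ hs hg).differentiable (by simp)
  rw [fderiv_ev (hd _)]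
  have h1 : HasFDerivAt (fun q => Ps0 P ζ g q v) (fderiv ℝ (fun q => Ps0 P ζ g q v) (X, Y))
      (X, Y) := (((contDiff_ev (contDiff_Ps0 hζ hs hg) v).differentiable (by simp)) _).hasFDerivAt
  have h2 : HasFDerivAt (fun X : Pos p => ((X, Y) : Pos p × C.Blk))
      (ContinuousLinearMap.inl ℝ (Pos p) C.Blk) X := hasFDerivAt_prodMk_left X Y
  have h3 := h1.comp X h2
  have h4 : HasFDerivAt (fun X => Uz P ζ X (P.Psi g (Y : Cfg N) (v : F))) _ X := h3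
  rw [h4.fderiv]
  rfl

/-- the block state has norm at most `3/2` -/
theorem Psi_memLp {g : ℝ} (hg : ContDiff ℝ ∞ (P.Psi g)) (v : F) :
    MemLp (fun Y : C.Blk => P.Psi g (Y : Cfg N) v) 2 := by
  have hc := (contDiff_Psi_blk hg v).continuous
  rw [memLp_two_iff_integrable_sq_norm hc.aestronglyMeasurable]
  exact integrable_Psi_sq P hg.continuous v

theorem Ps0_norm (hζ : ContDiff ℝ ∞ ζ) (hs : ∀ X ∈ tsupport ζ, C.BReg X)
    (h1 : ∀ X, 0 ≤ ζ X ∧ ζ X ≤ 1) {g : ℝ} (hg : ContDiff ℝ ∞ (P.Psi g))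
    (hle : ∀ f ∈ C.Fx M G, ∫ Y : C.Blk, ‖P.Psi g Y f‖ ^ 2 ≤ 3 / 2 * ‖f‖ ^ 2) (X : Pos p)
    (v : C.Fx M G) : MemLp (fun Y => Ps0 P ζ g (X, Y) v) 2 ∧
      ∫ Y, ‖Ps0 P ζ g (X, Y) v‖ ^ 2 ≤ 3 / 2 * ‖v‖ ^ 2 := by
  have hpt : ∀ Y : C.Blk, ‖Ps0 P ζ g (X, Y) v‖ ≤ ‖P.Psi g (Y : Cfg N) (v : F)‖ := by
    intro Y
    rw [Ps0_apply]
    by_cases hX : X ∈ tsupport ζ
    · unfold Uz
      rw [_root_.smul_apply, norm_smul, norm_U P (hs X hX) (P.Psi_mem g Y Y.2 v v.2),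
        Complex.norm_real, Real.norm_of_nonneg (h1 X).1]
      exact mul_le_of_le_one_left (norm_nonneg _) (h1 X).2
    · unfold Uz
      rw [image_eq_zero_of_notMem_tsupport hX]
      simp
  have hc : Continuous fun Y => Ps0 P ζ g (X, Y) v :=
    (contDiff_ev (contDiff_Ps0 hζ hs hg) v).continuous.comp (by fun_prop)
  have hm := Psi_memLp hg (v : F)
  refine ⟨hm.mono hc.aestronglyMeasurable (Eventually.of_forall hpt), ?_⟩
  refine le_trans ?_ (hle v v.2)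
  refine integral_mono_of_nonneg (Eventually.of_forall fun Y => by positivity)
    (integrable_Psi_sq P hg.continuous v) (Eventually.of_forall fun Y => ?_)
  exact pow_le_pow_left₀ (norm_nonneg _) (hpt Y) 2

theorem Ps0_dnorm (hζ : ContDiff ℝ ∞ ζ) (hs : ∀ X ∈ tsupport ζ, C.BReg X) {B : ℝ} (hB0 : 0 ≤ B)
    (hB : ∀ X d v, ‖fderiv ℝ (fun X => Uz P ζ X v) X d‖ ≤ B * ‖d‖ * ‖v‖)
    {g : ℝ} (hg : ContDiff ℝ ∞ (P.Psi g))
    (hle : ∀ f ∈ C.Fx M G, ∫ Y : C.Blk, ‖P.Psi g Y f‖ ^ 2 ≤ 3 / 2 * ‖f‖ ^ 2) (X e : Pos p)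
    (v : C.Fx M G) : MemLp (fun Y => fderiv ℝ (Ps0 P ζ g) (X, Y) (e, 0) v) 2 ∧
      ∫ Y, ‖fderiv ℝ (Ps0 P ζ g) (X, Y) (e, 0) v‖ ^ 2 ≤ (B * ‖e‖) ^ 2 * (3 / 2) * ‖v‖ ^ 2 := by
  have hpt : ∀ Y : C.Blk, ‖fderiv ℝ (Ps0 P ζ g) (X, Y) (e, 0) v‖ ≤
      B * ‖e‖ * ‖P.Psi g (Y : Cfg N) (v : F)‖ := by
    intro Y
    rw [fderiv_Ps0 hζ hs hg]
    exact hB X e _
  have hc0 : Continuous fun q : Pos p × C.Blk => fderiv ℝ (fun q => Ps0 P ζ g q v) q (e, 0) :=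
    ((contDiff_ev (contDiff_Ps0 hζ hs hg) v).continuous_fderiv (by simp)).clm_apply
      continuous_const
  have hc : Continuous fun Y => fderiv ℝ (Ps0 P ζ g) (X, Y) (e, 0) v := by
    have h2 : (fun Y => fderiv ℝ (Ps0 P ζ g) (X, Y) (e, 0) v) = fun Y =>
        fderiv ℝ (fun q => Ps0 P ζ g q v) (X, Y) (e, 0) := by
      funext Y
      exact fderiv_ev (((contDiff_Ps0 hζ hs hg).differentiable (by simp)) _) _ _
    rw [h2]
    exact hc0.comp (by fun_prop)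
  have hm := (Psi_memLp hg (v : F)).norm.const_mul (B * ‖e‖)
  refine ⟨hm.mono hc.aestronglyMeasurable (Eventually.of_forall fun Y => ?_), ?_⟩
  · rw [Real.norm_of_nonneg (by positivity)]
    exact hpt Y
  · have hi := (integrable_Psi_sq P hg.continuous (v : F)).const_mul ((B * ‖e‖) ^ 2)
    have h3 : ∫ Y : C.Blk, (B * ‖e‖) ^ 2 * ‖P.Psi g Y (v : F)‖ ^ 2 ≤
        (B * ‖e‖) ^ 2 * (3 / 2 * ‖(v : F)‖ ^ 2) := by
      rw [integral_const_mul]
      exact mul_le_mul_of_nonneg_left (hle v v.2) (by positivity)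
    have h4 : ∫ Y, ‖fderiv ℝ (Ps0 P ζ g) (X, Y) (e, 0) v‖ ^ 2 ≤
        ∫ Y : C.Blk, (B * ‖e‖) ^ 2 * ‖P.Psi g Y (v : F)‖ ^ 2 := by
      refine integral_mono_of_nonneg (Eventually.of_forall fun Y => by positivity) hi
        (Eventually.of_forall fun Y => ?_)
      show ‖fderiv ℝ (Ps0 P ζ g) (X, Y) (e, 0) v‖ ^ 2 ≤ (B * ‖e‖) ^ 2 * ‖P.Psi g Y (v : F)‖ ^ 2
      rw [← mul_pow]
      exact pow_le_pow_left₀ (norm_nonneg _) (hpt Y) 2
    calc _ ≤ _ := h4.trans h3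
      _ = _ := by
        show _ = (B * ‖e‖) ^ 2 * (3 / 2) * ‖(v : F)‖ ^ 2
        ring

end blk

/-! ### The slice function in the coordinates `(X, (Y, z))` -/

/-- coordinates of the slice -/
def cX (σ : Sl C) : (Pos p × (C.Blk × Zs b (C.cf σ.X0))) → Sc b (C.cf σ.X0) := fun q =>
  (PairT245.uE (BrT5658.reg0 σ) (q.1 - σ.X0, q.2.1), q.2.2)

/-- the slice function in coordinates -/
def PhiX (σ : Sl C) (κ : Sc b (C.cf σ.X0) → ℝ) (φ : Cfg N → F)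
    (q : Pos p × (C.Blk × Zs b (C.cf σ.X0))) : F := half b (C.cf σ.X0) κ φ (cX σ q)

section coord

variable {P : TPack C M R G} {σ : Sl C} {ρ : Pos p → Pos p} {κ : Sc b (C.cf σ.X0) → ℝ} {g : ℝ}
  {φ : Cfg N → F} {ζ : Pos p → ℝ}

/-- the linear part of the coordinates -/
def cL (σ : Sl C) : (Pos p × (C.Blk × Zs b (C.cf σ.X0))) ≃L[ℝ] Sc b (C.cf σ.X0) :=
  (ContinuousLinearEquiv.prodAssoc ℝ (Pos p) C.Blk (Zs b (C.cf σ.X0))).symm.trans
    ((PairT245.uE (BrT5658.reg0 σ)).prodCongr (ContinuousLinearEquiv.refl ℝ _))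

theorem cX_eq (q : Pos p × (C.Blk × Zs b (C.cf σ.X0))) :
    cX σ q = cL σ (q - (σ.X0, (0, 0))) := by
  unfold cX cL
  simp only [ContinuousLinearEquiv.trans_apply]
  show _ = (PairT245.uE (BrT5658.reg0 σ) (q.1 - σ.X0, q.2.1 - 0), q.2.2 - 0)
  rw [sub_zero, sub_zero]


theorem mp_cL : MeasurePreserving (cL σ) (volume : Measure (Pos p × (C.Blk × Zs b (C.cf σ.X0))))
    (volume : Measure (Sc b (C.cf σ.X0))) := by
  have h1 : MeasurePreserving
      (MeasurableEquiv.prodAssoc.symm : (Pos p × (C.Blk × Zs b (C.cf σ.X0))) ≃ᵐ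
        (Pos p × C.Blk) × Zs b (C.cf σ.X0)) volume volume :=
    (measurePreserving_prodAssoc volume volume volume).symm _
  have h2 : MeasurePreserving (Prod.map (PairT245.uE (BrT5658.reg0 σ))
      (id : Zs b (C.cf σ.X0) → Zs b (C.cf σ.X0))) volume volume :=
    (PairT245.mp_uE (BrT5658.reg0 σ)).prod (MeasurePreserving.id volume)
  exact h2.comp h1

theorem mp_cX : MeasurePreserving (cX σ) (volume : Measure (Pos p × (C.Blk × Zs b (C.cf σ.X0))))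
    (volume : Measure (Sc b (C.cf σ.X0))) := by
  have h1 : MeasurePreserving (fun q : Pos p × (C.Blk × Zs b (C.cf σ.X0)) =>
      q - (σ.X0, (0, 0))) volume volume := by
    have h4 : MeasurePreserving (Prod.map (fun X : Pos p => X - σ.X0)
        (id : C.Blk × Zs b (C.cf σ.X0) → C.Blk × Zs b (C.cf σ.X0))) volume volume :=
      (measurePreserving_sub_right volume σ.X0).prod (MeasurePreserving.id volume)
    have h5 : (fun q : Pos p × (C.Blk × Zs b (C.cf σ.X0)) => q - (σ.X0, (0, 0))) =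
        Prod.map (fun X : Pos p => X - σ.X0) id := by
      funext q
      show (q.1 - σ.X0, (q.2.1 - 0, q.2.2 - 0)) = (q.1 - σ.X0, q.2)
      rw [sub_zero, sub_zero]
    rw [h5]
    exact h4
  have h2 := (mp_cL (σ := σ)).comp h1
  have h3 : cX σ = (cL σ) ∘ fun q => q - (σ.X0, (0, 0)) := funext fun q => cX_eq q
  rw [h3]
  exact h2

theorem contDiff_cX {n : WithTop ℕ∞} : ContDiff ℝ n (cX σ) := by
  have h3 : cX σ = fun q => cL σ (q - (σ.X0, (0, 0))) := funext fun q => cX_eq q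
  rw [h3]
  exact (cL σ).contDiff.comp (contDiff_id.sub contDiff_const)

theorem emb_cX : MeasurableEmbedding (cX σ) := by
  have h3 : cX σ = (cL σ).toHomeomorph ∘ (Homeomorph.subRight (σ.X0, (0, 0))) :=
    funext fun q => cX_eq q
  rw [h3]
  exact (cL σ).toHomeomorph.measurableEmbedding.comp (Homeomorph.measurableEmbedding _)

theorem contDiff_PhiX {n : WithTop ℕ∞} (hκ : ContDiff ℝ n κ) (hφ : ContDiff ℝ n φ) :
    ContDiff ℝ n (PhiX σ κ φ) := (contDiff_half hκ hφ).comp contDiff_cX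

theorem hcs_PhiX (hκ : HasCompactSupport κ) : HasCompactSupport (PhiX σ κ φ) := by
  have h1 := (hcs_half (φ := φ) hκ).comp_homeomorph
    ((Homeomorph.subRight (σ.X0, ((0 : C.Blk), (0 : Zs b (C.cf σ.X0))))).trans
      (cL σ).toHomeomorph)
  have h2 : PhiX σ κ φ = half b (C.cf σ.X0) κ φ ∘
      ((Homeomorph.subRight (σ.X0, ((0 : C.Blk), (0 : Zs b (C.cf σ.X0))))).trans
      (cL σ).toHomeomorph) := by
    funext q
    show half b (C.cf σ.X0) κ φ (cX σ q) = _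
    rw [cX_eq]
    rfl
  rw [h2]
  exact h1

theorem integral_PhiX_sq : ∫ q, ‖PhiX σ κ φ q‖ ^ 2 = ∫ x, ‖half b (C.cf σ.X0) κ φ x‖ ^ 2 :=
  (mp_cX (σ := σ)).integral_comp emb_cX fun x => ‖half b (C.cf σ.X0) κ φ x‖ ^ 2

/-- the direction of a position -/
def dX (σ : Sl C) (e : Pos p) : Sc b (C.cf σ.X0) := (PairT245.uE (BrT5658.reg0 σ) (e, 0), 0)

theorem fderiv_PhiX (hκ : ContDiff ℝ 1 κ) (hφ : ContDiff ℝ 1 φ)
    (q : Pos p × (C.Blk × Zs b (C.cf σ.X0))) (e : Pos p) :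
    fderiv ℝ (PhiX σ κ φ) q (e, 0) = fderiv ℝ (half b (C.cf σ.X0) κ φ) (cX σ q) (dX σ e) := by
  have h1 : HasFDerivAt (half b (C.cf σ.X0) κ φ)
      (fderiv ℝ (half b (C.cf σ.X0) κ φ) (cX σ q)) (cX σ q) :=
    (((contDiff_half hκ hφ).differentiable (by norm_num)) _).hasFDerivAt
  have h2 : HasFDerivAt (cX σ) ((cL σ : (Pos p × (C.Blk × Zs b (C.cf σ.X0))) →L[ℝ]
      Sc b (C.cf σ.X0))) q := by
    have h3 : cX σ = fun q => cL σ (q - (σ.X0, (0, 0))) := funext fun q => cX_eq q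
    rw [h3]
    have h4 := (cL σ).hasFDerivAt (x := q - (σ.X0, (0, 0)))
    have h5 : HasFDerivAt (fun q : Pos p × (C.Blk × Zs b (C.cf σ.X0)) => q - (σ.X0, (0, 0)))
      (ContinuousLinearMap.id ℝ _) q := (hasFDerivAt_id q).sub_const _
    exact h4.comp q h5
  have h3 : HasFDerivAt (PhiX σ κ φ) _ q := h1.comp q h2
  rw [h3.fderiv]
  rfl

theorem integral_fderiv_PhiX (hκ : ContDiff ℝ 1 κ) (hφ : ContDiff ℝ 1 φ) (e : Pos p) :
    ∫ q, ‖fderiv ℝ (PhiX σ κ φ) q (e, 0)‖ ^ 2 =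
      ∫ x, ‖fderiv ℝ (half b (C.cf σ.X0) κ φ) x (dX σ e)‖ ^ 2 := by
  simp only [fderiv_PhiX hκ hφ]
  exact (mp_cX (σ := σ)).integral_comp emb_cX
    fun x => ‖fderiv ℝ (half b (C.cf σ.X0) κ φ) x (dX σ e)‖ ^ 2

end coord

/-! ### The amplitude -/

section amp

instance instHaar (C : Chn b p S) (c : Cfg N) :
    ((volume : Measure C.Blk).prod (volume : Measure (Zs b c))).IsAddHaarMeasure :=
  Measure.prod.instIsAddHaarMeasure _ _

variable {P : TPack C M R G} {σ : Sl C} {ρ : Pos p → Pos p} {κ : Sc b (C.cf σ.X0) → ℝ} {g : ℝ}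
  {φ : Cfg N → F} {ζ : Pos p → ℝ}

/-- the slice function over `(Pos × Blk) × Zs` -/
def PhiY (σ : Sl C) (κ : Sc b (C.cf σ.X0) → ℝ) (φ : Cfg N → F)
    (x : (Pos p × C.Blk) × Zs b (C.cf σ.X0)) : F := PhiX σ κ φ (x.1.1, (x.1.2, x.2))

theorem contDiff_PhiY {n : WithTop ℕ∞} (hκ : ContDiff ℝ n κ) (hφ : ContDiff ℝ n φ) :
    ContDiff ℝ n (PhiY σ κ φ) :=
  (contDiff_PhiX hκ hφ).comp (ContinuousLinearEquiv.prodAssoc ℝ (Pos p) C.Blk
    (Zs b (C.cf σ.X0))).contDiff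

theorem hcs_PhiY (hκ : HasCompactSupport κ) : HasCompactSupport (PhiY σ κ φ) :=
  (hcs_PhiX (φ := φ) hκ).comp_homeomorph (ContinuousLinearEquiv.prodAssoc ℝ (Pos p) C.Blk
    (Zs b (C.cf σ.X0))).toHomeomorph

theorem fpr_PhiY (X : Pos p) (Y : C.Blk) :
    fpr volume (fun q : (Pos p × C.Blk) × Zs b (C.cf σ.X0) => gsX P σ ρ g (q.1.1, q.2))
      (fun _ => LinearMap.id) (PhiY σ κ φ) (X, Y) =
      vf P σ ρ κ g φ (PairT245.uE (BrT5658.reg0 σ) (X - σ.X0, Y)) := by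
  unfold vf fpr
  simp only [LinearMap.id_apply]
  refine integral_congr_ae (Eventually.of_forall fun z => ?_)
  show gsX P σ ρ g (X, z) • PhiY σ κ φ ((X, Y), z) = _
  simp only
  rw [gsl_eq_gsX]
  simp only
  rw [posu_uE, add_sub_cancel]
  rfl

/-- 450's amplitude is 406's -/
theorem ampX_eq (hρ : ContDiff ℝ ∞ ρ) (hr : ∀ X, ‖ρ X - σ.X0‖ < σ.r) (hκ : Cut σ κ)
    (hφ : IsCoreVec b R φ) (hg : 0 < g) (hPsi : ContDiff ℝ ∞ (P.Psi g)) (hζ : ContDiff ℝ ∞ ζ)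
    (hs : ∀ X ∈ tsupport ζ, C.BReg X) (h1 : ∀ X ∈ ks κ, ζ X = 1) (X : Pos p) :
    ((ampx (volume.prod volume) (pst (gsX P σ ρ g) (Ps0 P ζ g)) (PhiX σ κ φ) X : C.Fx M G) : F) =
      ampX P g (LocC8.wB P σ ρ κ g φ) X := by
  have hw := wfam (P := P) (g := g) hρ hr hκ hφ
  by_cases hX : X ∈ ks κ
  · refine ampX_unique (Subtype.mem _) (ampX_mem P g _ X) fun f hf => ?_
    rw [inner_ampX hw hPsi.continuous hf]
    have e0 : ⟪f, ((ampx (volume.prod volume) (pst (gsX P σ ρ g) (Ps0 P ζ g)) (PhiX σ κ φ) X :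
        C.Fx M G) : F)⟫_ℂ = ⟪(⟨f, hf⟩ : C.Fx M G), ampx (volume.prod volume)
          (pst (gsX P σ ρ g) (Ps0 P ζ g)) (PhiX σ κ φ) X⟫_ℂ := rfl
    rw [e0]
    have hvc : Continuous (vf P σ ρ κ g φ) := (contDiff_vf hρ hr hκ.smooth hκ.supp hφ.1).continuous
    have hP0 := (contDiff_Ps0 (P := P) hζ hs hPsi).continuous
    have hPm : ∀ v, MemLp (fun Y => Ps0 P ζ g (X, Y) v) 2 := fun v => by
      have hc : Continuous fun Y => Ps0 P ζ g (X, Y) v :=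
        (contDiff_ev (contDiff_Ps0 (P := P) hζ hs hPsi) v).continuous.comp (by fun_prop)
      refine hc.memLp_of_hasCompactSupport ?_
      refine HasCompactSupport.of_support_subset_isCompact
        (isCompact_closedBall (0 : C.Blk) (P.s g)) fun Y hY => ?_
      rw [mem_closedBall_zero_iff]
      by_contra hn
      rw [not_le] at hn
      refine hY ?_
      have h0 : P.Psi g Y = 0 := P.Psi_supp g Y Y.2 hn.le
      show Ps0 P ζ g (X, Y) v = 0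
      rw [Ps0_apply, h0]
      simp
    have e1 := ampx_pst_eq (μY := (volume : Measure C.Blk))
      (μZ := (volume : Measure (Zs b (C.cf σ.X0)))) (gs := gsX P σ ρ g) (Ψ₀ := Ps0 P ζ g)
      (Φ := PhiY σ κ φ) (contDiff_PhiY hκ.smooth hφ.1).continuous (hcs_PhiY hκ.supp)
      (contDiff_gsX hρ hr g).continuous (p := fun _ => LinearMap.id)
      (fun v => continuous_const) (fun _ => LinearMap.IsSymmetric.id) X
      (memLp_gsX hr hg X) hPm (fun _ _ => rfl)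
    have e2 : (fun q : Pos p × (C.Blk × Zs b (C.cf σ.X0)) => PhiY σ κ φ ((q.1, q.2.1), q.2.2)) =
        PhiX σ κ φ := rfl
    rw [e2] at e1
    rw [e1]
    have hVc : Continuous fun Y : C.Blk =>
        vf P σ ρ κ g φ (PairT245.uE (BrT5658.reg0 σ) (X - σ.X0, Y)) :=
      hvc.comp ((PairT245.uE (BrT5658.reg0 σ)).continuous.comp
        (continuous_const.prodMk continuous_id))
    have hfc : Continuous (fpr volume (fun q : (Pos p × C.Blk) × Zs b (C.cf σ.X0) =>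
        gsX P σ ρ g (q.1.1, q.2)) (fun _ => LinearMap.id) (PhiY σ κ φ)) := by
      have h0 : ContDiff ℝ ((0 : ℕ∞) : WithTop ℕ∞) (fpr volume
          (fun q : (Pos p × C.Blk) × Zs b (C.cf σ.X0) => gsX P σ ρ g (q.1.1, q.2))
          (fun _ => LinearMap.id) (PhiY σ κ φ)) :=
        contDiff_fpr (contDiff_zero.2 ((contDiff_gsX hρ hr g).continuous.comp (by fun_prop)))
          (fun v => contDiff_const)
          (contDiff_zero.2 (contDiff_PhiY hκ.smooth hφ.1).continuous) (hcs_PhiY hκ.supp)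
      exact h0.continuous
    have hVm : MemLp (fun Y : C.Blk => fpr volume
        (fun q : (Pos p × C.Blk) × Zs b (C.cf σ.X0) => gsX P σ ρ g (q.1.1, q.2))
        (fun _ => LinearMap.id) (PhiY σ κ φ) (X, Y)) 2 :=
      Amp837.fibre_memLp hfc (hasCompactSupport_fpr (hcs_PhiY hκ.supp)) X
    rw [inner_ampx' hPm hVm]
    refine integral_congr_ae (Eventually.of_forall fun Y => ?_)
    simp only
    rw [fpr_PhiY, Ps0_apply]
    unfold Uz
    rw [h1 X hX, Complex.ofReal_one, one_smul]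
    have hB := ks_breg hκ hX
    have h3 : P.U X (P.Psi g (Y : Cfg N) f) ∈ Vac P X :=
      U_mem_Vac P hB (P.Psi_mem g Y Y.2 f hf)
    have h4 : LocC8.wB P σ ρ κ g φ X Y =
        pV P X (vf P σ ρ κ g φ (PairT245.uE (BrT5658.reg0 σ) (X - σ.X0, Y))) := by
      unfold LocC8.wB
      rw [wf_eq, posu_uE, add_sub_cancel]
    rw [h4, ← pV_symm P X, pV_of_mem h3]
  · have h5 : ampx ((volume : Measure C.Blk).prod (volume : Measure (Zs b (C.cf σ.X0))))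
        (pst (gsX P σ ρ g) (Ps0 P ζ g)) (PhiX σ κ φ) X = 0 := by
      have h6 : ∀ w, PhiX σ κ φ (X, w) = 0 := fun w => by
        refine half_eq_zero ?_
        by_contra h
        apply hX
        refine ⟨_, ⟨cX σ (X, w), subset_tsupport _ h, rfl⟩, ?_⟩
        show posu σ _ = X
        unfold cX
        rw [posu_uE, add_sub_cancel]
      exact ampx_eq_zero (μ := (volume : Measure C.Blk).prod
        (volume : Measure (Zs b (C.cf σ.X0)))) h6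
    rw [h5, ampX_off hw hPsi.continuous hX]
    rfl

theorem exists_theta {E : Type*} [NormedAddCommGroup E] [InnerProductSpace ℝ E]
    [FiniteDimensional ℝ E] {K O : Set E} (hK : IsCompact K) (hO : IsOpen O) (h : K ⊆ O) :
    ∃ θ : E → ℝ, ContDiff ℝ ∞ θ ∧ HasCompactSupport θ ∧ tsupport θ ⊆ O ∧ (∀ x ∈ K, θ x = 1) ∧
      ∀ x, 0 ≤ θ x ∧ θ x ≤ 1 := by
  obtain ⟨K', hK', h1, h2⟩ := exists_compact_between hK hO h
  obtain ⟨f, h3, h4, h5⟩ := exists_contMDiffMap_zero_one_of_isClosed (modelWithCornersSelf ℝ E)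
    (n := ⊤) (isOpen_interior (s := K')).isClosed_compl hK.isClosed
    (Set.disjoint_left.2 fun x hx hxK => hx (h1 hxK))
  have hsup : tsupport (f : E → ℝ) ⊆ K' := by
    refine closure_minimal (fun x hx => ?_) hK'.isClosed
    by_contra hn
    exact hx (h3 fun hi => hn (interior_subset hi))
  exact ⟨f, contMDiff_iff_contDiff.1 f.contMDiff, hK'.of_isClosed_subset (isClosed_tsupport _) hsup,
    hsup.trans h2, fun x hx => h4 hx, fun x => ⟨(h5 x).1, (h5 x).2⟩⟩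

/-- the energy of the slice function in the position directions -/
def GE (σ : Sl C) (κ : Sc b (C.cf σ.X0) → ℝ) (φ : Cfg N → F) : ℝ :=
  ∑ q, ∫ x, ‖fderiv ℝ (half b (C.cf σ.X0) κ φ) x (dX σ (EuclideanSpace.single q 1))‖ ^ 2

theorem GE_nonneg : 0 ≤ GE σ κ φ :=
  Finset.sum_nonneg fun _ _ => integral_nonneg fun _ => by positivity

/-- **(I3).** -/
theorem I3 (P : TPack C M R G) (σ : Sl C) : ∃ δ : ℝ, 0 < δ ∧ ∀ ρ : Pos p → Pos p,
    ContDiff ℝ ∞ ρ → (∀ X, ‖ρ X - σ.X0‖ < σ.r) → (∀ X, ‖ρ X - σ.X0‖ < δ) →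
    ∀ κ : Sc b (C.cf σ.X0) → ℝ, Cut σ κ → ∃ K : ℝ, 0 ≤ K ∧ ∀ᶠ g in atTop, ∀ φ : Cfg N → F,
      IsCoreVec b R φ →
        ContDiff ℝ 1 (ampX P g (LocC8.wB P σ ρ κ g φ)) ∧
        (∫ X, ‖ampX P g (LocC8.wB P σ ρ κ g φ) X‖ ^ 2) ≤
          K * ∫ x, ‖half b (C.cf σ.X0) κ φ x‖ ^ 2 ∧
        (∫ X, ‖fderiv ℝ (ampX P g (LocC8.wB P σ ρ κ g φ)) X‖ ^ 2) ≤
          K * ((∫ x, ‖half b (C.cf σ.X0) κ φ x‖ ^ 2) + GE σ κ φ) := by
  obtain ⟨δ, hδ, hG⟩ := gsX_bounds P σ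
  refine ⟨δ, hδ, fun ρ hρ hr hrδ κ hκ => ?_⟩
  obtain ⟨rad, hrad⟩ : ∃ r, ks κ ⊆ Metric.closedBall (0 : Pos p) r :=
    (isCompact_ks hκ.supp).isBounded.subset_closedBall 0
  obtain ⟨C₁, hC₁, hG⟩ := hG ρ hρ hrδ rad
  -- the cut-off of the positions
  obtain ⟨ζ, hζ, hζc, hζs, hζ1, hζ01⟩ := exists_theta (isCompact_ks hκ.supp)
    C.isOpen_breg fun X hX => ks_breg hκ hX
  have hζb : ∀ X ∈ tsupport ζ, C.BReg X := fun X hX => hζs hX
  obtain ⟨B, hB0, hB⟩ := Uz_bound (P := P) hζ hζb hζc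
  set c0 : ℝ := 1 * (3 / 2) with hc0
  set c1 : ℝ := 2 * (C₁ * (3 / 2) + 1 * (B ^ 2 * (3 / 2))) with hc1
  have hc1' : 0 ≤ c1 := by rw [hc1]; positivity
  set n : ℝ := ((Fintype.card (Fin 9 × Fin p) : ℕ) : ℝ) with hn
  have hn0 : 0 ≤ n := by rw [hn]; positivity
  refine ⟨c0 + n * (2 * c0 + 2 * c1), by positivity, ?_⟩
  filter_upwards [eventually_Psi_le P, P.Psi_smooth, eventually_gt_atTop (0 : ℝ)] with g hle hPsi hg
  intro φ hφ
  set Ψ : Pos p × (C.Blk × Zs b (C.cf σ.X0)) → C.Fx M G →L[ℂ] F :=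
    pst (gsX P σ ρ g) (Ps0 P ζ g) with hΨd
  have hgs := contDiff_gsX (P := P) hρ hr g
  have hPs := contDiff_Ps0 (P := P) hζ hζb hPsi
  have hΨ1 : ContDiff ℝ 1 Ψ := (contDiff_pst hgs hPs).of_le (by simp)
  have hΦ1 : ContDiff ℝ 1 (PhiX σ κ φ) :=
    contDiff_PhiX (hκ.smooth.of_le (by simp)) (hφ.1.of_le (by simp))
  have hΦc : HasCompactSupport (PhiX σ κ φ) := hcs_PhiX hκ.supp
  have hoff : ∀ X w, rad < ‖X‖ → PhiX σ κ φ (X, w) = 0 := by
    intro X w hX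
    refine half_eq_zero ?_
    by_contra h
    have h2 : X ∈ ks κ := by
      refine ⟨_, ⟨cX σ (X, w), subset_tsupport _ h, rfl⟩, ?_⟩
      show posu σ _ = X
      unfold cX
      rw [posu_uE, add_sub_cancel]
    have h3 := hrad h2
    rw [mem_closedBall_zero_iff] at h3
    linarith
  have hP0 := fun X v => Ps0_norm (P := P) hζ hζb hζ01 hPsi hle X v
  let e := EuclideanSpace.basisFun (Fin 9 × Fin p) ℝ
  have he : ∀ q, e q = EuclideanSpace.single q 1 := fun q => EuclideanSpace.basisFun_apply _ _ q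
  have hen : ∀ q, ‖e q‖ = 1 := fun q => e.orthonormal.1 q
  have hmain := amp_bounds (μ := (volume : Measure C.Blk).prod
      (volume : Measure (Zs b (C.cf σ.X0)))) e hΨ1 hΦ1 hΦc (C₀ := c0) (C₁ := c1)
    (D₀ := ∫ x, ‖half b (C.cf σ.X0) κ φ x‖ ^ 2) (D₁ := GE σ κ φ) (ρ := rad)
    (by rw [hc0]; norm_num) hc1' hoff
    (fun X _ v => pst_norm (memLp_gsX hr hg X) (integral_gsX_sq hr hg X).le
      (fun v => hP0 X v) v)
    (fun X hX q v => by
      have h3 := hG g hg X hX (e q)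
      rw [hen q, one_pow, mul_one] at h3
      have h4 := fun v => Ps0_dnorm (P := P) hζ hζb hB0 hB hPsi hle X (e q) v
      rw [hen q, mul_one] at h4
      exact pst_dnorm (hgs.of_le (by simp)) (hPs.of_le (by simp)) (memLp_gsX hr hg X) h3.1
        (integral_gsX_sq hr hg X).le h3.2 (fun v => hP0 X v) h4 v)
    (le_of_eq integral_PhiX_sq)
    (fun q => by
      rw [he q]
      refine le_trans (le_of_eq (integral_fderiv_PhiX (hκ.smooth.of_le (by simp))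
        (hφ.1.of_le (by simp)) _)) ?_
      exact Finset.single_le_sum (f := fun q => ∫ x, ‖fderiv ℝ (half b (C.cf σ.X0) κ φ) x
        (dX σ (EuclideanSpace.single q 1))‖ ^ 2)
        (fun _ _ => integral_nonneg fun _ => by positivity) (Finset.mem_univ q))
  obtain ⟨m1, m2, m3, m4, m5⟩ := hmain
  set a := ampx ((volume : Measure C.Blk).prod (volume : Measure (Zs b (C.cf σ.X0)))) Ψ
    (PhiX σ κ φ) with ha
  obtain ⟨t1, t2, t3⟩ := transfer (μ := (volume : Measure (Pos p))) (C.Fx M G).subtypeₗᵢ m1 m2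
  have hA : ampX P g (LocC8.wB P σ ρ κ g φ) = fun X => (C.Fx M G).subtypeₗᵢ (a X) := by
    funext X
    exact (ampX_eq hρ hr hκ hφ hg hPsi hζ hζb hζ1 X).symm
  have hD0 : 0 ≤ ∫ x, ‖half b (C.cf σ.X0) κ φ x‖ ^ 2 := integral_nonneg fun _ => by positivity
  have hD1 : 0 ≤ GE σ κ φ := GE_nonneg
  have hc0' : 0 ≤ c0 := by rw [hc0]; norm_num
  rw [hA]
  refine ⟨t1, ?_, ?_⟩
  · rw [t2]
    refine m4.trans (mul_le_mul_of_nonneg_right ?_ hD0)
    have : 0 ≤ n * (2 * c0 + 2 * c1) := by positivity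
    linarith
  · refine t3.trans (m5.trans ?_)
    rw [← hn]
    have t1 : 0 ≤ n * c0 * ∫ x, ‖half b (C.cf σ.X0) κ φ x‖ ^ 2 := by positivity
    have t2 : 0 ≤ n * c1 * GE σ κ φ := by positivity
    have t3 : 0 ≤ c0 * ((∫ x, ‖half b (C.cf σ.X0) κ φ x‖ ^ 2) + GE σ κ φ) := by positivity
    nlinarith [t1, t2, t3]

end amp

end Crest.Agent.R330.I3186

end
end

-- ▼ part R330/I3Fin_478
section

/-!
# Row 330, (I3): the input `i3` of `LocAt` (plug of 186's `I3` into 815's bounds, helper478)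
-/

set_option autoImplicit false
set_option linter.unusedSectionVars false

open MeasureTheory Filter Topology Crest.MathPhysics.MatrixQM
open scoped ContDiff InnerProductSpace ENNReal

noncomputable section

namespace Crest.Agent.R330.I3Fin478

open Crest.Agent.R330.Defs478 Crest.Agent.R330.TDef414 Crest.Agent.R330.LemA342
  Crest.Agent.R330.LocB8 Crest.Agent.R330.LocC8 Crest.Agent.R330.LocD8 Crest.Agent.R330.LocF8
  Crest.Agent.R330.SlQE87 Crest.Agent.R330.HBX450 Crest.Agent.R330.TrialSys796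
  Crest.Agent.R330.H6596 Crest.Agent.R330.I3In815

variable {N p : ℕ} {b : ColorBasis N} {S : Type} [Group S] [Fintype S] {C : Chn b p S}
  {F : Type*} [NormedAddCommGroup F] [InnerProductSpace ℂ F] [FiniteDimensional ℂ F]
  {M : FermionRep N F} {R : GaugeAction b M} {G : GammaNine}

/-- **(I3)** for small charts. -/
theorem i3 [Nontrivial F] (P : TPack C M R G) (σ : Sl C) {m : ℝ} (hm0 : 0 ≤ m) (hm1 : m ≤ 1) :
    Small σ fun ρ s => ∀ κ, CutS σ κ s → I3In P σ ρ κ m := by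
  obtain ⟨δ, hδ, h1⟩ := I3186.I3 P σ
  obtain ⟨s0, hs0, h2⟩ := grad_small P σ hm0 hm1
  refine ⟨s0, min δ σ.r, hs0, lt_min hδ σ.pos, fun s hs hss ρ hρ κ hκ => ?_⟩
  obtain ⟨K, hK, h3⟩ := h1 ρ hρ.smooth (fun X => (hρ.ball X).trans_le (min_le_right _ _))
    (fun X => (hρ.ball X).trans_le (min_le_left _ _)) κ hκ.cut
  obtain ⟨K', hK', h4⟩ := h2 s hs hss κ hκ
  refine ⟨2 * (K * K'), by positivity, ?_⟩
  filter_upwards [h3, eventually_ge_atTop 1] with g hg hg1 φ hφ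
  obtain ⟨b1, b2, b3⟩ := hg φ hφ
  obtain ⟨c1, c2⟩ := h4 g hg1 φ hφ
  have hΦ : ContDiff ℝ ∞ (half b (C.cf σ.X0) κ φ) := contDiff_half hκ.cut.smooth hφ.1
  have hc : HasCompactSupport (half b (C.cf σ.X0) κ φ) := hcs_half hκ.cut.supp
  have h5 : I3186.GE σ κ φ = ∫ x, ∑ q, ‖fderiv ℝ (half b (C.cf σ.X0) κ φ) x
      (dC (BrT5658.reg0 σ) q, 0)‖ ^ 2 ∂(volume.prod volume) := by
    rw [← sum_int_grad hΦ hc (fun q => ((dC (BrT5658.reg0 σ) q, 0) : Sc b (C.cf σ.X0)))]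
    unfold I3186.GE I3186.dX
    simp only [dC_eq]
    rfl
  rw [h5] at b3
  have hEn : 0 ≤ En b M G g m φ := En_nonneg g m φ
  have d1 : K * ∫ x, ‖half b (C.cf σ.X0) κ φ x‖ ^ 2 ∂(volume.prod volume) ≤
      K * (K' * En b M G g m φ) := mul_le_mul_of_nonneg_left c1 hK
  have d2 := mul_le_mul_of_nonneg_left (add_le_add c1 c2) hK
  have d3 : 0 ≤ K * (K' * En b M G g m φ) := by positivity
  refine ⟨b1, b2.trans (d1.trans ?_), b3.trans (d2.trans ?_)⟩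
  · nlinarith
  · nlinarith

end Crest.Agent.R330.I3Fin478

end
end

-- ▼ part R330/HQFin_478

/-!
# Row 330, (H6): the input `hq` of `LocAt` (plug of 596's `qblkB_wB_Aop_le` into 342's Lemma R,
helper478; the bounds are 815's)
-/

set_option autoImplicit false
set_option linter.unusedSectionVars false

open MeasureTheory Filter Topology Crest.MathPhysics.MatrixQM
open scoped ContDiff InnerProductSpace ENNReal

noncomputable section

namespace Crest.Agent.R330.HQFin478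

open Crest.Agent.R330.Defs478 Crest.Agent.R330.LS839 Crest.Agent.R330.Frame839
  Crest.Agent.R330.Clus839
  Crest.Agent.R330.Bind6839 Crest.Agent.R330.SlG944 Crest.Agent.R330.SlF944
  Crest.Agent.R330.IBP837 Crest.Agent.R330.TDef414
  Crest.Agent.R330.LemA342 Crest.Agent.R330.FibProj837 Crest.Agent.R330.LocB8
  Crest.Agent.R330.LocC8 Crest.Agent.R330.LocD8 Crest.Agent.R330.LocF8
  Crest.Agent.R330.SlQE87 Crest.Agent.R330.HBX450 Crest.Agent.R330.TrialSys796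
  Crest.Agent.R330.H6596 Crest.Agent.R330.I3In815

variable {N p : ℕ} {b : ColorBasis N} {S : Type} [Group S] [Fintype S] {C : Chn b p S}
  {F : Type*} [NormedAddCommGroup F] [InnerProductSpace ℂ F] [FiniteDimensional ℂ F]
  {M : FermionRep N F} {R : GaugeAction b M} {G : GammaNine}

/-- **(H6)** for small charts. -/
theorem hq [Nontrivial F] (P : TPack C M R G) (σ : Sl C) {m : ℝ} (hm0 : 0 ≤ m) (hm1 : m ≤ 1) :
    Small σ fun ρ s => ∀ κ, CutS σ κ s → HQIn P σ ρ κ m := by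
  obtain ⟨s1, ρ0, hs1, -, -, h⟩ := LemR342.lemR_pack P σ
  refine ⟨s1 / 2, σ.r, by positivity, σ.pos, fun s hs hss ρ hρ κ hκ => ?_⟩
  have hz : ∀ x : Sc b (C.cf σ.X0), s < ‖(x.1 : Cfg N) + x.2‖ → κ x = 0 := hκ.zero
  have hz1 : ∀ x : Sc b (C.cf σ.X0), s1 ^ 2 ≤ ‖x.1‖ ^ 2 + ‖x.2‖ ^ 2 → κ x = 0 := by
    intro x hx
    refine hz x ?_
    rw [← norm_sc] at hx
    have h2 : s1 ≤ ‖(x.1 : Cfg N) + x.2‖ := le_of_sq_le_sq hx (norm_nonneg _)
    linarith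
  obtain ⟨D, hD, h1⟩ := h _ _ _ (stdOrthonormalBasis ℝ (Uk b (C.cf σ.X0)))
    (stdOrthonormalBasis ℝ (Zs b (C.cf σ.X0))) (stdOrthonormalBasis ℝ (Tn (actB b) (C.cf σ.X0)))
    κ hκ.cut.smooth hκ.cut.supp hz1
  set B : ℝ := ‖C.cf σ.X0‖ + s with hB
  have hB0 : 0 ≤ B := by positivity
  have hKW := KW_nonneg (M := M) (G := G)
  refine ⟨2 * D + KW M G * (B ^ 2 * D), by positivity, ?_⟩
  filter_upwards [eventually_ge_atTop 1] with g hg φ hφ
  obtain ⟨a1, -, a3, -⟩ := h1 g m hg hm0 hm1 φ hφ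
  have hE : qf b M G g m φ + ∫ x, ‖φ x‖ ^ 2 = En b M G g m φ := by
    unfold En; ring
  rw [hE] at a1 a3
  have hEn : 0 ≤ En b M G g m φ := En_nonneg g m φ
  have hΦ : ContDiff ℝ ∞ (half b (C.cf σ.X0) κ φ) := contDiff_half hκ.cut.smooth hφ.1
  have hc : HasCompactSupport (half b (C.cf σ.X0) κ φ) := hcs_half hκ.cut.supp
  have hsq : Integrable (fun x => ‖half b (C.cf σ.X0) κ φ x‖ ^ 2) (volume.prod volume) :=
    int_sq hΦ.continuous hc
  have a4 : ∫ x : Sc b (C.cf σ.X0), ‖C.cf σ.X0 + (x.1 : Cfg N)‖ ^ 2 * ‖half b (C.cf σ.X0) κ φ x‖ ^ 2 ∂(volume.prod volume) ≤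
      B ^ 2 * (D * En b M G g m φ) := by
    refine le_trans (integral_mono_of_nonneg (Eventually.of_forall fun x => by positivity)
      (hsq.const_mul (B ^ 2)) (Eventually.of_forall fun x => ?_)) (le_trans
        (le_of_eq (integral_const_mul _ _)) (mul_le_mul_of_nonneg_left a3 (by positivity)))
    by_cases hx : κ x = 0
    · simp only [half_eq_zero hx, norm_zero]
      simp
    · have h5 : ‖(x.1 : Cfg N) + x.2‖ ≤ s := not_lt.1 fun h6 => hx (hz x h6)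
      have h6 : ‖(x.1 : Cfg N)‖ ≤ s := by
        refine le_trans ?_ h5
        refine le_of_sq_le_sq ?_ (norm_nonneg _)
        rw [norm_sc]
        have : ‖(x.1 : Cfg N)‖ = ‖x.1‖ := rfl
        rw [this]
        nlinarith [sq_nonneg ‖x.2‖]
      have h7 : ‖C.cf σ.X0 + (x.1 : Cfg N)‖ ≤ B := (norm_add_le _ _).trans (by linarith)
      show ‖C.cf σ.X0 + (x.1 : Cfg N)‖ ^ 2 * _ ≤ B ^ 2 * _
      exact mul_le_mul_of_nonneg_right (pow_le_pow_left₀ (norm_nonneg _) h7 2) (by positivity)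
  have a5 := qblkB_wB_Aop_le (P := P) (m := m) (g := g)
    (stdOrthonormalBasis ℝ (Uk b (C.cf σ.X0))) hρ.smooth hρ.ball hκ.cut hφ.1 (by linarith)
  have hm2 : m ^ 2 ≤ 1 := by nlinarith
  have a6 : KW M G * m ^ 2 * ∫ x : Sc b (C.cf σ.X0), ‖C.cf σ.X0 + (x.1 : Cfg N)‖ ^ 2 * ‖half b (C.cf σ.X0) κ φ x‖ ^ 2
      ∂(volume.prod volume) ≤ KW M G * (B ^ 2 * (D * En b M G g m φ)) := by
    have h8 : 0 ≤ ∫ x : Sc b (C.cf σ.X0), ‖C.cf σ.X0 + (x.1 : Cfg N)‖ ^ 2 * ‖half b (C.cf σ.X0) κ φ x‖ ^ 2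
      ∂(volume.prod volume) := integral_nonneg fun x => by positivity
    have h9 : KW M G * m ^ 2 ≤ KW M G := by nlinarith
    calc _ ≤ KW M G * ∫ x : Sc b (C.cf σ.X0), ‖C.cf σ.X0 + (x.1 : Cfg N)‖ ^ 2 * ‖half b (C.cf σ.X0) κ φ x‖ ^ 2
      ∂(volume.prod volume) := mul_le_mul_of_nonneg_right h9 h8
      _ ≤ _ := mul_le_mul_of_nonneg_left a4 hKW
  refine a5.trans ((add_le_add (mul_le_mul_of_nonneg_left a1 (by norm_num)) a6).trans
    (le_of_eq ?_))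
  ring

end Crest.Agent.R330.HQFin478

end
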