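import Crest.Agent.R330.GapTor_967
import Crest.Agent.R330.SInd_478
import Crest.Agent.R330.Om0_331
import Crest.Agent.R330.NeutU_45
import Crest.Agent.R330.Lift_406
import Crest.Agent.R330.SDefs_726
import Crest.Agent.R330.Par_478
import Crest.Agent.R330.Per_967
import Crest.Agent.R330.Rot_149
import Crest.Agent.R330.QM0_363
import Crest.Agent.R330.Close_478

-- ▼ part R330/Par_522
section

/-!
# Row 330 (helper522): the parity of the zero modes is even, part 1

`exp (2 π J₁₂)` is the fermion parity, so odd core vectors have half-integral `J₁₂`-weight.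

* `J01_bound` : `q ≥ (m/3) |μ| ‖ψ‖²` for a `J₁₂`-weight vector (only one circle is used).
* `odd_bound_abs` : `q ≥ (m/6) ‖φ‖²` if all `J₁₂`-weights of `φ` are at least `1/2`.
* `par M G` : `exp (π · (1/2) Σ (γ¹γ² ⊗ 1) θ θ)`; `isParity_par`, `isParity_unique`, `par_par`,
  `par_rho`.
-/

set_option autoImplicit false
set_option linter.unusedSectionVars false

open Filter Topology Set MeasureTheory Crest.MathPhysics.MatrixQM
open scoped InnerProductSpace Matrix

noncomputable section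

namespace Crest.Agent.R330.Par522

open Crest.Agent.R330.GapAbs967 Crest.Agent.R330.GapAlg916 Crest.Agent.R330.GapTor967
open Complex (I)

/-! ## 1. The bound -/

section abs

variable {V H : Type*} [AddCommGroup V] [Module ℂ V]
  [NormedAddCommGroup H] [InnerProductSpace ℂ H]
  {G : GammaNine} {m : ℝ} {ι : V →ₗ[ℂ] H} {Q : Fin 16 → V →ₗ[ℂ] V} {Ham : V →ₗ[ℂ] V}
  {J : Fin 9 × Fin 9 → V →ₗ[ℂ] V}

/-- the bound for one sign -/
theorem J01_sign (h : Susy G m ι Q Ham J) {ψ : V} {μ : ℝ} (h01 : J (0, 1) ψ = (I * μ) • ψ)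
    {e0 : ℝ} (he0 : e0 = 1 ∨ e0 = -1) :
    0 ≤ 16 * (⟪ι ψ, ι (Ham ψ)⟫_ℂ).re + 16 / 3 * m * (e0 * μ) * ‖ι ψ‖ ^ 2 := by
  obtain ⟨s, hs, hex⟩ := exists_eig G
  have o1 : (1 : ℝ) = 1 ∨ (1 : ℝ) = -1 := Or.inl rfl
  have o2 : (-1 : ℝ) = 1 ∨ (-1 : ℝ) = -1 := Or.inr rfl
  obtain ⟨a1, ha1⟩ := hex e0 s 1 1 he0 hs o1 o1 (by ring)
  obtain ⟨a2, ha2⟩ := hex e0 s (-1) (-1) he0 hs o2 o2 (by ring)
  obtain ⟨a3, ha3⟩ := hex e0 (-s) 1 (-1) he0 (neg_sign hs) o1 o2 (by ring)
  obtain ⟨a4, ha4⟩ := hex e0 (-s) (-1) 1 he0 (neg_sign hs) o2 o1 (by ring)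
  have p1 := h.Hv_nonneg ha1 he0 hs o1 o1 ψ
  have p2 := h.Hv_nonneg ha2 he0 hs o2 o2 ψ
  have p3 := h.Hv_nonneg ha3 he0 (neg_sign hs) o1 o2 ψ
  have p4 := h.Hv_nonneg ha4 he0 (neg_sign hs) o2 o1 ψ
  have hsum : ((4 : ℂ) • Ham ψ + (2 * m : ℂ) • Lop J e0 s 1 1 ψ) +
      ((4 : ℂ) • Ham ψ + (2 * m : ℂ) • Lop J e0 s (-1) (-1) ψ) +
      ((4 : ℂ) • Ham ψ + (2 * m : ℂ) • Lop J e0 (-s) 1 (-1) ψ) +
      ((4 : ℂ) • Ham ψ + (2 * m : ℂ) • Lop J e0 (-s) (-1) 1 ψ) =
      ((16 : ℝ) : ℂ) • Ham ψ + ((16 / 3 * m * (e0 * μ) : ℝ) : ℂ) • ψ := by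
    have hI : (-2 * I) * ((1 / 3 * e0 : ℝ) : ℂ) * (I * μ) = ((2 / 3 * (e0 * μ) : ℝ) : ℂ) := by
      push_cast
      linear_combination (-(2 / 3 : ℂ) * e0 * μ) * Complex.I_mul_I
    have hL : Lop J e0 s 1 1 ψ + Lop J e0 s (-1) (-1) ψ + Lop J e0 (-s) 1 (-1) ψ +
        Lop J e0 (-s) (-1) 1 ψ = (4 * ((2 / 3 * (e0 * μ) : ℝ) : ℂ)) • ψ := by
      rw [← hI]
      simp only [Lop, h01]
      push_cast
      module
    have e1 : ((4 : ℂ) • Ham ψ + (2 * m : ℂ) • Lop J e0 s 1 1 ψ) +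
      ((4 : ℂ) • Ham ψ + (2 * m : ℂ) • Lop J e0 s (-1) (-1) ψ) +
      ((4 : ℂ) • Ham ψ + (2 * m : ℂ) • Lop J e0 (-s) 1 (-1) ψ) +
      ((4 : ℂ) • Ham ψ + (2 * m : ℂ) • Lop J e0 (-s) (-1) 1 ψ) =
      (16 : ℂ) • Ham ψ + (2 * m : ℂ) • (Lop J e0 s 1 1 ψ + Lop J e0 s (-1) (-1) ψ +
        Lop J e0 (-s) 1 (-1) ψ + Lop J e0 (-s) (-1) 1 ψ) := by module
    rw [e1, hL]
    push_cast
    module
  have p5 := add_nonneg (add_nonneg (add_nonneg p1 p2) p3) p4
  rw [← Complex.add_re, ← Complex.add_re, ← Complex.add_re, ← inner_add_right, ← inner_add_right,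
    ← inner_add_right, ← map_add, ← map_add, ← map_add, hsum, map_add, map_smul, map_smul,
    inner_add_right, Complex.add_re, re_inner_real_smul, inner_smul_right,
    Complex.re_ofReal_mul] at p5
  exact p5

/-- **`q ≥ (m/3) |μ| ‖ψ‖²`** for a `J₁₂`-weight vector. -/
theorem J01_bound (h : Susy G m ι Q Ham J) {ψ : V} {μ : ℝ} (h01 : J (0, 1) ψ = (I * μ) • ψ) :
    m / 3 * |μ| * ‖ι ψ‖ ^ 2 ≤ (⟪ι ψ, ι (Ham ψ)⟫_ℂ).re := by
  rcases le_total 0 μ with h0 | h0
  · have := J01_sign h h01 (e0 := -1) (Or.inr rfl)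
    rw [abs_of_nonneg h0]
    linarith
  · have := J01_sign h h01 (e0 := 1) (Or.inl rfl)
    rw [abs_of_nonpos h0]
    linarith

/-- **`q ≥ (m/6) ‖φ‖²`** if the `J₁₂`-weights of `φ` are at least `1/2`. -/
theorem odd_bound_abs (h : Susy G m ι Q Ham J) (hm : 0 ≤ m) {P : ℤ → V →ₗ[ℂ] V}
    (hP : Circ ι Ham P) {μ : ℤ → ℝ} {φ : V}
    (hJ : ∀ n, J (0, 1) (P n φ) = (I * ((μ n : ℝ) : ℂ)) • P n φ)
    (hw : ∀ n, P n φ ≠ 0 → 1 / 2 ≤ |μ n|) :
    m / 6 * ‖ι φ‖ ^ 2 ≤ (⟪ι φ, ι (Ham φ)⟫_ℂ).re := by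
  have h5 : 0 ≤ K ι Ham (m / 6) φ := by
    refine hP.K_nonneg fun n => ?_
    by_cases hn : P n φ = 0
    · rw [hn]
      simp [K]
    · have h1 := J01_bound h (hJ n)
      have h2 := hw n hn
      unfold K
      have h3 : m / 6 * ‖ι (P n φ)‖ ^ 2 ≤ m / 3 * |μ n| * ‖ι (P n φ)‖ ^ 2 := by
        refine mul_le_mul_of_nonneg_right ?_ (by positivity)
        nlinarith
      linarith
  unfold K at h5
  linarith

/-- **`q ≥ (m/6) ‖φ‖²`** if the rotation by `2 π` changes the sign of `φ`. -/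
theorem odd_bound_rot (h : Susy G m ι Q Ham J) (hm : 0 ≤ m) (hι : Function.Injective ι)
    {U : ℝ → V →ₗ[ℂ] V} (hU : Rot ι Ham U (J (0, 1)) (8 * Real.pi))
    (hp : HasProj ι U (8 * Real.pi)) {φ : V} (hodd : U (2 * Real.pi) φ = -φ) :
    m / 6 * ‖ι φ‖ ^ 2 ≤ (⟪ι φ, ι (Ham φ)⟫_ℂ).re := by
  obtain ⟨P, hg, hc, hJ⟩ := hU.exists_circ hι h.Ham_symm hp
  have hpi : (Real.pi : ℂ) ≠ 0 := by exact_mod_cast Real.pi_pos.ne'
  refine odd_bound_abs h hm hc (μ := fun n : ℤ => (n : ℝ) / 4) (φ := φ) (fun n => ?_)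
    fun n hn => ?_
  · rw [hJ]
    congr 1
    push_cast
    field_simp
    ring
  · -- `U (2π)` on `P n φ`
    by_contra hlt
    rw [not_le] at hlt
    apply hn
    have hcomm : U (2 * Real.pi) (P n φ) = -P n φ := by
      refine eq_of_weak hι fun χ => ?_
      have h1 : ⟪ι χ, ι (U (2 * Real.pi) (P n φ))⟫_ℂ = ⟪ι χ, ι (P n (U (2 * Real.pi) φ))⟫_ℂ := by
        rw [← hg.neg_left, hg.proj, hg.proj]
        congr 1
        funext s
        rw [hg.neg_left, ← hg.add, ← hg.add, add_comm]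
      rw [h1, hodd, map_neg]
    have h2 : ∀ χ, (1 + ch (8 * Real.pi) n (2 * Real.pi)) * ⟪ι χ, ι (P n φ)⟫_ℂ = 0 := fun χ => by
      have h3 := hg.U_P n (2 * Real.pi) χ φ
      rw [hcomm, map_neg, inner_neg_right] at h3
      linear_combination -h3
    have h4 : (1 + ch (8 * Real.pi) n (2 * Real.pi)) ≠ 0 := by
      have hn1 : |(n : ℝ)| < 2 := by
        rw [abs_div, abs_of_pos (show (0 : ℝ) < 4 by norm_num)] at hlt
        linarith
      have hn2 : n = -1 ∨ n = 0 ∨ n = 1 := by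
        have h5 : |n| < 2 := by exact_mod_cast hn1
        rw [abs_lt] at h5
        omega
      have e : ch (8 * Real.pi) n (2 * Real.pi) = Complex.exp ((Real.pi / 2 : ℝ) * I * n) := by
        unfold ch
        congr 1
        push_cast
        field_simp
        ring
      rw [e]
      rcases hn2 with rfl | rfl | rfl
      · have : Complex.exp ((Real.pi / 2 : ℝ) * I * ((-1 : ℤ) : ℂ)) = -I := by
          have h6 : ((Real.pi / 2 : ℝ) : ℂ) * I * ((-1 : ℤ) : ℂ) = -(Real.pi / 2 * I) := by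
            push_cast; ring
          rw [h6, Complex.exp_neg, Complex.exp_pi_div_two_mul_I]
          simp
        rw [this]
        intro h7
        have := congrArg Complex.re h7
        simp at this
      · simp
      · have : Complex.exp ((Real.pi / 2 : ℝ) * I * ((1 : ℤ) : ℂ)) = I := by
          have h6 : ((Real.pi / 2 : ℝ) : ℂ) * I * ((1 : ℤ) : ℂ) = Real.pi / 2 * I := by
            push_cast; ring
          rw [h6, Complex.exp_pi_div_two_mul_I]
        rw [this]
        intro h7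
        have := congrArg Complex.re h7
        simp at this
    refine eq_of_weak hι fun χ => ?_
    rw [map_zero, inner_zero_right]
    exact (mul_eq_zero.1 (h2 χ)).resolve_left h4

end abs

/-! ## 2. The parity operator -/

section par

open Crest.Agent.R330.Defs478 Crest.Agent.R330.SInd478 Crest.Agent.R330.Om0331
open Crest.Agent.R330.Neut45 (IsVac Cliff spinB)

variable {N : ℕ} {F : Type*} [NormedAddCommGroup F] [InnerProductSpace ℂ F]
  [FiniteDimensional ℂ F] (M : FermionRep N F) (G : GammaNine)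

/-- `γ¹ γ² ⊗ 1` -/
def X12 (N : ℕ) (G : GammaNine) : Matrix (Om0331.Idx N) (Om0331.Idx N) ℝ :=
  tens N (G.γ 0 * G.γ 1)

/-- the bilinear `(1/2) Σ (γ¹γ² ⊗ 1) θ θ`, twice the spin part of `J₁₂` -/
def B12 : F →L[ℂ] F := LinearMap.toContinuousLinearMap (spinB (tht M) (X12 N G))

/-- the parity operator `exp (2 π (1/4) θ γ¹γ² θ)` -/
def par : F →L[ℂ] F := NormedSpace.exp (Real.pi • B12 M G)

theorem X12_transpose : (X12 N G)ᵀ = -X12 N G := by
  have h := gg_transpose G (p := (0, 1)) mem01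
  unfold gg at h
  unfold X12
  rw [tens_transpose, h, tens_neg]


/-- `IsGVac` in the convention of `Neut_45`. -/
theorem isGVac_iff (Ω : F) : IsGVac M G Ω ↔ IsVac (tht M) (tens N (-(Defs478.Gam G))) Ω := by
  have e : ∀ p : Om0331.Idx N, -I • ∑ l : Om0331.Idx N,
      ((tens N (-(Defs478.Gam G)) l p : ℝ) : ℂ) • tht M l Ω =
      I • ∑ β : Fin 16, ((Defs478.Gam G β p.1 : ℝ) : ℂ) • M.θ β p.2 Ω := by
    intro p
    rw [Fintype.sum_prod_type]
    have h1 : ∀ x : Fin 16, ∑ y : Fin (N ^ 2 - 1),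
        ((tens N (-(Defs478.Gam G)) (x, y) p : ℝ) : ℂ) • tht M (x, y) Ω =
        -(((Defs478.Gam G x p.1 : ℝ) : ℂ) • M.θ x p.2 Ω) := by
      intro x
      rw [Finset.sum_eq_single p.2]
      · simp [tens, tht]
      · intro y _ hy
        simp [tens, hy]
      · intro h
        exact absurd (Finset.mem_univ _) h
    simp only [h1]
    rw [Finset.sum_neg_distrib, smul_neg, neg_smul, neg_neg]
  constructor
  · intro h p
    rw [e p]
    exact h p.1 p.2
  · intro h α A
    have := h (α, A)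
    rw [e (α, A)] at this
    exact this


theorem B12_vac {Ω : F} (h : IsGVac M G Ω) : B12 M G Ω = 0 := by
  rw [isGVac_iff] at h
  have hG := GapAlg916.Gam_transpose G
  have hS : ∀ i, G.γ i * G.γ i = 1 := fun i => GapAlg916.γ_sq G i
  refine Neut45.spinB_vac_zero (cliff_tht M) (J := tens N (-(Defs478.Gam G))) (K := X12 N G)
    (S := tens N (G.γ 3)) (S' := tens N (G.γ 3)) ?_ (X12_transpose G) ?_ ?_ ?_ ?_ h
  · rw [tens_transpose, Matrix.transpose_neg, hG, tens_neg]
  · have := gg_comm_Gam G (p := (0, 1)) mem01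
    unfold gg at this
    unfold X12
    rw [tens_mul, tens_mul, mul_neg, neg_mul]
    congr 2
  · rw [tens_mul, hS, tens_one]
  · have h1 : W G [3] * W G [0, 1] = W G [0, 1] * W G [3] := W_comm G (by decide)
    simp only [W, List.map_cons, List.map_nil, List.prod_cons, List.prod_nil, mul_one] at h1
    unfold X12
    rw [tens_mul, tens_mul, h1]
  · have h1 : W G [3] * W G [0, 1, 2] = -(W G [0, 1, 2] * W G [3]) := W_anti G (by decide)
    rw [← Gam_eq] at h1
    simp only [W, List.map_cons, List.map_nil, List.prod_cons, List.prod_nil, mul_one] at h1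
    rw [tens_mul, tens_mul, mul_neg, h1, neg_neg, neg_mul, tens_neg, neg_neg]



theorem exists_gVac [Nontrivial F] : ∃ Ω : F, Ω ≠ 0 ∧ IsGVac M G Ω := by
  obtain ⟨Ω, h0, h⟩ := Neut45.exists_vac (cliff_tht M) (J := tens N (-(Defs478.Gam G)))
    (by rw [tens_transpose, Matrix.transpose_neg, GapAlg916.Gam_transpose, tens_neg])
    (by rw [tens_mul, neg_mul_neg, GapAlg916.Gam_sq, tens_neg, tens_one])
  exact ⟨Ω, h0, (isGVac_iff M G Ω).2 h⟩

variable {M G}

/-- The product of two parities is the identity. -/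
theorem parity_comp [Nontrivial F] {P P' : F →ₗ[ℂ] F} (h : IsParity M G P)
    (h' : IsParity M G P') (v : F) : P (P' v) = v := by
  obtain ⟨Ω, h0, hΩ⟩ := exists_gVac M G
  obtain ⟨c, hc⟩ := Lift406.schur M (LinearMap.toContinuousLinearMap (P ∘ₗ P')) (by
    intro p
    ext v
    simp only [mul_apply_eq_comp, LinearMap.coe_toContinuousLinearMap',
      LinearMap.comp_apply, Lift406.th_apply]
    rw [h'.anti, map_neg, h.anti, neg_neg])
  have h1 : ∀ w, P (P' w) = c • w := fun w => by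
    have := congrArg (fun f : F →L[ℂ] F => f w) hc
    simpa using this
  have h2 : c = 1 := by
    have h3 := h1 Ω
    rw [h'.vac Ω hΩ, h.vac Ω hΩ] at h3
    by_contra hne
    apply h0
    have h4 : (1 - c) • Ω = 0 := by rw [sub_smul, one_smul, ← h3, sub_self]
    exact (smul_eq_zero.1 h4).resolve_left (sub_ne_zero.2 (Ne.symm hne))
  rw [h1, h2, one_smul]

/-- **Uniqueness of the parity.** -/
theorem parity_unique [Nontrivial F] {P P' : F →ₗ[ℂ] F} (h : IsParity M G P)
    (h' : IsParity M G P') : P = P' := by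
  ext v
  have h1 := parity_comp h h (P' v)
  rw [parity_comp h h' v] at h1
  exact h1


end par

end Crest.Agent.R330.Par522

end
end

-- ▼ part R330/Par2_522

/-!
# Row 330 (helper522): the parity of the zero modes is even, part 2

* `isParity_eS` : the spin rotation by `2 π` in the plane `(0,1)` is the fermion parity.
* `U_two_pi` : the rotation by `2 π` of a wave function is the parity.
* `OddBound N` : `q_{g,1} ≥ (1/6) ‖φ‖²` for odd core vectors.
* `evenAll_of` : `EvenAll N` from `OddBound N` (no induction hypothesis).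
* `oddBound_of` : `OddBound` from the algebra on the core and the circle `J₁₂`.
-/

set_option autoImplicit false
set_option linter.unusedSectionVars false
set_option maxHeartbeats 400000

open Filter Topology Set MeasureTheory Crest.MathPhysics.MatrixQM
open scoped InnerProductSpace Matrix ENNReal

noncomputable section

namespace Crest.Agent.R330.Par522

open Crest.Agent.R330.Defs478 Crest.Agent.R330.SInd478 Crest.Agent.R330.Par478
open Crest.Agent.R330.SDefs726
open Complex (I)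

/-! ## 1. The rotation by `2 π` -/

section exp3

variable {𝔸 : Type*} [NormedRing 𝔸] [NormedAlgebra ℝ 𝔸] [CompleteSpace 𝔸]

theorem exp_cube (X : 𝔸) (hX : X * X * X = -X) (t : ℝ) :
    NormedSpace.exp (t • X) = 1 + Real.sin t • X + (1 - Real.cos t) • (X * X) := by
  set g : ℝ → 𝔸 := fun u => NormedSpace.exp (u • (-X)) *
    (1 + Real.sin u • X + (1 - Real.cos u) • (X * X)) with hg
  have hd : ∀ u, HasDerivAt g 0 u := by
    intro u
    have h1 : HasDerivAt (fun u : ℝ => NormedSpace.exp (u • (-X)))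
        (NormedSpace.exp (u • (-X)) * (-X)) u := hasDerivAt_exp_smul_const (-X) u
    have h2 : HasDerivAt (fun u : ℝ => (1 : 𝔸) + Real.sin u • X + (1 - Real.cos u) • (X * X))
        (0 + Real.cos u • X + (0 - -Real.sin u) • (X * X)) u :=
      ((hasDerivAt_const u (1 : 𝔸)).add ((Real.hasDerivAt_sin u).smul_const X)).add
        (((hasDerivAt_const u (1 : ℝ)).sub (Real.hasDerivAt_cos u)).smul_const (X * X))
    have h4 := h1.mul h2
    refine h4.congr_deriv ?_
    have e1 : -X * (1 + Real.sin u • X + (1 - Real.cos u) • (X * X)) +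
        (0 + Real.cos u • X + (0 - -Real.sin u) • (X * X)) = 0 := by
      rw [mul_add, mul_add, mul_one, mul_smul_comm, mul_smul_comm, neg_mul, neg_mul, ← mul_assoc,
        hX]
      module
    rw [mul_assoc, ← mul_add, e1, mul_zero]
  have hc : g t = g 0 := is_const_of_deriv_eq_zero (fun x => (hd x).differentiableAt)
    (fun x => (hd x).deriv) t 0
  have h0 : g 0 = 1 := by simp [hg]
  have h1 : NormedSpace.exp (t • X) * NormedSpace.exp (t • (-X)) = 1 := by
    have := Lift406.exp_mul_exp_neg X t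
    rwa [smul_neg]
  calc NormedSpace.exp (t • X) = NormedSpace.exp (t • X) * g t := by rw [hc, h0, mul_one]
    _ = (NormedSpace.exp (t • X) * NormedSpace.exp (t • (-X))) *
        (1 + Real.sin t • X + (1 - Real.cos t) • (X * X)) := by rw [hg, mul_assoc]
    _ = _ := by rw [h1, one_mul]

end exp3

section matrix

open scoped Matrix.Norms.Operator

theorem exp_rot_two_pi {j k : Fin 9} (h : j ≠ k) :
    NormedSpace.exp ((2 * Real.pi) • rot j k) = (1 : Matrix (Fin 9) (Fin 9) ℝ) := by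
  have h1 : rot j k * rot j k = -Rot149.PP j k := Rot149.KK_mul_KK h
  have h2 : rot j k * rot j k * rot j k = -rot j k := by
    rw [h1, neg_mul]
    congr 1
    exact Rot149.PP_mul_KK h
  have h3 := exp_cube (rot j k) h2 (2 * Real.pi)
  refine Eq.trans h3 ?_
  rw [Real.sin_two_pi, Real.cos_two_pi]
  simp

end matrix

section par

variable {N : ℕ} {F : Type*} [NormedAddCommGroup F] [InnerProductSpace ℂ F]
  [FiniteDimensional ℂ F] {M : FermionRep N F} {G : GammaNine}

theorem Sp_vac {Ω : F} (h : IsGVac M G Ω) : Sp M G (rot 0 1) Ω = 0 := by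
  have h1 := B12_vac M G h
  have e : Sp M G (rot 0 1) Ω = (1 / 2 : ℂ) • B12 M G Ω := by
    have h2 := congrArg (fun f : F →L[ℂ] F => f Ω) (Per967.Sp_rot (G := G) M
      (show (0 : Fin 9) ≠ 1 by decide))
    simp only [LinearMap.coe_toContinuousLinearMap'] at h2
    rw [h2]
    have h3 : B12 M G Ω = (1 / 2 : ℂ) • ∑ j : Om0331.Idx N, ∑ k : Om0331.Idx N,
        ((X12 N G j k : ℝ) : ℂ) • Om0331.tht M j (Om0331.tht M k Ω) := by
      show Neut45.spinB (Om0331.tht M) (X12 N G) Ω = _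
      unfold Neut45.spinB
      simp only [LinearMap.smul_apply, LinearMap.sum_apply, LinearMap.comp_apply]
    have h4 : Lift406.spin M (Per967.aK (G.γ 0 * G.γ 1)) Ω = (1 / 2 : ℂ) •
        ∑ j : Om0331.Idx N, ∑ k : Om0331.Idx N,
        ((Per967.aK (N := N) (G.γ 0 * G.γ 1) j k : ℝ) : ℂ) •
          Om0331.tht M j (Om0331.tht M k Ω) := by
      unfold Lift406.spin
      simp only [_root_.smul_apply, _root_.sum_apply]
      rfl
    rw [h3, h4, smul_smul, Finset.smul_sum, Finset.smul_sum]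
    refine Finset.sum_congr rfl fun j _ => ?_
    rw [Finset.smul_sum, Finset.smul_sum]
    refine Finset.sum_congr rfl fun k _ => ?_
    rw [smul_smul, smul_smul]
    congr 1
    rw [Per967.aK_apply]
    unfold X12 Om0331.tens
    split_ifs <;> push_cast <;> ring
  rw [e, h1, smul_zero]

/-- **The spin rotation by `2 π` is the parity.** -/
theorem isParity_eS : IsParity M G (eS M G (rot 0 1) (2 * Real.pi) : F →ₗ[ℂ] F) := by
  have e : eS M G (rot 0 1) (2 * Real.pi) = NormedSpace.exp ((2 * Real.pi) •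
      Lift406.spin M (Per967.aK (G.γ 0 * G.γ 1))) := by
    unfold eS
    rw [Per967.Sp_rot M (by decide)]
    congr 1
  refine ⟨fun α A v => ?_, fun Ω hΩ => ?_⟩
  · have h1 := Per967.exp_spin_L M (Per967.gg_transpose' G (show (0 : Fin 9) ≠ 1 by decide))
      (Per967.gg_sq' G (show (0 : Fin 9) ≠ 1 by decide)) (2 * Real.pi)
      (Pi.single ((α, A) : Lift406.Idx N) 1)
    have h2 : 2 * Real.pi / 2 = Real.pi := by ring
    rw [h2, Real.cos_pi, Real.sin_pi, mul_zero, zero_smul, add_zero, neg_one_smul, map_neg,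
      Per967.L_single, ← e] at h1
    have h3 := congrArg (fun f : F →L[ℂ] F => f v) h1
    simp only [mul_apply_eq_comp, _root_.neg_apply, Lift406.th_apply] at h3
    exact h3.symm
  · have h1 := Lift406.exp_eigen (LinearMap.toContinuousLinearMap (Sp M G (rot 0 1))) 0 Ω
      (by rw [zero_smul]; exact Sp_vac hΩ) (2 * Real.pi)
    rw [mul_zero, Complex.exp_zero, one_smul] at h1
    exact h1

/-- The rotation by `2 π` of a wave function is the parity. -/
theorem U_two_pi [Nontrivial F] {P : F →ₗ[ℂ] F} (hP : IsParity M G P) (φ : Cfg N → F) :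
    U M G (rot 0 1) (2 * Real.pi) φ = fun x => P (φ x) := by
  have h := parity_unique hP (isParity_eS (M := M) (G := G))
  funext x
  show eS M G (rot 0 1) (2 * Real.pi) (φ (vf (NormedSpace.exp ((2 * Real.pi) • rot 0 1)) x)) = _
  rw [exp_rot_two_pi (by decide), vf_one, h]
  rfl

end par

/-! ## 2. Even zero states from the bound on odd core vectors -/

/-- `q_{g,1} ≥ (1/6) ‖φ‖²` for odd core vectors. -/
def OddBound (N : ℕ) : Prop :=
  ∀ (F : Type) [NormedAddCommGroup F] [InnerProductSpace ℂ F] [FiniteDimensional ℂ F]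
    [Nontrivial F] (b : ColorBasis N) (M : FermionRep N F) (R : GaugeAction b M) (G : GammaNine)
    (g : ℝ), 0 < g → ∀ P : F →ₗ[ℂ] F, IsParity M G P → ∀ φ : Cfg N → F, IsCoreVec b R φ →
    (∀ x, P (φ x) = -φ x) → 1 / 6 * ∫ x, ‖φ x‖ ^ 2 ≤ qf b M G g 1 φ

section even

variable {N : ℕ} {F : Type*} [NormedAddCommGroup F] [InnerProductSpace ℂ F]
  [FiniteDimensional ℂ F] [Nontrivial F] {b : ColorBasis N} {M : FermionRep N F}
  {R : GaugeAction b M} {G : GammaNine} {P : F →ₗ[ℂ] F}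

/-- the odd part -/
def odd (P : F →ₗ[ℂ] F) (φ : Cfg N → F) : Cfg N → F := (1 / 2 : ℂ) • (φ + (-1 : ℂ) • fun x => P (φ x))

theorem odd_apply (P : F →ₗ[ℂ] F) (φ : Cfg N → F) (x : Cfg N) :
    odd P φ x = (1 / 2 : ℂ) • (φ x - P (φ x)) := by
  simp [odd, sub_eq_add_neg]

theorem odd_core (hP : IsParity M G P) {φ : Cfg N → F} (h : IsCoreVec b R φ) :
    IsCoreVec b R (odd P φ) := cv_smul _ (cv_add h (cv_smul _ (core_P (hP.rho R) h)))

theorem odd_odd (hP : IsParity M G P) (φ : Cfg N → F) (x : Cfg N) :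
    P (odd P φ x) = -odd P φ x := by
  rw [odd_apply, map_smul, map_sub, hP.sq, ← smul_neg, neg_sub]

theorem qf_odd_le (hP : IsParity M G P) {φ : Cfg N → F} (h : IsCoreVec b R φ) (g m : ℝ) :
    qf b M G g m (odd P φ) ≤ qf b M G g m φ := by
  unfold qf
  refine mul_le_mul_of_nonneg_left (Finset.sum_le_sum fun α _ => ?_) (by norm_num)
  refine integral_mono (QM0363.int_sq_dcharge G g m α (odd_core hP h))
    (QM0363.int_sq_dcharge G g m α h) fun x => ?_
  have hd := cv_diff h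
  have hd' : Differentiable ℝ fun x => P (φ x) := cv_diff (core_P (hP.rho R) h)
  have hd'' : Differentiable ℝ ((-1 : ℂ) • fun x => P (φ x)) := hd'.const_smul (-1 : ℂ)
  have e : dcharge b M G g m α (odd P φ) x =
      (1 / 2 : ℂ) • (dcharge b M G g m α φ x + P (dcharge b M G g m α φ x)) := by
    unfold odd
    rw [dcharge_smul b M G g m α _ (hd.add hd''), dcharge_add b M G g m α hd hd'',
      dcharge_smul b M G g m α _ hd']
    simp only [Pi.smul_apply, Pi.add_apply]
    rw [dcharge_P b hP.anti g m α (hd x)]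
    simp
  have h1 : ‖dcharge b M G g m α (odd P φ) x‖ ≤ ‖dcharge b M G g m α φ x‖ := by
    rw [e, norm_smul]
    have h2 := norm_add_le (dcharge b M G g m α φ x) (P (dcharge b M G g m α φ x))
    rw [hP.norm] at h2
    have h3 : ‖(1 / 2 : ℂ)‖ = 1 / 2 := by norm_num
    rw [h3]
    linarith
  exact pow_le_pow_left₀ (norm_nonneg _) h1 2

/-- **All zero states are even.** -/
theorem evenAll_of {N : ℕ} (hO : OddBound N) : Close478.EvenAll N := by
  intro F _ _ _ _ b M R G ψ hψ P hP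
  set ψ' : Cfg N → F := ψ + (-1 : ℂ) • fun x => P (ψ x) with hψ'
  have hz : ψ' ∈ zset b M R G 1 0 := zset_add hψ (zset_smul _ (zset_P hP hψ))
  have happ : ∀ x, ψ' x = ψ x - P (ψ x) := fun x => by simp [hψ', sub_eq_add_neg]
  have hodd : ∀ x, P (ψ' x) = -ψ' x := fun x => by
    rw [happ, map_sub, hP.sq, neg_sub]
  have hI0 : ∫ x, ‖ψ' x‖ ^ 2 = 0 := by
    by_contra hne
    have hpos : 0 < ∫ x, ‖ψ' x‖ ^ 2 :=
      lt_of_le_of_ne (integral_nonneg fun _ => sq_nonneg _) (Ne.symm hne)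
    set S := ∫ x, ‖ψ' x‖ ^ 2 with hS
    obtain ⟨ρ, hρ, h1⟩ := QM0363.quasi_g hz (ε := S / 28) (by positivity)
    obtain ⟨g, hg, h2⟩ := h1 ρ hρ le_rfl
    obtain ⟨φ, hφ, -, h3, h4⟩ := h2 g le_rfl
    set l := g ^ ((1 : ℝ) / 3) with hl
    have hl0 : 0 < l := by positivity
    set u := Scale423.Us l ψ' with hu
    have huP : ∀ x, P (u x) = -u x := fun x => by
      rw [hu, Scale423.Us_apply, map_smul, hodd, smul_neg]
    have huM : MemLp u 2 volume := Scale423.Us_memLp hl0 hz.1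
    have hφo := odd_core (G := G) hP hφ
    have h5 := hO F b M R G g hg P hP (odd P φ) hφo (odd_odd hP φ)
    have h6 := h5.trans ((qf_odd_le hP hφ g 1).trans h4)
    -- distance of the odd parts
    have hMs : MemLp (fun x => φ x - u x) 2 volume := (Dict416.cv_memLp hφ).sub huM
    have hMo : MemLp (fun x => odd P φ x - u x) 2 volume := (Dict416.cv_memLp hφo).sub huM
    have h7 : ∫ x, ‖odd P φ x - u x‖ ^ 2 ≤ ∫ x, ‖φ x - u x‖ ^ 2 := by
      refine integral_mono (QM0363.int_sq_memLp hMo) (QM0363.int_sq_memLp hMs) fun x => ?_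
      have e : odd P φ x - u x = (1 / 2 : ℂ) • ((φ x - u x) - P (φ x - u x)) := by
        rw [odd_apply, map_sub, huP]
        module
      have h8 : ‖odd P φ x - u x‖ ≤ ‖φ x - u x‖ := by
        rw [e, norm_smul]
        have h9 := norm_sub_le (φ x - u x) (P (φ x - u x))
        rw [hP.norm] at h9
        have h10 : ‖(1 / 2 : ℂ)‖ = 1 / 2 := by norm_num
        rw [h10]
        linarith
      exact pow_le_pow_left₀ (norm_nonneg _) h8 2
    -- the norm of `u`
    have h8 : ∫ x, ‖u x‖ ^ 2 ≤ 2 * (∫ x, ‖odd P φ x - u x‖ ^ 2) +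
        2 * (∫ x, ‖odd P φ x‖ ^ 2) := by
      rw [← integral_const_mul, ← integral_const_mul, ← integral_add
        ((QM0363.int_sq_memLp hMo).const_mul 2)
        ((QM0363.int_sq_memLp (Dict416.cv_memLp hφo)).const_mul 2)]
      refine integral_mono (QM0363.int_sq_memLp huM)
        (((QM0363.int_sq_memLp hMo).const_mul 2).add
          ((QM0363.int_sq_memLp (Dict416.cv_memLp hφo)).const_mul 2)) fun x => ?_
      show ‖u x‖ ^ 2 ≤ 2 * ‖odd P φ x - u x‖ ^ 2 + 2 * ‖odd P φ x‖ ^ 2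
      have h9 : ‖u x‖ ≤ ‖odd P φ x - u x‖ + ‖odd P φ x‖ := by
        have h10 := norm_sub_le (odd P φ x) (odd P φ x - u x)
        rw [sub_sub_cancel] at h10
        linarith
      nlinarith [norm_nonneg (u x), norm_nonneg (odd P φ x - u x), norm_nonneg (odd P φ x),
        sq_nonneg (‖odd P φ x - u x‖ - ‖odd P φ x‖)]
    have h9 : ∫ x, ‖u x‖ ^ 2 = S := by
      have e1 := Dict416.norm_toLp_sq huM
      have e2 := Dict416.norm_toLp_sq hz.1
      rw [← e1, hS, ← e2, Lp.norm_toLp, Lp.norm_toLp, hu, Scale423.eLpNorm_Us hl0]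
    linarith
  have h1 : (fun x => ‖ψ' x‖ ^ 2) =ᵐ[volume] 0 :=
    (integral_eq_zero_iff_of_nonneg (fun _ => sq_nonneg _) (QM0363.int_sq_memLp hz.1)).1 hI0
  filter_upwards [h1] with x hx
  have h2 : ‖ψ' x‖ ^ 2 = 0 := hx
  have h3 : ψ' x = 0 := by simpa using h2
  rw [happ] at h3
  exact (sub_eq_zero.1 h3).symm

end even

/-! ## 3. The bound from the algebra and the circle -/

section bound

open Crest.Agent.R330.GapAlg916 Crest.Agent.R330.GapTor967 Crest.Agent.R330.Dict416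

variable {N : ℕ} {F : Type*} [NormedAddCommGroup F] [InnerProductSpace ℂ F]
  [FiniteDimensional ℂ F] [Nontrivial F] {b : ColorBasis N} {M : FermionRep N F}
  {R : GaugeAction b M} {G : GammaNine}

/-- The bound for the literal charges. -/
theorem odd_bound_lit {g m : ℝ} (hm : 0 ≤ m) {Q : Fin 16 → core b R →ₗ[ℂ] core b R}
    (hQ : ∀ α φ, (Q α φ : Cfg N → F) = dcharge b M G g m α (φ : Cfg N → F))
    {Ham : core b R →ₗ[ℂ] core b R} {J : Fin 9 × Fin 9 → core b R →ₗ[ℂ] core b R}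
    (h : Susy G m (ιC R) Q Ham J) {V : ℝ → core b R →ₗ[ℂ] core b R}
    (hV : Rot (ιC R) Ham V (J (0, 1)) (8 * Real.pi)) (hp : HasProj (ιC R) V (8 * Real.pi))
    (hVU : ∀ φ : core b R, (V (2 * Real.pi) φ : Cfg N → F) = U M G (rot 0 1) (2 * Real.pi) φ)
    {P : F →ₗ[ℂ] F} (hP : IsParity M G P) {φ : Cfg N → F} (hφ : IsCoreVec b R φ)
    (hodd : ∀ x, P (φ x) = -φ x) : m / 6 * ∫ x, ‖φ x‖ ^ 2 ≤ qf b M G g m φ := by
  have h1 := odd_bound_rot h hm GapFin967.ιC_injective hV hp
    (φ := (⟨φ, hφ⟩ : core b R)) (by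
      apply Subtype.ext
      rw [hVU, U_two_pi hP]
      funext x
      exact hodd x)
  rw [norm_ιC_sq, ← h.form_self] at h1
  refine h1.trans_eq ?_
  unfold qf
  congr 1
  refine Finset.sum_congr rfl fun α _ => ?_
  rw [norm_ιC_sq, hQ]

end bound

end Crest.Agent.R330.Par522

end
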