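import Mathlib
import Crest.Prelude.Def_MatrixModel
import Crest.Agent.R330.IBP_837
import Crest.Agent.R330.Defs_478
import Crest.Agent.R330.ScaleD_423
import Crest.Agent.R330.WeitzG_726
import Crest.Agent.R330.VId_87
import Crest.Agent.R330.HIAnn_245

-- ▼ part R330/Sq_423
section

/-!
Row 330 (helper423), leaf S10.1-TIGHT, part 1: comparison of two charge families.

* `compare` : `Σ_α ∫ ‖Q_α^W φ‖² ≥ ∫ (|W|² - |W'|²)/2 |φ|² + ∫ Re ⟨φ, (Z_W - Z_W') φ⟩`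
  (energy identity of helper726 for `W` and for `W'`, and `Σ ‖Q^{W'} φ‖² ≥ 0`).
* `Uf G v` : the mass term with a vector field `v` in the place of `x`.
* `qf_ge_field` : the comparison with `W' = W + s U_v` written out.
* `cs_bound` : `g² ∫ cs |φ|² ≤ 8 q + ...`.
-/

set_option autoImplicit false
set_option linter.unusedSectionVars false
set_option linter.deprecated false

noncomputable section

namespace Crest.Agent.R330.Sq423

open MeasureTheory Filter Topology Crest.MathPhysics.MatrixQM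
open Crest.Agent.R330.IBP837 Crest.Agent.R330.Weitz726
open Crest.Agent.R330.CoerCfg87 (br comp Vcyc Vhi lo)
open Crest.Agent.R330.VId87 (Vsq Vsq_eq Voth br_swap trTU tr_Gam_Gam Wm)
open Crest.Agent.R330.Defs478 (cc Gam wpot dcharge qf)
open scoped ContDiff InnerProductSpace ENNReal Matrix

variable {N : ℕ} {F : Type*} [NormedAddCommGroup F] [InnerProductSpace ℂ F]
  [FiniteDimensional ℂ F]

/-! ### 1. Norms of the Clifford map -/

theorem norm_Th_sq (M : FermionRep N F) (u : Fin 16 → Fin (N ^ 2 - 1) → ℝ) (a : F) :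
    ‖Th M u a‖ ^ 2 = dp u u / 2 * ‖a‖ ^ 2 := by
  have n2 : ∀ v : F, ⟪v, v⟫_ℂ = ((‖v‖ ^ 2 : ℝ) : ℂ) := fun v => by
    rw [inner_self_eq_norm_sq_to_K]; norm_cast
  have h1 : ⟪Th M u a, Th M u a⟫_ℂ = ((dp u u / 2 * ‖a‖ ^ 2 : ℝ) : ℂ) := by
    rw [Th_symm, Th_sq, inner_smul_right, n2, Complex.ofReal_mul]
  rw [n2] at h1
  exact Complex.ofReal_injective h1

theorem dp_self_le (u : Fin 16 → Fin (N ^ 2 - 1) → ℝ) :
    dp u u ≤ (∑ β, ∑ A, |u β A|) ^ 2 := by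
  have h1 : dp u u = ∑ p : Fin 16 × Fin (N ^ 2 - 1), |u p.1 p.2| ^ 2 := by
    rw [dp_eq]
    exact Finset.sum_congr rfl fun p _ => by rw [sq_abs]; ring
  have h2 : ∑ β, ∑ A, |u β A| = ∑ p : Fin 16 × Fin (N ^ 2 - 1), |u p.1 p.2| := by
    rw [Fintype.sum_prod_type]
  rw [h1, h2]
  exact Finset.sum_sq_le_sq_sum_of_nonneg (fun p _ => abs_nonneg _)

theorem norm_Th_le (M : FermionRep N F) (u : Fin 16 → Fin (N ^ 2 - 1) → ℝ) (a : F) :
    ‖Th M u a‖ ≤ (∑ β, ∑ A, |u β A|) * ‖a‖ := by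
  have h0 : 0 ≤ ∑ β, ∑ A, |u β A| :=
    Finset.sum_nonneg fun _ _ => Finset.sum_nonneg fun _ _ => abs_nonneg _
  refine le_of_sq_le_sq ?_ (mul_nonneg h0 (norm_nonneg a))
  rw [norm_Th_sq, mul_pow]
  refine mul_le_mul_of_nonneg_right ?_ (sq_nonneg _)
  have h1 := dp_self_le u
  have h2 : 0 ≤ dp u u := by
    rw [dp_eq]; exact Finset.sum_nonneg fun p _ => mul_self_nonneg _
  linarith

theorem norm_dco_le (M : FermionRep N F) (G : GammaNine) (α : Fin 16)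
    (k : Fin 9 × Fin (N ^ 2 - 1)) (a : F) : ‖dco M G α k a‖ ≤ ‖a‖ := by
  rw [dco_eq]
  refine le_of_sq_le_sq ?_ (norm_nonneg a)
  rw [norm_Th_sq, dp_ug_ug, if_pos rfl, gamma_sq, Matrix.one_apply_eq]
  nlinarith [sq_nonneg ‖a‖]

/-! ### 2. The zero order operators -/

/-- size of the derivative of the potential coefficients -/
def zn (W : Fin 16 → Fin 16 → Fin (N ^ 2 - 1) → Cfg N → ℝ) (x : Cfg N) : ℝ :=
  ∑ α, ∑ k : Fin 9 × Fin (N ^ 2 - 1), ∑ β, ∑ A, |dW W α k x β A|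


theorem norm_Zop_le (M : FermionRep N F) (G : GammaNine)
    (W : Fin 16 → Fin 16 → Fin (N ^ 2 - 1) → Cfg N → ℝ) (x : Cfg N) (v : F) :
    ‖Zop M G W x v‖ ≤ zn W x * ‖v‖ := by
  rw [Zop_apply]
  refine (norm_sum_le _ _).trans ?_
  unfold zn
  rw [Finset.sum_mul]
  refine Finset.sum_le_sum fun α _ => ?_
  refine (norm_sum_le _ _).trans ?_
  rw [Finset.sum_mul]
  refine Finset.sum_le_sum fun k _ => ?_
  rw [norm_smul, norm_neg, Complex.norm_I, one_mul]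
  exact (norm_dco_le M G α k _).trans (norm_Th_le M _ v)

theorem abs_Zop_le (M : FermionRep N F) (G : GammaNine)
    (W : Fin 16 → Fin 16 → Fin (N ^ 2 - 1) → Cfg N → ℝ) (x : Cfg N) (v : F) :
    |(⟪v, Zop M G W x v⟫_ℂ).re| ≤ zn W x * ‖v‖ ^ 2 := by
  calc |(⟪v, Zop M G W x v⟫_ℂ).re| ≤ ‖⟪v, Zop M G W x v⟫_ℂ‖ := Complex.abs_re_le_norm _
    _ ≤ ‖v‖ * ‖Zop M G W x v‖ := norm_inner_le_norm _ _
    _ ≤ ‖v‖ * (zn W x * ‖v‖) := mul_le_mul_of_nonneg_left (norm_Zop_le M G W x v) (norm_nonneg _)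
    _ = zn W x * ‖v‖ ^ 2 := by ring

theorem dW_add {W U : Fin 16 → Fin 16 → Fin (N ^ 2 - 1) → Cfg N → ℝ} {α : Fin 16}
    (hW : ∀ α β A, ContDiff ℝ 1 (W α β A)) (hU : ∀ α β A, ContDiff ℝ 1 (U α β A))
    (k : Fin 9 × Fin (N ^ 2 - 1)) (x : Cfg N) :
    dW (W + U) α k x = dW W α k x + dW U α k x := by
  funext β A
  simp only [dW, Pi.add_apply]
  have h : (W α β A + U α β A) = (fun y => W α β A y + U α β A y) := rfl
  rw [fderiv_add ((hW α β A).differentiable one_ne_zero x)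
    ((hU α β A).differentiable one_ne_zero x)]
  rfl

theorem dW_smul {U : Fin 16 → Fin 16 → Fin (N ^ 2 - 1) → Cfg N → ℝ} {α : Fin 16} (s : ℝ)
    (hU : ∀ α β A, ContDiff ℝ 1 (U α β A)) (k : Fin 9 × Fin (N ^ 2 - 1)) (x : Cfg N) :
    dW (s • U) α k x = s • dW U α k x := by
  funext β A
  simp only [dW, Pi.smul_apply]
  rw [fderiv_const_smul ((hU α β A).differentiable one_ne_zero x)]
  rfl

theorem zn_add_le {W U : Fin 16 → Fin 16 → Fin (N ^ 2 - 1) → Cfg N → ℝ}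
    (hW : ∀ α β A, ContDiff ℝ 1 (W α β A)) (hU : ∀ α β A, ContDiff ℝ 1 (U α β A))
    (x : Cfg N) : zn (W + U) x ≤ zn W x + zn U x := by
  unfold zn
  rw [← Finset.sum_add_distrib]
  refine Finset.sum_le_sum fun α _ => ?_
  rw [← Finset.sum_add_distrib]
  refine Finset.sum_le_sum fun k _ => ?_
  rw [← Finset.sum_add_distrib]
  refine Finset.sum_le_sum fun β _ => ?_
  rw [← Finset.sum_add_distrib]
  refine Finset.sum_le_sum fun A _ => ?_
  rw [dW_add hW hU]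
  exact abs_add_le _ _

theorem zn_smul {U : Fin 16 → Fin 16 → Fin (N ^ 2 - 1) → Cfg N → ℝ} (s : ℝ)
    (hU : ∀ α β A, ContDiff ℝ 1 (U α β A)) (x : Cfg N) : zn (s • U) x = |s| * zn U x := by
  unfold zn
  simp only [Finset.mul_sum]
  refine Finset.sum_congr rfl fun α _ => Finset.sum_congr rfl fun k _ =>
    Finset.sum_congr rfl fun β _ => Finset.sum_congr rfl fun A _ => ?_
  rw [dW_smul s hU]
  simp only [Pi.smul_apply, smul_eq_mul, abs_mul]

theorem Zop_add (M : FermionRep N F) (G : GammaNine)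
    {W U : Fin 16 → Fin 16 → Fin (N ^ 2 - 1) → Cfg N → ℝ}
    (hW : ∀ α β A, ContDiff ℝ 1 (W α β A)) (hU : ∀ α β A, ContDiff ℝ 1 (U α β A))
    (x : Cfg N) (v : F) : Zop M G (W + U) x v = Zop M G W x v + Zop M G U x v := by
  simp only [Zop_apply, ← Finset.sum_add_distrib]
  refine Finset.sum_congr rfl fun α _ => Finset.sum_congr rfl fun k _ => ?_
  rw [dW_add hW hU, Th_add, LinearMap.add_apply, map_add, smul_add]

/-! ### 3. Continuity and integrability -/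

theorem continuous_Wsq {W : Fin 16 → Fin 16 → Fin (N ^ 2 - 1) → Cfg N → ℝ}
    (hW : ∀ α β A, ContDiff ℝ 1 (W α β A)) : Continuous (Wsq W) := by
  unfold Wsq dp
  exact continuous_finsetSum _ fun α _ => continuous_finsetSum _ fun β _ =>
    continuous_finsetSum _ fun A _ => (hW α β A).continuous.mul (hW α β A).continuous

theorem integrable_mul_sq {f : Cfg N → ℝ} (hf : Continuous f) {φ : Cfg N → F}
    (hφ : Continuous φ) (hc : HasCompactSupport φ) : Integrable fun x => f x * ‖φ x‖ ^ 2 := by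
  refine (hf.mul (hφ.norm.pow 2)).integrable_of_hasCompactSupport ?_
  refine hc.mono fun x hx h0 => hx ?_
  have h00 : φ x = 0 := h0
  simp [h00]

theorem continuous_Zop {M : FermionRep N F} {G : GammaNine}
    {W : Fin 16 → Fin 16 → Fin (N ^ 2 - 1) → Cfg N → ℝ}
    (hW : ∀ α β A, ContDiff ℝ 1 (W α β A)) {φ : Cfg N → F} (hφ : Continuous φ) :
    Continuous fun x => Zop M G W x (φ x) := by
  simp only [Zop_apply]
  exact continuous_finsetSum _ fun α _ => continuous_finsetSum _ fun k _ =>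
    Continuous.const_smul ((cont_lin _).comp (continuous_Th (continuous_dW (hW α) k) hφ)) _

theorem integrable_Zop {M : FermionRep N F} {G : GammaNine}
    {W : Fin 16 → Fin 16 → Fin (N ^ 2 - 1) → Cfg N → ℝ}
    (hW : ∀ α β A, ContDiff ℝ 1 (W α β A)) {φ : Cfg N → F} (hφ : Continuous φ)
    (hc : HasCompactSupport φ) : Integrable fun x => (⟪φ x, Zop M G W x (φ x)⟫_ℂ).re := by
  have h : Integrable fun x => ⟪φ x, Zop M G W x (φ x)⟫_ℂ :=
    integrable_inner_of_cont hφ (continuous_Zop hW hφ) (Or.inl hc)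
  exact h.re

/-! ### 4. The comparison -/

/-- **Comparison of two charge families.** -/
theorem compare {M : FermionRep N F} {G : GammaNine}
    {W W' : Fin 16 → Fin 16 → Fin (N ^ 2 - 1) → Cfg N → ℝ}
    (hW : ∀ α β A, ContDiff ℝ 1 (W α β A)) (hT : TrZ G W)
    (hW' : ∀ α β A, ContDiff ℝ 1 (W' α β A)) (hT' : TrZ G W') {φ : Cfg N → F}
    (hφ : ContDiff ℝ 2 φ) (hc : HasCompactSupport φ) :
    (∫ x, (Wsq W x - Wsq W' x) / 2 * ‖φ x‖ ^ 2) +
      (∫ x, ((⟪φ x, Zop M G W x (φ x)⟫_ℂ).re - (⟪φ x, Zop M G W' x (φ x)⟫_ℂ).re)) ≤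
      ∑ α, ∫ x, ‖chargeW M G W α φ x‖ ^ 2 := by
  have h1 := weitz (M := M) hW hT hφ hc
  have h2 := weitz (M := M) hW' hT' hφ hc
  have h3 : 0 ≤ ∑ α, ∫ x, ‖chargeW M G W' α φ x‖ ^ 2 :=
    Finset.sum_nonneg fun α _ => integral_nonneg fun x => sq_nonneg _
  have hcont := hφ.continuous
  have e1 : ∫ x, (Wsq W x - Wsq W' x) / 2 * ‖φ x‖ ^ 2 =
      (∫ x, Wsq W x / 2 * ‖φ x‖ ^ 2) - ∫ x, Wsq W' x / 2 * ‖φ x‖ ^ 2 := by
    rw [← integral_sub (integrable_mul_sq ((continuous_Wsq hW).div_const 2) hcont hc)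
      (integrable_mul_sq ((continuous_Wsq hW').div_const 2) hcont hc)]
    exact integral_congr_ae (Eventually.of_forall fun x => by simp only; ring)
  have e2 : ∫ x, ((⟪φ x, Zop M G W x (φ x)⟫_ℂ).re - (⟪φ x, Zop M G W' x (φ x)⟫_ℂ).re) =
      (∫ x, (⟪φ x, Zop M G W x (φ x)⟫_ℂ).re) - ∫ x, (⟪φ x, Zop M G W' x (φ x)⟫_ℂ).re :=
    integral_sub (integrable_Zop hW hcont hc) (integrable_Zop hW' hcont hc)
  rw [e1, e2]
  linarith

/-! ### 5. The mass term with a vector field -/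

/-- the mass term `Σ_j c_j v_j^A(x) (Γ γ^j)_{αβ}` of a vector field `v` -/
def Uf (G : GammaNine) (v : Cfg N → Cfg N) : Fin 16 → Fin 16 → Fin (N ^ 2 - 1) → Cfg N → ℝ :=
  fun α β A x => ∑ j : Fin 9, cc j * v x (j, A) * (Gam G * G.γ j) α β

theorem contDiff_coord {v : Cfg N → Cfg N} (hv : ContDiff ℝ 1 v) (k : Fin 9 × Fin (N ^ 2 - 1)) :
    ContDiff ℝ 1 fun x => v x k :=
  (EuclideanSpace.proj k : Cfg N →L[ℝ] ℝ).contDiff.comp hv

theorem contDiff_Uf (G : GammaNine) {v : Cfg N → Cfg N} (hv : ContDiff ℝ 1 v) (α β : Fin 16)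
    (A : Fin (N ^ 2 - 1)) : ContDiff ℝ 1 (Uf G v α β A) := by
  unfold Uf
  exact ContDiff.sum fun j _ => (contDiff_const.mul (contDiff_coord hv (j, A))).mul contDiff_const

theorem trZ_Uf (G : GammaNine) (v : Cfg N → Cfg N) : TrZ G (Uf G v) := by
  intro k x
  unfold Uf
  have h3 : ∀ α β, G.γ k.1 α β * ∑ j : Fin 9, cc j * v x (j, k.2) * (Gam G * G.γ j) α β =
      ∑ j : Fin 9, (cc j * v x (j, k.2)) * (G.γ k.1 α β * (Gam G * G.γ j) α β) := by
    intro α β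
    rw [Finset.mul_sum]
    exact Finset.sum_congr rfl fun j _ => by ring
  simp only [h3]
  rw [Finset.sum_congr rfl fun α _ => Finset.sum_comm, Finset.sum_comm]
  refine Finset.sum_eq_zero fun j _ => ?_
  simp only [← Finset.mul_sum]
  rw [pair_Gam, mul_zero]

theorem trZ_add {G : GammaNine} {W U : Fin 16 → Fin 16 → Fin (N ^ 2 - 1) → Cfg N → ℝ}
    (h : TrZ G W) (h' : TrZ G U) : TrZ G (W + U) := by
  intro k x
  simp only [Pi.add_apply, mul_add, Finset.sum_add_distrib]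
  rw [h k x, h' k x, add_zero]

theorem trZ_smul {G : GammaNine} {U : Fin 16 → Fin 16 → Fin (N ^ 2 - 1) → Cfg N → ℝ} (s : ℝ)
    (h' : TrZ G U) : TrZ G (s • U) := by
  intro k x
  have h1 : ∀ α β, G.γ k.1 α β * (s • U) α β k.2 x = s * (G.γ k.1 α β * U α β k.2 x) := by
    intro α β
    simp only [Pi.smul_apply, smul_eq_mul]
    ring
  simp only [h1, ← Finset.mul_sum]
  rw [h' k x, mul_zero]

/-- size constant of the coefficients of `Uf` -/
def cU (N : ℕ) (G : GammaNine) : ℝ :=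
  ∑ α : Fin 16, ∑ _k : Fin 9 × Fin (N ^ 2 - 1), ∑ β : Fin 16, ∑ _A : Fin (N ^ 2 - 1),
    ∑ j : Fin 9, |cc j * (Gam G * G.γ j) α β|

theorem cU_nonneg (N : ℕ) (G : GammaNine) : 0 ≤ cU N G :=
  Finset.sum_nonneg fun _ _ => Finset.sum_nonneg fun _ _ => Finset.sum_nonneg fun _ _ =>
    Finset.sum_nonneg fun _ _ => Finset.sum_nonneg fun _ _ => abs_nonneg _

theorem zn_Uf_le (G : GammaNine) {v : Cfg N → Cfg N} (hv : ContDiff ℝ 1 v) (x : Cfg N) :
    zn (Uf G v) x ≤ cU N G * ‖fderiv ℝ v x‖ := by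
  unfold zn cU
  simp only [Finset.sum_mul]
  refine Finset.sum_le_sum fun α _ => Finset.sum_le_sum fun k _ => Finset.sum_le_sum fun β _ =>
    Finset.sum_le_sum fun A _ => ?_
  have hvd : DifferentiableAt ℝ v x := hv.differentiable one_ne_zero x
  have hc : ∀ j : Fin 9, HasFDerivAt (fun y => v y (j, A))
      ((EuclideanSpace.proj (j, A) : Cfg N →L[ℝ] ℝ).comp (fderiv ℝ v x)) x := fun j =>
    (EuclideanSpace.proj (j, A) : Cfg N →L[ℝ] ℝ).hasFDerivAt.comp x hvd.hasFDerivAt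
  have hU : HasFDerivAt (Uf G v α β A) (∑ j : Fin 9, (cc j * (Gam G * G.γ j) α β) •
      ((EuclideanSpace.proj (j, A) : Cfg N →L[ℝ] ℝ).comp (fderiv ℝ v x))) x := by
    have h1 : Uf G v α β A = fun y => ∑ j : Fin 9, (cc j * (Gam G * G.γ j) α β) • v y (j, A) := by
      funext y
      unfold Uf
      exact Finset.sum_congr rfl fun j _ => by simp only [smul_eq_mul]; ring
    rw [h1]
    exact HasFDerivAt.fun_sum fun j _ => (hc j).const_smul (cc j * (Gam G * G.γ j) α β)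
  have h2 : dW (Uf G v) α k x β A = ∑ j : Fin 9, (cc j * (Gam G * G.γ j) α β) *
      (fderiv ℝ v x (EuclideanSpace.single k 1)) (j, A) := by
    simp only [dW, hU.fderiv, ContinuousLinearMap.sum_apply]
    rfl
  rw [h2]
  refine (Finset.abs_sum_le_sum_abs _ _).trans (Finset.sum_le_sum fun j _ => ?_)
  rw [abs_mul]
  refine mul_le_mul_of_nonneg_left ?_ (abs_nonneg _)
  have h3 : |(fderiv ℝ v x (EuclideanSpace.single k 1)) (j, A)| ≤
      ‖fderiv ℝ v x (EuclideanSpace.single k 1)‖ := by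
    rw [← Real.norm_eq_abs]
    exact PiLp.norm_apply_le _ _
  refine h3.trans ((ContinuousLinearMap.le_opNorm _ _).trans ?_)
  rw [EuclideanSpace.norm_single, norm_one, mul_one]

/-! ### 6. The difference of the potentials -/

/-- `⟨[x₂,x₃], w₁⟩ + cyclic` (indices `0,1,2`) -/
def tau (b : ColorBasis N) (x w : Cfg N) : ℝ :=
  ∑ A, (w (0, A) * br b (comp x 1) (comp x 2) A + w (1, A) * br b (comp x 2) (comp x 0) A +
    w (2, A) * br b (comp x 0) (comp x 1) A)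

/-- the commutator energy `Σ_{ij} |[x_i,x_j]|²` -/
def cs (b : ColorBasis N) (x : Cfg N) : ℝ :=
  ∑ i : Fin 9, ∑ j : Fin 9, ∑ A, (br b (comp x i) (comp x j) A) ^ 2

theorem cs_nonneg (b : ColorBasis N) (x : Cfg N) : 0 ≤ cs b x :=
  Finset.sum_nonneg fun _ _ => Finset.sum_nonneg fun _ _ => Finset.sum_nonneg fun _ _ =>
    sq_nonneg _

theorem trUV (G : GammaNine) (c d : Fin 9 → ℝ) :
    ((∑ j, c j • (Gam G * G.γ j))ᵀ * (∑ j, d j • (Gam G * G.γ j))).trace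
      = 16 * ∑ j, c j * d j := by
  rw [Matrix.transpose_sum]
  simp only [Matrix.transpose_smul, Finset.sum_mul, Finset.mul_sum, Matrix.trace_sum,
    Matrix.smul_mul, Matrix.mul_smul, Matrix.trace_smul, tr_Gam_Gam, smul_eq_mul]
  unfold VId87.dl
  refine Finset.sum_congr rfl fun i _ => ?_
  rw [Finset.sum_eq_single i]
  · simp only [if_true]; ring
  · intro k _ hk
    simp only [hk, if_false, mul_zero]
  · intro h; exact absurd (Finset.mem_univ _) h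

theorem sum_mul_eq_trace (A B : Matrix (Fin 16) (Fin 16) ℝ) :
    ∑ α, ∑ β, A α β * B α β = (Aᵀ * B).trace := by
  rw [Matrix.trace]
  simp only [Matrix.diag_apply, Matrix.mul_apply, Matrix.transpose_apply]
  rw [Finset.sum_comm]

theorem sum_wpot_Uf (b : ColorBasis N) (G : GammaNine) (g m : ℝ) (v : Cfg N → Cfg N)
    (x : Cfg N) (A : Fin (N ^ 2 - 1)) :
    ∑ α, ∑ β, wpot b G g m α β A x * Uf G v α β A x =
      16 / 3 * g * (v x (0, A) * br b (comp x 1) (comp x 2) A +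
        v x (1, A) * br b (comp x 2) (comp x 0) A + v x (2, A) * br b (comp x 0) (comp x 1) A) -
      16 * m * ∑ j, cc j ^ 2 * (x (j, A) * v x (j, A)) := by
  have h1 : ∀ α β, wpot b G g m α β A x = Wm G g m
      (fun i j => br b (comp x i) (comp x j) A) (fun j => comp x j A) α β := fun α β =>
    VId87.wpot_eq G b g m α β A x
  have h2 : ∀ α β, Uf G v α β A x =
      (∑ j, (cc j * v x (j, A)) • (Gam G * G.γ j)) α β := by
    intro α β
    simp only [Uf, Matrix.sum_apply, Matrix.smul_apply, smul_eq_mul]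
  simp only [h1, h2]
  rw [sum_mul_eq_trace]
  unfold Wm
  rw [Matrix.transpose_sub, Matrix.transpose_smul, Matrix.transpose_smul, Matrix.sub_mul,
    Matrix.trace_sub, Matrix.smul_mul, Matrix.smul_mul, Matrix.trace_smul, Matrix.trace_smul,
    trTU G _ (fun i j => br_swap b _ _ A), trUV]
  rw [VId87.cc_lt (j := 0) (by decide), VId87.cc_lt (j := 1) (by decide),
    VId87.cc_lt (j := 2) (by decide)]
  simp only [smul_eq_mul]
  have h3 : ∑ j, cc j * comp x j A * (cc j * v x (j, A)) =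
      ∑ j, cc j ^ 2 * (x (j, A) * v x (j, A)) := by
    refine Finset.sum_congr rfl fun j _ => ?_
    unfold comp
    ring
  rw [h3]
  ring

theorem sum_Uf_sq (G : GammaNine) (v : Cfg N → Cfg N) (x : Cfg N) (A : Fin (N ^ 2 - 1)) :
    ∑ α, ∑ β, Uf G v α β A x ^ 2 = 16 * ∑ j, cc j ^ 2 * v x (j, A) ^ 2 := by
  have h2 : ∀ α β, Uf G v α β A x =
      (∑ j, (cc j * v x (j, A)) • (Gam G * G.γ j)) α β := by
    intro α β
    simp only [Uf, Matrix.sum_apply, Matrix.smul_apply, smul_eq_mul]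
  simp only [h2, sq]
  rw [sum_mul_eq_trace, trUV]
  congr 1
  exact Finset.sum_congr rfl fun j _ => by ring

theorem Wsq_eq_sum (W : Fin 16 → Fin 16 → Fin (N ^ 2 - 1) → Cfg N → ℝ) (x : Cfg N) :
    Wsq W x = ∑ A, ∑ α, ∑ β, W α β A x ^ 2 := by
  unfold Wsq dp
  rw [Finset.sum_congr rfl fun α _ => Finset.sum_comm, Finset.sum_comm]
  exact Finset.sum_congr rfl fun A _ => Finset.sum_congr rfl fun α _ =>
    Finset.sum_congr rfl fun β _ => by ring

/-- **The exact difference of the potentials.** -/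
theorem Wsq_sub (b : ColorBasis N) (G : GammaNine) (g m s : ℝ) (v : Cfg N → Cfg N) (x : Cfg N) :
    Wsq (wpot b G g m) x - Wsq (wpot b G g m + s • Uf G v) x =
      -(32 / 3) * g * s * tau b x (v x) +
      32 * m * s * (∑ j, cc j ^ 2 * ∑ A, x (j, A) * v x (j, A)) -
      16 * s ^ 2 * (∑ j, cc j ^ 2 * ∑ A, v x (j, A) ^ 2) := by
  have e1 : Wsq (wpot b G g m) x - Wsq (wpot b G g m + s • Uf G v) x =
      ∑ A, (-(2 * s) * (∑ α, ∑ β, wpot b G g m α β A x * Uf G v α β A x) -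
        s ^ 2 * ∑ α, ∑ β, Uf G v α β A x ^ 2) := by
    rw [Wsq_eq_sum, Wsq_eq_sum, ← Finset.sum_sub_distrib]
    refine Finset.sum_congr rfl fun A _ => ?_
    simp only [Finset.mul_sum, ← Finset.sum_sub_distrib]
    refine Finset.sum_congr rfl fun α _ => Finset.sum_congr rfl fun β _ => ?_
    simp only [Pi.add_apply, Pi.smul_apply, smul_eq_mul]
    ring
  rw [e1]
  simp only [sum_wpot_Uf, sum_Uf_sq]
  have e2 : ∑ j, cc j ^ 2 * ∑ A, x (j, A) * v x (j, A) =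
      ∑ A, ∑ j, cc j ^ 2 * (x (j, A) * v x (j, A)) := by
    simp only [Finset.mul_sum]
    rw [Finset.sum_comm]
  have e3 : ∑ j, cc j ^ 2 * ∑ A, v x (j, A) ^ 2 = ∑ A, ∑ j, cc j ^ 2 * v x (j, A) ^ 2 := by
    simp only [Finset.mul_sum]
    rw [Finset.sum_comm]
  rw [e2, e3]
  unfold tau
  simp only [Finset.sum_sub_distrib, ← Finset.mul_sum]
  ring

/-! ### 7. The size of the zero order operator of `Q^{g,m}` -/

theorem hasFDerivAt_quad (c : ℝ) (k l : Fin 9 × Fin (N ^ 2 - 1)) (x : Cfg N) :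
    HasFDerivAt (fun y : Cfg N => c * (y k * y l))
      (c • (x k • (EuclideanSpace.proj l : Cfg N →L[ℝ] ℝ) +
        x l • (EuclideanSpace.proj k : Cfg N →L[ℝ] ℝ))) x := by
  have hk : HasFDerivAt (fun y : Cfg N => y k) (EuclideanSpace.proj k : Cfg N →L[ℝ] ℝ) x :=
    (EuclideanSpace.proj k : Cfg N →L[ℝ] ℝ).hasFDerivAt
  have hl : HasFDerivAt (fun y : Cfg N => y l) (EuclideanSpace.proj l : Cfg N →L[ℝ] ℝ) x :=
    (EuclideanSpace.proj l : Cfg N →L[ℝ] ℝ).hasFDerivAt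
  exact (hk.mul hl).const_mul c

/-- size constant of the commutator part -/
def cW (b : ColorBasis N) (G : GammaNine) : ℝ :=
  ∑ α : Fin 16, ∑ _k : Fin 9 × Fin (N ^ 2 - 1), ∑ β : Fin 16, ∑ A : Fin (N ^ 2 - 1),
    ∑ B : Fin (N ^ 2 - 1), ∑ C : Fin (N ^ 2 - 1), ∑ i : Fin 9, ∑ j : Fin 9,
      2 * |1 / 2 * b.structConst A B C * G.γ2 i j α β|

theorem cW_nonneg (b : ColorBasis N) (G : GammaNine) : 0 ≤ cW b G := by
  unfold cW
  positivity

theorem zn_wco_le (b : ColorBasis N) (G : GammaNine) (x : Cfg N) :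
    zn (wco b G) x ≤ cW b G * ‖x‖ := by
  unfold zn cW
  simp only [Finset.sum_mul]
  refine Finset.sum_le_sum fun α _ => Finset.sum_le_sum fun k _ => Finset.sum_le_sum fun β _ =>
    Finset.sum_le_sum fun A _ => ?_
  have hU : HasFDerivAt (wco b G α β A) (∑ B : Fin (N ^ 2 - 1), ∑ C : Fin (N ^ 2 - 1),
      ∑ i : Fin 9, ∑ j : Fin 9, (1 / 2 * b.structConst A B C * G.γ2 i j α β) •
        (x (i, B) • (EuclideanSpace.proj (j, C) : Cfg N →L[ℝ] ℝ) +
          x (j, C) • (EuclideanSpace.proj (i, B) : Cfg N →L[ℝ] ℝ))) x := by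
    have h1 : wco b G α β A = fun y => ∑ B : Fin (N ^ 2 - 1), ∑ C : Fin (N ^ 2 - 1),
        ∑ i : Fin 9, ∑ j : Fin 9, (1 / 2 * b.structConst A B C * G.γ2 i j α β) *
          (y (i, B) * y (j, C)) := by
      funext y
      unfold wco
      exact Finset.sum_congr rfl fun B _ => Finset.sum_congr rfl fun C _ =>
        Finset.sum_congr rfl fun i _ => Finset.sum_congr rfl fun j _ => by ring
    rw [h1]
    exact HasFDerivAt.fun_sum fun B _ => HasFDerivAt.fun_sum fun C _ =>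
      HasFDerivAt.fun_sum fun i _ => HasFDerivAt.fun_sum fun j _ => hasFDerivAt_quad _ _ _ x
  have h2 : dW (wco b G) α k x β A = ∑ B : Fin (N ^ 2 - 1), ∑ C : Fin (N ^ 2 - 1),
      ∑ i : Fin 9, ∑ j : Fin 9, (1 / 2 * b.structConst A B C * G.γ2 i j α β) *
        (x (i, B) * (EuclideanSpace.single k (1 : ℝ) : Cfg N) (j, C) +
          x (j, C) * (EuclideanSpace.single k (1 : ℝ) : Cfg N) (i, B)) := by
    simp only [dW, hU.fderiv, ContinuousLinearMap.sum_apply]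
    rfl
  have hx : ∀ p : Fin 9 × Fin (N ^ 2 - 1), |x p| ≤ ‖x‖ := fun p => by
    rw [← Real.norm_eq_abs]; exact PiLp.norm_apply_le _ _
  have hs : ∀ p : Fin 9 × Fin (N ^ 2 - 1), |(EuclideanSpace.single k (1 : ℝ) : Cfg N) p| ≤ 1 := by
    intro p
    rw [← Real.norm_eq_abs]
    refine (PiLp.norm_apply_le _ _).trans ?_
    rw [EuclideanSpace.norm_single, norm_one]
  rw [h2]
  refine (Finset.abs_sum_le_sum_abs _ _).trans (Finset.sum_le_sum fun B _ => ?_)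
  refine (Finset.abs_sum_le_sum_abs _ _).trans (Finset.sum_le_sum fun C _ => ?_)
  refine (Finset.abs_sum_le_sum_abs _ _).trans (Finset.sum_le_sum fun i _ => ?_)
  refine (Finset.abs_sum_le_sum_abs _ _).trans (Finset.sum_le_sum fun j _ => ?_)
  generalize 1 / 2 * b.structConst A B C * G.γ2 i j α β = c
  have h3 := mul_le_mul (hx (i, B)) (hs (j, C)) (abs_nonneg _) (norm_nonneg x)
  have h4 := mul_le_mul (hx (j, C)) (hs (i, B)) (abs_nonneg _) (norm_nonneg x)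
  rw [← abs_mul] at h3 h4
  have h5 := abs_add_le (x (i, B) * (EuclideanSpace.single k (1 : ℝ) : Cfg N) (j, C))
    (x (j, C) * (EuclideanSpace.single k (1 : ℝ) : Cfg N) (i, B))
  rw [abs_mul c]
  have h6 : |x (i, B) * (EuclideanSpace.single k (1 : ℝ) : Cfg N) (j, C) +
    x (j, C) * (EuclideanSpace.single k (1 : ℝ) : Cfg N) (i, B)| ≤ 2 * ‖x‖ := by linarith
  have h7 := mul_le_mul_of_nonneg_left h6 (abs_nonneg c)
  linarith

theorem wpot_split (b : ColorBasis N) (G : GammaNine) (g m : ℝ) :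
    wpot b G g m = g • wco b G + (-m) • Uf G id := by
  funext α β A x
  simp only [Pi.add_apply, Pi.smul_apply, smul_eq_mul, wpot, wco, Uf, id_eq]
  ring

theorem contDiff_wpot1 (b : ColorBasis N) (G : GammaNine) (g m : ℝ) (α β : Fin 16)
    (A : Fin (N ^ 2 - 1)) : ContDiff ℝ 1 (wpot b G g m α β A) :=
  ScaleD423.wpot_contDiff b G g m α β A

theorem zn_wpot_le (b : ColorBasis N) (G : GammaNine) (g m : ℝ) (x : Cfg N) :
    zn (wpot b G g m) x ≤ |g| * (cW b G * ‖x‖) + |m| * cU N G := by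
  have hw : ∀ α β A, ContDiff ℝ 1 (wco b G α β A) := fun α β A => wco_contDiff b G α β A
  have hu : ∀ α β A, ContDiff ℝ 1 (Uf (N := N) G id α β A) := fun α β A =>
    contDiff_Uf G contDiff_id α β A
  have hw' : ∀ α β A, ContDiff ℝ 1 ((g • wco b G) α β A) := fun α β A => by
    have h : (g • wco b G) α β A = fun x => g * wco b G α β A x := rfl
    rw [h]; exact contDiff_const.mul (hw α β A)
  have hu' : ∀ α β A, ContDiff ℝ 1 (((-m) • Uf (N := N) G id) α β A) := fun α β A => by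
    have h : ((-m) • Uf (N := N) G id) α β A = fun x => (-m) * Uf (N := N) G id α β A x := rfl
    rw [h]; exact contDiff_const.mul (hu α β A)
  have h0 := zn_add_le hw' hu' x
  rw [zn_smul g hw, zn_smul (-m) hu, abs_neg] at h0
  rw [wpot_split]
  have h1 : ‖fderiv ℝ (id : Cfg N → Cfg N) x‖ ≤ 1 := by
    rw [fderiv_id]; exact ContinuousLinearMap.norm_id_le
  have h2 : zn (Uf (N := N) G id) x ≤ cU N G := by
    refine (zn_Uf_le G contDiff_id x).trans ?_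
    calc cU N G * ‖fderiv ℝ (id : Cfg N → Cfg N) x‖ ≤ cU N G * 1 :=
          mul_le_mul_of_nonneg_left h1 (cU_nonneg N G)
      _ = cU N G := mul_one _
  have h3 := mul_le_mul_of_nonneg_left (zn_wco_le b G x) (abs_nonneg g)
  have h4 := mul_le_mul_of_nonneg_left h2 (abs_nonneg m)
  linarith

/-! ### 8. The potential from below and the commutator bound -/

theorem Wsq_wpot (b : ColorBasis N) (G : GammaNine) (g m : ℝ) (x : Cfg N) :
    Wsq (wpot b G g m) x = 32 * Vsq G b g m x := by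
  have e : ∑ A, ∑ α, ∑ β, wpot b G g m α β A x ^ 2 =
      ∑ α : Fin 16, ∑ β : Fin 16, ∑ A : Fin (N ^ 2 - 1), wpot b G g m α β A x ^ 2 := by
    rw [Finset.sum_comm]
    exact Finset.sum_congr rfl fun α _ => Finset.sum_comm
  rw [Wsq_eq_sum, e]
  unfold Vsq
  generalize (∑ α : Fin 16, ∑ β : Fin 16, ∑ A : Fin (N ^ 2 - 1), wpot b G g m α β A x ^ 2) = t
  ring

theorem cs_eq (b : ColorBasis N) (x : Cfg N) :
    cs b x = 2 * (∑ A, ((br b (comp x 1) (comp x 2) A) ^ 2 + (br b (comp x 2) (comp x 0) A) ^ 2 +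
      (br b (comp x 0) (comp x 1) A) ^ 2)) + 4 * Voth b x := by
  have h1 : cs b x = ∑ A, ∑ i : Fin 9, ∑ j : Fin 9, (br b (comp x i) (comp x j) A) ^ 2 := by
    unfold cs
    rw [Finset.sum_congr rfl fun i _ => Finset.sum_comm, Finset.sum_comm]
  rw [h1]
  have h2 : ∀ A, ∑ i : Fin 9, ∑ j : Fin 9, (br b (comp x i) (comp x j) A) ^ 2 =
      2 * ((br b (comp x 1) (comp x 2) A) ^ 2 + (br b (comp x 2) (comp x 0) A) ^ 2 +
        (br b (comp x 0) (comp x 1) A) ^ 2) + ∑ i : Fin 9, ∑ j : Fin 9,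
        (if (i : ℕ) < 3 ∧ (j : ℕ) < 3 then 0 else (br b (comp x i) (comp x j) A) ^ 2) := fun A =>
    VId87.sum_pairs (fun i j => (br b (comp x i) (comp x j) A) ^ 2)
      (fun i j => by rw [br_swap]; ring)
      (fun i => by
        have := br_swap b (comp x i) (comp x i) A
        have h0 : br b (comp x i) (comp x i) A = 0 := by linarith
        rw [h0]; norm_num)
  simp only [h2, Finset.sum_add_distrib, ← Finset.mul_sum]
  unfold Voth
  ring

theorem Vsq_ge (b : ColorBasis N) (G : GammaNine) (g m : ℝ) (x : Cfg N) :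
    g ^ 2 / 8 * cs b x - m ^ 2 / 18 * ‖x‖ ^ 2 ≤ Vsq G b g m x := by
  rw [Vsq_eq, cs_eq]
  have hV := VId87.Voth_nonneg b x
  have hH : 0 ≤ Vhi x := by
    unfold Vhi; positivity
  have hn := CoerCfg87.norm_sq_eq x
  have h1 : 1 / 2 * (g ^ 2 * ∑ A, ((br b (comp x 1) (comp x 2) A) ^ 2 +
      (br b (comp x 2) (comp x 0) A) ^ 2 + (br b (comp x 0) (comp x 1) A) ^ 2)) -
      m ^ 2 / 9 * ∑ i : Fin 3, ∑ A, (comp x (lo i) A) ^ 2 ≤ Vcyc b g m x := by
    have e1 : ∑ A, ((br b (comp x 1) (comp x 2) A) ^ 2 + (br b (comp x 2) (comp x 0) A) ^ 2 +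
        (br b (comp x 0) (comp x 1) A) ^ 2) =
        ∑ i : Fin 3, ∑ A, (br b (comp x (lo (i + 1))) (comp x (lo (i + 2))) A) ^ 2 := by
      rw [Fin.sum_univ_three]
      simp only [Finset.sum_add_distrib]
      have e0 : lo 0 = (0 : Fin 9) := rfl
      have e1 : lo 1 = (1 : Fin 9) := rfl
      have e2 : lo 2 = (2 : Fin 9) := rfl
      have a1 : (0 : Fin 3) + 1 = 1 := rfl
      have a2 : (0 : Fin 3) + 2 = 2 := rfl
      have a3 : (1 : Fin 3) + 1 = 2 := rfl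
      have a4 : (1 : Fin 3) + 2 = 0 := rfl
      have a5 : (2 : Fin 3) + 1 = 0 := rfl
      have a6 : (2 : Fin 3) + 2 = 1 := rfl
      rw [a1, a2, a3, a4, a5, a6, e0, e1, e2]
    rw [e1]
    unfold Vcyc
    simp only [Finset.mul_sum, ← Finset.sum_sub_distrib]
    refine Finset.sum_le_sum fun i _ => Finset.sum_le_sum fun A _ => ?_
    nlinarith [sq_nonneg (2 * (m * comp x (lo i) A / 3) -
      g * br b (comp x (lo (i + 1))) (comp x (lo (i + 2))) A)]
  have h2 : 0 ≤ m ^ 2 / 18 * Vhi x := by positivity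
  have h3 : 0 ≤ m ^ 2 / 72 * Vhi x := by positivity
  have h4 : 0 ≤ g ^ 2 * Voth b x := by positivity
  rw [hn]
  nlinarith

theorem sixteen_qf {b : ColorBasis N} {M : FermionRep N F} {G : GammaNine} {g m : ℝ}
    (φ : Cfg N → F) :
    ∑ α, ∫ x, ‖chargeW M G (wpot b G g m) α φ x‖ ^ 2 = 16 * qf b M G g m φ := by
  unfold qf
  simp only [ScaleD423.dcharge_eq]
  ring

theorem continuous_cs (b : ColorBasis N) : Continuous (cs b) := by
  unfold cs br comp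
  fun_prop


/-- **The commutator bound** `(g²/8) ∫ cs |φ|² ≤ q_{g,m}(φ) + ...`. -/
theorem cs_bound (b : ColorBasis N) (M : FermionRep N F) (G : GammaNine) (g m : ℝ)
    {φ : Cfg N → F} (hφ : ContDiff ℝ 2 φ) (hc : HasCompactSupport φ) :
    g ^ 2 / 8 * (∫ x, cs b x * ‖φ x‖ ^ 2) ≤ qf b M G g m φ +
      |g| * cW b G / 16 * (∫ x, ‖x‖ * ‖φ x‖ ^ 2) + |m| * cU N G / 16 * (∫ x, ‖φ x‖ ^ 2) +
      m ^ 2 / 18 * (∫ x, ‖x‖ ^ 2 * ‖φ x‖ ^ 2) := by
  have hW : ∀ α β A, ContDiff ℝ 1 (wpot b G g m α β A) := contDiff_wpot1 b G g m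
  have hcont := hφ.continuous
  have h1 := weitz (M := M) hW (trZ_wpot b G g m) hφ hc
  rw [sixteen_qf] at h1
  have hk : 0 ≤ ∑ k : Fin 9 × Fin (N ^ 2 - 1),
      ∫ x, ‖fderiv ℝ φ x (EuclideanSpace.single k 1)‖ ^ 2 :=
    Finset.sum_nonneg fun k _ => integral_nonneg fun x => sq_nonneg _
  have i0 : Integrable fun x => ‖φ x‖ ^ 2 := by
    simpa using integrable_mul_sq (continuous_const (y := (1 : ℝ))) hcont hc
  have i1 : Integrable fun x : Cfg N => ‖x‖ * ‖φ x‖ ^ 2 :=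
    integrable_mul_sq continuous_norm hcont hc
  have i2 : Integrable fun x : Cfg N => ‖x‖ ^ 2 * ‖φ x‖ ^ 2 :=
    integrable_mul_sq (continuous_norm.pow 2) hcont hc
  have ics : Integrable fun x => cs b x * ‖φ x‖ ^ 2 := integrable_mul_sq (continuous_cs b) hcont hc
  have iW : Integrable fun x => Wsq (wpot b G g m) x / 2 * ‖φ x‖ ^ 2 :=
    integrable_mul_sq ((continuous_Wsq hW).div_const 2) hcont hc
  have iZ := integrable_Zop (M := M) (G := G) hW hcont hc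
  have h2 : g ^ 2 / 8 * 16 * (∫ x, cs b x * ‖φ x‖ ^ 2) -
      m ^ 2 / 18 * 16 * (∫ x, ‖x‖ ^ 2 * ‖φ x‖ ^ 2) ≤
      ∫ x, Wsq (wpot b G g m) x / 2 * ‖φ x‖ ^ 2 := by
    rw [← integral_const_mul, ← integral_const_mul, ← integral_sub (ics.const_mul _)
      (i2.const_mul _)]
    refine integral_mono ((ics.const_mul _).sub (i2.const_mul _)) iW fun x => ?_
    simp only
    rw [Wsq_wpot]
    have h3 := mul_le_mul_of_nonneg_right (Vsq_ge b G g m x) (sq_nonneg ‖φ x‖)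
    nlinarith
  have h3 : -(|g| * cW b G * (∫ x, ‖x‖ * ‖φ x‖ ^ 2) + |m| * cU N G * (∫ x, ‖φ x‖ ^ 2)) ≤
      ∫ x, (⟪φ x, Zop M G (wpot b G g m) x (φ x)⟫_ℂ).re := by
    rw [← integral_const_mul, ← integral_const_mul, ← integral_add (i1.const_mul _)
      (i0.const_mul _), ← integral_neg]
    refine integral_mono ((i1.const_mul _).add (i0.const_mul _)).neg iZ fun x => ?_
    have h4 := abs_Zop_le M G (wpot b G g m) x (φ x)
    have h5 := mul_le_mul_of_nonneg_right (zn_wpot_le b G g m x) (sq_nonneg ‖φ x‖)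
    have h6 := neg_abs_le (⟪φ x, Zop M G (wpot b G g m) x (φ x)⟫_ℂ).re
    nlinarith
  linarith

end Crest.Agent.R330.Sq423
end
end

-- ▼ part R330/Tight_423
section

/-!
Row 330 (helper423), leaf S10.1-TIGHT, part 2: tightness at infinity from a good vector field.

* `GoodField b v` : `v` is `C¹` with bounded derivative, `|⟨[x₂,x₃],v₁⟩ + cyc| ≤ K cs(x)`,
  `Σ c_j² ⟨x_j, v_j⟩ ≥ c |x|² - K`, `|v| ≤ K (1 + |x|)`.
* `tight_of_field` : for every `g₀ > 0` there is `C` such that for all `g ≥ g₀` and all `C²`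
  compactly supported `φ` : `∫ |x|² |φ|² ≤ C (q_{g,1}(φ) + ∫ |φ|²)`.
-/

set_option autoImplicit false
set_option linter.unusedSectionVars false
set_option linter.deprecated false

noncomputable section

namespace Crest.Agent.R330.Tight423

open MeasureTheory Filter Topology Crest.MathPhysics.MatrixQM
open Crest.Agent.R330.IBP837 Crest.Agent.R330.Weitz726 Crest.Agent.R330.Sq423
open Crest.Agent.R330.Defs478 (cc Gam wpot dcharge qf)
open Crest.Agent.R330.VId87 (Vsq Vsq_coer)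
open scoped ContDiff InnerProductSpace ENNReal

variable {N : ℕ} {F : Type*} [NormedAddCommGroup F] [InnerProductSpace ℂ F]
  [FiniteDimensional ℂ F]

/-- a good vector field -/
structure GoodField (b : ColorBasis N) (v : Cfg N → Cfg N) : Prop where
  smooth : ContDiff ℝ 1 v
  grad : ∃ K : ℝ, ∀ x, ‖fderiv ℝ v x‖ ≤ K
  comm : ∃ K : ℝ, ∀ x, |tau b x (v x)| ≤ K * cs b x
  low : ∃ c : ℝ, 0 < c ∧ ∃ K : ℝ, ∀ x,
    c * ‖x‖ ^ 2 - K ≤ ∑ j, cc j ^ 2 * ∑ A, x (j, A) * v x (j, A)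
  size : ∃ K : ℝ, ∀ x, ‖v x‖ ≤ K * (1 + ‖x‖)

theorem cc_sq_le (j : Fin 9) : cc j ^ 2 ≤ 1 / 9 := by
  unfold cc
  split_ifs <;> norm_num

theorem sum_cc_le (w : Cfg N) : ∑ j, cc j ^ 2 * ∑ A, w (j, A) ^ 2 ≤ 1 / 9 * ‖w‖ ^ 2 := by
  rw [EuclideanSpace.norm_sq_eq, Fintype.sum_prod_type, Finset.mul_sum]
  refine Finset.sum_le_sum fun j _ => ?_
  have h : ∑ A, w (j, A) ^ 2 = ∑ A, ‖w (j, A)‖ ^ 2 :=
    Finset.sum_congr rfl fun A _ => by rw [Real.norm_eq_abs, sq_abs]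
  rw [h]
  exact mul_le_mul_of_nonneg_right (cc_sq_le j) (Finset.sum_nonneg fun A _ => sq_nonneg _)

theorem integrable_sq {φ : Cfg N → F} (hφ : Continuous φ) (hc : HasCompactSupport φ) :
    Integrable fun x => ‖φ x‖ ^ 2 := by
  simpa using integrable_mul_sq (continuous_const (y := (1 : ℝ))) hφ hc

theorem int3 {f1 f2 f3 : Cfg N → ℝ} (i1 : Integrable f1) (i2 : Integrable f2)
    (i3 : Integrable f3) (a b c : ℝ) :
    ∫ x, (a * f1 x - b * f2 x - c * f3 x) = a * (∫ x, f1 x) - b * (∫ x, f2 x) -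
      c * ∫ x, f3 x := by
  have h1 : Integrable fun x => a * f1 x - b * f2 x := (i1.const_mul a).sub (i2.const_mul b)
  have h3 : Integrable fun x => c * f3 x := i3.const_mul c
  rw [integral_sub h1 h3, integral_sub (i1.const_mul a) (i2.const_mul b), integral_const_mul,
    integral_const_mul, integral_const_mul]

/-- the scalar inequality at a point -/
theorem key_real {s g c K3 K4 K5 X V S1 S2 t C : ℝ} (hs0 : 0 < s) (hg : 0 ≤ g) (hc0 : 0 < c)
    (hsK : s * K5 ^ 2 ≤ c) (hV0 : 0 ≤ V) (p1 : c * X ^ 2 - K4 ≤ S1) (p2 : S2 ≤ 1 / 9 * V ^ 2)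
    (p3 : |t| ≤ K3 * C) (p4 : V ≤ K5 * (1 + X)) (p5 : 0 ≤ C) :
    8 * s * c * X ^ 2 - (16 * s * |K4| + 2 * s ^ 2 * K5 ^ 2) - 6 * s * |K3| * g * C ≤
      (-(32 / 3) * g * s * t + 32 * 1 * s * S1 - 16 * s ^ 2 * S2) / 2 := by
  have q1 : V ^ 2 ≤ 2 * K5 ^ 2 * (1 + X ^ 2) := by
    have q0 : V ^ 2 ≤ (K5 * (1 + X)) ^ 2 := pow_le_pow_left₀ hV0 p4 2
    have q00 : 0 ≤ K5 ^ 2 * (1 - X) ^ 2 := by positivity
    nlinarith
  have q2 : t ≤ |K3| * C :=
    (le_abs_self t).trans (p3.trans (mul_le_mul_of_nonneg_right (le_abs_self K3) p5))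
  have q3 : s ^ 2 * S2 ≤ s ^ 2 * (2 / 9 * K5 ^ 2 * (1 + X ^ 2)) :=
    mul_le_mul_of_nonneg_left (by linarith) (sq_nonneg s)
  have q4 : s ^ 2 * K5 ^ 2 ≤ s * c := by
    have := mul_le_mul_of_nonneg_left hsK hs0.le
    nlinarith
  have q5 : s ^ 2 * K5 ^ 2 * X ^ 2 ≤ s * c * X ^ 2 :=
    mul_le_mul_of_nonneg_right q4 (sq_nonneg _)
  have q6 : s * (c * X ^ 2 - K4) ≤ s * S1 := mul_le_mul_of_nonneg_left p1 hs0.le
  have q7 : s * K4 ≤ s * |K4| := mul_le_mul_of_nonneg_left (le_abs_self _) hs0.le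
  have q8 : (s * g) * t ≤ (s * g) * (|K3| * C) :=
    mul_le_mul_of_nonneg_left q2 (mul_nonneg hs0.le hg)
  have q9 : 0 ≤ s * g * (|K3| * C) :=
    mul_nonneg (mul_nonneg hs0.le hg) (mul_nonneg (abs_nonneg _) p5)
  have q10 : 0 ≤ s ^ 2 * K5 ^ 2 := by positivity
  have q11 : 0 ≤ s * c * X ^ 2 := by positivity
  have r1 : (-(32 / 3) * g * s * t + 32 * 1 * s * S1 - 16 * s ^ 2 * S2) / 2 =
      -(16 / 3) * ((s * g) * t) + 16 * (s * S1) - 8 * (s ^ 2 * S2) := by ring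
  rw [r1]
  have r2 : s ^ 2 * (2 / 9 * K5 ^ 2 * (1 + X ^ 2)) =
    2 / 9 * (s ^ 2 * K5 ^ 2) + 2 / 9 * (s ^ 2 * K5 ^ 2 * X ^ 2) := by ring
  rw [r2] at q3
  have r3 : 6 * s * |K3| * g * C = 6 * (s * g * (|K3| * C)) := by ring
  have r4 : 8 * s * c * X ^ 2 = 8 * (s * c * X ^ 2) := by ring
  have r5 : s * (c * X ^ 2 - K4) = s * c * X ^ 2 - s * K4 := by ring
  rw [r5] at q6
  rw [r3, r4]
  linarith

section

variable {b : ColorBasis N} (M : FermionRep N F) (G : GammaNine) {v : Cfg N → Cfg N}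

theorem contDiff_sU {v : Cfg N → Cfg N} (hs : ContDiff ℝ 1 v) (s : ℝ) (α β : Fin 16)
    (A : Fin (N ^ 2 - 1)) : ContDiff ℝ 1 ((s • Uf G v) α β A) := by
  have h : (s • Uf G v) α β A = fun x => s * Uf G v α β A x := rfl
  rw [h]; exact contDiff_const.mul (contDiff_Uf G hs α β A)

theorem contDiff_W' {v : Cfg N → Cfg N} (hs : ContDiff ℝ 1 v) (b : ColorBasis N) (g s : ℝ)
    (α β : Fin 16) (A : Fin (N ^ 2 - 1)) :
    ContDiff ℝ 1 ((wpot b G g 1 + s • Uf G v) α β A) := by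
  have h : (wpot b G g 1 + s • Uf G v) α β A =
    fun x => wpot b G g 1 α β A x + (s • Uf G v) α β A x := rfl
  rw [h]; exact (contDiff_wpot1 b G g 1 α β A).add (contDiff_sU G hs s α β A)

/-- the potential part -/
theorem pot_part (hs : ContDiff ℝ 1 v) {s g c K3 K4 K5 : ℝ} (hs0 : 0 < s) (hg : 0 ≤ g)
    (hc0 : 0 < c) (hsK : s * K5 ^ 2 ≤ c) (hK3 : ∀ x, |tau b x (v x)| ≤ K3 * cs b x)
    (hK4 : ∀ x, c * ‖x‖ ^ 2 - K4 ≤ ∑ j, cc j ^ 2 * ∑ A, x (j, A) * v x (j, A))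
    (hK5 : ∀ x, ‖v x‖ ≤ K5 * (1 + ‖x‖)) {φ : Cfg N → F} (hcont : Continuous φ)
    (hcs : HasCompactSupport φ) :
    8 * s * c * (∫ x, ‖x‖ ^ 2 * ‖φ x‖ ^ 2) -
      (16 * s * |K4| + 2 * s ^ 2 * K5 ^ 2) * (∫ x, ‖φ x‖ ^ 2) -
      6 * s * |K3| * g * (∫ x, cs b x * ‖φ x‖ ^ 2) ≤
      ∫ x, (Wsq (wpot b G g 1) x - Wsq (wpot b G g 1 + s • Uf G v) x) / 2 * ‖φ x‖ ^ 2 := by
  have i0 := integrable_sq hcont hcs
  have i2 : Integrable fun x : Cfg N => ‖x‖ ^ 2 * ‖φ x‖ ^ 2 :=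
    integrable_mul_sq (continuous_norm.pow 2) hcont hcs
  have ics : Integrable fun x => cs b x * ‖φ x‖ ^ 2 :=
    integrable_mul_sq (continuous_cs b) hcont hcs
  have iD : Integrable fun x => (Wsq (wpot b G g 1) x -
      Wsq (wpot b G g 1 + s • Uf G v) x) / 2 * ‖φ x‖ ^ 2 :=
    integrable_mul_sq (((continuous_Wsq (contDiff_wpot1 b G g 1)).sub
      (continuous_Wsq (contDiff_W' G hs b g s))).div_const 2) hcont hcs
  rw [← int3 i2 i0 ics]
  have i4 : Integrable fun x => 8 * s * c * (‖x‖ ^ 2 * ‖φ x‖ ^ 2) -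
      (16 * s * |K4| + 2 * s ^ 2 * K5 ^ 2) * ‖φ x‖ ^ 2 -
      6 * s * |K3| * g * (cs b x * ‖φ x‖ ^ 2) :=
    ((i2.const_mul _).sub (i0.const_mul _)).sub (ics.const_mul _)
  refine integral_mono i4 iD fun x => ?_
  beta_reduce
  rw [Wsq_sub]
  have key := key_real (s := s) (g := g) (c := c) (K3 := K3) (K4 := K4) (K5 := K5) (X := ‖x‖)
    (V := ‖v x‖) hs0 hg hc0 hsK (norm_nonneg _) (hK4 x) (sum_cc_le (v x)) (hK3 x) (hK5 x)
    (cs_nonneg b x)
  have h := mul_le_mul_of_nonneg_right key (sq_nonneg ‖φ x‖)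
  refine le_trans (le_of_eq ?_) h
  ring

/-- the zero order part -/
theorem zero_part (hs : ContDiff ℝ 1 v) {s g K2 : ℝ} (hs0 : 0 < s)
    (hK2 : ∀ x, ‖fderiv ℝ v x‖ ≤ K2) {φ : Cfg N → F} (hcont : Continuous φ)
    (hcs : HasCompactSupport φ) :
    -(s * cU N G * K2 * ∫ x, ‖φ x‖ ^ 2) ≤
      ∫ x, ((⟪φ x, Zop M G (wpot b G g 1) x (φ x)⟫_ℂ).re -
        (⟪φ x, Zop M G (wpot b G g 1 + s • Uf G v) x (φ x)⟫_ℂ).re) := by
  have i0 := integrable_sq hcont hcs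
  have iZ : Integrable fun x => ((⟪φ x, Zop M G (wpot b G g 1) x (φ x)⟫_ℂ).re -
      (⟪φ x, Zop M G (wpot b G g 1 + s • Uf G v) x (φ x)⟫_ℂ).re) :=
    (integrable_Zop (M := M) (G := G) (contDiff_wpot1 b G g 1) hcont hcs).sub
      (integrable_Zop (M := M) (G := G) (contDiff_W' G hs b g s) hcont hcs)
  have hU := cU_nonneg N G
  rw [← integral_const_mul, ← integral_neg]
  refine integral_mono (i0.const_mul _).neg iZ fun x => ?_
  have p1 : (⟪φ x, Zop M G (wpot b G g 1 + s • Uf G v) x (φ x)⟫_ℂ).re =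
      (⟪φ x, Zop M G (wpot b G g 1) x (φ x)⟫_ℂ).re +
        (⟪φ x, Zop M G (s • Uf G v) x (φ x)⟫_ℂ).re := by
    rw [Zop_add M G (contDiff_wpot1 b G g 1) (contDiff_sU G hs s), inner_add_right,
      Complex.add_re]
  have p2 := abs_Zop_le M G (s • Uf G v) x (φ x)
  rw [zn_smul s (contDiff_Uf G hs), abs_of_pos hs0] at p2
  have p3 := zn_Uf_le G hs x
  have p4 : cU N G * ‖fderiv ℝ v x‖ ≤ cU N G * K2 := mul_le_mul_of_nonneg_left (hK2 x) hU
  have p5 := mul_le_mul_of_nonneg_left (p3.trans p4) hs0.le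
  have p6 := mul_le_mul_of_nonneg_right p5 (sq_nonneg ‖φ x‖)
  have p7 := le_abs_self (⟪φ x, Zop M G (s • Uf G v) x (φ x)⟫_ℂ).re
  beta_reduce
  rw [p1]
  have p8 : s * (cU N G * K2) * ‖φ x‖ ^ 2 = s * cU N G * K2 * ‖φ x‖ ^ 2 := by ring
  rw [p8] at p6
  linarith

/-- **The inequality produced by a good field.** -/
theorem main_ineq (hv : GoodField b v) :
    ∃ a : ℝ, 0 < a ∧ ∃ K : ℝ, 0 ≤ K ∧ ∀ g : ℝ, 0 ≤ g → ∀ φ : Cfg N → F, ContDiff ℝ 2 φ →
      HasCompactSupport φ →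
      a * (∫ x, ‖x‖ ^ 2 * ‖φ x‖ ^ 2) ≤ 16 * qf b M G g 1 φ +
        K * (g * ∫ x, cs b x * ‖φ x‖ ^ 2) + K * ∫ x, ‖φ x‖ ^ 2 := by
  obtain ⟨hs, ⟨K2, hK2⟩, ⟨K3, hK3⟩, ⟨c, hc0, K4, hK4⟩, ⟨K5, hK5⟩⟩ := hv
  have hK2' : 0 ≤ K2 := (norm_nonneg _).trans (hK2 0)
  have hU := cU_nonneg N G
  obtain ⟨s, hs0, hsK⟩ : ∃ s : ℝ, 0 < s ∧ s * K5 ^ 2 ≤ c := by
    refine ⟨c / (K5 ^ 2 + 1), by positivity, ?_⟩
    have h1 : c / (K5 ^ 2 + 1) * (K5 ^ 2 + 1) = c := by field_simp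
    have h2 : 0 < c / (K5 ^ 2 + 1) := by positivity
    nlinarith
  refine ⟨8 * s * c, by positivity,
    16 * s * |K4| + 2 * s ^ 2 * K5 ^ 2 + s * cU N G * K2 + 6 * s * |K3|, by positivity,
    fun g hg φ hφ hcs => ?_⟩
  have hcont := hφ.continuous
  have h1 := compare (M := M) (contDiff_wpot1 b G g 1) (trZ_wpot b G g 1)
    (contDiff_W' G hs b g s) (trZ_add (trZ_wpot b G g 1) (trZ_smul s (trZ_Uf G v))) hφ hcs
  rw [sixteen_qf] at h1
  have h2 := pot_part G hs hs0 hg hc0 hsK hK3 hK4 hK5 hcont hcs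
  have h3 := zero_part (b := b) M G (g := g) hs hs0 hK2 hcont hcs
  have hI0 : 0 ≤ ∫ x, ‖φ x‖ ^ 2 := integral_nonneg fun x => sq_nonneg _
  have hIc : 0 ≤ ∫ x, cs b x * ‖φ x‖ ^ 2 :=
    integral_nonneg fun x => mul_nonneg (cs_nonneg b x) (sq_nonneg _)
  generalize (∫ x, ‖φ x‖ ^ 2) = I0 at *
  generalize (∫ x, cs b x * ‖φ x‖ ^ 2) = Ic at *
  generalize (∫ x, ‖x‖ ^ 2 * ‖φ x‖ ^ 2) = I2 at *
  have hr1 : 0 ≤ (16 * s * |K4| + 2 * s ^ 2 * K5 ^ 2 + s * cU N G * K2) * (g * Ic) :=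
    mul_nonneg (by positivity) (mul_nonneg hg hIc)
  have hr2 : 0 ≤ 6 * s * |K3| * I0 := mul_nonneg (by positivity) hI0
  linarith

theorem I1_le {φ : Cfg N → F} (hcont : Continuous φ) (hcs : HasCompactSupport φ) {B a : ℝ}
    (ha : 0 < a) :
    B * (∫ x, ‖x‖ * ‖φ x‖ ^ 2) ≤ a * (∫ x, ‖x‖ ^ 2 * ‖φ x‖ ^ 2) +
      B ^ 2 / (4 * a) * ∫ x, ‖φ x‖ ^ 2 := by
  have i0 := integrable_sq hcont hcs
  have i1 : Integrable fun x : Cfg N => ‖x‖ * ‖φ x‖ ^ 2 :=
    integrable_mul_sq continuous_norm hcont hcs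
  have i2 : Integrable fun x : Cfg N => ‖x‖ ^ 2 * ‖φ x‖ ^ 2 :=
    integrable_mul_sq (continuous_norm.pow 2) hcont hcs
  rw [← integral_const_mul, ← integral_const_mul, ← integral_const_mul,
    ← integral_add (i2.const_mul _) (i0.const_mul _)]
  refine integral_mono (i1.const_mul _) ((i2.const_mul _).add (i0.const_mul _)) fun x => ?_
  beta_reduce
  have h1 : B * ‖x‖ ≤ a * ‖x‖ ^ 2 + B ^ 2 / (4 * a) := by
    have h2 : a * ‖x‖ ^ 2 + B ^ 2 / (4 * a) - B * ‖x‖ = (2 * a * ‖x‖ - B) ^ 2 / (4 * a) := by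
      field_simp
      ring
    have h3 : 0 ≤ (2 * a * ‖x‖ - B) ^ 2 / (4 * a) := by positivity
    linarith
  have h4 := mul_le_mul_of_nonneg_right h1 (sq_nonneg ‖φ x‖)
  linarith

/-- large couplings -/
theorem tight_large (hv : GoodField b v) :
    ∃ g₁ : ℝ, 1 ≤ g₁ ∧ ∃ C : ℝ, 0 ≤ C ∧ ∀ g : ℝ, g₁ ≤ g → ∀ φ : Cfg N → F, ContDiff ℝ 2 φ →
      HasCompactSupport φ →
      (∫ x, ‖x‖ ^ 2 * ‖φ x‖ ^ 2) ≤ C * (qf b M G g 1 φ + ∫ x, ‖φ x‖ ^ 2) := by
  obtain ⟨a, ha, K, hK, hmain⟩ := main_ineq M G hv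
  have hcW := cW_nonneg b G
  have hcU := cU_nonneg N G
  refine ⟨max 1 (16 * K / (9 * a)), le_max_left _ _,
    2 / a * (16 + 8 * K + K * cU N G / 2 + (K * cW b G / 2) ^ 2 / a + K), by positivity,
    fun g hg φ hφ hcs => ?_⟩
  have hg1 : 1 ≤ g := (le_max_left _ _).trans hg
  have hg0 : 0 < g := by linarith
  have hg2 : 16 * K / (9 * a) ≤ g := (le_max_right _ _).trans hg
  have hcont := hφ.continuous
  have h1 := hmain g hg0.le φ hφ hcs
  have h2 := cs_bound b M G g 1 hφ hcs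
  rw [abs_of_pos hg0, abs_one] at h2
  have h3 := I1_le hcont hcs (B := K * cW b G / 2) (a := a / 4) (by positivity)
  have hq : 0 ≤ qf b M G g 1 φ := by
    unfold qf
    exact mul_nonneg (by norm_num) (Finset.sum_nonneg fun α _ => integral_nonneg fun x =>
      sq_nonneg _)
  have hI0 : 0 ≤ ∫ x, ‖φ x‖ ^ 2 := integral_nonneg fun x => sq_nonneg _
  have hI2 : 0 ≤ ∫ x, ‖x‖ ^ 2 * ‖φ x‖ ^ 2 :=
    integral_nonneg fun x => mul_nonneg (sq_nonneg _) (sq_nonneg _)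
  generalize (∫ x, ‖φ x‖ ^ 2) = I0 at *
  generalize (∫ x, cs b x * ‖φ x‖ ^ 2) = Ic at *
  generalize (∫ x, ‖x‖ ^ 2 * ‖φ x‖ ^ 2) = I2 at *
  generalize (∫ x, ‖x‖ * ‖φ x‖ ^ 2) = I1 at *
  generalize qf b M G g 1 φ = q at *
  generalize cW b G = w at *
  generalize cU N G = u at *
  -- K g Ic
  have e1 : K * (g * Ic) = 8 * K / g * (g ^ 2 / 8 * Ic) := by field_simp
  have e2 : 8 * K / g * (g ^ 2 / 8 * Ic) ≤ 8 * K / g * (q + g * w / 16 * I1 + 1 * u / 16 * I0 +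
      1 ^ 2 / 18 * I2) := mul_le_mul_of_nonneg_left h2 (by positivity)
  have e3 : 8 * K / g * (q + g * w / 16 * I1 + 1 * u / 16 * I0 + 1 ^ 2 / 18 * I2) =
      8 * K / g * q + K * w / 2 * I1 + K * u / (2 * g) * I0 + 4 * K / (9 * g) * I2 := by
    field_simp
    ring
  have f1 : 8 * K / g ≤ 8 * K := div_le_self (by positivity) hg1
  have f2 : K * u / (2 * g) ≤ K * u / 2 := by
    refine div_le_div_of_nonneg_left (by positivity) (by norm_num) (by linarith)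
  have f3 : 4 * K / (9 * g) ≤ a / 4 := by
    rw [div_le_iff₀ (by positivity)] at hg2 ⊢
    linarith
  have g1 := mul_le_mul_of_nonneg_right f1 hq
  have g2 := mul_le_mul_of_nonneg_right f2 hI0
  have g3 := mul_le_mul_of_nonneg_right f3 hI2
  have e4 : (K * w / 2) ^ 2 / (4 * (a / 4)) = (K * w / 2) ^ 2 / a := by congr 1; ring
  rw [e4] at h3
  have h4 : a / 2 * I2 ≤ (16 + 8 * K) * q + (K * u / 2 + (K * w / 2) ^ 2 / a + K) * I0 := by
    rw [e1] at h1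
    rw [e3] at e2
    linarith
  have h5 : I2 = 2 / a * (a / 2 * I2) := by field_simp
  rw [h5, mul_assoc (2 / a)]
  refine mul_le_mul_of_nonneg_left ?_ (by positivity)
  refine h4.trans ?_
  have k1 : 0 ≤ (K * u / 2 + (K * w / 2) ^ 2 / a + K) * q := by positivity
  have k2 : 0 ≤ (16 + 8 * K) * I0 := by positivity
  linarith

/-- couplings in a compact interval -/
theorem tight_small (hN : 0 < N) (b : ColorBasis N) {g₀ g₁ : ℝ} (h0 : 0 < g₀) :
    ∃ C : ℝ, 0 ≤ C ∧ ∀ g : ℝ, g₀ ≤ g → g ≤ g₁ → ∀ φ : Cfg N → F, ContDiff ℝ 2 φ →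
      HasCompactSupport φ →
      (∫ x, ‖x‖ ^ 2 * ‖φ x‖ ^ 2) ≤ C * (qf b M G g 1 φ + ∫ x, ‖φ x‖ ^ 2) := by
  have hcW := cW_nonneg b G
  have hcU := cU_nonneg N G
  have hNr : (0 : ℝ) < N := by exact_mod_cast hN
  set c : ℝ := 16 / (432 * (N : ℝ) ^ 3) with hc
  have hc0 : 0 < c := by positivity
  set D : ℝ := 16 * (1152 * (N : ℝ) ^ 10 / g₀ ^ 2) with hD
  have hD0 : 0 ≤ D := by positivity
  refine ⟨2 / c * (16 + D + cU N G + (|g₁| * cW b G) ^ 2 / (2 * c)), by positivity,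
    fun g hg hg1 φ hφ hcs => ?_⟩
  have hg0 : 0 < g := h0.trans_le hg
  have hcont := hφ.continuous
  have hW : ∀ α β A, ContDiff ℝ 1 (wpot b G g 1 α β A) := contDiff_wpot1 b G g 1
  have h1 := weitz (M := M) hW (trZ_wpot b G g 1) hφ hcs
  rw [sixteen_qf] at h1
  have hk : 0 ≤ ∑ k : Fin 9 × Fin (N ^ 2 - 1),
      ∫ x, ‖fderiv ℝ φ x (EuclideanSpace.single k 1)‖ ^ 2 :=
    Finset.sum_nonneg fun k _ => integral_nonneg fun x => sq_nonneg _
  have i0 := integrable_sq hcont hcs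
  have i1 : Integrable fun x : Cfg N => ‖x‖ * ‖φ x‖ ^ 2 :=
    integrable_mul_sq continuous_norm hcont hcs
  have i2 : Integrable fun x : Cfg N => ‖x‖ ^ 2 * ‖φ x‖ ^ 2 :=
    integrable_mul_sq (continuous_norm.pow 2) hcont hcs
  have iW : Integrable fun x => Wsq (wpot b G g 1) x / 2 * ‖φ x‖ ^ 2 :=
    integrable_mul_sq ((continuous_Wsq hW).div_const 2) hcont hcs
  have iZ := integrable_Zop (M := M) (G := G) hW hcont hcs
  have h2 : c * (∫ x, ‖x‖ ^ 2 * ‖φ x‖ ^ 2) - D * (∫ x, ‖φ x‖ ^ 2) ≤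
      ∫ x, Wsq (wpot b G g 1) x / 2 * ‖φ x‖ ^ 2 := by
    rw [← integral_const_mul, ← integral_const_mul, ← integral_sub (i2.const_mul _)
      (i0.const_mul _)]
    refine integral_mono ((i2.const_mul _).sub (i0.const_mul _)) iW fun x => ?_
    beta_reduce
    rw [Wsq_wpot]
    have h3 := Vsq_coer G hN b hg0 x
    have h4 : 1152 * (N : ℝ) ^ 10 / g ^ 2 ≤ 1152 * (N : ℝ) ^ 10 / g₀ ^ 2 :=
      div_le_div_of_nonneg_left (by positivity) (by positivity) (pow_le_pow_left₀ h0.le hg 2)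
    have h5 : c * ‖x‖ ^ 2 - D ≤ 16 * Vsq G b g 1 x := by
      have e : c * ‖x‖ ^ 2 = 16 * (‖x‖ ^ 2 / (432 * (N : ℝ) ^ 3)) := by rw [hc]; ring
      rw [e, hD]
      linarith
    have h6 := mul_le_mul_of_nonneg_right h5 (sq_nonneg ‖φ x‖)
    linarith
  have h3 : -(|g₁| * cW b G * (∫ x, ‖x‖ * ‖φ x‖ ^ 2) + cU N G * (∫ x, ‖φ x‖ ^ 2)) ≤
      ∫ x, (⟪φ x, Zop M G (wpot b G g 1) x (φ x)⟫_ℂ).re := by
    rw [← integral_const_mul, ← integral_const_mul, ← integral_add (i1.const_mul _)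
      (i0.const_mul _), ← integral_neg]
    refine integral_mono ((i1.const_mul _).add (i0.const_mul _)).neg iZ fun x => ?_
    have h4 := abs_Zop_le M G (wpot b G g 1) x (φ x)
    have h5 := zn_wpot_le b G g 1 x
    rw [abs_of_pos hg0, abs_one, one_mul] at h5
    have h6 : g * (cW b G * ‖x‖) ≤ |g₁| * (cW b G * ‖x‖) :=
      mul_le_mul_of_nonneg_right (hg1.trans (le_abs_self _)) (by positivity)
    have h7 := mul_le_mul_of_nonneg_right (h5.trans (add_le_add_left h6 _)) (sq_nonneg ‖φ x‖)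
    have h8 := neg_abs_le (⟪φ x, Zop M G (wpot b G g 1) x (φ x)⟫_ℂ).re
    beta_reduce
    nlinarith
  have h4 := I1_le hcont hcs (B := |g₁| * cW b G) (a := c / 2) (by positivity)
  have hq : 0 ≤ qf b M G g 1 φ := by
    unfold qf
    exact mul_nonneg (by norm_num) (Finset.sum_nonneg fun α _ => integral_nonneg fun x =>
      sq_nonneg _)
  have hI0 : 0 ≤ ∫ x, ‖φ x‖ ^ 2 := integral_nonneg fun x => sq_nonneg _
  have e4 : (|g₁| * cW b G) ^ 2 / (4 * (c / 2)) = (|g₁| * cW b G) ^ 2 / (2 * c) := by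
    congr 1; ring
  rw [e4] at h4
  clear_value c D
  generalize (∫ x, ‖φ x‖ ^ 2) = I0 at *
  generalize (∫ x, ‖x‖ ^ 2 * ‖φ x‖ ^ 2) = I2 at *
  generalize (∫ x, ‖x‖ * ‖φ x‖ ^ 2) = I1 at *
  generalize qf b M G g 1 φ = q at *
  generalize (∑ k : Fin 9 × Fin (N ^ 2 - 1),
      ∫ x, ‖fderiv ℝ φ x (EuclideanSpace.single k 1)‖ ^ 2) = k0 at *
  have h5 : c / 2 * I2 ≤ 16 * q + (D + cU N G + (|g₁| * cW b G) ^ 2 / (2 * c)) * I0 := by
    linarith
  have h6 : I2 = 2 / c * (c / 2 * I2) := by field_simp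
  rw [h6, mul_assoc (2 / c)]
  refine mul_le_mul_of_nonneg_left ?_ (by positivity)
  refine h5.trans ?_
  have k1 : 0 ≤ (D + cU N G + (|g₁| * cW b G) ^ 2 / (2 * c)) * q := by positivity
  have k2 : 0 ≤ 16 * I0 := by positivity
  linarith

/-- **Tightness from a good field**, all couplings `g ≥ g₀`. -/
theorem tight_of_field (hN : 0 < N) (hv : GoodField b v) {g₀ : ℝ} (h0 : 0 < g₀) :
    ∃ C : ℝ, 0 ≤ C ∧ ∀ g : ℝ, g₀ ≤ g → ∀ φ : Cfg N → F, ContDiff ℝ 2 φ →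
      HasCompactSupport φ →
      (∫ x, ‖x‖ ^ 2 * ‖φ x‖ ^ 2) ≤ C * (qf b M G g 1 φ + ∫ x, ‖φ x‖ ^ 2) := by
  obtain ⟨g₁, _, C₁, hC₁, h1⟩ := tight_large M G hv
  obtain ⟨C₂, hC₂, h2⟩ := tight_small M G hN b (g₁ := g₁) h0
  refine ⟨C₁ + C₂, add_nonneg hC₁ hC₂, fun g hg φ hφ hcs => ?_⟩
  have hq : 0 ≤ qf b M G g 1 φ + ∫ x, ‖φ x‖ ^ 2 := by
    unfold qf
    exact add_nonneg (mul_nonneg (by norm_num) (Finset.sum_nonneg fun α _ =>
      integral_nonneg fun x => sq_nonneg _)) (integral_nonneg fun x => sq_nonneg _)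
  rcases le_total g₁ g with h | h
  · refine (h1 g h φ hφ hcs).trans (mul_le_mul_of_nonneg_right ?_ hq)
    linarith
  · refine (h2 g hg h φ hφ hcs).trans (mul_le_mul_of_nonneg_right ?_ hq)
    linarith


end

end Crest.Agent.R330.Tight423
end
end

-- ▼ part R330/TightA_399

/-!
# Row 330, leaf S10-TIGHT, part A (helper399)

* `dcharge_eq_dop`, `qf_ims` : integrated IMS identity for all charges `Q^{g,m}` and any finite
  family of smooth functions with `Σ J² = 1` near the support.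
* `qf_scale'` : scaling of `q_{g,m}` with mass.
* `TA b M R G Λ` : `c L⁴ ∫|φ|² ≤ q_{g,L²}(φ)` for core vectors supported in `1 ≤ |x| ≤ Λ`,
  all `L ≥ L₀`, all `g ≥ L³`.
* `tight_of_TA` : (10.1) from `TA`.
-/

set_option autoImplicit false
set_option linter.unusedSectionVars false

open MeasureTheory Filter Topology Crest.MathPhysics.MatrixQM
open scoped ContDiff InnerProductSpace ENNReal

noncomputable section

namespace Crest.Agent.R330.TightA399

open Crest.Agent.R330.Defs478 Crest.Agent.R330.Ims714 Crest.Agent.R330.HIAnn245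

variable {N : ℕ} {F : Type*} [NormedAddCommGroup F] [InnerProductSpace ℂ F]
  [FiniteDimensional ℂ F]








/-! ### scaling with mass -/




/-- (10.1): tightness at infinity, uniformly in the coupling `g ≥ 1`. -/
def Tight (b : ColorBasis N) (M : FermionRep N F) (R : GaugeAction b M) (G : GammaNine) : Prop :=
  ∃ L₀ c : ℝ, 0 < L₀ ∧ 0 < c ∧ ∀ g : ℝ, 1 ≤ g → ∀ φ : Cfg N → F, IsCoreVec b R φ →
    (∀ x, ‖x‖ < L₀ → φ x = 0) → c * ∫ x, ‖x‖ ^ 2 * ‖φ x‖ ^ 2 ≤ qf b M G g 1 φ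



end Crest.Agent.R330.TightA399

end
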