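import Crest.Agent.R330.CoerCfg_87
import Crest.Agent.R330.Defs_478

/-!
# Row 330, tightness at infinity: the global polynomial field (helper291)

For a Hermitian matrix `X` with eigenvalues `d_p` let `FF X` have eigenvalues
`ff d p = ∫_0^{d_p} ∏_r (t - d_r)² dt` : a polynomial equivariant map, homogeneous of degree `2N+1`,
with

* `|ff d p - ff d q| ≤ (2ρ)^(2N-1) (d_p - d_q)²`, hence
  `|Tr([Y,Z] FF X)| ≤ ½ (2ρ)^(2N-1) (‖[X,Y]‖² + ‖[X,Z]‖²)` for all `Y, Z`;
* `Tr(X FF X) > 0` for `X ≠ 0` traceless.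

`exists_field` : the field `v(x)_j = FF(x_j) / (1 + |x|²)^N` on `Cfg N`.
-/

set_option autoImplicit false
set_option linter.unusedSectionVars false

open MeasureTheory Filter Topology Set
open scoped ContDiff

noncomputable section

namespace Crest.Agent.R330.TightF291

open Polynomial

/-! ### Scalars -/

section scalar

variable {n : ℕ} (d : Fin n → ℝ)

/-- `∏_r (T - d_r)`. -/
def Rp : ℝ[X] := ∏ r, (X - C (d r))

/-- `∫_0^{d_p} ∏_r (t - d_r)² dt`, as a polynomial expression. -/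
def ff (p : Fin n) : ℝ :=
  ∑ k ∈ Finset.range (2 * n + 1), ((Rp d ^ 2).coeff k / (k + 1)) * (d p) ^ (k + 1)

theorem eval_Rp (t : ℝ) : (Rp d).eval t = ∏ r, (t - d r) := by
  simp [Rp, Polynomial.eval_prod]

theorem natDegree_Rp_sq : (Rp d ^ 2).natDegree < 2 * n + 1 := by
  have h1 : (Rp d).natDegree ≤ n := by
    unfold Rp
    refine (Polynomial.natDegree_prod_le _ _).trans ?_
    simp
  have h2 := Polynomial.natDegree_pow_le (p := Rp d) (n := 2)
  omega

theorem eval_sq (t : ℝ) : (∏ r, (t - d r)) ^ 2 =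
    ∑ k ∈ Finset.range (2 * n + 1), (Rp d ^ 2).coeff k * t ^ k := by
  rw [← eval_Rp, ← Polynomial.eval_pow]
  exact Polynomial.eval_eq_sum_range' (natDegree_Rp_sq d) t

theorem continuous_prod : Continuous fun t : ℝ => (∏ r, (t - d r)) ^ 2 := by fun_prop

theorem ff_eq (p : Fin n) : ff d p = ∫ t in (0 : ℝ)..(d p), (∏ r, (t - d r)) ^ 2 := by
  simp only [eval_sq]
  rw [intervalIntegral.integral_finsetSum]
  · unfold ff
    refine Finset.sum_congr rfl fun k _ => ?_
    rw [intervalIntegral.integral_const_mul, integral_pow]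
    simp
    ring
  · intro k _
    exact (Continuous.intervalIntegrable (by fun_prop) _ _)

theorem ff_sub (p q : Fin n) :
    ff d p - ff d q = ∫ t in (d q)..(d p), (∏ r, (t - d r)) ^ 2 := by
  rw [ff_eq, ff_eq]
  have h : ∀ a b : ℝ, IntervalIntegrable (fun t => (∏ r, (t - d r)) ^ 2) volume a b := fun a b =>
    (continuous_prod d).intervalIntegrable _ _
  rw [intervalIntegral.integral_interval_sub_left (h _ _) (h _ _)]

theorem mono (p q : Fin n) : 0 ≤ (d p - d q) * (ff d p - ff d q) := by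
  rw [ff_sub]
  rcases le_total (d q) (d p) with h | h
  · exact mul_nonneg (sub_nonneg.2 h)
      (intervalIntegral.integral_nonneg h fun t _ => sq_nonneg _)
  · rw [intervalIntegral.integral_symm]
    have h1 : 0 ≤ ∫ t in (d p)..(d q), (∏ r, (t - d r)) ^ 2 :=
      intervalIntegral.integral_nonneg h fun t _ => sq_nonneg _
    nlinarith [sub_nonneg.2 h]

theorem mono_strict {p q : Fin n} (h : d q < d p) : 0 < ff d p - ff d q := by
  rw [ff_sub]
  refine intervalIntegral.integral_pos h (continuous_prod d).continuousOn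
    (fun t _ => sq_nonneg _) ?_
  obtain ⟨t, ht, hne⟩ : ∃ t ∈ Ioo (d q) (d p), t ∉ Set.range d := by
    by_contra hcon
    push Not at hcon
    exact (Set.Ioo_infinite h) ((Set.finite_range d).subset hcon)
  refine ⟨t, Ioo_subset_Icc_self ht, ?_⟩
  have : ∏ r, (t - d r) ≠ 0 := by
    rw [Finset.prod_ne_zero_iff]
    intro r _ h0
    exact hne ⟨r, (sub_eq_zero.1 h0).symm⟩
  positivity

theorem bound {ρ : ℝ} (hρ : ∀ r, |d r| ≤ ρ) (p q : Fin n) :
    |ff d p - ff d q| ≤ (2 * ρ) ^ (2 * n - 1) * (d p - d q) ^ 2 := by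
  have hn : 0 < n := Fin.pos p
  have hρ0 : 0 ≤ ρ := (abs_nonneg _).trans (hρ p)
  rw [ff_sub]
  have h1 : ∀ t ∈ Set.uIoc (d q) (d p), ‖(∏ r, (t - d r)) ^ 2‖ ≤
      (2 * ρ) ^ (2 * n - 1) * |d p - d q| := by
    intro t ht
    have ht' : t ∈ Set.uIcc (d q) (d p) := Set.uIoc_subset_uIcc ht
    have hq : |t - d q| ≤ |d p - d q| := by
      exact Set.abs_sub_left_of_mem_uIcc ht'
    have htρ : |t| ≤ ρ := by
      rw [Set.mem_uIcc] at ht'
      have h3 := abs_le.1 (hρ p)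
      have h4 := abs_le.1 (hρ q)
      rw [abs_le]
      rcases ht' with h | h <;> constructor <;> linarith [h.1, h.2]
    have hr : ∀ r, |t - d r| ≤ 2 * ρ := fun r => by
      have h3 := abs_le.1 (hρ r)
      have h4 := abs_le.1 htρ
      rw [abs_le]
      constructor <;> linarith
    rw [norm_pow, Real.norm_eq_abs, Finset.abs_prod, sq]
    have h5 : ∏ r, |t - d r| ≤ (2 * ρ) ^ (n - 1) * |d p - d q| := by
      rw [← Finset.mul_prod_erase _ _ (Finset.mem_univ q), mul_comm]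
      refine mul_le_mul ?_ hq (abs_nonneg _) (by positivity)
      refine (Finset.prod_le_prod (fun _ _ => abs_nonneg _) fun r _ => hr r).trans ?_
      rw [Finset.prod_const, Finset.card_erase_of_mem (Finset.mem_univ q), Finset.card_univ,
        Fintype.card_fin]
    have h6 : ∏ r, |t - d r| ≤ (2 * ρ) ^ n := by
      refine (Finset.prod_le_prod (fun _ _ => abs_nonneg _) fun r _ => hr r).trans ?_
      rw [Finset.prod_const, Finset.card_univ, Fintype.card_fin]
    have h7 : 0 ≤ ∏ r, |t - d r| := Finset.prod_nonneg fun _ _ => abs_nonneg _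
    calc (∏ r, |t - d r|) * ∏ r, |t - d r|
        ≤ (2 * ρ) ^ n * ((2 * ρ) ^ (n - 1) * |d p - d q|) :=
          mul_le_mul h6 h5 h7 (by positivity)
      _ = (2 * ρ) ^ (2 * n - 1) * |d p - d q| := by
          rw [← mul_assoc, ← pow_add]
          congr 2
          omega
  have h2 := intervalIntegral.norm_integral_le_of_norm_le_const h1
  rw [Real.norm_eq_abs] at h2
  refine h2.trans (le_of_eq ?_)
  rw [mul_assoc, ← sq, sq_abs]

theorem ff_smul (t : ℝ) (p : Fin n) : ff (fun r => t * d r) p = t ^ (2 * n + 1) * ff d p := by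
  rw [ff_eq, ff_eq]
  have h := intervalIntegral.smul_integral_comp_mul_left (a := (0 : ℝ)) (b := d p)
    (fun s : ℝ => (∏ r, (s - t * d r)) ^ 2) t
  rw [mul_zero] at h
  rw [← h, smul_eq_mul]
  have h2 : ∀ s : ℝ, (∏ r, (t * s - t * d r)) ^ 2 = t ^ (2 * n) * (∏ r, (s - d r)) ^ 2 := by
    intro s
    simp only [← mul_sub, Finset.prod_mul_distrib, Finset.prod_const, Finset.card_univ,
      Fintype.card_fin]
    rw [mul_pow, ← pow_mul, mul_comm n 2]
  simp only [h2]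
  rw [intervalIntegral.integral_const_mul]
  ring

/-- `n Σ d_p ff_p = ½ Σ_{pq} (d_p - d_q)(ff_p - ff_q)` for `Σ d_p = 0`. -/
theorem sum_eq (h0 : ∑ p, d p = 0) :
    (n : ℝ) * ∑ p, d p * ff d p = 1 / 2 * ∑ p, ∑ q, (d p - d q) * (ff d p - ff d q) := by
  have h1 : ∀ p q, (d p - d q) * (ff d p - ff d q) =
      d p * ff d p - d p * ff d q - d q * ff d p + d q * ff d q := fun p q => by ring
  have e1 : ∑ p : Fin n, ∑ _q : Fin n, d p * ff d p = (n : ℝ) * ∑ p, d p * ff d p := by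
    rw [Finset.mul_sum]
    exact Finset.sum_congr rfl fun p _ => by simp
  have e2 : ∑ p : Fin n, ∑ q : Fin n, d p * ff d q = 0 := by
    rw [← Finset.sum_mul_sum, h0, zero_mul]
  have e3 : ∑ p : Fin n, ∑ q : Fin n, d q * ff d p = 0 := by
    rw [Finset.sum_comm, ← Finset.sum_mul_sum, h0, zero_mul]
  have e4 : ∑ _p : Fin n, ∑ q : Fin n, d q * ff d q = (n : ℝ) * ∑ p, d p * ff d p := by
    simp
  simp only [h1, Finset.sum_add_distrib, Finset.sum_sub_distrib, e1, e2, e3, e4]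
  ring

theorem sum_pos (h0 : ∑ p, d p = 0) (hne : d ≠ 0) : 0 < ∑ p, d p * ff d p := by
  have hn : 0 < n := by
    rcases Nat.eq_zero_or_pos n with h | h
    · subst h
      exact absurd (Subsingleton.elim _ _) hne
    · exact h
  -- two different values
  obtain ⟨p, q, hpq⟩ : ∃ p q, d q < d p := by
    by_contra hcon
    push Not at hcon
    have heq : ∀ p q, d p = d q := fun p q => le_antisymm (hcon p q) (hcon q p)
    apply hne
    funext p
    have h2 : ∑ r, d r = n * d p := by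
      rw [Finset.sum_congr rfl fun r _ => heq r p]
      simp
    rw [h2] at h0
    have : (n : ℝ) ≠ 0 := by positivity
    simpa [this] using h0
  have h3 : 0 < ∑ p, ∑ q, (d p - d q) * (ff d p - ff d q) := by
    refine Finset.sum_pos' (fun p _ => Finset.sum_nonneg fun q _ => mono d p q)
      ⟨p, Finset.mem_univ p, ?_⟩
    exact Finset.sum_pos' (fun q _ => mono d p q)
      ⟨q, Finset.mem_univ q, mul_pos (sub_pos.2 hpq) (mono_strict d hpq)⟩
  have h4 := sum_eq d h0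
  have h5 : 0 < (n : ℝ) * ∑ p, d p * ff d p := by rw [h4]; positivity
  exact (pos_iff_pos_of_mul_pos h5).1 (by positivity)

end scalar

/-! ### Matrices -/

section matrix

open Crest.Agent.R330.Coerc383 Matrix Unitary

variable {n : ℕ}

/-- The polynomial map. -/
def FF (A : Matrix (Fin n) (Fin n) ℂ) : Matrix (Fin n) (Fin n) ℂ :=
  ∑ k ∈ Finset.range (2 * n + 1), ((A.charpoly ^ 2).coeff k / (k + 1)) • A ^ (k + 1)

/-- The diagonal matrix with real entries `d`. -/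
def dg (d : Fin n → ℝ) : Matrix (Fin n) (Fin n) ℂ := diagonal fun i => (d i : ℂ)

theorem charpoly_cj (U : unitary (Matrix (Fin n) (Fin n) ℂ)) (A : Matrix (Fin n) (Fin n) ℂ) :
    (cj U A).charpoly = A.charpoly := by
  unfold cj
  rw [conjStarAlgAut_apply, charpoly_mul_comm, ← mul_assoc, Unitary.coe_star_mul_self, one_mul]

theorem charpoly_dg (d : Fin n → ℝ) : (dg d).charpoly = (Rp d).map (algebraMap ℝ ℂ) := by
  unfold dg Rp
  rw [charpoly_diagonal, Polynomial.map_prod]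
  refine Finset.prod_congr rfl fun i _ => ?_
  simp

theorem FF_dg (d : Fin n → ℝ) : FF (dg d) = dg (ff d) := by
  unfold FF
  rw [charpoly_dg, ← Polynomial.map_pow]
  have h : ∀ k : ℕ, (dg d) ^ (k + 1) = diagonal fun i => ((d i : ℂ)) ^ (k + 1) := fun k => by
    unfold dg
    rw [diagonal_pow]
    rfl
  simp only [h, Polynomial.coeff_map]
  ext i j
  rw [Matrix.sum_apply]
  unfold dg
  by_cases hij : i = j
  · subst hij
    simp only [Matrix.smul_apply, diagonal_apply_eq, smul_eq_mul, ff]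
    push_cast
    rfl
  · simp [hij]

theorem FF_cj (U : unitary (Matrix (Fin n) (Fin n) ℂ)) (A : Matrix (Fin n) (Fin n) ℂ) :
    FF (cj U A) = cj U (FF A) := by
  unfold FF
  rw [charpoly_cj, map_sum]
  refine Finset.sum_congr rfl fun k _ => ?_
  rw [map_smul, map_pow]

theorem exists_dg {A : Matrix (Fin n) (Fin n) ℂ} (hA : A.IsHermitian) :
    ∃ (U : unitary (Matrix (Fin n) (Fin n) ℂ)) (d : Fin n → ℝ), A = cj U (dg d) :=
  ⟨hA.eigenvectorUnitary, hA.eigenvalues, hA.spectral_theorem⟩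

theorem hs_dg (d : Fin n → ℝ) : hs (dg d) = ∑ i, d i ^ 2 := by
  unfold hs dg
  refine Finset.sum_congr rfl fun i _ => ?_
  rw [Finset.sum_eq_single i]
  · simp
  · intro j _ hj
    simp [Ne.symm hj]
  · simp

theorem trace_dg (d : Fin n → ℝ) : (dg d).trace = ((∑ i, d i : ℝ) : ℂ) := by
  unfold dg
  rw [trace_diagonal]
  push_cast
  rfl

theorem dg_mul_dg (d e : Fin n → ℝ) : dg d * dg e = dg fun i => d i * e i := by
  unfold dg
  rw [diagonal_mul_diagonal]
  congr 1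
  funext i
  push_cast
  rfl

/-- Homogeneity on Hermitian matrices. -/
theorem FF_smul {A : Matrix (Fin n) (Fin n) ℂ} (hA : A.IsHermitian) (t : ℝ) :
    FF ((t : ℂ) • A) = ((t ^ (2 * n + 1) : ℝ) : ℂ) • FF A := by
  obtain ⟨U, d, rfl⟩ := exists_dg hA
  have h1 : (t : ℂ) • cj U (dg d) = cj U (dg fun r => t * d r) := by
    rw [← map_smul]
    congr 1
    unfold dg
    ext i j
    by_cases hij : i = j
    · subst hij; simp
    · simp [hij]
  rw [h1, FF_cj, FF_dg, FF_cj, FF_dg, ← map_smul]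
  congr 1
  unfold dg
  ext i j
  by_cases hij : i = j
  · subst hij
    simp [ff_smul]
  · simp [hij]

/-- `Tr(A FF A) = Σ d_p ff_p`; positive for traceless `A ≠ 0`. -/
theorem trace_pos {A : Matrix (Fin n) (Fin n) ℂ} (hA : A.IsHermitian) (h0 : A.trace = 0)
    (hne : A ≠ 0) : 0 < ((A * FF A).trace).re := by
  obtain ⟨U, d, rfl⟩ := exists_dg hA
  rw [FF_cj, ← map_mul, trace_cj, FF_dg, dg_mul_dg, trace_dg, Complex.ofReal_re]
  rw [trace_cj, trace_dg] at h0
  refine sum_pos d (by exact_mod_cast h0) ?_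
  rintro rfl
  apply hne
  have : dg (0 : Fin n → ℝ) = 0 := by
    unfold dg
    ext i j
    by_cases hij : i = j
    · subst hij; simp
    · simp [hij]
  rw [this, map_zero]

/-- The trace pairing in an eigenbasis. -/
theorem trace_comm_dg (e : Fin n → ℝ) (Y Z : Matrix (Fin n) (Fin n) ℂ) :
    ((Y * Z - Z * Y) * dg e).trace = ∑ p, ∑ q, Y p q * Z q p * ((e p - e q : ℝ) : ℂ) := by
  rw [Matrix.sub_mul, Matrix.trace_sub]
  have h1 : (Y * Z * dg e).trace = ∑ p, ∑ q, Y p q * Z q p * (e p : ℂ) := by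
    rw [Matrix.trace]
    refine Finset.sum_congr rfl fun p _ => ?_
    unfold dg
    rw [Matrix.diag_apply, mul_diagonal, Matrix.mul_apply, Finset.sum_mul]
  have h2 : (Z * Y * dg e).trace = ∑ p, ∑ q, Y p q * Z q p * (e q : ℂ) := by
    rw [Matrix.trace, Finset.sum_comm]
    refine Finset.sum_congr rfl fun q _ => ?_
    unfold dg
    rw [Matrix.diag_apply, mul_diagonal, Matrix.mul_apply, Finset.sum_mul]
    exact Finset.sum_congr rfl fun p _ => by ring
  rw [h1, h2, ← Finset.sum_sub_distrib]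
  refine Finset.sum_congr rfl fun p _ => ?_
  rw [← Finset.sum_sub_distrib]
  refine Finset.sum_congr rfl fun q _ => ?_
  push_cast
  ring

theorem hs_comm_dg (d : Fin n → ℝ) (Y : Matrix (Fin n) (Fin n) ℂ) :
    hs (dg d * Y - Y * dg d) = ∑ p, ∑ q, (d p - d q) ^ 2 * ‖Y p q‖ ^ 2 := by
  unfold hs
  refine Finset.sum_congr rfl fun p _ => Finset.sum_congr rfl fun q _ => ?_
  unfold dg
  rw [Matrix.sub_apply, diagonal_mul, mul_diagonal]
  have : (d p : ℂ) * Y p q - Y p q * (d q : ℂ) = ((d p - d q : ℝ) : ℂ) * Y p q := by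
    push_cast; ring
  rw [this, norm_mul, mul_pow, Complex.norm_real, Real.norm_eq_abs, sq_abs]

/-- **The quadratic bound.** -/
theorem trace_bound {A : Matrix (Fin n) (Fin n) ℂ} (hA : A.IsHermitian)
    (Y Z : Matrix (Fin n) (Fin n) ℂ) :
    ‖((Y * Z - Z * Y) * FF A).trace‖ ≤ (2 * Real.sqrt (hs A)) ^ (2 * n - 1) / 2 *
      (hs (A * Y - Y * A) + hs (A * Z - Z * A)) := by
  obtain ⟨U, d, rfl⟩ := exists_dg hA
  obtain ⟨Y', rfl⟩ : ∃ Y', cj U Y' = Y := ⟨(cj U).symm Y, (cj U).apply_symm_apply Y⟩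
  obtain ⟨Z', rfl⟩ : ∃ Z', cj U Z' = Z := ⟨(cj U).symm Z, (cj U).apply_symm_apply Z⟩
  rw [FF_cj, FF_dg, ← map_mul, ← map_mul, ← map_sub, ← map_mul, trace_cj, ← map_mul, ← map_mul,
    ← map_sub, ← map_mul, ← map_mul, ← map_sub, hs_cj, hs_cj, hs_cj, trace_comm_dg,
    hs_comm_dg, hs_comm_dg, hs_dg]
  set L : ℝ := (2 * Real.sqrt (∑ i, d i ^ 2)) ^ (2 * n - 1) with hL
  have hL0 : 0 ≤ L := by positivity
  have hρ : ∀ r, |d r| ≤ Real.sqrt (∑ i, d i ^ 2) := fun r => by
    refine Real.abs_le_sqrt ?_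
    exact Finset.single_le_sum (f := fun i => d i ^ 2) (fun _ _ => sq_nonneg _)
      (Finset.mem_univ r)
  have h1 : ∀ p q, ‖Y' p q * Z' q p * ((ff d p - ff d q : ℝ) : ℂ)‖ ≤
      L / 2 * ((d p - d q) ^ 2 * ‖Y' p q‖ ^ 2 + (d q - d p) ^ 2 * ‖Z' q p‖ ^ 2) := by
    intro p q
    rw [norm_mul, norm_mul, Complex.norm_real, Real.norm_eq_abs]
    have h2 := bound d hρ p q
    rw [← hL] at h2
    have h3 : ‖Y' p q‖ * ‖Z' q p‖ ≤ (‖Y' p q‖ ^ 2 + ‖Z' q p‖ ^ 2) / 2 := by
      nlinarith [sq_nonneg (‖Y' p q‖ - ‖Z' q p‖)]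
    calc ‖Y' p q‖ * ‖Z' q p‖ * |ff d p - ff d q|
        ≤ (‖Y' p q‖ ^ 2 + ‖Z' q p‖ ^ 2) / 2 * (L * (d p - d q) ^ 2) :=
          mul_le_mul h3 h2 (abs_nonneg _) (by positivity)
      _ = _ := by ring
  refine (norm_sum_le _ _).trans ?_
  refine (Finset.sum_le_sum fun p _ => (norm_sum_le _ _).trans
    (Finset.sum_le_sum fun q _ => h1 p q)).trans (le_of_eq ?_)
  simp only [← Finset.mul_sum, Finset.sum_add_distrib]
  congr 2
  exact Finset.sum_comm

/-! ### Smoothness -/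

variable {E : Type*} [NormedAddCommGroup E] [NormedSpace ℝ E]

/-- All coefficients are smooth. -/
def SP (p : E → ℂ[X]) : Prop := ∀ k, ContDiff ℝ ∞ fun x => (p x).coeff k

theorem SP_const (p : ℂ[X]) : SP fun _ : E => p := fun _ => contDiff_const

theorem SP_mul {p q : E → ℂ[X]} (hp : SP p) (hq : SP q) : SP fun x => p x * q x := by
  intro k
  simp only [Polynomial.coeff_mul]
  exact ContDiff.sum fun i _ => (hp i.1).mul (hq i.2)

theorem SP_sum {ι : Type*} (s : Finset ι) {p : ι → E → ℂ[X]} (hp : ∀ i ∈ s, SP (p i)) :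
    SP fun x => ∑ i ∈ s, p i x := by
  intro k
  simp only [Polynomial.finsetSum_coeff]
  exact ContDiff.sum fun i hi => hp i hi k

theorem SP_prod {ι : Type*} (s : Finset ι) {p : ι → E → ℂ[X]} (hp : ∀ i, SP (p i)) :
    SP fun x => ∏ i ∈ s, p i x := by
  classical
  induction s using Finset.induction_on with
  | empty => simpa using SP_const (E := E) 1
  | insert a s ha ih =>
    simp only [Finset.prod_insert ha]
    exact SP_mul (hp a) ih

theorem SP_charpoly {A : E → Matrix (Fin n) (Fin n) ℂ}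
    (hA : ∀ i j, ContDiff ℝ ∞ fun x => A x i j) : SP fun x => (A x).charpoly := by
  have hc : ∀ i j, SP fun x => (A x).charmatrix i j := by
    intro i j k
    have h : ∀ x, ((A x).charmatrix i j).coeff k =
        (if i = j then (if k = 1 then 1 else 0) else 0) - (if k = 0 then A x i j else 0) := by
      intro x
      rw [charmatrix_apply, Polynomial.coeff_sub, Polynomial.coeff_C, Matrix.diagonal_apply]
      congr 1
      by_cases hij : i = j
      · simp [hij, Polynomial.coeff_X, eq_comm]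
      · simp [hij]
    simp only [h]
    refine contDiff_const.sub ?_
    by_cases hk : k = 0
    · simpa [hk] using hA i j
    · simpa [hk] using contDiff_const
  intro k
  have h : ∀ x, (A x).charpoly = ∑ σ : Equiv.Perm (Fin n),
      C (((Equiv.Perm.sign σ : ℤ) : ℂ)) * ∏ i, (A x).charmatrix (σ i) i := by
    intro x
    unfold Matrix.charpoly
    rw [Matrix.det_apply]
    refine Finset.sum_congr rfl fun σ _ => ?_
    rw [Units.smul_def, zsmul_eq_mul]
    congr 1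
  simp only [h]
  exact SP_sum Finset.univ (fun σ _ => SP_mul (SP_const _) (SP_prod Finset.univ fun i => hc _ _)) k

theorem contDiff_FF {A : E → Matrix (Fin n) (Fin n) ℂ}
    (hA : ∀ i j, ContDiff ℝ ∞ fun x => A x i j) (i j : Fin n) :
    ContDiff ℝ ∞ fun x => FF (A x) i j := by
  have hpow : ∀ (k : ℕ) (i j : Fin n), ContDiff ℝ ∞ fun x => ((A x) ^ k) i j := by
    intro k
    induction k with
    | zero =>
      intro i j
      simpa using contDiff_const
    | succ k ih =>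
      intro i j
      simp only [pow_succ, Matrix.mul_apply]
      exact ContDiff.sum fun l _ => (ih i l).mul (hA l j)
  unfold FF
  simp only [Matrix.sum_apply, Matrix.smul_apply, smul_eq_mul]
  refine ContDiff.sum fun k _ => ?_
  have h2 : SP fun x => (A x).charpoly ^ 2 := by
    simp only [sq]
    exact SP_mul (SP_charpoly hA) (SP_charpoly hA)
  exact ((h2 k).div_const _).mul (hpow _ _ _)

end matrix

/-! ### Colour coordinates -/

section colour

open Crest.Agent.R330.Coerc383 Crest.Agent.R330.CoerCfg87 Matrix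
open Crest.MathPhysics.MatrixQM

variable {N : ℕ} (b : ColorBasis N)

/-- The coordinates of `FF (cmat b u)`. -/
def vF (u : Fin (N ^ 2 - 1) → ℝ) (A : Fin (N ^ 2 - 1)) : ℝ :=
  ((b.T A * FF (cmat b u)).trace).re

theorem sum_vF (w u : Fin (N ^ 2 - 1) → ℝ) :
    ∑ A, w A * vF b u A = ((cmat b w * FF (cmat b u)).trace).re := by
  unfold vF
  have h : cmat b w = ∑ A, (w A : ℂ) • b.T A := rfl
  rw [h, Finset.sum_mul, Matrix.trace_sum, Complex.re_sum]
  refine Finset.sum_congr rfl fun A _ => ?_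
  rw [Matrix.smul_mul, Matrix.trace_smul, smul_eq_mul, Complex.re_ofReal_mul]

theorem vF_pos {u : Fin (N ^ 2 - 1) → ℝ} (hu : u ≠ 0) : 0 < ∑ A, u A * vF b u A := by
  rw [sum_vF]
  refine trace_pos (cmat_herm b u) (cmat_trace b u) fun h0 => hu ?_
  have h1 := hs_cmat b u
  rw [h0] at h1
  have h2 : hs (0 : Matrix (Fin N) (Fin N) ℂ) = 0 := by simp [hs]
  rw [h2] at h1
  funext A
  have h3 := (Finset.sum_eq_zero_iff_of_nonneg (fun A _ => sq_nonneg (u A))).1 h1.symm A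
    (Finset.mem_univ A)
  simpa using h3

theorem hs_comm (hN : 0 < N) (u v : Fin (N ^ 2 - 1) → ℝ) :
    hs (cmat b u * cmat b v - cmat b v * cmat b u) = ∑ A, br b u v A ^ 2 := by
  rw [comm_cmat b hN, ← hs_cmat b]
  unfold hs
  simp

theorem vF_bound (hN : 0 < N) (u v w : Fin (N ^ 2 - 1) → ℝ) :
    |∑ A, br b v w A * vF b u A| ≤ (2 * Real.sqrt (∑ A, u A ^ 2)) ^ (2 * N - 1) / 2 *
      (∑ A, br b u v A ^ 2 + ∑ A, br b u w A ^ 2) := by
  have h1 := trace_bound (cmat_herm b u) (cmat b v) (cmat b w)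
  rw [hs_comm b hN, hs_comm b hN, hs_cmat] at h1
  refine le_trans ?_ h1
  rw [sum_vF, comm_cmat b hN, Matrix.smul_mul, Matrix.trace_smul, norm_smul, Complex.norm_I,
    one_mul]
  exact Complex.abs_re_le_norm _

theorem vF_smul (t : ℝ) (u : Fin (N ^ 2 - 1) → ℝ) (A : Fin (N ^ 2 - 1)) :
    vF b (fun B => t * u B) A = t ^ (2 * N + 1) * vF b u A := by
  unfold vF
  rw [cmat_smul, FF_smul (cmat_herm b u), Matrix.mul_smul, Matrix.trace_smul, smul_eq_mul,
    Complex.re_ofReal_mul]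

theorem contDiff_vF {E : Type*} [NormedAddCommGroup E] [NormedSpace ℝ E]
    {u : E → Fin (N ^ 2 - 1) → ℝ} (hu : ∀ A, ContDiff ℝ ∞ fun x => u x A)
    (A : Fin (N ^ 2 - 1)) : ContDiff ℝ ∞ fun x => vF b (u x) A := by
  unfold vF
  have hc : ∀ i j, ContDiff ℝ ∞ fun x => cmat b (u x) i j := by
    intro i j
    unfold cmat
    simp only [Matrix.sum_apply, Matrix.smul_apply, smul_eq_mul]
    exact ContDiff.sum fun B _ => (Complex.ofRealCLM.contDiff.comp (hu B)).mul contDiff_const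
  have h : ContDiff ℝ ∞ fun x => (b.T A * FF (cmat b (u x))).trace := by
    simp only [Matrix.trace, Matrix.diag_apply, Matrix.mul_apply]
    exact ContDiff.sum fun i _ => ContDiff.sum fun j _ =>
      contDiff_const.mul (contDiff_FF hc j i)
  exact Complex.reCLM.contDiff.comp h

end colour

/-! ### Homogeneous maps -/

section hom

variable {E G : Type*} [NormedAddCommGroup E] [NormedSpace ℝ E] [FiniteDimensional ℝ E]
  [NormedAddCommGroup G] [NormedSpace ℝ G]

theorem hom_zero {f : E → G} {m : ℕ} (hm : m ≠ 0)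
    (hh : ∀ (t : ℝ) x, 0 < t → f (t • x) = t ^ m • f x) : f 0 = 0 := by
  have h := hh (1 / 2) 0 (by norm_num)
  rw [smul_zero] at h
  have h1 : ((1 / 2 : ℝ)) ^ m < 1 := pow_lt_one₀ (by norm_num) (by norm_num) hm
  have h2 : (1 - (1 / 2 : ℝ) ^ m) • f 0 = 0 := by
    rw [sub_smul, one_smul, ← h, sub_self]
  rcases smul_eq_zero.1 h2 with h3 | h3
  · linarith
  · exact h3

theorem norm_smul_self' {x : E} (hx : x ≠ 0) : ‖x‖ • (‖x‖⁻¹ • x) = x := by
  rw [smul_smul, mul_inv_cancel₀ (norm_ne_zero_iff.2 hx), one_smul]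

theorem inv_mem_sphere {x : E} (hx : x ≠ 0) : ‖x‖⁻¹ • x ∈ Metric.sphere (0 : E) 1 := by
  rw [mem_sphere_zero_iff_norm, norm_smul, norm_inv, norm_norm,
    inv_mul_cancel₀ (norm_ne_zero_iff.2 hx)]

theorem hom_le {f : E → G} (hc : Continuous f) (m : ℕ)
    (hh : ∀ (t : ℝ) x, 0 < t → f (t • x) = t ^ m • f x) :
    ∃ K, 0 ≤ K ∧ ∀ x, ‖f x‖ ≤ K * ‖x‖ ^ m := by
  obtain ⟨K, hK⟩ := (isCompact_sphere (0 : E) 1).exists_bound_of_continuousOn hc.continuousOn
  refine ⟨|K| + ‖f 0‖, by positivity, fun x => ?_⟩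
  by_cases hx : x = 0
  · subst hx
    by_cases hm : m = 0
    · subst hm
      simp only [pow_zero, mul_one]
      exact le_add_of_nonneg_left (abs_nonneg _)
    · rw [hom_zero hm hh, norm_zero]
      positivity
  · have h1 := hh ‖x‖ (‖x‖⁻¹ • x) (norm_pos_iff.2 hx)
    rw [norm_smul_self' hx] at h1
    rw [h1, norm_smul, norm_pow, norm_norm, mul_comm]
    refine mul_le_mul_of_nonneg_right ?_ (by positivity)
    exact (hK _ (inv_mem_sphere hx)).trans ((le_abs_self K).trans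
      (le_add_of_nonneg_right (norm_nonneg _)))

theorem hom_lower {f : E → ℝ} (hc : Continuous f) {m : ℕ} (hm : m ≠ 0)
    (hh : ∀ (t : ℝ) x, 0 < t → f (t • x) = t ^ m • f x) (hpos : ∀ x, x ≠ 0 → 0 < f x) :
    ∃ c, 0 < c ∧ ∀ x, c * ‖x‖ ^ m ≤ f x := by
  have key : ∀ c : ℝ, (∀ y ∈ Metric.sphere (0 : E) 1, c ≤ f y) → ∀ x, c * ‖x‖ ^ m ≤ f x := by
    intro c hcy x
    by_cases hx : x = 0
    · subst hx
      rw [hom_zero hm hh, norm_zero, zero_pow hm, mul_zero]
    · have h1 := hh ‖x‖ (‖x‖⁻¹ • x) (norm_pos_iff.2 hx)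
      rw [norm_smul_self' hx] at h1
      rw [h1, smul_eq_mul, mul_comm]
      exact mul_le_mul_of_nonneg_left (hcy _ (inv_mem_sphere hx)) (by positivity)
  rcases (Metric.sphere (0 : E) 1).eq_empty_or_nonempty with h | h
  · exact ⟨1, one_pos, key 1 fun y hy => by rw [h] at hy; exact absurd hy (Set.notMem_empty y)⟩
  · obtain ⟨y, hy, hmin⟩ := (isCompact_sphere (0 : E) 1).exists_isMinOn h hc.continuousOn
    refine ⟨f y, hpos y ?_, key _ fun z hz => hmin hz⟩
    rintro rfl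
    simp at hy

theorem hom_fderiv {f : E → G} (hf : Differentiable ℝ f) {m : ℕ}
    (hh : ∀ (t : ℝ) x, 0 < t → f (t • x) = t ^ (m + 1) • f x) (t : ℝ) (x : E) (ht : 0 < t) :
    fderiv ℝ f (t • x) = t ^ m • fderiv ℝ f x := by
  have h1 : fderiv ℝ (fun y => f (t • y)) x = t • fderiv ℝ f (t • x) := by
    have := fderiv_comp_smul (𝕜 := ℝ) t (f := f) (x := x)
    simpa using this
  have h2 : fderiv ℝ (fun y => f (t • y)) x = t ^ (m + 1) • fderiv ℝ f x := by
    have h3 : (fun y => f (t • y)) = fun y => t ^ (m + 1) • f y := funext fun y => hh t y ht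
    rw [h3, fderiv_fun_const_smul (hf x)]
  rw [h1, pow_succ', mul_smul] at h2
  exact smul_right_injective _ ht.ne' h2

end hom

/-! ### The field on `Cfg N` -/

section field

open Crest.Agent.R330.CoerCfg87 Crest.Agent.R330.Defs478
open Crest.MathPhysics.MatrixQM

variable {N : ℕ} (b : ColorBasis N)

/-- `x ↦ (FF x_j)_j`. -/
def fld (x : Cfg N) : Cfg N := WithLp.toLp 2 fun k => vF b (comp x k.1) k.2

theorem fld_apply (x : Cfg N) (k : Fin 9 × Fin (N ^ 2 - 1)) :
    fld b x k = vF b (comp x k.1) k.2 := rfl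

theorem contDiff_fld : ContDiff ℝ ∞ (fld b) := by
  rw [contDiff_euclidean]
  intro k
  refine contDiff_vF b (fun A => ?_) k.2
  exact (EuclideanSpace.proj (k.1, A) : Cfg N →L[ℝ] ℝ).contDiff

theorem fld_smul (t : ℝ) (x : Cfg N) : fld b (t • x) = t ^ (2 * N + 1) • fld b x := by
  ext k
  rw [PiLp.smul_apply, fld_apply, fld_apply, smul_eq_mul, ← vF_smul]
  rfl

/-- The weight. -/
def wt (N : ℕ) (x : Cfg N) : ℝ := ((1 + ‖x‖ ^ 2) ^ N)⁻¹


theorem wt_pos (x : Cfg N) : 0 < wt N x := by unfold wt; positivity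

theorem contDiff_wt : ContDiff ℝ ∞ (wt N) := by
  unfold wt
  refine ContDiff.inv (ContDiff.pow (contDiff_const.add (contDiff_norm_sq ℝ)) N) fun x => ?_
  positivity

/-- The field. -/
def vv (x : Cfg N) : Cfg N := wt N x • fld b x

theorem contDiff_vv : ContDiff ℝ ∞ (vv b) := contDiff_wt.smul (contDiff_fld b)

theorem pow_le_wt (x : Cfg N) : ‖x‖ ^ (2 * N) * wt N x ≤ 1 := by
  unfold wt
  rw [pow_mul, ← div_eq_mul_inv, div_le_one (by positivity)]
  exact pow_le_pow_left₀ (by positivity) (by linarith) N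

theorem norm_vv_le : ∃ K, 0 ≤ K ∧ ∀ x, ‖vv b x‖ ≤ K * ‖x‖ := by
  obtain ⟨K, hK, h⟩ := hom_le (contDiff_fld b).continuous (2 * N + 1)
    (fun t x _ => fld_smul b t x)
  refine ⟨K, hK, fun x => ?_⟩
  unfold vv
  rw [norm_smul, Real.norm_of_nonneg (wt_pos x).le]
  calc wt N x * ‖fld b x‖ ≤ wt N x * (K * ‖x‖ ^ (2 * N + 1)) :=
        mul_le_mul_of_nonneg_left (h x) (wt_pos x).le
    _ = K * ‖x‖ * (‖x‖ ^ (2 * N) * wt N x) := by ring
    _ ≤ K * ‖x‖ * 1 := mul_le_mul_of_nonneg_left (pow_le_wt x) (by positivity)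
    _ = K * ‖x‖ := mul_one _

theorem hasFDerivAt_wt (x : Cfg N) :
    HasFDerivAt (wt N) ((-((N : ℝ) * (1 + ‖x‖ ^ 2) ^ (N - 1)) / ((1 + ‖x‖ ^ 2) ^ N) ^ 2) •
      ((2 : ℝ) • innerSL ℝ x)) x := by
  have h1 : HasFDerivAt (fun y : Cfg N => ‖y‖ ^ 2) ((2 : ℝ) • innerSL ℝ x) x := by
    have h0 := (hasStrictFDerivAt_norm_sq x).hasFDerivAt
    have e : (2 : ℝ) • innerSL ℝ x = (2 : ℕ) • innerSL ℝ x := by rw [two_smul, two_smul]
    rw [e]
    exact h0
  have h2 : HasDerivAt (fun s : ℝ => ((1 + s) ^ N)⁻¹)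
      (-((N : ℝ) * (1 + ‖x‖ ^ 2) ^ (N - 1)) / ((1 + ‖x‖ ^ 2) ^ N) ^ 2) (‖x‖ ^ 2) := by
    have h3 : HasDerivAt (fun s : ℝ => (1 + s) ^ N) ((N : ℝ) * (1 + ‖x‖ ^ 2) ^ (N - 1))
        (‖x‖ ^ 2) := by
      have h0 := ((hasDerivAt_id (‖x‖ ^ 2)).const_add 1).pow N
      rw [mul_one] at h0
      exact h0
    exact h3.inv (by positivity)
  have h4 := HasDerivAt.comp_hasFDerivAt (f := fun y : Cfg N => ‖y‖ ^ 2) x h2 h1
  exact h4

theorem norm_fderiv_wt (x : Cfg N) :
    ‖fderiv ℝ (wt N) x‖ * ‖x‖ ^ (2 * N + 1) ≤ 2 * N := by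
  rw [(hasFDerivAt_wt x).fderiv, norm_smul, norm_smul, innerSL_apply_norm, Real.norm_eq_abs,
    Real.norm_of_nonneg (by norm_num : (0 : ℝ) ≤ 2), abs_div, abs_neg,
    abs_of_nonneg (by positivity : (0 : ℝ) ≤ (N : ℝ) * (1 + ‖x‖ ^ 2) ^ (N - 1)),
    abs_of_nonneg (by positivity : (0 : ℝ) ≤ ((1 + ‖x‖ ^ 2) ^ N) ^ 2)]
  rcases Nat.eq_zero_or_pos N with hN | hN
  · subst hN
    simp
  set r : ℝ := ‖x‖ ^ 2 with hr
  have hr0 : 0 ≤ r := by positivity
  have h1 : (N : ℝ) * (1 + r) ^ (N - 1) / ((1 + r) ^ N) ^ 2 * (2 * ‖x‖) * ‖x‖ ^ (2 * N + 1) =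
      2 * N * (((1 + r) ^ (N - 1) * r ^ (N + 1)) / ((1 + r) ^ N) ^ 2) := by
    have : ‖x‖ * ‖x‖ ^ (2 * N + 1) = r ^ (N + 1) := by
      rw [hr, ← pow_mul, ← pow_succ']
      congr 1
    rw [← this]
    ring
  rw [h1]
  have h2 : (1 + r) ^ (N - 1) * r ^ (N + 1) ≤ ((1 + r) ^ N) ^ 2 := by
    calc (1 + r) ^ (N - 1) * r ^ (N + 1) ≤ (1 + r) ^ (N - 1) * (1 + r) ^ (N + 1) :=
          mul_le_mul_of_nonneg_left (pow_le_pow_left₀ hr0 (by linarith) _) (by positivity)
      _ = ((1 + r) ^ N) ^ 2 := by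
          rw [← pow_add, ← pow_mul]
          congr 1
          omega
  have h3 : ((1 + r) ^ (N - 1) * r ^ (N + 1)) / ((1 + r) ^ N) ^ 2 ≤ 1 :=
    (div_le_one (by positivity)).2 h2
  calc 2 * N * (((1 + r) ^ (N - 1) * r ^ (N + 1)) / ((1 + r) ^ N) ^ 2) ≤ 2 * N * 1 :=
        mul_le_mul_of_nonneg_left h3 (by positivity)
    _ = 2 * N := mul_one _

theorem norm_fderiv_vv : ∃ K, 0 ≤ K ∧ ∀ x, ‖fderiv ℝ (vv b) x‖ ≤ K := by
  have hd : Differentiable ℝ (fld b) := (contDiff_fld b).differentiable (by simp)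
  obtain ⟨K, hK, h⟩ := hom_le (contDiff_fld b).continuous (2 * N + 1)
    (fun t x _ => fld_smul b t x)
  obtain ⟨K₁, hK₁, h₁⟩ := hom_le ((contDiff_fld b).continuous_fderiv (by simp)) (2 * N)
    (hom_fderiv hd fun t x _ => fld_smul b t x)
  refine ⟨K₁ + 2 * N * K, by positivity, fun x => ?_⟩
  have h2 : HasFDerivAt (vv b) (wt N x • fderiv ℝ (fld b) x +
      (fderiv ℝ (wt N) x).smulRight (fld b x)) x :=
    ((contDiff_wt.differentiable (by simp)) x).hasFDerivAt.smul (hd x).hasFDerivAt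
  rw [h2.fderiv]
  refine (norm_add_le _ _).trans (add_le_add ?_ ?_)
  · rw [norm_smul, Real.norm_of_nonneg (wt_pos x).le]
    calc wt N x * ‖fderiv ℝ (fld b) x‖ ≤ wt N x * (K₁ * ‖x‖ ^ (2 * N)) :=
          mul_le_mul_of_nonneg_left (h₁ x) (wt_pos x).le
      _ = K₁ * (‖x‖ ^ (2 * N) * wt N x) := by ring
      _ ≤ K₁ * 1 := mul_le_mul_of_nonneg_left (pow_le_wt x) hK₁
      _ = K₁ := mul_one _
  · rw [ContinuousLinearMap.norm_smulRight_apply]
    calc ‖fderiv ℝ (wt N) x‖ * ‖fld b x‖ ≤ ‖fderiv ℝ (wt N) x‖ * (K * ‖x‖ ^ (2 * N + 1)) :=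
          mul_le_mul_of_nonneg_left (h x) (norm_nonneg _)
      _ = K * (‖fderiv ℝ (wt N) x‖ * ‖x‖ ^ (2 * N + 1)) := by ring
      _ ≤ K * (2 * N) := mul_le_mul_of_nonneg_left (norm_fderiv_wt x) hK
      _ = 2 * N * K := by ring

/-- the virial sum -/
def vir (x w : Cfg N) : ℝ := ∑ j, cc j ^ 2 * ∑ A, x (j, A) * w (j, A)

theorem cc_sq_pos (j : Fin 9) : 0 < cc j ^ 2 := by
  unfold cc
  split_ifs <;> norm_num

theorem vF_nonneg (u : Fin (N ^ 2 - 1) → ℝ) : 0 ≤ ∑ A, u A * vF b u A := by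
  by_cases hu : u = 0
  · subst hu; simp
  · exact (vF_pos b hu).le

theorem vir_fld_pos {x : Cfg N} (hx : x ≠ 0) : 0 < vir x (fld b x) := by
  unfold vir
  obtain ⟨j, hj⟩ : ∃ j, comp x j ≠ 0 := by
    by_contra hcon
    push Not at hcon
    apply hx
    ext k
    exact congrFun (hcon k.1) k.2
  refine Finset.sum_pos' (fun i _ => mul_nonneg (sq_nonneg _) (vF_nonneg b (comp x i)))
    ⟨j, Finset.mem_univ j, ?_⟩
  exact mul_pos (cc_sq_pos j) (vF_pos b hj)

theorem vir_smul_right (x w : Cfg N) (t : ℝ) : vir x (t • w) = t * vir x w := by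
  unfold vir
  rw [Finset.mul_sum]
  refine Finset.sum_congr rfl fun j _ => ?_
  simp only [PiLp.smul_apply, smul_eq_mul, Finset.mul_sum]
  refine Finset.sum_congr rfl fun A _ => ?_
  ring

theorem vir_smul_left (x w : Cfg N) (t : ℝ) : vir (t • x) w = t * vir x w := by
  unfold vir
  rw [Finset.mul_sum]
  refine Finset.sum_congr rfl fun j _ => ?_
  simp only [PiLp.smul_apply, smul_eq_mul, Finset.mul_sum]
  refine Finset.sum_congr rfl fun A _ => ?_
  ring

theorem vir_vv : ∃ c, 0 < c ∧ ∃ K, ∀ x, c * ‖x‖ ^ 2 - K ≤ vir x (vv b x) := by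
  have hc : Continuous fun x : Cfg N => vir x (fld b x) := by
    unfold vir
    have h1 : ∀ k, Continuous fun x : Cfg N => fld b x k := fun k =>
      (EuclideanSpace.proj k : Cfg N →L[ℝ] ℝ).continuous.comp (contDiff_fld b).continuous
    have h2 : ∀ k, Continuous fun x : Cfg N => x k := fun k =>
      (EuclideanSpace.proj k : Cfg N →L[ℝ] ℝ).continuous
    exact continuous_finsetSum _ fun j _ => continuous_const.mul
      (continuous_finsetSum _ fun A _ => (h2 _).mul (h1 _))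
  have hh : ∀ (t : ℝ) (x : Cfg N), 0 < t →
      vir (t • x) (fld b (t • x)) = t ^ (2 * N + 2) • vir x (fld b x) := by
    intro t x _
    rw [fld_smul, vir_smul_right, vir_smul_left, smul_eq_mul]
    ring
  obtain ⟨c, hc0, h⟩ := hom_lower hc (by omega) hh fun x hx => vir_fld_pos b hx
  refine ⟨c, hc0, c * N, fun x => ?_⟩
  unfold vv
  rw [vir_smul_right]
  have h1 : wt N x * (c * ‖x‖ ^ (2 * N + 2)) ≤ wt N x * vir x (fld b x) :=
    mul_le_mul_of_nonneg_left (h x) (wt_pos x).le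
  refine le_trans ?_ h1
  set r : ℝ := ‖x‖ ^ 2 with hr
  have hr0 : 0 ≤ r := by positivity
  have h2 : wt N x * (c * ‖x‖ ^ (2 * N + 2)) = c * ((r / (1 + r)) ^ N * r) := by
    unfold wt
    rw [← hr, div_pow, div_eq_mul_inv]
    have : ‖x‖ ^ (2 * N + 2) = r ^ N * r := by
      rw [hr, ← pow_mul, pow_add]
    rw [this]
    ring
  rw [h2]
  have h3 : r / (1 + r) = 1 + -(1 / (1 + r)) := by
    field_simp
    ring
  have h4 : 1 + (N : ℝ) * -(1 / (1 + r)) ≤ (r / (1 + r)) ^ N := by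
    rw [h3]
    refine one_add_mul_le_pow ?_ N
    have : 1 / (1 + r) ≤ 1 := (div_le_one (by positivity)).2 (by linarith)
    linarith
  have h5 : (1 + (N : ℝ) * -(1 / (1 + r))) * r ≤ (r / (1 + r)) ^ N * r :=
    mul_le_mul_of_nonneg_right h4 hr0
  have h6 : (N : ℝ) * (1 / (1 + r)) * r ≤ N := by
    have h7 : 1 / (1 + r) * r ≤ 1 := by
      rw [one_div, inv_mul_eq_div, div_le_one (by positivity)]
      linarith
    calc (N : ℝ) * (1 / (1 + r)) * r = N * (1 / (1 + r) * r) := by ring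
      _ ≤ N * 1 := mul_le_mul_of_nonneg_left h7 (by positivity)
      _ = N := mul_one _
  nlinarith

/-- the Myers term of `x` against `w` -/
def tau (x w : Cfg N) : ℝ := ∑ A, (w (0, A) * br b (comp x 1) (comp x 2) A +
  w (1, A) * br b (comp x 2) (comp x 0) A + w (2, A) * br b (comp x 0) (comp x 1) A)

/-- the sum of all squared brackets -/
def cs (x : Cfg N) : ℝ := ∑ i, ∑ j, ∑ A, (br b (comp x i) (comp x j) A) ^ 2

theorem br_le_cs (x : Cfg N) (i j : Fin 9) : ∑ A, br b (comp x i) (comp x j) A ^ 2 ≤ cs b x := by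
  unfold cs
  calc ∑ A, br b (comp x i) (comp x j) A ^ 2 ≤
      ∑ j, ∑ A, br b (comp x i) (comp x j) A ^ 2 :=
        Finset.single_le_sum (f := fun j => ∑ A, br b (comp x i) (comp x j) A ^ 2)
          (fun _ _ => Finset.sum_nonneg fun _ _ => sq_nonneg _) (Finset.mem_univ j)
    _ ≤ _ := Finset.single_le_sum (f := fun i => ∑ j, ∑ A, br b (comp x i) (comp x j) A ^ 2)
          (fun _ _ => Finset.sum_nonneg fun _ _ => Finset.sum_nonneg fun _ _ => sq_nonneg _)
          (Finset.mem_univ i)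

theorem comp_le (x : Cfg N) (i : Fin 9) : Real.sqrt (∑ A, comp x i A ^ 2) ≤ ‖x‖ := by
  rw [EuclideanSpace.norm_eq, Fintype.sum_prod_type]
  refine Real.sqrt_le_sqrt ?_
  simp only [Real.norm_eq_abs, sq_abs]
  exact Finset.single_le_sum (f := fun i => ∑ A, x (i, A) ^ 2)
    (fun _ _ => Finset.sum_nonneg fun _ _ => sq_nonneg _) (Finset.mem_univ i)

theorem one_tau (hN : 0 < N) (x : Cfg N) (i j k : Fin 9) :
    |∑ A, vv b x (i, A) * br b (comp x j) (comp x k) A| ≤ 2 ^ (2 * N - 1) * cs b x := by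
  have h1 : ∑ A, vv b x (i, A) * br b (comp x j) (comp x k) A =
      wt N x * ∑ A, br b (comp x j) (comp x k) A * vF b (comp x i) A := by
    rw [Finset.mul_sum]
    refine Finset.sum_congr rfl fun A _ => ?_
    unfold vv
    rw [PiLp.smul_apply, fld_apply, smul_eq_mul]
    ring
  rw [h1, abs_mul, abs_of_pos (wt_pos x)]
  have hcs : 0 ≤ cs b x := Finset.sum_nonneg fun _ _ => Finset.sum_nonneg fun _ _ =>
    Finset.sum_nonneg fun _ _ => sq_nonneg _
  have h2 := vF_bound b hN (comp x i) (comp x j) (comp x k)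
  have h3 : (2 * Real.sqrt (∑ A, comp x i A ^ 2)) ^ (2 * N - 1) ≤ (2 * ‖x‖) ^ (2 * N - 1) :=
    pow_le_pow_left₀ (by positivity) (by linarith [comp_le x i]) _
  have h4 : wt N x * ‖x‖ ^ (2 * N - 1) ≤ 1 := by
    unfold wt
    rw [inv_mul_eq_div, div_le_one (by positivity)]
    rcases le_total ‖x‖ 1 with h | h
    · calc ‖x‖ ^ (2 * N - 1) ≤ 1 := pow_le_one₀ (norm_nonneg _) h
        _ ≤ (1 + ‖x‖ ^ 2) ^ N := one_le_pow₀ (by nlinarith [sq_nonneg ‖x‖])
    · calc ‖x‖ ^ (2 * N - 1) ≤ ‖x‖ ^ (2 * N) := pow_le_pow_right₀ h (by omega)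
        _ = (‖x‖ ^ 2) ^ N := pow_mul _ _ _
        _ ≤ (1 + ‖x‖ ^ 2) ^ N := pow_le_pow_left₀ (by positivity) (by linarith) N
  calc wt N x * |∑ A, br b (comp x j) (comp x k) A * vF b (comp x i) A|
      ≤ wt N x * ((2 * ‖x‖) ^ (2 * N - 1) / 2 * (cs b x + cs b x)) := by
        refine mul_le_mul_of_nonneg_left (h2.trans ?_) (wt_pos x).le
        refine mul_le_mul (by linarith) (add_le_add (br_le_cs b x i j) (br_le_cs b x i k))
          (add_nonneg (Finset.sum_nonneg fun _ _ => sq_nonneg _)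
            (Finset.sum_nonneg fun _ _ => sq_nonneg _)) (by positivity)
    _ = 2 ^ (2 * N - 1) * cs b x * (wt N x * ‖x‖ ^ (2 * N - 1)) := by
        rw [mul_pow]; ring
    _ ≤ 2 ^ (2 * N - 1) * cs b x * 1 := mul_le_mul_of_nonneg_left h4 (by positivity)
    _ = 2 ^ (2 * N - 1) * cs b x := mul_one _

theorem tau_vv (hN : 0 < N) (x : Cfg N) : |tau b x (vv b x)| ≤ 3 * 2 ^ (2 * N - 1) * cs b x := by
  unfold tau
  rw [Finset.sum_add_distrib, Finset.sum_add_distrib]
  have h1 := one_tau b hN x 0 1 2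
  have h2 := one_tau b hN x 1 2 0
  have h3 := one_tau b hN x 2 0 1
  have h4 := abs_add_three (∑ A, vv b x (0, A) * br b (comp x 1) (comp x 2) A)
    (∑ A, vv b x (1, A) * br b (comp x 2) (comp x 0) A)
    (∑ A, vv b x (2, A) * br b (comp x 0) (comp x 1) A)
  linarith

/-- **The field.** Smooth, of linear growth, with bounded derivative, quadratic Myers term and
coercive virial. -/
theorem exists_field (hN : 0 < N) : ∃ v : Cfg N → Cfg N, ContDiff ℝ ∞ v ∧
    (∃ K, 0 ≤ K ∧ ∀ x, ‖fderiv ℝ v x‖ ≤ K) ∧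
    (∃ K, 0 ≤ K ∧ ∀ x, |∑ A, (v x (0, A) * br b (comp x 1) (comp x 2) A +
      v x (1, A) * br b (comp x 2) (comp x 0) A + v x (2, A) * br b (comp x 0) (comp x 1) A)| ≤
        K * ∑ i, ∑ j, ∑ A, (br b (comp x i) (comp x j) A) ^ 2) ∧
    (∃ c, 0 < c ∧ ∃ K, ∀ x, c * ‖x‖ ^ 2 - K ≤ ∑ j, cc j ^ 2 * ∑ A, x (j, A) * v x (j, A)) ∧
    (∃ K, 0 ≤ K ∧ ∀ x, ‖v x‖ ≤ K * ‖x‖) :=
  ⟨vv b, contDiff_vv b, norm_fderiv_vv b, ⟨3 * 2 ^ (2 * N - 1), by positivity, tau_vv b hN⟩,
    vir_vv b, norm_vv_le b⟩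

end field

end Crest.Agent.R330.TightF291

end
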