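import Crest.Agent.R330.VacSec2_255
import Crest.Agent.R330.Cliff6_442
import Crest.Agent.R330.SInd_478
import Crest.Agent.R330.TPk_776
import Crest.Agent.R330.Chn_692
import Crest.Agent.R330.AFld_984

-- ▼ part R330/VacSec3_255
section

/-!
# Row 330 (helper255): the explicit section of heavy vacua, algebra

* `gc`, `Gc`, `gv v = Σ v_i γ^i` (complexified), anticommutators, transposes, reality, traces.
* `un v = v/|v|`, `bp v` = the last six components.
* `K0 v = -Γ` (`v ≠ 0`), `Kn v = -i γ·v/|v|`, `Km v = -i γ·bp v/|bp v|`,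
  `K1 = (K0 + Km)/√2`, `K2 = -i γ·q`, `q` the midpoint of `v/|v|` and `bp v/|bp v|`.
* `pa K r a d = K (r a - r d)`.
-/

set_option autoImplicit false
set_option linter.unusedSectionVars false

noncomputable section

open scoped InnerProductSpace Matrix
open Crest.MathPhysics.MatrixQM

namespace Crest.Agent.R330.VacSec255

variable {N : ℕ}

/-- positions -/
abbrev E9 := EuclideanSpace ℝ (Fin 9)

/-- spinor matrices -/
abbrev M16 := Matrix (Fin 16) (Fin 16) ℂ

/-- complexification -/
def cM : Matrix (Fin 16) (Fin 16) ℝ →+* M16 := (algebraMap ℝ ℂ).mapMatrix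

theorem cM_apply (A : Matrix (Fin 16) (Fin 16) ℝ) (α β : Fin 16) : cM A α β = (A α β : ℂ) := rfl

theorem cM_transpose (A : Matrix (Fin 16) (Fin 16) ℝ) : (cM A)ᵀ = cM Aᵀ := rfl

theorem cM_trace (A : Matrix (Fin 16) (Fin 16) ℝ) : (cM A).trace = (A.trace : ℂ) := by
  simp only [Matrix.trace, Matrix.diag_apply, cM_apply, Complex.ofReal_sum]

variable (G : GammaNine)

/-- `γ^i` -/
def gc (i : Fin 9) : M16 := cM (G.γ i)

/-- `Γ` -/
def Gc : M16 := cM (Defs478.Gam G)

/-- `Σ v_i γ^i` -/
def gv (v : E9) : M16 := ∑ i, (v i : ℂ) • gc G i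

theorem gc_sq (i : Fin 9) : gc G i * gc G i = 1 := by
  rw [gc, ← map_mul, Gam962.sq_one, map_one]

theorem gc_anti {i j : Fin 9} (h : i ≠ j) : gc G i * gc G j = -(gc G j * gc G i) := by
  rw [gc, gc, ← map_mul, ← map_mul, Gam962.anti G h, map_neg]

theorem gc_transpose (i : Fin 9) : (gc G i)ᵀ = gc G i := by
  rw [gc, cM_transpose, G.symm]

theorem Gc_eq : Gc G = gc G 0 * gc G 1 * gc G 2 := by
  rw [Gc, Defs478.Gam, map_mul, map_mul]
  rfl

theorem gv_apply (v : E9) (α β : Fin 16) : gv G v α β = ∑ i, (v i : ℂ) * gc G i α β := by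
  rw [gv, Matrix.sum_apply]
  rfl

theorem gv_add (v w : E9) : gv G (v + w) = gv G v + gv G w := by
  simp only [gv, PiLp.add_apply, Complex.ofReal_add, add_smul, Finset.sum_add_distrib]

theorem gv_smul (t : ℝ) (v : E9) : gv G (t • v) = (t : ℂ) • gv G v := by
  simp only [gv, PiLp.smul_apply, smul_eq_mul, Complex.ofReal_mul, mul_smul, Finset.smul_sum]

theorem gv_neg (v : E9) : gv G (-v) = -gv G v := by
  rw [← neg_one_smul ℝ v, gv_smul, Complex.ofReal_neg, Complex.ofReal_one, neg_one_smul]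


theorem gv_zero : gv G 0 = 0 := by
  simp [gv]

theorem gv_transpose (v : E9) : (gv G v)ᵀ = gv G v := by
  rw [gv, Matrix.transpose_sum]
  refine Finset.sum_congr rfl fun i _ => ?_
  rw [Matrix.transpose_smul, gc_transpose]

theorem gv_conj (v : E9) (α β : Fin 16) : (starRingEnd ℂ) (gv G v α β) = gv G v α β := by
  rw [gv_apply, map_sum]
  refine Finset.sum_congr rfl fun i _ => ?_
  rw [map_mul, Complex.conj_ofReal, gc, cM_apply, Complex.conj_ofReal]

/-- `{γ·v, γ·w} = 2 v·w`. -/
theorem gv_anti (v w : E9) :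
    gv G v * gv G w + gv G w * gv G v = ((2 * ⟪v, w⟫_ℝ : ℝ) : ℂ) • (1 : M16) := by
  have h1 : ∀ v w : E9, gv G v * gv G w = ∑ i, ∑ j, ((v i : ℂ) * (w j : ℂ)) • (gc G i * gc G j) := by
    intro v w
    rw [gv, gv, Finset.sum_mul_sum]
    refine Finset.sum_congr rfl fun i _ => Finset.sum_congr rfl fun j _ => ?_
    rw [smul_mul_smul_comm]
  have h2 : gv G w * gv G v = ∑ i, ∑ j, ((v i : ℂ) * (w j : ℂ)) • (gc G j * gc G i) := by
    rw [h1, Finset.sum_comm]
    refine Finset.sum_congr rfl fun i _ => Finset.sum_congr rfl fun j _ => ?_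
    rw [mul_comm]
  rw [h1 v w, h2, ← Finset.sum_add_distrib]
  have h3 : ∀ i, (∑ j, ((v i : ℂ) * (w j : ℂ)) • (gc G i * gc G j)) +
      ∑ j, ((v i : ℂ) * (w j : ℂ)) • (gc G j * gc G i) =
      ((2 * (v i * w i) : ℝ) : ℂ) • (1 : M16) := by
    intro i
    rw [← Finset.sum_add_distrib, Finset.sum_eq_single i]
    · rw [gc_sq, ← add_smul]
      congr 1
      push_cast
      ring
    · intro j _ hj
      rw [gc_anti G hj, smul_neg, add_neg_cancel]
    · intro h; exact absurd (Finset.mem_univ _) h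
  rw [Finset.sum_congr rfl fun i _ => h3 i, ← Finset.sum_smul, ← Complex.ofReal_sum]
  congr 2
  rw [← Finset.mul_sum, PiLp.inner_apply]
  congr 1
  refine Finset.sum_congr rfl fun i _ => ?_
  simp [mul_comm]

theorem gv_sq (v : E9) : gv G v * gv G v = ((‖v‖ ^ 2 : ℝ) : ℂ) • (1 : M16) := by
  have h := gv_anti G v v
  rw [← two_smul ℂ, real_inner_self_eq_norm_sq] at h
  have h2 : gv G v * gv G v = (1 / 2 : ℂ) • ((2 : ℂ) • (gv G v * gv G v)) := by
    rw [smul_smul]
    norm_num
  rw [h2, h, smul_smul]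
  congr 1
  push_cast
  ring

/-! ### `Γ` -/

theorem Gc_sq : Gc G * Gc G = -1 := by
  have a01 := gc_anti G (show (0 : Fin 9) ≠ 1 by decide)
  have a02 := gc_anti G (show (0 : Fin 9) ≠ 2 by decide)
  have a12 := gc_anti G (show (1 : Fin 9) ≠ 2 by decide)
  have s0 := gc_sq G 0
  have s1 := gc_sq G 1
  have s2 := gc_sq G 2
  rw [Gc_eq]
  set x := gc G 0
  set y := gc G 1
  set z := gc G 2
  calc x * y * z * (x * y * z) = x * y * (z * x) * y * z := by noncomm_ring
    _ = x * y * (-(x * z)) * y * z := by rw [a02, neg_neg]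
    _ = -(x * (y * x) * (z * y) * z) := by noncomm_ring
    _ = -(x * (-(x * y)) * (-(y * z)) * z) := by rw [a01, a12, neg_neg, neg_neg]
    _ = -(x * x * (y * y) * (z * z)) := by noncomm_ring
    _ = -1 := by rw [s0, s1, s2, one_mul, one_mul]

theorem Gc_transpose : (Gc G)ᵀ = -Gc G := by
  have a01 := gc_anti G (show (0 : Fin 9) ≠ 1 by decide)
  have a02 := gc_anti G (show (0 : Fin 9) ≠ 2 by decide)
  have a12 := gc_anti G (show (1 : Fin 9) ≠ 2 by decide)
  rw [Gc_eq, Matrix.transpose_mul, Matrix.transpose_mul, gc_transpose, gc_transpose, gc_transpose]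
  set x := gc G 0
  set y := gc G 1
  set z := gc G 2
  calc z * (y * x) = z * (-(x * y)) := by rw [a01, neg_neg]
    _ = -(z * x) * y := by noncomm_ring
    _ = -(-(x * z)) * y := by rw [a02, neg_neg]
    _ = x * (z * y) := by noncomm_ring
    _ = x * (-(y * z)) := by rw [a12, neg_neg]
    _ = -(x * y * z) := by noncomm_ring

theorem Gc_conj (α β : Fin 16) : (starRingEnd ℂ) (Gc G α β) = Gc G α β := by
  rw [Gc, cM_apply, Complex.conj_ofReal]

theorem gc_Gc {i : Fin 9} (h : 3 ≤ (i : ℕ)) : gc G i * Gc G = -(Gc G * gc G i) := by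
  have h0 : i ≠ 0 := fun h' => by rw [h'] at h; simp at h
  have h1 : i ≠ 1 := fun h' => by rw [h'] at h; simp at h
  have h2 : i ≠ 2 := fun h' => by
    rw [h'] at h
    have : ((2 : Fin 9) : ℕ) = 2 := rfl
    omega
  have a0 := gc_anti G h0
  have a1 := gc_anti G h1
  have a2 := gc_anti G h2
  rw [Gc_eq]
  set x := gc G 0
  set y := gc G 1
  set z := gc G 2
  set w := gc G i
  calc w * (x * y * z) = w * x * y * z := by noncomm_ring
    _ = -(x * (w * y) * z) := by rw [a0]; noncomm_ring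
    _ = x * y * (w * z) := by rw [a1]; noncomm_ring
    _ = -(x * y * z * w) := by rw [a2]; noncomm_ring

/-- The last six components. -/
def bp : E9 →L[ℝ] E9 := LinearMap.toContinuousLinearMap
  { toFun := fun v => WithLp.toLp 2 fun i => if (i : ℕ) < 3 then 0 else v i
    map_add' := fun v w => by
      ext i
      simp only [PiLp.add_apply]
      split_ifs <;> simp
    map_smul' := fun t v => by
      ext i
      simp only [PiLp.smul_apply, RingHom.id_apply, smul_eq_mul]
      split_ifs <;> simp }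

theorem bp_apply (v : E9) (i : Fin 9) : bp v i = if (i : ℕ) < 3 then 0 else v i := rfl

theorem bp_bp (v : E9) : bp (bp v) = bp v := by
  ext i
  rw [bp_apply, bp_apply]
  split_ifs <;> rfl

theorem inner_bp (v : E9) : ⟪bp v, v⟫_ℝ = ‖bp v‖ ^ 2 := by
  rw [← real_inner_self_eq_norm_sq, PiLp.inner_apply, PiLp.inner_apply]
  refine Finset.sum_congr rfl fun i _ => ?_
  rw [bp_apply]
  split_ifs <;> simp

/-- `Γ` anticommutes with `γ·bp v`. -/
theorem gv_Gc {v : E9} (h : bp v = v) : gv G v * Gc G = -(Gc G * gv G v) := by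
  rw [gv, Finset.sum_mul, Finset.mul_sum, ← Finset.sum_neg_distrib]
  refine Finset.sum_congr rfl fun i _ => ?_
  rw [smul_mul_assoc, mul_smul_comm, ← smul_neg]
  by_cases hi : (i : ℕ) < 3
  · have h0 : v i = 0 := by rw [← h, bp_apply, if_pos hi]
    rw [h0, Complex.ofReal_zero, zero_smul, zero_smul]
  · rw [gc_Gc G (not_lt.1 hi)]

/-! ### Traces -/

theorem trace_zero_of_anti {X : M16} (l : Fin 9) (h : gc G l * X = -(X * gc G l)) :
    X.trace = 0 := by
  have h1 : X.trace = (gc G l * (gc G l * X)).trace := by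
    rw [← mul_assoc, gc_sq, one_mul]
  have h2 : (gc G l * (gc G l * X)).trace = -X.trace := by
    rw [h, mul_neg, Matrix.trace_neg, Matrix.trace_mul_comm, mul_assoc, gc_sq, mul_one]
  have h3 := h1.trans h2
  have : X.trace + X.trace = 0 := by
    nth_rewrite 1 [h3]
    ring
  have h4 : (2 : ℂ) * X.trace = 0 := by rw [two_mul, this]
  exact (mul_eq_zero.1 h4).resolve_left two_ne_zero

theorem exists_not_mem3 (i j k : Fin 9) : ∃ l : Fin 9, l ≠ i ∧ l ≠ j ∧ l ≠ k := by
  revert i j k
  decide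

theorem trace_gc (i : Fin 9) : (gc G i).trace = 0 := by
  rw [gc, cM_trace, Gam962.trace_gam, Complex.ofReal_zero]

theorem trace_gc3 (i j k : Fin 9) : (gc G i * gc G j * gc G k).trace = 0 := by
  obtain ⟨l, h1, h2, h3⟩ := exists_not_mem3 i j k
  refine trace_zero_of_anti G l ?_
  have a0 := gc_anti G h1
  have a1 := gc_anti G h2
  have a2 := gc_anti G h3
  calc gc G l * (gc G i * gc G j * gc G k) = (gc G l * gc G i) * gc G j * gc G k := by
        noncomm_ring
    _ = -(gc G i * (gc G l * gc G j) * gc G k) := by rw [a0]; noncomm_ring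
    _ = gc G i * gc G j * (gc G l * gc G k) := by rw [a1]; noncomm_ring
    _ = -(gc G i * gc G j * gc G k * gc G l) := by rw [a2]; noncomm_ring

theorem trace_gv (v : E9) : (gv G v).trace = 0 := by
  rw [gv, Matrix.trace_sum]
  refine Finset.sum_eq_zero fun i _ => ?_
  rw [Matrix.trace_smul, trace_gc, smul_zero]

/-- **Three gammas have trace zero.** -/
theorem trace_gv3 (u v w : E9) : (gv G u * gv G v * gv G w).trace = 0 := by
  simp only [gv, Finset.sum_mul, Finset.mul_sum, Matrix.trace_sum, smul_mul_assoc,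
    mul_smul_comm, Matrix.trace_smul, trace_gc3, smul_zero, Finset.sum_const_zero]

theorem exists_not_mem_b (i j : Fin 9) : ∃ l : Fin 9, 3 ≤ (l : ℕ) ∧ l ≠ i ∧ l ≠ j := by
  revert i j
  decide

/-- **Two gammas of the last six and `Γ`.** -/
theorem trace_gv2_Gc {u v : E9} : (gv G u * gv G v * Gc G).trace = 0 := by
  have h1 : ∀ i j : Fin 9, (gc G i * gc G j * Gc G).trace = 0 := by
    intro i j
    obtain ⟨l, h0, h1, h2⟩ := exists_not_mem_b i j
    refine trace_zero_of_anti G l ?_
    have a0 := gc_anti G h1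
    have a1 := gc_anti G h2
    have a2 := gc_Gc G h0
    calc gc G l * (gc G i * gc G j * Gc G) = (gc G l * gc G i) * gc G j * Gc G := by
          noncomm_ring
      _ = -(gc G i * (gc G l * gc G j) * Gc G) := by rw [a0]; noncomm_ring
      _ = gc G i * gc G j * (gc G l * Gc G) := by rw [a1]; noncomm_ring
      _ = -(gc G i * gc G j * Gc G * gc G l) := by rw [a2]; noncomm_ring
  simp only [gv, Finset.sum_mul, Finset.mul_sum, Matrix.trace_sum, smul_mul_assoc,
    mul_smul_comm, Matrix.trace_smul, h1, smul_zero, Finset.sum_const_zero]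


/-! ### Normalised vectors -/

/-- `v/|v|`. -/
def un (v : E9) : E9 := ‖v‖⁻¹ • v

theorem un_zero : un 0 = 0 := by simp [un]

theorem un_neg (v : E9) : un (-v) = -un v := by simp [un]

theorem norm_un {v : E9} (h : v ≠ 0) : ‖un v‖ = 1 := by
  rw [un, norm_smul, norm_inv, norm_norm, inv_mul_cancel₀ (norm_ne_zero_iff.2 h)]

theorem bp_un {v : E9} (h : bp v = v) : bp (un v) = un v := by
  rw [un, map_smul, h]

/-- the midpoint -/
def qv (v : E9) : E9 := un (un (bp v) + un v)

theorem qv_neg (v : E9) : qv (-v) = -qv v := by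
  rw [qv, map_neg, un_neg, un_neg, ← neg_add, un_neg, qv]

theorem qv_zero : qv 0 = 0 := by
  rw [qv, map_zero, un_zero, add_zero, un_zero]

theorem inner_un_pos {v : E9} (h : bp v ≠ 0) : 0 < ⟪un (bp v), un v⟫_ℝ := by
  have hv : v ≠ 0 := fun h' => h (by rw [h', map_zero])
  rw [un, un, real_inner_smul_left, real_inner_smul_right, inner_bp]
  have h1 : 0 < ‖v‖ := norm_pos_iff.2 hv
  have h2 : 0 < ‖bp v‖ := norm_pos_iff.2 h
  positivity

theorem mid_ne_zero {v : E9} (h : bp v ≠ 0) : un (bp v) + un v ≠ 0 := by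
  intro h0
  have hv : v ≠ 0 := fun h' => h (by rw [h', map_zero])
  have h1 : un (bp v) = -un v := eq_neg_of_add_eq_zero_left h0
  have h2 := inner_un_pos h
  rw [h1, inner_neg_left, real_inner_self_eq_norm_sq] at h2
  have := sq_nonneg ‖un v‖
  linarith

/-- `2 (q·p) q = p + n` for the midpoint. -/
theorem qv_refl {v : E9} (h : bp v ≠ 0) :
    (2 * ⟪qv v, un (bp v)⟫_ℝ) • qv v = un (bp v) + un v := by
  have hv : v ≠ 0 := fun h' => h (by rw [h', map_zero])
  have hp := norm_un h
  have hn := norm_un hv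
  have hm := mid_ne_zero h
  set p := un (bp v) with hpd
  set n := un v with hnd
  have h1 : ‖p + n‖ ^ 2 = 2 * ⟪p + n, p⟫_ℝ := by
    rw [norm_add_sq_real, inner_add_left, real_inner_self_eq_norm_sq, hp, hn, real_inner_comm p n]
    ring
  have h2 : qv v = ‖p + n‖⁻¹ • (p + n) := rfl
  have h3 : ‖p + n‖ ≠ 0 := norm_ne_zero_iff.2 hm
  rw [h2, real_inner_smul_left, smul_smul]
  have h4 : 2 * (‖p + n‖⁻¹ * ⟪p + n, p⟫_ℝ) * ‖p + n‖⁻¹ = 1 := by
    have : 2 * (‖p + n‖⁻¹ * ⟪p + n, p⟫_ℝ) * ‖p + n‖⁻¹ =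
        (2 * ⟪p + n, p⟫_ℝ) * (‖p + n‖⁻¹ * ‖p + n‖⁻¹) := by ring
    rw [this, ← h1]
    field_simp
  rw [h4, one_smul]

/-! ### The pair functions -/

/-- reference structure -/
def K0 (v : E9) : M16 := if v = 0 then 0 else -Gc G

/-- the structure of a direction -/
def Kv (v : E9) : M16 := (-Complex.I) • gv G v

/-- `-i γ·v/|v|` -/
def Kn (v : E9) : M16 := Kv G (un v)

/-- `-i γ·bp v/|bp v|` -/
def Km (v : E9) : M16 := Kv G (un (bp v))

/-- `(K0 + Km)/√2` -/
def K1 (v : E9) : M16 := ((Real.sqrt 2)⁻¹ : ℂ) • (K0 G v + Km G v)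

/-- `-i γ·q` -/
def K2 (v : E9) : M16 := Kv G (qv v)

theorem Kv_neg (v : E9) : Kv G (-v) = -Kv G v := by
  rw [Kv, gv_neg, smul_neg, Kv]

theorem Kv_zero : Kv G 0 = 0 := by rw [Kv, gv_zero, smul_zero]

theorem Kv_transpose (v : E9) : (Kv G v)ᵀ = Kv G v := by
  rw [Kv, Matrix.transpose_smul, gv_transpose]

theorem Kv_conj (v : E9) (α β : Fin 16) :
    (starRingEnd ℂ) (Kv G v α β) = -Kv G v α β := by
  rw [Kv, Matrix.smul_apply, smul_eq_mul, map_mul, gv_conj, map_neg, Complex.conj_I]
  ring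

theorem Kv_sq {v : E9} (h : ‖v‖ = 1) : Kv G v * Kv G v = -1 := by
  rw [Kv, smul_mul_smul_comm, gv_sq, h, neg_mul_neg, Complex.I_mul_I]
  simp

/-- An odd pair function with the right symmetry. -/
structure Good (K : E9 → M16) : Prop where
  zero : K 0 = 0
  skew : ∀ v, (K (-v))ᵀ = -K v
  real : ∀ v α β, (starRingEnd ℂ) (K v α β) = K (-v) α β

theorem good_K0 : Good (K0 G) where
  zero := by simp [K0]
  skew := fun v => by
    unfold K0
    by_cases h : v = 0
    · simp [h]
    · rw [if_neg h, if_neg (neg_ne_zero.2 h), Matrix.transpose_neg, Gc_transpose]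
  real := fun v α β => by
    unfold K0
    by_cases h : v = 0
    · simp [h]
    · rw [if_neg h, if_neg (neg_ne_zero.2 h), Matrix.neg_apply, map_neg, Gc_conj]

theorem good_Kv {w : E9 → E9} (h0 : w 0 = 0) (hn : ∀ v, w (-v) = -w v) :
    Good fun v => Kv G (w v) where
  zero := by rw [h0, Kv_zero]
  skew := fun v => by rw [hn, Kv_neg, Matrix.transpose_neg, Kv_transpose]
  real := fun v α β => by rw [Kv_conj, hn, Kv_neg, Matrix.neg_apply]

theorem good_Kn : Good (Kn G) := good_Kv G un_zero un_neg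

theorem good_Km : Good (Km G) :=
  good_Kv G (w := fun v => un (bp v)) (by rw [map_zero, un_zero]) fun v => by
    rw [map_neg, un_neg]

theorem good_K2 : Good (K2 G) := good_Kv G qv_zero qv_neg

theorem good_K1 : Good (K1 G) where
  zero := by
    rw [K1, (good_K0 G).zero, (good_Km G).zero, add_zero, smul_zero]
  skew := fun v => by
    rw [K1, Matrix.transpose_smul, Matrix.transpose_add, (good_K0 G).skew, (good_Km G).skew, K1]
    module
  real := fun v α β => by
    rw [K1, K1, Matrix.smul_apply, Matrix.smul_apply, smul_eq_mul, smul_eq_mul, map_mul,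
      Matrix.add_apply, Matrix.add_apply, map_add, (good_K0 G).real, (good_Km G).real, map_inv₀,
      Complex.conj_ofReal]

/-! ### Pointwise relations -/

variable {v : E9}

theorem K0_sq (h : bp v ≠ 0) : K0 G v * K0 G v = -1 := by
  have hv : v ≠ 0 := fun h' => h (by rw [h', map_zero])
  rw [K0, if_neg hv, neg_mul_neg, Gc_sq]

theorem Kn_sq (h : bp v ≠ 0) : Kn G v * Kn G v = -1 := by
  have hv : v ≠ 0 := fun h' => h (by rw [h', map_zero])
  exact Kv_sq G (norm_un hv)

theorem Km_sq (h : bp v ≠ 0) : Km G v * Km G v = -1 := Kv_sq G (norm_un h)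

theorem K2_sq (h : bp v ≠ 0) : K2 G v * K2 G v = -1 := Kv_sq G (norm_un (mid_ne_zero h))

theorem K0_Km (h : bp v ≠ 0) : Km G v * K0 G v = -(K0 G v * Km G v) := by
  have hv : v ≠ 0 := fun h' => h (by rw [h', map_zero])
  rw [K0, if_neg hv, Km, Kv, smul_mul_assoc, mul_smul_comm, mul_neg, neg_mul, gv_Gc G]
  · rw [smul_neg, smul_neg]
  · exact bp_un (bp_bp v)

theorem sqrt_two_sq : ((Real.sqrt 2)⁻¹ : ℂ) * ((Real.sqrt 2)⁻¹ : ℂ) = 1 / 2 := by
  rw [← mul_inv, ← Complex.ofReal_mul, Real.mul_self_sqrt (by norm_num)]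
  norm_num

theorem K1_sq (h : bp v ≠ 0) : K1 G v * K1 G v = -1 := by
  have h1 := K0_sq G h
  have h2 := Km_sq G h
  have h3 := K0_Km G h
  rw [K1, smul_mul_smul_comm, sqrt_two_sq]
  have : (K0 G v + Km G v) * (K0 G v + Km G v) =
      K0 G v * K0 G v + K0 G v * Km G v + Km G v * K0 G v + Km G v * Km G v := by noncomm_ring
  rw [this, h1, h2, h3]
  have h4 : -1 + K0 G v * Km G v + -(K0 G v * Km G v) + -1 = (-2 : ℂ) • (1 : M16) := by
    module
  rw [h4, smul_smul]
  norm_num

/-- the first quarter turn -/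
theorem K1_conj (h : bp v ≠ 0) : K1 G v * K0 G v * -K1 G v = Km G v := by
  have h1 := K0_sq G h
  have h2 := Km_sq G h
  have h3 := K0_Km G h
  rw [K1, smul_mul_assoc, mul_neg, smul_mul_smul_comm, sqrt_two_sq]
  have h5 : (K0 G v + Km G v) * K0 G v * (K0 G v + Km G v) =
      K0 G v * K0 G v * K0 G v + K0 G v * K0 G v * Km G v + Km G v * (K0 G v * K0 G v) +
      (Km G v * K0 G v) * Km G v := by noncomm_ring
  have h6 : Km G v * K0 G v * Km G v = K0 G v := by
    rw [h3, neg_mul, mul_assoc, h2, mul_neg, mul_one, neg_neg]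
  rw [h5, h6, h1]
  rw [neg_one_mul, neg_one_mul, mul_neg, mul_one]
  module

/-- the second quarter turn -/
theorem K2_conj (h : bp v ≠ 0) : K2 G v * Km G v * -K2 G v = Kn G v := by
  have hq : ‖qv v‖ = 1 := norm_un (mid_ne_zero h)
  have h1 : gv G (qv v) * gv G (un (bp v)) * gv G (qv v) = gv G (un v) := by
    have e1 := gv_anti G (qv v) (un (bp v))
    have e2 : gv G (qv v) * gv G (un (bp v)) =
        ((2 * ⟪qv v, un (bp v)⟫_ℝ : ℝ) : ℂ) • (1 : M16) - gv G (un (bp v)) * gv G (qv v) :=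
      eq_sub_of_add_eq e1
    rw [e2, sub_mul, mul_assoc, gv_sq, hq, smul_mul_assoc, one_mul, ← gv_smul, qv_refl h, gv_add]
    simp
  rw [K2, Km, Kn, Kv, Kv, Kv, smul_mul_smul_comm, mul_neg, smul_mul_smul_comm, h1, ← neg_smul]
  congr 1
  rw [neg_mul_neg, Complex.I_mul_I]
  ring

end Crest.Agent.R330.VacSec255
end
end

-- ▼ part R330/VacSec4_255
section

/-!
# Row 330 (helper255): the explicit section of heavy vacua

For positions with multiplicity `r : Fin N → E9`:

* `Jref b G r` reference structure (`-Γ` on the heavy pairs), `Jop b G r` = `-i γ·(r_a-r_d)/|r_a-r_d|`.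
* `UU r` : heavy pairs have a non zero component among the last six directions.
* `Wop b G M r : F →L[ℂ] F`.
* `Wop_inner`, `Wop_bijective`; `pvac_Wop_iff`; `Wop_light`; `rho_Wop` (gauge covariance, contains
  the exchange sign `+`).
-/

set_option autoImplicit false
set_option linter.unusedSectionVars false
set_option linter.style.haveILetI false

noncomputable section

open scoped InnerProductSpace Matrix
open Crest.MathPhysics.MatrixQM

namespace Crest.Agent.R330.VacSec255

variable {N : ℕ}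

/-- The array of a pair function. -/
def pa (K : E9 → M16) (r : Fin N → E9) : PA N := fun a d => K (r a - r d)

/-- Heavy pairs have a component among the last six directions. -/
def UU (r : Fin N → E9) : Prop := ∀ a d, r a ≠ r d → bp (r a - r d) ≠ 0

theorem dc_pa {K : E9 → M16} (r : Fin N → E9) : DC (pa K r) := fun a d => by
  simp only [pa, sub_self]

/-- Pointwise verification: light pairs and heavy pairs. -/
theorem pa_cases {r : Fin N → E9} (hr : UU r) (P : E9 → Prop) (h0 : P 0)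
    (h1 : ∀ v, bp v ≠ 0 → P v) (a d : Fin N) : P (r a - r d) := by
  by_cases h : r a = r d
  · rw [h, sub_self]
    exact h0
  · exact h1 _ (hr a d h)

variable (b : ColorBasis N) (G : GammaNine)

theorem pa_skew {K : E9 → M16} (h : Good K) (r : Fin N → E9) :
    (Op b (pa K r))ᵀ = -Op b (pa K r) := by
  refine Op_skew b fun a d => ?_
  change (K (r d - r a))ᵀ = -K (r a - r d)
  rw [← neg_sub (r a) (r d), h.skew]

theorem pa_real {K : E9 → M16} (h : Good K) (r : Fin N → E9) : IsReal (Op b (pa K r)) := by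
  refine Op_isReal b fun a d α β => ?_
  change (starRingEnd ℂ) (K (r a - r d) α β) = K (r d - r a) α β
  rw [← neg_sub (r a) (r d), h.real]

theorem pa_cube {K : E9 → M16} (h : Good K) (h2 : ∀ v, bp v ≠ 0 → K v * K v = -1)
    {r : Fin N → E9} (hr : UU r) :
    Op b (pa K r) * Op b (pa K r) * Op b (pa K r) = -Op b (pa K r) := by
  rw [← Op_mul b _ _ (dc_pa r), ← Op_mul b _ _ (dc_pa r), ← Op_neg]
  congr 1
  funext a d
  refine pa_cases hr (fun v => K v * K v * K v = -K v) ?_ ?_ a d
  · rw [h.zero]; simp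
  · intro v hv
    rw [h2 v hv, neg_one_mul]

/-- `rt` of a pair operator. -/
theorem rt_Op {c : PA N} (h : DC c) : rt (Op b c) = Op b (1 + c * c + c) := by
  rw [rt, Op_add, Op_add, Op_one, Op_mul b _ _ h]

/-- Conjugation by the quarter turn. -/
theorem rt_conj {K J J' : E9 → M16} (hJ : Good J) (hJ' : Good J')
    (h2 : ∀ v, bp v ≠ 0 → K v * K v = -1) (h3 : ∀ v, bp v ≠ 0 → K v * J v * -K v = J' v)
    {r : Fin N → E9} (hr : UU r) :
    rt (Op b (pa K r)) * Op b (pa J r) * rt (-Op b (pa K r)) = Op b (pa J' r) := by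
  have d1 : DC (1 + -pa K r * -pa K r + -pa K r) :=
    (DC.one.add ((dc_pa r).neg.mul (dc_pa r).neg)).add (dc_pa r).neg
  rw [← Op_neg, rt_Op b (dc_pa r), rt_Op b (dc_pa r).neg, ← Op_mul b _ _ (dc_pa r),
    ← Op_mul b _ _ d1]
  congr 1
  funext a d
  refine pa_cases hr (fun v => (1 + K v * K v + K v) * J v * (1 + -K v * -K v + -K v) = J' v)
    ?_ ?_ a d
  · rw [hJ.zero, hJ'.zero]; simp
  · intro v hv
    rw [neg_mul_neg, h2 v hv, add_neg_cancel, zero_add, zero_add, h3 v hv]

/-! ### The section -/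

/-- The reference complex structure on the heavy pairs. -/
def Jref (r : Fin N → E9) : Matrix (IX N) (IX N) ℂ := Op b (pa (K0 G) r)

/-- The complex structure of the configuration. -/
def Jop (r : Fin N → E9) : Matrix (IX N) (IX N) ℂ := Op b (pa (Kn G) r)

/-- the intermediate one -/
def Jmid (r : Fin N → E9) : Matrix (IX N) (IX N) ℂ := Op b (pa (Km G) r)


variable {F : Type*} [NormedAddCommGroup F] [InnerProductSpace ℂ F] [FiniteDimensional ℂ F]

/-- The first quarter turn. -/
def W1 (M : FermionRep N F) (r : Fin N → E9) : F →L[ℂ] F :=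
  haveI : CompleteSpace F := FiniteDimensional.complete ℂ F
  W (thC M) (Op b (pa (K1 G) r))

/-- The second quarter turn. -/
def W2 (M : FermionRep N F) (r : Fin N → E9) : F →L[ℂ] F :=
  haveI : CompleteSpace F := FiniteDimensional.complete ℂ F
  W (thC M) (Op b (pa (K2 G) r))

/-- **The section of heavy vacua.** -/
def Wop (M : FermionRep N F) (r : Fin N → E9) : F →L[ℂ] F := W2 b G M r * W1 b G M r

theorem Wop_apply (M : FermionRep N F) (r : Fin N → E9) (v : F) :
    Wop b G M r v = W2 b G M r (W1 b G M r v) := rfl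

theorem W_neg_mul [CompleteSpace F] {I : Type*} [Fintype I] [DecidableEq I]
    (θ : I → (F →L[ℂ] F)) (Q : Matrix I I ℂ) : W θ (-Q) * W θ Q = 1 := by
  let _ : NormedAlgebra ℚ (F →L[ℂ] F) := NormedAlgebra.restrictScalars ℚ ℂ (F →L[ℂ] F)
  unfold W
  rw [spin_neg, smul_neg, ← NormedSpace.exp_add_of_commute, neg_add_cancel, NormedSpace.exp_zero]
  exact (Commute.refl _).neg_left

theorem W_inner [CompleteSpace F] {I : Type*} [Fintype I] [DecidableEq I]
    {θ : I → (F →L[ℂ] F)} (h : CF θ) {Q : Matrix I I ℂ} (hQ : Qᵀ = -Q) (hr : IsReal Q)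
    (v w : F) : ⟪W θ Q v, W θ Q w⟫_ℂ = ⟪v, w⟫_ℂ := by
  have h1 := h.W_unitary hQ hr
  have h2 : star (W θ Q) * W θ Q = 1 := (Unitary.mem_iff.1 h1).1
  have h3 : ⟪W θ Q v, W θ Q w⟫_ℂ = ⟪v, (star (W θ Q)) (W θ Q w)⟫_ℂ := by
    rw [ContinuousLinearMap.star_eq_adjoint, ContinuousLinearMap.adjoint_inner_right]
  rw [h3]
  have h4 : (star (W θ Q)) (W θ Q w) = w := congrArg (fun T : F →L[ℂ] F => T w) h2
  rw [h4]

variable {M : FermionRep N F}

/-- **The section is isometric.** -/
theorem W1_inner (r : Fin N → E9) (v w : F) :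
    ⟪W1 b G M r v, W1 b G M r w⟫_ℂ = ⟪v, w⟫_ℂ := by
  haveI : CompleteSpace F := FiniteDimensional.complete ℂ F
  exact W_inner (cf_thC M) (pa_skew b (good_K1 G) r) (pa_real b (good_K1 G) r) v w

theorem W2_inner (r : Fin N → E9) (v w : F) :
    ⟪W2 b G M r v, W2 b G M r w⟫_ℂ = ⟪v, w⟫_ℂ := by
  haveI : CompleteSpace F := FiniteDimensional.complete ℂ F
  exact W_inner (cf_thC M) (pa_skew b (good_K2 G) r) (pa_real b (good_K2 G) r) v w

theorem Wop_inner (r : Fin N → E9) (v w : F) :
    ⟪Wop b G M r v, Wop b G M r w⟫_ℂ = ⟪v, w⟫_ℂ := by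
  rw [Wop_apply, Wop_apply, W2_inner, W1_inner]

theorem Wop_norm (r : Fin N → E9) (v : F) : ‖Wop b G M r v‖ = ‖v‖ := by
  have h := Wop_inner b G (M := M) r v v
  rw [inner_self_eq_norm_sq_to_K, inner_self_eq_norm_sq_to_K] at h
  have h2 : ‖Wop b G M r v‖ ^ 2 = ‖v‖ ^ 2 := by exact_mod_cast h
  exact (sq_eq_sq₀ (norm_nonneg _) (norm_nonneg _)).1 h2

theorem Wop_bijective (r : Fin N → E9) : Function.Bijective (Wop b G M r) := by
  have hinj : Function.Injective (Wop b G M r : F →ₗ[ℂ] F) := by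
    intro v w h
    have h1 : Wop b G M r (v - w) = 0 := by
      rw [map_sub]
      exact sub_eq_zero.2 h
    have h2 := Wop_norm b G (M := M) r (v - w)
    rw [h1, norm_zero] at h2
    exact sub_eq_zero.1 (norm_eq_zero.1 h2.symm)
  exact ⟨hinj, LinearMap.injective_iff_surjective.1 hinj⟩

/-- **(B) light generators commute with the section.** `u` is light if its colour matrices vanish
at the heavy pairs. -/
theorem Wop_light {r : Fin N → E9} (hr : UU r) {u : IX N → ℂ}
    (hu : ∀ a d, r a ≠ r d → ∀ β, cm b u β a d = 0) :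
    Wop b G M r * th (thC M) u = th (thC M) u * Wop b G M r := by
  haveI : CompleteSpace F := FiniteDimensional.complete ℂ F
  have h0 : ∀ K : E9 → M16, Good K → Op b (pa K r) *ᵥ u = 0 := fun K hK => by
    refine Op_mulVec_light b fun a d => ?_
    by_cases h : r a = r d
    · left
      change K (r a - r d) = 0
      rw [h, sub_self, hK.zero]
    · exact Or.inr (hu a d h)
  have h1 : W1 b G M r * th (thC M) u = th (thC M) u * W1 b G M r := by
    have := th_through ((cf_thC M).W_theta (pa_skew b (good_K1 G) r)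
      (pa_cube b (good_K1 G) (fun v hv => K1_sq G hv) hr)) u
    rwa [rt_mulVec (h0 _ (good_K1 G))] at this
  have h2 : W2 b G M r * th (thC M) u = th (thC M) u * W2 b G M r := by
    have := th_through ((cf_thC M).W_theta (pa_skew b (good_K2 G) r)
      (pa_cube b (good_K2 G) (fun v hv => K2_sq G hv) hr)) u
    rwa [rt_mulVec (h0 _ (good_K2 G))] at this
  rw [Wop, mul_assoc, h1, ← mul_assoc, h2, mul_assoc]

/-- general transport with inverse -/
theorem pvac_step [CompleteSpace F] {K J J' : E9 → M16} (hK : Good K) (hJ : Good J)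
    (hJ' : Good J') (h2 : ∀ v, bp v ≠ 0 → K v * K v = -1)
    (h3 : ∀ v, bp v ≠ 0 → K v * J v * -K v = J' v) {r : Fin N → E9} (hr : UU r) (f : F) :
    PVac (thC M) (Op b (pa J r)) f ↔
      PVac (thC M) (Op b (pa J' r)) (W (thC M) (Op b (pa K r)) f) := by
  have hsk := pa_skew b hK r
  have hcu := pa_cube b hK h2 hr
  have hcv := rt_conj b hJ hJ' h2 h3 hr
  constructor
  · intro hf
    have h4 := hf.map ((cf_thC M).W_theta hsk hcu) (rt_neg_mul_rt hcu)
    rwa [hcv] at h4
  · intro hf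
    have hsk' : (-Op b (pa K r))ᵀ = - -Op b (pa K r) := by
      rw [Matrix.transpose_neg, hsk]
    have h4 := hf.map ((cf_thC M).W_theta hsk' (neg_cube hcu)) (rt_mul_rt_neg hcu)
    have h5 : W (thC M) (-Op b (pa K r)) (W (thC M) (Op b (pa K r)) f) = f :=
      congrArg (fun T : F →L[ℂ] F => T f) (W_neg_mul (thC M) (Op b (pa K r)))
    have h6 : rt (-Op b (pa K r)) * Op b (pa J' r) * rt (Op b (pa K r)) = Op b (pa J r) := by
      rw [← hcv]
      calc rt (-Op b (pa K r)) * (rt (Op b (pa K r)) * Op b (pa J r) * rt (-Op b (pa K r))) *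
            rt (Op b (pa K r))
          = (rt (-Op b (pa K r)) * rt (Op b (pa K r))) * Op b (pa J r) *
            (rt (-Op b (pa K r)) * rt (Op b (pa K r))) := by noncomm_ring
        _ = Op b (pa J r) := by rw [rt_neg_mul_rt hcu, one_mul, mul_one]
    rwa [h5, h6] at h4

theorem pvac_W1_iff {r : Fin N → E9} (hr : UU r) (f : F) :
    PVac (thC M) (Jref b G r) f ↔ PVac (thC M) (Jmid b G r) (W1 b G M r f) := by
  haveI : CompleteSpace F := FiniteDimensional.complete ℂ F
  exact pvac_step b (good_K1 G) (good_K0 G) (good_Km G) (fun v hv => K1_sq G hv)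
    (fun v hv => K1_conj G hv) hr f

theorem pvac_W2_iff {r : Fin N → E9} (hr : UU r) (f : F) :
    PVac (thC M) (Jmid b G r) f ↔ PVac (thC M) (Jop b G r) (W2 b G M r f) := by
  haveI : CompleteSpace F := FiniteDimensional.complete ℂ F
  exact pvac_step b (good_K2 G) (good_Km G) (good_Kn G) (fun v hv => K2_sq G hv)
    (fun v hv => K2_conj G hv) hr f

/-- **(A) the section maps reference vacua onto the heavy vacua of the configuration.** -/
theorem pvac_Wop_iff {r : Fin N → E9} (hr : UU r) (f : F) :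
    PVac (thC M) (Jref b G r) f ↔ PVac (thC M) (Jop b G r) (Wop b G M r f) := by
  rw [pvac_W1_iff b G hr, pvac_W2_iff b G hr]
  rfl

theorem exists_of_pvac {r : Fin N → E9} (hr : UU r) {f : F}
    (hf : PVac (thC M) (Jop b G r) f) :
    ∃ f₀, PVac (thC M) (Jref b G r) f₀ ∧ Wop b G M r f₀ = f := by
  obtain ⟨f₀, h0⟩ := (Wop_bijective b G (M := M) r).2 f
  refine ⟨f₀, ?_, h0⟩
  rw [pvac_Wop_iff b G hr, h0]
  exact hf

/-! ### Gauge covariance -/

local notation "SU" => Matrix.specialUnitaryGroup (Fin N) ℂ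

variable {b}

/-- **(D) gauge covariance.** If `g_ea ≠ 0` only for `r a = r' e` then `ρ(g) W(r) = W(r') ρ(g)`.
In particular the stabiliser of `r` and the permutations of equal clusters act without any sign. -/
theorem rho_Wop (R : GaugeAction b M) (g : SU) {r r' : Fin N → E9}
    (h : ∀ a e, (g : Matrix (Fin N) (Fin N) ℂ) e a ≠ 0 → r a = r' e) :
    rhoC R g * Wop b G M r = Wop b G M r' * rhoC R g := by
  haveI : CompleteSpace F := FiniteDimensional.complete ℂ F
  have hK : ∀ K : E9 → M16, adI b g * Op b (pa K r) * (adI b g)ᵀ = Op b (pa K r') := fun K =>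
    adI_Op_conj b g fun a d e f h1 h2 => by
      change K (r a - r d) = K (r' e - r' f)
      rw [h a e h1, h d f h2]
  have h1 : rhoC R g * W1 b G M r = W1 b G M r' * rhoC R g := by
    have := W_through (rhoC_thC R g) (Op b (pa (K1 G) r))
    rwa [hK] at this
  have h2 : rhoC R g * W2 b G M r = W2 b G M r' * rhoC R g := by
    have := W_through (rhoC_thC R g) (Op b (pa (K2 G) r))
    rwa [hK] at this
  rw [Wop, ← mul_assoc, h2, mul_assoc, h1, ← mul_assoc, Wop]

theorem rho_Wop_apply (R : GaugeAction b M) (g : SU) {r r' : Fin N → E9}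
    (h : ∀ a e, (g : Matrix (Fin N) (Fin N) ℂ) e a ≠ 0 → r a = r' e) (f : F) :
    R.ρ g (Wop b G M r f) = Wop b G M r' (R.ρ g f) :=
  congrArg (fun T : F →L[ℂ] F => T f) (rho_Wop G R g h)

end Crest.Agent.R330.VacSec255
end
end

-- ▼ part R330/VacSec5_255
section

/-!
# Row 330 (helper255): smoothness of the section and vanishing of its connection

* `contDiffAt_Wop` : `x ↦ Wop (X x)` is smooth where heavy pairs have a component among the last
  six directions and the light pairs stay light.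
* `berry` : `⟪Wop f', (∂_e Wop) f⟫ = 0` for reference vacua `f, f'`.
-/

set_option autoImplicit false
set_option linter.unusedSectionVars false
set_option linter.style.haveILetI false

noncomputable section

open Filter Topology
open scoped InnerProductSpace Matrix ContDiff
open Crest.MathPhysics.MatrixQM

namespace Crest.Agent.R330.VacSec255

variable {N : ℕ} (b : ColorBasis N) (G : GammaNine)

/-! ### Smoothness of the pair functions -/

/-- entries of `Kv` as continuous linear functionals -/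
def KvL (α β : Fin 16) : E9 →L[ℝ] ℂ := LinearMap.toContinuousLinearMap
  { toFun := fun v => Kv G v α β
    map_add' := fun v w => by
      rw [Kv, Kv, Kv, gv_add, smul_add, Matrix.add_apply]
    map_smul' := fun t v => by
      rw [Kv, Kv, gv_smul, smul_comm, Matrix.smul_apply, RingHom.id_apply]
      rfl }


theorem contDiffAt_un {v : E9} (h : v ≠ 0) {n : WithTop ℕ∞} : ContDiffAt ℝ n un v :=
  ((contDiffAt_norm ℝ h).inv (norm_ne_zero_iff.2 h)).smul contDiffAt_id

theorem contDiffAt_unbp {v : E9} (h : bp v ≠ 0) {n : WithTop ℕ∞} :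
    ContDiffAt ℝ n (fun v => un (bp v)) v :=
  ContDiffAt.comp (g := un) (f := fun v => bp v) v (contDiffAt_un h) bp.contDiff.contDiffAt

theorem contDiffAt_qv {v : E9} (h : bp v ≠ 0) {n : WithTop ℕ∞} : ContDiffAt ℝ n qv v := by
  have hv : v ≠ 0 := fun h' => h (by rw [h', map_zero])
  exact ContDiffAt.comp v (contDiffAt_un (mid_ne_zero h))
    ((contDiffAt_unbp h).add (contDiffAt_un hv))

/-- A pair function with smooth entries at the heavy vectors. -/
def Smo (K : E9 → M16) : Prop :=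
  ∀ v, bp v ≠ 0 → ∀ α β, ∀ n : WithTop ℕ∞, ContDiffAt ℝ n (fun v => K v α β) v

theorem smo_Kv {w : E9 → E9} (h : ∀ v, bp v ≠ 0 → ∀ n : WithTop ℕ∞, ContDiffAt ℝ n w v) :
    Smo fun v => Kv G (w v) := fun v hv α β n =>
  ContDiffAt.comp v (KvL G α β).contDiff.contDiffAt (h v hv n)

theorem smo_K2 : Smo (K2 G) := smo_Kv G fun _ hv _ => contDiffAt_qv hv

theorem smo_Km : Smo (Km G) := smo_Kv G fun _ hv _ => contDiffAt_unbp hv


theorem smo_K0 : Smo (K0 G) := fun v hv α β n => by
  have hv' : v ≠ 0 := fun h' => hv (by rw [h', map_zero])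
  have h1 : (fun v => K0 G v α β) =ᶠ[𝓝 v] fun _ => (-Gc G) α β := by
    filter_upwards [isOpen_ne.mem_nhds hv'] with w hw
    rw [K0, if_neg hw]
  exact contDiffAt_const.congr_of_eventuallyEq h1

theorem smo_K1 : Smo (K1 G) := fun v hv α β n => by
  have h1 : (fun v => K1 G v α β) = fun v =>
      ((Real.sqrt 2)⁻¹ : ℂ) * (K0 G v α β + Km G v α β) := by
    funext w
    rw [K1, Matrix.smul_apply, Matrix.add_apply, smul_eq_mul]
  rw [h1]
  exact contDiffAt_const.mul ((smo_K0 G v hv α β n).add (smo_Km G v hv α β n))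

variable {V : Type*} [NormedAddCommGroup V] [NormedSpace ℝ V]

/-- Entries of a pair array along a smooth family. -/
theorem contDiffAt_pa {K : E9 → M16} (hK : Good K) (hS : Smo K) {X : V → Fin N → E9} {x₀ : V}
    {n : WithTop ℕ∞} (hX : ∀ a, ContDiffAt ℝ n (fun x => X x a) x₀)
    (hp : ∀ᶠ x in 𝓝 x₀, ∀ a d, X x₀ a = X x₀ d → X x a = X x d) (hU : UU (X x₀))
    (a d : Fin N) (α β : Fin 16) : ContDiffAt ℝ n (fun x => pa K (X x) a d α β) x₀ := by
  by_cases h : X x₀ a = X x₀ d
  · have h1 : (fun x => pa K (X x) a d α β) =ᶠ[𝓝 x₀] fun _ => (0 : ℂ) := by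
      filter_upwards [hp] with x hx
      change K (X x a - X x d) α β = 0
      rw [hx a d h, sub_self, hK.zero]
      rfl
    exact contDiffAt_const.congr_of_eventuallyEq h1
  · exact ContDiffAt.comp x₀ (hS _ (hU a d h) α β n) ((hX a).sub (hX d))

theorem contDiffAt_Op {c : V → PA N} {x₀ : V} {n : WithTop ℕ∞}
    (hc : ∀ a d α β, ContDiffAt ℝ n (fun x => c x a d α β) x₀) (p q : IX N) :
    ContDiffAt ℝ n (fun x => Op b (c x) p q) x₀ := by
  simp only [Op_apply]
  refine ContDiffAt.sum fun a _ => ContDiffAt.sum fun d _ => ?_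
  exact (contDiffAt_const.mul (hc a d p.1 q.1)).mul contDiffAt_const

variable {F : Type*} [NormedAddCommGroup F] [InnerProductSpace ℂ F] [FiniteDimensional ℂ F]

theorem contDiffAt_W [CompleteSpace F] {I : Type*} [Fintype I] [DecidableEq I]
    (θ : I → (F →L[ℂ] F)) {Q : V → Matrix I I ℂ} {x₀ : V} {n : WithTop ℕ∞}
    (hQ : ∀ p q, ContDiffAt ℝ n (fun x => Q x p q) x₀) :
    ContDiffAt ℝ n (fun x => W θ (Q x)) x₀ := by
  let _ : NormedAlgebra ℝ (F →L[ℂ] F) := NormedAlgebra.restrictScalars ℝ ℂ (F →L[ℂ] F)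
  have h1 : ContDiffAt ℝ n (fun x => ((Real.pi / 2 : ℝ) : ℂ) • spin θ (Q x)) x₀ := by
    unfold spin
    refine ContDiffAt.const_smul _ (ContDiffAt.const_smul _ ?_)
    exact ContDiffAt.sum fun p _ => ContDiffAt.sum fun q _ => (hQ p q).smul contDiffAt_const
  exact ContDiffAt.comp x₀ (NormedSpace.exp_analytic (𝕂 := ℝ) _).contDiffAt h1

variable {M : FermionRep N F}

theorem contDiffAt_W1 {X : V → Fin N → E9} {x₀ : V}
    {n : WithTop ℕ∞} (hX : ∀ a, ContDiffAt ℝ n (fun x => X x a) x₀)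
    (hp : ∀ᶠ x in 𝓝 x₀, ∀ a d, X x₀ a = X x₀ d → X x a = X x d) (hU : UU (X x₀)) :
    ContDiffAt ℝ n (fun x => W1 b G M (X x)) x₀ := by
  haveI : CompleteSpace F := FiniteDimensional.complete ℂ F
  exact contDiffAt_W (thC M) (contDiffAt_Op b (contDiffAt_pa (good_K1 G) (smo_K1 G) hX hp hU))

theorem contDiffAt_W2 {X : V → Fin N → E9} {x₀ : V}
    {n : WithTop ℕ∞} (hX : ∀ a, ContDiffAt ℝ n (fun x => X x a) x₀)
    (hp : ∀ᶠ x in 𝓝 x₀, ∀ a d, X x₀ a = X x₀ d → X x a = X x d) (hU : UU (X x₀)) :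
    ContDiffAt ℝ n (fun x => W2 b G M (X x)) x₀ := by
  haveI : CompleteSpace F := FiniteDimensional.complete ℂ F
  exact contDiffAt_W (thC M) (contDiffAt_Op b (contDiffAt_pa (good_K2 G) (smo_K2 G) hX hp hU))

/-- **(E) the section is smooth.** -/
theorem contDiffAt_Wop {X : V → Fin N → E9} {x₀ : V}
    {n : WithTop ℕ∞} (hX : ∀ a, ContDiffAt ℝ n (fun x => X x a) x₀)
    (hp : ∀ᶠ x in 𝓝 x₀, ∀ a d, X x₀ a = X x₀ d → X x a = X x d) (hU : UU (X x₀)) :
    ContDiffAt ℝ n (fun x => Wop b G M (X x)) x₀ := by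
  let _ : NormedAlgebra ℝ (F →L[ℂ] F) := NormedAlgebra.restrictScalars ℝ ℂ (F →L[ℂ] F)
  exact (contDiffAt_W2 b G hX hp hU).mul (contDiffAt_W1 b G hX hp hU)

/-! ### The connection -/

/-- derivative of a unit vector is orthogonal to it -/
theorem inner_deriv_unit {w : ℝ → E9} {w' : E9} {t : ℝ} (hw : HasDerivAt w w' t)
    (h1 : ∀ᶠ s in 𝓝 t, ‖w s‖ = 1) : ⟪w', w t⟫_ℝ = 0 := by
  have h2 := hw.norm_sq
  have h3 : (fun s => ‖w s‖ ^ 2) =ᶠ[𝓝 t] fun _ => (1 : ℝ) := by
    filter_upwards [h1] with s hs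
    rw [hs, one_pow]
  have h4 := (h2.congr_of_eventuallyEq h3.symm).unique (hasDerivAt_const t (1 : ℝ))
  rw [real_inner_comm]
  linarith

theorem Kv_anti (u w : E9) : Kv G u * Kv G w + Kv G w * Kv G u =
    -((2 * ⟪u, w⟫_ℝ : ℝ) : ℂ) • (1 : M16) := by
  rw [Kv, Kv, smul_mul_smul_comm, smul_mul_smul_comm, neg_mul_neg, Complex.I_mul_I, ← smul_add,
    gv_anti, smul_smul]
  congr 1
  ring

theorem Kv_anti_zero {u w : E9} (h : ⟪u, w⟫_ℝ = 0) : Kv G u * Kv G w = -(Kv G w * Kv G u) := by
  have h1 := Kv_anti G u w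
  rw [h, mul_zero, Complex.ofReal_zero, neg_zero, zero_smul] at h1
  exact eq_neg_of_add_eq_zero_left h1

/-- The data of one quarter turn along a curve. -/
structure Path (K : E9 → M16) (r : ℝ → Fin N → E9) (t : ℝ) (P : PA N) : Prop where
  deriv : ∀ a d α β, HasDerivAt (fun s => pa K (r s) a d α β) (P a d α β) t
  dc : DC P
  skew : ∀ a d, (P d a)ᵀ = -P a d
  anti : P * pa K (r t) = -(pa K (r t) * P)
  sq : pa K (r t) * pa K (r t) * P = -P

theorem hasDerivAt_Op {c : ℝ → PA N} {P : PA N} {t : ℝ}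
    (hc : ∀ a d α β, HasDerivAt (fun s => c s a d α β) (P a d α β) t) (p q : IX N) :
    HasDerivAt (fun s => Op b (c s) p q) (Op b P p q) t := by
  simp only [Op_apply]
  refine HasDerivAt.fun_sum fun a _ => HasDerivAt.fun_sum fun d _ => ?_
  exact ((hc a d p.1 q.1).const_mul _).mul_const _

/-- `y = P Q` of a path. -/
def yy (P : PA N) (K : E9 → M16) (r : Fin N → E9) : Matrix (IX N) (IX N) ℂ :=
  Op b P * Op b (pa K r)

theorem Path.hasDerivAt_W [CompleteSpace F] {K : E9 → M16} {r : ℝ → Fin N → E9} {t : ℝ}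
    {P : PA N} (h : Path K r t P) (hK : Good K) (h2 : ∀ v, bp v ≠ 0 → K v * K v = -1)
    (hr : UU (r t)) :
    HasDerivAt (fun s => W (thC M) (Op b (pa K (r s))))
      (W (thC M) (Op b (pa K (r t))) * spin (thC M) (yy b P K (r t))) t := by
  refine (cf_thC M).hasDerivAt_W (hasDerivAt_Op b h.deriv) (pa_skew b hK _) (Op_skew b h.skew)
    (pa_cube b hK h2 hr) ?_ ?_
  · rw [← Op_mul b _ _ (dc_pa _), ← Op_mul b _ _ h.dc, ← Op_neg, h.anti]
  · rw [← Op_mul b _ _ (dc_pa _), ← Op_mul b _ _ h.dc, ← Op_neg, h.sq]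

/-- The bilinear of a path in a partial vacuum. -/
theorem Path.inner_spin [CompleteSpace F] {K J : E9 → M16} {r : ℝ → Fin N → E9} {t : ℝ}
    {P : PA N} (h : Path K r t P) (hK : Good K) (hJ : Good J)
    (h2 : ∀ v, bp v ≠ 0 → K v * K v = -1) (h3 : ∀ v, bp v ≠ 0 → J v * J v = -1)
    (hr : UU (r t)) (htr : ∀ a d, (P a d * K (r t a - r t d) * J (r t a - r t d)).trace = 0)
    {f f' : F} (hf : PVac (thC M) (Op b (pa J (r t))) f)
    (hf' : PVac (thC M) (Op b (pa J (r t))) f') :
    ⟪f', spin (thC M) (yy b P K (r t)) f⟫_ℂ = 0 := by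
  have hkd := dc_pa (K := K) (r t)
  have hjd := dc_pa (K := J) (r t)
  -- pointwise
  have hJK : pa J (r t) * pa J (r t) * pa K (r t) = -pa K (r t) := by
    funext a d
    refine pa_cases hr (fun v => J v * J v * K v = -K v) ?_ ?_ a d
    · rw [hK.zero]; simp
    · intro v hv
      rw [h3 v hv, neg_one_mul]
  have hKJ : pa K (r t) * (pa J (r t) * pa J (r t)) = -pa K (r t) := by
    funext a d
    refine pa_cases hr (fun v => K v * (J v * J v) = -K v) ?_ ?_ a d
    · rw [hK.zero]; simp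
    · intro v hv
      rw [h3 v hv, mul_neg, mul_one]
  have hy : yy b P K (r t) = Op b (P * pa K (r t)) := by rw [yy, Op_mul b _ _ hkd]
  have hy2 : yy b P K (r t) = -Op b (pa K (r t) * P) := by rw [hy, h.anti, Op_neg]
  have hskew : (yy b P K (r t))ᵀ = -yy b P K (r t) := by
    rw [yy, Matrix.transpose_mul, pa_skew b hK, Op_skew b h.skew, neg_mul_neg,
      ← Op_mul b _ _ h.dc]
    rw [← yy, hy2, neg_neg]
  have h5 : Op b (pa J (r t)) * Op b (pa J (r t)) * yy b P K (r t) = -yy b P K (r t) := by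
    rw [hy2, mul_neg, ← Op_mul b _ _ hjd, ← Op_mul b _ _ (hkd.mul h.dc), ← mul_assoc, hJK,
      neg_mul, Op_neg]
  have h6 : yy b P K (r t) * (Op b (pa J (r t)) * Op b (pa J (r t))) = -yy b P K (r t) := by
    rw [hy, ← Op_mul b _ _ hjd, ← Op_mul b _ _ (hjd.mul hjd), mul_assoc, hKJ, mul_neg, Op_neg]
  rw [hf.inner_spin (cf_thC M) hf' (pa_skew b hJ _) (pa_real b hJ _) hskew h5 h6]
  have h7 : (yy b P K (r t) * Op b (pa J (r t))).trace = 0 := by
    rw [hy, ← Op_mul b _ _ hjd]
    exact Op_trace b htr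
  rw [h7, mul_zero, zero_mul]

/-- differences along a curve -/
def dd (r : ℝ → Fin N → E9) (a d : Fin N) (s : ℝ) : E9 := r s a - r s d

variable {r : ℝ → Fin N → E9} {t : ℝ}

/-- a vector valued pair function along a curve -/
theorem hasDerivAt_pair {w : E9 → E9} (h0 : w 0 = 0)
    (hw : ∀ v, bp v ≠ 0 → DifferentiableAt ℝ w v)
    (hr : ∀ a, DifferentiableAt ℝ (fun s => r s a) t)
    (hp : ∀ᶠ s in 𝓝 t, ∀ a d, r t a = r t d → r s a = r s d) (hU : UU (r t)) (a d : Fin N) :
    HasDerivAt (fun s => w (r s a - r s d)) (deriv (fun s => w (r s a - r s d)) t) t := by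
  by_cases h : r t a = r t d
  · have h1 : (fun s => w (r s a - r s d)) =ᶠ[𝓝 t] fun _ => (0 : E9) := by
      filter_upwards [hp] with s hs
      rw [hs a d h, sub_self, h0]
    exact ((hasDerivAt_const t (0 : E9)).congr_of_eventuallyEq h1).differentiableAt.hasDerivAt
  · have h1 : DifferentiableAt ℝ (fun s => w (r s a - r s d)) t :=
      DifferentiableAt.comp (f := fun s => r s a - r s d) t (hw _ (hU a d h))
        ((hr a).sub (hr d))
    exact h1.hasDerivAt

theorem deriv_pair_light {w : E9 → E9} (h0 : w 0 = 0)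
    (hp : ∀ᶠ s in 𝓝 t, ∀ a d, r t a = r t d → r s a = r s d) {a d : Fin N}
    (h : r t a = r t d) : deriv (fun s => w (r s a - r s d)) t = 0 := by
  have h1 : (fun s => w (r s a - r s d)) =ᶠ[𝓝 t] fun _ => (0 : E9) := by
    filter_upwards [hp] with s hs
    rw [hs a d h, sub_self, h0]
  rw [h1.deriv_eq, deriv_const]

theorem deriv_pair_odd {w : E9 → E9} (hn : ∀ v, w (-v) = -w v) (a d : Fin N) :
    deriv (fun s => w (r s d - r s a)) t = -deriv (fun s => w (r s a - r s d)) t := by
  rw [← deriv.fun_neg]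
  congr 1
  funext s
  rw [← neg_sub, hn]

/-- near `t` the heavy pairs stay in `bp ≠ 0` -/
theorem eventually_bp (hr : ∀ a, DifferentiableAt ℝ (fun s => r s a) t) (hU : UU (r t))
    {a d : Fin N} (h : r t a ≠ r t d) : ∀ᶠ s in 𝓝 t, bp (r s a - r s d) ≠ 0 := by
  have h1 : ContinuousAt (fun s => bp (r s a - r s d)) t :=
    bp.continuous.continuousAt.comp ((hr a).sub (hr d)).continuousAt
  exact h1.eventually_ne (hU a d h)

theorem norm_deriv_pair {w : E9 → E9} (h0 : w 0 = 0)
    (hw : ∀ v, bp v ≠ 0 → DifferentiableAt ℝ w v) (h1 : ∀ v, bp v ≠ 0 → ‖w v‖ = 1)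
    (hr : ∀ a, DifferentiableAt ℝ (fun s => r s a) t)
    (hp : ∀ᶠ s in 𝓝 t, ∀ a d, r t a = r t d → r s a = r s d) (hU : UU (r t)) (a d : Fin N) :
    ⟪deriv (fun s => w (r s a - r s d)) t, w (r t a - r t d)⟫_ℝ = 0 := by
  by_cases h : r t a = r t d
  · rw [deriv_pair_light h0 hp h, inner_zero_left]
  · refine inner_deriv_unit (w := fun s => w (r s a - r s d))
      (hasDerivAt_pair h0 hw hr hp hU a d) ?_
    filter_upwards [eventually_bp hr hU h] with s hs
    exact h1 _ hs

/-- **A curve of Clifford directions.** -/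
theorem path_Kv {w : E9 → E9} (h0 : w 0 = 0) (hn : ∀ v, w (-v) = -w v)
    (hw : ∀ v, bp v ≠ 0 → DifferentiableAt ℝ w v) (h1 : ∀ v, bp v ≠ 0 → ‖w v‖ = 1)
    (hr : ∀ a, DifferentiableAt ℝ (fun s => r s a) t)
    (hp : ∀ᶠ s in 𝓝 t, ∀ a d, r t a = r t d → r s a = r s d) (hU : UU (r t)) :
    Path (fun v => Kv G (w v)) r t fun a d => Kv G (deriv (fun s => w (r s a - r s d)) t) where
  deriv := fun a d α β =>
    (KvL G α β).hasFDerivAt.comp_hasDerivAt t (hasDerivAt_pair h0 hw hr hp hU a d)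
  dc := fun a d => by simp only [sub_self]
  skew := fun a d => by
    rw [Kv_transpose, deriv_pair_odd hn, Kv_neg]
  anti := by
    funext a d
    exact Kv_anti_zero G (norm_deriv_pair h0 hw h1 hr hp hU a d)
  sq := by
    funext a d
    by_cases h : r t a = r t d
    · change Kv G (w (r t a - r t d)) * Kv G (w (r t a - r t d)) *
        Kv G (deriv (fun s => w (r s a - r s d)) t) = -Kv G (deriv (fun s => w (r s a - r s d)) t)
      rw [deriv_pair_light h0 hp h, Kv_zero, mul_zero, neg_zero]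
    · change Kv G (w (r t a - r t d)) * Kv G (w (r t a - r t d)) *
        Kv G (deriv (fun s => w (r s a - r s d)) t) = -Kv G (deriv (fun s => w (r s a - r s d)) t)
      rw [Kv_sq G (h1 _ (hU a d h)), neg_one_mul]

theorem norm_qv {v : E9} (h : bp v ≠ 0) : ‖qv v‖ = 1 := norm_un (mid_ne_zero h)

theorem unbp_neg (v : E9) : un (bp (-v)) = -un (bp v) := by rw [map_neg, un_neg]

theorem unbp_zero : un (bp 0) = 0 := by rw [map_zero, un_zero]

/-- derivative array of the second turn -/
def P2 (r : ℝ → Fin N → E9) (t : ℝ) : PA N := fun a d =>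
  Kv G (deriv (fun s => qv (r s a - r s d)) t)

/-- derivative array of the middle structure -/
def Pm (r : ℝ → Fin N → E9) (t : ℝ) : PA N := fun a d =>
  Kv G (deriv (fun s => un (bp (r s a - r s d))) t)

/-- derivative array of the first turn -/
def P1 (r : ℝ → Fin N → E9) (t : ℝ) : PA N := ((Real.sqrt 2)⁻¹ : ℂ) • Pm G r t

theorem path_K2 (hr : ∀ a, DifferentiableAt ℝ (fun s => r s a) t)
    (hp : ∀ᶠ s in 𝓝 t, ∀ a d, r t a = r t d → r s a = r s d) (hU : UU (r t)) :
    Path (K2 G) r t (P2 G r t) :=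
  path_Kv G qv_zero qv_neg (fun _ hv => (contDiffAt_qv hv).differentiableAt one_ne_zero)
    (fun _ hv => norm_qv hv) hr hp hU

theorem path_Km (hr : ∀ a, DifferentiableAt ℝ (fun s => r s a) t)
    (hp : ∀ᶠ s in 𝓝 t, ∀ a d, r t a = r t d → r s a = r s d) (hU : UU (r t)) :
    Path (Km G) r t (Pm G r t) :=
  path_Kv G (w := fun v => un (bp v)) unbp_zero unbp_neg
    (fun _ hv => (contDiffAt_unbp hv).differentiableAt one_ne_zero)
    (fun _ hv => norm_un hv) hr hp hU

/-- the derivative of the b-direction is a b-direction -/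
theorem bp_deriv (hr : ∀ a, DifferentiableAt ℝ (fun s => r s a) t)
    (hp : ∀ᶠ s in 𝓝 t, ∀ a d, r t a = r t d → r s a = r s d) (hU : UU (r t)) (a d : Fin N) :
    bp (deriv (fun s => un (bp (r s a - r s d))) t) =
      deriv (fun s => un (bp (r s a - r s d))) t := by
  have h1 := hasDerivAt_pair (w := fun v => un (bp v)) unbp_zero
    (fun _ hv => (contDiffAt_unbp hv).differentiableAt one_ne_zero) hr hp hU a d
  have h2 := bp.hasFDerivAt.comp_hasDerivAt t h1
  have h3 : (bp ∘ fun s => un (bp (r s a - r s d))) = fun s => un (bp (r s a - r s d)) := by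
    funext s
    exact bp_un (bp_bp _)
  rw [h3] at h2
  exact h2.unique h1

theorem K0_mul_Kv {v w : E9} (h : bp w = w) : K0 G v * Kv G w = -(Kv G w * K0 G v) := by
  unfold K0
  split_ifs
  · rw [zero_mul, mul_zero, neg_zero]
  · rw [Kv, mul_smul_comm, smul_mul_assoc, mul_neg, neg_mul, gv_Gc G h, neg_neg, smul_neg]

theorem path_K1 (hr : ∀ a, DifferentiableAt ℝ (fun s => r s a) t)
    (hp : ∀ᶠ s in 𝓝 t, ∀ a d, r t a = r t d → r s a = r s d) (hU : UU (r t)) :
    Path (K1 G) r t (P1 G r t) where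
  deriv := fun a d α β => by
    have h1 := (path_Km G hr hp hU).deriv a d α β
    have h2 : HasDerivAt (fun s => pa (K0 G) (r s) a d α β) 0 t := by
      by_cases h : r t a = r t d
      · have h3 : (fun s => pa (K0 G) (r s) a d α β) =ᶠ[𝓝 t] fun _ => (0 : ℂ) := by
          filter_upwards [hp] with s hs
          change K0 G (r s a - r s d) α β = 0
          rw [hs a d h, sub_self, (good_K0 G).zero]
          rfl
        exact (hasDerivAt_const t (0 : ℂ)).congr_of_eventuallyEq h3
      · have h3 : (fun s => pa (K0 G) (r s) a d α β) =ᶠ[𝓝 t] fun _ => (-Gc G) α β := by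
          filter_upwards [eventually_bp hr hU h] with s hs
          change K0 G (r s a - r s d) α β = _
          rw [K0, if_neg fun h' => hs (by rw [h', map_zero])]
        exact (hasDerivAt_const t _).congr_of_eventuallyEq h3
    have h4 := (h2.add h1).const_mul ((Real.sqrt 2)⁻¹ : ℂ)
    rw [zero_add] at h4
    exact h4
  dc := (path_Km G hr hp hU).dc.smul _
  skew := fun a d => by
    change (((Real.sqrt 2)⁻¹ : ℂ) • Pm G r t d a)ᵀ = -(((Real.sqrt 2)⁻¹ : ℂ) • Pm G r t a d)
    rw [Matrix.transpose_smul, (path_Km G hr hp hU).skew, smul_neg]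
  anti := by
    have h1 := (path_Km G hr hp hU).anti
    funext a d
    have h2 := congrFun (congrFun h1 a) d
    have h3 : K0 G (r t a - r t d) * Pm G r t a d = -(Pm G r t a d * K0 G (r t a - r t d)) :=
      K0_mul_Kv G (bp_deriv hr hp hU a d)
    change Pm G r t a d * Km G (r t a - r t d) = -(Km G (r t a - r t d) * Pm G r t a d) at h2
    change (((Real.sqrt 2)⁻¹ : ℂ) • Pm G r t a d) *
      (((Real.sqrt 2)⁻¹ : ℂ) • (K0 G (r t a - r t d) + Km G (r t a - r t d))) =
      -((((Real.sqrt 2)⁻¹ : ℂ) • (K0 G (r t a - r t d) + Km G (r t a - r t d))) *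
        (((Real.sqrt 2)⁻¹ : ℂ) • Pm G r t a d))
    rw [smul_mul_smul_comm, smul_mul_smul_comm, mul_add, add_mul, h2, h3, ← smul_neg]
    congr 1
    abel
  sq := by
    funext a d
    by_cases h : r t a = r t d
    · have h2 : P1 G r t a d = 0 := by
        change ((Real.sqrt 2)⁻¹ : ℂ) • Kv G (deriv (fun s => un (bp (r s a - r s d))) t) = 0
        have := deriv_pair_light (w := fun v => un (bp v)) unbp_zero hp h
        rw [this, Kv_zero, smul_zero]
      change K1 G (r t a - r t d) * K1 G (r t a - r t d) * P1 G r t a d = -P1 G r t a d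
      rw [h2, mul_zero, neg_zero]
    · change K1 G (r t a - r t d) * K1 G (r t a - r t d) * P1 G r t a d = -P1 G r t a d
      rw [K1_sq G (hU a d h), neg_one_mul]

/-- **The derivative of the section along a curve has no component between the heavy vacua.** -/
theorem exists_hasDerivAt_Wop (hr : ∀ a, DifferentiableAt ℝ (fun s => r s a) t)
    (hp : ∀ᶠ s in 𝓝 t, ∀ a d, r t a = r t d → r s a = r s d) (hU : UU (r t)) :
    ∃ D : F →L[ℂ] F, HasDerivAt (fun s => Wop b G M (r s)) D t ∧
      ∀ f f', PVac (thC M) (Jref b G (r t)) f → PVac (thC M) (Jref b G (r t)) f' →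
        ⟪Wop b G M (r t) f', D f⟫_ℂ = 0 := by
  haveI : CompleteSpace F := FiniteDimensional.complete ℂ F
  have d2 : HasDerivAt (fun s => W2 b G M (r s))
      (W2 b G M (r t) * spin (thC M) (yy b (P2 G r t) (K2 G) (r t))) t :=
    (path_K2 G hr hp hU).hasDerivAt_W b (good_K2 G) (fun v hv => K2_sq G hv) hU
  have d1 : HasDerivAt (fun s => W1 b G M (r s))
      (W1 b G M (r t) * spin (thC M) (yy b (P1 G r t) (K1 G) (r t))) t :=
    (path_K1 G hr hp hU).hasDerivAt_W b (good_K1 G) (fun v hv => K1_sq G hv) hU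
  let _ : NormedAlgebra ℝ (F →L[ℂ] F) := NormedAlgebra.restrictScalars ℝ ℂ (F →L[ℂ] F)
  refine ⟨_, d2.mul d1, fun f f' hf hf' => ?_⟩
  set S2 := spin (thC M) (yy b (P2 G r t) (K2 G) (r t)) with hS2
  set S1 := spin (thC M) (yy b (P1 G r t) (K1 G) (r t)) with hS1
  have e1 : (W2 b G M (r t) * S2 * W1 b G M (r t) + W2 b G M (r t) * (W1 b G M (r t) * S1)) f =
      W2 b G M (r t) (S2 (W1 b G M (r t) f)) + W2 b G M (r t) (W1 b G M (r t) (S1 f)) := rfl
  have t2 : ⟪W1 b G M (r t) f', S2 (W1 b G M (r t) f)⟫_ℂ = 0 := by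
    refine (path_K2 G hr hp hU).inner_spin b (good_K2 G) (good_Km G) (fun v hv => K2_sq G hv)
      (fun v hv => Km_sq G hv) hU ?_ ((pvac_W1_iff b G hU f).1 hf) ((pvac_W1_iff b G hU f').1 hf')
    intro a d
    change (Kv G _ * Kv G _ * Kv G _).trace = 0
    simp only [Kv, smul_mul_smul_comm, Matrix.trace_smul, trace_gv3, smul_zero]
  have t1 : ⟪f', S1 f⟫_ℂ = 0 := by
    refine (path_K1 G hr hp hU).inner_spin b (good_K1 G) (good_K0 G) (fun v hv => K1_sq G hv)
      (fun v hv => K0_sq G hv) hU ?_ hf hf'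
    intro a d
    set v := r t a - r t d with hv
    change ((((Real.sqrt 2)⁻¹ : ℂ) • Kv G (deriv (fun s => un (bp (r s a - r s d))) t)) *
      (((Real.sqrt 2)⁻¹ : ℂ) • (K0 G v + Kv G (un (bp v)))) * K0 G v).trace = 0
    set u := deriv (fun s => un (bp (r s a - r s d))) t
    rw [smul_mul_smul_comm, smul_mul_assoc, Matrix.trace_smul]
    have h1 : (Kv G u * (K0 G v + Kv G (un (bp v))) * K0 G v).trace = 0 := by
      unfold K0
      split_ifs
      · rw [mul_zero, Matrix.trace_zero]
      · have h2 : Kv G u * (-Gc G + Kv G (un (bp v))) * -Gc G =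
            Kv G u * (Gc G * Gc G) - Kv G u * Kv G (un (bp v)) * Gc G := by noncomm_ring
        rw [h2, Gc_sq, Matrix.trace_sub, mul_neg, mul_one, Matrix.trace_neg]
        simp only [Kv, mul_smul_comm, smul_mul_assoc, Matrix.trace_smul, trace_gv,
          trace_gv2_Gc, smul_zero, neg_zero, sub_zero]
    rw [h1, smul_zero]
  change ⟪Wop b G M (r t) f', (W2 b G M (r t) * S2 * W1 b G M (r t) +
    W2 b G M (r t) * (W1 b G M (r t) * S1)) f⟫_ℂ = 0
  rw [e1, inner_add_right, Wop_apply, W2_inner, W2_inner, W1_inner, t2, t1, add_zero]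

/-- **(F) the connection of the section vanishes.** -/
theorem berry {X : V → Fin N → E9} {x₀ : V} (hX : ∀ a, ContDiffAt ℝ 1 (fun x => X x a) x₀)
    (hp : ∀ᶠ x in 𝓝 x₀, ∀ a d, X x₀ a = X x₀ d → X x a = X x d) (hU : UU (X x₀)) (e : V)
    {f f' : F} (hf : PVac (thC M) (Jref b G (X x₀)) f)
    (hf' : PVac (thC M) (Jref b G (X x₀)) f') :
    ⟪Wop b G M (X x₀) f', fderiv ℝ (fun x => Wop b G M (X x)) x₀ e f⟫_ℂ = 0 := by
  have hl : HasDerivAt (fun s : ℝ => x₀ + s • e) e 0 := by
    simpa using ((hasDerivAt_id (0 : ℝ)).smul_const e).const_add x₀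
  have h0 : x₀ + (0 : ℝ) • e = x₀ := by rw [zero_smul, add_zero]
  have hr : ∀ a, DifferentiableAt ℝ (fun s : ℝ => X (x₀ + s • e) a) 0 := fun a => by
    have h1 : DifferentiableAt ℝ (fun x => X x a) (x₀ + (0 : ℝ) • e) := by
      rw [h0]
      exact (hX a).differentiableAt one_ne_zero
    exact DifferentiableAt.comp (f := fun s : ℝ => x₀ + s • e) 0 h1 hl.differentiableAt
  have hp' : ∀ᶠ s : ℝ in 𝓝 0, ∀ a d, X (x₀ + (0 : ℝ) • e) a = X (x₀ + (0 : ℝ) • e) d →
      X (x₀ + s • e) a = X (x₀ + s • e) d := by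
    rw [h0]
    have h1 : Tendsto (fun s : ℝ => x₀ + s • e) (𝓝 0) (𝓝 x₀) := by
      have := hl.continuousAt.tendsto
      rwa [h0] at this
    exact h1.eventually hp
  obtain ⟨D, hD, hi⟩ := exists_hasDerivAt_Wop b G (M := M) (r := fun s : ℝ => X (x₀ + s • e))
    (t := 0) hr hp' (by rw [h0]; exact hU)
  have h2 : HasDerivAt (fun s : ℝ => Wop b G M (X (x₀ + s • e)))
      (fderiv ℝ (fun x => Wop b G M (X x)) x₀ e) 0 := by
    have h3 : HasFDerivAt (fun x => Wop b G M (X x)) (fderiv ℝ (fun x => Wop b G M (X x)) x₀)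
        (x₀ + (0 : ℝ) • e) := by
      rw [h0]
      exact ((contDiffAt_Wop b G hX hp hU).differentiableAt one_ne_zero).hasFDerivAt
    exact h3.comp_hasDerivAt 0 hl
  have h4 := hi f f' (by rw [h0]; exact hf) (by rw [h0]; exact hf')
  rw [h0] at h4
  rw [h2.unique hD]
  exact h4


end Crest.Agent.R330.VacSec255
end
end

-- ▼ part R330/VacSec6_255
section

/-!
# Row 330 (helper255): bridges of the vacuum section

* `crp M` : 442's module of the generators of `M`; `rl A` : the real linear map of a real matrix.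
* `mem_vacJ_rl` : `f ∈ (crp M).vacJ (rl (-J)) ↔ PVac (thC M) J f`.
* `pcs_ref`, `pcs_op` : `JR0 r`, `JR r` are partial complex structures;
  `Wop_proj : Wop r (proj (JR0 r) f) = proj (JR r) (Wop r f)`.
* `contDiffAt_JR` ; `pvac_of_gvac` : 478's reference vacuum.
-/

set_option autoImplicit false
set_option linter.unusedSectionVars false
set_option linter.style.haveILetI false

noncomputable section

open Filter Topology
open scoped InnerProductSpace Matrix ContDiff
open Crest.MathPhysics.MatrixQM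
open Crest.Agent.R330.Cliff442

namespace Crest.Agent.R330.VacSec255

variable {N : ℕ} {F : Type*} [NormedAddCommGroup F] [InnerProductSpace ℂ F]
  [FiniteDimensional ℂ F]




/-- The real linear map of a matrix. -/
def rl (A : Matrix (IX N) (IX N) ℂ) :
    EuclideanSpace ℝ (IX N) →ₗ[ℝ] EuclideanSpace ℝ (IX N) where
  toFun x := WithLp.toLp 2 fun p => ∑ q, (A p q).re * x q
  map_add' x y := by
    ext p
    simp only [PiLp.add_apply, mul_add, Finset.sum_add_distrib]
  map_smul' t x := by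
    ext p
    simp only [PiLp.smul_apply, smul_eq_mul, RingHom.id_apply, Finset.mul_sum]
    refine Finset.sum_congr rfl fun q _ => ?_
    ring


theorem IsReal.re {A : Matrix (IX N) (IX N) ℂ} (h : IsReal A) (p q : IX N) :
    ((A p q).re : ℂ) = A p q := Complex.conj_eq_iff_re.1 (h p q)






/-! ### Partial complex structures -/


variable (b : ColorBasis N) (G : GammaNine)


/-- the structure of the configuration as a real linear map -/
def JR (r : Fin N → E9) : EuclideanSpace ℝ (IX N) →ₗ[ℝ] EuclideanSpace ℝ (IX N) :=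
  rl (-Jop b G r)





variable {M : FermionRep N F}





/-! ### The reference vacuum of 478 -/



end Crest.Agent.R330.VacSec255
end
end

-- ▼ part R330/UPack_311


/-!
# Row 330, S8-UX (helper311): the U-fields of `TPack` for the channel of a partition

* `evs w` : the complex vector of a family of colour vectors; `cm_Op` : pair operators act on
  colour matrices entrywise.
* `rX b P X : Fin N → E9` : positions with multiplicity; `UX b P M G X := Wop b G M (rX b P X)`.
* `mem_vacOf_iff` : `vacOf M G (kk)ᗮ` is the space of reference vacua.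
* `lr_eq`, `hm_li` : `|ad X|`, its inverse, entrywise; `evs_wP` : the potential vector is `-J` of
  the kinetic vector; `UX_kill`, `UX_full`.
* `uData` : the structure `TPk776.UData` for `chn b P`.
-/

set_option autoImplicit false
set_option linter.unusedSectionVars false

open MeasureTheory Filter Topology Crest.MathPhysics.MatrixQM
open scoped ContDiff InnerProductSpace ENNReal Matrix

noncomputable section

namespace Crest.Agent.R330.UPack311

open Crest.Agent.R330.Parts879 Crest.Agent.R330.LS839 Crest.Agent.R330.Bind6839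
open Crest.Agent.R330.IBP837
open Crest.Agent.R330.Blk304 (hm cf)
open Crest.Agent.R330.VacSec255 (IX PA Op DC th thC lc Wop Jref Jop pa PVac E9 M16 rhoC adI)
open Crest.Agent.R330.TDef414 (Pos pcomp Chn vacOf gan)

variable {N : ℕ} (b : ColorBasis N)

/-! ## Vectors and colour matrices -/

/-- The vector of a family of colour vectors. -/
def evs (w : Fin 16 → Colg N) : IX N → ℂ := fun q => ((w q.1 q.2 : ℝ) : ℂ)

theorem cm_evs (w : Fin 16 → Colg N) (β : Fin 16) :
    VacSec255.cm b (evs w) β = hm b (w β).ofLp := rfl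

theorem cm_inj {u v : IX N → ℂ} (h : ∀ β, VacSec255.cm b u β = VacSec255.cm b v β) : u = v := by
  funext ⟨β, A⟩
  exact congrFun (Col962.T_ext b (h β)) A

theorem cm_trace (u : IX N → ℂ) (β : Fin 16) : (VacSec255.cm b u β).trace = 0 := by
  unfold VacSec255.cm
  rw [Matrix.trace_sum]
  refine Finset.sum_eq_zero fun A _ => ?_
  rw [Matrix.trace_smul, b.traceless, smul_zero]

/-- **Pair operators act entrywise.** -/
theorem cm_Op {c : PA N} (hc : DC c) (u : IX N → ℂ) (β : Fin 16) (a d : Fin N) :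
    VacSec255.cm b (Op b c *ᵥ u) β a d = ∑ γ, c a d β γ * VacSec255.cm b u γ a d := by
  set Y : Matrix (Fin N) (Fin N) ℂ := Matrix.of fun e f =>
    ∑ γ, c e f β γ * VacSec255.cm b u γ e f with hY
  have hYt : Y.trace = 0 := by
    rw [Matrix.trace]
    simp only [Matrix.diag_apply, hY, Matrix.of_apply]
    rw [Finset.sum_comm]
    refine Finset.sum_eq_zero fun γ _ => ?_
    have h1 : ∀ e, c e e β γ * VacSec255.cm b u γ e e = c a a β γ * VacSec255.cm b u γ e e :=
      fun e => by rw [hc e a]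
    rw [Finset.sum_congr rfl fun e _ => h1 e, ← Finset.mul_sum]
    have h2 := cm_trace b u γ
    rw [Matrix.trace] at h2
    simp only [Matrix.diag_apply] at h2
    rw [h2, mul_zero]
  have h1 : ∀ A, (Op b c *ᵥ u) (β, A) = ∑ e, ∑ f, b.T A f e * Y e f := by
    intro A
    rw [Matrix.mulVec, dotProduct, Fintype.sum_prod_type]
    simp only [VacSec255.Op_apply, hY, Matrix.of_apply, Finset.sum_mul, VacSec255.cm,
      Matrix.sum_apply, Matrix.smul_apply, smul_eq_mul, Finset.mul_sum]
    calc ∑ γ, ∑ B, ∑ e, ∑ f, b.T A f e * c e f β γ * b.T B e f * u (γ, B)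
        = ∑ γ, ∑ e, ∑ f, ∑ B, b.T A f e * (c e f β γ * (u (γ, B) * b.T B e f)) := by
          refine Finset.sum_congr rfl fun γ _ => ?_
          rw [Finset.sum_comm]
          refine Finset.sum_congr rfl fun e _ => ?_
          rw [Finset.sum_comm]
          refine Finset.sum_congr rfl fun f _ => Finset.sum_congr rfl fun B _ => ?_
          ring
      _ = ∑ e, ∑ f, ∑ γ, ∑ B, b.T A f e * (c e f β γ * (u (γ, B) * b.T B e f)) := by
          rw [Finset.sum_comm]
          refine Finset.sum_congr rfl fun e _ => Finset.sum_comm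
  have h2 : VacSec255.cm b (Op b c *ᵥ u) β a d = ∑ B, b.T B a d * ∑ e, ∑ f, b.T B f e * Y e f := by
    unfold VacSec255.cm
    rw [Matrix.sum_apply]
    refine Finset.sum_congr rfl fun B _ => ?_
    rw [Matrix.smul_apply, smul_eq_mul, h1, mul_comm]
  rw [h2, VacSec255.sum_T b hYt]
  rfl

section rep

variable {F : Type*} [NormedAddCommGroup F] [InnerProductSpace ℂ F] [FiniteDimensional ℂ F]
  (M : FermionRep N F)

theorem th_evs (w : Fin 16 → Colg N) (f : F) :
    th (thC M) (evs w) f = ∑ β, thv M β (w β) f := by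
  rw [th, _root_.sum_apply, Fintype.sum_prod_type]
  refine Finset.sum_congr rfl fun β _ => ?_
  rw [thv, LinearMap.sum_apply]
  rfl

theorem vco_eq_th (c : Fin 16 → Fin (N ^ 2 - 1) → ℝ) (f : F) :
    vco M c f = th (thC M) (evs fun β => WithLp.toLp 2 (c β)) f := by
  rw [th_evs]
  unfold vco thv
  simp only [LinearMap.sum_apply]
  rw [Finset.sum_comm]

/-- Vacua through all vectors. -/
theorem pvac_iff (J : Matrix (IX N) (IX N) ℂ) (f : F) : PVac (thC M) J f ↔
    ∀ u, th (thC M) (J *ᵥ (J *ᵥ u)) f = Complex.I • th (thC M) (J *ᵥ u) f := by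
  constructor
  · intro h u
    rw [Matrix.mulVec_mulVec, VacSec255.th_mulVec, VacSec255.th_mulVec, _root_.sum_apply,
      _root_.sum_apply, Finset.smul_sum]
    refine Finset.sum_congr rfl fun q _ => ?_
    rw [_root_.smul_apply, _root_.smul_apply, h q, smul_comm]
  · intro h q
    have h1 := h (Pi.single q 1)
    rw [Matrix.mulVec_mulVec, VacSec255.th_mulVec, VacSec255.th_mulVec, _root_.sum_apply,
      _root_.sum_apply] at h1
    have h2 : ∀ A : Matrix (IX N) (IX N) ℂ,
        ∑ p, ((Pi.single q 1 : IX N → ℂ) p • lc (thC M) A p) f = lc (thC M) A q f := by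
      intro A
      rw [Finset.sum_eq_single q]
      · simp
      · intro p _ hp
        simp [hp]
      · intro h'; exact absurd (Finset.mem_univ q) h'
    rwa [h2, h2] at h1

end rep

/-! ## Masks -/

/-- Hermitian mask with constant diagonal. -/
structure Msk (s : Fin N → Fin N → ℂ) : Prop where
  herm : ∀ a d, (starRingEnd ℂ) (s a d) = s d a
  diag : ∀ a d, s a a = s d d

/-- The masked colour vector: the entries are multiplied by `s`. -/
def mu (s : Fin N → Fin N → ℂ) : Colg N →ₗ[ℝ] Colg N where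
  toFun v := WithLp.toLp 2 (cf b (Matrix.of fun a d => s a d * hm b v.ofLp a d))
  map_add' v w := by
    refine congrArg (WithLp.toLp 2) (Eq.trans (congrArg (cf b) ?_) (Blk304.cf_add b _ _))
    ext a d
    simp only [Matrix.of_apply, Matrix.add_apply, WithLp.ofLp_add, Blk304.hm_add]
    ring
  map_smul' t v := by
    refine congrArg (WithLp.toLp 2) (Eq.trans (congrArg (cf b) ?_) (Blk304.cf_smul b _ _))
    ext a d
    simp only [Matrix.of_apply, Matrix.smul_apply, WithLp.ofLp_smul, Blk304.hm_smul, smul_eq_mul,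
      RingHom.id_apply]
    ring

theorem hm_conj' (v : Colg N) (a d : Fin N) :
    (starRingEnd ℂ) (hm b v.ofLp a d) = hm b v.ofLp d a := by
  have h := congrFun (congrFun (Blk304.hm_herm b v.ofLp) d) a
  rw [Matrix.conjTranspose_apply] at h
  exact h

theorem hm_mu {s : Fin N → Fin N → ℂ} (hs : Msk s) (v : Colg N) (a d : Fin N) :
    hm b (mu b s v).ofLp a d = s a d * hm b v.ofLp a d := by
  have h1 : (Matrix.of fun a d => s a d * hm b v.ofLp a d : Matrix (Fin N) (Fin N) ℂ).IsHermitian := by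
    ext x y
    rw [Matrix.conjTranspose_apply, Matrix.of_apply, Matrix.of_apply, ← starRingEnd_apply,
      map_mul, hs.herm, hm_conj']
  have h2 : (Matrix.of fun a d => s a d * hm b v.ofLp a d : Matrix (Fin N) (Fin N) ℂ).trace = 0 := by
    have h3 := Blk304.hm_trace b v.ofLp
    rw [Matrix.trace] at h3 ⊢
    simp only [Matrix.diag_apply, Matrix.of_apply] at h3 ⊢
    have h4 : ∀ e, s e e * hm b v.ofLp e e = s a a * hm b v.ofLp e e := fun e => by
      rw [hs.diag e a]
    rw [Finset.sum_congr rfl fun e _ => h4 e, ← Finset.mul_sum, h3, mul_zero]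
  have h3 : hm b (mu b s v).ofLp = Matrix.of fun a d => s a d * hm b v.ofLp a d :=
    Blk304.hm_cf b h1 h2
  rw [h3]
  rfl

theorem colg_ext {u v : Colg N} (h : ∀ a d, hm b u.ofLp a d = hm b v.ofLp a d) : u = v := by
  apply WithLp.ofLp_injective 2
  apply Blk304.hm_inj b
  ext a d
  exact h a d

theorem inner_hm (u v : Colg N) : ⟪u, v⟫_ℝ =
    ∑ a, ∑ d, (hm b u.ofLp a d * (starRingEnd ℂ) (hm b v.ofLp a d)).re := by
  rw [← Blk304.sum_mul_eq b u.ofLp v.ofLp, PiLp.inner_apply]
  refine Finset.sum_congr rfl fun A _ => ?_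
  simp [mul_comm]

/-- A real mask is symmetric. -/
theorem mu_symm {s : Fin N → Fin N → ℝ} (hs : Msk fun a d => (s a d : ℂ)) (u v : Colg N) :
    ⟪mu b (fun a d => (s a d : ℂ)) u, v⟫_ℝ = ⟪u, mu b (fun a d => (s a d : ℂ)) v⟫_ℝ := by
  rw [inner_hm b, inner_hm b]
  refine Finset.sum_congr rfl fun a _ => Finset.sum_congr rfl fun d _ => ?_
  rw [hm_mu b hs, hm_mu b hs, map_mul, Complex.conj_ofReal]
  congr 1
  ring

theorem mu_quad {s : Fin N → Fin N → ℝ} (hs : Msk fun a d => (s a d : ℂ)) (v : Colg N) :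
    ⟪mu b (fun a d => (s a d : ℂ)) v, v⟫_ℝ = ∑ a, ∑ d, s a d * ‖hm b v.ofLp a d‖ ^ 2 := by
  rw [inner_hm b]
  refine Finset.sum_congr rfl fun a _ => Finset.sum_congr rfl fun d _ => ?_
  rw [hm_mu b hs, mul_assoc, Complex.mul_conj, Complex.normSq_eq_norm_sq, ← Complex.ofReal_mul,
    Complex.ofReal_re]

/-- A positive real mask is positive definite. -/
theorem mu_pd {s : Fin N → Fin N → ℝ} (hs : Msk fun a d => (s a d : ℂ)) (hp : ∀ a d, 0 < s a d) :
    SqrtPD984.PD (LinearMap.toContinuousLinearMap (mu b fun a d => (s a d : ℂ))) := by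
  refine ⟨fun v w => mu_symm b hs v w, fun v hv => ?_⟩
  change 0 < ⟪mu b (fun a d => (s a d : ℂ)) v, v⟫_ℝ
  rw [mu_quad b hs]
  have h0 : ∀ a d, 0 ≤ s a d * ‖hm b v.ofLp a d‖ ^ 2 := fun a d =>
    mul_nonneg (hp a d).le (sq_nonneg _)
  rw [Finset.sum_pos_iff_of_nonneg fun a _ => Finset.sum_nonneg fun d _ => h0 a d]
  by_contra hne
  push Not at hne
  apply hv
  refine colg_ext b fun a d => ?_
  have h1 := le_antisymm (hne a (Finset.mem_univ _)) (Finset.sum_nonneg fun d _ => h0 a d)
  have h2 := (Finset.sum_eq_zero_iff_of_nonneg fun d _ => h0 a d).1 h1 d (Finset.mem_univ _)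
  rcases mul_eq_zero.1 h2 with h3 | h3
  · exact absurd h3 (hp a d).ne'
  · have h4 : hm b v.ofLp a d = 0 := norm_eq_zero.1 (pow_eq_zero_iff two_ne_zero |>.1 h3)
    rw [h4]
    exact (congrFun (congrFun (Blk304.hm_zero b) a) d).symm

/-! ## Light and heavy colour vectors -/

variable (P : Lam N)

open Classical in
/-- the mask of the blocks -/
def sk (a d : Fin N) : ℝ := if P.cl a = P.cl d then 1 else 0

theorem msk_sk : Msk fun a d => (sk P a d : ℂ) where
  herm a d := by
    rw [Complex.conj_ofReal]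
    unfold sk
    by_cases h : P.cl a = P.cl d
    · rw [if_pos h, if_pos h.symm]
    · rw [if_neg h, if_neg (Ne.symm h)]
  diag a d := by
    unfold sk
    rw [if_pos rfl, if_pos rfl]

/-- **Heavy colour vectors.** -/
theorem mem_perp {u : Colg N} : u ∈ (Geo692.kk b P)ᗮ ↔
    ∀ a d, P.cl a = P.cl d → hm b u.ofLp a d = 0 := by
  rw [Submodule.mem_orthogonal]
  constructor
  · intro h
    have h1 : mu b (fun a d => (sk P a d : ℂ)) u ∈ Geo692.kk b P := by
      intro a d had
      rw [hm_mu b (msk_sk P)]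
      unfold sk
      rw [if_neg had, Complex.ofReal_zero, zero_mul]
    have h2 := h _ h1
    rw [mu_quad b (msk_sk P)] at h2
    have h0 : ∀ a d, 0 ≤ sk P a d * ‖hm b u.ofLp a d‖ ^ 2 := fun a d => by
      unfold sk
      split_ifs <;> positivity
    intro a d had
    have h3 := (Finset.sum_eq_zero_iff_of_nonneg
      fun a _ => Finset.sum_nonneg fun d _ => h0 a d).1 h2 a (Finset.mem_univ _)
    have h4 := (Finset.sum_eq_zero_iff_of_nonneg fun d _ => h0 a d).1 h3 d (Finset.mem_univ _)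
    unfold sk at h4
    rw [if_pos had, one_mul] at h4
    exact norm_eq_zero.1 (pow_eq_zero_iff two_ne_zero |>.1 h4)
  · intro h v hv
    rw [inner_hm b]
    refine Finset.sum_eq_zero fun a _ => Finset.sum_eq_zero fun d _ => ?_
    by_cases had : P.cl a = P.cl d
    · rw [h a d had, map_zero, mul_zero, Complex.zero_re]
    · rw [hv a d had, zero_mul, Complex.zero_re]

/-- The projection onto the block algebra. -/
theorem proj_kk (v : Colg N) :
    (Geo692.kk b P).starProjection v = mu b (fun a d => (sk P a d : ℂ)) v := by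
  refine Submodule.eq_starProjection_of_mem_orthogonal (K := Geo692.kk b P) ?_ ?_
  · intro a d had
    rw [hm_mu b (msk_sk P)]
    unfold sk
    rw [if_neg had, Complex.ofReal_zero, zero_mul]
  · rw [mem_perp]
    intro a d had
    rw [WithLp.ofLp_sub, Blk304.hm_sub, Matrix.sub_apply, hm_mu b (msk_sk P)]
    unfold sk
    rw [if_pos had, Complex.ofReal_one, one_mul, sub_self]

/-! ## Positions -/

/-- The entries as linear functionals. -/
def hl (a d : Fin N) : Colg N →ₗ[ℝ] ℂ where
  toFun v := hm b v.ofLp a d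
  map_add' u v := by rw [WithLp.ofLp_add, Blk304.hm_add, Matrix.add_apply]
  map_smul' t v := by
    rw [WithLp.ofLp_smul, Blk304.hm_smul, Matrix.smul_apply, smul_eq_mul, RingHom.id_apply,
      Complex.real_smul]

theorem hl_apply (a d : Fin N) (v : Colg N) : hl b a d v = hm b v.ofLp a d := rfl

theorem hm_lin {κ : Type*} (s : Finset κ) (t : κ → ℝ) (w : κ → Colg N) (a d : Fin N) :
    hm b (∑ k ∈ s, t k • w k).ofLp a d = ∑ k ∈ s, (t k : ℂ) * hm b (w k).ofLp a d := by
  rw [← hl_apply, map_sum]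
  refine Finset.sum_congr rfl fun k _ => ?_
  rw [map_smul, Complex.real_smul, hl_apply]

theorem hm_neg' (w : Colg N) (a d : Fin N) : hm b (-w).ofLp a d = -hm b w.ofLp a d := by
  rw [← hl_apply, map_neg, hl_apply]

/-- Positions with multiplicity. -/
def rX (X : Geo692.XS P) : Fin N → E9 := fun a => Geo692.pos b P X (P.cl a)

theorem rX_eq_iff {X : Geo692.XS P} (hX : X ∈ Geo692.Reg b P) (a d : Fin N) :
    rX b P X a = rX b P X d ↔ P.cl a = P.cl d :=
  ⟨fun h => hX h, fun h => by unfold rX; rw [h]⟩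

theorem UU_rX {X : Geo692.XS P} (hX : X ∈ Geo692.UU b P) : VacSec255.UU (rX b P X) := by
  intro a d h h0
  have h1 : P.cl a ≠ P.cl d := fun h' => h (by unfold rX; rw [h'])
  obtain ⟨j, hj, hne⟩ := hX _ _ h1
  have h2 := congrArg (fun v : E9 => v j) h0
  simp only [VacSec255.bp_apply, if_neg (not_lt.2 hj)] at h2
  exact hne (sub_eq_zero.1 h2)

/-! ## The reference vacua -/

variable (G : GammaNine)

theorem Gam_sq : Defs478.Gam G * Defs478.Gam G = -1 := by
  have h := VacSec255.Gc_sq G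
  ext α β
  have h1 := congrFun (congrFun h α) β
  unfold VacSec255.Gc at h1
  rw [← map_mul, VacSec255.cM_apply, Matrix.neg_apply, Matrix.one_apply] at h1
  rw [Matrix.neg_apply, Matrix.one_apply]
  apply Complex.ofReal_injective
  rw [h1]
  split_ifs <;> simp

/-- The reference structure on heavy vectors. -/
theorem Jref_heavy {X : Geo692.XS P} (hX : X ∈ Geo692.Reg b P) {w : Fin 16 → Colg N}
    (hw : ∀ β, w β ∈ (Geo692.kk b P)ᗮ) :
    Jref b G (rX b P X) *ᵥ evs w = evs fun β => -∑ γ, Defs478.Gam G β γ • w γ := by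
  refine cm_inj b fun β => ?_
  ext a d
  rw [Jref, cm_Op b (VacSec255.dc_pa _)]
  simp only [cm_evs]
  rw [hm_neg', hm_lin]
  by_cases h : P.cl a = P.cl d
  · have h1 : ∀ γ, hm b (w γ).ofLp a d = 0 := fun γ => (mem_perp b P).1 (hw γ) a d h
    simp only [h1, mul_zero, Finset.sum_const_zero, neg_zero]
  · rw [← Finset.sum_neg_distrib]
    refine Finset.sum_congr rfl fun γ _ => ?_
    have h1 : rX b P X a - rX b P X d ≠ 0 := fun h' =>
      h ((rX_eq_iff b P hX a d).1 (sub_eq_zero.1 h'))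
    have h2 : pa (VacSec255.K0 G) (rX b P X) a d β γ = -(Defs478.Gam G β γ : ℂ) := by
      change VacSec255.K0 G (rX b P X a - rX b P X d) β γ = _
      unfold VacSec255.K0
      rw [if_neg h1, Matrix.neg_apply]
      rfl
    rw [h2, neg_mul]


/-- The reference structure kills light vectors. -/
theorem Jref_light {X : Geo692.XS P} (hX : X ∈ Geo692.Reg b P) {w : Fin 16 → Colg N}
    (hw : ∀ β, w β ∈ Geo692.kk b P) : Jref b G (rX b P X) *ᵥ evs w = 0 := by
  refine VacSec255.Op_mulVec_light b fun a d => ?_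
  by_cases h : P.cl a = P.cl d
  · left
    change VacSec255.K0 G (rX b P X a - rX b P X d) = 0
    rw [(rX_eq_iff b P hX a d).2 h, sub_self]
    unfold VacSec255.K0
    rw [if_pos rfl]
  · exact Or.inr fun β => hw β a d h

theorem evs_add (w w' : Fin 16 → Colg N) : evs (fun β => w β + w' β) = evs w + evs w' := by
  funext q
  simp only [evs, Pi.add_apply, PiLp.add_apply, Complex.ofReal_add]

section rep2

variable {F : Type*} [NormedAddCommGroup F] [InnerProductSpace ℂ F] [FiniteDimensional ℂ F]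
  (M : FermionRep N F)

theorem thv_smul' (β : Fin 16) (t : ℝ) (u : Colg N) (f : F) :
    thv M β (t • u) f = (t : ℂ) • thv M β u f := by
  unfold thv
  simp only [LinearMap.sum_apply, LinearMap.smul_apply, Finset.smul_sum, smul_smul,
    PiLp.smul_apply, smul_eq_mul, Complex.ofReal_mul]

theorem thv_add' (β : Fin 16) (u v : Colg N) (f : F) :
    thv M β (u + v) f = thv M β u f + thv M β v f := by
  unfold thv
  simp only [LinearMap.sum_apply, LinearMap.smul_apply]
  rw [← Finset.sum_add_distrib]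
  refine Finset.sum_congr rfl fun A _ => ?_
  rw [PiLp.add_apply, Complex.ofReal_add, add_smul]

theorem thv_neg' (β : Fin 16) (u : Colg N) (f : F) : thv M β (-u) f = -thv M β u f := by
  rw [← neg_one_smul ℝ u, thv_smul', Complex.ofReal_neg, Complex.ofReal_one, neg_one_smul]

theorem thv_zero' (β : Fin 16) (f : F) : thv M β (0 : Colg N) f = 0 := by
  rw [← zero_smul ℝ (0 : Colg N), thv_smul', Complex.ofReal_zero, zero_smul]

theorem th_single (α : Fin 16) (u : Colg N) (f : F) :
    th (thC M) (evs (Pi.single α u)) f = thv M α u f := by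
  rw [th_evs, Finset.sum_eq_single α]
  · rw [Pi.single_eq_same]
  · intro β _ hβ
    rw [Pi.single_eq_of_ne hβ, thv_zero']
  · intro h; exact absurd (Finset.mem_univ α) h

theorem single_perp {K : Submodule ℝ (Colg N)} {u : Colg N} (hu : u ∈ K) (α β : Fin 16) :
    (Pi.single α u : Fin 16 → Colg N) β ∈ K := by
  by_cases h : β = α
  · rw [h, Pi.single_eq_same]
    exact hu
  · rw [Pi.single_eq_of_ne h]
    exact Submodule.zero_mem _

theorem Jref_single {X : Geo692.XS P} (hX : X ∈ Geo692.Reg b P) {u : Colg N}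
    (hu : u ∈ (Geo692.kk b P)ᗮ) (α : Fin 16) :
    Jref b G (rX b P X) *ᵥ evs (Pi.single α u) = evs fun β => -(Defs478.Gam G β α • u) := by
  rw [Jref_heavy b P G hX fun β => single_perp hu α β]
  congr 1
  funext β
  rw [Finset.sum_eq_single α]
  · rw [Pi.single_eq_same]
  · intro γ _ hγ
    rw [Pi.single_eq_of_ne hγ, smul_zero]
  · intro h; exact absurd (Finset.mem_univ α) h

theorem Jref_sq_single {X : Geo692.XS P} (hX : X ∈ Geo692.Reg b P) {u : Colg N}
    (hu : u ∈ (Geo692.kk b P)ᗮ) (α : Fin 16) :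
    Jref b G (rX b P X) *ᵥ (Jref b G (rX b P X) *ᵥ evs (Pi.single α u)) =
      -evs (Pi.single α u) := by
  rw [Jref_single b P G hX hu,
    Jref_heavy b P G hX fun β => Submodule.neg_mem _ (Submodule.smul_mem _ _ hu)]
  funext ⟨β, A⟩
  have h1 : -∑ γ, Defs478.Gam G β γ • -(Defs478.Gam G γ α • u) =
      (Defs478.Gam G * Defs478.Gam G) β α • u := by
    simp only [smul_neg, Finset.sum_neg_distrib, neg_neg, smul_smul, Matrix.mul_apply,
      Finset.sum_smul]
  have h2 : Defs478.Gam G * Defs478.Gam G = -1 := Gam_sq G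
  rw [Pi.neg_apply]
  unfold evs
  simp only [h1, h2]
  rw [Matrix.neg_apply, Matrix.one_apply]
  by_cases h : β = α
  · rw [if_pos h, h, Pi.single_eq_same, neg_one_smul, PiLp.neg_apply, Complex.ofReal_neg]
  · rw [if_neg h, neg_zero, zero_smul, Pi.single_eq_of_ne h, PiLp.zero_apply, Complex.ofReal_zero,
      neg_zero]

/-- **The reference vacua.** -/
theorem mem_vacOf_iff {X : Geo692.XS P} (hX : X ∈ Geo692.Reg b P) (f : F) :
    f ∈ vacOf M G (Geo692.kk b P)ᗮ ↔ PVac (thC M) (Jref b G (rX b P X)) f := by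
  rw [TDef414.mem_vacOf, pvac_iff]
  have key : ∀ α, ∀ u ∈ (Geo692.kk b P)ᗮ, (gan M G α u f = 0 ↔
      th (thC M) (Jref b G (rX b P X) *ᵥ (Jref b G (rX b P X) *ᵥ evs (Pi.single α u))) f =
        Complex.I • th (thC M) (Jref b G (rX b P X) *ᵥ evs (Pi.single α u)) f) := by
    intro α u hu
    rw [Jref_sq_single b P G hX hu, Jref_single b P G hX hu, th_evs]
    have h1 : th (thC M) (-evs (Pi.single α u)) f = -thv M α u f := by
      rw [← th_single, th, th, _root_.sum_apply, _root_.sum_apply, ← Finset.sum_neg_distrib]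
      refine Finset.sum_congr rfl fun p _ => ?_
      rw [Pi.neg_apply, neg_smul, _root_.neg_apply]
    have h2 : ∑ β, thv M β (-(Defs478.Gam G β α • u)) f =
        -∑ β, ((Defs478.Gam G β α : ℝ) : ℂ) • thv M β u f := by
      rw [← Finset.sum_neg_distrib]
      refine Finset.sum_congr rfl fun β _ => ?_
      rw [thv_neg', thv_smul']
    rw [h1, h2, smul_neg, neg_inj]
    unfold gan
    simp only [LinearMap.sub_apply, LinearMap.smul_apply, LinearMap.sum_apply]
    exact sub_eq_zero
  constructor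
  · intro h v
    -- linearity: basis vectors
    have hb : ∀ α A, th (thC M) (Jref b G (rX b P X) *ᵥ (Jref b G (rX b P X) *ᵥ
        evs (Pi.single α (EuclideanSpace.single A (1 : ℝ))))) f =
        Complex.I • th (thC M) (Jref b G (rX b P X) *ᵥ
          evs (Pi.single α (EuclideanSpace.single A (1 : ℝ)))) f := by
      intro α A
      set u : Colg N := EuclideanSpace.single A (1 : ℝ) with hu
      set u1 := (Geo692.kk b P).starProjection u with hu1
      have h1 : u1 ∈ Geo692.kk b P := Submodule.starProjection_apply_mem _ _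
      have h2 : u - u1 ∈ (Geo692.kk b P)ᗮ := Submodule.sub_starProjection_mem_orthogonal _
      have h3 : evs (Pi.single α u) = evs (Pi.single α (u - u1)) + evs (Pi.single α u1) := by
        rw [← evs_add]
        congr 1
        funext β
        by_cases hβ : β = α
        · rw [hβ, Pi.single_eq_same, Pi.single_eq_same, Pi.single_eq_same, sub_add_cancel]
        · rw [Pi.single_eq_of_ne hβ, Pi.single_eq_of_ne hβ, Pi.single_eq_of_ne hβ, add_zero]
      have h4 : Jref b G (rX b P X) *ᵥ evs (Pi.single α u) =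
          Jref b G (rX b P X) *ᵥ evs (Pi.single α (u - u1)) := by
        rw [h3, Matrix.mulVec_add, Jref_light b P G hX fun β => single_perp h1 α β, add_zero]
      rw [h4]
      exact (key α _ h2).1 (h α _ h2)
    have h5 : PVac (thC M) (Jref b G (rX b P X)) f := by
      intro q
      have h6 := hb q.1 q.2
      have h7 : evs (Pi.single q.1 (EuclideanSpace.single q.2 (1 : ℝ))) =
          (Pi.single q 1 : IX N → ℂ) := by
        funext p
        unfold evs
        by_cases hp : p = q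
        · rw [hp, Pi.single_eq_same, Pi.single_eq_same]
          simp
        · rw [Pi.single_eq_of_ne hp]
          by_cases hp1 : p.1 = q.1
          · rw [hp1, Pi.single_eq_same]
            have hp2 : p.2 ≠ q.2 := fun h => hp (Prod.ext hp1 h)
            simp [hp2]
          · rw [Pi.single_eq_of_ne hp1]
            simp
      rw [h7, Matrix.mulVec_mulVec, VacSec255.th_mulVec, VacSec255.th_mulVec, _root_.sum_apply,
        _root_.sum_apply] at h6
      have h8 : ∀ A : Matrix (IX N) (IX N) ℂ,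
          ∑ p, ((Pi.single q 1 : IX N → ℂ) p • lc (thC M) A p) f = lc (thC M) A q f := by
        intro A
        rw [Finset.sum_eq_single q]
        · simp
        · intro p _ hp
          simp [hp]
        · intro h'; exact absurd (Finset.mem_univ q) h'
      rwa [h8, h8] at h6
    exact (pvac_iff M _ f).1 h5 v
  · intro h α u hu
    exact (key α u hu).2 (h _)

/-! ## The section -/

/-- **The section of heavy vacua of the channel.** -/
def UX (X : Pos (P.m - 1)) : F →L[ℂ] F := Wop b G M (rX b P X)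

variable {M}

theorem contDiff_pos (p : Fin P.m) {n : WithTop ℕ∞} :
    ContDiff ℝ n fun X : Geo692.XS P => Geo692.pos b P X p := by
  let L : Geo692.XS P →ₗ[ℝ] E9 :=
    { toFun := fun X => Geo692.pos b P X p
      map_add' := fun X Y => Geo692.pos_add b P X Y p
      map_smul' := fun t X => Geo692.pos_smul b P t X p }
  exact (LinearMap.toContinuousLinearMap L).contDiff

theorem contDiffAt_rX (X : Geo692.XS P) {n : WithTop ℕ∞} (a : Fin N) :
    ContDiffAt ℝ n (fun x => rX b P x a) X := (contDiff_pos b P _).contDiffAt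

theorem eventually_rX {X : Geo692.XS P} (hX : X ∈ Geo692.UU b P) :
    ∀ᶠ x in 𝓝 X, ∀ a d, rX b P X a = rX b P X d → rX b P x a = rX b P x d := by
  refine Eventually.of_forall fun x a d h => ?_
  have h1 := (rX_eq_iff b P (Geo692.UU_subset_Reg b P hX) a d).1 h
  unfold rX
  rw [h1]

theorem UX_smooth {X : Geo692.XS P} (hX : X ∈ Geo692.UU b P) :
    ContDiffAt ℝ ∞ (UX b P G M) X :=
  VacSec255.contDiffAt_Wop b G (contDiffAt_rX b P X) (eventually_rX b P hX) (UU_rX b P hX)

theorem UX_inner (X : Geo692.XS P) (f f' : F) :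
    ⟪UX b P G M X f, UX b P G M X f'⟫_ℂ = ⟪f, f'⟫_ℂ := VacSec255.Wop_inner b G _ _ _

theorem UX_comm {X : Geo692.XS P} (hX : X ∈ Geo692.UU b P) (β : Fin 16) {u : Colg N}
    (hu : u ∈ Geo692.kk b P) (f : F) :
    UX b P G M X (thv M β u f) = thv M β u (UX b P G M X f) := by
  have h := VacSec255.Wop_light b G (M := M) (UU_rX b P hX) (u := evs (Pi.single β u))
    (fun a d had γ => by
      rw [cm_evs]
      exact single_perp hu β γ a d fun h' =>
        had ((rX_eq_iff b P (Geo692.UU_subset_Reg b P hX) a d).2 h'))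
  have h2 := congrArg (fun T : F →L[ℂ] F => T f) h
  change Wop b G M (rX b P X) (th (thC M) (evs (Pi.single β u)) f) =
    th (thC M) (evs (Pi.single β u)) (Wop b G M (rX b P X) f) at h2
  rwa [th_single, th_single] at h2

theorem rX_of_act {X X' : Geo692.XS P} (hX' : X' ∈ Geo692.Reg b P)
    {g : Matrix.specialUnitaryGroup (Fin N) ℂ}
    (h : b.act g (Geo692.cfX b P X) = Geo692.cfX b P X') (a e : Fin N)
    (hg : (g : Matrix (Fin N) (Fin N) ℂ) e a ≠ 0) : rX b P X a = rX b P X' e := by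
  obtain ⟨σ, hσ, h1, rfl⟩ := Geo692.exists_sw b P hX' h
  have h2 : P.cl e = σ (P.cl a) := by
    by_contra h'
    exact hg (h1 e a h')
  unfold rX
  rw [Geo692.pos_Osw, h2, Geo692.ias]

theorem UX_cov (R : GaugeAction b M) {X X' : Geo692.XS P} (hX : X ∈ Geo692.UU b P)
    (hX' : X' ∈ Geo692.UU b P) {g : Matrix.specialUnitaryGroup (Fin N) ℂ}
    (h : b.act g (Geo692.cfX b P X) = Geo692.cfX b P X') {f : F}
    (hf : f ∈ vacOf M G (Geo692.kk b P)ᗮ) :
    R.ρ g f ∈ vacOf M G (Geo692.kk b P)ᗮ ∧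
      R.ρ g (UX b P G M X f) = UX b P G M X' (R.ρ g f) := by
  have hr := Geo692.UU_subset_Reg b P hX
  have hr' := Geo692.UU_subset_Reg b P hX'
  have h1 := rX_of_act b P hr' h
  refine ⟨?_, VacSec255.rho_Wop_apply G R g h1 f⟩
  rw [mem_vacOf_iff b P G M hr]  at hf
  rw [mem_vacOf_iff b P G M hr']
  have h2 := hf.map (VacSec255.rhoC_thC R g) (VacSec255.adI_transpose_mul b g)
  have h3 : adI b g * Jref b G (rX b P X) * (adI b g)ᵀ = Jref b G (rX b P X') :=
    VacSec255.adI_Op_conj b g fun a d e f' ha hd => by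
      change VacSec255.K0 G (rX b P X a - rX b P X d) = VacSec255.K0 G (rX b P X' e - rX b P X' f')
      rw [h1 a e ha, h1 d f' hd]
  rw [h3] at h2
  exact h2

theorem UX_berry {X : Geo692.XS P} (hX : X ∈ Geo692.UU b P) (e : Geo692.XS P) {f f' : F}
    (hf : f ∈ vacOf M G (Geo692.kk b P)ᗮ) (hf' : f' ∈ vacOf M G (Geo692.kk b P)ᗮ) :
    ⟪UX b P G M X f, fderiv ℝ (fun X' => UX b P G M X' f') X e⟫_ℂ = 0 := by
  have hr := Geo692.UU_subset_Reg b P hX
  rw [mem_vacOf_iff b P G M hr] at hf hf'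
  have h1 := VacSec255.berry b G (M := M) (contDiffAt_rX b P X (n := 1)) (eventually_rX b P hX)
    (UU_rX b P hX) e hf' hf
  have h2 : DifferentiableAt ℝ (UX b P G M) X :=
    (UX_smooth b P G hX).differentiableAt (by simp)
  have h3 : HasFDerivAt (fun X' => UX b P G M X' f')
      (((ContinuousLinearMap.apply ℂ F f').restrictScalars ℝ).comp
        (fderiv ℝ (UX b P G M) X)) X :=
    (((ContinuousLinearMap.apply ℂ F f').restrictScalars ℝ).hasFDerivAt).comp X h2.hasFDerivAt
  rw [h3.fderiv]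
  exact h1

/-! ## Parity of the heavy fermions -/

/-- The reflection of the heavy vectors. -/
def cR (a d : Fin N) : Matrix (Fin 16) (Fin 16) ℂ := ((2 * sk P a d - 1 : ℝ) : ℂ) • (1 : M16)

theorem dc_cR : DC (cR P) := fun a d => by
  unfold cR sk
  rw [if_pos rfl, if_pos rfl]

theorem sk_sq (a d : Fin N) : (2 * sk P a d - 1) * (2 * sk P a d - 1) = 1 := by
  unfold sk
  split_ifs <;> norm_num

theorem sk_symm (a d : Fin N) : sk P a d = sk P d a := by
  unfold sk
  by_cases h : P.cl a = P.cl d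
  · rw [if_pos h, if_pos h.symm]
  · rw [if_neg h, if_neg (Ne.symm h)]

theorem cR_transpose : (Op b (cR P))ᵀ = Op b (cR P) := by
  rw [VacSec255.Op_transpose]
  congr 1
  funext a d
  unfold cR
  rw [Matrix.transpose_smul, Matrix.transpose_one, sk_symm]

theorem cR_conj (K : E9 → M16) (r : Fin N → E9) :
    Op b (cR P) * Op b (pa K r) * (Op b (cR P))ᵀ = Op b (pa K r) := by
  rw [cR_transpose, ← VacSec255.Op_mul b _ _ (VacSec255.dc_pa r),
    ← VacSec255.Op_mul b _ _ (dc_cR P)]
  congr 1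
  funext a d
  change cR P a d * pa K r a d * cR P a d = pa K r a d
  unfold cR
  rw [smul_mul_assoc, one_mul, mul_smul_comm, mul_one, smul_smul, ← Complex.ofReal_mul, sk_sq,
    Complex.ofReal_one, one_smul]

/-- The reflection on vectors. -/
theorem cR_mulVec (v : IX N → ℂ) (β : Fin 16) (a d : Fin N) :
    VacSec255.cm b (Op b (cR P) *ᵥ v) β a d =
      ((2 * sk P a d - 1 : ℝ) : ℂ) * VacSec255.cm b v β a d := by
  rw [cm_Op b (dc_cR P), Finset.sum_eq_single β]
  · unfold cR
    rw [Matrix.smul_apply, Matrix.one_apply_eq, smul_eq_mul, mul_one]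
  · intro γ _ hγ
    unfold cR
    rw [Matrix.smul_apply, Matrix.one_apply_ne (Ne.symm hγ), smul_zero, zero_mul]
  · intro h; exact absurd (Finset.mem_univ β) h

theorem UX_par (X : Geo692.XS P) (Q : F →ₗ[ℂ] F)
    (h1 : ∀ β, ∀ u ∈ (Geo692.kk b P)ᗮ, ∀ f, Q (thv M β u f) = -thv M β u (Q f))
    (h2 : ∀ β, ∀ u ∈ Geo692.kk b P, ∀ f, Q (thv M β u f) = thv M β u (Q f)) (f : F) :
    Q (UX b P G M X f) = UX b P G M X (Q f) := by
  have : CompleteSpace F := FiniteDimensional.complete ℂ F
  set E : F →L[ℂ] F := LinearMap.toContinuousLinearMap Q with hE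
  have hEq : ∀ q, E * thC M q = lc (thC M) (Op b (cR P)) q * E := by
    intro q
    ext v
    set u : Colg N := EuclideanSpace.single q.2 (1 : ℝ) with hu
    set u1 := (Geo692.kk b P).starProjection u with hu1
    have e1 : u1 ∈ Geo692.kk b P := Submodule.starProjection_apply_mem _ _
    have e2 : u - u1 ∈ (Geo692.kk b P)ᗮ := Submodule.sub_starProjection_mem_orthogonal _
    have e3 : thC M q v = thv M q.1 u v := by
      rw [← th_single, th, _root_.sum_apply, Finset.sum_eq_single q]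
      · unfold evs
        rw [Pi.single_eq_same, hu]
        simp
      · intro p _ hp
        unfold evs
        by_cases hp1 : p.1 = q.1
        · rw [hp1, Pi.single_eq_same, hu]
          have hp2 : p.2 ≠ q.2 := fun h => hp (Prod.ext hp1 h)
          simp [hp2]
        · rw [Pi.single_eq_of_ne hp1]
          simp
      · intro h'; exact absurd (Finset.mem_univ q) h'
    have e4 : lc (thC M) (Op b (cR P)) q = th (thC M) (Op b (cR P) *ᵥ Pi.single q 1) := by
      rw [VacSec255.th_mulVec, Finset.sum_eq_single q]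
      · simp
      · intro p _ hp
        simp [hp]
      · intro h'; exact absurd (Finset.mem_univ q) h'
    have e5 : Op b (cR P) *ᵥ (Pi.single q 1 : IX N → ℂ) =
        evs (Pi.single q.1 (u1 + (-1 : ℝ) • (u - u1))) := by
      refine cm_inj b fun β => ?_
      ext a d
      rw [cR_mulVec, cm_evs]
      have e6 : (Pi.single q 1 : IX N → ℂ) = evs (Pi.single q.1 u) := by
        funext p
        unfold evs
        by_cases hp : p = q
        · rw [hp, Pi.single_eq_same, Pi.single_eq_same, hu]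
          simp
        · rw [Pi.single_eq_of_ne hp]
          by_cases hp1 : p.1 = q.1
          · rw [hp1, Pi.single_eq_same, hu]
            have hp2 : p.2 ≠ q.2 := fun h => hp (Prod.ext hp1 h)
            simp [hp2]
          · rw [Pi.single_eq_of_ne hp1]
            simp
      rw [e6, cm_evs]
      by_cases hβ : β = q.1
      · rw [hβ, Pi.single_eq_same, Pi.single_eq_same, ← hl_apply, ← hl_apply, map_add, map_smul,
          map_sub]
        have e7 : hl b a d u1 = (sk P a d : ℂ) * hl b a d u := by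
          rw [hl_apply, hl_apply, hu1, proj_kk, hm_mu b (msk_sk P)]
        rw [e7, Complex.real_smul]
        push_cast
        ring
      · rw [Pi.single_eq_of_ne hβ, Pi.single_eq_of_ne hβ, ← hl_apply, map_zero, mul_zero]
    have e8 : thv M q.1 u v = thv M q.1 u1 v + thv M q.1 (u - u1) v := by
      rw [← thv_add', add_sub_cancel]
    change Q (thC M q v) = lc (thC M) (Op b (cR P)) q (Q v)
    rw [e3, e8, map_add, h1 _ _ e2, h2 _ _ e1, e4, e5, th_single, thv_add', thv_smul',
      Complex.ofReal_neg, Complex.ofReal_one, neg_one_smul]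
  have k1 : E * VacSec255.W1 b G M (rX b P X) = VacSec255.W1 b G M (rX b P X) * E := by
    have := VacSec255.W_through hEq (Op b (pa (VacSec255.K1 G) (rX b P X)))
    rwa [cR_conj] at this
  have k2 : E * VacSec255.W2 b G M (rX b P X) = VacSec255.W2 b G M (rX b P X) * E := by
    have := VacSec255.W_through hEq (Op b (pa (VacSec255.K2 G) (rX b P X)))
    rwa [cR_conj] at this
  have k3 : E * Wop b G M (rX b P X) = Wop b G M (rX b P X) * E := by
    rw [Wop, ← mul_assoc, k2, mul_assoc, k1, ← mul_assoc]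
  exact congrArg (fun T : F →L[ℂ] F => T f) k3

/-! ## The adjoint action and its modulus, entrywise -/

theorem hm_adX (X : Geo692.XS P) (i : Fin 9) (v : Colg N) (a d : Fin N) :
    hm b (GBind984.adX b (Geo692.cfX b P X) i v).ofLp a d =
      (-Complex.I * ((rX b P X a i - rX b P X d i : ℝ) : ℂ)) * hm b v.ofLp a d := by
  rw [GBind984.adX_apply, Geo692.comp_cfX, Geo692.hm_colbr, Geo692.hm_cen]
  unfold Geo692.bsc
  rw [Matrix.smul_apply, Matrix.sub_apply, Matrix.diagonal_mul, Matrix.mul_diagonal, smul_eq_mul]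
  change -Complex.I * (((rX b P X a i : ℝ) : ℂ) * hm b v.ofLp a d -
    hm b v.ofLp a d * ((rX b P X d i : ℝ) : ℂ)) = _
  push_cast
  ring

theorem exists_famX {X : Geo692.XS P} (hX : X ∈ Geo692.Reg b P) : ∃ s : ℝ, 0 < s ∧
    AX984.Fam (Geo692.kk b P) s (GBind984.adX b (Geo692.cfX b P X)) := by
  have h := GBind984.exists_fam b (Geo692.comc_cfX b P X)
  rwa [Geo692.kc_cfX b P hX] at h

open Classical in
/-- the modulus of the adjoint action on a pair -/
def sr (X : Geo692.XS P) (a d : Fin N) : ℝ :=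
  if P.cl a = P.cl d then 1 else ‖rX b P X a - rX b P X d‖

theorem sr_pos {X : Geo692.XS P} (hX : X ∈ Geo692.Reg b P) (a d : Fin N) : 0 < sr b P X a d := by
  unfold sr
  split_ifs with h
  · exact one_pos
  · exact norm_pos_iff.2 fun h' => h ((rX_eq_iff b P hX a d).1 (sub_eq_zero.1 h'))

theorem msk_sr (X : Geo692.XS P) : Msk fun a d => (sr b P X a d : ℂ) where
  herm a d := by
    rw [Complex.conj_ofReal]
    unfold sr
    by_cases h : P.cl a = P.cl d
    · rw [if_pos h, if_pos h.symm]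
    · rw [if_neg h, if_neg (Ne.symm h), norm_sub_rev]
  diag a d := by
    unfold sr
    rw [if_pos rfl, if_pos rfl]

theorem lr_eq {X : Geo692.XS P} (hX : X ∈ Geo692.Reg b P) :
    AX984.lr (Geo692.kk b P) (GBind984.adX b (Geo692.cfX b P X)) =
      LinearMap.toContinuousLinearMap (mu b fun a d => (sr b P X a d : ℂ)) := by
  obtain ⟨s, hs, h⟩ := exists_famX b P hX
  refine SqrtPD984.psq_eq (mu_pd b (msk_sr b P X) (sr_pos b P hX)) ?_ (h.ll_pd hs).ps
  ext1 v
  refine colg_ext b fun a d => ?_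
  change hm b (mu b (fun a d => (sr b P X a d : ℂ)) (mu b (fun a d => (sr b P X a d : ℂ)) v)).ofLp
    a d = _
  rw [hm_mu b (msk_sr b P X), hm_mu b (msk_sr b P X), AX984.ll_apply, ← hl_apply b a d (_ - _),
    map_sub, map_sum, proj_kk, hl_apply, hm_mu b (msk_sk P)]
  simp only [hl_apply, hm_adX]
  rw [← mul_assoc, ← Finset.sum_congr rfl fun i _ => mul_assoc _ _ _, ← Finset.sum_mul,
    ← sub_mul]
  congr 1
  have h1 : ∀ i : Fin 9, (-Complex.I * ((rX b P X a i - rX b P X d i : ℝ) : ℂ)) *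
      (-Complex.I * ((rX b P X a i - rX b P X d i : ℝ) : ℂ)) =
      -(((rX b P X a i - rX b P X d i) ^ 2 : ℝ) : ℂ) := by
    intro i
    have : (-Complex.I * ((rX b P X a i - rX b P X d i : ℝ) : ℂ)) *
      (-Complex.I * ((rX b P X a i - rX b P X d i : ℝ) : ℂ)) = (Complex.I * Complex.I) *
      (((rX b P X a i - rX b P X d i : ℝ) : ℂ)) ^ 2 := by ring
    rw [this, Complex.I_mul_I, neg_one_mul, Complex.ofReal_pow]
  rw [Finset.sum_congr rfl fun i _ => h1 i, Finset.sum_neg_distrib, sub_neg_eq_add,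
    ← Complex.ofReal_sum, ← Complex.ofReal_mul, ← Complex.ofReal_add]
  congr 1
  unfold sr sk
  by_cases hc : P.cl a = P.cl d
  · rw [if_pos hc, if_pos hc]
    have h2 : rX b P X a = rX b P X d := (rX_eq_iff b P hX a d).2 hc
    simp [h2]
  · rw [if_neg hc, if_neg hc, zero_add, ← sq, EuclideanSpace.norm_sq_eq]
    refine Finset.sum_congr rfl fun i _ => ?_
    rw [Real.norm_eq_abs, sq_abs, PiLp.sub_apply]

theorem hm_lr {X : Geo692.XS P} (hX : X ∈ Geo692.Reg b P) (v : Colg N) (a d : Fin N) :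
    hm b (AX984.lr (Geo692.kk b P) (GBind984.adX b (Geo692.cfX b P X)) v).ofLp a d =
      (sr b P X a d : ℂ) * hm b v.ofLp a d := by
  rw [lr_eq b P hX]
  exact hm_mu b (msk_sr b P X) v a d

theorem hm_li {X : Geo692.XS P} (hX : X ∈ Geo692.Reg b P) (v : Colg N) (a d : Fin N) :
    hm b (AX984.li (Geo692.kk b P) (GBind984.adX b (Geo692.cfX b P X)) v).ofLp a d =
      ((sr b P X a d : ℂ))⁻¹ * hm b v.ofLp a d := by
  obtain ⟨s, hs, h⟩ := exists_famX b P hX
  have h1 := h.lr_li hs v
  have h2 := hm_lr b P hX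
    (AX984.li (Geo692.kk b P) (GBind984.adX b (Geo692.cfX b P X)) v) a d
  rw [h1] at h2
  have h3 : (sr b P X a d : ℂ) ≠ 0 := Complex.ofReal_ne_zero.2 (sr_pos b P hX a d).ne'
  rw [h2, inv_mul_cancel_left₀ h3]

/-! ## Charges as vectors -/

/-- The vector of `Theta α y`. -/
def wT (α : Fin 16) (y : Cfg N) : Fin 16 → Colg N := fun β => ∑ j, G.γ j α β • comp y j

theorem Theta_th (M : FermionRep N F) (α : Fin 16) (y : Cfg N) (f : F) :
    Theta M G α y f = th (thC M) (evs (wT G α y)) f := by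
  rw [Theta_eq, vco_eq_th]
  congr 2

/-- The vector of the linear potential. -/
def wP (α : Fin 16) (c z : Cfg N) : Fin 16 → Colg N := fun β =>
  ∑ i, ∑ j, G.γ2 i j α β • (colAlg b).br (comp c i) (comp z j)

theorem wB_th (M : FermionRep N F) (α : Fin 16) (c z : Cfg N) (f : F) :
    wB b M G 1 α c z f = th (thC M) (evs (wP b G α c z)) f := by
  unfold wB
  rw [vco_eq_th]
  congr 2
  congr 1
  funext β
  have h1 : (WithLp.toLp 2 (fun A => 2 * 1 * wb b G α β A c z) : Colg N) =
      (2 : ℝ) • (WithLp.toLp 2 (fun A => wb b G α β A c z) : Colg N) := by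
    ext A
    simp
  rw [h1, wbv_eq, Finset.smul_sum]
  refine Finset.sum_congr rfl fun i _ => ?_
  rw [Finset.smul_sum]
  refine Finset.sum_congr rfl fun j _ => ?_
  rw [smul_smul]
  congr 1
  ring

theorem g2_sub (i j : Fin 9) (α β : Fin 16) : G.γ2 i j α β =
    (G.γ i * G.γ j) α β - if i = j then (1 : Matrix (Fin 16) (Fin 16) ℝ) α β else 0 := by
  by_cases h : i = j
  · rw [if_pos h, h, Gam962.g2_self, Gam962.sq_one, sub_self, Matrix.zero_apply]
  · rw [if_neg h, Gam962.g2_ne G h, sub_zero]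

/-- The vector of the potential through the exponent. -/
theorem wP_eq {X : Geo692.XS P} (hX : X ∈ Geo692.Reg b P) (α β : Fin 16) (z : Cfg N) :
    wP b G α (Geo692.cfX b P X) z β = ∑ i, ∑ j, (G.γ i * G.γ j) α β •
      GBind984.adX b (Geo692.cfX b P X) i
        (AX984.li (Geo692.kk b P) (GBind984.adX b (Geo692.cfX b P X))
          (comp (GBind984.AXc b (Geo692.kk b P) (Geo692.cfX b P X) z) j)) := by
  obtain ⟨s, hs, h⟩ := exists_famX b P hX
  have h1 := h.charge GBind984.tenC hs (κ := (1 : Matrix (Fin 16) (Fin 16) ℝ) α β)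
    (c := fun i j => (G.γ i * G.γ j) α β)
    (fun i j hij => by
      rw [← Matrix.add_apply, G.clifford, if_neg hij, Matrix.zero_apply])
    (fun i => by rw [Gam962.sq_one]) z
  refine Eq.trans ?_ h1.symm
  unfold wP
  simp only [g2_sub, sub_smul, Finset.sum_sub_distrib]
  rw [GBind984.dv_adX, Finset.smul_sum]
  refine congrArg₂ (· - ·) rfl ?_
  refine Finset.sum_congr rfl fun i _ => ?_
  rw [Finset.sum_eq_single i]
  · rw [if_pos rfl]
  · intro j _ hj
    rw [if_neg (Ne.symm hj), zero_smul]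
  · intro h'; exact absurd (Finset.mem_univ i) h'

/-- **The potential is the complex structure applied to the kinetic vector.** -/
theorem evs_wP {X : Geo692.XS P} (hX : X ∈ Geo692.Reg b P) (α : Fin 16) (z : Cfg N) :
    evs (wP b G α (Geo692.cfX b P X) z) = -(Jop b G (rX b P X) *ᵥ
      evs (wT G α (GBind984.AXc b (Geo692.kk b P) (Geo692.cfX b P X) z))) := by
  obtain ⟨s, hs, h⟩ := exists_famX b P hX
  set y := GBind984.AXc b (Geo692.kk b P) (Geo692.cfX b P X) z with hy
  have hyK : ∀ j, comp y j ∈ (Geo692.kk b P)ᗮ := fun j => h.pr_AX_mem GBind984.tenC hs z j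
  have hdv : ∑ i, GBind984.adX b (Geo692.cfX b P X) i (comp y i) = 0 := by
    have h1 := h.dv_AX GBind984.tenC hs z
    rwa [AX984.Ten.dv_apply] at h1
  refine cm_inj b fun β => ?_
  ext a d
  have hneg : VacSec255.cm b (-(Jop b G (rX b P X) *ᵥ evs (wT G α y))) β a d =
      -VacSec255.cm b (Jop b G (rX b P X) *ᵥ evs (wT G α y)) β a d := by
    unfold VacSec255.cm
    rw [Matrix.sum_apply, Matrix.sum_apply, ← Finset.sum_neg_distrib]
    refine Finset.sum_congr rfl fun A _ => ?_
    rw [Matrix.smul_apply, Matrix.smul_apply, Pi.neg_apply, neg_smul]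
  rw [hneg, cm_evs, wP_eq b P G hX, ← hy, Jop, cm_Op b (VacSec255.dc_pa _)]
  simp only [cm_evs]
  have hT : ∀ γ, hm b (wT G α y γ).ofLp a d =
      ∑ j, ((G.γ j α γ : ℝ) : ℂ) * hm b (comp y j).ofLp a d := fun γ => hm_lin b _ _ _ a d
  have hL : hm b (∑ i, ∑ j, (G.γ i * G.γ j) α β • GBind984.adX b (Geo692.cfX b P X) i
      (AX984.li (Geo692.kk b P) (GBind984.adX b (Geo692.cfX b P X)) (comp y j))).ofLp a d =
      ∑ i, ∑ j, (((G.γ i * G.γ j) α β : ℝ) : ℂ) *
        ((-Complex.I * ((rX b P X a i - rX b P X d i : ℝ) : ℂ)) *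
          (((sr b P X a d : ℂ))⁻¹ * hm b (comp y j).ofLp a d)) := by
    rw [← hl_apply, map_sum]
    refine Finset.sum_congr rfl fun i _ => ?_
    rw [map_sum]
    refine Finset.sum_congr rfl fun j _ => ?_
    rw [map_smul, Complex.real_smul, hl_apply, hm_adX, hm_li b P hX]
  rw [hL]
  simp only [hT]
  by_cases hc : P.cl a = P.cl d
  · have h0 : ∀ j, hm b (comp y j).ofLp a d = 0 := fun j => (mem_perp b P).1 (hyK j) a d hc
    simp only [h0, mul_zero, Finset.sum_const_zero, neg_zero]
  · set v : E9 := rX b P X a - rX b P X d with hv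
    have hv0 : v ≠ 0 := fun h' => hc ((rX_eq_iff b P hX a d).1 (sub_eq_zero.1 h'))
    have hvi : ∀ i, rX b P X a i - rX b P X d i = v i := fun i => by rw [hv, PiLp.sub_apply]
    have hsr : sr b P X a d = ‖v‖ := by
      unfold sr
      rw [if_neg hc]
    set Y : Fin 9 → ℂ := fun j => hm b (comp y j).ofLp a d with hY
    have hdv2 : ∑ i, (v i : ℂ) * Y i = 0 := by
      have h1 := congrArg (hl b a d) hdv
      rw [map_sum, map_zero] at h1
      simp only [hl_apply, hm_adX, hvi] at h1
      have h2 : ∑ i, -Complex.I * (v i : ℂ) * hm b (comp y i).ofLp a d =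
          -Complex.I * ∑ i, (v i : ℂ) * Y i := by
        rw [Finset.mul_sum]
        exact Finset.sum_congr rfl fun i _ => by rw [hY]; ring
      rw [h2] at h1
      rcases mul_eq_zero.1 h1 with h3 | h3
      · exact absurd h3 (neg_ne_zero.2 Complex.I_ne_zero)
      · exact h3
    have hK : ∀ γ, pa (VacSec255.Kn G) (rX b P X) a d β γ =
        -Complex.I * (((‖v‖⁻¹ : ℝ) : ℂ) * ∑ i, (v i : ℂ) * ((G.γ i β γ : ℝ) : ℂ)) := by
      intro γ
      change VacSec255.Kn G v β γ = _
      unfold VacSec255.Kn VacSec255.Kv VacSec255.un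
      rw [VacSec255.gv_smul, Matrix.smul_apply, Matrix.smul_apply, smul_eq_mul, smul_eq_mul,
        VacSec255.gv_apply]
      rfl
    simp only [hK, hvi, hsr]
    have e1 : ∑ i, ∑ j, (((G.γ i * G.γ j) α β : ℝ) : ℂ) *
        ((-Complex.I * (v i : ℂ)) * (((‖v‖ : ℝ) : ℂ)⁻¹ * Y j)) =
        (-Complex.I * ((‖v‖⁻¹ : ℝ) : ℂ)) *
          ∑ i, ∑ j, (((G.γ i * G.γ j) α β : ℝ) : ℂ) * ((v i : ℂ) * Y j) := by
      rw [Finset.mul_sum]
      refine Finset.sum_congr rfl fun i _ => ?_
      rw [Finset.mul_sum]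
      refine Finset.sum_congr rfl fun j _ => ?_
      rw [Complex.ofReal_inv]
      ring
    have e2 : ∑ γ, -Complex.I * (((‖v‖⁻¹ : ℝ) : ℂ) * ∑ i, (v i : ℂ) * ((G.γ i β γ : ℝ) : ℂ)) *
        ∑ j, ((G.γ j α γ : ℝ) : ℂ) * Y j =
        (-Complex.I * ((‖v‖⁻¹ : ℝ) : ℂ)) *
          ∑ i, ∑ j, (((G.γ j * G.γ i) α β : ℝ) : ℂ) * ((v i : ℂ) * Y j) := by
      calc ∑ γ, -Complex.I * (((‖v‖⁻¹ : ℝ) : ℂ) * ∑ i, (v i : ℂ) * ((G.γ i β γ : ℝ) : ℂ)) *
            ∑ j, ((G.γ j α γ : ℝ) : ℂ) * Y j
          = (-Complex.I * ((‖v‖⁻¹ : ℝ) : ℂ)) * ∑ γ, (∑ i, (v i : ℂ) * ((G.γ i β γ : ℝ) : ℂ)) *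
            ∑ j, ((G.γ j α γ : ℝ) : ℂ) * Y j := by
            rw [Finset.mul_sum]
            exact Finset.sum_congr rfl fun γ _ => by ring
        _ = _ := by
            congr 1
            simp only [Finset.sum_mul_sum]
            rw [Finset.sum_comm]
            refine Finset.sum_congr rfl fun i _ => ?_
            rw [Finset.sum_comm]
            refine Finset.sum_congr rfl fun j _ => ?_
            rw [Matrix.mul_apply, Complex.ofReal_sum, Finset.sum_mul]
            refine Finset.sum_congr rfl fun γ _ => ?_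
            have h2 : G.γ i β γ = G.γ i γ β := by
              conv_lhs => rw [← G.symm i]
              rfl
            rw [h2, Complex.ofReal_mul]
            ring
    rw [e2, e1, ← sub_eq_zero, sub_neg_eq_add, ← mul_add, ← Finset.sum_add_distrib]
    have e3 : ∀ i, (∑ j, (((G.γ i * G.γ j) α β : ℝ) : ℂ) * ((v i : ℂ) * Y j)) +
        ∑ j, (((G.γ j * G.γ i) α β : ℝ) : ℂ) * ((v i : ℂ) * Y j) =
        (((2 : Matrix (Fin 16) (Fin 16) ℝ) α β : ℝ) : ℂ) * ((v i : ℂ) * Y i) := by
      intro i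
      rw [← Finset.sum_add_distrib, Finset.sum_eq_single i]
      · rw [← add_mul, ← Complex.ofReal_add, ← Matrix.add_apply, G.clifford, if_pos rfl]
      · intro j _ hj
        rw [← add_mul, ← Complex.ofReal_add, ← Matrix.add_apply, G.clifford,
          if_neg (Ne.symm hj), Matrix.zero_apply, Complex.ofReal_zero, zero_mul]
      · intro h'; exact absurd (Finset.mem_univ i) h'
    rw [Finset.sum_congr rfl fun i _ => e3 i, ← Finset.mul_sum, hdv2, mul_zero, mul_zero]

/-! ## The charges kill exactly the heavy vacua -/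

theorem th_neg (v : IX N → ℂ) (f : F) : th (thC M) (-v) f = -th (thC M) v f := by
  rw [th, th, _root_.sum_apply, _root_.sum_apply, ← Finset.sum_neg_distrib]
  refine Finset.sum_congr rfl fun p _ => ?_
  rw [Pi.neg_apply, neg_smul, _root_.neg_apply]

theorem th_sum {κ : Type*} (s : Finset κ) (v : κ → IX N → ℂ) (f : F) :
    th (thC M) (∑ k ∈ s, v k) f = ∑ k ∈ s, th (thC M) (v k) f := by
  simp only [th, _root_.sum_apply, _root_.smul_apply, Finset.sum_apply, Finset.sum_smul]
  rw [Finset.sum_comm]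

/-- The structure of the configuration squares to `-1` on heavy vectors. -/
theorem Jop_sq {X : Geo692.XS P} (hX : X ∈ Geo692.UU b P) {w : Fin 16 → Colg N}
    (hw : ∀ β, w β ∈ (Geo692.kk b P)ᗮ) :
    Jop b G (rX b P X) *ᵥ (Jop b G (rX b P X) *ᵥ evs w) = -evs w := by
  have hr := Geo692.UU_subset_Reg b P hX
  rw [Matrix.mulVec_mulVec, Jop, ← VacSec255.Op_mul b _ _ (VacSec255.dc_pa _)]
  refine cm_inj b fun β => ?_
  ext a d
  have hneg : VacSec255.cm b (-evs w) β a d = -hm b (w β).ofLp a d := by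
    rw [← cm_evs]
    unfold VacSec255.cm
    rw [Matrix.sum_apply, Matrix.sum_apply, ← Finset.sum_neg_distrib]
    refine Finset.sum_congr rfl fun A _ => ?_
    rw [Matrix.smul_apply, Matrix.smul_apply, Pi.neg_apply, neg_smul]
  rw [hneg, cm_Op b ((VacSec255.dc_pa _).mul (VacSec255.dc_pa _))]
  simp only [cm_evs]
  by_cases hc : P.cl a = P.cl d
  · have h0 : ∀ γ, hm b (w γ).ofLp a d = 0 := fun γ => (mem_perp b P).1 (hw γ) a d hc
    simp only [h0, mul_zero, Finset.sum_const_zero, neg_zero]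
  · have h1 : VacSec255.bp (rX b P X a - rX b P X d) ≠ 0 :=
      UU_rX b P hX a d fun h' => hc ((rX_eq_iff b P hr a d).1 h')
    have h2 : (pa (VacSec255.Kn G) (rX b P X) * pa (VacSec255.Kn G) (rX b P X)) a d = -1 :=
      VacSec255.Kn_sq G h1
    rw [h2, Finset.sum_eq_single β]
    · rw [Matrix.neg_apply, Matrix.one_apply_eq, neg_one_mul]
    · intro γ _ hγ
      rw [Matrix.neg_apply, Matrix.one_apply_ne (Ne.symm hγ), neg_zero, zero_mul]
    · intro h'; exact absurd (Finset.mem_univ β) h'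

theorem wT_perp (α : Fin 16) {y : Cfg N} (hy : ∀ j, comp y j ∈ (Geo692.kk b P)ᗮ) (β : Fin 16) :
    wT G α y β ∈ (Geo692.kk b P)ᗮ :=
  Submodule.sum_mem _ fun j _ => Submodule.smul_mem _ _ (hy j)

/-- The linearised charge of a mode. -/
theorem charge_eq {X : Geo692.XS P} (hX : X ∈ Geo692.Reg b P) (α : Fin 16) (z : Cfg N) (f : F) :
    Complex.I • Theta M G α (GBind984.AXc b (Geo692.kk b P) (Geo692.cfX b P X) z) f +
        wB b M G 1 α (Geo692.cfX b P X) z f =
      Complex.I • th (thC M)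
        (evs (wT G α (GBind984.AXc b (Geo692.kk b P) (Geo692.cfX b P X) z))) f -
      th (thC M) (Jop b G (rX b P X) *ᵥ
        evs (wT G α (GBind984.AXc b (Geo692.kk b P) (Geo692.cfX b P X) z))) f := by
  rw [Theta_th, wB_th, evs_wP b P G hX, th_neg, ← sub_eq_add_neg]

theorem pvac_heavy {X : Geo692.XS P} (hX : X ∈ Geo692.UU b P) {f : F}
    (hf : PVac (thC M) (Jop b G (rX b P X)) f) {w : Fin 16 → Colg N}
    (hw : ∀ β, w β ∈ (Geo692.kk b P)ᗮ) :
    th (thC M) (Jop b G (rX b P X) *ᵥ evs w) f = Complex.I • th (thC M) (evs w) f := by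
  have h1 := (pvac_iff M _ f).1 hf (Jop b G (rX b P X) *ᵥ evs w)
  rw [Jop_sq b P G hX hw, Matrix.mulVec_neg, th_neg, th_neg, smul_neg, neg_inj] at h1
  exact h1

theorem UX_kill {X : Geo692.XS P} (hX : X ∈ Geo692.UU b P) {f : F}
    (hf : f ∈ vacOf M G (Geo692.kk b P)ᗮ) (α : Fin 16) (z : Cfg N) :
    Complex.I • Theta M G α (GBind984.AXc b (Geo692.kk b P) (Geo692.cfX b P X) z)
        (UX b P G M X f) +
      wB b M G 1 α (Geo692.cfX b P X) z (UX b P G M X f) = 0 := by
  have hr := Geo692.UU_subset_Reg b P hX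
  obtain ⟨s, hs, h⟩ := exists_famX b P hr
  rw [mem_vacOf_iff b P G M hr, VacSec255.pvac_Wop_iff b G (UU_rX b P hX)] at hf
  rw [charge_eq b P G hr]
  have hyK : ∀ j, comp (GBind984.AXc b (Geo692.kk b P) (Geo692.cfX b P X) z) j ∈
      (Geo692.kk b P)ᗮ := fun j => h.pr_AX_mem GBind984.tenC hs z j
  have h1 := pvac_heavy b P G hX hf (wT_perp b P G α hyK)
  exact sub_eq_zero.2 h1.symm

/-! ### Conversely -/

theorem exists_unit (n : E9) : ∃ v : E9, ‖v‖ = 1 ∧ ⟪v, n⟫_ℝ = 0 := by
  have h1 : 0 < Module.finrank ℝ (ℝ ∙ n)ᗮ := by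
    have h2 := Submodule.finrank_add_finrank_orthogonal (ℝ ∙ n)
    have h3 : Module.finrank ℝ (ℝ ∙ n) ≤ 1 := by
      refine (finrank_span_le_card ({n} : Set E9)).trans ?_
      simp
    have h4 : Module.finrank ℝ E9 = 9 := by simp
    omega
  have h5 : Nontrivial (ℝ ∙ n)ᗮ := Module.finrank_pos_iff.1 h1
  obtain ⟨⟨v, hv⟩, hv0⟩ := exists_ne (0 : (ℝ ∙ n)ᗮ)
  have hv1 : v ≠ 0 := fun h => hv0 (Subtype.ext h)
  have hn : ‖v‖ ≠ 0 := norm_ne_zero_iff.2 hv1
  refine ⟨‖v‖⁻¹ • v, ?_, ?_⟩
  · rw [norm_smul, norm_inv, norm_norm, inv_mul_cancel₀ hn]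
  · rw [real_inner_smul_left, real_inner_comm,
      (Submodule.mem_orthogonal_singleton_iff_inner_right).1 hv, mul_zero]

/-- a unit vector orthogonal to `n` -/
def ch (n : E9) : E9 := Classical.choose (exists_unit n)

theorem norm_ch (n : E9) : ‖ch n‖ = 1 := (Classical.choose_spec (exists_unit n)).1

theorem inner_ch (n : E9) : ⟪ch n, n⟫_ℝ = 0 := (Classical.choose_spec (exists_unit n)).2

open Classical in
/-- symmetric choice on the pairs -/
def VV (X : Geo692.XS P) (a d : Fin N) : E9 :=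
  if a ≤ d then ch (rX b P X a - rX b P X d) else ch (rX b P X d - rX b P X a)

theorem VV_symm (X : Geo692.XS P) (a d : Fin N) : VV b P X a d = VV b P X d a := by
  unfold VV
  rcases lt_trichotomy a d with h | h | h
  · rw [if_pos h.le, if_neg (not_le.2 h)]
  · rw [h]
  · rw [if_neg (not_le.2 h), if_pos h.le]

theorem VV_diag (X : Geo692.XS P) (a d : Fin N) : VV b P X a a = VV b P X d d := by
  unfold VV
  rw [if_pos le_rfl, if_pos le_rfl, sub_self, sub_self]

theorem norm_VV (X : Geo692.XS P) (a d : Fin N) : ‖VV b P X a d‖ = 1 := by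
  unfold VV
  split_ifs
  · exact norm_ch _
  · exact norm_ch _

theorem inner_VV (X : Geo692.XS P) (a d : Fin N) :
    ⟪VV b P X a d, rX b P X a - rX b P X d⟫_ℝ = 0 := by
  unfold VV
  split_ifs
  · exact inner_ch _
  · have h := inner_ch (rX b P X d - rX b P X a)
    rw [← neg_sub (rX b P X a) (rX b P X d), inner_neg_right] at h
    rw [← neg_sub (rX b P X a) (rX b P X d)]
    exact neg_eq_zero.1 h

/-- mask of two components -/
def sV (X : Geo692.XS P) (i j : Fin 9) (a d : Fin N) : ℝ := VV b P X a d i * VV b P X a d j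

theorem msk_sV (X : Geo692.XS P) (i j : Fin 9) : Msk fun a d => (sV b P X i j a d : ℂ) where
  herm a d := by
    rw [Complex.conj_ofReal]
    unfold sV
    rw [VV_symm]
  diag a d := by
    unfold sV
    rw [VV_diag b P X a d]

/-- The heavy tuple with prescribed kinetic vector. -/
def yV (X : Geo692.XS P) (α : Fin 16) (w : Fin 16 → Colg N) (j : Fin 9) : Colg N :=
  ∑ β, ∑ i, G.γ i α β • mu b (fun a d => (sV b P X i j a d : ℂ)) (w β)

theorem hm_yV (X : Geo692.XS P) (α : Fin 16) (w : Fin 16 → Colg N) (j : Fin 9) (a d : Fin N) :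
    hm b (yV b P G X α w j).ofLp a d = (VV b P X a d j : ℂ) *
      ∑ β, (∑ i, (VV b P X a d i : ℂ) * ((G.γ i α β : ℝ) : ℂ)) * hm b (w β).ofLp a d := by
  unfold yV
  rw [← hl_apply, map_sum, Finset.mul_sum]
  refine Finset.sum_congr rfl fun β _ => ?_
  rw [map_sum, Finset.sum_mul, Finset.mul_sum]
  refine Finset.sum_congr rfl fun i _ => ?_
  rw [map_smul, Complex.real_smul, hl_apply, hm_mu b (msk_sV b P X i j)]
  unfold sV
  rw [Complex.ofReal_mul]
  ring

theorem yV_perp (X : Geo692.XS P) (α : Fin 16) {w : Fin 16 → Colg N}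
    (hw : ∀ β, w β ∈ (Geo692.kk b P)ᗮ) (j : Fin 9) : yV b P G X α w j ∈ (Geo692.kk b P)ᗮ := by
  rw [mem_perp]
  intro a d hc
  have h0 : ∀ γ, hm b (w γ).ofLp a d = 0 := fun γ => (mem_perp b P).1 (hw γ) a d hc
  rw [hm_yV]
  simp only [h0, mul_zero, Finset.sum_const_zero]

/-- The preimage under the exponent. -/
theorem AX_yV {X : Geo692.XS P} (hX : X ∈ Geo692.Reg b P) (α : Fin 16) {w : Fin 16 → Colg N}
    (hw : ∀ β, w β ∈ (Geo692.kk b P)ᗮ) : ∃ z ∈ Tup (Geo692.kk b P)ᗮ,
    ∀ j, comp (GBind984.AXc b (Geo692.kk b P) (Geo692.cfX b P X) z) j = yV b P G X α w j := by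
  obtain ⟨s, hs, h⟩ := exists_famX b P hX
  set D := GBind984.adX b (Geo692.cfX b P X) with hD
  set z : Cfg N := mkc fun j => AX984.li (Geo692.kk b P) D (yV b P G X α w j) with hz
  have hzj : ∀ j, comp z j = AX984.li (Geo692.kk b P) D (yV b P G X α w j) := fun j => rfl
  have hzK : ∀ j, comp z j ∈ (Geo692.kk b P)ᗮ := fun j => by
    rw [hzj]
    exact h.li_mem hs (yV_perp b P G X α hw j)
  refine ⟨z, hzK, fun j => ?_⟩
  have hdv : GBind984.tenC.dv D z = 0 := by
    rw [AX984.Ten.dv_apply]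
    refine colg_ext b fun a d => ?_
    rw [← hl_apply, ← hl_apply, map_sum, map_zero]
    have h1 : ∀ i, hl b a d (D i (GBind984.tenC.pr i z)) =
        (-Complex.I * ((sr b P X a d : ℂ))⁻¹ *
          ∑ β, (∑ i, (VV b P X a d i : ℂ) * ((G.γ i α β : ℝ) : ℂ)) * hm b (w β).ofLp a d) *
          (((rX b P X a i - rX b P X d i) * VV b P X a d i : ℝ) : ℂ) := by
      intro i
      change hm b (GBind984.adX b (Geo692.cfX b P X) i (comp z i)).ofLp a d = _
      rw [hm_adX, hzj, hm_li b P hX, hm_yV, Complex.ofReal_mul]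
      ring
    rw [Finset.sum_congr rfl fun i _ => h1 i, ← Finset.mul_sum, ← Complex.ofReal_sum]
    have h2 : ∑ i, (rX b P X a i - rX b P X d i) * VV b P X a d i = 0 := by
      have h3 := inner_VV b P X a d
      rw [PiLp.inner_apply] at h3
      rw [← h3]
      refine Finset.sum_congr rfl fun i _ => ?_
      simp [mul_comm]
    rw [h2, Complex.ofReal_zero, mul_zero]
  have h4 := GBind984.tenC.pr_AX (Geo692.kk b P) D z j
  change comp (GBind984.AXc b (Geo692.kk b P) (Geo692.cfX b P X) z) j =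
    AX984.lr (Geo692.kk b P) D (comp z j) - (Geo692.kk b P).starProjection (comp z j) +
      D j (AX984.li (Geo692.kk b P) D (GBind984.tenC.dv D z)) at h4
  rw [h4, hdv, map_zero, map_zero, add_zero, AX984.proj_zero (hzK j), sub_zero, hzj, h.lr_li hs]

/-- The kinetic vectors span. -/
theorem sum_wT (X : Geo692.XS P) (w : Fin 16 → Colg N) {y : Fin 16 → Cfg N}
    (hy : ∀ α j, comp (y α) j = yV b P G X α w j) : ∑ α, evs (wT G α (y α)) = evs w := by
  refine cm_inj b fun β => ?_
  ext a d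
  have h1 : VacSec255.cm b (∑ α, evs (wT G α (y α))) β a d =
      ∑ α, hm b (wT G α (y α) β).ofLp a d := by
    simp only [← cm_evs]
    unfold VacSec255.cm
    simp only [Matrix.sum_apply, Matrix.smul_apply, Finset.sum_apply, Finset.sum_smul]
    rw [Finset.sum_comm]
  have h2 : ∀ α, hm b (wT G α (y α) β).ofLp a d =
      ∑ j, ((G.γ j α β : ℝ) : ℂ) * hm b (comp (y α) j).ofLp a d := fun α => hm_lin b _ _ _ a d
  rw [h1, cm_evs]
  simp only [h2, hy, hm_yV]
  set v := VV b P X a d with hv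
  have hK : ∀ α γ, ∑ i, (v i : ℂ) * ((G.γ i α γ : ℝ) : ℂ) = VacSec255.gv G v α γ := by
    intro α γ
    rw [VacSec255.gv_apply]
    rfl
  have h3 : ∀ α, ∑ j, ((G.γ j α β : ℝ) : ℂ) * ((v j : ℂ) *
      ∑ γ, (∑ i, (v i : ℂ) * ((G.γ i α γ : ℝ) : ℂ)) * hm b (w γ).ofLp a d) =
      ∑ γ, VacSec255.gv G v β α * VacSec255.gv G v α γ * hm b (w γ).ofLp a d := by
    intro α
    have h4 : ∑ j, ((G.γ j α β : ℝ) : ℂ) * (v j : ℂ) = VacSec255.gv G v β α := by
      rw [VacSec255.gv_apply]
      refine Finset.sum_congr rfl fun j _ => ?_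
      have h5 : G.γ j α β = G.γ j β α := by
        conv_lhs => rw [← G.symm j]
        rfl
      rw [h5, mul_comm]
      rfl
    simp only [← mul_assoc]
    rw [← Finset.sum_mul, h4, Finset.mul_sum]
    refine Finset.sum_congr rfl fun γ _ => ?_
    rw [hK, mul_assoc]
  rw [Finset.sum_congr rfl fun α _ => h3 α, Finset.sum_comm]
  have h6 : ∀ γ, ∑ α, VacSec255.gv G v β α * VacSec255.gv G v α γ * hm b (w γ).ofLp a d =
      (1 : M16) β γ * hm b (w γ).ofLp a d := by
    intro γ
    rw [← Finset.sum_mul, ← Matrix.mul_apply, VacSec255.gv_sq, hv, norm_VV, one_pow,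
      Complex.ofReal_one, one_smul]
  rw [Finset.sum_congr rfl fun γ _ => h6 γ, Finset.sum_eq_single β]
  · rw [Matrix.one_apply_eq, one_mul]
  · intro γ _ hγ
    rw [Matrix.one_apply_ne (Ne.symm hγ), zero_mul]
  · intro h'; exact absurd (Finset.mem_univ β) h'

theorem UX_full {X : Geo692.XS P} (hX : X ∈ Geo692.UU b P) {f : F}
    (hf : ∀ z ∈ Tup (Geo692.kk b P)ᗮ, ∀ α,
      Complex.I • Theta M G α (GBind984.AXc b (Geo692.kk b P) (Geo692.cfX b P X) z) f +
        wB b M G 1 α (Geo692.cfX b P X) z f = 0) :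
    ∃ f' ∈ vacOf M G (Geo692.kk b P)ᗮ, UX b P G M X f' = f := by
  have hr := Geo692.UU_subset_Reg b P hX
  have key : ∀ w : Fin 16 → Colg N, (∀ β, w β ∈ (Geo692.kk b P)ᗮ) →
      th (thC M) (Jop b G (rX b P X) *ᵥ evs w) f = Complex.I • th (thC M) (evs w) f := by
    intro w hw
    choose z hz hzy using fun α => AX_yV b P G hr α hw
    have h1 := sum_wT b P G X w (y := fun α =>
      GBind984.AXc b (Geo692.kk b P) (Geo692.cfX b P X) (z α)) hzy
    have h2 : ∀ α, th (thC M) (Jop b G (rX b P X) *ᵥ evs (wT G α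
        (GBind984.AXc b (Geo692.kk b P) (Geo692.cfX b P X) (z α)))) f =
        Complex.I • th (thC M) (evs (wT G α
          (GBind984.AXc b (Geo692.kk b P) (Geo692.cfX b P X) (z α)))) f := by
      intro α
      have h3 := hf (z α) (hz α) α
      rw [charge_eq b P G hr] at h3
      exact (sub_eq_zero.1 h3).symm
    rw [← h1, Matrix.mulVec_sum, th_sum, th_sum, Finset.smul_sum]
    exact Finset.sum_congr rfl fun α _ => h2 α
  have h4 : PVac (thC M) (Jop b G (rX b P X)) f := by
    intro q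
    -- the column of `Jop` is heavy and real
    have hre := VacSec255.pa_real b (VacSec255.good_Kn G) (rX b P X)
    set w : Fin 16 → Colg N := fun β => WithLp.toLp 2 fun A => (Jop b G (rX b P X) (β, A) q).re
      with hw
    have h5 : evs w = Jop b G (rX b P X) *ᵥ Pi.single q 1 := by
      funext p
      rw [Matrix.mulVec_single_one]
      exact VacSec255.IsReal.re hre p q
    have h6 : ∀ β, w β ∈ (Geo692.kk b P)ᗮ := by
      intro β
      rw [mem_perp]
      intro a d hc
      rw [← cm_evs, h5, Jop, cm_Op b (VacSec255.dc_pa _)]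
      refine Finset.sum_eq_zero fun γ _ => ?_
      have h7 : pa (VacSec255.Kn G) (rX b P X) a d = 0 := by
        change VacSec255.Kn G (rX b P X a - rX b P X d) = 0
        rw [(rX_eq_iff b P hr a d).2 hc, sub_self]
        exact (VacSec255.good_Kn G).zero
      rw [h7, Matrix.zero_apply, zero_mul]
    have h8 := key w h6
    rw [h5, Matrix.mulVec_mulVec, VacSec255.th_mulVec, VacSec255.th_mulVec, _root_.sum_apply,
      _root_.sum_apply] at h8
    have h9 : ∀ A : Matrix (IX N) (IX N) ℂ,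
        ∑ p, ((Pi.single q 1 : IX N → ℂ) p • lc (thC M) A p) f = lc (thC M) A q f := by
      intro A
      rw [Finset.sum_eq_single q]
      · simp
      · intro p _ hp
        simp [hp]
      · intro h'; exact absurd (Finset.mem_univ q) h'
    rwa [h9, h9] at h8
  obtain ⟨f', h10, h11⟩ := VacSec255.exists_of_pvac b G (UU_rX b P hX) h4
  exact ⟨f', (mem_vacOf_iff b P G M hr f').2 h10, h11⟩

/-- **The U-fields of `TPack` for the channel of a partition.** -/
theorem uData (R : GaugeAction b M) :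
    TPk776.UData (Geo692.chn b P) M R G (AFld984.Afld (Geo692.chn b P)) (UX b P G M) where
  U_smooth X hX := UX_smooth b P G ((Geo692.chn_BReg b P X).1 hX)
  U_inner X _ f _ f' _ := UX_inner b P G X f f'
  U_comm X hX β u hu f _ := UX_comm b P G ((Geo692.chn_BReg b P X).1 hX) β hu f
  U_kill X hX f hf z _ α := by
    rw [AFld984.Afld_reg _ hX.reg]
    exact UX_kill b P G ((Geo692.chn_BReg b P X).1 hX) hf α z
  U_full X hX f hf := by
    rw [AFld984.Afld_reg _ hX.reg] at hf
    exact UX_full b P G ((Geo692.chn_BReg b P X).1 hX) hf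
  U_cov _ X X' hX hX' h _ hf :=
    UX_cov b P G R ((Geo692.chn_BReg b P X).1 hX) ((Geo692.chn_BReg b P X').1 hX') h hf
  U_berry X hX e _ hf _ hf' := UX_berry b P G ((Geo692.chn_BReg b P X).1 hX) e hf hf'
  U_par X _ Q h1 h2 f _ := UX_par b P G X Q h1 h2 f

end rep2

end Crest.Agent.R330.UPack311

end
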