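import Mathlib
import Crest.Agent.R330.Col_962
import Crest.Agent.R330.CoerCfg_87
import Crest.Agent.R330.S5Defs_798

-- ▼ part R330/Su2a_303
section

/-!
# Row 330, section 5: algebra of the vacua (helper303), part a

Finite dimensional unitary representations of `su(2)`: a symmetric operator `H`, an adjoint pair
`P, M` with `[H,P] = P`, `[H,M] = -M`, `[P,M] = 2H`.  Every such triple has an orthonormal basis
indexed by `Σ i, Fin (m i)` in which it is the direct sum of the standard spin matrices.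
-/

set_option autoImplicit false

open scoped InnerProductSpace

namespace Crest.Agent.R330.Su2a303

variable {E : Type*} [NormedAddCommGroup E] [InnerProductSpace ℂ E]

/-- a unitary `su(2)` triple in raising/lowering form -/
structure Trip (E : Type*) [NormedAddCommGroup E] [InnerProductSpace ℂ E] where
  H : E →ₗ[ℂ] E
  P : E →ₗ[ℂ] E
  M : E →ₗ[ℂ] E
  symH : H.IsSymmetric
  adj : ∀ x y, ⟪M x, y⟫_ℂ = ⟪x, P y⟫_ℂ
  HP : ∀ x, H (P x) = P (H x) + P x
  HM : ∀ x, H (M x) = M (H x) - M x
  PM : ∀ x, P (M x) = M (P x) + (2 : ℂ) • H x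

namespace Trip

variable (T : Trip E)

theorem adj' (x y : E) : ⟪T.P x, y⟫_ℂ = ⟪x, T.M y⟫_ℂ := by
  rw [← inner_conj_symm, ← T.adj, inner_conj_symm]

/-- lowering string -/
def str (w : E) (k : ℕ) : E := (T.M ^ k) w

@[simp] theorem str_zero (w : E) : T.str w 0 = w := rfl

theorem str_succ (w : E) (k : ℕ) : T.str w (k + 1) = T.M (T.str w k) := by
  simp only [str]
  rw [pow_succ']
  rfl

theorem H_str {w : E} {l : ℂ} (hH : T.H w = l • w) (k : ℕ) :
    T.H (T.str w k) = (l - k) • T.str w k := by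
  induction k with
  | zero => simp [hH]
  | succ k ih =>
    have e : T.M (T.str w k) = (1 : ℂ) • T.M (T.str w k) := (one_smul _ _).symm
    rw [str_succ, T.HM, ih, map_smul]
    nth_rewrite 2 [e]
    rw [← sub_smul]
    congr 1
    push_cast
    ring

theorem P_str {w : E} {l : ℂ} (hP : T.P w = 0) (hH : T.H w = l • w) (k : ℕ) :
    T.P (T.str w (k + 1)) = (((k : ℂ) + 1) * (2 * l - k)) • T.str w k := by
  induction k with
  | zero =>
    rw [str_succ, T.PM]
    simp only [str_zero, hP, map_zero, zero_add, hH, smul_smul]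
    push_cast
    ring_nf
  | succ k ih =>
    rw [str_succ, T.PM, ih, map_smul, ← str_succ, T.H_str hH, smul_smul, ← add_smul]
    congr 1
    push_cast
    ring

theorem inner_str {w w' : E} {l' : ℂ} (hP : T.P w = 0) (hP' : T.P w' = 0)
    (hH' : T.H w' = l' • w') :
    ∀ k k' : ℕ, ⟪T.str w k, T.str w' k'⟫_ℂ =
      if k = k' then (∏ j ∈ Finset.range k, (((j : ℂ) + 1) * (2 * l' - j))) * ⟪w, w'⟫_ℂ else 0 := by
  intro k
  induction k with
  | zero =>
    intro k'
    cases k' with
    | zero => simp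
    | succ k' =>
      rw [str_succ, ← T.adj']
      simp [hP]
  | succ k ih =>
    intro k'
    cases k' with
    | zero =>
      rw [str_succ, T.adj]
      simp [hP']
    | succ k' =>
      rw [str_succ, T.adj, T.P_str hP' hH', inner_smul_right, ih k']
      by_cases h : k = k'
      · subst h
        simp only [if_true]
        rw [Finset.prod_range_succ]
        ring
      · rw [if_neg h, if_neg (by omega)]
        simp

section fin

variable [FiniteDimensional ℂ E]

/-- the string of a nonzero highest weight vector terminates -/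
theorem exists_str_eq_zero {w : E} {l : ℂ} (hP : T.P w = 0) (hH : T.H w = l • w) :
    ∃ k, T.str w k = 0 := by
  by_contra hcon
  push Not at hcon
  have horth : Pairwise fun i j => ⟪T.str w i, T.str w j⟫_ℂ = 0 := by
    intro i j hij
    rw [T.inner_str hP hP hH, if_neg hij]
  have hli : LinearIndependent ℂ (fun k : ℕ => T.str w k) :=
    linearIndependent_of_ne_zero_of_inner_eq_zero hcon horth
  exact Infinite.not_finite hli.finite

/-- the highest weight of a nonzero highest weight vector is a half integer -/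
theorem exists_weight {w : E} {l : ℂ} (hw : w ≠ 0) (hP : T.P w = 0) (hH : T.H w = l • w) :
    ∃ m : ℕ, 0 < m ∧ 2 * l = (m : ℂ) - 1 ∧ T.str w m = 0 ∧ ∀ k < m, T.str w k ≠ 0 := by
  classical
  obtain ⟨m, hm, hmin⟩ := Nat.findX (T.exists_str_eq_zero hP hH)
  have hpos : 0 < m := by
    rcases Nat.eq_zero_or_pos m with h | h
    · subst h
      exact absurd hm hw
    · exact h
  obtain ⟨k, rfl⟩ : ∃ k, m = k + 1 := ⟨m - 1, by omega⟩
  have hk : T.str w k ≠ 0 := hmin k (by omega)
  have h0 := T.P_str hP hH k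
  rw [hm, map_zero] at h0
  have h1 : ((k : ℂ) + 1) * (2 * l - k) = 0 := by
    rcases smul_eq_zero.1 h0.symm with h | h
    · exact h
    · exact absurd h hk
  have h2 : ((k : ℂ) + 1) ≠ 0 := by exact_mod_cast Nat.succ_ne_zero k
  have h3 : 2 * l - k = 0 := (mul_eq_zero.1 h1).resolve_left h2
  refine ⟨k + 1, hpos, ?_, hm, fun j hj => hmin j hj⟩
  push_cast
  linear_combination h3

end fin

/-- norm square factor of the `k`-th vector in the string of dimension `m` -/
noncomputable def nf (m k : ℕ) : ℝ := ∏ j ∈ Finset.range k, (((j : ℝ) + 1) * ((m : ℝ) - 1 - j))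

theorem nf_pos {m k : ℕ} (h : k < m) : 0 < nf m k := by
  unfold nf
  refine Finset.prod_pos fun j hj => ?_
  have hj' : j < k := Finset.mem_range.1 hj
  have h1 : (j : ℝ) + 1 < (m : ℝ) := by exact_mod_cast (by omega : j + 1 < m)
  have h2 : (0 : ℝ) ≤ j := Nat.cast_nonneg j
  nlinarith

theorem nf_succ (m k : ℕ) : nf m (k + 1) = nf m k * (((k : ℝ) + 1) * ((m : ℝ) - 1 - k)) := by
  unfold nf
  rw [Finset.prod_range_succ]

theorem nf_zero (m : ℕ) : nf m 0 = 1 := by simp [nf]

/-- standard form of a triple in an orthonormal basis indexed by `Σ i, Fin (m i)` -/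
structure IsStd {ι : Type*} [Fintype ι] (T : Trip E) (m : ι → ℕ)
    (e : OrthonormalBasis (Σ i : ι, Fin (m i)) ℂ E) : Prop where
  H_apply : ∀ (i : ι) (k : Fin (m i)),
    T.H (e ⟨i, k⟩) = (((((m i : ℝ) - 1) / 2 - (k : ℕ) : ℝ)) : ℂ) • e ⟨i, k⟩
  M_apply : ∀ (i : ι) (k : Fin (m i)) (h : (k : ℕ) + 1 < m i),
    T.M (e ⟨i, k⟩) = ((Real.sqrt ((((k : ℕ) : ℝ) + 1) * ((m i : ℝ) - 1 - (k : ℕ))) : ℝ) : ℂ) •
      e ⟨i, ⟨(k : ℕ) + 1, h⟩⟩
  M_last : ∀ (i : ι) (k : Fin (m i)), (k : ℕ) + 1 = m i → T.M (e ⟨i, k⟩) = 0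

theorem exists_isStd [FiniteDimensional ℂ E] (T : Trip E) :
    ∃ (d : ℕ) (m : Fin d → ℕ), (∀ i, 0 < m i) ∧
      ∃ e : OrthonormalBasis (Σ i : Fin d, Fin (m i)) ℂ E, IsStd T m e := by
  classical
  -- highest weight space
  set K : Submodule ℂ E := LinearMap.ker T.P with hKdef
  have hK : ∀ x ∈ K, T.H x ∈ K := by
    intro x hx
    rw [hKdef, LinearMap.mem_ker] at hx ⊢
    have h := T.HP x
    rw [hx, map_zero, add_zero] at h
    exact h.symm
  have hsymK : (T.H.restrict hK).IsSymmetric := T.symH.restrict_invariant hK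
  set b := hsymK.eigenvectorBasis (n := Module.finrank ℂ K) rfl with hb
  set ev := hsymK.eigenvalues (n := Module.finrank ℂ K) rfl with hev
  set w : Fin (Module.finrank ℂ K) → E := fun i => (b i : E) with hwdef
  have hPw : ∀ i, T.P (w i) = 0 := fun i => LinearMap.mem_ker.1 (b i).2
  have hHw : ∀ i, T.H (w i) = (ev i : ℂ) • w i := by
    intro i
    have h := hsymK.apply_eigenvectorBasis (n := Module.finrank ℂ K) rfl i
    exact congrArg (Subtype.val) h
  have hww : ∀ i j, ⟪w i, w j⟫_ℂ = if i = j then 1 else 0 := by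
    intro i j
    have h := orthonormal_iff_ite.1 b.orthonormal i j
    simpa using h
  have hw0 : ∀ i, w i ≠ 0 := by
    intro i h
    have := hww i i
    rw [h] at this
    simp at this
  choose m hm0 hm1 hm2 hm3 using fun i => T.exists_weight (hw0 i) (hPw i) (hHw i)
  have hprod : ∀ (i : Fin (Module.finrank ℂ K)) (k : ℕ),
      (∏ j ∈ Finset.range k, (((j : ℂ) + 1) * (2 * (ev i : ℂ) - j))) = ((nf (m i) k : ℝ) : ℂ) := by
    intro i k
    unfold nf
    rw [Complex.ofReal_prod]
    refine Finset.prod_congr rfl fun j _ => ?_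
    rw [hm1 i]
    push_cast
    ring
  set e' : (Σ i : Fin (Module.finrank ℂ K), Fin (m i)) → E :=
    fun p => (((Real.sqrt (nf (m p.1) p.2))⁻¹ : ℝ) : ℂ) • T.str (w p.1) p.2 with he'
  have hon : Orthonormal ℂ e' := by
    rw [orthonormal_iff_ite]
    rintro ⟨i, k⟩ ⟨j, l⟩
    simp only [he', inner_smul_left, inner_smul_right, Complex.conj_ofReal]
    rw [T.inner_str (hPw i) (hPw j) (hHw j), hprod j, hww i j]
    by_cases hij : i = j
    · subst hij
      by_cases hkl : k = l
      · subst hkl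
        have hp := nf_pos k.2
        have hs : Real.sqrt (nf (m i) k) ≠ 0 := (Real.sqrt_pos.2 hp).ne'
        simp only [if_true, mul_one]
        rw [← Complex.ofReal_mul, ← Complex.ofReal_mul]
        have : (Real.sqrt (nf (m i) k))⁻¹ * ((Real.sqrt (nf (m i) k))⁻¹ * nf (m i) k) = 1 := by
          nth_rewrite 3 [← Real.mul_self_sqrt hp.le]
          field_simp
        rw [this]
        simp
      · have hkl' : (k : ℕ) ≠ l := fun h => hkl (Fin.ext h)
        have hne : (⟨i, k⟩ : Σ i : Fin (Module.finrank ℂ K), Fin (m i)) ≠ ⟨i, l⟩ := by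
          intro h
          exact hkl (by simpa using h)
        rw [if_neg hkl', if_neg hne]
        simp
    · have hne : (⟨i, k⟩ : Σ i : Fin (Module.finrank ℂ K), Fin (m i)) ≠ ⟨j, l⟩ := by
        intro h
        exact hij (congrArg Sigma.fst h)
      rw [if_neg hij, if_neg hne]
      simp
  -- action of the operators on the vectors
  have hHe : ∀ p, T.H (e' p) = (((((m p.1 : ℝ) - 1) / 2 - (p.2 : ℕ) : ℝ)) : ℂ) • e' p := by
    rintro ⟨i, k⟩
    simp only [he', map_smul]
    rw [T.H_str (hHw i), smul_comm]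
    congr 2
    have h := hm1 i
    have h2 : (ev i : ℂ) = ((m i : ℂ) - 1) / 2 := by
      rw [← h]; ring
    rw [h2]
    push_cast
    ring
  have hMe : ∀ (i : Fin (Module.finrank ℂ K)) (k : Fin (m i)) (h : (k : ℕ) + 1 < m i),
      T.M (e' ⟨i, k⟩) = ((Real.sqrt ((((k : ℕ) : ℝ) + 1) * ((m i : ℝ) - 1 - (k : ℕ))) : ℝ) : ℂ) •
      e' ⟨i, ⟨(k : ℕ) + 1, h⟩⟩ := by
    intro i k h
    simp only [he', map_smul]
    rw [← str_succ, smul_smul]
    congr 1
    rw [← Complex.ofReal_mul]
    congr 1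
    have hp := nf_pos k.2
    have hp' := nf_pos h
    have hs : Real.sqrt (nf (m i) k) ≠ 0 := (Real.sqrt_pos.2 hp).ne'
    have hs' : Real.sqrt (nf (m i) (k + 1)) ≠ 0 := (Real.sqrt_pos.2 hp').ne'
    rw [nf_succ, Real.sqrt_mul hp.le]
    rw [nf_succ, Real.sqrt_mul hp.le] at hs'
    have hs2 := right_ne_zero_of_mul hs'
    field_simp
  have hMe0 : ∀ (i : Fin (Module.finrank ℂ K)) (k : Fin (m i)), (k : ℕ) + 1 = m i →
      T.M (e' ⟨i, k⟩) = 0 := by
    intro i k h
    simp only [he', map_smul]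
    rw [← str_succ, h, hm2 i, smul_zero]
  set W : Submodule ℂ E := Submodule.span ℂ (Set.range e') with hW
  have hMW : ∀ x ∈ W, T.M x ∈ W := by
    intro x hx
    induction hx using Submodule.span_induction with
    | mem x hx =>
      obtain ⟨⟨i, k⟩, rfl⟩ := hx
      by_cases h : (k : ℕ) + 1 < m i
      · rw [hMe i k h]
        exact W.smul_mem _ (Submodule.subset_span ⟨_, rfl⟩)
      · rw [hMe0 i k (by omega)]
        exact W.zero_mem
    | zero => rw [map_zero]; exact W.zero_mem
    | add x y _ _ hx hy => rw [map_add]; exact W.add_mem hx hy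
    | smul c x _ hx => rw [map_smul]; exact W.smul_mem _ hx
  have hHW : ∀ x ∈ W, T.H x ∈ W := by
    intro x hx
    induction hx using Submodule.span_induction with
    | mem x hx =>
      obtain ⟨p, rfl⟩ := hx
      rw [hHe p]
      exact W.smul_mem _ (Submodule.subset_span ⟨_, rfl⟩)
    | zero => rw [map_zero]; exact W.zero_mem
    | add x y _ _ hx hy => rw [map_add]; exact W.add_mem hx hy
    | smul c x _ hx => rw [map_smul]; exact W.smul_mem _ hx
  have hPV : ∀ x ∈ Wᗮ, T.P x ∈ Wᗮ := by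
    intro x hx
    rw [Submodule.mem_orthogonal] at hx ⊢
    intro y hy
    rw [← T.adj]
    exact hx _ (hMW y hy)
  have hHV : ∀ x ∈ Wᗮ, T.H x ∈ Wᗮ := by
    intro x hx
    rw [Submodule.mem_orthogonal] at hx ⊢
    intro y hy
    rw [← T.symH]
    exact hx _ (hHW y hy)
  have hKW : K ≤ W := by
    intro x hx
    have h1 : (⟨x, hx⟩ : K) ∈ Submodule.span ℂ (Set.range b) := by
      rw [← OrthonormalBasis.coe_toBasis, b.toBasis.span_eq]
      exact Submodule.mem_top
    have h2 : x ∈ Submodule.map K.subtype (Submodule.span ℂ (Set.range b)) :=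
      ⟨⟨x, hx⟩, h1, rfl⟩
    rw [Submodule.map_span] at h2
    refine Submodule.span_le.2 ?_ h2
    rintro _ ⟨_, ⟨i, rfl⟩, rfl⟩
    have h3 : e' ⟨i, ⟨0, hm0 i⟩⟩ = w i := by
      simp [he', nf_zero]
    change w i ∈ W
    rw [← h3]
    exact Submodule.subset_span ⟨_, rfl⟩
  have hbot : Wᗮ = ⊥ := by
    by_contra hne
    have hfin : 0 < Module.finrank ℂ (Wᗮ : Submodule ℂ E) := by
      rw [Nat.pos_iff_ne_zero]
      intro h
      exact hne (Submodule.finrank_eq_zero.1 h)
    have hsymV : (T.H.restrict hHV).IsSymmetric := T.symH.restrict_invariant hHV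
    set z : Fin (Module.finrank ℂ (Wᗮ : Submodule ℂ E)) := ⟨0, hfin⟩ with hz
    set v := hsymV.eigenvectorBasis (n := Module.finrank ℂ (Wᗮ : Submodule ℂ E)) rfl z with hv
    have hvH : T.H (v : E) =
        ((hsymV.eigenvalues (n := Module.finrank ℂ (Wᗮ : Submodule ℂ E)) rfl z : ℝ) : ℂ) •
          (v : E) := by
      have h := hsymV.apply_eigenvectorBasis
        (n := Module.finrank ℂ (Wᗮ : Submodule ℂ E)) rfl z
      exact congrArg (Subtype.val) h
    have hv1 : (v : E) ≠ 0 := by
      intro h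
      have h1 : ‖v‖ = 1 := (hsymV.eigenvectorBasis
        (n := Module.finrank ℂ (Wᗮ : Submodule ℂ E)) rfl).orthonormal.1 z
      have h2 : v = 0 := Subtype.ext h
      have h3 : ‖v‖ = 0 := norm_eq_zero.2 h2
      exact zero_ne_one (h3.symm.trans h1)
    have hPv : T.P (v : E) = 0 := by
      by_contra hPv
      have hmem : T.P (v : E) ∈ Wᗮ := hPV _ v.2
      have heig : Module.End.HasEigenvalue (T.H.restrict hHV)
          (((hsymV.eigenvalues (n := Module.finrank ℂ (Wᗮ : Submodule ℂ E)) rfl z : ℝ) : ℂ) + 1) := by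
        refine Module.End.hasEigenvalue_of_hasEigenvector (x := ⟨T.P (v : E), hmem⟩) ?_
        rw [Module.End.hasEigenvector_iff]
        constructor
        · rw [Module.End.mem_eigenspace_iff]
          apply Subtype.ext
          change T.H (T.P (v : E)) = (_ : ℂ) • T.P (v : E)
          rw [T.HP, hvH, map_smul, add_smul, one_smul]
        · intro h
          exact hPv (congrArg Subtype.val h)
      obtain ⟨j, hj⟩ := hsymV.exists_eigenvalues_eq
        (n := Module.finrank ℂ (Wᗮ : Submodule ℂ E)) rfl heig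
      have hle := hsymV.eigenvalues_antitone
        (n := Module.finrank ℂ (Wᗮ : Submodule ℂ E)) rfl (show z ≤ j from Nat.zero_le _)
      have hj' : (hsymV.eigenvalues (n := Module.finrank ℂ (Wᗮ : Submodule ℂ E)) rfl j : ℝ) =
          hsymV.eigenvalues (n := Module.finrank ℂ (Wᗮ : Submodule ℂ E)) rfl z + 1 := by
        have := congrArg Complex.re hj
        simpa using this
      linarith
    have hvW : (v : E) ∈ W := hKW (LinearMap.mem_ker.2 hPv)
    have h0 := (Submodule.mem_orthogonal W (v : E)).1 v.2 _ hvW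
    exact hv1 (inner_self_eq_zero.1 h0)
  have htop : ⊤ ≤ Submodule.span ℂ (Set.range e') := by
    rw [← hW, top_le_iff]
    exact (Submodule.orthogonal_eq_bot_iff).1 hbot
  refine ⟨_, m, hm0, OrthonormalBasis.mk hon htop, ?_⟩
  constructor
  · intro i k
    simp only [OrthonormalBasis.coe_mk]
    exact hHe ⟨i, k⟩
  · intro i k h
    simp only [OrthonormalBasis.coe_mk]
    exact hMe i k h
  · intro i k h
    simp only [OrthonormalBasis.coe_mk]
    exact hMe0 i k h

end Trip

end Crest.Agent.R330.Su2a303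
end

-- ▼ part R330/Su2b_303
section

/-!
# Row 330, section 5: algebra of the vacua (helper303), part b

Multiplicities `mult n` of a unitary `su(2)` triple, and: two triples are unitarily equivalent iff
they have the same multiplicities.
-/

set_option autoImplicit false

open scoped InnerProductSpace

namespace Crest.Agent.R330.Su2a303

variable {E : Type*} [NormedAddCommGroup E] [InnerProductSpace ℂ E]
  {E' : Type*} [NormedAddCommGroup E'] [InnerProductSpace ℂ E']

/-- two families with the same fibre cardinalities differ by a bijection -/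
theorem exists_equiv_of_fiber_card {ι κ α : Type*} [Fintype ι] [Fintype κ] [DecidableEq α]
    (f : ι → α) (g : κ → α)
    (h : ∀ a, Fintype.card {i // f i = a} = Fintype.card {k // g k = a}) :
    ∃ e : ι ≃ κ, ∀ i, g (e i) = f i := by
  classical
  let τ : (Σ a, {i // f i = a}) ≃ (Σ a, {k // g k = a}) :=
    Equiv.sigmaCongrRight fun a => Fintype.equivOfCardEq (h a)
  refine ⟨((Equiv.sigmaFiberEquiv f).symm.trans τ).trans (Equiv.sigmaFiberEquiv g), fun i => ?_⟩
  have h1 : (Equiv.sigmaFiberEquiv f).symm i = ⟨f i, ⟨i, rfl⟩⟩ := rfl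
  simp only [Equiv.trans_apply, h1]
  have h2 : τ ⟨f i, ⟨i, rfl⟩⟩ = ⟨f i, (Fintype.equivOfCardEq (h (f i))) ⟨i, rfl⟩⟩ := rfl
  rw [h2]
  exact ((Fintype.equivOfCardEq (h (f i))) ⟨i, rfl⟩).2

namespace Trip

/-- the space of highest weight vectors of the spin `(n-1)/2` -/
noncomputable def hw (T : Trip E) (n : ℕ) : Submodule ℂ E :=
  LinearMap.ker T.P ⊓ LinearMap.ker (T.H - ((((n : ℝ) - 1) / 2 : ℝ) : ℂ) • LinearMap.id)

theorem mem_hw {T : Trip E} {n : ℕ} {x : E} :
    x ∈ T.hw n ↔ T.P x = 0 ∧ T.H x = ((((n : ℝ) - 1) / 2 : ℝ) : ℂ) • x := by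
  simp only [hw, Submodule.mem_inf, LinearMap.mem_ker, LinearMap.sub_apply, LinearMap.smul_apply,
    LinearMap.id_apply, sub_eq_zero]

/-- multiplicity of the `n`-dimensional irreducible representation -/
noncomputable def mult (T : Trip E) (n : ℕ) : ℕ := Module.finrank ℂ (T.hw n)

section std

variable {ι : Type*} [Fintype ι] {T : Trip E} {m : ι → ℕ}
  {e : OrthonormalBasis (Σ i : ι, Fin (m i)) ℂ E}

omit [Fintype ι] in
theorem IsStd.sqrt_ne {i : ι} {k : Fin (m i)} (h : (k : ℕ) + 1 < m i) :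
    ((Real.sqrt ((((k : ℕ) : ℝ) + 1) * ((m i : ℝ) - 1 - (k : ℕ))) : ℝ) : ℂ) ≠ 0 := by
  have h1 : ((k : ℕ) : ℝ) + 1 < (m i : ℝ) := by exact_mod_cast h
  have h2 : (0 : ℝ) ≤ ((k : ℕ) : ℝ) := Nat.cast_nonneg _
  have h3 : 0 < (((k : ℕ) : ℝ) + 1) * ((m i : ℝ) - 1 - (k : ℕ)) := by
    apply mul_pos <;> linarith
  exact_mod_cast (Real.sqrt_pos.2 h3).ne'

theorem IsStd.P_first (hT : IsStd T m e) (i : ι) (k : Fin (m i)) (hk : (k : ℕ) = 0) :
    T.P (e ⟨i, k⟩) = 0 := by
  classical
  refine InnerProductSpace.ext_inner_left_basis e.toBasis fun p => ?_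
  obtain ⟨j, l⟩ := p
  rw [e.coe_toBasis, ← T.adj, inner_zero_right]
  by_cases h : (l : ℕ) + 1 < m j
  · rw [hT.M_apply j l h, inner_smul_left, orthonormal_iff_ite.1 e.orthonormal, if_neg, mul_zero]
    intro hc
    have hij : j = i := congrArg Sigma.fst hc
    subst hij
    have := Sigma.mk.inj hc
    have h3 := eq_of_heq this.2
    rw [← h3] at hk
    exact absurd hk (Nat.succ_ne_zero _)
  · rw [hT.M_last j l (by omega), inner_zero_left]


theorem IsStd.hw_eq (hT : IsStd T m e) (hm : ∀ i, 0 < m i) (n : ℕ) :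
    T.hw n = Submodule.span ℂ
      (Set.range fun i : {i // m i = n} => e ⟨i.1, ⟨0, hm i.1⟩⟩) := by
  classical
  apply le_antisymm
  · intro x hx
    obtain ⟨hP, hH⟩ := mem_hw.1 hx
    have hx' : x = ∑ p, ⟪e p, x⟫_ℂ • e p := (e.sum_repr' x).symm
    rw [hx']
    refine Submodule.sum_mem _ fun p _ => ?_
    obtain ⟨i, k⟩ := p
    by_cases hk : (k : ℕ) = 0
    · by_cases hi : m i = n
      · have hk' : k = ⟨0, hm i⟩ := Fin.ext hk
        subst hk'
        exact Submodule.smul_mem _ _ (Submodule.subset_span ⟨⟨i, hi⟩, rfl⟩)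
      · have h1 : ⟪e ⟨i, k⟩, T.H x⟫_ℂ = ((((n : ℝ) - 1) / 2 : ℝ) : ℂ) * ⟪e ⟨i, k⟩, x⟫_ℂ := by
          rw [hH, inner_smul_right]
        have h2 : ⟪e ⟨i, k⟩, T.H x⟫_ℂ = ((((m i : ℝ) - 1) / 2 : ℝ) : ℂ) * ⟪e ⟨i, k⟩, x⟫_ℂ := by
          rw [← T.symH, hT.H_apply, inner_smul_left, Complex.conj_ofReal, hk]
          simp
        have h3 : (((((n : ℝ) - 1) / 2 : ℝ) : ℂ) - ((((m i : ℝ) - 1) / 2 : ℝ) : ℂ)) *
            ⟪e ⟨i, k⟩, x⟫_ℂ = 0 := by
          rw [sub_mul, ← h1, ← h2, sub_self]
        rcases mul_eq_zero.1 h3 with h | h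
        · exfalso
          apply hi
          have h4 : (((n : ℝ) - 1) / 2 : ℝ) = ((m i : ℝ) - 1) / 2 := by
            exact_mod_cast sub_eq_zero.1 h
          have h5 : (m i : ℝ) = n := by linarith
          exact_mod_cast h5
        · rw [h, zero_smul]
          exact Submodule.zero_mem _
    · obtain ⟨j, hj⟩ : ∃ j : ℕ, (k : ℕ) = j + 1 := ⟨(k : ℕ) - 1, by omega⟩
      have hjm : j + 1 < m i := hj ▸ k.2
      have h1 : T.M (e ⟨i, ⟨j, by omega⟩⟩) = _ := hT.M_apply i ⟨j, by omega⟩ hjm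
      have hk' : k = ⟨j + 1, hjm⟩ := Fin.ext hj
      have h2 : ⟪T.M (e ⟨i, ⟨j, by omega⟩⟩), x⟫_ℂ = 0 := by
        rw [T.adj, hP, inner_zero_right]
      rw [h1, inner_smul_left] at h2
      have h3 : ⟪e ⟨i, ⟨j + 1, hjm⟩⟩, x⟫_ℂ = 0 := by
        rcases mul_eq_zero.1 h2 with h | h
        · exfalso
          rw [Complex.conj_ofReal] at h
          exact IsStd.sqrt_ne (m := m) (i := i) (k := ⟨j, by omega⟩) hjm h
        · exact h
      rw [hk', h3, zero_smul]
      exact Submodule.zero_mem _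
  · rw [Submodule.span_le]
    rintro _ ⟨⟨i, hi⟩, rfl⟩
    rw [SetLike.mem_coe, mem_hw]
    constructor
    · exact hT.P_first i _ rfl
    · simp only [hT.H_apply, hi]
      simp

theorem IsStd.mult_eq (hT : IsStd T m e) (hm : ∀ i, 0 < m i) (n : ℕ) :
    T.mult n = Fintype.card {i // m i = n} := by
  classical
  unfold mult
  rw [hT.hw_eq hm n]
  have hli : LinearIndependent ℂ (fun i : {i // m i = n} => e ⟨i.1, ⟨0, hm i.1⟩⟩) := by
    refine e.orthonormal.linearIndependent.comp
      (fun i : {i // m i = n} => (⟨i.1, ⟨0, hm i.1⟩⟩ : Σ i : ι, Fin (m i))) ?_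
    intro i j hij
    exact Subtype.ext (congrArg Sigma.fst hij)
  exact finrank_span_eq_card hli

theorem IsStd.finrank_eq (_hT : IsStd T m e) : Module.finrank ℂ E = ∑ i, m i := by
  rw [Module.finrank_eq_card_basis e.toBasis, Fintype.card_sigma]
  simp

end std

/-- intertwining isometries -/
structure Conj (T : Trip E) (T' : Trip E') (U : E ≃ₗᵢ[ℂ] E') : Prop where
  H : ∀ x, U (T.H x) = T'.H (U x)
  P : ∀ x, U (T.P x) = T'.P (U x)
  M : ∀ x, U (T.M x) = T'.M (U x)

theorem Conj.mult_eq {T : Trip E} {T' : Trip E'} {U : E ≃ₗᵢ[ℂ] E'} (h : Conj T T' U) (n : ℕ) :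
    T.mult n = T'.mult n := by
  unfold mult
  refine LinearEquiv.finrank_eq (U.toLinearEquiv.submoduleMap (T.hw n) |>.trans
    (LinearEquiv.ofEq _ _ ?_))
  ext y
  constructor
  · rintro ⟨x, hx, rfl⟩
    obtain ⟨h1, h2⟩ := mem_hw.1 hx
    refine mem_hw.2 ⟨?_, ?_⟩
    · change T'.P (U x) = 0
      rw [← h.P, h1, map_zero]
    · change T'.H (U x) = _ • U x
      rw [← h.H, h2, map_smul]
  · intro hy
    obtain ⟨h1, h2⟩ := mem_hw.1 hy
    refine ⟨U.symm y, mem_hw.2 ⟨?_, ?_⟩, ?_⟩
    · apply U.injective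
      rw [h.P, map_zero, U.apply_symm_apply, h1]
    · apply U.injective
      rw [h.H, map_smul, U.apply_symm_apply, h2]
    · exact U.apply_symm_apply y

/-- a map intertwining the lowering operators isometrically intertwines the raising ones -/
theorem conj_P_of_M {T : Trip E} {T' : Trip E'} {U : E ≃ₗᵢ[ℂ] E'}
    (hM : ∀ x, U (T.M x) = T'.M (U x)) (x : E) : U (T.P x) = T'.P (U x) := by
  refine ext_inner_left ℂ fun y => ?_
  obtain ⟨z, rfl⟩ := U.surjective y
  rw [U.inner_map_map, ← T.adj, ← T'.adj, ← hM, U.inner_map_map]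

/-- same multiplicities imply unitary equivalence -/
theorem exists_conj [FiniteDimensional ℂ E] [FiniteDimensional ℂ E'] (T : Trip E) (T' : Trip E')
    (h : ∀ n, 0 < n → T.mult n = T'.mult n) : ∃ U : E ≃ₗᵢ[ℂ] E', Conj T T' U := by
  classical
  obtain ⟨d, m, hm, e, he⟩ := exists_isStd T
  obtain ⟨d', m', hm', e', he'⟩ := exists_isStd T'
  have hcard : ∀ n, Fintype.card {i // m i = n} = Fintype.card {i // m' i = n} := by
    intro n
    rcases Nat.eq_zero_or_pos n with rfl | hn
    · have h1 : IsEmpty {i // m i = 0} := ⟨fun i => absurd i.2 (hm i.1).ne'⟩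
      have h2 : IsEmpty {i // m' i = 0} := ⟨fun i => absurd i.2 (hm' i.1).ne'⟩
      rw [Fintype.card_eq_zero, Fintype.card_eq_zero]
    · rw [← he.mult_eq hm n, ← he'.mult_eq hm' n, h n hn]
  obtain ⟨σ, hσ⟩ := exists_equiv_of_fiber_card m m' hcard
  let τ : (Σ i, Fin (m i)) ≃ (Σ i, Fin (m' i)) :=
    Equiv.sigmaCongr σ fun i => finCongr (hσ i).symm
  have hτ : ∀ i (k : Fin (m i)), τ ⟨i, k⟩ = ⟨σ i, ⟨(k : ℕ), (hσ i).symm ▸ k.2⟩⟩ := by
    intro i k
    rfl
  set U : E ≃ₗᵢ[ℂ] E' := e.equiv e' τ with hU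
  have hUe : ∀ p, U (e p) = e' (τ p) := fun p => e.equiv_apply_basis e' τ p
  have hext : ∀ (A : E →ₗ[ℂ] E) (A' : E' →ₗ[ℂ] E'), (∀ p, U (A (e p)) = A' (U (e p))) →
      ∀ x, U (A x) = A' (U x) := by
    intro A A' hA x
    have h1 : (U.toLinearEquiv : E →ₗ[ℂ] E') ∘ₗ A = A' ∘ₗ (U.toLinearEquiv : E →ₗ[ℂ] E') := by
      refine e.toBasis.ext fun p => ?_
      rw [e.coe_toBasis]
      exact hA p
    exact LinearMap.congr_fun h1 x
  have hMM : ∀ x, U (T.M x) = T'.M (U x) := by
    refine hext _ _ ?_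
    rintro ⟨i, k⟩
    rw [hUe, hτ]
    by_cases hk : (k : ℕ) + 1 < m i
    · have hk' : (k : ℕ) + 1 < m' (σ i) := by rw [hσ i]; exact hk
      have hc : (m' (σ i) : ℝ) = m i := by rw [hσ i]
      rw [he.M_apply i k hk, map_smul, hUe, hτ, he'.M_apply (σ i) ⟨(k : ℕ), _⟩ hk']
      simp only [hc]
    · have hk' : (k : ℕ) + 1 = m' (σ i) := by rw [hσ i]; omega
      rw [he.M_last i k (by omega), map_zero, he'.M_last (σ i) ⟨(k : ℕ), _⟩ hk']
  refine ⟨U, ?_, conj_P_of_M hMM, hMM⟩
  refine hext _ _ ?_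
  rintro ⟨i, k⟩
  have hc : (m' (σ i) : ℝ) = m i := by rw [hσ i]
  rw [hUe, hτ, he.H_apply, map_smul, hUe, hτ, he'.H_apply]
  simp only [hc]

/-- sum rule: `∑ n · mult n = dim` -/
theorem exists_family [FiniteDimensional ℂ E] (T : Trip E) :
    ∃ (d : ℕ) (m : Fin d → ℕ), (∀ i, 0 < m i) ∧ (∑ i, m i = Module.finrank ℂ E) ∧
      ∀ n, T.mult n = Fintype.card {i // m i = n} := by
  obtain ⟨d, m, hm, e, he⟩ := exists_isStd T
  exact ⟨d, m, hm, he.finrank_eq.symm, he.mult_eq hm⟩

end Trip

end Crest.Agent.R330.Su2a303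
end

-- ▼ part R330/Su2c_303
section

/-!
# Row 330, section 5: algebra of the vacua (helper303), part c

Existence: for every finite family `m : ι → ℕ` the standard triple on
`EuclideanSpace ℂ (Σ i, Fin (m i))`; transport along isometries; matrices.
-/

set_option autoImplicit false

open scoped InnerProductSpace

namespace Crest.Agent.R330.Su2a303

namespace Trip

section existence

variable {ι : Type*} [Fintype ι] (m : ι → ℕ)

/-- the model space -/
abbrev Mod (m : ι → ℕ) := EuclideanSpace ℂ (Σ i : ι, Fin (m i))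

/-- the model basis -/
noncomputable abbrev mb : OrthonormalBasis (Σ i : ι, Fin (m i)) ℂ (Mod m) :=
  EuclideanSpace.basisFun _ ℂ

/-- weights -/
noncomputable def wt (p : Σ i : ι, Fin (m i)) : ℝ := ((m p.1 : ℝ) - 1) / 2 - (p.2 : ℕ)

/-- model `H` -/
noncomputable def stdH : Mod m →ₗ[ℂ] Mod m :=
  (mb m).toBasis.constr ℂ fun p => ((wt m p : ℝ) : ℂ) • mb m p

/-- model raising operator -/
noncomputable def stdP : Mod m →ₗ[ℂ] Mod m :=
  (mb m).toBasis.constr ℂ fun p => if h : 0 < (p.2 : ℕ) then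
    ((Real.sqrt (((p.2 : ℕ) : ℝ) * ((m p.1 : ℝ) - (p.2 : ℕ))) : ℝ) : ℂ) •
      mb m ⟨p.1, ⟨(p.2 : ℕ) - 1, by have := p.2.2; omega⟩⟩ else 0

/-- model lowering operator -/
noncomputable def stdM : Mod m →ₗ[ℂ] Mod m := LinearMap.adjoint (stdP m)

theorem stdH_apply (p : Σ i : ι, Fin (m i)) :
    stdH m (mb m p) = ((wt m p : ℝ) : ℂ) • mb m p := by
  have h := (mb m).toBasis.constr_basis ℂ (fun p => ((wt m p : ℝ) : ℂ) • mb m p) p
  rw [OrthonormalBasis.coe_toBasis] at h
  exact h

theorem stdP_apply_zero (i : ι) (k : Fin (m i)) (hk : (k : ℕ) = 0) :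
    stdP m (mb m ⟨i, k⟩) = 0 := by
  have h := (mb m).toBasis.constr_basis ℂ (fun p : Σ i : ι, Fin (m i) =>
    if h : 0 < (p.2 : ℕ) then
    ((Real.sqrt (((p.2 : ℕ) : ℝ) * ((m p.1 : ℝ) - (p.2 : ℕ))) : ℝ) : ℂ) •
      mb m ⟨p.1, ⟨(p.2 : ℕ) - 1, by have := p.2.2; omega⟩⟩ else 0) ⟨i, k⟩
  rw [OrthonormalBasis.coe_toBasis, dif_neg (by simp [hk])] at h
  exact h

theorem stdP_apply_succ (i : ι) (j : ℕ) (hj : j + 1 < m i) :
    stdP m (mb m ⟨i, ⟨j + 1, hj⟩⟩) =
      ((Real.sqrt (((j : ℝ) + 1) * ((m i : ℝ) - 1 - j)) : ℝ) : ℂ) •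
        mb m ⟨i, ⟨j, by omega⟩⟩ := by
  have h := (mb m).toBasis.constr_basis ℂ (fun p : Σ i : ι, Fin (m i) =>
    if h : 0 < (p.2 : ℕ) then
    ((Real.sqrt (((p.2 : ℕ) : ℝ) * ((m p.1 : ℝ) - (p.2 : ℕ))) : ℝ) : ℂ) •
      mb m ⟨p.1, ⟨(p.2 : ℕ) - 1, by have := p.2.2; omega⟩⟩ else 0) ⟨i, ⟨j + 1, hj⟩⟩
  rw [OrthonormalBasis.coe_toBasis, dif_pos (Nat.succ_pos j)] at h
  refine h.trans ?_
  congr 2
  congr 1
  push_cast
  ring

theorem stdM_apply (i : ι) (k : Fin (m i)) (h : (k : ℕ) + 1 < m i) :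
    stdM m (mb m ⟨i, k⟩) =
      ((Real.sqrt ((((k : ℕ) : ℝ) + 1) * ((m i : ℝ) - 1 - (k : ℕ))) : ℝ) : ℂ) •
        mb m ⟨i, ⟨(k : ℕ) + 1, h⟩⟩ := by
  classical
  refine InnerProductSpace.ext_inner_left_basis (mb m).toBasis fun p => ?_
  obtain ⟨j, l⟩ := p
  rw [(mb m).coe_toBasis, stdM, LinearMap.adjoint_inner_right, inner_smul_right,
    orthonormal_iff_ite.1 (mb m).orthonormal]
  obtain ⟨l, hl⟩ := l
  cases l with
  | zero =>
    rw [stdP_apply_zero m j ⟨0, hl⟩ rfl, inner_zero_left, if_neg, mul_zero]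
    intro hc
    have hij : j = i := congrArg Sigma.fst hc
    subst hij
    have h3 := congrArg Fin.val (eq_of_heq (Sigma.mk.inj hc).2)
    simp at h3
  | succ l =>
    rw [stdP_apply_succ m j l hl, inner_smul_left, orthonormal_iff_ite.1 (mb m).orthonormal,
      Complex.conj_ofReal]
    by_cases hij : j = i
    · subst hij
      by_cases hkl : l = (k : ℕ)
      · subst hkl
        simp
      · rw [if_neg, if_neg]
        · simp
        · intro hc
          have h3 := congrArg Fin.val (eq_of_heq (Sigma.mk.inj hc).2)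
          apply hkl
          simpa using h3
        · intro hc
          have h3 := congrArg Fin.val (eq_of_heq (Sigma.mk.inj hc).2)
          exact hkl h3
    · rw [if_neg (fun hc => hij (congrArg Sigma.fst hc)),
        if_neg (fun hc => hij (congrArg Sigma.fst hc))]
      simp

theorem stdM_apply_last (i : ι) (k : Fin (m i)) (h : (k : ℕ) + 1 = m i) :
    stdM m (mb m ⟨i, k⟩) = 0 := by
  classical
  refine InnerProductSpace.ext_inner_left_basis (mb m).toBasis fun p => ?_
  obtain ⟨j, l⟩ := p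
  rw [(mb m).coe_toBasis, stdM, LinearMap.adjoint_inner_right, inner_zero_right]
  obtain ⟨l, hl⟩ := l
  cases l with
  | zero =>
    rw [stdP_apply_zero m j ⟨0, hl⟩ rfl, inner_zero_left]
  | succ l =>
    rw [stdP_apply_succ m j l hl, inner_smul_left, orthonormal_iff_ite.1 (mb m).orthonormal,
      if_neg, mul_zero]
    intro hc
    have hij : j = i := congrArg Sigma.fst hc
    subst hij
    have h3 := congrArg Fin.val (eq_of_heq (Sigma.mk.inj hc).2)
    simp only at h3
    omega

theorem basis_ext' {A B : Mod m →ₗ[ℂ] Mod m} (h : ∀ p, A (mb m p) = B (mb m p)) (x : Mod m) :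
    A x = B x := by
  have h1 : A = B := by
    refine (mb m).toBasis.ext fun p => ?_
    rw [(mb m).coe_toBasis]
    exact h p
  rw [h1]

/-- the standard triple -/
noncomputable def std : Trip (Mod m) where
  H := stdH m
  P := stdP m
  M := stdM m
  symH := by
    intro x y
    classical
    have h1 : LinearMap.adjoint (stdH m) = stdH m := by
      refine (mb m).toBasis.ext fun p => ?_
      refine InnerProductSpace.ext_inner_left_basis (mb m).toBasis fun q => ?_
      rw [(mb m).coe_toBasis, LinearMap.adjoint_inner_right, stdH_apply, stdH_apply,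
        inner_smul_left, inner_smul_right, Complex.conj_ofReal,
        orthonormal_iff_ite.1 (mb m).orthonormal]
      by_cases h : q = p
      · subst h; rfl
      · simp [h]
    nth_rewrite 1 [← h1]
    rw [LinearMap.adjoint_inner_left]
  adj := by
    intro x y
    rw [stdM, LinearMap.adjoint_inner_left]
  HP := by
    intro x
    refine basis_ext' m (A := stdH m ∘ₗ stdP m) (B := stdP m ∘ₗ stdH m + stdP m) ?_ x
    rintro ⟨i, ⟨k, hk⟩⟩
    simp only [LinearMap.comp_apply, LinearMap.add_apply, stdH_apply, map_smul]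
    cases k with
    | zero =>
      rw [stdP_apply_zero m i ⟨0, hk⟩ rfl]
      simp
    | succ k =>
      rw [stdP_apply_succ m i k hk, map_smul, stdH_apply, smul_smul, smul_smul, ← add_smul]
      congr 1
      simp only [wt]
      push_cast
      ring
  HM := by
    intro x
    refine basis_ext' m (A := stdH m ∘ₗ stdM m) (B := stdM m ∘ₗ stdH m - stdM m) ?_ x
    rintro ⟨i, k⟩
    simp only [LinearMap.comp_apply, LinearMap.sub_apply, stdH_apply, map_smul]
    by_cases hk : (k : ℕ) + 1 < m i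
    · rw [stdM_apply m i k hk, map_smul, stdH_apply, smul_smul, smul_smul, ← sub_smul]
      congr 1
      simp only [wt]
      push_cast
      ring
    · have hk2 := k.2
      rw [stdM_apply_last m i k (by omega)]
      simp
  PM := by
    intro x
    refine basis_ext' m (A := stdP m ∘ₗ stdM m) (B := stdM m ∘ₗ stdP m + (2 : ℂ) • stdH m) ?_ x
    rintro ⟨i, ⟨k, hk⟩⟩
    simp only [LinearMap.comp_apply, LinearMap.add_apply, LinearMap.smul_apply, stdH_apply]
    have hPM : stdP m (stdM m (mb m ⟨i, ⟨k, hk⟩⟩)) =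
        (((((k : ℝ) + 1) * ((m i : ℝ) - 1 - k) : ℝ)) : ℂ) • mb m ⟨i, ⟨k, hk⟩⟩ := by
      by_cases h : k + 1 < m i
      · rw [stdM_apply m i ⟨k, hk⟩ h, map_smul, stdP_apply_succ m i k h, smul_smul,
          ← Complex.ofReal_mul]
        congr 2
        rw [Real.mul_self_sqrt]
        have h1 : (k : ℝ) + 1 < (m i : ℝ) := by exact_mod_cast h
        have h2 : (0 : ℝ) ≤ (k : ℝ) := Nat.cast_nonneg _
        apply mul_nonneg <;> linarith
      · have h1 : k + 1 = m i := by omega
        rw [stdM_apply_last m i ⟨k, hk⟩ h1, map_zero]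
        have h2 : (m i : ℝ) = (k : ℝ) + 1 := by rw [← h1]; push_cast; ring
        rw [h2]
        simp
    have hMP : stdM m (stdP m (mb m ⟨i, ⟨k, hk⟩⟩)) =
        ((((k : ℝ) * ((m i : ℝ) - k) : ℝ)) : ℂ) • mb m ⟨i, ⟨k, hk⟩⟩ := by
      cases k with
      | zero =>
        rw [stdP_apply_zero m i ⟨0, hk⟩ rfl, map_zero]
        simp
      | succ k =>
        rw [stdP_apply_succ m i k hk, map_smul, stdM_apply m i ⟨k, by omega⟩ hk, smul_smul,
          ← Complex.ofReal_mul]
        congr 2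
        simp only
        rw [Real.mul_self_sqrt]
        · push_cast
          ring
        · have h1 : (k : ℝ) + 1 < (m i : ℝ) := by exact_mod_cast hk
          have h2 : (0 : ℝ) ≤ (k : ℝ) := Nat.cast_nonneg _
          apply mul_nonneg <;> linarith
    rw [hPM, hMP, smul_smul, ← add_smul]
    congr 1
    simp only [wt]
    push_cast
    ring

theorem isStd_std : IsStd (std m) m (mb m) where
  H_apply i k := stdH_apply m ⟨i, k⟩
  M_apply i k h := stdM_apply m i k h
  M_last i k h := stdM_apply_last m i k h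

end existence

section transport

variable {E : Type*} [NormedAddCommGroup E] [InnerProductSpace ℂ E]
  {E' : Type*} [NormedAddCommGroup E'] [InnerProductSpace ℂ E']

/-- conjugate endomorphism -/
def cj (U : E ≃ₗᵢ[ℂ] E') (A : E →ₗ[ℂ] E) : E' →ₗ[ℂ] E' :=
  (U.toLinearEquiv : E →ₗ[ℂ] E') ∘ₗ A ∘ₗ (U.symm.toLinearEquiv : E' →ₗ[ℂ] E)

theorem cj_apply (U : E ≃ₗᵢ[ℂ] E') (A : E →ₗ[ℂ] E) (x : E') : cj U A x = U (A (U.symm x)) := rfl

/-- transport of a triple along an isometry -/
def map (T : Trip E) (U : E ≃ₗᵢ[ℂ] E') : Trip E' where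
  H := cj U T.H
  P := cj U T.P
  M := cj U T.M
  symH := by
    intro x y
    obtain ⟨x, rfl⟩ := U.surjective x
    obtain ⟨y, rfl⟩ := U.surjective y
    simp only [cj_apply, U.symm_apply_apply, U.inner_map_map]
    exact T.symH x y
  adj := by
    intro x y
    obtain ⟨x, rfl⟩ := U.surjective x
    obtain ⟨y, rfl⟩ := U.surjective y
    simp only [cj_apply, U.symm_apply_apply, U.inner_map_map]
    exact T.adj x y
  HP := by
    intro x
    simp only [cj_apply, U.symm_apply_apply, T.HP, map_add]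
  HM := by
    intro x
    simp only [cj_apply, U.symm_apply_apply, T.HM, map_sub]
  PM := by
    intro x
    simp only [cj_apply, U.symm_apply_apply, T.PM, map_add, map_smul]

theorem conj_map (T : Trip E) (U : E ≃ₗᵢ[ℂ] E') : Conj T (T.map U) U where
  H x := by simp [map, cj_apply]
  P x := by simp [map, cj_apply]
  M x := by simp [map, cj_apply]

/-- every family with the right sum is realised on every space of that dimension -/
theorem exists_trip [FiniteDimensional ℂ E] {ι : Type*} [Fintype ι] (m : ι → ℕ)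
    (hm : ∀ i, 0 < m i) (hs : ∑ i, m i = Module.finrank ℂ E) :
    ∃ T : Trip E, ∀ n, T.mult n = Fintype.card {i // m i = n} := by
  classical
  have hcard : Fintype.card (Σ i : ι, Fin (m i)) = Fintype.card (Fin (Module.finrank ℂ E)) := by
    rw [Fintype.card_sigma, Fintype.card_fin]
    simpa using hs
  let U : Mod m ≃ₗᵢ[ℂ] E :=
    (mb m).equiv (stdOrthonormalBasis ℂ E) (Fintype.equivOfCardEq hcard)
  refine ⟨(std m).map U, fun n => ?_⟩
  rw [← (conj_map (std m) U).mult_eq n, (isStd_std m).mult_eq hm n]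

end transport

end Trip

end Crest.Agent.R330.Su2a303
end

-- ▼ part R330/Su2d_303
section

/-!
# Row 330, section 5: algebra of the vacua (helper303), part d

Matrix form: triples of Hermitian matrices `L : Fin 3 → Matrix (Fin N) (Fin N) ℂ` with
`L (i+1) * L (i+2) - L (i+2) * L (i+1) = I • L i`, up to `SU(N)`, are classified by the partitions
of `N`.
-/

set_option autoImplicit false

open scoped InnerProductSpace
open Matrix

namespace Crest.Agent.R330.Su2a303

variable {N : ℕ}

/-- matrices as operators on Euclidean space -/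
local notation "EN" => EuclideanSpace ℂ (Fin N)

theorem toE_mul (A B : Matrix (Fin N) (Fin N) ℂ) (x : EN) :
    toEuclideanLin A (toEuclideanLin B x) = toEuclideanLin (A * B) x := by
  simp only [toLpLin_apply]
  rw [mulVec_mulVec]

theorem toE_mul' (A B : Matrix (Fin N) (Fin N) ℂ) :
    toEuclideanLin A ∘ₗ toEuclideanLin B = toEuclideanLin (A * B) :=
  LinearMap.ext fun x => toE_mul A B x

/-- Hermitian `su(2)` triples of matrices (spin normalisation) -/
structure IsSu2 (L : Fin 3 → Matrix (Fin N) (Fin N) ℂ) : Prop where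
  herm : ∀ i, (L i).IsHermitian
  comm : ∀ i, L (i + 1) * L (i + 2) - L (i + 2) * L (i + 1) = Complex.I • L i

namespace IsSu2

variable {L : Fin 3 → Matrix (Fin N) (Fin N) ℂ}

theorem c01 (h : IsSu2 L) : L 0 * L 1 - L 1 * L 0 = Complex.I • L 2 := h.comm 2
theorem c12 (h : IsSu2 L) : L 1 * L 2 - L 2 * L 1 = Complex.I • L 0 := h.comm 0
theorem c20 (h : IsSu2 L) : L 2 * L 0 - L 0 * L 2 = Complex.I • L 1 := h.comm 1

/-- raising matrix -/
theorem HP (h : IsSu2 L) : L 2 * (L 0 + Complex.I • L 1) =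
    (L 0 + Complex.I • L 1) * L 2 + (L 0 + Complex.I • L 1) := by
  have h1 : L 2 * L 0 = L 0 * L 2 + Complex.I • L 1 := by rw [← h.c20]; abel
  have h2 : L 2 * L 1 = L 1 * L 2 - Complex.I • L 0 := by rw [← h.c12]; abel
  rw [mul_add, add_mul, mul_smul_comm, smul_mul_assoc, h1, h2, smul_sub, smul_smul,
    Complex.I_mul_I, neg_one_smul]
  abel

theorem HM (h : IsSu2 L) : L 2 * (L 0 - Complex.I • L 1) =
    (L 0 - Complex.I • L 1) * L 2 - (L 0 - Complex.I • L 1) := by
  have h1 : L 2 * L 0 = L 0 * L 2 + Complex.I • L 1 := by rw [← h.c20]; abel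
  have h2 : L 2 * L 1 = L 1 * L 2 - Complex.I • L 0 := by rw [← h.c12]; abel
  rw [mul_sub, sub_mul, mul_smul_comm, smul_mul_assoc, h1, h2, smul_sub, smul_smul,
    Complex.I_mul_I, neg_one_smul]
  abel

theorem PM (h : IsSu2 L) : (L 0 + Complex.I • L 1) * (L 0 - Complex.I • L 1) =
    (L 0 - Complex.I • L 1) * (L 0 + Complex.I • L 1) + (2 : ℂ) • L 2 := by
  have h1 : L 0 * L 1 = L 1 * L 0 + Complex.I • L 2 := by rw [← h.c01]; abel
  simp only [mul_sub, add_mul, mul_add, sub_mul, mul_smul_comm, smul_mul_assoc, h1, smul_add,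
    smul_sub, smul_smul, Complex.I_mul_I, neg_smul, one_smul, two_smul]
  abel

theorem conjTranspose_P (h : IsSu2 L) :
    (L 0 + Complex.I • L 1)ᴴ = L 0 - Complex.I • L 1 := by
  rw [conjTranspose_add, conjTranspose_smul, (h.herm 0).eq, (h.herm 1).eq]
  simp only [RCLike.star_def, Complex.conj_I, neg_smul]
  rw [sub_eq_add_neg]

/-- the triple of operators -/
noncomputable def trip (h : IsSu2 L) : Trip EN where
  H := toEuclideanLin (L 2)
  P := toEuclideanLin (L 0 + Complex.I • L 1)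
  M := toEuclideanLin (L 0 - Complex.I • L 1)
  symH := isSymmetric_toEuclideanLin_iff.2 (h.herm 2)
  adj := by
    intro x y
    rw [← h.conjTranspose_P, toEuclideanLin_conjTranspose_eq_adjoint,
      LinearMap.adjoint_inner_left]
  HP := by
    intro x
    rw [toE_mul, toE_mul, h.HP, map_add, LinearMap.add_apply]
  HM := by
    intro x
    rw [toE_mul, toE_mul, h.HM, map_sub, LinearMap.sub_apply]
  PM := by
    intro x
    rw [toE_mul, toE_mul, h.PM, map_add, LinearMap.add_apply, map_smul, LinearMap.smul_apply]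

end IsSu2

/-- the matrices of an abstract triple -/
noncomputable def matL (T : Trip EN) : Fin 3 → Matrix (Fin N) (Fin N) ℂ := ![
  toEuclideanLin.symm ((1 / 2 : ℂ) • (T.P + T.M)),
  toEuclideanLin.symm ((-Complex.I / 2) • (T.P - T.M)),
  toEuclideanLin.symm T.H]

theorem toE_inj {A B : Matrix (Fin N) (Fin N) ℂ} (h : toEuclideanLin A = toEuclideanLin B) :
    A = B := toEuclideanLin.injective h

theorem isSu2_matL (T : Trip EN) : IsSu2 (matL T) := by
  have hPT : ∀ x y, ⟪T.P x, y⟫_ℂ = ⟪x, T.M y⟫_ℂ := T.adj'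
  have h0 : toEuclideanLin (matL T 0) = (1 / 2 : ℂ) • (T.P + T.M) := by
    simp [matL]
  have h1 : toEuclideanLin (matL T 1) = (-Complex.I / 2) • (T.P - T.M) := by
    simp [matL]
  have h2 : toEuclideanLin (matL T 2) = T.H := by
    simp [matL]
  have hHP : T.H ∘ₗ T.P = T.P ∘ₗ T.H + T.P := LinearMap.ext fun x => T.HP x
  have hHM : T.H ∘ₗ T.M = T.M ∘ₗ T.H - T.M := LinearMap.ext fun x => T.HM x
  have hPM : T.P ∘ₗ T.M = T.M ∘ₗ T.P + (2 : ℂ) • T.H := LinearMap.ext fun x => T.PM x
  have hI : Complex.I * Complex.I = -1 := Complex.I_mul_I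
  have hc1 : (starRingEnd ℂ) (2 : ℂ) = 2 := map_ofNat (starRingEnd ℂ) 2
  have hc2 : (starRingEnd ℂ) (1 / 2 : ℂ) = 1 / 2 := by
    rw [map_div₀, hc1, map_one]
  have hc3 : (starRingEnd ℂ) (-Complex.I / 2 : ℂ) = Complex.I / 2 := by
    rw [map_div₀, hc1, map_neg, Complex.conj_I, neg_neg]
  constructor
  · intro i
    rw [← isSymmetric_toEuclideanLin_iff]
    fin_cases i
    · change (toEuclideanLin (matL T 0)).IsSymmetric
      rw [h0]
      intro x y
      simp only [LinearMap.smul_apply, LinearMap.add_apply, inner_smul_left, inner_smul_right,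
        inner_add_left, inner_add_right, hPT, T.adj, hc2]
      ring
    · change (toEuclideanLin (matL T 1)).IsSymmetric
      rw [h1]
      intro x y
      simp only [LinearMap.smul_apply, LinearMap.sub_apply, inner_smul_left, inner_smul_right,
        inner_sub_left, inner_sub_right, hPT, T.adj, hc3]
      ring
    · change (toEuclideanLin (matL T 2)).IsSymmetric
      rw [h2]
      exact T.symH
  · intro i
    apply toE_inj
    rw [map_sub, ← toE_mul', ← toE_mul', map_smul]
    fin_cases i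
    · change toEuclideanLin (matL T 1) ∘ₗ toEuclideanLin (matL T 2) -
        toEuclideanLin (matL T 2) ∘ₗ toEuclideanLin (matL T 1) =
        Complex.I • toEuclideanLin (matL T 0)
      rw [h0, h1, h2, LinearMap.smul_comp, LinearMap.comp_smul, LinearMap.sub_comp,
        LinearMap.comp_sub, hHP, hHM]
      rw [← smul_sub, smul_smul]
      have e : T.P ∘ₗ T.H - T.M ∘ₗ T.H - (T.P ∘ₗ T.H + T.P - (T.M ∘ₗ T.H - T.M)) =
          -(T.P + T.M) := by abel
      rw [e, smul_neg, ← neg_smul]
      congr 1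
      ring
    · change toEuclideanLin (matL T 2) ∘ₗ toEuclideanLin (matL T 0) -
        toEuclideanLin (matL T 0) ∘ₗ toEuclideanLin (matL T 2) =
        Complex.I • toEuclideanLin (matL T 1)
      rw [h0, h1, h2, LinearMap.smul_comp, LinearMap.comp_smul, LinearMap.add_comp,
        LinearMap.comp_add, hHP, hHM]
      rw [← smul_sub, smul_smul]
      have e : T.P ∘ₗ T.H + T.P + (T.M ∘ₗ T.H - T.M) - (T.P ∘ₗ T.H + T.M ∘ₗ T.H) =
          T.P - T.M := by abel
      rw [e]
      congr 1
      linear_combination (1 / 2 : ℂ) * hI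
    · change toEuclideanLin (matL T 0) ∘ₗ toEuclideanLin (matL T 1) -
        toEuclideanLin (matL T 1) ∘ₗ toEuclideanLin (matL T 0) =
        Complex.I • toEuclideanLin (matL T 2)
      rw [h0, h1, h2, LinearMap.smul_comp, LinearMap.comp_smul, LinearMap.smul_comp,
        LinearMap.comp_smul, LinearMap.add_comp, LinearMap.sub_comp, LinearMap.comp_add,
        LinearMap.comp_add, LinearMap.comp_sub, LinearMap.comp_sub, hPM]
      rw [smul_smul, smul_smul, mul_comm (1 / 2 : ℂ) (-Complex.I / 2), ← smul_sub]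
      have e : T.P ∘ₗ T.P - (T.M ∘ₗ T.P + (2 : ℂ) • T.H) + (T.M ∘ₗ T.P - T.M ∘ₗ T.M) -
          (T.P ∘ₗ T.P + (T.M ∘ₗ T.P + (2 : ℂ) • T.H) - (T.M ∘ₗ T.P + T.M ∘ₗ T.M)) =
          (-4 : ℂ) • T.H := by
        have e2 : (-4 : ℂ) • T.H = -((2 : ℂ) • T.H + (2 : ℂ) • T.H) := by
          rw [← add_smul, ← neg_smul]; norm_num
        rw [e2]
        abel
      rw [e, smul_smul]
      congr 1
      ring

theorem trip_matL (T : Trip EN) : (isSu2_matL T).trip.P = T.P ∧ (isSu2_matL T).trip.M = T.M ∧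
    (isSu2_matL T).trip.H = T.H := by
  have h0 : toEuclideanLin (matL T 0) = (1 / 2 : ℂ) • (T.P + T.M) := by
    simp [matL]
  have h1 : toEuclideanLin (matL T 1) = (-Complex.I / 2) • (T.P - T.M) := by
    simp [matL]
  have h2 : toEuclideanLin (matL T 2) = T.H := by
    simp [matL]
  have hI : Complex.I * Complex.I = -1 := Complex.I_mul_I
  have hc : Complex.I * (-Complex.I / 2) = 1 / 2 := by linear_combination (-(1 / 2) : ℂ) * hI
  refine ⟨?_, ?_, h2⟩
  · change toEuclideanLin (matL T 0 + Complex.I • matL T 1) = T.P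
    rw [map_add, map_smul, h0, h1, smul_smul, hc, ← smul_add]
    have e : T.P + T.M + (T.P - T.M) = (2 : ℂ) • T.P := by
      rw [two_smul]; abel
    rw [e, smul_smul]
    norm_num
  · change toEuclideanLin (matL T 0 - Complex.I • matL T 1) = T.M
    rw [map_sub, map_smul, h0, h1, smul_smul, hc, ← smul_sub]
    have e : T.P + T.M - (T.P - T.M) = (2 : ℂ) • T.M := by
      rw [two_smul]; abel
    rw [e, smul_smul]
    norm_num

theorem mult_matL (T : Trip EN) (n : ℕ) : (isSu2_matL T).trip.mult n = T.mult n := by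
  obtain ⟨h1, _, h3⟩ := trip_matL T
  unfold Trip.mult Trip.hw
  rw [h1, h3]

end Crest.Agent.R330.Su2a303
end

-- ▼ part R330/Su2e_303
section

/-!
# Row 330, section 5: algebra of the vacua (helper303), part e

`SU(N)`-conjugacy classes of Hermitian `su(2)` triples of matrices are in bijection with the
partitions of `N`.
-/

set_option autoImplicit false

open scoped InnerProductSpace
open Matrix

namespace Crest.Agent.R330.Su2a303

variable {N : ℕ}

local notation "EN" => EuclideanSpace ℂ (Fin N)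
local notation "SU" => Matrix.specialUnitaryGroup (Fin N) ℂ

theorem toE_one : toEuclideanLin (1 : Matrix (Fin N) (Fin N) ℂ) = LinearMap.id := by
  refine LinearMap.ext fun x => ?_
  simp [toLpLin_apply]

/-- the matrix of an isometry is unitary -/
theorem exists_matrix (U : EN ≃ₗᵢ[ℂ] EN) : ∃ u : Matrix (Fin N) (Fin N) ℂ,
    (∀ x, toEuclideanLin u x = U x) ∧ uᴴ * u = 1 ∧ u * uᴴ = 1 := by
  refine ⟨toEuclideanLin.symm (U.toLinearEquiv : EN →ₗ[ℂ] EN), ?_, ?_⟩
  · intro x
    simp
  · set u : Matrix (Fin N) (Fin N) ℂ := toEuclideanLin.symm (U.toLinearEquiv : EN →ₗ[ℂ] EN)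
      with hu
    have hux : ∀ x, toEuclideanLin u x = U x := by
      intro x
      rw [hu]
      simp
    have h1 : uᴴ * u = 1 := by
      apply toE_inj
      rw [toE_one, ← toE_mul', toEuclideanLin_conjTranspose_eq_adjoint]
      refine LinearMap.ext fun x => ?_
      refine ext_inner_left ℂ fun y => ?_
      rw [LinearMap.comp_apply, LinearMap.adjoint_inner_right, hux, hux, U.inner_map_map]
      rfl
    exact ⟨h1, mul_eq_one_comm.1 h1⟩

/-- a unitary matrix is a phase times a special unitary matrix -/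
theorem exists_su (hN : 0 < N) {u : Matrix (Fin N) (Fin N) ℂ} (hu : uᴴ * u = 1) :
    ∃ (g : SU) (z : ℂ), star z * z = 1 ∧ (g : Matrix (Fin N) (Fin N) ℂ) = z • u := by
  obtain ⟨w, hw⟩ := IsAlgClosed.exists_pow_nat_eq u.det hN
  have hdet : star u.det * u.det = 1 := by
    have h := congrArg Matrix.det hu
    rw [det_mul, det_conjTranspose, det_one] at h
    exact h
  have hw1 : (star w * w) ^ N = 1 := by
    rw [mul_pow, ← star_pow, hw, hdet]
  have hreal : star w * w = ((‖w‖ ^ 2 : ℝ) : ℂ) := by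
    rw [RCLike.star_def, Complex.conj_mul']
    push_cast
    rfl
  have hw2 : star w * w = 1 := by
    rw [hreal] at hw1 ⊢
    have h1 : (‖w‖ ^ 2) ^ N = 1 := by exact_mod_cast hw1
    have h2 : ‖w‖ ^ 2 = 1 := (pow_eq_one_iff_of_nonneg (sq_nonneg _) hN.ne').1 h1
    rw [h2]
    simp
  have hw0 : w ≠ 0 := by
    intro h
    rw [h] at hw2
    simp at hw2
  have hzz : star (star w) * star w = 1 := by
    rw [star_star, mul_comm]
    exact hw2
  refine ⟨⟨star w • u, ?_⟩, star w, hzz, rfl⟩
  rw [mem_specialUnitaryGroup_iff]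
  constructor
  · rw [mem_unitaryGroup_iff', star_eq_conjTranspose, conjTranspose_smul, smul_mul_smul_comm, hu,
      hzz, one_smul]
  · rw [det_smul, Fintype.card_fin, ← hw, ← mul_pow, hw2, one_pow]

/-- equal multiplicities imply `SU(N)`-conjugacy -/
theorem IsSu2.exists_conj (hN : 0 < N) {L L' : Fin 3 → Matrix (Fin N) (Fin N) ℂ} (h : IsSu2 L)
    (h' : IsSu2 L') (hm : ∀ n, 0 < n → h.trip.mult n = h'.trip.mult n) :
    ∃ g : SU, ∀ i, (g : Matrix (Fin N) (Fin N) ℂ) * L i * star (g : Matrix (Fin N) (Fin N) ℂ)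
      = L' i := by
  obtain ⟨U, hU⟩ := Trip.exists_conj h.trip h'.trip hm
  obtain ⟨u, hux, hu1, hu2⟩ := exists_matrix U
  obtain ⟨g, z, hz, hg⟩ := exists_su hN hu1
  have hmat : ∀ (A A' : Matrix (Fin N) (Fin N) ℂ),
      (∀ x, U (toEuclideanLin A x) = toEuclideanLin A' (U x)) → u * A = A' * u := by
    intro A A' hA
    apply toE_inj
    refine LinearMap.ext fun x => ?_
    rw [← toE_mul, ← toE_mul, hux, hux]
    exact hA x
  have h2 : u * L 2 = L' 2 * u := hmat _ _ hU.H
  have hP : u * (L 0 + Complex.I • L 1) = (L' 0 + Complex.I • L' 1) * u := hmat _ _ hU.P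
  have hM : u * (L 0 - Complex.I • L 1) = (L' 0 - Complex.I • L' 1) * u := hmat _ _ hU.M
  have h0 : u * L 0 = L' 0 * u := by
    have h3 : (2 : ℂ) • (u * L 0) = (2 : ℂ) • (L' 0 * u) := by
      have e1 : (2 : ℂ) • (u * L 0) = u * (L 0 + Complex.I • L 1) + u * (L 0 - Complex.I • L 1) := by
        rw [← mul_add, ← mul_smul_comm, two_smul]
        congr 1
        abel
      have e2 : (2 : ℂ) • (L' 0 * u) =
          (L' 0 + Complex.I • L' 1) * u + (L' 0 - Complex.I • L' 1) * u := by
        rw [← add_mul, ← smul_mul_assoc, two_smul]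
        congr 1
        abel
      rw [e1, e2, hP, hM]
    exact smul_right_injective _ (two_ne_zero) h3
  have h1 : u * L 1 = L' 1 * u := by
    have h3 : (2 * Complex.I : ℂ) • (u * L 1) = (2 * Complex.I : ℂ) • (L' 1 * u) := by
      have e1 : (2 * Complex.I : ℂ) • (u * L 1) =
          u * (L 0 + Complex.I • L 1) - u * (L 0 - Complex.I • L 1) := by
        rw [← mul_sub, ← mul_smul_comm, mul_smul, two_smul]
        congr 1
        abel
      have e2 : (2 * Complex.I : ℂ) • (L' 1 * u) =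
          (L' 0 + Complex.I • L' 1) * u - (L' 0 - Complex.I • L' 1) * u := by
        rw [← sub_mul, ← smul_mul_assoc, mul_smul, two_smul]
        congr 1
        abel
      rw [e1, e2, hP, hM]
    exact smul_right_injective _ (mul_ne_zero two_ne_zero Complex.I_ne_zero) h3
  refine ⟨g, fun i => ?_⟩
  have hi : u * L i = L' i * u := by
    fin_cases i
    · exact h0
    · exact h1
    · exact h2
  rw [hg, star_smul, smul_mul_assoc, smul_mul_assoc, mul_smul_comm, smul_smul, mul_comm z, hz,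
    one_smul, hi, mul_assoc, star_eq_conjTranspose, hu2, mul_one]

/-- conjugate triples have equal multiplicities -/
theorem IsSu2.mult_eq_of_conj {L L' : Fin 3 → Matrix (Fin N) (Fin N) ℂ} (h : IsSu2 L)
    (h' : IsSu2 L') (g : SU)
    (hg : ∀ i, (g : Matrix (Fin N) (Fin N) ℂ) * L i * star (g : Matrix (Fin N) (Fin N) ℂ) = L' i)
    (n : ℕ) : h.trip.mult n = h'.trip.mult n := by
  have hs : star (g : Matrix (Fin N) (Fin N) ℂ) * (g : Matrix (Fin N) (Fin N) ℂ) = 1 :=
    Col962.star_mul_self' g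
  have hgL : ∀ i, (g : Matrix (Fin N) (Fin N) ℂ) * L i = L' i * (g : Matrix (Fin N) (Fin N) ℂ) := by
    intro i
    rw [← hg i, mul_assoc, hs, mul_one]
  let li : EN →ₗᵢ[ℂ] EN := (toEuclideanLin (g : Matrix (Fin N) (Fin N) ℂ)).isometryOfInner (by
    intro x y
    rw [← LinearMap.adjoint_inner_right, ← toEuclideanLin_conjTranspose_eq_adjoint, toE_mul,
      ← star_eq_conjTranspose, hs, toE_one]
    rfl)
  let U : EN ≃ₗᵢ[ℂ] EN := li.toLinearIsometryEquiv rfl
  have hU : ∀ x, U x = toEuclideanLin (g : Matrix (Fin N) (Fin N) ℂ) x := fun x => rfl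
  have hc : Trip.Conj h.trip h'.trip U := by
    constructor
    · intro x
      rw [hU, hU]
      change toEuclideanLin _ (toEuclideanLin (L 2) x) = toEuclideanLin (L' 2) _
      rw [toE_mul, toE_mul, hgL]
    · intro x
      rw [hU, hU]
      change toEuclideanLin _ (toEuclideanLin (L 0 + Complex.I • L 1) x) =
        toEuclideanLin (L' 0 + Complex.I • L' 1) _
      rw [toE_mul, toE_mul, mul_add, add_mul, mul_smul_comm, smul_mul_assoc, hgL, hgL]
    · intro x
      rw [hU, hU]
      change toEuclideanLin _ (toEuclideanLin (L 0 - Complex.I • L 1) x) =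
        toEuclideanLin (L' 0 - Complex.I • L' 1) _
      rw [toE_mul, toE_mul, mul_sub, sub_mul, mul_smul_comm, smul_mul_assoc, hgL, hgL]
  exact hc.mult_eq n

/-! ### partitions -/

theorem count_univ_map {ι : Type*} [Fintype ι] (m : ι → ℕ) (n : ℕ) :
    ((Finset.univ : Finset ι).val.map m).count n = Fintype.card {i // m i = n} := by
  classical
  rw [Multiset.count_map, Fintype.card_subtype]
  have h : (Finset.univ : Finset ι).val.filter (fun a => n = m a) =
      ((Finset.univ : Finset ι).filter (fun a => m a = n)).val := by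
    rw [Finset.filter_val]
    exact Multiset.filter_congr fun a _ => eq_comm
  rw [h]
  rfl

/-- the partition of a triple -/
theorem exists_partition (T : Trip EN) :
    ∃ p : Nat.Partition N, ∀ n, 0 < n → T.mult n = p.parts.count n := by
  obtain ⟨d, m, hm, hs, hc⟩ := T.exists_family
  refine ⟨⟨(Finset.univ : Finset (Fin d)).val.map m, ?_, ?_⟩, fun n _ => ?_⟩
  · intro i hi
    obtain ⟨j, _, rfl⟩ := Multiset.mem_map.1 hi
    exact hm j
  · have h1 : ((Finset.univ : Finset (Fin d)).val.map m).sum = ∑ i, m i := rfl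
    rw [h1, hs]
    simp
  · rw [hc n]
    exact (count_univ_map m n).symm

/-- every partition is realised -/
theorem exists_trip_of_partition (p : Nat.Partition N) :
    ∃ T : Trip EN, ∀ n, T.mult n = p.parts.count n := by
  classical
  let m : p.parts.ToType → ℕ := fun x => (x : ℕ)
  have hmap : (Finset.univ : Finset p.parts.ToType).val.map m = p.parts :=
    Multiset.map_univ_coe p.parts
  have hpos : ∀ i, 0 < m i := by
    intro i
    have : m i ∈ p.parts := by
      rw [← hmap]
      exact Multiset.mem_map_of_mem m (Finset.mem_univ_val i)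
    exact p.parts_pos this
  have hsum : ∑ i, m i = Module.finrank ℂ EN := by
    have h1 : ((Finset.univ : Finset p.parts.ToType).val.map m).sum = ∑ i, m i := rfl
    rw [← h1, hmap, p.parts_sum]
    simp
  obtain ⟨T, hT⟩ := Trip.exists_trip (E := EN) m hpos hsum
  refine ⟨T, fun n => ?_⟩
  rw [hT n, ← count_univ_map m n, hmap]

theorem partition_ext {p q : Nat.Partition N}
    (h : ∀ n, 0 < n → p.parts.count n = q.parts.count n) : p = q := by
  apply Nat.Partition.ext
  refine Multiset.ext.2 fun n => ?_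
  rcases Nat.eq_zero_or_pos n with rfl | hn
  · rw [Multiset.count_eq_zero_of_notMem, Multiset.count_eq_zero_of_notMem]
    · intro h0
      exact absurd (q.parts_pos h0) (lt_irrefl 0)
    · intro h0
      exact absurd (p.parts_pos h0) (lt_irrefl 0)
  · exact h n hn

/-- **classification of Hermitian `su(2)` triples of matrices up to `SU(N)`** -/
theorem classification (hN : 0 < N) :
    ∃ L : Nat.Partition N → Fin 3 → Matrix (Fin N) (Fin N) ℂ,
      (∀ p, IsSu2 (L p)) ∧
      (∀ L' : Fin 3 → Matrix (Fin N) (Fin N) ℂ, IsSu2 L' → ∃ (p : Nat.Partition N) (g : SU),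
        ∀ i, (g : Matrix (Fin N) (Fin N) ℂ) * L p i * star (g : Matrix (Fin N) (Fin N) ℂ)
          = L' i) ∧
      (∀ (p q : Nat.Partition N) (g : SU),
        (∀ i, (g : Matrix (Fin N) (Fin N) ℂ) * L p i * star (g : Matrix (Fin N) (Fin N) ℂ)
          = L q i) → p = q) := by
  choose T hT using fun p : Nat.Partition N => exists_trip_of_partition p
  have hmult : ∀ p n, (isSu2_matL (T p)).trip.mult n = p.parts.count n := by
    intro p n
    rw [mult_matL, hT]
  refine ⟨fun p => matL (T p), fun p => isSu2_matL (T p), ?_, ?_⟩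
  · intro L' h'
    obtain ⟨p, hp⟩ := exists_partition h'.trip
    obtain ⟨g, hg⟩ := IsSu2.exists_conj hN (isSu2_matL (T p)) h' (fun n hn => by
      rw [hmult, hp n hn])
    exact ⟨p, g, hg⟩
  · intro p q g hg
    refine partition_ext fun n _ => ?_
    rw [← hmult p n, ← hmult q n]
    exact IsSu2.mult_eq_of_conj (isSu2_matL (T p)) (isSu2_matL (T q)) g hg n

end Crest.Agent.R330.Su2a303
end

-- ▼ part R330/Vacua_303
section

/-!
# Row 330, section 5a: the vacua on `Cfg N` (helper303)

`IsVac b g x` : `x_i / 3 = g [x_{i+1}, x_{i+2}]` for the first three directions, `x_j = 0` for the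
other six; equivalently the mass deformed potential vanishes at `x`.  The vacua form exactly
`p(N)` orbits of `SU(N)`.
-/

set_option autoImplicit false

open Matrix hiding comp
open Crest.MathPhysics.MatrixQM

namespace Crest.Agent.R330.Vacua303

open Crest.Agent.R330.CoerCfg87 Crest.Agent.R330.Su2a303

variable {N : ℕ} (b : ColorBasis N)

local notation "SU" => Matrix.specialUnitaryGroup (Fin N) ℂ

/-- zero-energy configurations of the mass deformed potential with coupling `g` -/
def IsVac (g : ℝ) (x : Cfg N) : Prop :=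
  (∀ (i : Fin 3) (A : Fin (N ^ 2 - 1)),
    comp x (lo i) A / 3 = g * br b (comp x (lo (i + 1))) (comp x (lo (i + 2))) A) ∧
  ∀ (j : Fin 9), 3 ≤ (j : ℕ) → ∀ A : Fin (N ^ 2 - 1), x (j, A) = 0

theorem isVac_iff (g : ℝ) (x : Cfg N) :
    IsVac b g x ↔ 1 / 2 * Vcyc b g 1 x + 1 / 72 * Vhi x = 0 := by
  have h1 : 0 ≤ Vcyc b g 1 x := Finset.sum_nonneg fun _ _ => Finset.sum_nonneg fun _ _ => sq_nonneg _
  have h2 : 0 ≤ Vhi x := Finset.sum_nonneg fun _ _ => Finset.sum_nonneg fun _ _ => sq_nonneg _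
  constructor
  · rintro ⟨h3, h4⟩
    have e1 : Vcyc b g 1 x = 0 := by
      unfold Vcyc
      refine Finset.sum_eq_zero fun i _ => Finset.sum_eq_zero fun A _ => ?_
      rw [one_mul, h3 i A, sub_self]
      ring
    have e2 : Vhi x = 0 := by
      unfold Vhi
      refine Finset.sum_eq_zero fun i _ => Finset.sum_eq_zero fun A _ => ?_
      have := h4 ⟨(i : ℕ) + 3, by omega⟩ (by simp) A
      unfold CoerCfg87.comp
      rw [this]
      ring
    rw [e1, e2]
    ring
  · intro h
    have e1 : Vcyc b g 1 x = 0 := by nlinarith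
    have e2 : Vhi x = 0 := by nlinarith
    constructor
    · intro i A
      have h5 := (Finset.sum_eq_zero_iff_of_nonneg fun i _ => Finset.sum_nonneg fun A _ =>
        sq_nonneg (1 * comp x (lo i) A / 3
          - g * br b (comp x (lo (i + 1))) (comp x (lo (i + 2))) A)).1 e1 i (Finset.mem_univ i)
      have h6 := (Finset.sum_eq_zero_iff_of_nonneg fun A _ =>
        sq_nonneg (1 * comp x (lo i) A / 3
          - g * br b (comp x (lo (i + 1))) (comp x (lo (i + 2))) A)).1 h5 A (Finset.mem_univ A)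
      have h7 := pow_eq_zero_iff (two_ne_zero) |>.1 h6
      linarith
    · intro j hj A
      have hj2 := j.2
      have h5 := (Finset.sum_eq_zero_iff_of_nonneg fun (i : Fin 6) _ =>
        Finset.sum_nonneg fun (A : Fin (N ^ 2 - 1)) _ =>
        sq_nonneg (comp x ⟨(i : ℕ) + 3, by omega⟩ A)).1 e2 ⟨(j : ℕ) - 3, by omega⟩
          (Finset.mem_univ _)
      have h6 := (Finset.sum_eq_zero_iff_of_nonneg fun (A : Fin (N ^ 2 - 1)) _ =>
        sq_nonneg (comp x ⟨((⟨(j : ℕ) - 3, by omega⟩ : Fin 6) : ℕ) + 3, by simp; omega⟩ A)).1 h5 A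
          (Finset.mem_univ A)
      have h7 := pow_eq_zero_iff (two_ne_zero) |>.1 h6
      unfold CoerCfg87.comp at h7
      have hj3 : (⟨((⟨(j : ℕ) - 3, by omega⟩ : Fin 6) : ℕ) + 3, by simp; omega⟩ : Fin 9) = j := by
        apply Fin.ext
        simp only
        omega
      rw [hj3] at h7
      exact h7



/-- conjugation in colour coordinates -/
theorem cmat_act (h : SU) (x : Cfg N) (j : Fin 9) :
    cmat b (comp (b.act h x) j) = (h : Matrix (Fin N) (Fin N) ℂ) * cmat b (comp x j) *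
      star (h : Matrix (Fin N) (Fin N) ℂ) := by
  unfold cmat
  rw [Col962.conj_sum b h (fun A => (comp x j A : ℂ))]
  refine Finset.sum_congr rfl fun A _ => ?_
  congr 1
  unfold CoerCfg87.comp
  rw [Col962.act_apply]
  push_cast
  rfl

theorem cmat_inj {u v : Fin (N ^ 2 - 1) → ℝ} (h : cmat b u = cmat b v) : u = v := by
  have h1 := Col962.T_ext b h
  funext A
  exact_mod_cast congrFun h1 A

theorem cfg_ext {x y : Cfg N} (h : ∀ j, comp x j = comp y j) : x = y := by
  ext ⟨j, A⟩
  exact congrFun (h j) A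

/-- the spin matrices of a vacuum of coupling one -/
noncomputable def Lm (x : Cfg N) (i : Fin 3) : Matrix (Fin N) (Fin N) ℂ :=
  (3 : ℂ) • cmat b (comp x (lo i))

theorem isSu2_Lm (hN : 0 < N) {x : Cfg N} (hx : IsVac b 1 x) : IsSu2 (Lm b x) := by
  constructor
  · intro i
    unfold Lm Matrix.IsHermitian
    rw [conjTranspose_smul, (cmat_herm b _).eq]
    congr 1
    exact map_ofNat (starRingEnd ℂ) 3
  · intro i
    unfold Lm
    rw [smul_mul_smul_comm, smul_mul_smul_comm, ← smul_sub, comm_cmat b hN]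
    have h1 : cmat b (br b (comp x (lo (i + 1))) (comp x (lo (i + 2)))) =
        ((1 / 3 : ℝ) : ℂ) • cmat b (comp x (lo i)) := by
      rw [← cmat_smul]
      congr 1
      funext A
      have := hx.1 i A
      rw [one_mul] at this
      rw [← this]
      ring
    rw [h1, smul_smul, smul_smul, smul_smul]
    congr 1
    push_cast
    ring

theorem isSu2_trace {L : Fin 3 → Matrix (Fin N) (Fin N) ℂ} (hL : IsSu2 L) (i : Fin 3) :
    (L i).trace = 0 := by
  have h := congrArg Matrix.trace (hL.comm i)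
  rw [trace_sub, trace_mul_comm, sub_self, trace_smul, smul_eq_mul] at h
  exact (mul_eq_zero.1 h.symm).resolve_left Complex.I_ne_zero

/-- the configuration of a triple of matrices -/
noncomputable def cfgOf (L : Fin 3 → Matrix (Fin N) (Fin N) ℂ) : Cfg N :=
  WithLp.toLp 2 fun jA => if h : (jA.1 : ℕ) < 3 then
    (1 / 3 : ℝ) * (b.T jA.2 * L ⟨(jA.1 : ℕ), h⟩).trace.re else 0

theorem comp_cfgOf_lo (L : Fin 3 → Matrix (Fin N) (Fin N) ℂ) (i : Fin 3) :
    comp (cfgOf b L) (lo i) = fun A => (1 / 3 : ℝ) * (b.T A * L i).trace.re := by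
  funext A
  unfold CoerCfg87.comp cfgOf lo
  simp only
  rw [dif_pos i.2]

theorem cmat_cfgOf {L : Fin 3 → Matrix (Fin N) (Fin N) ℂ} (hL : IsSu2 L) (i : Fin 3) :
    cmat b (comp (cfgOf b L) (lo i)) = ((1 / 3 : ℝ) : ℂ) • L i := by
  rw [comp_cfgOf_lo, cmat_smul]
  congr 1
  exact (Col962.expand_herm b (isSu2_trace hL i) (hL.herm i)).symm

theorem comp_cfgOf_hi (L : Fin 3 → Matrix (Fin N) (Fin N) ℂ) (j : Fin 9) (hj : 3 ≤ (j : ℕ)) :
    comp (cfgOf b L) j = 0 := by
  funext A
  unfold CoerCfg87.comp cfgOf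
  simp only
  rw [dif_neg (by omega)]
  rfl

theorem isVac_cfgOf (hN : 0 < N) {L : Fin 3 → Matrix (Fin N) (Fin N) ℂ} (hL : IsSu2 L) :
    IsVac b 1 (cfgOf b L) := by
  constructor
  · intro i A
    have h1 : cmat b (fun A => (1 / 3 : ℝ) * comp (cfgOf b L) (lo i) A) =
        cmat b (br b (comp (cfgOf b L) (lo (i + 1))) (comp (cfgOf b L) (lo (i + 2)))) := by
      have h2 := comm_cmat b hN (comp (cfgOf b L) (lo (i + 1))) (comp (cfgOf b L) (lo (i + 2)))
      rw [cmat_cfgOf b hL, cmat_cfgOf b hL, smul_mul_smul_comm, smul_mul_smul_comm, ← smul_sub,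
        hL.comm i] at h2
      have h3 : Complex.I • cmat b (br b (comp (cfgOf b L) (lo (i + 1)))
          (comp (cfgOf b L) (lo (i + 2)))) =
          Complex.I • cmat b (fun A => (1 / 3 : ℝ) * comp (cfgOf b L) (lo i) A) := by
        rw [← h2, cmat_smul, cmat_cfgOf b hL, smul_smul, smul_smul, smul_smul]
        congr 1
        push_cast
        ring
      exact (smul_right_injective _ Complex.I_ne_zero h3).symm
    have h4 := congrFun (cmat_inj b h1) A
    rw [one_mul, ← h4]
    ring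
  · intro j hj A
    exact congrFun (comp_cfgOf_hi b L j hj) A

theorem Lm_cfgOf {L : Fin 3 → Matrix (Fin N) (Fin N) ℂ} (hL : IsSu2 L) (i : Fin 3) :
    Lm b (cfgOf b L) i = L i := by
  unfold Lm
  rw [cmat_cfgOf b hL, smul_smul]
  push_cast
  norm_num

/-- conjugacy of the matrices is the same as lying on one orbit -/
theorem act_eq_iff {x y : Cfg N} (hx : IsVac b 1 x) (hy : IsVac b 1 y) (h : SU) :
    b.act h x = y ↔ ∀ i, (h : Matrix (Fin N) (Fin N) ℂ) * Lm b x i *
      star (h : Matrix (Fin N) (Fin N) ℂ) = Lm b y i := by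
  constructor
  · rintro rfl i
    unfold Lm
    rw [cmat_act, mul_smul_comm, smul_mul_assoc]
  · intro hL
    refine cfg_ext fun j => ?_
    by_cases hj : (j : ℕ) < 3
    · have hj' : j = lo ⟨(j : ℕ), hj⟩ := rfl
      rw [hj']
      apply cmat_inj b
      have h1 := hL ⟨(j : ℕ), hj⟩
      unfold Lm at h1
      rw [mul_smul_comm, smul_mul_assoc] at h1
      rw [cmat_act]
      exact smul_right_injective _ (by norm_num : (3 : ℂ) ≠ 0) h1
    · have hj' : 3 ≤ (j : ℕ) := by omega
      apply cmat_inj b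
      rw [cmat_act]
      have h1 : comp x j = 0 := funext fun A => hx.2 j hj' A
      have h2 : comp y j = 0 := funext fun A => hy.2 j hj' A
      rw [h1, h2]
      have h3 : cmat b (0 : Fin (N ^ 2 - 1) → ℝ) = 0 := by
        unfold cmat
        simp
      rw [h3, mul_zero, zero_mul]


/-- **the vacua of coupling one are exactly `p(N)` orbits** -/
theorem exists_vacua_one (hN : 0 < N) :
    ∃ c : Nat.Partition N → Cfg N, (∀ p, IsVac b 1 (c p)) ∧
      (∀ x, IsVac b 1 x → ∃ (p : Nat.Partition N) (h : SU), b.act h (c p) = x) ∧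
      (∀ (p q : Nat.Partition N) (h : SU), b.act h (c p) = c q → p = q) := by
  obtain ⟨L, hL, hsurj, hinj⟩ := classification (N := N) hN
  have hv : ∀ p, IsVac b 1 (cfgOf b (L p)) := fun p => isVac_cfgOf b hN (hL p)
  refine ⟨fun p => cfgOf b (L p), hv, ?_, ?_⟩
  · intro x hx
    obtain ⟨p, g, hg⟩ := hsurj (Lm b x) (isSu2_Lm b hN hx)
    refine ⟨p, g, (act_eq_iff b (hv p) hx g).2 fun i => ?_⟩
    rw [Lm_cfgOf b (hL p)]
    exact hg i
  · intro p q h hh
    refine hinj p q h fun i => ?_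
    have := (act_eq_iff b (hv p) (hv q) h).1 hh i
    rwa [Lm_cfgOf b (hL p), Lm_cfgOf b (hL q)] at this


end Crest.Agent.R330.Vacua303
end

-- ▼ part R330/VacB_303

/-! # Row 330, section 5a: `OrbitsProp N` (helper303) -/

set_option autoImplicit false

open Crest.MathPhysics.MatrixQM

namespace Crest.Agent.R330.Vacua303

open Crest.Agent.R330.CoerCfg87 Crest.Agent.R330.S5Defs798

variable {N : ℕ}

theorem isVacCfg_iff (b : ColorBasis N) (c : Cfg N) : IsVacCfg b c ↔ IsVac b 1 c := by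
  rw [isVac_iff]
  have h1 : 0 ≤ Vcyc b 1 1 c :=
    Finset.sum_nonneg fun _ _ => Finset.sum_nonneg fun _ _ => sq_nonneg _
  have h2 : 0 ≤ Vhi c := Finset.sum_nonneg fun _ _ => Finset.sum_nonneg fun _ _ => sq_nonneg _
  unfold IsVacCfg
  constructor
  · rintro ⟨h3, h4⟩
    rw [h3, h4]
    ring
  · intro h
    constructor <;> nlinarith

/-- LEAF S5a1 -/
theorem orbitsProp (hN : 0 < N) : OrbitsProp N := by
  intro b
  obtain ⟨c, h1, h2, h3⟩ := exists_vacua_one b hN
  refine ⟨c, ⟨fun l => (isVacCfg_iff b _).2 (h1 l), fun x hx => ?_, h3⟩⟩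
  obtain ⟨p, h, hp⟩ := h2 x ((isVacCfg_iff b x).1 hx)
  exact ⟨p, h, hp.symm⟩

end Crest.Agent.R330.Vacua303
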