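import Crest.Agent.R330.Gam_962
import Crest.Agent.R330.Defs_478
import Mathlib.LinearAlgebra.Matrix.Kronecker
import Mathlib.Analysis.Matrix.HermitianFunctionalCalculus
import Mathlib.Analysis.CStarAlgebra.ContinuousFunctionalCalculus.Commute
import Mathlib.Analysis.Matrix.PosDef
import Crest.Agent.R330.NeutU_45
import Crest.Agent.R330.Om0_331
import Crest.Agent.R330.Col_962
import Crest.Agent.R330.Char_973
import Crest.Agent.R330.VacB_303
import Crest.Agent.R330.LinEx_674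
import Crest.Agent.R330.WeitzG_726

-- ▼ part R330/LinA_561
section

/-!
# Row 330, S5c: linear model at a fuzzy vacuum, part A: gamma matrix identities (helper561)

`q a = Γ γ^a` (`a = 0, 1, 2`), the `16 × 9` matrices `gc α` (columns `γ^j ε_α`), `ga α a`
(entries `γ2 a k α β`), `mc α` (entries `c_k (Γ γ^k)_{αβ}`).
-/

set_option autoImplicit false
set_option linter.unusedSimpArgs false

open Matrix Crest.MathPhysics.MatrixQM Crest.Agent.R330.Gam962 Crest.Agent.R330.Defs478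

namespace Crest.Agent.R330.Lin561

noncomputable section

variable (G : GammaNine)

/-- `q_a = Γ γ^a`. -/
def q (a : Fin 3) : Matrix (Fin 16) (Fin 16) ℝ := Gam G * G.γ (Fin.castLE (by norm_num) a)

theorem castLE0 : (Fin.castLE (by norm_num : 3 ≤ 9) (0 : Fin 3)) = (0 : Fin 9) := rfl
theorem castLE1 : (Fin.castLE (by norm_num : 3 ≤ 9) (1 : Fin 3)) = (1 : Fin 9) := rfl
theorem castLE2 : (Fin.castLE (by norm_num : 3 ≤ 9) (2 : Fin 3)) = (2 : Fin 9) := rfl

theorem g01 : G.γ 1 * G.γ 0 = -(G.γ 0 * G.γ 1) := anti G (by decide)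
theorem g02 : G.γ 2 * G.γ 0 = -(G.γ 0 * G.γ 2) := anti G (by decide)
theorem g12 : G.γ 2 * G.γ 1 = -(G.γ 1 * G.γ 2) := anti G (by decide)

/-- push a generator through: `γ^i (γ^i X) = X`. -/
theorem gg (i : Fin 9) (X : Matrix (Fin 16) (Fin 16) ℝ) : G.γ i * (G.γ i * X) = X := by
  rw [← mul_assoc, sq_one, one_mul]

theorem h10 (X : Matrix (Fin 16) (Fin 16) ℝ) : G.γ 1 * (G.γ 0 * X) = -(G.γ 0 * (G.γ 1 * X)) := by
  rw [← mul_assoc, g01, neg_mul, mul_assoc]
theorem h20 (X : Matrix (Fin 16) (Fin 16) ℝ) : G.γ 2 * (G.γ 0 * X) = -(G.γ 0 * (G.γ 2 * X)) := by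
  rw [← mul_assoc, g02, neg_mul, mul_assoc]
theorem h21 (X : Matrix (Fin 16) (Fin 16) ℝ) : G.γ 2 * (G.γ 1 * X) = -(G.γ 1 * (G.γ 2 * X)) := by
  rw [← mul_assoc, g12, neg_mul, mul_assoc]

theorem q0_eq : q G 0 = G.γ 1 * G.γ 2 := by
  simp only [q, castLE0, Gam, mul_assoc, g02, h20, h10, g01, mul_neg, gg, neg_neg]

theorem q1_eq : q G 1 = -(G.γ 0 * G.γ 2) := by
  simp only [q, castLE1, Gam, mul_assoc, g12, h21, mul_neg, gg]

theorem q2_eq : q G 2 = G.γ 0 * G.γ 1 := by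
  simp only [q, castLE2, Gam, mul_assoc, sq_one, mul_one]

theorem Gam_sq : Gam G * Gam G = -1 := by
  simp only [Gam, mul_assoc, h20, h10, h21, g12, g02, g01, mul_neg, gg, neg_neg, sq_one, mul_one,
    neg_mul, sq_one]

theorem Gam_transpose : (Gam G)ᵀ = -Gam G := by
  rw [Gam, transpose_mul, transpose_mul, G.symm, G.symm, G.symm, ← mul_assoc, g12, neg_mul,
    mul_assoc, g02, mul_neg, h10, neg_neg, mul_assoc]

theorem q_transpose (a : Fin 3) : (q G a)ᵀ = -q G a := by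
  fin_cases a
  · show (q G 0)ᵀ = -q G 0
    rw [q0_eq, transpose_mul, G.symm, G.symm, g12]
  · show (q G 1)ᵀ = -q G 1
    rw [q1_eq, transpose_neg, transpose_mul, G.symm, G.symm, g02]
  · show (q G 2)ᵀ = -q G 2
    rw [q2_eq, transpose_mul, G.symm, G.symm, g01]

theorem q_sq (a : Fin 3) : q G a * q G a = -1 := by
  fin_cases a
  · show q G 0 * q G 0 = -1
    simp only [q0_eq, mul_assoc, h21, mul_neg, gg, sq_one]
  · show q G 1 * q G 1 = -1
    simp only [q1_eq, mul_assoc, h20, mul_neg, neg_mul, neg_neg, gg, sq_one]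
  · show q G 2 * q G 2 = -1
    simp only [q2_eq, mul_assoc, h10, mul_neg, gg, sq_one]

theorem q01 : q G 0 * q G 1 = -q G 2 := by
  simp only [q0_eq, q1_eq, q2_eq, mul_assoc, h20, h10, g01, mul_neg, neg_neg, sq_one, mul_one]
theorem q10 : q G 1 * q G 0 = q G 2 := by
  simp only [q0_eq, q1_eq, q2_eq, mul_assoc, h21, sq_one, mul_one, neg_mul, mul_neg, neg_neg]
theorem q12 : q G 1 * q G 2 = -q G 0 := by
  simp only [q0_eq, q1_eq, q2_eq, mul_assoc, h20, h10, h21, g12, gg, neg_mul, mul_neg, neg_neg]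
theorem q21 : q G 2 * q G 1 = q G 0 := by
  simp only [q0_eq, q1_eq, q2_eq, mul_assoc, h10, gg, mul_neg, neg_neg]
theorem q20 : q G 2 * q G 0 = -q G 1 := by
  simp only [q0_eq, q1_eq, q2_eq, mul_assoc, gg, neg_neg]
theorem q02 : q G 0 * q G 2 = q G 1 := by
  simp only [q0_eq, q1_eq, q2_eq, mul_assoc, h20, h10, g12, gg, mul_neg, neg_neg]

theorem Gam_comm0 : Gam G * G.γ 0 = G.γ 0 * Gam G := by
  have := q0_eq G
  rw [q, castLE0] at this
  rw [this, Gam, mul_assoc, gg]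

theorem Gam_comm1 : Gam G * G.γ 1 = G.γ 1 * Gam G := by
  have := q1_eq G
  rw [q, castLE1] at this
  rw [this, Gam, mul_assoc, h10, gg]

theorem Gam_comm2 : Gam G * G.γ 2 = G.γ 2 * Gam G := by
  have := q2_eq G
  rw [q, castLE2] at this
  rw [this, Gam, mul_assoc, h20, h21, mul_neg, neg_neg, sq_one, mul_one]

theorem Gam_anti {k : Fin 9} (hk : 3 ≤ (k : ℕ)) : Gam G * G.γ k = -(G.γ k * Gam G) := by
  have h0 : G.γ 0 * G.γ k = -(G.γ k * G.γ 0) := anti G (by rintro rfl; simp at hk)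
  have h1 : G.γ 1 * G.γ k = -(G.γ k * G.γ 1) := anti G (by rintro rfl; simp at hk)
  have h2 : G.γ 2 * G.γ k = -(G.γ k * G.γ 2) := anti G (by rintro rfl; simp at hk)
  rw [Gam, mul_assoc, mul_assoc, h2, mul_neg, ← mul_assoc (G.γ 1), h1, neg_mul, neg_neg,
    ← mul_assoc, ← mul_assoc, h0]
  simp only [neg_mul, mul_assoc]

theorem Gam_q (a : Fin 3) : Gam G * q G a = q G a * Gam G := by
  fin_cases a
  · show Gam G * q G 0 = q G 0 * Gam G
    rw [q, castLE0, mul_assoc, Gam_comm0]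
  · show Gam G * q G 1 = q G 1 * Gam G
    rw [q, castLE1, mul_assoc, Gam_comm1]
  · show Gam G * q G 2 = q G 2 * Gam G
    rw [q, castLE2, mul_assoc, Gam_comm2]

/-- `Γ q_a = -γ^a`. -/
theorem Gam_mul_q (a : Fin 3) : Gam G * q G a = -G.γ (Fin.castLE (by norm_num) a) := by
  rw [q, ← mul_assoc, Gam_sq, neg_mul, one_mul]

end

end Crest.Agent.R330.Lin561
end

-- ▼ part R330/LinB_561
section

/-!
# Row 330, S5c: linear model at a fuzzy vacuum, part B: Kronecker identities (helper561)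

`Y : Fin 3 → Matrix κ κ ℝ` antisymmetric with `[Y_0, Y_1] = Y_2` and cyclic.
`Tm = Σ q_a ⊗ Y_a` (fermions), `Rm = Σ r_a ⊗ Y_a` (the three first bosonic directions),
`Gm α` = isometry `Cfg → R^16 ⊗ g`, `Wm α` = linear part of the potential of the charges.
-/

set_option autoImplicit false
set_option linter.unusedSimpArgs false

open Matrix Crest.MathPhysics.MatrixQM Crest.Agent.R330.Gam962 Crest.Agent.R330.Defs478
open scoped Kronecker

namespace Crest.Agent.R330.Lin561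

noncomputable section

variable (G : GammaNine)

/-- columns `γ^j ε_α` -/
def gcol (α : Fin 16) : Matrix (Fin 16) (Fin 9) ℝ := fun β j => G.γ j α β
/-- entries `γ2 a k α β` -/
def ga (α : Fin 16) (a : Fin 3) : Matrix (Fin 16) (Fin 9) ℝ :=
  fun β k => G.γ2 (Fin.castLE (by norm_num) a) k α β
/-- entries `c_k (Γ γ^k)_{αβ}` -/
def mc (α : Fin 16) : Matrix (Fin 16) (Fin 9) ℝ := fun β k => cc k * (Gam G * G.γ k) α β
/-- column `Γ ε_α` -/
def gΓ (α : Fin 16) : Matrix (Fin 16) (Fin 1) ℝ := fun β _ => Gam G β α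

/-- unit row -/
def row (a : Fin 3) : Matrix (Fin 1) (Fin 9) ℝ :=
  fun _ j => if (j : ℕ) = (a : ℕ) then 1 else 0
/-- projection on the first three directions -/
def pa : Matrix (Fin 9) (Fin 9) ℝ := diagonal fun j => if (j : ℕ) < 3 then 1 else 0
/-- projection on the last six directions -/
def pb : Matrix (Fin 9) (Fin 9) ℝ := 1 - pa
/-- `(r_a)_{cb} = -ε_{cab}` -/
def rr (a : Fin 3) : Matrix (Fin 9) (Fin 9) ℝ := fun c b =>
  match a with
  | 0 => if c = 1 ∧ b = 2 then 1 else if c = 2 ∧ b = 1 then -1 else 0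
  | 1 => if c = 2 ∧ b = 0 then 1 else if c = 0 ∧ b = 2 then -1 else 0
  | 2 => if c = 0 ∧ b = 1 then 1 else if c = 1 ∧ b = 0 then -1 else 0

theorem pa_mul_pa : pa * pa = pa := by
  rw [pa, diagonal_mul_diagonal]
  congr 1
  funext j
  split_ifs <;> simp

theorem pa_transpose : paᵀ = pa := diagonal_transpose _

theorem rr_transpose (a : Fin 3) : (rr a)ᵀ = -rr a := by
  ext c b
  fin_cases a <;> fin_cases c <;> fin_cases b <;> simp [rr, transpose_apply]

theorem rr_pa (a : Fin 3) : rr a * pa = rr a := by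
  ext c b
  rw [pa, mul_diagonal]
  fin_cases a <;> fin_cases c <;> fin_cases b <;> simp [rr]

theorem pa_rr (a : Fin 3) : pa * rr a = rr a := by
  ext c b
  rw [pa, diagonal_mul]
  fin_cases a <;> fin_cases c <;> fin_cases b <;> simp [rr]

theorem row_pa (a : Fin 3) : row a * pa = row a := by
  ext c b
  rw [pa, mul_diagonal]
  fin_cases a <;> fin_cases b <;> simp [row]

theorem row_rr (a c : Fin 3) : row a * rr c =
    fun _ b => rr c (Fin.castLE (by norm_num) a) b := by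
  ext x b
  rw [mul_apply, Finset.sum_eq_single (Fin.castLE (by norm_num) a)]
  · simp [row]
  · intro j _ hj
    have : ¬ ((j : ℕ) = (a : ℕ)) := fun h => hj (Fin.ext (by simpa using h))
    simp [row, this]
  · simp

theorem row_rr_same (a : Fin 3) : row a * rr a = 0 := by
  rw [row_rr]; ext x b
  fin_cases a <;> fin_cases b <;> simp [rr]
theorem row0_rr1 : row 0 * rr 1 = -row 2 := by
  rw [row_rr]; ext x b; fin_cases b <;> simp [rr, row]
theorem row0_rr2 : row 0 * rr 2 = row 1 := by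
  rw [row_rr]; ext x b; fin_cases b <;> simp [rr, row]
theorem row1_rr0 : row 1 * rr 0 = row 2 := by
  rw [row_rr]; ext x b; fin_cases b <;> simp [rr, row]
theorem row1_rr2 : row 1 * rr 2 = -row 0 := by
  rw [row_rr]; ext x b; fin_cases b <;> simp [rr, row]
theorem row2_rr0 : row 2 * rr 0 = -row 1 := by
  rw [row_rr]; ext x b; fin_cases b <;> simp [rr, row]
theorem row2_rr1 : row 2 * rr 1 = row 0 := by
  rw [row_rr]; ext x b; fin_cases b <;> simp [rr, row]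

/-- multiplication of a `16 × 16` matrix with the columns -/
theorem mul_gcol (X : Matrix (Fin 16) (Fin 16) ℝ) (α β : Fin 16) (j : Fin 9) :
    (X * gcol G α) β j = (X * G.γ j) β α := by
  rw [mul_apply, mul_apply]
  refine Finset.sum_congr rfl fun δ _ => ?_
  rw [gcol, g_symm G j α δ]

theorem gcol_mul (X : Matrix (Fin 9) (Fin 9) ℝ) (Z : Matrix (Fin 16) (Fin 16) ℝ)
    (α β : Fin 16) (j : Fin 9) :
    (Z * gcol G α * X) β j = ∑ c, (Z * G.γ c) β α * X c j := by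
  rw [mul_apply]
  exact Finset.sum_congr rfl fun c _ => by rw [mul_gcol]

theorem gcol_gram (α : Fin 16) : (gcol G α)ᵀ * gcol G α = 1 := by
  ext i j
  rw [mul_apply, one_apply]
  have h : ∑ x, (gcol G α)ᵀ i x * gcol G α x j = (G.γ i * G.γ j) α α := by
    rw [mul_apply]
    exact Finset.sum_congr rfl fun x _ => by rw [transpose_apply, gcol, gcol, g_symm G j α x]
  rw [h]
  by_cases hij : i = j
  · rw [if_pos hij, hij, sq_one, one_apply_eq]
  · rw [if_neg hij]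
    have h1 : (G.γ i * G.γ j) α α = -(G.γ j * G.γ i) α α := by rw [anti G hij, neg_apply]
    have h2 : (G.γ j * G.γ i) α α = (G.γ i * G.γ j) α α := by
      have : (G.γ j * G.γ i) = (G.γ i * G.γ j)ᵀ := by rw [transpose_mul, G.symm, G.symm]
      rw [this, transpose_apply]
    linarith

end

end Crest.Agent.R330.Lin561
private theorem rz_e073fcc358 : type_of% @_root_.Crest.Agent.R330.Lin561.rr.eq_1 := @_root_.Crest.Agent.R330.Lin561.rr.eq_1 -- L42
end

-- ▼ part R330/LinC_561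
section

/-!
# Row 330, S5c: linear model at a fuzzy vacuum, part C: Kronecker identities (helper561)

`T_sq : T² + T = 1 ⊗ C`, `T_Gm : T G_α P_a = G_α R + Γ_α Div`, `Dv_Rm : Div R = -Div`,
`W_Pa`, `W_Pb` : the potential coefficients through `Γ`, `T`, `R`.
-/

set_option autoImplicit false
set_option linter.unusedSimpArgs false

open Matrix Crest.MathPhysics.MatrixQM Crest.Agent.R330.Gam962 Crest.Agent.R330.Defs478
open scoped Kronecker

namespace Crest.Agent.R330.Lin561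

noncomputable section

variable (G : GammaNine)

/-! ## 16 × 9 identities -/

theorem q0g1 : q G 0 * G.γ 1 = -G.γ 2 := by
  rw [q0_eq, mul_assoc, g12, mul_neg, gg]
theorem q0g2 : q G 0 * G.γ 2 = G.γ 1 := by
  rw [q0_eq, mul_assoc, sq_one, mul_one]
theorem q1g0 : q G 1 * G.γ 0 = G.γ 2 := by
  rw [q1_eq, neg_mul, mul_assoc, g02, mul_neg, neg_neg, gg]
theorem q1g2 : q G 1 * G.γ 2 = -G.γ 0 := by
  rw [q1_eq, neg_mul, mul_assoc, sq_one, mul_one]
theorem q2g0 : q G 2 * G.γ 0 = -G.γ 1 := by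
  rw [q2_eq, mul_assoc, g01, mul_neg, gg]
theorem q2g1 : q G 2 * G.γ 1 = G.γ 0 := by
  rw [q2_eq, mul_assoc, sq_one, mul_one]
theorem q0g0 : q G 0 * G.γ 0 = Gam G := by
  rw [q, castLE0, mul_assoc, sq_one, mul_one]
theorem q1g1 : q G 1 * G.γ 1 = Gam G := by
  rw [q, castLE1, mul_assoc, sq_one, mul_one]
theorem q2g2 : q G 2 * G.γ 2 = Gam G := by
  rw [q, castLE2, mul_assoc, sq_one, mul_one]

theorem sum_rr (a : Fin 3) (f : Fin 9 → ℝ) (j : Fin 9) :
    ∑ c, f c * rr a c j =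
      f 0 * rr a 0 j + f 1 * rr a 1 j + f 2 * rr a 2 j := by
  have h : ∀ c : Fin 9, 3 ≤ (c : ℕ) → rr a c j = 0 := by
    intro c hc
    fin_cases a <;> fin_cases c <;> simp_all [rr]
  rw [Fin.sum_univ_succ, Fin.sum_univ_succ, Fin.sum_univ_succ]
  rw [Finset.sum_eq_zero (s := Finset.univ)
    (f := fun i : Fin 6 => f i.succ.succ.succ * rr a i.succ.succ.succ j)]
  · simp only [Fin.succ_zero_eq_one, Fin.succ_one_eq_two, add_zero]
    ring
  · intro i _
    rw [h _ (by simp), mul_zero]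

theorem mul_pa (X : Matrix (Fin 16) (Fin 9) ℝ) (β : Fin 16) (j : Fin 9) :
    (X * pa) β j = if (j : ℕ) < 3 then X β j else 0 := by
  rw [pa, mul_diagonal]; split_ifs <;> simp

theorem mul_pb (X : Matrix (Fin 16) (Fin 9) ℝ) (β : Fin 16) (j : Fin 9) :
    (X * pb) β j = if (j : ℕ) < 3 then 0 else X β j := by
  rw [pb, Matrix.mul_sub, Matrix.mul_one, Matrix.sub_apply, mul_pa]; split_ifs <;> simp

theorem rr_col_ge (a : Fin 3) (c j : Fin 9) (hj : 3 ≤ (j : ℕ)) : rr a c j = 0 := by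
  fin_cases a <;> fin_cases j <;> simp_all [rr]

theorem gΓ_row (α β : Fin 16) (a : Fin 3) (j : Fin 9) :
    (gΓ G α * row a) β j = if (j : ℕ) = (a : ℕ) then Gam G β α else 0 := by
  rw [mul_apply]
  simp [gΓ, row]

/-- (I1) -/
theorem I1 (α : Fin 16) (a : Fin 3) :
    q G a * gcol G α * pa = gcol G α * rr a + gΓ G α * row a := by
  ext β j
  rw [mul_pa, Matrix.add_apply, gΓ_row, mul_gcol]
  have h1 : (gcol G α * rr a) β j = ∑ c, (G.γ c) β α * rr a c j := by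
    rw [mul_apply]
    exact Finset.sum_congr rfl fun c _ => by rw [gcol, g_symm G c α β]
  rw [h1, sum_rr]
  by_cases hj : (j : ℕ) < 3
  · rw [if_pos hj]
    obtain rfl | rfl | rfl : j = 0 ∨ j = 1 ∨ j = 2 := by
      rcases j with ⟨j, hj'⟩
      simp only at hj
      interval_cases j <;> simp
    all_goals
      fin_cases a <;>
      simp [rr, q0g0, q0g1, q0g2, q1g0, q1g1, q1g2, q2g0, q2g1, q2g2]
  · rw [if_neg hj]
    rw [rr_col_ge a 0 j (by omega), rr_col_ge a 1 j (by omega), rr_col_ge a 2 j (by omega)]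
    rw [if_neg (by omega)]
    simp

theorem q_anti (a : Fin 3) (α β : Fin 16) : q G a β α = -q G a α β := by
  have h := congrFun (congrFun (q_transpose G a) α) β
  rw [transpose_apply, neg_apply] at h
  exact h

theorem g2_eq_q (α β : Fin 16) :
    G.γ2 0 1 α β = q G 2 α β ∧ G.γ2 1 0 α β = -q G 2 α β ∧
    G.γ2 1 2 α β = q G 0 α β ∧ G.γ2 2 1 α β = -q G 0 α β ∧
    G.γ2 2 0 α β = q G 1 α β ∧ G.γ2 0 2 α β = -q G 1 α β := by
  have h1 : G.γ2 0 1 = q G 2 := by rw [g2_ne G (by decide), q2_eq]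
  have h2 : G.γ2 1 2 = q G 0 := by rw [g2_ne G (by decide), q0_eq]
  have h3 : G.γ2 2 0 = q G 1 := by rw [g2_ne G (by decide), q1_eq, g02]
  refine ⟨by rw [h1], ?_, by rw [h2], ?_, by rw [h3], ?_⟩
  · rw [g2_swap G 0 1, h1, neg_apply]
  · rw [g2_swap G 1 2, h2, neg_apply]
  · rw [g2_swap G 2 0, h3, neg_apply]

/-- (I7a) -/
theorem I7a (α : Fin 16) (a : Fin 3) : ga G α a * pa = Gam G * gcol G α * rr a := by
  ext β j
  rw [mul_pa, gcol_mul, sum_rr]
  have e0 : Gam G * G.γ 0 = q G 0 := rfl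
  have e1 : Gam G * G.γ 1 = q G 1 := rfl
  have e2 : Gam G * G.γ 2 = q G 2 := rfl
  obtain ⟨g1, g2, g3, g4, g5, g6⟩ := g2_eq_q G α β
  rw [e0, e1, e2, q_anti G 0, q_anti G 1, q_anti G 2]
  by_cases hj : (j : ℕ) < 3
  · rw [if_pos hj]
    obtain rfl | rfl | rfl : j = 0 ∨ j = 1 ∨ j = 2 := by
      rcases j with ⟨j, hj'⟩
      simp only at hj
      interval_cases j <;> simp
    all_goals
      fin_cases a <;>
      simp [rr, ga, castLE0, castLE1, castLE2, g1, g2, g3, g4, g5, g6, g2_self]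
  · rw [if_neg hj]
    rw [rr_col_ge a 0 j (by omega), rr_col_ge a 1 j (by omega), rr_col_ge a 2 j (by omega)]
    simp

/-- (I7b) -/
theorem I7b (α : Fin 16) : -(mc G α * pa) = (1 / 3 : ℝ) • (Gam G * gcol G α * pa) := by
  ext β j
  rw [Matrix.neg_apply, Matrix.smul_apply, mul_pa, mul_pa, mul_gcol, mc]
  by_cases hj : (j : ℕ) < 3
  · rw [if_pos hj, if_pos hj, cc, if_pos hj]
    have : (Gam G * G.γ j) β α = -(Gam G * G.γ j) α β := by
      obtain rfl | rfl | rfl : j = 0 ∨ j = 1 ∨ j = 2 := by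
        rcases j with ⟨j, hj'⟩
        simp only at hj
        interval_cases j <;> simp
      · exact q_anti G 0 α β
      · exact q_anti G 1 α β
      · exact q_anti G 2 α β
    rw [this, smul_eq_mul]
    ring
  · rw [if_neg hj, if_neg hj]
    simp

/-- (I8a) -/
theorem I8a (α : Fin 16) (a : Fin 3) : ga G α a * pb = Gam G * q G a * gcol G α * pb := by
  ext β j
  rw [mul_pb, mul_pb, mul_gcol]
  by_cases hj : (j : ℕ) < 3
  · rw [if_pos hj, if_pos hj]
  · rw [if_neg hj, if_neg hj, ga, Gam_mul_q, neg_mul, neg_apply]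
    have hne : (Fin.castLE (by norm_num) a : Fin 9) ≠ j := by
      intro h
      apply hj
      rw [← h]
      simp
    rw [g2_asymm, g2_ne G hne]

/-- (I8b) -/
theorem I8b (α : Fin 16) : -(mc G α * pb) = (1 / 6 : ℝ) • (Gam G * gcol G α * pb) := by
  ext β j
  rw [Matrix.neg_apply, Matrix.smul_apply, mul_pb, mul_pb, mul_gcol, mc]
  by_cases hj : (j : ℕ) < 3
  · rw [if_pos hj, if_pos hj]
    simp
  · rw [if_neg hj, if_neg hj, cc, if_neg hj]
    have : (Gam G * G.γ j) β α = (Gam G * G.γ j) α β := by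
      have h : Gam G * G.γ j = (Gam G * G.γ j)ᵀ := by
        rw [transpose_mul, G.symm, Gam_transpose, mul_neg, Gam_anti G (by omega)]
      conv_lhs => rw [h]
      rw [transpose_apply]
    rw [this, smul_eq_mul]
    ring

/-! ## Kronecker identities -/

section kr

variable {l m n p : Type*}

theorem kron_sub_right (A : Matrix l m ℝ) (B C : Matrix n p ℝ) :
    A ⊗ₖ (B - C) = A ⊗ₖ B - A ⊗ₖ C := by
  ext ⟨i, i'⟩ ⟨j, j'⟩
  simp [kroneckerMap_apply, mul_sub]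

theorem kron_neg_right (A : Matrix l m ℝ) (B : Matrix n p ℝ) :
    A ⊗ₖ (-B) = -(A ⊗ₖ B) := by
  ext ⟨i, i'⟩ ⟨j, j'⟩
  simp [kroneckerMap_apply]

theorem kron_neg_left (A : Matrix l m ℝ) (B : Matrix n p ℝ) :
    (-A) ⊗ₖ B = -(A ⊗ₖ B) := by
  ext ⟨i, i'⟩ ⟨j, j'⟩
  simp [kroneckerMap_apply]

theorem kron_sub_left (A C : Matrix l m ℝ) (B : Matrix n p ℝ) :
    (A - C) ⊗ₖ B = A ⊗ₖ B - C ⊗ₖ B := by
  ext ⟨i, i'⟩ ⟨j, j'⟩
  simp [kroneckerMap_apply, sub_mul]

end kr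

section kron

variable {κ : Type*} [Fintype κ] [DecidableEq κ] (Y : Fin 3 → Matrix κ κ ℝ)

/-- antisymmetric matrices with the relations of `so(3)` -/
structure So3 : Prop where
  anti : ∀ a, (Y a)ᵀ = -Y a
  c01 : Y 0 * Y 1 - Y 1 * Y 0 = Y 2
  c12 : Y 1 * Y 2 - Y 2 * Y 1 = Y 0
  c20 : Y 2 * Y 0 - Y 0 * Y 2 = Y 1

/-- `T = Σ q_a ⊗ Y_a` -/
def Tm : Matrix (Fin 16 × κ) (Fin 16 × κ) ℝ :=
  q G 0 ⊗ₖ Y 0 + q G 1 ⊗ₖ Y 1 + q G 2 ⊗ₖ Y 2
/-- the Casimir on colours -/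
def Cas : Matrix κ κ ℝ := -(Y 0 * Y 0 + Y 1 * Y 1 + Y 2 * Y 2)
/-- `R = Σ r_a ⊗ Y_a` -/
def Rm : Matrix (Fin 9 × κ) (Fin 9 × κ) ℝ :=
  rr 0 ⊗ₖ Y 0 + rr 1 ⊗ₖ Y 1 + rr 2 ⊗ₖ Y 2
/-- divergence -/
def Dv : Matrix (Fin 1 × κ) (Fin 9 × κ) ℝ :=
  row 0 ⊗ₖ Y 0 + row 1 ⊗ₖ Y 1 + row 2 ⊗ₖ Y 2
/-- `G_α` -/
def Gm (κ : Type*) [DecidableEq κ] (α : Fin 16) : Matrix (Fin 16 × κ) (Fin 9 × κ) ℝ :=
  gcol G α ⊗ₖ (1 : Matrix κ κ ℝ)
/-- `Γ_α` -/
def GΓ (κ : Type*) [DecidableEq κ] (α : Fin 16) : Matrix (Fin 16 × κ) (Fin 1 × κ) ℝ :=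
  gΓ G α ⊗ₖ (1 : Matrix κ κ ℝ)
/-- `W_α` -/
def Wm (α : Fin 16) : Matrix (Fin 16 × κ) (Fin 9 × κ) ℝ :=
  (1 / 3 : ℝ) • (ga G α 0 ⊗ₖ Y 0 + ga G α 1 ⊗ₖ Y 1 + ga G α 2 ⊗ₖ Y 2) -
    mc G α ⊗ₖ (1 : Matrix κ κ ℝ)
/-- projections -/
def Pa (κ : Type*) [DecidableEq κ] : Matrix (Fin 9 × κ) (Fin 9 × κ) ℝ :=
  pa ⊗ₖ (1 : Matrix κ κ ℝ)
/-- projections -/
def Pb (κ : Type*) [DecidableEq κ] : Matrix (Fin 9 × κ) (Fin 9 × κ) ℝ :=
  pb ⊗ₖ (1 : Matrix κ κ ℝ)
/-- `Γ ⊗ 1` -/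
def GG (κ : Type*) [DecidableEq κ] : Matrix (Fin 16 × κ) (Fin 16 × κ) ℝ :=
  Gam G ⊗ₖ (1 : Matrix κ κ ℝ)

variable {Y}

theorem T_sq (h : So3 Y) : Tm G Y * Tm G Y + Tm G Y = (1 : Matrix (Fin 16) (Fin 16) ℝ) ⊗ₖ Cas Y := by
  have h2 : q G 2 ⊗ₖ Y 2 = q G 2 ⊗ₖ (Y 0 * Y 1) - q G 2 ⊗ₖ (Y 1 * Y 0) := by
    rw [← kron_sub_right, h.c01]
  have h0 : q G 0 ⊗ₖ Y 0 = q G 0 ⊗ₖ (Y 1 * Y 2) - q G 0 ⊗ₖ (Y 2 * Y 1) := by
    rw [← kron_sub_right, h.c12]
  have h1 : q G 1 ⊗ₖ Y 1 = q G 1 ⊗ₖ (Y 2 * Y 0) - q G 1 ⊗ₖ (Y 0 * Y 2) := by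
    rw [← kron_sub_right, h.c20]
  have hT : Tm G Y * Tm G Y =
      -((1 : Matrix (Fin 16) (Fin 16) ℝ) ⊗ₖ (Y 0 * Y 0)) -
        (1 : Matrix (Fin 16) (Fin 16) ℝ) ⊗ₖ (Y 1 * Y 1) -
        (1 : Matrix (Fin 16) (Fin 16) ℝ) ⊗ₖ (Y 2 * Y 2) -
      q G 2 ⊗ₖ (Y 0 * Y 1) + q G 2 ⊗ₖ (Y 1 * Y 0) - q G 0 ⊗ₖ (Y 1 * Y 2) + q G 0 ⊗ₖ (Y 2 * Y 1)
      - q G 1 ⊗ₖ (Y 2 * Y 0) + q G 1 ⊗ₖ (Y 0 * Y 2) := by
    unfold Tm
    simp only [add_mul, mul_add, ← mul_kronecker_mul, q_sq, q01, q10, q12, q21, q20, q02,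
      kron_neg_left]
    abel
  rw [hT]
  unfold Tm Cas
  rw [h0, h1, h2, kron_neg_right, kronecker_add, kronecker_add]
  abel

end kron

end

end Crest.Agent.R330.Lin561
end

-- ▼ part R330/LinD_561
section

/-!
# Row 330, S5c: linear model at a fuzzy vacuum, part D: intertwining relations (helper561)
-/

set_option autoImplicit false
set_option linter.unusedSimpArgs false
set_option linter.unusedSectionVars false
set_option linter.unusedDecidableInType false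
set_option linter.unusedFintypeInType false

open Matrix Crest.MathPhysics.MatrixQM Crest.Agent.R330.Gam962 Crest.Agent.R330.Defs478
open scoped Kronecker

namespace Crest.Agent.R330.Lin561

noncomputable section

variable (G : GammaNine) {κ : Type*} [Fintype κ] [DecidableEq κ] {Y : Fin 3 → Matrix κ κ ℝ}

theorem kron_T {l m n p : Type*} (A : Matrix l m ℝ) (B : Matrix n p ℝ) :
    (A ⊗ₖ B)ᵀ = Aᵀ ⊗ₖ Bᵀ := by
  ext ⟨i, i'⟩ ⟨j, j'⟩
  rfl

/-- colour operator on the bosonic index space -/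
def c9 (B : Matrix κ κ ℝ) : Matrix (Fin 9 × κ) (Fin 9 × κ) ℝ := (1 : Matrix (Fin 9) (Fin 9) ℝ) ⊗ₖ B
/-- colour operator on the fermionic index space -/
def c16 (B : Matrix κ κ ℝ) : Matrix (Fin 16 × κ) (Fin 16 × κ) ℝ :=
  (1 : Matrix (Fin 16) (Fin 16) ℝ) ⊗ₖ B

theorem Gm_Rm (α : Fin 16) :
    Gm G κ α * Rm Y = (gcol G α * rr 0) ⊗ₖ Y 0 + (gcol G α * rr 1) ⊗ₖ Y 1 +
      (gcol G α * rr 2) ⊗ₖ Y 2 := by
  unfold Gm Rm
  simp only [Matrix.mul_add, ← mul_kronecker_mul, Matrix.one_mul]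

theorem K1 (α : Fin 16) :
    Tm G Y * Gm G κ α * Pa κ = Gm G κ α * Rm Y + GΓ G κ α * Dv Y := by
  rw [Gm_Rm]
  unfold Tm Gm Pa GΓ Dv
  simp only [Matrix.add_mul, Matrix.mul_add, ← mul_kronecker_mul, Matrix.one_mul, Matrix.mul_one,
    I1, add_kronecker]
  abel

theorem K2 (h : So3 Y) : Dv Y * Rm Y = -Dv Y := by
  have h2 : row 2 ⊗ₖ Y 2 = row 2 ⊗ₖ (Y 0 * Y 1) - row 2 ⊗ₖ (Y 1 * Y 0) := by
    rw [← kron_sub_right, h.c01]
  have h0 : row 0 ⊗ₖ Y 0 = row 0 ⊗ₖ (Y 1 * Y 2) - row 0 ⊗ₖ (Y 2 * Y 1) := by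
    rw [← kron_sub_right, h.c12]
  have h1 : row 1 ⊗ₖ Y 1 = row 1 ⊗ₖ (Y 2 * Y 0) - row 1 ⊗ₖ (Y 0 * Y 2) := by
    rw [← kron_sub_right, h.c20]
  have hL : Dv Y * Rm Y = -(row 2 ⊗ₖ (Y 0 * Y 1)) + row 2 ⊗ₖ (Y 1 * Y 0) -
      row 0 ⊗ₖ (Y 1 * Y 2) + row 0 ⊗ₖ (Y 2 * Y 1) - row 1 ⊗ₖ (Y 2 * Y 0) +
      row 1 ⊗ₖ (Y 0 * Y 2) := by
    unfold Dv Rm
    simp only [Matrix.add_mul, Matrix.mul_add, ← mul_kronecker_mul, row_rr_same, row0_rr1,
      row0_rr2, row1_rr0, row1_rr2, row2_rr0, row2_rr1, kron_neg_left, zero_kronecker]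
    abel
  rw [hL]
  unfold Dv
  rw [h0, h1, h2]
  abel

theorem K3 (α : Fin 16) :
    Wm G Y α * Pa κ = (1 / 3 : ℝ) • (GG G κ * Gm G κ α * (Pa κ + Rm Y)) := by
  have e : GG G κ * Gm G κ α * (Pa κ + Rm Y) = (Gam G * gcol G α * pa) ⊗ₖ (1 : Matrix κ κ ℝ) +
      ((Gam G * gcol G α * rr 0) ⊗ₖ Y 0 + (Gam G * gcol G α * rr 1) ⊗ₖ Y 1 +
        (Gam G * gcol G α * rr 2) ⊗ₖ Y 2) := by
    rw [Matrix.mul_add, Matrix.mul_assoc _ _ (Rm Y), Gm_Rm]
    unfold GG Gm Pa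
    simp only [Matrix.mul_add, ← mul_kronecker_mul, Matrix.one_mul, Matrix.mul_one,
      Matrix.mul_assoc]
  have e2 : (mc G α * pa) = -((1 / 3 : ℝ) • (Gam G * gcol G α * pa)) := by
    rw [← I7b, neg_neg]
  rw [e]
  unfold Wm Pa
  simp only [Matrix.sub_mul, Matrix.add_mul, Matrix.smul_mul, ← mul_kronecker_mul, Matrix.mul_one,
    I7a, e2, kron_neg_left, smul_kronecker, smul_add, sub_neg_eq_add]
  abel

theorem K4 (α : Fin 16) :
    Wm G Y α * Pb κ =
      GG G κ * ((1 / 3 : ℝ) • Tm G Y + (1 / 6 : ℝ) • 1) * Gm G κ α * Pb κ := by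
  have e2 : (mc G α * pb) = -((1 / 6 : ℝ) • (Gam G * gcol G α * pb)) := by
    rw [← I8b, neg_neg]
  have h1 : (1 : Matrix (Fin 16 × κ) (Fin 16 × κ) ℝ) =
      (1 : Matrix (Fin 16) (Fin 16) ℝ) ⊗ₖ (1 : Matrix κ κ ℝ) := one_kronecker_one.symm
  rw [h1]
  unfold Wm Pb GG Gm Tm
  simp only [Matrix.sub_mul, Matrix.add_mul, Matrix.mul_add, Matrix.smul_mul, Matrix.mul_smul,
    ← mul_kronecker_mul, Matrix.mul_one, Matrix.one_mul,
    I8a, e2, kron_neg_left, smul_kronecker, smul_add, sub_neg_eq_add]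

theorem K5 (α : Fin 16) : (Gm G κ α)ᵀ * Gm G κ α = 1 := by
  unfold Gm
  rw [kron_T, ← mul_kronecker_mul, gcol_gram, transpose_one, Matrix.one_mul,
    one_kronecker_one]

theorem Tm_transpose (h : So3 Y) : (Tm G Y)ᵀ = Tm G Y := by
  unfold Tm
  simp only [transpose_add, kron_T, q_transpose, h.anti, kron_neg_left,
    kron_neg_right, neg_neg]

theorem Rm_transpose (h : So3 Y) : (Rm Y)ᵀ = Rm Y := by
  unfold Rm
  simp only [transpose_add, kron_T, rr_transpose, h.anti, kron_neg_left,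
    kron_neg_right, neg_neg]

theorem GG_transpose : (GG G κ)ᵀ = -GG G κ := by
  unfold GG
  rw [kron_T, Gam_transpose, transpose_one, kron_neg_left]

theorem GG_sq : GG G κ * GG G κ = -1 := by
  unfold GG
  rw [← mul_kronecker_mul, Gam_sq, Matrix.one_mul, kron_neg_left, one_kronecker_one]

theorem GG_Tm : GG G κ * Tm G Y = Tm G Y * GG G κ := by
  unfold GG Tm
  simp only [Matrix.mul_add, Matrix.add_mul, ← mul_kronecker_mul, Matrix.one_mul, Matrix.mul_one,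
    Gam_q]

theorem Rm_Pa : Rm Y * Pa κ = Rm Y := by
  unfold Rm Pa
  simp only [Matrix.add_mul, ← mul_kronecker_mul, rr_pa, Matrix.mul_one]

theorem Pa_Rm : Pa κ * Rm Y = Rm Y := by
  unfold Rm Pa
  simp only [Matrix.mul_add, ← mul_kronecker_mul, pa_rr, Matrix.one_mul]

theorem Dv_Pa : Dv Y * Pa κ = Dv Y := by
  unfold Dv Pa
  simp only [Matrix.add_mul, ← mul_kronecker_mul, row_pa, Matrix.mul_one]

theorem Pa_Pa : Pa κ * Pa κ = Pa κ := by
  unfold Pa
  rw [← mul_kronecker_mul, pa_mul_pa, Matrix.one_mul]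

theorem Pa_transpose : (Pa κ)ᵀ = Pa κ := by
  unfold Pa
  rw [kron_T, pa_transpose, transpose_one]

theorem Pb_eq : Pb κ = 1 - Pa κ := by
  unfold Pb Pa pb
  rw [kron_sub_left, one_kronecker_one]

theorem Pb_transpose : (Pb κ)ᵀ = Pb κ := by
  rw [Pb_eq, transpose_sub, Pa_transpose, transpose_one]


theorem Pb_Pa : Pb κ * Pa κ = 0 := by
  rw [Pb_eq, Matrix.sub_mul, Matrix.one_mul, Pa_Pa, sub_self]

theorem Pb_Pb : Pb κ * Pb κ = Pb κ := by
  conv_lhs => rw [Pb_eq, Matrix.mul_sub, Matrix.mul_one]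
  rw [← Pb_eq, Pb_Pa, sub_zero]

theorem Pa_add_Pb : Pa κ + Pb κ = 1 := by rw [Pb_eq, add_sub_cancel]



/-! ### colour operators -/

theorem c9_mul (B C : Matrix κ κ ℝ) : c9 B * c9 C = c9 (B * C) := by
  unfold c9; rw [← mul_kronecker_mul, Matrix.one_mul]
theorem c16_mul (B C : Matrix κ κ ℝ) : c16 B * c16 C = c16 (B * C) := by
  unfold c16; rw [← mul_kronecker_mul, Matrix.one_mul]
theorem c9_one : c9 (1 : Matrix κ κ ℝ) = 1 := one_kronecker_one
theorem c16_one : c16 (1 : Matrix κ κ ℝ) = 1 := one_kronecker_one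
theorem c9_transpose (B : Matrix κ κ ℝ) : (c9 B)ᵀ = c9 Bᵀ := by
  unfold c9; rw [kron_T, transpose_one]
theorem c16_transpose (B : Matrix κ κ ℝ) : (c16 B)ᵀ = c16 Bᵀ := by
  unfold c16; rw [kron_T, transpose_one]
theorem c9_add (B C : Matrix κ κ ℝ) : c9 (B + C) = c9 B + c9 C := by
  unfold c9; rw [kronecker_add]
theorem c16_add (B C : Matrix κ κ ℝ) : c16 (B + C) = c16 B + c16 C := by
  unfold c16; rw [kronecker_add]
theorem c9_smul (r : ℝ) (B : Matrix κ κ ℝ) : c9 (r • B) = r • c9 B := by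
  unfold c9; rw [kronecker_smul]
theorem c16_smul (r : ℝ) (B : Matrix κ κ ℝ) : c16 (r • B) = r • c16 B := by
  unfold c16; rw [kronecker_smul]

theorem Gm_c9 (α : Fin 16) (B : Matrix κ κ ℝ) : Gm G κ α * c9 B = c16 B * Gm G κ α := by
  unfold Gm c9 c16
  rw [← mul_kronecker_mul, ← mul_kronecker_mul, Matrix.one_mul, Matrix.mul_one, Matrix.one_mul,
    Matrix.mul_one]

theorem GG_c16 (B : Matrix κ κ ℝ) : GG G κ * c16 B = c16 B * GG G κ := by
  unfold GG c16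
  rw [← mul_kronecker_mul, ← mul_kronecker_mul, Matrix.one_mul, Matrix.mul_one, Matrix.one_mul,
    Matrix.mul_one]

theorem Tm_c16 {B : Matrix κ κ ℝ} (hB : ∀ a, Y a * B = B * Y a) :
    Tm G Y * c16 B = c16 B * Tm G Y := by
  unfold Tm c16
  simp only [Matrix.mul_add, Matrix.add_mul, ← mul_kronecker_mul, Matrix.one_mul, Matrix.mul_one,
    hB]

theorem Rm_c9 {B : Matrix κ κ ℝ} (hB : ∀ a, Y a * B = B * Y a) :
    Rm Y * c9 B = c9 B * Rm Y := by
  unfold Rm c9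
  simp only [Matrix.mul_add, Matrix.add_mul, ← mul_kronecker_mul, Matrix.one_mul, Matrix.mul_one,
    hB]

theorem Pa_c9 (B : Matrix κ κ ℝ) : Pa κ * c9 B = c9 B * Pa κ := by
  unfold Pa c9
  rw [← mul_kronecker_mul, ← mul_kronecker_mul, Matrix.one_mul, Matrix.mul_one, Matrix.one_mul,
    Matrix.mul_one]

theorem Pb_c9 (B : Matrix κ κ ℝ) : Pb κ * c9 B = c9 B * Pb κ := by
  rw [Pb_eq, Matrix.sub_mul, Matrix.mul_sub, Pa_c9, Matrix.one_mul, Matrix.mul_one]

/-! ### the Casimir -/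

theorem Cas_comm (h : So3 Y) (a : Fin 3) : Y a * Cas Y = Cas Y * Y a := by
  have e2 := h.c01
  have e0 := h.c12
  have e1 := h.c20
  -- `[Y_a, Σ Y_b²] = 0`
  have key : Y a * (Y 0 * Y 0 + Y 1 * Y 1 + Y 2 * Y 2) =
      (Y 0 * Y 0 + Y 1 * Y 1 + Y 2 * Y 2) * Y a := by
    have s01 : Y 0 * Y 1 = Y 1 * Y 0 + Y 2 := by rw [← e2]; abel
    have s12 : Y 1 * Y 2 = Y 2 * Y 1 + Y 0 := by rw [← e0]; abel
    have s20 : Y 2 * Y 0 = Y 0 * Y 2 + Y 1 := by rw [← e1]; abel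
    fin_cases a
    · show Y 0 * (Y 0 * Y 0 + Y 1 * Y 1 + Y 2 * Y 2) = (Y 0 * Y 0 + Y 1 * Y 1 + Y 2 * Y 2) * Y 0
      have a1 : Y 0 * (Y 1 * Y 1) = Y 1 * Y 1 * Y 0 + Y 1 * Y 2 + Y 2 * Y 1 := by
        rw [← mul_assoc, s01, add_mul, mul_assoc (Y 1), s01, mul_add]
        simp only [mul_assoc]
      have a2 : Y 2 * Y 2 * Y 0 = Y 0 * (Y 2 * Y 2) + Y 1 * Y 2 + Y 2 * Y 1 := by
        rw [mul_assoc, s20, mul_add, ← mul_assoc (Y 2), s20, add_mul]
        simp only [mul_assoc]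
      rw [mul_add, mul_add, add_mul, add_mul, a1, a2, mul_assoc (Y 0)]
      abel
    · show Y 1 * (Y 0 * Y 0 + Y 1 * Y 1 + Y 2 * Y 2) = (Y 0 * Y 0 + Y 1 * Y 1 + Y 2 * Y 2) * Y 1
      have a1 : Y 1 * (Y 2 * Y 2) = Y 2 * Y 2 * Y 1 + Y 2 * Y 0 + Y 0 * Y 2 := by
        rw [← mul_assoc, s12, add_mul, mul_assoc (Y 2), s12, mul_add]
        simp only [mul_assoc]
      have a2 : Y 0 * Y 0 * Y 1 = Y 1 * (Y 0 * Y 0) + Y 2 * Y 0 + Y 0 * Y 2 := by
        rw [mul_assoc, s01, mul_add, ← mul_assoc (Y 0), s01, add_mul]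
        simp only [mul_assoc]
      rw [mul_add, mul_add, add_mul, add_mul, a1, a2, mul_assoc (Y 1)]
      abel
    · show Y 2 * (Y 0 * Y 0 + Y 1 * Y 1 + Y 2 * Y 2) = (Y 0 * Y 0 + Y 1 * Y 1 + Y 2 * Y 2) * Y 2
      have a1 : Y 2 * (Y 0 * Y 0) = Y 0 * Y 0 * Y 2 + Y 0 * Y 1 + Y 1 * Y 0 := by
        rw [← mul_assoc, s20, add_mul, mul_assoc (Y 0), s20, mul_add]
        simp only [mul_assoc]
      have a2 : Y 1 * Y 1 * Y 2 = Y 2 * (Y 1 * Y 1) + Y 0 * Y 1 + Y 1 * Y 0 := by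
        rw [mul_assoc, s12, mul_add, ← mul_assoc (Y 1), s12, add_mul]
        simp only [mul_assoc]
      rw [mul_add, mul_add, add_mul, add_mul, a1, a2, mul_assoc (Y 2)]
      abel
  unfold Cas
  rw [mul_neg, neg_mul, key]


theorem Cas_eq (h : So3 Y) :
    Cas Y = (Y 0)ᵀ * Y 0 + (Y 1)ᵀ * Y 1 + (Y 2)ᵀ * Y 2 := by
  unfold Cas
  simp only [h.anti, neg_mul]
  abel


end

end Crest.Agent.R330.Lin561
end

-- ▼ part R330/LinE_561
section

/-!
# Row 330, S5c: linear model at a fuzzy vacuum, part E: fourth roots (helper561)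

`exists_root4` : a positive definite real matrix `B` has a symmetric fourth root `P` with inverse
`Q`, commuting with everything that commutes with `B`.
-/

set_option autoImplicit false

open Matrix

namespace Crest.Agent.R330.Lin561

noncomputable section

variable {κ : Type*} [Fintype κ] [DecidableEq κ]

theorem exists_root4 {B : Matrix κ κ ℝ} (hB : B.PosDef) :
    ∃ P Q : Matrix κ κ ℝ, Pᵀ = P ∧ Qᵀ = Q ∧ P * Q = 1 ∧ Q * P = 1 ∧ P * P * (P * P) = B ∧
      ∀ X : Matrix κ κ ℝ, X * B = B * X → X * P = P * X ∧ X * Q = Q * X := by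
  classical
  have hsa : IsSelfAdjoint B := hB.isHermitian.isSelfAdjoint
  set f : ℝ → ℝ := fun x => Real.sqrt (Real.sqrt x) with hf
  set P : Matrix κ κ ℝ := cfc f B with hP
  have hsp : ∀ x ∈ spectrum ℝ B, 0 < x := by
    intro x hx
    rw [hB.isHermitian.spectrum_real_eq_range_eigenvalues] at hx
    obtain ⟨i, rfl⟩ := hx
    exact hB.eigenvalues_pos i
  have hfc : Continuous f := Real.continuous_sqrt.comp Real.continuous_sqrt
  have h4 : P * P * (P * P) = B := by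
    rw [hP, ← cfc_mul f f B hfc.continuousOn hfc.continuousOn,
      ← cfc_mul (fun x => f x * f x) (fun x => f x * f x) B (hfc.mul hfc).continuousOn
        (hfc.mul hfc).continuousOn]
    conv_rhs => rw [← cfc_id ℝ B hsa]
    refine cfc_congr fun x hx => ?_
    have hx0 := (hsp x hx).le
    simp only [hf, id, Real.mul_self_sqrt (Real.sqrt_nonneg x), Real.mul_self_sqrt hx0]
  have hPs : Pᵀ = P := by
    have : IsSelfAdjoint P := cfc_predicate f B
    have h := this.star_eq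
    rw [star_eq_conjTranspose, conjTranspose_eq_transpose_of_trivial] at h
    exact h
  have hdet : IsUnit B.det := (Matrix.isUnit_iff_isUnit_det _).mp hB.isUnit
  have hPdet : IsUnit P.det := by
    rw [← h4] at hdet
    rw [det_mul, det_mul] at hdet
    exact isUnit_of_mul_isUnit_left (isUnit_of_mul_isUnit_left hdet)
  refine ⟨P, P⁻¹, hPs, ?_, mul_nonsing_inv _ hPdet, nonsing_inv_mul _ hPdet, h4, ?_⟩
  · rw [transpose_nonsing_inv, hPs]
  · intro X hX
    have h1 : X * P = P * X := by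
      have : Commute B X := hX.symm
      exact (this.cfc_real f).symm
    refine ⟨h1, ?_⟩
    calc X * P⁻¹ = P⁻¹ * P * X * P⁻¹ := by rw [nonsing_inv_mul _ hPdet, one_mul]
      _ = P⁻¹ * (X * P) * P⁻¹ := by rw [mul_assoc P⁻¹ P X, h1]
      _ = P⁻¹ * X * (P * P⁻¹) := by simp only [mul_assoc]
      _ = P⁻¹ * X := by rw [mul_nonsing_inv _ hPdet, mul_one]

end

end Crest.Agent.R330.Lin561
end

-- ▼ part R330/LinF_561
section

/-!
# Row 330, S5c: linear model at a fuzzy vacuum, part F: the operators `S`, `I`, `A` (helper561)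

`Dat Y P Q` : `P⁴ = C + 1/4`, `Q = P⁻¹`.  `Sm = (T + 1/2) Q²`, `Im = Γ S`,
`Am = (1/3) (P_a + R)(R + P_a/2) Q² + (1/3) P_b P²`.

* `S_sq`, `S_T`, `I_sq`, `I_T`, `A_T`;
* `W_eq : W_α = I G_α A`;
* `A_DvT : A Divᵀ = 0`, `A_nonneg`, `A_ker`.
-/

set_option autoImplicit false
set_option linter.unusedSectionVars false
set_option linter.unusedDecidableInType false
set_option linter.unusedFintypeInType false

open Matrix Crest.MathPhysics.MatrixQM Crest.Agent.R330.Gam962 Crest.Agent.R330.Defs478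
open scoped Kronecker

namespace Crest.Agent.R330.Lin561

noncomputable section

variable (G : GammaNine) {κ : Type*} [Fintype κ] [DecidableEq κ] {Y : Fin 3 → Matrix κ κ ℝ}

/-- `B = C + 1/4` -/
def Bm (Y : Fin 3 → Matrix κ κ ℝ) : Matrix κ κ ℝ := Cas Y + (1 / 4 : ℝ) • 1

theorem psd_TT (X : Matrix κ κ ℝ) : (Xᵀ * X).PosSemidef := by
  rw [← conjTranspose_eq_transpose_of_trivial]
  exact posSemidef_conjTranspose_mul_self X

theorem Bm_posDef (h : So3 Y) : (Bm Y).PosDef := by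
  have h1 : (Cas Y).PosSemidef := by
    rw [Cas_eq h]
    exact ((psd_TT _).add (psd_TT _)).add (psd_TT _)
  have h2 : ((1 / 4 : ℝ) • (1 : Matrix κ κ ℝ)).PosDef := by
    exact PosDef.smul PosDef.one (by norm_num)
  exact PosDef.posSemidef_add h1 h2

/-- the data of the linear model -/
structure Dat (Y : Fin 3 → Matrix κ κ ℝ) (P Q : Matrix κ κ ℝ) : Prop where
  so : So3 Y
  PT : Pᵀ = P
  QT : Qᵀ = Q
  PQ : P * Q = 1
  QP : Q * P = 1
  P4 : P * P * (P * P) = Bm Y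
  comm : ∀ X : Matrix κ κ ℝ, X * Cas Y = Cas Y * X → X * P = P * X ∧ X * Q = Q * X

theorem exists_dat (h : So3 Y) : ∃ P Q, Dat Y P Q := by
  obtain ⟨P, Q, h1, h2, h3, h4, h5, h6⟩ := exists_root4 (Bm_posDef h)
  refine ⟨P, Q, h, h1, h2, h3, h4, h5, fun X hX => h6 X ?_⟩
  unfold Bm
  rw [Matrix.mul_add, Matrix.add_mul, hX, Matrix.mul_smul, Matrix.smul_mul, Matrix.mul_one,
    Matrix.one_mul]

variable {P Q : Matrix κ κ ℝ}

/-- `S = (T + 1/2) Q²` -/
def Sm (Y : Fin 3 → Matrix κ κ ℝ) (Q : Matrix κ κ ℝ) : Matrix (Fin 16 × κ) (Fin 16 × κ) ℝ :=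
  (Tm G Y + (1 / 2 : ℝ) • 1) * c16 (Q * Q)
/-- `I = Γ S` -/
def Im (Y : Fin 3 → Matrix κ κ ℝ) (Q : Matrix κ κ ℝ) : Matrix (Fin 16 × κ) (Fin 16 × κ) ℝ :=
  GG G κ * Sm G Y Q
/-- the first three directions -/
def Aa (Y : Fin 3 → Matrix κ κ ℝ) (Q : Matrix κ κ ℝ) : Matrix (Fin 9 × κ) (Fin 9 × κ) ℝ :=
  (Pa κ + Rm Y) * (Rm Y + (1 / 2 : ℝ) • Pa κ) * c9 (Q * Q)
/-- the last six directions -/
def Ab (P : Matrix κ κ ℝ) : Matrix (Fin 9 × κ) (Fin 9 × κ) ℝ := Pb κ * c9 (P * P)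
/-- `A` -/
def Am (Y : Fin 3 → Matrix κ κ ℝ) (P Q : Matrix κ κ ℝ) : Matrix (Fin 9 × κ) (Fin 9 × κ) ℝ :=
  (1 / 3 : ℝ) • (Aa Y Q + Ab P)

namespace Dat

variable (D : Dat Y P Q)
include D

theorem YQ (a : Fin 3) : Y a * Q = Q * Y a := (D.comm _ (Cas_comm D.so a)).2
theorem YQQ (a : Fin 3) : Y a * (Q * Q) = Q * Q * Y a := by
  rw [← Matrix.mul_assoc, D.YQ, Matrix.mul_assoc, D.YQ, Matrix.mul_assoc]

theorem PPQQ : P * P * (Q * Q) = 1 := by
  calc P * P * (Q * Q) = P * (P * Q) * Q := by simp only [Matrix.mul_assoc]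
    _ = 1 := by rw [D.PQ, Matrix.mul_one, D.PQ]
theorem QQPP : Q * Q * (P * P) = 1 := by
  calc Q * Q * (P * P) = Q * (Q * P) * P := by simp only [Matrix.mul_assoc]
    _ = 1 := by rw [D.QP, Matrix.mul_one, D.QP]

/-- `B Q⁴ = 1` -/
theorem BQQ : Bm Y * (Q * Q * (Q * Q)) = 1 := by
  rw [← D.P4]
  calc P * P * (P * P) * (Q * Q * (Q * Q)) = P * P * (P * P * (Q * Q)) * (Q * Q) := by
        simp only [Matrix.mul_assoc]
    _ = 1 := by rw [D.PPQQ, Matrix.mul_one, D.PPQQ]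

/-- `B Q² = P²` -/
theorem BQ : Bm Y * (Q * Q) = P * P := by
  rw [← D.P4, Matrix.mul_assoc, D.PPQQ, Matrix.mul_one]

theorem T_half_sq : (Tm G Y + (1 / 2 : ℝ) • 1) * (Tm G Y + (1 / 2 : ℝ) • 1) = c16 (Bm Y) := by
  have h1 : c16 (Bm Y) = Tm G Y * Tm G Y + Tm G Y + (1 / 4 : ℝ) • 1 := by
    rw [T_sq G D.so, Bm, c16_add, c16_smul, c16_one]
    rfl
  rw [h1]
  simp only [Matrix.mul_add, Matrix.add_mul, Matrix.smul_mul, Matrix.mul_smul, Matrix.mul_one,
    Matrix.one_mul]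
  module

theorem Th_c16 : (Tm G Y + (1 / 2 : ℝ) • 1) * c16 (Q * Q) = c16 (Q * Q) * (Tm G Y + (1 / 2 : ℝ) • 1) := by
  rw [Matrix.add_mul, Matrix.mul_add, Tm_c16 G D.YQQ, Matrix.smul_mul, Matrix.mul_smul,
    Matrix.one_mul, Matrix.mul_one]

theorem S_sq : Sm G Y Q * Sm G Y Q = 1 := by
  unfold Sm
  calc (Tm G Y + (1 / 2 : ℝ) • 1) * c16 (Q * Q) * ((Tm G Y + (1 / 2 : ℝ) • 1) * c16 (Q * Q))
      = (Tm G Y + (1 / 2 : ℝ) • 1) * (c16 (Q * Q) * (Tm G Y + (1 / 2 : ℝ) • 1)) * c16 (Q * Q) := by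
        simp only [Matrix.mul_assoc]
    _ = ((Tm G Y + (1 / 2 : ℝ) • 1) * (Tm G Y + (1 / 2 : ℝ) • 1)) * (c16 (Q * Q) * c16 (Q * Q)) := by
        rw [← D.Th_c16 G]; simp only [Matrix.mul_assoc]
    _ = 1 := by rw [D.T_half_sq G, c16_mul, c16_mul, D.BQQ, c16_one]

theorem S_T : (Sm G Y Q)ᵀ = Sm G Y Q := by
  unfold Sm
  rw [transpose_mul, c16_transpose, transpose_mul, D.QT, transpose_add, Tm_transpose G D.so,
    transpose_smul, transpose_one, D.Th_c16 G]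

theorem S_GG : GG G κ * Sm G Y Q = Sm G Y Q * GG G κ := by
  unfold Sm
  have e : GG G κ * (Tm G Y + (1 / 2 : ℝ) • 1) = (Tm G Y + (1 / 2 : ℝ) • 1) * GG G κ := by
    rw [Matrix.mul_add, GG_Tm, Matrix.mul_smul, Matrix.mul_one, Matrix.add_mul,
      Matrix.smul_mul, Matrix.one_mul]
  rw [← Matrix.mul_assoc, e, Matrix.mul_assoc, GG_c16, ← Matrix.mul_assoc]

theorem I_sq : Im G Y Q * Im G Y Q = -1 := by
  unfold Im
  calc GG G κ * Sm G Y Q * (GG G κ * Sm G Y Q) = GG G κ * (Sm G Y Q * GG G κ) * Sm G Y Q := by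
        simp only [Matrix.mul_assoc]
    _ = (GG G κ * GG G κ) * (Sm G Y Q * Sm G Y Q) := by
        rw [← D.S_GG G]; simp only [Matrix.mul_assoc]
    _ = -1 := by rw [GG_sq, D.S_sq G, Matrix.mul_one]

theorem I_T : (Im G Y Q)ᵀ = -Im G Y Q := by
  unfold Im
  rw [transpose_mul, D.S_T G, GG_transpose, Matrix.mul_neg, D.S_GG G]

theorem A_T : (Am Y P Q)ᵀ = Am Y P Q := by
  have h1 : (Aa Y Q)ᵀ = Aa Y Q := by
    unfold Aa
    have e1 : Rm Y * c9 (Q * Q) = c9 (Q * Q) * Rm Y := Rm_c9 D.YQQ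
    have e2 : Pa κ * c9 (Q * Q) = c9 (Q * Q) * Pa κ := Pa_c9 _
    rw [transpose_mul, transpose_mul, c9_transpose, transpose_mul, D.QT, transpose_add,
      transpose_add, Rm_transpose D.so, Pa_transpose, transpose_smul, Pa_transpose]
    have e3 : (Pa κ + Rm Y) * (Rm Y + (1 / 2 : ℝ) • Pa κ) =
        (Rm Y + (1 / 2 : ℝ) • Pa κ) * (Pa κ + Rm Y) := by
      simp only [Matrix.mul_add, Matrix.add_mul, Matrix.smul_mul, Matrix.mul_smul, Rm_Pa, Pa_Rm,
        Pa_Pa]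
      module
    have e4 : c9 (Q * Q) * (Rm Y + (1 / 2 : ℝ) • Pa κ) =
        (Rm Y + (1 / 2 : ℝ) • Pa κ) * c9 (Q * Q) := by
      rw [Matrix.mul_add, Matrix.add_mul, e1, Matrix.mul_smul, Matrix.smul_mul, e2]
    have e5 : c9 (Q * Q) * (Pa κ + Rm Y) = (Pa κ + Rm Y) * c9 (Q * Q) := by
      rw [Matrix.mul_add, Matrix.add_mul, e1, e2]
    rw [← Matrix.mul_assoc, e4, Matrix.mul_assoc, e5, ← Matrix.mul_assoc, ← e3]
  have h2 : (Ab P)ᵀ = Ab P := by
    unfold Ab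
    rw [transpose_mul, c9_transpose, transpose_mul, D.PT, Pb_transpose, Pb_c9]
  unfold Am
  rw [transpose_smul, transpose_add, h1, h2]

/-- `T G_α X = G_α R X` if `P_a X = X`, `Div X = 0`. -/
theorem T_G {m : Type*} (α : Fin 16) {X : Matrix (Fin 9 × κ) m ℝ} (h1 : Pa κ * X = X)
    (h2 : Dv Y * X = 0) : Tm G Y * (Gm G κ α * X) = Gm G κ α * (Rm Y * X) := by
  calc Tm G Y * (Gm G κ α * X) = Tm G Y * Gm G κ α * Pa κ * X := by
        rw [Matrix.mul_assoc _ (Pa κ), h1, Matrix.mul_assoc]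
    _ = Gm G κ α * (Rm Y * X) + GΓ G κ α * (Dv Y * X) := by
        rw [K1, Matrix.add_mul, Matrix.mul_assoc, Matrix.mul_assoc]
    _ = _ := by rw [h2, Matrix.mul_zero, add_zero]

include G in
/-- `(R² + R) X = C X` if `P_a X = X`, `Div X = 0`. -/
theorem RR {m : Type*} {X : Matrix (Fin 9 × κ) m ℝ} (h1 : Pa κ * X = X)
    (h2 : Dv Y * X = 0) : Rm Y * (Rm Y * X) + Rm Y * X = c9 (Cas Y) * X := by
  let α : Fin 16 := 0
  have e1 : Pa κ * (Rm Y * X) = Rm Y * X := by rw [← Matrix.mul_assoc, Pa_Rm]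
  have e2 : Dv Y * (Rm Y * X) = 0 := by
    rw [← Matrix.mul_assoc, K2 D.so, Matrix.neg_mul, h2, neg_zero]
  have e3 : Gm G κ α * (Rm Y * (Rm Y * X) + Rm Y * X) = Gm G κ α * (c9 (Cas Y) * X) := by
    rw [Matrix.mul_add, ← D.T_G G α e1 e2, ← D.T_G G α h1 h2, ← Matrix.mul_assoc (Gm G κ α),
      Gm_c9, Matrix.mul_assoc (c16 _), ← Matrix.mul_assoc (Tm G Y), ← Matrix.add_mul, T_sq G D.so]
    rfl
  have e4 := congrArg (fun Z => (Gm G κ α)ᵀ * Z) e3
  simpa only [← Matrix.mul_assoc (Gm G κ α)ᵀ, K5, Matrix.one_mul] using e4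

theorem Pa_Aa : Pa κ * Aa Y Q = Aa Y Q := by
  unfold Aa
  rw [← Matrix.mul_assoc, ← Matrix.mul_assoc, Matrix.mul_add (Pa κ), Pa_Pa, Pa_Rm]

theorem Dv_PR : Dv Y * (Pa κ + Rm Y) = 0 := by
  rw [Matrix.mul_add, Dv_Pa, K2 D.so, add_neg_cancel]

theorem Dv_Aa : Dv Y * Aa Y Q = 0 := by
  unfold Aa
  rw [← Matrix.mul_assoc, ← Matrix.mul_assoc, D.Dv_PR, Matrix.zero_mul, Matrix.zero_mul]

/-- `(T + 1/2) G_α A_a = G_α (P_a + R) P²`. -/
theorem Th_Aa (α : Fin 16) :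
    Sm G Y Q * (Gm G κ α * Aa Y Q) = Gm G κ α * (Pa κ + Rm Y) := by
  have e0 : Rm Y * c9 (Q * Q) = c9 (Q * Q) * Rm Y := Rm_c9 D.YQQ
  have e2 : Pa κ * c9 (Q * Q) = c9 (Q * Q) * Pa κ := Pa_c9 _
  -- `(R + 1/2)² (P_a + R) = B (P_a + R)`
  have k1 : Rm Y * (Rm Y * (Pa κ + Rm Y)) + Rm Y * (Pa κ + Rm Y) = c9 (Cas Y) * (Pa κ + Rm Y) :=
    D.RR G (by rw [Matrix.mul_add, Pa_Pa, Pa_Rm]) D.Dv_PR
  have k2 : (Rm Y + (1 / 2 : ℝ) • 1) * ((Rm Y + (1 / 2 : ℝ) • 1) * (Pa κ + Rm Y)) =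
      c9 (Bm Y) * (Pa κ + Rm Y) := by
    have e : c9 (Bm Y) * (Pa κ + Rm Y) =
        Rm Y * (Rm Y * (Pa κ + Rm Y)) + Rm Y * (Pa κ + Rm Y) + (1 / 4 : ℝ) • (Pa κ + Rm Y) := by
      rw [k1, Bm, c9_add, c9_smul, c9_one, Matrix.add_mul, Matrix.smul_mul, Matrix.one_mul]
    rw [e]
    simp only [Matrix.add_mul, Matrix.smul_mul, Matrix.one_mul, Matrix.mul_add, Matrix.mul_smul]
    module
  have k3 : (Pa κ + Rm Y) * (Rm Y + (1 / 2 : ℝ) • Pa κ) =
      (Rm Y + (1 / 2 : ℝ) • 1) * (Pa κ + Rm Y) := by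
    simp only [Matrix.mul_add, Matrix.add_mul, Matrix.smul_mul, Matrix.mul_smul, Rm_Pa, Pa_Rm,
      Pa_Pa, Matrix.one_mul]
    module
  calc Sm G Y Q * (Gm G κ α * Aa Y Q)
      = c16 (Q * Q) * ((Tm G Y + (1 / 2 : ℝ) • 1) * (Gm G κ α * Aa Y Q)) := by
        unfold Sm
        rw [D.Th_c16 G, Matrix.mul_assoc]
    _ = c16 (Q * Q) * (Gm G κ α * ((Rm Y + (1 / 2 : ℝ) • 1) * Aa Y Q)) := by
        rw [Matrix.add_mul, D.T_G G α D.Pa_Aa D.Dv_Aa, Matrix.add_mul, Matrix.mul_add (Gm G κ α),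
          Matrix.smul_mul, Matrix.smul_mul, Matrix.mul_smul, Matrix.one_mul, Matrix.one_mul]
    _ = c16 (Q * Q) * (Gm G κ α * (c9 (Bm Y) * (Pa κ + Rm Y) * c9 (Q * Q))) := by
        unfold Aa
        rw [k3, ← Matrix.mul_assoc (Rm Y + (1 / 2 : ℝ) • 1), k2]
    _ = Gm G κ α * (c9 (Q * Q) * (c9 (Bm Y) * (c9 (Q * Q) * (Pa κ + Rm Y)))) := by
        rw [← Matrix.mul_assoc (c16 _), ← Gm_c9, Matrix.mul_assoc (Gm G κ α)]
        have : (Pa κ + Rm Y) * c9 (Q * Q) = c9 (Q * Q) * (Pa κ + Rm Y) := by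
          rw [Matrix.mul_add, Matrix.add_mul, e0, e2]
        rw [Matrix.mul_assoc (c9 (Bm Y)), this]
    _ = Gm G κ α * (Pa κ + Rm Y) := by
        rw [← Matrix.mul_assoc (c9 (Bm Y)), c9_mul, D.BQ, ← Matrix.mul_assoc, ← Matrix.mul_assoc,
          Matrix.mul_assoc (Gm G κ α) (c9 _), c9_mul, D.QQPP, c9_one, Matrix.mul_one]

/-- `S G_α A_b = (T + 1/2) G_α P_b`. -/
theorem Th_Ab (α : Fin 16) :
    Sm G Y Q * (Gm G κ α * Ab P) = (Tm G Y + (1 / 2 : ℝ) • 1) * Gm G κ α * Pb κ := by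
  unfold Sm Ab
  rw [Pb_c9, ← Matrix.mul_assoc (Gm G κ α), Gm_c9, ← Matrix.mul_assoc, ← Matrix.mul_assoc,
    Matrix.mul_assoc (Tm G Y + (1 / 2 : ℝ) • 1) (c16 _) (c16 _), c16_mul, D.QQPP, c16_one,
    Matrix.mul_one]

/-- **`W_α = I G_α A`.** -/
theorem W_eq (α : Fin 16) : Wm G Y α = Im G Y Q * (Gm G κ α * Am Y P Q) := by
  have h1 : Im G Y Q * (Gm G κ α * Am Y P Q) =
      (1 / 3 : ℝ) • (GG G κ * (Sm G Y Q * (Gm G κ α * Aa Y Q) + Sm G Y Q * (Gm G κ α * Ab P))) := by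
    unfold Im Am
    rw [Matrix.mul_smul, Matrix.mul_smul, ← Matrix.mul_add (Sm G Y Q), ← Matrix.mul_add (Gm G κ α),
      ← Matrix.mul_assoc (GG G κ)]
  rw [h1, D.Th_Aa G, D.Th_Ab G]
  have h2 : Wm G Y α = Wm G Y α * Pa κ + Wm G Y α * Pb κ := by
    rw [← Matrix.mul_add, Pa_add_Pb, Matrix.mul_one]
  have e : ((1 / 3 : ℝ) • Tm G Y + (1 / 6 : ℝ) • (1 : Matrix (Fin 16 × κ) (Fin 16 × κ) ℝ)) =
      (1 / 3 : ℝ) • (Tm G Y + (1 / 2 : ℝ) • 1) := by
    rw [smul_add, smul_smul]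
    norm_num
  rw [h2, K3, K4, e, Matrix.mul_smul (GG G κ), Matrix.smul_mul, Matrix.smul_mul, ← smul_add,
    Matrix.mul_add (GG G κ) (Gm G κ α * _)]
  simp only [Matrix.mul_assoc]

end Dat

end

end Crest.Agent.R330.Lin561
end

-- ▼ part R330/LinG_561
section

/-!
# Row 330, S5c: linear model at a fuzzy vacuum, part G: positivity and kernel of `A` (helper561)

* `exists_normal` : solvability of the normal equations.
* `A_DvT : A Divᵀ = 0`, `A_nonneg`, `A_ker : A u = 0 ↔ ∃ z, u = Divᵀ z`.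
* `A_c9 : A` commutes with `1 ⊗ K` if `K` commutes with the `Y_a`.
-/

set_option autoImplicit false
set_option linter.unusedSectionVars false
set_option linter.unusedDecidableInType false
set_option linter.unusedFintypeInType false

open Matrix Crest.MathPhysics.MatrixQM Crest.Agent.R330.Gam962 Crest.Agent.R330.Defs478
open scoped Kronecker

namespace Crest.Agent.R330.Lin561

noncomputable section

theorem exists_normal {m n : Type*} [Fintype m] [Fintype n] [DecidableEq m] [DecidableEq n]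
    (D : Matrix m n ℝ) (u : n → ℝ) : ∃ z, D *ᵥ (u - Dᵀ *ᵥ z) = 0 := by
  have hle : LinearMap.range (D * Dᵀ).mulVecLin ≤ LinearMap.range D.mulVecLin := by
    rw [Matrix.mulVecLin_mul]
    exact LinearMap.range_comp_le_range _ _
  have heq : LinearMap.range (D * Dᵀ).mulVecLin = LinearMap.range D.mulVecLin := by
    refine Submodule.eq_of_le_of_finrank_eq hle ?_
    exact rank_self_mul_transpose D
  have hu : D *ᵥ u ∈ LinearMap.range (D * Dᵀ).mulVecLin := by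
    rw [heq]
    exact ⟨u, rfl⟩
  obtain ⟨z, hz⟩ := hu
  refine ⟨z, ?_⟩
  rw [mulVec_sub, mulVec_mulVec]
  rw [mulVecLin_apply] at hz
  rw [hz, sub_self]

variable (G : GammaNine) {κ : Type*} [Fintype κ] [DecidableEq κ] {Y : Fin 3 → Matrix κ κ ℝ}
  {P Q : Matrix κ κ ℝ}

theorem dot_self_nonneg {n : Type*} [Fintype n] (v : n → ℝ) : 0 ≤ v ⬝ᵥ v :=
  Finset.sum_nonneg fun _ _ => mul_self_nonneg _

theorem dot_T {m n : Type*} [Fintype m] [Fintype n] (D : Matrix m n ℝ) (u : m → ℝ) (v : n → ℝ) :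
    u ⬝ᵥ (D *ᵥ v) = (Dᵀ *ᵥ u) ⬝ᵥ v := by
  rw [dotProduct_mulVec, ← mulVec_transpose]

theorem dot_symm {n : Type*} [Fintype n] {D : Matrix n n ℝ} (hD : Dᵀ = D) (u v : n → ℝ) :
    u ⬝ᵥ (D *ᵥ v) = (D *ᵥ u) ⬝ᵥ v := by
  rw [dot_T, hD]

theorem dot_TT {m n : Type*} [Fintype m] [Fintype n] (X : Matrix m n ℝ) (v : n → ℝ) :
    v ⬝ᵥ ((Xᵀ * X) *ᵥ v) = (X *ᵥ v) ⬝ᵥ (X *ᵥ v) := by
  rw [← mulVec_mulVec, dot_T, transpose_transpose]

/-- Cauchy-Schwarz. -/
theorem cs {n : Type*} [Fintype n] (u v : n → ℝ) : (u ⬝ᵥ v) ^ 2 ≤ (u ⬝ᵥ u) * (v ⬝ᵥ v) := by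
  have := Finset.sum_mul_sq_le_sq_mul_sq Finset.univ u v
  simpa only [dotProduct, pow_two] using this

namespace Dat

variable (D : Dat Y P Q)
include D

theorem A_DvT : Am Y P Q * (Dv Y)ᵀ = 0 := by
  have h1 : (Dv Y) * (Am Y P Q)ᵀ = 0 := by
    rw [D.A_T, Am, Matrix.mul_smul, Matrix.mul_add, D.Dv_Aa, Ab, ← Matrix.mul_assoc,
      show Dv Y * Pb κ = 0 by rw [Pb_eq, Matrix.mul_sub, Matrix.mul_one, Dv_Pa, sub_self],
      Matrix.zero_mul, add_zero, smul_zero]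
  have h2 := congrArg transpose h1
  rwa [transpose_mul, transpose_transpose, transpose_zero] at h2

omit D in
theorem dot_Cas (h : So3 Y) (v : Fin 9 × κ → ℝ) : v ⬝ᵥ (c9 (Cas Y) *ᵥ v) =
    (c9 (Y 0) *ᵥ v) ⬝ᵥ (c9 (Y 0) *ᵥ v) + (c9 (Y 1) *ᵥ v) ⬝ᵥ (c9 (Y 1) *ᵥ v) +
      (c9 (Y 2) *ᵥ v) ⬝ᵥ (c9 (Y 2) *ᵥ v) := by
  rw [Cas_eq h, c9_add, c9_add, ← c9_mul, ← c9_mul, ← c9_mul, ← c9_transpose, ← c9_transpose,
    ← c9_transpose, add_mulVec, add_mulVec, dotProduct_add, dotProduct_add, dot_TT, dot_TT, dot_TT]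

omit D in
theorem Rm_zero {v : Fin 9 × κ → ℝ} (h : ∀ a, c9 (Y a) *ᵥ v = 0) : Rm Y *ᵥ v = 0 := by
  have e : ∀ a, (rr a ⊗ₖ Y a) *ᵥ v = 0 := by
    intro a
    have : rr a ⊗ₖ Y a = (rr a ⊗ₖ (1 : Matrix κ κ ℝ)) * c9 (Y a) := by
      unfold c9
      rw [← mul_kronecker_mul, Matrix.mul_one, Matrix.one_mul]
    rw [this, ← mulVec_mulVec, h, mulVec_zero]
  unfold Rm
  rw [add_mulVec, add_mulVec, e, e, e, add_zero, add_zero]

include G in
/-- vector form of `RR` -/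
theorem RRv {v : Fin 9 × κ → ℝ} (h1 : Pa κ *ᵥ v = v) (h2 : Dv Y *ᵥ v = 0) :
    Rm Y *ᵥ (Rm Y *ᵥ v) + Rm Y *ᵥ v = c9 (Cas Y) *ᵥ v := by
  let X : Matrix (Fin 9 × κ) Unit ℝ := replicateCol Unit v
  have e1 : Pa κ * X = X := by
    rw [← replicateCol_mulVec, h1]
  have e2 : Dv Y * X = 0 := by
    rw [← replicateCol_mulVec, h2, replicateCol_zero]
  have e3 := D.RR G e1 e2
  simp only [X, ← replicateCol_mulVec, ← replicateCol_add] at e3
  exact replicateCol_injective e3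

include G in
/-- the quadratic form on the divergence-free vectors -/
theorem form {v : Fin 9 × κ → ℝ} (h1 : Pa κ *ᵥ v = v) (h2 : Dv Y *ᵥ v = 0) :
    0 ≤ v ⬝ᵥ (((Pa κ + Rm Y) * (Rm Y + (1 / 2 : ℝ) • Pa κ)) *ᵥ v) ∧
      (v ⬝ᵥ (((Pa κ + Rm Y) * (Rm Y + (1 / 2 : ℝ) • Pa κ)) *ᵥ v) = 0 → v = 0) := by
  have hRR := D.RRv G h1 h2
  have hR := Rm_transpose D.so
  set C := c9 (Cas Y) with hC
  set r := Rm Y *ᵥ v with hr
  -- the value of the operator
  have e1 : ((Pa κ + Rm Y) * (Rm Y + (1 / 2 : ℝ) • Pa κ)) *ᵥ v =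
      C *ᵥ v + (1 / 2 : ℝ) • r + (1 / 2 : ℝ) • v := by
    have e : (Pa κ + Rm Y) * (Rm Y + (1 / 2 : ℝ) • Pa κ) =
        Rm Y * Rm Y + Rm Y + (1 / 2 : ℝ) • Rm Y + (1 / 2 : ℝ) • Pa κ := by
      simp only [Matrix.mul_add, Matrix.add_mul, Matrix.mul_smul, Rm_Pa, Pa_Rm, Pa_Pa]
      module
    rw [e, add_mulVec, add_mulVec, add_mulVec, smul_mulVec, smul_mulVec, h1, ← mulVec_mulVec,
      ← hRR]
  have hx := dot_Cas D.so v
  set x := v ⬝ᵥ (C *ᵥ v) with hxdef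
  set n := v ⬝ᵥ v with hn
  set s := v ⬝ᵥ r with hs
  have hx0 : 0 ≤ x := by
    rw [hx]
    exact add_nonneg (add_nonneg (dot_self_nonneg _) (dot_self_nonneg _)) (dot_self_nonneg _)
  have hn0 : 0 ≤ n := dot_self_nonneg _
  have e2 : v ⬝ᵥ (((Pa κ + Rm Y) * (Rm Y + (1 / 2 : ℝ) • Pa κ)) *ᵥ v) = x + 1 / 2 * s + 1 / 2 * n := by
    rw [e1, dotProduct_add, dotProduct_add, dotProduct_smul, dotProduct_smul, smul_eq_mul,
      smul_eq_mul]
  -- `|r + v/2|² = x + n/4`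
  have e3 : r ⬝ᵥ r + s = x := by
    have : v ⬝ᵥ (Rm Y *ᵥ r + r) = x := by rw [hRR]
    rw [dotProduct_add, dot_symm hR, ← hr] at this
    exact this
  have hcs := cs v (r + (1 / 2 : ℝ) • v)
  have e4 : (r + (1 / 2 : ℝ) • v) ⬝ᵥ (r + (1 / 2 : ℝ) • v) = x + 1 / 4 * n := by
    rw [dotProduct_add, add_dotProduct, add_dotProduct, dotProduct_smul, smul_dotProduct,
      smul_dotProduct, dotProduct_smul, dotProduct_comm r v]
    simp only [smul_eq_mul]
    rw [← hs, ← hn]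
    linarith
  have e5 : v ⬝ᵥ (r + (1 / 2 : ℝ) • v) = s + 1 / 2 * n := by
    rw [dotProduct_add, dotProduct_smul, smul_eq_mul]
  rw [e4, e5] at hcs
  rw [e2]
  -- with `y = s + n/2`, `t = x + n/4`: value = t + y/2
  have ht : 0 ≤ x + 1 / 4 * n := by positivity
  have hval : 0 ≤ x + 1 / 2 * s + 1 / 2 * n := by
    by_contra hneg
    push Not at hneg
    have hy : s + 1 / 2 * n < -(2 * (x + 1 / 4 * n)) := by linarith
    have : (2 * (x + 1 / 4 * n)) ^ 2 < (s + 1 / 2 * n) ^ 2 := by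
      nlinarith
    nlinarith
  refine ⟨hval, fun h0 => ?_⟩
  have hy : s + 1 / 2 * n = -(2 * (x + 1 / 4 * n)) := by linarith
  rw [hy] at hcs
  have h4 : (x + 1 / 4 * n) * (4 * x) ≤ 0 := by nlinarith
  have hnz : n = 0 := by
    rcases eq_or_lt_of_le hn0 with h | h
    · exact h.symm
    · exfalso
      have ht' : 0 < x + 1 / 4 * n := by positivity
      have hx1 : x ≤ 0 := by
        by_contra hx2
        push Not at hx2
        have : 0 < (x + 1 / 4 * n) * (4 * x) := by positivity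
        linarith
      have hx00 : x = 0 := le_antisymm hx1 hx0
      rw [hx00] at hx
      have z0 := dot_self_nonneg (c9 (Y 0) *ᵥ v)
      have z1 := dot_self_nonneg (c9 (Y 1) *ᵥ v)
      have z2 := dot_self_nonneg (c9 (Y 2) *ᵥ v)
      have w : ∀ a, c9 (Y a) *ᵥ v = 0 := by
        intro a
        fin_cases a
        · exact dotProduct_self_eq_zero.1 (by show c9 (Y 0) *ᵥ v ⬝ᵥ c9 (Y 0) *ᵥ v = 0; linarith)
        · exact dotProduct_self_eq_zero.1 (by show c9 (Y 1) *ᵥ v ⬝ᵥ c9 (Y 1) *ᵥ v = 0; linarith)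
        · exact dotProduct_self_eq_zero.1 (by show c9 (Y 2) *ᵥ v ⬝ᵥ c9 (Y 2) *ᵥ v = 0; linarith)
      have hr0 : r = 0 := Rm_zero w
      have hs0 : s = 0 := by rw [hs, hr0, dotProduct_zero]
      rw [hx00, hs0] at h0
      linarith
  exact dotProduct_self_eq_zero.1 hnz

include G in
/-- positivity and kernel -/
theorem A_form (u : Fin 9 × κ → ℝ) :
    0 ≤ u ⬝ᵥ (Am Y P Q *ᵥ u) ∧ (u ⬝ᵥ (Am Y P Q *ᵥ u) = 0 → ∃ z, u = (Dv Y)ᵀ *ᵥ z) := by
  obtain ⟨z, hz⟩ := exists_normal (Dv Y) u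
  set w := u - (Dv Y)ᵀ *ᵥ z with hw
  have hu : u = w + (Dv Y)ᵀ *ᵥ z := by rw [hw, sub_add_cancel]
  have hAz : ∀ z', Am Y P Q *ᵥ ((Dv Y)ᵀ *ᵥ z') = 0 := by
    intro z'
    rw [mulVec_mulVec, D.A_DvT, zero_mulVec]
  have e1 : u ⬝ᵥ (Am Y P Q *ᵥ u) = w ⬝ᵥ (Am Y P Q *ᵥ w) := by
    rw [hu, mulVec_add, hAz, add_zero, add_dotProduct, dotProduct_comm ((Dv Y)ᵀ *ᵥ z),
      ← dot_symm D.A_T, hAz, dotProduct_zero, add_zero]
  -- the second part
  have hb : w ⬝ᵥ (Ab P *ᵥ w) = (c9 P *ᵥ (Pb κ *ᵥ w)) ⬝ᵥ (c9 P *ᵥ (Pb κ *ᵥ w)) := by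
    have : Ab P = Pb κ * (c9 P * (c9 P * Pb κ)) := by
      unfold Ab
      rw [← Matrix.mul_assoc (c9 P), c9_mul, ← Pb_c9, ← Matrix.mul_assoc, Pb_Pb]
    have hPT : (c9 P)ᵀ = c9 P := by rw [c9_transpose, D.PT]
    rw [this, ← mulVec_mulVec, dot_symm Pb_transpose, ← mulVec_mulVec, dot_symm hPT,
      ← mulVec_mulVec]
  -- the first part
  set v := c9 Q *ᵥ (Pa κ *ᵥ w) with hv
  have hQT : (c9 Q)ᵀ = c9 Q := by rw [c9_transpose, D.QT]
  have hRQ : Rm Y * c9 Q = c9 Q * Rm Y := Rm_c9 D.YQ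
  have hPQ : Pa κ * c9 Q = c9 Q * Pa κ := Pa_c9 Q
  obtain ⟨K, hK⟩ : ∃ K, K = (Pa κ + Rm Y) * (Rm Y + (1 / 2 : ℝ) • Pa κ) := ⟨_, rfl⟩
  have hKQ : K * c9 Q = c9 Q * K := by
    have a1 : (Pa κ + Rm Y) * c9 Q = c9 Q * (Pa κ + Rm Y) := by
      rw [Matrix.mul_add, Matrix.add_mul, hRQ, hPQ]
    have a2 : (Rm Y + (1 / 2 : ℝ) • Pa κ) * c9 Q = c9 Q * (Rm Y + (1 / 2 : ℝ) • Pa κ) := by
      rw [Matrix.mul_add, Matrix.add_mul, hRQ, Matrix.mul_smul, Matrix.smul_mul, hPQ]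
    rw [hK, Matrix.mul_assoc, a2, ← Matrix.mul_assoc, a1, Matrix.mul_assoc]
  have hPaK : Pa κ * K = K := by
    rw [hK, ← Matrix.mul_assoc (Pa κ)]
    congr 1
    rw [Matrix.mul_add, Pa_Pa, Pa_Rm]
  have hKPa : K * Pa κ = K := by
    rw [hK, Matrix.mul_assoc, Matrix.add_mul (Rm Y), Matrix.smul_mul, Pa_Pa, Rm_Pa]
  have ha : w ⬝ᵥ (Aa Y Q *ᵥ w) = v ⬝ᵥ (K *ᵥ v) := by
    have : Aa Y Q = Pa κ * (c9 Q * (K * (c9 Q * Pa κ))) := by
      calc Aa Y Q = K * (c9 Q * c9 Q) := by rw [c9_mul, hK]; rfl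
        _ = K * Pa κ * (c9 Q * c9 Q) := by rw [hKPa]
        _ = c9 Q * K * (c9 Q * Pa κ) := by
          rw [Matrix.mul_assoc, ← Matrix.mul_assoc (Pa κ), hPQ, Matrix.mul_assoc (c9 Q), hPQ,
            ← Matrix.mul_assoc K, hKQ]
        _ = c9 Q * (Pa κ * K) * (c9 Q * Pa κ) := by rw [hPaK]
        _ = Pa κ * (c9 Q * (K * (c9 Q * Pa κ))) := by
          rw [← Matrix.mul_assoc (c9 Q), ← hPQ]
          simp only [Matrix.mul_assoc]
    rw [this, ← mulVec_mulVec, dot_symm Pa_transpose, ← mulVec_mulVec, dot_symm hQT,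
      ← mulVec_mulVec, ← mulVec_mulVec]
  have hv1 : Pa κ *ᵥ v = v := by
    rw [hv, mulVec_mulVec, hPQ, ← mulVec_mulVec, mulVec_mulVec w (Pa κ) (Pa κ), Pa_Pa]
  have hv2 : Dv Y *ᵥ v = 0 := by
    have hDQ : Dv Y * c9 Q = ((1 : Matrix (Fin 1) (Fin 1) ℝ) ⊗ₖ Q) * Dv Y := by
      unfold Dv c9
      simp only [Matrix.add_mul, Matrix.mul_add, ← mul_kronecker_mul, Matrix.mul_one,
        Matrix.one_mul, D.YQ]
    rw [hv, mulVec_mulVec, hDQ, ← mulVec_mulVec, mulVec_mulVec w (Dv Y) (Pa κ), Dv_Pa, hz,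
      mulVec_zero]
  obtain ⟨f1, f2⟩ := D.form G hv1 hv2
  rw [← hK, ← ha] at f1 f2
  have e2 : w ⬝ᵥ (Am Y P Q *ᵥ w) = 1 / 3 * (w ⬝ᵥ (Aa Y Q *ᵥ w) + w ⬝ᵥ (Ab P *ᵥ w)) := by
    unfold Am
    rw [smul_mulVec, add_mulVec, dotProduct_smul, dotProduct_add, smul_eq_mul]
  have f3 : 0 ≤ w ⬝ᵥ (Ab P *ᵥ w) := by rw [hb]; exact dot_self_nonneg _
  rw [e1, e2]
  refine ⟨by positivity, fun h0 => ?_⟩
  have g1 : w ⬝ᵥ (Aa Y Q *ᵥ w) = 0 := by linarith
  have g2 : w ⬝ᵥ (Ab P *ᵥ w) = 0 := by linarith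
  have g3 : v = 0 := f2 g1
  rw [hb] at g2
  have g4 : c9 P *ᵥ (Pb κ *ᵥ w) = 0 := dotProduct_self_eq_zero.1 g2
  have g5 : Pa κ *ᵥ w = 0 := by
    have := congrArg (fun t => c9 P *ᵥ t) g3
    simp only [hv, mulVec_mulVec, ← Matrix.mul_assoc, c9_mul, D.PQ, c9_one, Matrix.one_mul,
      mulVec_zero] at this
    exact this
  have g6 : Pb κ *ᵥ w = 0 := by
    have := congrArg (fun t => c9 Q *ᵥ t) g4
    simp only [mulVec_mulVec, ← Matrix.mul_assoc, c9_mul, D.QP, c9_one, Matrix.one_mul,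
      mulVec_zero] at this
    exact this
  have g7 : w = 0 := by
    have : w = Pa κ *ᵥ w + Pb κ *ᵥ w := by rw [← add_mulVec, Pa_add_Pb, one_mulVec]
    rw [this, g5, g6, add_zero]
  exact ⟨z, by rw [hu, g7, zero_add]⟩

include G in
theorem A_nonneg (u : Fin 9 × κ → ℝ) : 0 ≤ u ⬝ᵥ (Am Y P Q *ᵥ u) := (D.A_form G u).1

include G in
theorem A_ker (u : Fin 9 × κ → ℝ) : Am Y P Q *ᵥ u = 0 ↔ ∃ z, u = (Dv Y)ᵀ *ᵥ z := by
  constructor
  · intro h
    refine (D.A_form G u).2 ?_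
    rw [h, dotProduct_zero]
  · rintro ⟨z, rfl⟩
    rw [mulVec_mulVec, D.A_DvT, zero_mulVec]

/-- gauge invariance of `A` -/
theorem A_c9 {K : Matrix κ κ ℝ} (hK : ∀ a, Y a * K = K * Y a) :
    Am Y P Q * c9 K = c9 K * Am Y P Q := by
  have hC : K * Cas Y = Cas Y * K := by
    have h2 : ∀ a, K * (Y a * Y a) = Y a * Y a * K := by
      intro a
      rw [← Matrix.mul_assoc, ← hK, Matrix.mul_assoc, ← hK, Matrix.mul_assoc]
    unfold Cas
    simp only [Matrix.mul_neg, Matrix.neg_mul, Matrix.mul_add, Matrix.add_mul, h2]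
  obtain ⟨hP, hQ⟩ := D.comm K hC
  have hPP : K * (P * P) = P * P * K := by
    rw [← Matrix.mul_assoc, hP, Matrix.mul_assoc, hP, Matrix.mul_assoc]
  have hQQ : K * (Q * Q) = Q * Q * K := by
    rw [← Matrix.mul_assoc, hQ, Matrix.mul_assoc, hQ, Matrix.mul_assoc]
  have hR : Rm Y * c9 K = c9 K * Rm Y := Rm_c9 hK
  have hPa : Pa κ * c9 K = c9 K * Pa κ := Pa_c9 K
  have hPb : Pb κ * c9 K = c9 K * Pb κ := Pb_c9 K
  have a1 : (Pa κ + Rm Y) * c9 K = c9 K * (Pa κ + Rm Y) := by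
    rw [Matrix.mul_add, Matrix.add_mul, hR, hPa]
  have a2 : (Rm Y + (1 / 2 : ℝ) • Pa κ) * c9 K = c9 K * (Rm Y + (1 / 2 : ℝ) • Pa κ) := by
    rw [Matrix.mul_add, Matrix.add_mul, hR, Matrix.mul_smul, Matrix.smul_mul, hPa]
  have a3 : Aa Y Q * c9 K = c9 K * Aa Y Q := by
    unfold Aa
    rw [Matrix.mul_assoc _ (c9 (Q * Q)), c9_mul, ← hQQ, ← c9_mul, ← Matrix.mul_assoc _ (c9 K),
      Matrix.mul_assoc (Pa κ + Rm Y), a2, ← Matrix.mul_assoc (Pa κ + Rm Y), a1]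
    simp only [Matrix.mul_assoc]
  have a4 : Ab P * c9 K = c9 K * Ab P := by
    unfold Ab
    rw [Matrix.mul_assoc, c9_mul, ← hPP, ← c9_mul, ← Matrix.mul_assoc, hPb, Matrix.mul_assoc]
  unfold Am
  rw [Matrix.smul_mul, Matrix.mul_smul, Matrix.add_mul, Matrix.mul_add, a3, a4]

/-- gauge invariance of `S` -/
theorem S_c16 {K : Matrix κ κ ℝ} (hK : ∀ a, Y a * K = K * Y a) :
    Sm G Y Q * c16 K = c16 K * Sm G Y Q := by
  have hC : K * Cas Y = Cas Y * K := by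
    have h2 : ∀ a, K * (Y a * Y a) = Y a * Y a * K := by
      intro a
      rw [← Matrix.mul_assoc, ← hK, Matrix.mul_assoc, ← hK, Matrix.mul_assoc]
    unfold Cas
    simp only [Matrix.mul_neg, Matrix.neg_mul, Matrix.mul_add, Matrix.add_mul, h2]
  obtain ⟨-, hQ⟩ := D.comm K hC
  have hQQ : K * (Q * Q) = Q * Q * K := by
    rw [← Matrix.mul_assoc, hQ, Matrix.mul_assoc, hQ, Matrix.mul_assoc]
  have a1 : (Tm G Y + (1 / 2 : ℝ) • 1) * c16 K = c16 K * (Tm G Y + (1 / 2 : ℝ) • 1) := by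
    rw [Matrix.add_mul, Matrix.mul_add, Tm_c16 G hK, Matrix.smul_mul, Matrix.mul_smul,
      Matrix.one_mul, Matrix.mul_one]
  unfold Sm
  rw [Matrix.mul_assoc, c16_mul, ← hQQ, ← c16_mul, ← Matrix.mul_assoc, a1, Matrix.mul_assoc]

/-- `S` commutes with every matrix on the first factor commuting with the `q_a` -/
theorem S_kron {L : Matrix (Fin 16) (Fin 16) ℝ} (hL : ∀ a, q G a * L = L * q G a) :
    Sm G Y Q * (L ⊗ₖ (1 : Matrix κ κ ℝ)) = (L ⊗ₖ (1 : Matrix κ κ ℝ)) * Sm G Y Q := by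
  have hT : Tm G Y * (L ⊗ₖ (1 : Matrix κ κ ℝ)) = (L ⊗ₖ (1 : Matrix κ κ ℝ)) * Tm G Y := by
    unfold Tm
    simp only [Matrix.mul_add, Matrix.add_mul, ← mul_kronecker_mul, Matrix.one_mul,
      Matrix.mul_one, hL]
  have h16 : c16 (Q * Q) * (L ⊗ₖ (1 : Matrix κ κ ℝ)) = (L ⊗ₖ (1 : Matrix κ κ ℝ)) * c16 (Q * Q) := by
    unfold c16
    simp only [← mul_kronecker_mul, Matrix.one_mul, Matrix.mul_one]
  unfold Sm
  rw [Matrix.mul_assoc, h16, ← Matrix.mul_assoc, Matrix.add_mul, Matrix.smul_mul, Matrix.one_mul,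
    hT, ← Matrix.mul_assoc, Matrix.mul_add, Matrix.mul_smul, Matrix.mul_one]

end Dat

end

end Crest.Agent.R330.Lin561
end

-- ▼ part R330/NeutL_45
section

/-!
# Neutrality of a fuzzy vacuum, literal form (row 330, section 5.3), helper45

On the pair index `Idx N = Fin 16 × Fin (N^2-1)`:

* `kr K L` = `K ⊗ L`, `adE b e` = the matrix of `ad e`, `adE_comm` : `R(h)` commutes with `ad e`
  if `R(h) e = e`.
* `neutral` : `S` symmetric, `S² = 1`, commuting with `Γ ⊗ 1`, `Γ' ⊗ 1` and `1 ⊗ R(h)`; every vacuum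
  of `Γ S` (`(θ(v) - iθ(Γ S v)) Ω = 0`) is fixed by `ρ h`, if every vacuum of `Γ ⊗ 1` is.
-/

set_option autoImplicit false
set_option linter.unusedSectionVars false

noncomputable section

open scoped InnerProductSpace BigOperators

namespace Crest.Agent.R330.NeutL45

open Crest.MathPhysics.MatrixQM Crest.Agent.R330 Crest.Agent.R330.Om0331 Crest.Agent.R330.Neut45
  Crest.Agent.R330.Defs478

/-! ### Triples of Clifford generators -/

section ring

variable {A : Type*} [Ring A] {a b c d e f : A}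

theorem triple_sq (ha : a * a = 1) (hb : b * b = 1) (hc : c * c = 1) (hab : a * b = -(b * a))
    (hac : a * c = -(c * a)) (hbc : b * c = -(c * b)) : a * b * c * (a * b * c) = -1 := by
  have h1 : c * a = -(a * c) := by rw [hac, neg_neg]
  have h2 : b * a = -(a * b) := by rw [hab, neg_neg]
  have h3 : c * b = -(b * c) := by rw [hbc, neg_neg]
  calc a * b * c * (a * b * c) = a * b * (c * a) * b * c := by noncomm_ring
    _ = -(a * (b * a) * c * b * c) := by rw [h1]; noncomm_ring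
    _ = a * a * b * (c * b) * c := by rw [h2]; noncomm_ring
    _ = -(a * a * (b * b) * (c * c)) := by rw [h3]; noncomm_ring
    _ = -1 := by rw [ha, hb, hc]; noncomm_ring

theorem triple_rev (hab : a * b = -(b * a)) (hac : a * c = -(c * a)) (hbc : b * c = -(c * b)) :
    c * b * a = -(a * b * c) := by
  have h1 : c * a = -(a * c) := by rw [hac, neg_neg]
  have h2 : b * a = -(a * b) := by rw [hab, neg_neg]
  have h3 : c * b = -(b * c) := by rw [hbc, neg_neg]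
  calc c * b * a = -(b * (c * a)) := by rw [h3]; noncomm_ring
    _ = b * a * c := by rw [h1]; noncomm_ring
    _ = -(a * b * c) := by rw [h2]; noncomm_ring

theorem triple_anti (had : a * d = -(d * a)) (hbd : b * d = -(d * b)) (hcd : c * d = -(d * c)) :
    a * b * c * d = -(d * (a * b * c)) := by
  calc a * b * c * d = a * b * (c * d) := by noncomm_ring
    _ = -(a * (b * d) * c) := by rw [hcd]; noncomm_ring
    _ = a * d * b * c := by rw [hbd]; noncomm_ring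
    _ = -(d * (a * b * c)) := by rw [had]; noncomm_ring

theorem triple_triple {t : A} (hd : t * d = -(d * t)) (he : t * e = -(e * t))
    (hf : t * f = -(f * t)) : t * (d * e * f) = -(d * e * f * t) := by
  calc t * (d * e * f) = t * d * e * f := by noncomm_ring
    _ = -(d * (t * e) * f) := by rw [hd]; noncomm_ring
    _ = d * e * (t * f) := by rw [he]; noncomm_ring
    _ = -(d * e * f * t) := by rw [hf]; noncomm_ring

end ring

section gam

variable (G : GammaNine)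

/-- `Γ' = γ⁴ γ⁵ γ⁶`. -/
def Gamp (G : GammaNine) : Matrix (Fin 16) (Fin 16) ℝ := G.γ 3 * G.γ 4 * G.γ 5

theorem Gam_sq : Gam G * Gam G = -1 :=
  triple_sq (Gam962.sq_one G 0) (Gam962.sq_one G 1) (Gam962.sq_one G 2)
    (Gam962.anti G (by decide)) (Gam962.anti G (by decide)) (Gam962.anti G (by decide))

theorem Gamp_sq : Gamp G * Gamp G = -1 :=
  triple_sq (Gam962.sq_one G 3) (Gam962.sq_one G 4) (Gam962.sq_one G 5)
    (Gam962.anti G (by decide)) (Gam962.anti G (by decide)) (Gam962.anti G (by decide))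

theorem Gam_transpose : (Gam G).transpose = -Gam G := by
  unfold Gam
  rw [Matrix.transpose_mul, Matrix.transpose_mul, G.symm, G.symm, G.symm, ← Matrix.mul_assoc]
  exact triple_rev (Gam962.anti G (by decide)) (Gam962.anti G (by decide))
    (Gam962.anti G (by decide))

theorem Gamp_transpose : (Gamp G).transpose = -Gamp G := by
  unfold Gamp
  rw [Matrix.transpose_mul, Matrix.transpose_mul, G.symm, G.symm, G.symm, ← Matrix.mul_assoc]
  exact triple_rev (Gam962.anti G (by decide)) (Gam962.anti G (by decide))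
    (Gam962.anti G (by decide))

theorem Gam_Gamp : Gam G * Gamp G = -(Gamp G * Gam G) := by
  refine triple_triple ?_ ?_ ?_ <;>
    exact triple_anti (Gam962.anti G (by decide)) (Gam962.anti G (by decide))
      (Gam962.anti G (by decide))

end gam

/-! ### Tensor products on the pair index -/

section kr

variable {N : ℕ}

/-- `K ⊗ L` on the pair index. -/
def kr (K : Matrix (Fin 16) (Fin 16) ℝ) (L : Matrix (Fin (N ^ 2 - 1)) (Fin (N ^ 2 - 1)) ℝ) :
    Matrix (Idx N) (Idx N) ℝ := fun p q => K p.1 q.1 * L p.2 q.2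

theorem kr_mul (K K' : Matrix (Fin 16) (Fin 16) ℝ)
    (L L' : Matrix (Fin (N ^ 2 - 1)) (Fin (N ^ 2 - 1)) ℝ) :
    kr K L * kr K' L' = kr (K * K') (L * L') := by
  ext p q
  simp only [kr, Matrix.mul_apply, Fintype.sum_prod_type]
  rw [Finset.sum_mul_sum]
  refine Finset.sum_congr rfl fun (x : Fin 16) _ =>
    Finset.sum_congr rfl fun (y : Fin (N ^ 2 - 1)) _ => ?_
  ring

theorem tens_eq_kr (K : Matrix (Fin 16) (Fin 16) ℝ) : tens N K = kr K 1 := by
  ext p q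
  simp only [tens, kr, Matrix.one_apply, mul_ite, mul_one, mul_zero]

theorem adI_eq_kr (b : ColorBasis N) (h : Matrix.specialUnitaryGroup (Fin N) ℂ) :
    adI b h = kr 1 (Matrix.of (b.adjMat h)) := by
  ext p q
  simp only [adI, kr, Matrix.one_apply, Matrix.of_apply, ite_mul, one_mul, zero_mul]

theorem kr_transpose (K : Matrix (Fin 16) (Fin 16) ℝ)
    (L : Matrix (Fin (N ^ 2 - 1)) (Fin (N ^ 2 - 1)) ℝ) :
    (kr K L).transpose = kr K.transpose L.transpose := rfl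

theorem adI_orth (b : ColorBasis N) (h : Matrix.specialUnitaryGroup (Fin N) ℂ) :
    adI b h * (adI b h).transpose = 1 := by
  rw [adI_eq_kr, kr_transpose, kr_mul]
  have h1 : Matrix.of (b.adjMat h) * (Matrix.of (b.adjMat h)).transpose = 1 := by
    ext A B
    rw [Matrix.mul_apply, Matrix.one_apply]
    exact Col962.adjMat_orth' b h A B
  rw [h1, Matrix.transpose_one, Matrix.one_mul]
  ext p q
  simp only [kr, Matrix.one_apply, Prod.ext_iff]
  split_ifs <;> simp_all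

/-- The matrix of `ad e`: `(ad e v)_C = Σ_AB f_ABC e_A v_B`. -/
def adE (b : ColorBasis N) (e : Fin (N ^ 2 - 1) → ℝ) :
    Matrix (Fin (N ^ 2 - 1)) (Fin (N ^ 2 - 1)) ℝ :=
  fun C B => ∑ A, b.structConst A B C * e A

theorem adE_comm (b : ColorBasis N) {e : Fin (N ^ 2 - 1) → ℝ}
    {h : Matrix.specialUnitaryGroup (Fin N) ℂ} (he : ∀ C, ∑ A, b.adjMat h C A * e A = e C) :
    Matrix.of (b.adjMat h) * adE b e = adE b e * Matrix.of (b.adjMat h) := by
  ext D B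
  rw [Matrix.mul_apply, Matrix.mul_apply]
  simp only [Matrix.of_apply, adE]
  calc ∑ C, b.adjMat h D C * ∑ A, b.structConst A B C * e A
      = ∑ A, (∑ C, b.structConst A B C * b.adjMat h D C) * e A := by
        simp only [Finset.mul_sum, Finset.sum_mul]
        rw [Finset.sum_comm]
        refine Finset.sum_congr rfl fun x _ => Finset.sum_congr rfl fun y _ => ?_
        ring
    _ = ∑ A, (∑ A', ∑ B', b.adjMat h A' A * b.adjMat h B' B * b.structConst A' B' D) * e A := by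
        refine Finset.sum_congr rfl fun A _ => ?_
        rw [Col962.adjMat_struct]
    _ = ∑ B', ∑ A', b.structConst A' B' D * (∑ A, b.adjMat h A' A * e A) * b.adjMat h B' B := by
        simp only [Finset.mul_sum, Finset.sum_mul]
        calc ∑ A, ∑ A', ∑ B', b.adjMat h A' A * b.adjMat h B' B * b.structConst A' B' D * e A
            = ∑ A', ∑ A, ∑ B', b.adjMat h A' A * b.adjMat h B' B * b.structConst A' B' D * e A :=
              Finset.sum_comm
          _ = ∑ A', ∑ B', ∑ A, b.adjMat h A' A * b.adjMat h B' B * b.structConst A' B' D * e A :=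
              Finset.sum_congr rfl fun _ _ => Finset.sum_comm
          _ = ∑ B', ∑ A', ∑ A, b.adjMat h A' A * b.adjMat h B' B * b.structConst A' B' D * e A :=
              Finset.sum_comm
          _ = _ := by
              refine Finset.sum_congr rfl fun x _ => Finset.sum_congr rfl fun y _ =>
                Finset.sum_congr rfl fun z _ => ?_
              ring
    _ = ∑ B', (∑ A', b.structConst A' B' D * e A') * b.adjMat h B' B := by
        refine Finset.sum_congr rfl fun B' _ => ?_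
        rw [Finset.sum_mul]
        refine Finset.sum_congr rfl fun A' _ => ?_
        rw [he]


end kr

section neutral

variable {N : ℕ} {F : Type*} [NormedAddCommGroup F] [InnerProductSpace ℂ F]
  [FiniteDimensional ℂ F] {b : ColorBasis N} {M : FermionRep N F} (R : GaugeAction b M)

/-- **Neutrality.** -/
theorem neutral (G : GammaNine) {S : Matrix (Idx N) (Idx N) ℝ} (hS : S.transpose = S)
    (hSS : S * S = 1) (hG : S * tens N (Gam G) = tens N (Gam G) * S)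
    (hG' : S * tens N (Gamp G) = tens N (Gamp G) * S)
    {h : Matrix.specialUnitaryGroup (Fin N) ℂ} (hSh : S * adI b h = adI b h * S)
    (hfix : ∀ Ω0, IsVac (tht M) (-tens N (Gam G)) Ω0 → R.ρ h Ω0 = Ω0) {Ω : F}
    (hΩ : IsVac (tht M) (-(tens N (Gam G) * S)) Ω) : R.ρ h Ω = Ω := by
  have hX : (tens N (Gamp G * Gam G)).transpose = -tens N (Gamp G * Gam G) := by
    rw [tens_transpose, ← tens_neg]
    congr 1
    rw [Matrix.transpose_mul, Gam_transpose, Gamp_transpose, neg_mul_neg, Gam_Gamp]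
  have hXX : tens N (Gamp G * Gam G) * tens N (Gamp G * Gam G) = -1 := by
    rw [tens_mul, ← tens_one, ← tens_neg]
    congr 1
    calc Gamp G * Gam G * (Gamp G * Gam G) = Gamp G * (Gam G * Gamp G) * Gam G := by
          noncomm_ring
      _ = -(Gamp G * Gamp G * (Gam G * Gam G)) := by rw [Gam_Gamp]; noncomm_ring
      _ = -1 := by rw [Gamp_sq, Gam_sq]; noncomm_ring
  have hSX : S * tens N (Gamp G * Gam G) = tens N (Gamp G * Gam G) * S := by
    rw [← tens_mul, ← Matrix.mul_assoc, hG', Matrix.mul_assoc, hG, ← Matrix.mul_assoc]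
  set X := tens N (Gamp G * Gam G) with hXdef
  set P : Matrix (Idx N) (Idx N) ℝ := (1 / 2 : ℝ) • (1 - S) with hP
  have h12 : (1 : Matrix (Idx N) (Idx N) ℝ) - 2 * P = S := by
    have h2 : (2 : Matrix (Idx N) (Idx N) ℝ) * P = 1 - S := by
      rw [two_mul, hP, ← add_smul]
      norm_num
    rw [h2]
    abel
  have hPP : P * P = P := by
    rw [hP, Matrix.smul_mul, Matrix.mul_smul, smul_smul]
    have : (1 - S) * (1 - S) = (2 : ℝ) • (1 - S) := by
      calc (1 - S) * (1 - S) = 1 - S - S + S * S := by noncomm_ring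
        _ = (2 : ℝ) • (1 - S) := by rw [hSS, two_smul]; abel
    rw [this, smul_smul]
    norm_num
  have hJ : -tens N (Gam G) * (1 - 2 * P) = -(tens N (Gam G) * S) := by
    rw [h12, neg_mul]
  rw [← hJ] at hΩ
  refine vac_fixed (X := X) (P := P) (R := adI b h) (cliff_tht M) hX hXX ?_ hPP ?_ ?_ ?_
    (adI_orth b h) (tens_comm_adI b _ h).symm ?_ (fun k x => rho_tht R h k x) hfix hΩ
  · rw [hP, Matrix.transpose_smul, Matrix.transpose_sub, Matrix.transpose_one, hS]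
  · rw [hP, Matrix.mul_smul, Matrix.smul_mul, Matrix.mul_sub, Matrix.sub_mul, hSX,
      Matrix.mul_one, Matrix.one_mul]
  · rw [hP, Matrix.mul_smul, Matrix.smul_mul, Matrix.mul_sub, Matrix.sub_mul, mul_neg S, hG,
      Matrix.neg_mul _ S, Matrix.mul_one, Matrix.one_mul]
  · rw [hXdef, mul_neg, neg_mul, neg_neg, tens_mul, tens_mul]
    have : Gam G * (Gamp G * Gam G) = -(Gamp G * Gam G * Gam G) := by
      rw [← Matrix.mul_assoc, Gam_Gamp, Matrix.neg_mul]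
    rw [this, tens_neg]
  · rw [hP, Matrix.mul_smul, Matrix.smul_mul, Matrix.mul_sub, Matrix.sub_mul, hSh,
      Matrix.mul_one, Matrix.one_mul]

/-- The vacuum condition `(θ(v) - iθ(I v)) Ω = 0` on the basis vectors. -/
theorem isVac_neg_iff (I : Matrix (Idx N) (Idx N) ℝ) (Ω : F) :
    IsVac (tht M) (-I) Ω ↔
      ∀ k, tht M k Ω = Complex.I • ∑ l, ((I l k : ℝ) : ℂ) • tht M l Ω := by
  unfold IsVac
  refine forall_congr' fun k => ?_
  have h : -Complex.I • ∑ l, (((-I) l k : ℝ) : ℂ) • tht M l Ω =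
      Complex.I • ∑ l, ((I l k : ℝ) : ℂ) • tht M l Ω := by
    simp only [Matrix.neg_apply, Complex.ofReal_neg, neg_smul, Finset.sum_neg_distrib, smul_neg,
      neg_neg]
  rw [h]

/-- **Neutrality, closed form** (characters of `SU(N)` trivial). -/
theorem neutral_char (hchar : ∀ (χ : Matrix.specialUnitaryGroup (Fin N) ℂ →* ℂ) g, χ g = 1)
    (G : GammaNine) {S : Matrix (Idx N) (Idx N) ℝ} (hS : S.transpose = S)
    (hSS : S * S = 1) (hG : S * tens N (Gam G) = tens N (Gam G) * S)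
    (hG' : S * tens N (Gamp G) = tens N (Gamp G) * S)
    {h : Matrix.specialUnitaryGroup (Fin N) ℂ} (hSh : S * adI b h = adI b h * S) {Ω : F}
    (hΩ : ∀ k, tht M k Ω =
      Complex.I • ∑ l, (((tens N (Gam G) * S) l k : ℝ) : ℂ) • tht M l Ω) : R.ρ h Ω = Ω := by
  refine neutral R G hS hSS hG hG' hSh (fun Ω0 h0 => ?_) ((isVac_neg_iff _ _).2 hΩ)
  refine rho_fix_of_char R hchar (J := -tens N (Gam G)) (fun g => ?_) h0 h
  rw [neg_mul, mul_neg, tens_comm_adI]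

end neutral

/-! ### The operator `T = Σ_a Γγ^a ⊗ ad (3 x_a)` -/

section fT

variable {N : ℕ} (b : ColorBasis N) (G : GammaNine)

/-- `T = Σ_{a ≤ 3} Γγ^a ⊗ ad (3 x_a)`. -/
def fT (x : Cfg N) : Matrix (Idx N) (Idx N) ℝ :=
  ∑ a : Fin 3, kr (Gam G * G.γ (Fin.castLE (by decide) a))
    (adE b (fun A => 3 * x (Fin.castLE (by decide) a, A)))


theorem Gamp_gam (a : Fin 3) : G.γ (Fin.castLE (by decide) a) * Gamp G =
    -(Gamp G * G.γ (Fin.castLE (by decide) a)) := by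
  refine triple_triple ?_ ?_ ?_ <;> refine Gam962.anti G ?_ <;> fin_cases a <;> decide



theorem adE_transpose (e : Fin (N ^ 2 - 1) → ℝ) : (adE b e).transpose = -adE b e := by
  ext B C
  simp only [Matrix.transpose_apply, Matrix.neg_apply, adE, ← Finset.sum_neg_distrib]
  refine Finset.sum_congr rfl fun A _ => ?_
  rw [Col962.f_swap23, neg_mul]



end fT

end Crest.Agent.R330.NeutL45

end
end

-- ▼ part R330/NeutC_45
section

/-!
# Neutrality, no hypothesis on characters (row 330, section 5.3), helper45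
-/

set_option autoImplicit false

noncomputable section

open scoped InnerProductSpace BigOperators

namespace Crest.Agent.R330.NeutC45

open Crest.MathPhysics.MatrixQM Crest.Agent.R330 Crest.Agent.R330.Om0331 Crest.Agent.R330.Neut45
  Crest.Agent.R330.Defs478 Crest.Agent.R330.NeutL45

variable {N : ℕ} {F : Type*} [NormedAddCommGroup F] [InnerProductSpace ℂ F]
  [FiniteDimensional ℂ F] {b : ColorBasis N} {M : FermionRep N F} (R : GaugeAction b M)


/-- **Neutrality, closed form.** -/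
theorem neutral_closed (G : GammaNine) {S : Matrix (Idx N) (Idx N) ℝ} (hS : S.transpose = S)
    (hSS : S * S = 1) (hG : S * tens N (Gam G) = tens N (Gam G) * S)
    (hG' : S * tens N (Gamp G) = tens N (Gamp G) * S)
    {h : Matrix.specialUnitaryGroup (Fin N) ℂ} (hSh : S * adI b h = adI b h * S) {Ω : F}
    (hΩ : ∀ k, tht M k Ω =
      Complex.I • ∑ l, (((tens N (Gam G) * S) l k : ℝ) : ℂ) • tht M l Ω) : R.ρ h Ω = Ω :=
  neutral_char R (fun χ g => Char973.char_trivial χ g) G hS hSS hG hG' hSh hΩ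

end Crest.Agent.R330.NeutC45

end
end

-- ▼ part R330/LinH_561
section

/-!
# Row 330, S5c: linear model at a fuzzy vacuum, part H: the literal objects (helper561)

* `Yc b c a = ad(3 c_a)`; `so3_Yc : IsVacCfg b c → So3 (Yc b c)`.
* `wlin_mulVec : wlin b G c α β A u = (W_α u)_{βA}`.
* `brk_eq : brk b om c = Divᵀ (om/3)`.
* `ofM`, `AL`, `IL` : linear maps of matrices.
-/

set_option autoImplicit false
set_option linter.unusedSectionVars false

open Matrix Crest.MathPhysics.MatrixQM Crest.Agent.R330.Gam962 Crest.Agent.R330.Defs478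
open scoped Kronecker InnerProductSpace

namespace Crest.Agent.R330.Lin561

open Crest.Agent.R330.NeutL45 Crest.Agent.R330.CoerCfg87 Crest.Agent.R330.S5Defs798
open Crest.Agent.R330.Om0331 Crest.Agent.R330.Vacua303 Crest.Agent.R330.LinEx674
open Crest.Agent.R330.Weitz726

noncomputable section

variable {N : ℕ} (b : ColorBasis N)

theorem adE_mulVec (e v : Fin (N ^ 2 - 1) → ℝ) (C : Fin (N ^ 2 - 1)) :
    (adE b e *ᵥ v) C = br b e v C := by
  unfold br
  rw [mulVec, dotProduct]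
  simp only [adE, Finset.sum_mul]
  rw [Finset.sum_comm]
  refine Finset.sum_congr rfl fun A _ => Finset.sum_congr rfl fun B _ => ?_
  rw [structConst_cyc b C A B]

/-- `ad` is a representation. -/
theorem adE_br (u v : Fin (N ^ 2 - 1) → ℝ) :
    adE b u * adE b v - adE b v * adE b u = adE b (br b u v) := by
  ext D C
  rw [Matrix.sub_apply, mul_apply, mul_apply]
  have h1 : ∑ E, adE b u D E * adE b v E C =
      ∑ A, ∑ B, u A * v B * ∑ E, b.structConst A E D * b.structConst B C E := by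
    have e : ∀ E, adE b u D E * adE b v E C =
        ∑ A, ∑ B, u A * v B * (b.structConst A E D * b.structConst B C E) := by
      intro E
      unfold adE
      rw [Finset.sum_mul_sum]
      exact Finset.sum_congr rfl fun A _ => Finset.sum_congr rfl fun B _ => by ring
    simp only [e, Finset.mul_sum]
    rw [Finset.sum_comm]
    refine Finset.sum_congr rfl fun A _ => ?_
    rw [Finset.sum_comm]
  have h2 : ∑ E, adE b v D E * adE b u E C =
      ∑ A, ∑ B, u A * v B * ∑ E, b.structConst B E D * b.structConst A C E := by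
    have e : ∀ E, adE b v D E * adE b u E C =
        ∑ A, ∑ B, u A * v B * (b.structConst B E D * b.structConst A C E) := by
      intro E
      unfold adE
      rw [Finset.sum_mul_sum, Finset.sum_comm]
      exact Finset.sum_congr rfl fun A _ => Finset.sum_congr rfl fun B _ => by ring
    simp only [e, Finset.mul_sum]
    rw [Finset.sum_comm]
    refine Finset.sum_congr rfl fun A _ => ?_
    rw [Finset.sum_comm]
  have h3 : adE b (br b u v) D C =
      ∑ A, ∑ B, u A * v B * ∑ E, b.structConst A B E * b.structConst E C D := by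
    simp only [adE, br, Finset.mul_sum]
    rw [Finset.sum_comm]
    refine Finset.sum_congr rfl fun A _ => ?_
    rw [Finset.sum_comm]
    refine Finset.sum_congr rfl fun B _ => Finset.sum_congr rfl fun E _ => ?_
    rw [structConst_cyc b E A B]
    ring
  rw [h1, h2, h3, ← Finset.sum_sub_distrib]
  refine Finset.sum_congr rfl fun A _ => ?_
  rw [← Finset.sum_sub_distrib]
  refine Finset.sum_congr rfl fun B _ => ?_
  rw [← mul_sub, ← Finset.sum_sub_distrib]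
  congr 1
  have hj := Col962.jacobi b A B C D
  rw [Finset.sum_add_distrib, Finset.sum_add_distrib] at hj
  have e1 : ∑ E, (b.structConst A E D * b.structConst B C E - b.structConst B E D *
      b.structConst A C E) = -(∑ E, b.structConst B C E * b.structConst E A D) -
      ∑ E, b.structConst C A E * b.structConst E B D := by
    rw [← Finset.sum_neg_distrib, ← Finset.sum_sub_distrib]
    refine Finset.sum_congr rfl fun E _ => ?_
    rw [Col962.f_swap12 b A E D, Col962.f_swap12 b A C E, Col962.f_swap12 b B E D]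
    ring
  rw [e1]
  linarith

/-- `Y_a = ad(3 c_a)` -/
def Yc (c : Cfg N) (a : Fin 3) : Matrix (Fin (N ^ 2 - 1)) (Fin (N ^ 2 - 1)) ℝ :=
  adE b (fun A => 3 * comp c (lo a) A)

theorem so3_Yc {c : Cfg N} (hc : IsVacCfg b c) : So3 (Yc b c) := by
  rw [isVacCfg_iff] at hc
  have key : ∀ i : Fin 3, br b (fun A => 3 * comp c (lo (i + 1)) A)
      (fun A => 3 * comp c (lo (i + 2)) A) = fun A => 3 * comp c (lo i) A := by
    intro i
    funext A
    rw [br_smul_smul]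
    have := hc.1 i A
    rw [one_mul] at this
    rw [← this]
    ring
  refine ⟨fun a => adE_transpose b _, ?_, ?_, ?_⟩
  · exact (adE_br b _ _).trans (congrArg (adE b) (key 2))
  · exact (adE_br b _ _).trans (congrArg (adE b) (key 0))
  · exact (adE_br b _ _).trans (congrArg (adE b) (key 1))

theorem comp_hi {c : Cfg N} (hc : IsVacCfg b c) {j : Fin 9} (hj : 3 ≤ (j : ℕ))
    (A : Fin (N ^ 2 - 1)) : c (j, A) = 0 := by
  rw [isVacCfg_iff] at hc
  exact hc.2 j hj A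

/-- sums over the nine directions of a function vanishing on the last six -/
theorem sum9 {f : Fin 9 → ℝ} (hf : ∀ j : Fin 9, 3 ≤ (j : ℕ) → f j = 0) :
    ∑ j, f j = f (lo 0) + f (lo 1) + f (lo 2) := by
  rw [Fin.sum_univ_succ, Fin.sum_univ_succ, Fin.sum_univ_succ]
  rw [Finset.sum_eq_zero (s := Finset.univ) (f := fun i : Fin 6 => f i.succ.succ.succ)]
  · have e0 : (lo 0 : Fin 9) = 0 := rfl
    have e1 : (lo 1 : Fin 9) = Fin.succ 0 := rfl
    have e2 : (lo 2 : Fin 9) = Fin.succ (Fin.succ 0) := rfl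
    rw [e0, e1, e2, add_zero, ← add_assoc]
  · intro i _
    exact hf _ (by simp)

variable (G : GammaNine)

theorem kron_mulVec {l m n p : Type*} [Fintype m] [Fintype p] (A : Matrix l m ℝ)
    (B : Matrix n p ℝ) (u : m × p → ℝ) (i : l) (k : n) :
    ((A ⊗ₖ B) *ᵥ u) (i, k) = ∑ j, ∑ q, A i j * B k q * u (j, q) := by
  rw [mulVec, dotProduct, Fintype.sum_prod_type]
  rfl

theorem wlin_mulVec {c : Cfg N} (hc : IsVacCfg b c) (α β : Fin 16) (A : Fin (N ^ 2 - 1))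
    (u : Cfg N) :
    wlin b G c α β A u = (Wm G (Yc b c) α *ᵥ (WithLp.ofLp u)) (β, A) := by
  rw [wlin_eq]
  -- the right hand side
  have hR : (Wm G (Yc b c) α *ᵥ (WithLp.ofLp u)) (β, A) =
      (1 / 3 : ℝ) * ((∑ j, ∑ C, ga G α 0 β j * Yc b c 0 A C * u (j, C)) +
        (∑ j, ∑ C, ga G α 1 β j * Yc b c 1 A C * u (j, C)) +
        (∑ j, ∑ C, ga G α 2 β j * Yc b c 2 A C * u (j, C))) -
      ∑ j, cc j * u (j, A) * (Gam G * G.γ j) α β := by
    unfold Wm
    rw [sub_mulVec, smul_mulVec, add_mulVec, add_mulVec]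
    simp only [Pi.sub_apply, Pi.smul_apply, Pi.add_apply, kron_mulVec, smul_eq_mul]
    congr 1
    refine Finset.sum_congr rfl fun j _ => ?_
    simp only [mc, one_apply, mul_ite, mul_one, mul_zero, ite_mul, zero_mul, Finset.sum_ite_eq,
      Finset.mem_univ, if_true]
    ring
  rw [hR]
  congr 1
  -- the left hand side: the two terms agree
  have h1 : (∑ B : Fin (N ^ 2 - 1), ∑ C : Fin (N ^ 2 - 1), ∑ i : Fin 9, ∑ j : Fin 9,
      1 / 2 * b.structConst A B C * (c (i, B) * u (j, C) + u (i, B) * c (j, C)) * G.γ2 i j α β) =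
      ∑ B : Fin (N ^ 2 - 1), ∑ C : Fin (N ^ 2 - 1), ∑ i : Fin 9, ∑ j : Fin 9,
        b.structConst A B C * c (i, B) * u (j, C) * G.γ2 i j α β := by
    have h2 : (∑ B : Fin (N ^ 2 - 1), ∑ C : Fin (N ^ 2 - 1), ∑ i : Fin 9, ∑ j : Fin 9,
        1 / 2 * b.structConst A B C * u (i, B) * c (j, C) * G.γ2 i j α β) =
        ∑ B : Fin (N ^ 2 - 1), ∑ C : Fin (N ^ 2 - 1), ∑ i : Fin 9, ∑ j : Fin 9,
        1 / 2 * b.structConst A B C * c (i, B) * u (j, C) * G.γ2 i j α β := by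
      rw [Finset.sum_comm]
      refine Finset.sum_congr rfl fun C _ => Finset.sum_congr rfl fun B _ => ?_
      rw [Finset.sum_comm]
      refine Finset.sum_congr rfl fun j _ => Finset.sum_congr rfl fun i _ => ?_
      rw [Col962.f_swap23 b A C B, show G.γ2 i j α β = -G.γ2 j i α β by
        rw [g2_swap G j i, neg_apply]]
      ring
    have h3 : ∀ B C : Fin (N ^ 2 - 1), ∀ i j : Fin 9,
        1 / 2 * b.structConst A B C * (c (i, B) * u (j, C) + u (i, B) * c (j, C)) * G.γ2 i j α β =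
        1 / 2 * b.structConst A B C * c (i, B) * u (j, C) * G.γ2 i j α β +
        1 / 2 * b.structConst A B C * u (i, B) * c (j, C) * G.γ2 i j α β := by
      intro B C i j; ring
    simp only [h3, Finset.sum_add_distrib]
    rw [h2]
    simp only [← Finset.sum_add_distrib]
    refine Finset.sum_congr rfl fun B _ => Finset.sum_congr rfl fun C _ =>
      Finset.sum_congr rfl fun i _ => Finset.sum_congr rfl fun j _ => ?_
    ring
  rw [h1]
  -- reorganise: first the sum over `i`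
  have h4 : (∑ B : Fin (N ^ 2 - 1), ∑ C : Fin (N ^ 2 - 1), ∑ i : Fin 9, ∑ j : Fin 9,
      b.structConst A B C * c (i, B) * u (j, C) * G.γ2 i j α β) =
      ∑ i : Fin 9, ∑ j : Fin 9, ∑ C : Fin (N ^ 2 - 1),
        (∑ B : Fin (N ^ 2 - 1), b.structConst A B C * c (i, B)) * u (j, C) * G.γ2 i j α β := by
    calc (∑ B : Fin (N ^ 2 - 1), ∑ C : Fin (N ^ 2 - 1), ∑ i : Fin 9, ∑ j : Fin 9,
          b.structConst A B C * c (i, B) * u (j, C) * G.γ2 i j α β)
        = ∑ C : Fin (N ^ 2 - 1), ∑ i : Fin 9, ∑ j : Fin 9, ∑ B : Fin (N ^ 2 - 1),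
          b.structConst A B C * c (i, B) * u (j, C) * G.γ2 i j α β := by
          rw [Finset.sum_comm]
          refine Finset.sum_congr rfl fun C _ => ?_
          rw [Finset.sum_comm]
          refine Finset.sum_congr rfl fun i _ => ?_
          rw [Finset.sum_comm]
      _ = ∑ i : Fin 9, ∑ C : Fin (N ^ 2 - 1), ∑ j : Fin 9, ∑ B : Fin (N ^ 2 - 1),
          b.structConst A B C * c (i, B) * u (j, C) * G.γ2 i j α β := Finset.sum_comm
      _ = _ := by
          refine Finset.sum_congr rfl fun i _ => ?_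
          rw [Finset.sum_comm]
          refine Finset.sum_congr rfl fun j _ => Finset.sum_congr rfl fun C _ => ?_
          rw [Finset.sum_mul, Finset.sum_mul]
  rw [h4, sum9 (f := fun i => ∑ j : Fin 9, ∑ C : Fin (N ^ 2 - 1),
        (∑ B : Fin (N ^ 2 - 1), b.structConst A B C * c (i, B)) * u (j, C) * G.γ2 i j α β)
      (fun i hi => by
        refine Finset.sum_eq_zero fun j _ => Finset.sum_eq_zero fun C _ => ?_
        rw [Finset.sum_eq_zero fun B _ => by rw [comp_hi b hc hi, mul_zero], zero_mul, zero_mul])]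
  have h5 : ∀ a : Fin 3, (∑ j : Fin 9, ∑ C : Fin (N ^ 2 - 1),
      (∑ B : Fin (N ^ 2 - 1), b.structConst A B C * c (lo a, B)) * u (j, C) * G.γ2 (lo a) j α β) =
      (1 / 3 : ℝ) * ∑ j, ∑ C, ga G α a β j * Yc b c a A C * u (j, C) := by
    intro a
    rw [Finset.mul_sum]
    refine Finset.sum_congr rfl fun j _ => ?_
    rw [Finset.mul_sum]
    refine Finset.sum_congr rfl fun C _ => ?_
    have e : Yc b c a A C = 3 * ∑ B : Fin (N ^ 2 - 1), b.structConst A B C * c (lo a, B) := by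
      unfold Yc adE
      rw [Finset.mul_sum]
      refine Finset.sum_congr rfl fun B _ => ?_
      rw [structConst_cyc b A B C]
      unfold CoerCfg87.comp
      ring
    rw [e]
    unfold ga
    change _ = 1 / 3 * (G.γ2 (lo a) j α β * _ * _)
    ring
  rw [h5, h5, h5]
  ring

/-- gauge directions -/
theorem brk_eq {c : Cfg N} (hc : IsVacCfg b c) (z : Fin 1 × Fin (N ^ 2 - 1) → ℝ) :
    WithLp.toLp 2 ((Dv (Yc b c))ᵀ *ᵥ z) = brk b (fun A => 3 * z (0, A)) c := by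
  ext ⟨j, A⟩
  change ((Dv (Yc b c))ᵀ *ᵥ z) (j, A) = br b (fun A => 3 * z (0, A)) (comp c j) A
  have h0 : ((Dv (Yc b c))ᵀ *ᵥ z) (j, A) =
      -(row 0 0 j * (Yc b c 0 *ᵥ fun B => z (0, B)) A + row 1 0 j * (Yc b c 1 *ᵥ fun B => z (0, B)) A
        + row 2 0 j * (Yc b c 2 *ᵥ fun B => z (0, B)) A) := by
    have hT : ∀ a, (Yc b c a)ᵀ = -Yc b c a := (so3_Yc b hc).anti
    have h00 : ∀ a, ((row a ⊗ₖ Yc b c a)ᵀ *ᵥ z) (j, A) =
        -(row a 0 j * (Yc b c a *ᵥ fun B => z (0, B)) A) := by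
      intro a
      rw [kron_T, hT, kron_mulVec, Fin.sum_univ_one, mulVec, dotProduct, Finset.mul_sum,
        ← Finset.sum_neg_distrib]
      refine Finset.sum_congr rfl fun B _ => ?_
      rw [transpose_apply, Matrix.neg_apply]
      ring
    unfold Dv
    rw [transpose_add, transpose_add, add_mulVec, add_mulVec, Pi.add_apply, Pi.add_apply, h00, h00,
      h00]
    ring
  have h1 : ∀ a : Fin 3, (Yc b c a *ᵥ fun B => z (0, B)) A =
      -br b (fun A => 3 * z (0, A)) (comp c (lo a)) A := by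
    intro a
    unfold Yc
    rw [adE_mulVec]
    have e1 := br_smul_smul b 3 1 (comp c (lo a)) (fun B => z (0, B)) A
    have e2 := br_smul_smul b 3 1 (fun B => z (0, B)) (comp c (lo a)) A
    simp only [one_mul] at e1 e2
    rw [e1, e2]
    have : br b (comp c (lo a)) (fun B => z (0, B)) A =
        -br b (fun B => z (0, B)) (comp c (lo a)) A := by
      unfold br
      rw [Finset.sum_comm, ← Finset.sum_neg_distrib]
      refine Finset.sum_congr rfl fun B _ => ?_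
      rw [← Finset.sum_neg_distrib]
      refine Finset.sum_congr rfl fun C _ => ?_
      rw [Col962.f_swap23 b A B C]
      ring
    rw [this]
    ring
  rw [h0, h1, h1, h1]
  by_cases hj : (j : ℕ) < 3
  · obtain rfl | rfl | rfl : j = lo 0 ∨ j = lo 1 ∨ j = lo 2 := by
      rcases j with ⟨j, hj'⟩
      simp only at hj
      interval_cases j
      · left; rfl
      · right; left; rfl
      · right; right; rfl
    all_goals simp [row, lo]
  · have h2 : comp c j = fun _ => 0 := by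
      funext B
      exact comp_hi b hc (by omega) B
    have h3 : br b (fun A => 3 * z (0, A)) (comp c j) A = 0 := by
      rw [h2]
      unfold br
      simp
    rw [h3]
    have r : ∀ a : Fin 3, row a 0 j = 0 := by
      intro a
      unfold row
      rw [if_neg]
      omega
    rw [r, r, r]
    ring

end

end Crest.Agent.R330.Lin561
end

-- ▼ part R330/LinI_561

/-!
# Row 330, S5c: linear model at a fuzzy vacuum, part I: the vacuum package (helper561)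

* `AL X`, `IL X` : the linear maps of the matrices `X`.
* `linModel` : at every vacuum configuration there are `A`, `Ω`, `I` with
  `VacPack b M R G c A Ω`, `LinW G (wlin b G c) I A`, `IsCS I`, `bop M I v Ω = 0`.
* `vacPackProp : VacPackProp N`.
-/

set_option autoImplicit false
set_option linter.unusedSectionVars false

open Matrix Crest.MathPhysics.MatrixQM Crest.Agent.R330.Gam962 Crest.Agent.R330.Defs478
open scoped Kronecker InnerProductSpace

namespace Crest.Agent.R330.Lin561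

open Crest.Agent.R330.NeutL45 Crest.Agent.R330.CoerCfg87 Crest.Agent.R330.S5Defs798
open Crest.Agent.R330.Om0331 Crest.Agent.R330.Vacua303 Crest.Agent.R330.LinEx674
open Crest.Agent.R330.Weitz726

noncomputable section

variable {N : ℕ}

/-- a matrix as a linear map of configurations -/
def AL (X : Matrix (Fin 9 × Fin (N ^ 2 - 1)) (Fin 9 × Fin (N ^ 2 - 1)) ℝ) :
    Cfg N →ₗ[ℝ] Cfg N where
  toFun u := WithLp.toLp 2 (X *ᵥ WithLp.ofLp u)
  map_add' u v := by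
    rw [WithLp.ofLp_add, mulVec_add, WithLp.toLp_add]
  map_smul' r u := by
    rw [WithLp.ofLp_smul, mulVec_smul, WithLp.toLp_smul]
    rfl

theorem AL_apply (X : Matrix (Fin 9 × Fin (N ^ 2 - 1)) (Fin 9 × Fin (N ^ 2 - 1)) ℝ) (u : Cfg N) :
    AL X u = WithLp.toLp 2 (X *ᵥ WithLp.ofLp u) := rfl

/-- a matrix as a linear map of coefficient vectors -/
def IL (X : Matrix (Idx N) (Idx N) ℝ) : VV N →ₗ[ℝ] VV N where
  toFun v := fun β A => (X *ᵥ fun p => v p.1 p.2) (β, A)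
  map_add' u v := by
    funext β A
    have : (fun p : Idx N => (u + v) p.1 p.2) = (fun p => u p.1 p.2) + fun p => v p.1 p.2 := rfl
    rw [this, mulVec_add]
    rfl
  map_smul' r u := by
    funext β A
    have : (fun p : Idx N => (r • u) p.1 p.2) = r • fun p => u p.1 p.2 := rfl
    rw [this, mulVec_smul]
    rfl

theorem IL_apply (X : Matrix (Idx N) (Idx N) ℝ) (v : VV N) (β : Fin 16) (A : Fin (N ^ 2 - 1)) :
    IL X v β A = (X *ᵥ fun p => v p.1 p.2) (β, A) := rfl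

theorem inner_eq_dot (u v : Cfg N) : ⟪u, v⟫_ℝ = WithLp.ofLp u ⬝ᵥ WithLp.ofLp v := by
  rw [PiLp.inner_apply]
  simp only [dotProduct]
  refine Finset.sum_congr rfl fun i _ => ?_
  rw [RCLike.inner_apply, conj_trivial, mul_comm]

theorem dp_eq_dot (u v : VV N) :
    dp u v = (fun p : Idx N => u p.1 p.2) ⬝ᵥ fun p => v p.1 p.2 := by
  rw [dp_eq]
  rfl

theorem isCS_IL {X : Matrix (Idx N) (Idx N) ℝ} (hT : Xᵀ = -X) (hX : X * X = -1) : IsCS (IL X) := by
  constructor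
  · intro u v
    rw [dp_eq_dot, dp_eq_dot]
    have e : ∀ w : VV N, (fun p : Idx N => IL X w p.1 p.2) = X *ᵥ fun p => w p.1 p.2 := fun w => rfl
    rw [e, e, dot_T, mulVec_mulVec, hT, Matrix.neg_mul, hX, neg_neg, one_mulVec]
  · intro v
    funext β A
    rw [IL_apply]
    have e : (fun p : Idx N => IL X v p.1 p.2) = X *ᵥ fun p => v p.1 p.2 := rfl
    rw [e, mulVec_mulVec, hX, neg_mulVec, one_mulVec]
    rfl

variable (b : ColorBasis N) (G : GammaNine)

theorem gv_mulVec (α : Fin 16) (u : Cfg N) :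
    (fun p : Idx N => gv G α u p.1 p.2) = Gm G (Fin (N ^ 2 - 1)) α *ᵥ WithLp.ofLp u := by
  funext ⟨β, A⟩
  unfold Gm
  rw [kron_mulVec]
  change gv G α u β A = _
  rw [gv_apply]
  refine Finset.sum_congr rfl fun j _ => ?_
  simp only [gcol, one_apply, mul_ite, mul_one, mul_zero, ite_mul, zero_mul, Finset.sum_ite_eq,
    Finset.mem_univ, if_true]

/-- **`W = I γ A`.** -/
theorem linW {c : Cfg N} (hc : IsVacCfg b c)
    {P Q : Matrix (Fin (N ^ 2 - 1)) (Fin (N ^ 2 - 1)) ℝ} (D : Dat (Yc b c) P Q) :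
    LinW G (wlin b G c) (IL (Im G (Yc b c) Q)) (AL (Am (Yc b c) P Q)) := by
  intro α x
  funext β a
  rw [wlin_mulVec b G hc, IL_apply, gv_mulVec, AL_apply, D.W_eq G α, ← mulVec_mulVec,
    ← mulVec_mulVec]

theorem tens_eq_kron (K : Matrix (Fin 16) (Fin 16) ℝ) :
    tens N K = K ⊗ₖ (1 : Matrix (Fin (N ^ 2 - 1)) (Fin (N ^ 2 - 1)) ℝ) := by
  rw [tens_eq_kr]
  rfl

theorem act_eq (h : Matrix.specialUnitaryGroup (Fin N) ℂ) (u : Cfg N) :
    b.act h u = WithLp.toLp 2 (c9 (Matrix.of (b.adjMat h)) *ᵥ WithLp.ofLp u) := by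
  ext ⟨i, A⟩
  change b.act h u (i, A) = (c9 (Matrix.of (b.adjMat h)) *ᵥ WithLp.ofLp u) (i, A)
  unfold c9
  rw [kron_mulVec, Col962.act_apply, Finset.sum_eq_single i]
  · refine Finset.sum_congr rfl fun B _ => ?_
    rw [one_apply_eq, one_mul, of_apply]
  · intro j _ hj
    refine Finset.sum_eq_zero fun B _ => ?_
    rw [one_apply_ne (Ne.symm hj), zero_mul, zero_mul]
  · intro h; exact absurd (Finset.mem_univ _) h

theorem Yc_comm {c : Cfg N} {h : Matrix.specialUnitaryGroup (Fin N) ℂ} (hx : b.act h c = c)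
    (a : Fin 3) : Yc b c a * Matrix.of (b.adjMat h) = Matrix.of (b.adjMat h) * Yc b c a := by
  refine (adE_comm b fun C => ?_).symm
  have h1 : b.act h c (lo a, C) = c (lo a, C) := by rw [hx]
  rw [Col962.act_apply] at h1
  unfold CoerCfg87.comp
  calc ∑ A, b.adjMat h C A * (3 * c (lo a, A))
      = 3 * ∑ A, b.adjMat h C A * c (lo a, A) := by
        rw [Finset.mul_sum]
        exact Finset.sum_congr rfl fun A _ => by ring
    _ = 3 * c (lo a, C) := by rw [h1]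

theorem q_Gamp (a : Fin 3) : q G a * Gamp G = Gamp G * q G a := by
  unfold q
  rw [Matrix.mul_assoc, Gamp_gam, Matrix.mul_neg, ← Matrix.mul_assoc, Gam_Gamp, Matrix.neg_mul,
    neg_neg, Matrix.mul_assoc]

section

variable {F : Type*} [NormedAddCommGroup F] [InnerProductSpace ℂ F]

/-- derivative of the Gaussian -/
theorem fderiv_gau {A : Cfg N →ₗ[ℝ] Cfg N} (hA : ∀ u v, ⟪A u, v⟫_ℝ = ⟪u, A v⟫_ℝ) (Ω : F)
    (x v : Cfg N) :
    fderiv ℝ (gau A Ω) x v = (-⟪A x, v⟫_ℝ * Real.exp (-(1 / 2) * ⟪x, A x⟫_ℝ)) • Ω := by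
  let Ac : Cfg N →L[ℝ] Cfg N := LinearMap.toContinuousLinearMap A
  have h1 : HasFDerivAt (fun u : Cfg N => ⟪u, A u⟫_ℝ)
      ((fderivInnerCLM ℝ (x, A x)).comp ((ContinuousLinearMap.id ℝ (Cfg N)).prod Ac)) x :=
    (hasFDerivAt_id x).inner ℝ Ac.hasFDerivAt
  have h2 := ((h1.const_mul (-(1 / 2 : ℝ))).exp).smul_const Ω
  have h3 : fderiv ℝ (gau A Ω) x = _ := h2.fderiv
  rw [h3]
  simp only [ContinuousLinearMap.smulRight_apply, _root_.smul_apply, smul_eq_mul,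
    ContinuousLinearMap.comp_apply, ContinuousLinearMap.prod_apply, fderivInnerCLM_apply,
    ContinuousLinearMap.id_apply]
  congr 1
  have e1 : ⟪x, Ac v⟫_ℝ = ⟪A x, v⟫_ℝ := (hA x v).symm
  have e2 : ⟪v, A x⟫_ℝ = ⟪A x, v⟫_ℝ := real_inner_comm _ _
  rw [e1, e2]
  ring

theorem real_smul_eq (r : ℝ) (v : F) : r • v = ((r : ℝ) : ℂ) • v := (Complex.coe_smul r v).symm

/-- the kinetic part on a Gaussian -/
theorem kin_gau {A : Cfg N →ₗ[ℝ] Cfg N} (hA : ∀ u v, ⟪A u, v⟫_ℝ = ⟪u, A v⟫_ℝ)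
    (M : FermionRep N F) (Ω : F) (α : Fin 16) (x : Cfg N) :
    kin M G α (gau A Ω) x =
      (Complex.I * ((Real.exp (-(1 / 2) * ⟪x, A x⟫_ℝ) : ℝ) : ℂ)) • Th M (gv G α (A x)) Ω := by
  unfold kin
  have h1 : ∀ (i : Fin 9) (B : Fin (N ^ 2 - 1)),
      fderiv ℝ (gau A Ω) x (EuclideanSpace.single (i, B) 1) =
        ((-(A x (i, B)) * Real.exp (-(1 / 2) * ⟪x, A x⟫_ℝ) : ℝ) : ℂ) • Ω := by
    intro i B
    rw [fderiv_gau hA, EuclideanSpace.inner_single_right, real_smul_eq]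
    simp
  simp only [h1, map_smul, smul_smul, Th_apply, Finset.smul_sum]
  calc ∑ i : Fin 9, ∑ B : Fin (N ^ 2 - 1), ∑ β : Fin 16,
        ((-Complex.I * (G.γ i α β : ℂ)) *
          ((-(A x (i, B)) * Real.exp (-(1 / 2) * ⟪x, A x⟫_ℝ) : ℝ) : ℂ)) • M.θ β B Ω
      = ∑ β : Fin 16, ∑ B : Fin (N ^ 2 - 1), ∑ i : Fin 9,
        ((-Complex.I * (G.γ i α β : ℂ)) *
          ((-(A x (i, B)) * Real.exp (-(1 / 2) * ⟪x, A x⟫_ℝ) : ℝ) : ℂ)) • M.θ β B Ω := by
        calc _ = ∑ B : Fin (N ^ 2 - 1), ∑ i : Fin 9, ∑ β : Fin 16,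
              ((-Complex.I * (G.γ i α β : ℂ)) *
              ((-(A x (i, B)) * Real.exp (-(1 / 2) * ⟪x, A x⟫_ℝ) : ℝ) : ℂ)) • M.θ β B Ω :=
                Finset.sum_comm
          _ = ∑ B : Fin (N ^ 2 - 1), ∑ β : Fin 16, ∑ i : Fin 9,
              ((-Complex.I * (G.γ i α β : ℂ)) *
              ((-(A x (i, B)) * Real.exp (-(1 / 2) * ⟪x, A x⟫_ℝ) : ℝ) : ℂ)) • M.θ β B Ω :=
                Finset.sum_congr rfl fun _ _ => Finset.sum_comm
          _ = _ := Finset.sum_comm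
    _ = _ := by
        refine Finset.sum_congr rfl fun β _ => Finset.sum_congr rfl fun B _ => ?_
        rw [← Finset.sum_smul]
        congr 1
        rw [gv_apply]
        push_cast
        rw [Finset.mul_sum]
        refine Finset.sum_congr rfl fun i _ => ?_
        ring

/-- the linearised charges kill the Gaussian -/
theorem kill_gau {A : Cfg N →ₗ[ℝ] Cfg N} (hA : ∀ u v, ⟪A u, v⟫_ℝ = ⟪u, A v⟫_ℝ)
    (M : FermionRep N F) {I : VV N →ₗ[ℝ] VV N} {c : Cfg N} (hW : LinW G (wlin b G c) I A)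
    {Ω : F} (hΩ : ∀ v, Th M v Ω = Complex.I • Th M (I v) Ω) (α : Fin 16) (x : Cfg N) :
    lcharge b M G c α (gau A Ω) x = 0 := by
  unfold lcharge
  rw [kin_gau G hA, hΩ]
  have h1 : ∑ B : Fin (N ^ 2 - 1), ∑ β : Fin 16,
      ((wlin b G c α β B x : ℝ) : ℂ) • M.θ β B (gau A Ω x) =
      ((Real.exp (-(1 / 2) * ⟪x, A x⟫_ℝ) : ℝ) : ℂ) • Th M (I (gv G α (A x))) Ω := by
    rw [← hW α x, Th_apply, Finset.smul_sum, Finset.sum_comm]
    refine Finset.sum_congr rfl fun β _ => ?_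
    rw [Finset.smul_sum]
    refine Finset.sum_congr rfl fun B _ => ?_
    unfold gau
    rw [real_smul_eq, map_smul, smul_comm]
  rw [h1, smul_smul, ← add_smul]
  have : Complex.I * ((Real.exp (-(1 / 2) * ⟪x, A x⟫_ℝ) : ℝ) : ℂ) * Complex.I +
      ((Real.exp (-(1 / 2) * ⟪x, A x⟫_ℝ) : ℝ) : ℂ) = 0 := by
    have hI := Complex.I_mul_I
    linear_combination ((Real.exp (-(1 / 2) * ⟪x, A x⟫_ℝ) : ℝ) : ℂ) * hI
  rw [this, zero_smul]

/-- the vacuum condition on all vectors -/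
theorem vac_vec (M : FermionRep N F) {X : Matrix (Idx N) (Idx N) ℝ} {Ω : F}
    (h : ∀ k, tht M k Ω = Complex.I • ∑ l, ((X l k : ℝ) : ℂ) • tht M l Ω) (v : VV N) :
    Th M v Ω = Complex.I • Th M (IL X v) Ω := by
  rw [Th_apply', Th_apply', Finset.smul_sum]
  have h1 : ∀ k : Idx N, ((v k.1 k.2 : ℝ) : ℂ) • M.θ k.1 k.2 Ω =
      ∑ l : Idx N, (Complex.I * ((X l k * v k.1 k.2 : ℝ) : ℂ)) • M.θ l.1 l.2 Ω := by
    intro k
    have := h k
    unfold tht at this
    rw [this, smul_comm, Finset.smul_sum, Finset.smul_sum]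
    refine Finset.sum_congr rfl fun l _ => ?_
    rw [smul_smul, smul_smul]
    congr 1
    push_cast
    ring
  simp only [h1]
  rw [Finset.sum_comm]
  refine Finset.sum_congr rfl fun l _ => ?_
  rw [← Finset.sum_smul, smul_smul]
  congr 1
  change _ = Complex.I * (((X *ᵥ fun p : Idx N => v p.1 p.2) l : ℝ) : ℂ)
  rw [mulVec, dotProduct]
  push_cast
  rw [Finset.mul_sum]

end

/-- **The linear model at a vacuum configuration.** -/
theorem linModel {F : Type} [NormedAddCommGroup F] [InnerProductSpace ℂ F]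
    [FiniteDimensional ℂ F] [Nontrivial F] (M : FermionRep N F) (R : GaugeAction b M)
    (c : Cfg N) (hc : IsVacCfg b c) :
    ∃ (A : Cfg N →ₗ[ℝ] Cfg N) (Ω : F) (I : VV N →ₗ[ℝ] VV N), VacPack b M R G c A Ω ∧
      LinW G (wlin b G c) I A ∧ IsCS I ∧ ∀ v, bop M I v Ω = 0 := by
  obtain ⟨P, Q, D⟩ := exists_dat (so3_Yc b hc)
  set X : Matrix (Idx N) (Idx N) ℝ := Im G (Yc b c) Q with hX
  have hXT : Xᵀ = -X := D.I_T G
  have hXX : X * X = -1 := D.I_sq G
  obtain ⟨Ω₀, h0, hvac⟩ := Neut45.exists_vac (cliff_tht M) (J := -X)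
    (by rw [transpose_neg, hXT]) (by rw [neg_mul_neg, hXX])
  set Ω : F := ((‖Ω₀‖⁻¹ : ℝ) : ℂ) • Ω₀ with hΩdef
  have hunit : ‖Ω‖ = 1 := by
    rw [hΩdef, norm_smul, Complex.norm_real, norm_inv, norm_norm,
      inv_mul_cancel₀ (norm_ne_zero_iff.2 h0)]
  have hvac' : Neut45.IsVac (tht M) (-X) Ω := by
    rw [Om0331.isVac_iff] at hvac ⊢
    intro k
    rw [hΩdef, map_smul, hvac k, smul_zero]
  have hk := (isVac_neg_iff (M := M) X Ω).1 hvac'
  have hvec := vac_vec M hk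
  have hA : ∀ u v, ⟪AL (Am (Yc b c) P Q) u, v⟫_ℝ = ⟪u, AL (Am (Yc b c) P Q) v⟫_ℝ := by
    intro u v
    rw [inner_eq_dot, inner_eq_dot, AL_apply, AL_apply]
    exact (dot_symm D.A_T _ _).symm
  have hW := linW b G hc D
  refine ⟨AL (Am (Yc b c) P Q), Ω, IL X, ?_, hW, isCS_IL hXT hXX, fun v => ?_⟩
  · refine ⟨hA, fun u => ?_, fun u => ?_, fun h hh u => ?_, hunit, fun h hh => ?_, fun α x => ?_⟩
    · rw [inner_eq_dot, AL_apply]
      exact D.A_nonneg G _
    · have e1 : AL (Am (Yc b c) P Q) u = 0 ↔ Am (Yc b c) P Q *ᵥ WithLp.ofLp u = 0 := by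
        rw [AL_apply]
        constructor
        · intro h
          exact (WithLp.toLp_injective 2) h
        · intro h
          rw [h]
          rfl
      rw [e1, D.A_ker G]
      constructor
      · rintro ⟨z, hz⟩
        refine ⟨fun A => 3 * z (0, A), ?_⟩
        rw [← brk_eq b hc, ← hz]
      · rintro ⟨om, hom⟩
        refine ⟨fun p => om p.2 / 3, ?_⟩
        have e2 := brk_eq b hc (fun p => om p.2 / 3)
        have e3 : (fun A => 3 * ((fun p : Fin 1 × Fin (N ^ 2 - 1) => om p.2 / 3) (0, A))) = om := by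
          funext A
          simp only
          ring
        rw [e3, ← hom] at e2
        rw [← e2]
    · rw [AL_apply, AL_apply, act_eq, act_eq]
      congr 1
      rw [mulVec_mulVec, D.A_c9 (Yc_comm b hh), ← mulVec_mulVec]
    · refine NeutC45.neutral_closed R G (S := Sm G (Yc b c) Q) (D.S_T G) (D.S_sq G) ?_ ?_ ?_ ?_
      · rw [tens_eq_kron]
        exact (D.S_GG G).symm
      · rw [tens_eq_kron]
        exact D.S_kron G (q_Gamp G)
      · rw [adI_eq_kr]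
        exact D.S_c16 G (Yc_comm b hh)
      · rw [tens_eq_kron]
        exact hk
    · exact kill_gau b G hA M hW hvec α x
  · rw [bop_apply, ← hvec v, sub_self]

theorem vacPackProp (N : ℕ) : VacPackProp N := by
  intro F _ _ _ _ b M R G c hc
  obtain ⟨A, Ω, I, h, -⟩ := linModel b G M R c hc
  exact ⟨A, Ω, h⟩

end

end Crest.Agent.R330.Lin561
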