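import Crest.Agent.R330.IBP_837

/-!
Row 330 (helper350): mollification in `L²` of `F`-valued functions, and "weak = strong" for first
order operators `D φ = Σ_k a_k (-i ∂_k φ) + V φ` with a Lipschitz matrix potential `V`, for
compactly supported `L²` functions (all charges of a finite family at once).
-/

set_option autoImplicit false
set_option linter.unusedSectionVars false
set_option linter.deprecated false

noncomputable section

namespace Crest.Agent.R330.Moll350

open MeasureTheory Filter Topology Crest.Agent.R330.IBP837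
open scoped ContDiff InnerProductSpace ENNReal Convolution

/-! ### 1. A Schur bound -/

section Schur

variable {X : Type*} [MeasurableSpace X] {μ : Measure X}

/-- Cauchy-Schwarz with a weight. -/
theorem cs_sq {k h : X → ℝ≥0∞} (hk : AEMeasurable k μ) (hh : AEMeasurable h μ) :
    (∫⁻ x, k x * h x ∂μ) ^ 2 ≤ (∫⁻ x, k x ∂μ) * ∫⁻ x, k x * h x ^ 2 ∂μ := by
  have e1 : ∀ x, k x * h x = (fun x => k x ^ (1 / 2 : ℝ)) x * (fun x => k x ^ (1 / 2 : ℝ) * h x) x := by
    intro x
    simp only
    rw [← mul_assoc, ← ENNReal.rpow_add_of_nonneg _ _ (by norm_num) (by norm_num)]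
    norm_num
  have hH := ENNReal.lintegral_mul_le_Lp_mul_Lq μ (p := 2) (q := 2) (by constructor <;> norm_num)
    (hk.pow_const (1 / 2 : ℝ)) ((hk.pow_const (1 / 2 : ℝ)).mul hh)
  have e2 : ∀ x, (k x ^ (1 / 2 : ℝ)) ^ (2 : ℝ) = k x := by
    intro x
    rw [← ENNReal.rpow_mul]; norm_num
  have e3 : ∀ x, (k x ^ (1 / 2 : ℝ) * h x) ^ (2 : ℝ) = k x * h x ^ 2 := by
    intro x
    rw [ENNReal.mul_rpow_of_nonneg _ _ (by norm_num), e2]
    norm_num
  have hH' : ∫⁻ x, k x * h x ∂μ ≤
      (∫⁻ x, k x ∂μ) ^ (1 / 2 : ℝ) * (∫⁻ x, k x * h x ^ 2 ∂μ) ^ (1 / 2 : ℝ) := by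
    calc ∫⁻ x, k x * h x ∂μ = ∫⁻ x, ((fun x => k x ^ (1 / 2 : ℝ)) *
          (fun x => k x ^ (1 / 2 : ℝ) * h x)) x ∂μ := by
          refine lintegral_congr fun x => ?_
          exact e1 x
      _ ≤ _ := by
          refine hH.trans (le_of_eq ?_)
          congr 2
          · congr 1
            exact funext fun x => e2 x
          · congr 1
            exact funext fun x => e3 x
  calc (∫⁻ x, k x * h x ∂μ) ^ 2 ≤
      ((∫⁻ x, k x ∂μ) ^ (1 / 2 : ℝ) * (∫⁻ x, k x * h x ^ 2 ∂μ) ^ (1 / 2 : ℝ)) ^ 2 := by
        gcongr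
    _ = _ := by
        rw [mul_pow, ← ENNReal.rpow_natCast, ← ENNReal.rpow_natCast, ← ENNReal.rpow_mul,
          ← ENNReal.rpow_mul]
        norm_num

theorem schur_sq [SFinite μ] {K : X → X → ℝ≥0∞} (hK : Measurable (Function.uncurry K))
    (h1 : ∀ x, ∫⁻ y, K x y ∂μ ≤ 1) (h2 : ∀ y, ∫⁻ x, K x y ∂μ ≤ 1) {h : X → ℝ≥0∞}
    (hh : AEMeasurable h μ) :
    ∫⁻ x, (∫⁻ y, K x y * h y ∂μ) ^ 2 ∂μ ≤ ∫⁻ y, h y ^ 2 ∂μ := by
  have hKx : ∀ x, Measurable (K x) := fun x => hK.comp measurable_prodMk_left
  have hKy : ∀ y, Measurable fun x => K x y := fun y => hK.comp measurable_prodMk_right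
  calc ∫⁻ x, (∫⁻ y, K x y * h y ∂μ) ^ 2 ∂μ ≤ ∫⁻ x, ∫⁻ y, K x y * h y ^ 2 ∂μ ∂μ := by
        refine lintegral_mono fun x => ?_
        refine (cs_sq (hKx x).aemeasurable hh).trans ?_
        calc _ ≤ 1 * ∫⁻ y, K x y * h y ^ 2 ∂μ := by gcongr; exact h1 x
          _ = _ := one_mul _
    _ = ∫⁻ y, ∫⁻ x, K x y * h y ^ 2 ∂μ ∂μ := by
        refine lintegral_lintegral_swap ?_
        refine hK.aemeasurable.mul ?_
        exact (hh.pow_const 2).comp_quasiMeasurePreserving Measure.quasiMeasurePreserving_snd
    _ = ∫⁻ y, (∫⁻ x, K x y ∂μ) * h y ^ 2 ∂μ := by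
        refine lintegral_congr fun y => ?_
        rw [lintegral_mul_const _ (hKy y)]
    _ ≤ ∫⁻ y, h y ^ 2 ∂μ := by
        refine lintegral_mono fun y => ?_
        calc _ ≤ 1 * h y ^ 2 := by gcongr; exact h2 y
          _ = _ := one_mul _

end Schur

/-! ### 2. Mollification -/

section Moll

variable {E : Type*} [NormedAddCommGroup E] [InnerProductSpace ℝ E] [FiniteDimensional ℝ E]
  [MeasurableSpace E] [BorelSpace E]
  {F : Type*} [NormedAddCommGroup F] [NormedSpace ℝ F]

/-- The mollification of `g` by the normalised bump `φ`. -/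
def moll (φ : ContDiffBump (0 : E)) (g : E → F) (x : E) : F :=
  ∫ y, φ.normed volume (x - y) • g y

variable {φ : ContDiffBump (0 : E)} {g : E → F}

theorem moll_eq_conv :
    moll φ g = (φ.normed volume ⋆[ContinuousLinearMap.lsmul ℝ ℝ, volume] g) := by
  funext x
  rw [convolution_eq_swap]
  rfl

theorem contDiff_moll (hg : LocallyIntegrable g) : ContDiff ℝ ∞ (moll φ g) := by
  rw [moll_eq_conv]
  exact φ.hasCompactSupport_normed.contDiff_convolution_left _ φ.contDiff_normed hg

theorem fderiv_moll [CompleteSpace F] (hg : LocallyIntegrable g) (x e : E) :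
    fderiv ℝ (moll φ g) x e = ∫ y, fderiv ℝ (φ.normed volume) (x - y) e • g y := by
  rw [moll_eq_conv]
  have h := φ.hasCompactSupport_normed.hasFDerivAt_convolution_left
    (ContinuousLinearMap.lsmul ℝ ℝ : ℝ →L[ℝ] F →L[ℝ] F)
    (φ.contDiff_normed (n := 1) (μ := volume)) hg x
  rw [h.fderiv, convolution_eq_swap, ContinuousLinearMap.integral_apply]
  · rfl
  · have hcd : HasCompactSupport (fderiv ℝ (φ.normed volume)) :=
      φ.hasCompactSupport_normed.fderiv (𝕜 := ℝ)
    have hcont : Continuous (fderiv ℝ (φ.normed (volume : Measure E))) :=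
      (φ.contDiff_normed (n := 1) (μ := volume)).continuous_fderiv (by norm_num)
    have := hcd.convolutionExists_left
      (L := ((ContinuousLinearMap.lsmul ℝ ℝ : ℝ →L[ℝ] F →L[ℝ] F).precompL E)) (μ := volume)
      hcont hg x
    have h2 := this.integrable_swap
    exact h2

theorem moll_eq_zero {R : ℝ} (hg : ∀ y, R < ‖y‖ → g y = 0) {x : E} (hx : R + φ.rOut < ‖x‖) :
    moll φ g x = 0 := by
  unfold moll
  rw [← integral_zero E F (μ := volume)]
  congr 1
  funext y
  by_cases hy : R < ‖y‖
  · rw [hg y hy, smul_zero]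
  · have : φ.normed volume (x - y) = 0 := by
      have h1 : x - y ∉ Function.support (φ.normed volume) := by
        rw [φ.support_normed_eq, Metric.mem_ball, dist_zero_right, not_lt]
        have := norm_sub_norm_le x y
        push Not at hy
        linarith
      simpa using h1
    rw [this, zero_smul]

theorem hasCompactSupport_moll {R : ℝ} (hg : ∀ y, R < ‖y‖ → g y = 0) :
    HasCompactSupport (moll φ g) := by
  refine HasCompactSupport.intro (isCompact_closedBall (0 : E) (R + φ.rOut)) fun x hx => ?_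
  refine moll_eq_zero hg ?_
  simpa using hx

/-- kernel bound -/
theorem lintegral_normed_left (x : E) :
    ∫⁻ y, ENNReal.ofReal (φ.normed volume (x - y)) = 1 := by
  rw [lintegral_sub_left_eq_self (μ := (volume : Measure E))
    (fun z => ENNReal.ofReal (φ.normed volume z)) x,
    ← ofReal_integral_eq_lintegral_ofReal φ.integrable_normed
      (Eventually.of_forall fun z => φ.nonneg_normed z), φ.integral_normed]
  simp

theorem lintegral_normed_right (y : E) :
    ∫⁻ x, ENNReal.ofReal (φ.normed volume (x - y)) = 1 := by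
  rw [lintegral_sub_right_eq_self (μ := (volume : Measure E))
    (fun z => ENNReal.ofReal (φ.normed volume z)) y,
    ← ofReal_integral_eq_lintegral_ofReal φ.integrable_normed
      (Eventually.of_forall fun z => φ.nonneg_normed z), φ.integral_normed]
  simp

theorem measurable_kernel :
    Measurable (Function.uncurry fun x y : E => ENNReal.ofReal (φ.normed volume (x - y))) := by
  have : Continuous fun p : E × E => φ.normed volume (p.1 - p.2) :=
    φ.continuous_normed.comp (continuous_fst.sub continuous_snd)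
  exact ENNReal.measurable_ofReal.comp this.measurable

/-- The general `L²` bound for kernels dominated by the bump. -/
theorem lintegral_kernel_sq_le {h : E → ℝ≥0∞} (hh : AEMeasurable h volume) :
    ∫⁻ x, (∫⁻ y, ENNReal.ofReal (φ.normed volume (x - y)) * h y) ^ 2 ≤ ∫⁻ y, h y ^ 2 :=
  schur_sq (measurable_kernel (φ := φ)) (fun x => (lintegral_normed_left x).le)
    (fun y => (lintegral_normed_right y).le) hh

theorem eLpNorm_two_sq {X : Type*} [MeasurableSpace X] {μ : Measure X} {G : Type*}
    [NormedAddCommGroup G] (f : X → G) : eLpNorm f 2 μ ^ 2 = ∫⁻ x, ‖f x‖ₑ ^ 2 ∂μ := by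
  rw [eLpNorm_eq_lintegral_rpow_enorm_toReal (by norm_num) (by norm_num)]
  simp only [ENNReal.toReal_ofNat, ENNReal.rpow_ofNat]
  rw [← ENNReal.rpow_natCast, ← ENNReal.rpow_mul]
  norm_num

theorem eLpNorm_le_of_sq {X : Type*} [MeasurableSpace X] {μ : Measure X} {G H : Type*}
    [NormedAddCommGroup G] [NormedAddCommGroup H] {f : X → G} {g : X → H} {c : ℝ≥0∞}
    (h : ∫⁻ x, ‖f x‖ₑ ^ 2 ∂μ ≤ c ^ 2 * ∫⁻ x, ‖g x‖ₑ ^ 2 ∂μ) :
    eLpNorm f 2 μ ≤ c * eLpNorm g 2 μ := by
  rw [← eLpNorm_two_sq, ← eLpNorm_two_sq, ← mul_pow] at h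
  exact (ENNReal.pow_le_pow_left_iff (by norm_num)).mp h

/-- An `L²` bound: if `‖u x‖ ≤ c ∫ ρ(x - y) ‖g y‖ dy` then `‖u‖₂ ≤ c ‖g‖₂`. -/
theorem eLpNorm_le_of_kernel {H : Type*} [NormedAddCommGroup H] {u : E → H} {c : ℝ≥0∞}
    (hg : AEStronglyMeasurable g volume)
    (hu : ∀ x, ‖u x‖ₑ ≤ c * ∫⁻ y, ENNReal.ofReal (φ.normed volume (x - y)) * ‖g y‖ₑ) :
    eLpNorm u 2 volume ≤ c * eLpNorm g 2 volume := by
  refine eLpNorm_le_of_sq ?_
  calc ∫⁻ x, ‖u x‖ₑ ^ 2 ≤ ∫⁻ x, c ^ 2 *
        (∫⁻ y, ENNReal.ofReal (φ.normed volume (x - y)) * ‖g y‖ₑ) ^ 2 := by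
        refine lintegral_mono fun x => ?_
        rw [← mul_pow]
        gcongr
        exact hu x
    _ = c ^ 2 * ∫⁻ x, (∫⁻ y, ENNReal.ofReal (φ.normed volume (x - y)) * ‖g y‖ₑ) ^ 2 := by
        rw [lintegral_const_mul'']
        have hm : AEMeasurable (fun p : E × E =>
            ENNReal.ofReal (φ.normed volume (p.1 - p.2)) * ‖g p.2‖ₑ)
            ((volume : Measure E).prod volume) := by
          refine (measurable_kernel (φ := φ)).aemeasurable.mul ?_
          exact hg.enorm.comp_quasiMeasurePreserving Measure.quasiMeasurePreserving_snd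
        exact (hm.lintegral_prod_right').pow_const 2
    _ ≤ c ^ 2 * ∫⁻ y, ‖g y‖ₑ ^ 2 :=
        mul_le_mul' le_rfl (lintegral_kernel_sq_le (φ := φ) hg.enorm)


/-- continuity of translations in `L²` -/
theorem tendsto_translate {g : E → F} (hg : MemLp g 2 volume) :
    Tendsto (fun z : E => eLpNorm (fun x => g (x - z) - g x) 2 volume) (𝓝 0) (𝓝 0) := by
  have : Fact ((1 : ℝ≥0∞) ≤ 2) := ⟨by norm_num⟩
  let T : E → C(E, E) := fun z => ⟨fun x => x - z, by fun_prop⟩
  have hT : Continuous T := by
    refine ContinuousMap.continuous_of_continuous_uncurry _ ?_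
    exact continuous_snd.sub continuous_fst
  have hTm : ∀ z, MeasurePreserving (T z) (volume : Measure E) volume := fun z =>
    measurePreserving_sub_right volume z
  have hc := (continuous_const (y := hg.toLp g)).compMeasurePreservingLp (μ := (volume : Measure E))
    (ν := (volume : Measure E)) (p := 2) hT hTm (by norm_num)
  have h0 := (hc.tendsto 0)
  rw [tendsto_iff_norm_sub_tendsto_zero] at h0
  have h1 := ENNReal.tendsto_ofReal h0
  rw [ENNReal.ofReal_zero] at h1
  refine h1.congr fun z => ?_
  rw [Lp.norm_def, ENNReal.ofReal_toReal (Lp.eLpNorm_ne_top _)]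
  refine eLpNorm_congr_ae ?_
  refine (Lp.coeFn_sub _ _).trans ?_
  have a1 : ∀ w, (Lp.compMeasurePreserving (T w) (hTm w) (hg.toLp g) : E → F) =ᵐ[volume]
      fun x => g (x - w) := by
    intro w
    refine (Lp.coeFn_compMeasurePreserving _ _).trans ?_
    exact (hTm w).quasiMeasurePreserving.ae_eq_comp hg.coeFn_toLp
  filter_upwards [a1 z, a1 0] with x h2 h3
  simp only [Pi.sub_apply]
  rw [h2, h3, sub_zero]

/-- quantitative mollification error -/
theorem eLpNorm_moll_sub_le [CompleteSpace F] (hg : MemLp g 2 volume) {δ : ℝ≥0∞}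
    (hδ : ∀ z : E, ‖z‖ < φ.rOut → eLpNorm (fun x => g (x - z) - g x) 2 volume ≤ δ) :
    eLpNorm (moll φ g - g) 2 volume ≤ δ := by
  have hloc : LocallyIntegrable g volume := hg.locallyIntegrable (by norm_num)
  -- pointwise bound
  have hpt : ∀ x, ‖(moll φ g - g) x‖ₑ ≤
      ∫⁻ z, ENNReal.ofReal (φ.normed volume z) * ‖g (x - z) - g x‖ₑ := by
    intro x
    have hI : Integrable (fun z => φ.normed volume z • g (x - z)) volume := by
      have := φ.hasCompactSupport_normed.convolutionExists_left
        (L := (ContinuousLinearMap.lsmul ℝ ℝ : ℝ →L[ℝ] F →L[ℝ] F)) (μ := volume)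
        (φ.continuous_normed (μ := volume)) hloc x
      exact this
    have e1 : moll φ g x = ∫ z, φ.normed volume z • g (x - z) := by
      rw [moll_eq_conv]
      rfl
    have e2 : g x = ∫ z, φ.normed volume z • g x := by
      rw [integral_smul_const, φ.integral_normed, one_smul]
    have e3 : (moll φ g - g) x = ∫ z, φ.normed volume z • (g (x - z) - g x) := by
      simp only [Pi.sub_apply, smul_sub]
      rw [integral_sub hI (φ.integrable_normed.smul_const _), ← e1, ← e2]
    rw [e3]
    refine (enorm_integral_le_lintegral_enorm _).trans (le_of_eq ?_)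
    refine lintegral_congr fun z => ?_
    rw [enorm_smul, Real.enorm_eq_ofReal (φ.nonneg_normed _)]
  have hmeas1 : AEStronglyMeasurable (fun p : E × E => g (p.1 - p.2) - g p.1)
      ((volume : Measure E).prod volume) := by
    refine AEStronglyMeasurable.sub ?_ ?_
    · have hq : Measure.QuasiMeasurePreserving (fun p : E × E => p.1 - p.2)
          ((volume : Measure E).prod volume) volume :=
        quasiMeasurePreserving_sub_of_right_invariant volume volume
      exact hg.1.comp_quasiMeasurePreserving hq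
    · exact hg.1.comp_quasiMeasurePreserving Measure.quasiMeasurePreserving_fst
  have hmeas2 : AEMeasurable (fun p : E × E => ‖g (p.1 - p.2) - g p.1‖ₑ)
      ((volume : Measure E).prod volume) := hmeas1.enorm
  have hkey : eLpNorm (moll φ g - g) 2 volume ^ 2 ≤ δ ^ 2 := by
    rw [eLpNorm_two_sq]
    calc ∫⁻ x, ‖(moll φ g - g) x‖ₑ ^ 2
        ≤ ∫⁻ x, (∫⁻ z, ENNReal.ofReal (φ.normed volume z) * ‖g (x - z) - g x‖ₑ) ^ 2 := by
          refine lintegral_mono fun x => ?_
          gcongr
          exact hpt x
      _ ≤ ∫⁻ x, ∫⁻ z, ENNReal.ofReal (φ.normed volume z) * ‖g (x - z) - g x‖ₑ ^ 2 := by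
          refine lintegral_mono_ae ?_
          have hsec : ∀ᵐ x ∂(volume : Measure E),
              AEMeasurable (fun z => ‖g (x - z) - g x‖ₑ) volume := by
            filter_upwards [hmeas1.prodMk_left] with x hx
            exact hx.enorm
          filter_upwards [hsec] with x hx
          refine (cs_sq (μ := (volume : Measure E)) ?_ hx).trans ?_
          · exact (ENNReal.measurable_ofReal.comp φ.continuous_normed.measurable).aemeasurable
          · have : ∫⁻ z, ENNReal.ofReal (φ.normed volume z) = 1 := by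
              have := lintegral_normed_right (φ := φ) (0 : E)
              simpa using this
            rw [this, one_mul]
      _ = ∫⁻ z, ∫⁻ x, ENNReal.ofReal (φ.normed volume z) * ‖g (x - z) - g x‖ₑ ^ 2 := by
          refine lintegral_lintegral_swap ?_
          refine AEMeasurable.mul ?_ (hmeas2.pow_const 2)
          exact ((ENNReal.measurable_ofReal.comp φ.continuous_normed.measurable).comp
            measurable_snd).aemeasurable
      _ ≤ ∫⁻ z, ENNReal.ofReal (φ.normed volume z) * δ ^ 2 := by
          refine lintegral_mono fun z => ?_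
          rw [lintegral_const_mul' _ _ ENNReal.ofReal_ne_top]
          by_cases hz : ‖z‖ < φ.rOut
          · gcongr
            rw [← eLpNorm_two_sq]
            gcongr
            exact hδ z hz
          · have : φ.normed volume z = 0 := by
              have h1 : z ∉ Function.support (φ.normed volume) := by
                rw [φ.support_normed_eq, Metric.mem_ball, dist_zero_right]
                exact hz
              simpa using h1
            simp [this]
      _ = δ ^ 2 := by
          rw [lintegral_mul_const]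
          · have : ∫⁻ z, ENNReal.ofReal (φ.normed volume z) = 1 := by
              have := lintegral_normed_right (φ := φ) (0 : E)
              simpa using this
            rw [this, one_mul]
          · exact ENNReal.measurable_ofReal.comp φ.continuous_normed.measurable
  exact (ENNReal.pow_le_pow_left_iff (by norm_num)).mp hkey

/-- `L²` convergence of mollifications. -/
theorem tendsto_moll [CompleteSpace F] (hg : MemLp g 2 volume) {φs : ℕ → ContDiffBump (0 : E)}
    (hφ : Tendsto (fun n => (φs n).rOut) atTop (𝓝 0)) :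
    Tendsto (fun n => eLpNorm (moll (φs n) g - g) 2 volume) atTop (𝓝 0) := by
  rw [ENNReal.tendsto_nhds_zero]
  intro ε hε
  have h1 := tendsto_translate hg
  rw [ENNReal.tendsto_nhds_zero] at h1
  have h2 := h1 ε hε
  rw [Metric.eventually_nhds_iff] at h2
  obtain ⟨r, hr, h3⟩ := h2
  have h4 : ∀ᶠ n in atTop, (φs n).rOut < r := hφ.eventually (gt_mem_nhds hr)
  filter_upwards [h4] with n hn
  refine eLpNorm_moll_sub_le hg fun z hz => h3 ?_
  rw [dist_zero_right]
  exact hz.trans hn

end Moll

/-! ### 3. Mollification of first order operators -/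

section WS

variable {κ : Type*} [Fintype κ] [DecidableEq κ]
  {F : Type*} [NormedAddCommGroup F] [InnerProductSpace ℂ F] [FiniteDimensional ℂ F]

theorem inner_int_left {X : Type*} [MeasurableSpace X] {μ : Measure X} {f : X → F}
    (hf : Integrable f μ) (v : F) : ⟪∫ x, f x ∂μ, v⟫_ℂ = ∫ x, ⟪f x, v⟫_ℂ ∂μ := by
  have : CompleteSpace F := FiniteDimensional.complete ℂ F
  rw [← inner_conj_symm, ← integral_inner hf, ← integral_conj]
  refine integral_congr_ae (Eventually.of_forall fun x => ?_)
  simp only [inner_conj_symm]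

variable {a : κ → F →ₗ[ℂ] F} {V : EuclideanSpace ℝ κ → F →ₗ[ℂ] F}
  {φ : ContDiffBump (0 : EuclideanSpace ℝ κ)} {g Y : EuclideanSpace ℝ κ → F}

/-- The potential is Lipschitz. -/
def LipPot (V : EuclideanSpace ℝ κ → F →ₗ[ℂ] F) (L : ℝ) : Prop :=
  0 ≤ L ∧ ∀ x y v, ‖V x v - V y v‖ ≤ L * ‖x - y‖ * ‖v‖

theorem LipPot.continuous {L : ℝ} (hL : LipPot V L) (v : F) : Continuous fun x => V x v := by
  have h : LipschitzWith (Real.toNNReal (L * ‖v‖)) fun x => V x v := by
    refine LipschitzWith.of_dist_le_mul fun x y => ?_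
    rw [dist_eq_norm, dist_eq_norm]
    refine (hL.2 x y v).trans ?_
    rw [mul_right_comm]
    gcongr
    exact Real.le_coe_toNNReal _
  exact h.continuous

theorem continuous_potential (hV : ∀ v, Continuous fun x => V x v) :
    Continuous fun y => (LinearMap.toContinuousLinearMap (V y) : F →L[ℂ] F) := by
  rw [continuous_clm_apply]
  exact hV

theorem aesm_potential (hV : ∀ v, Continuous fun x => V x v)
    {μ : Measure (EuclideanSpace ℝ κ)} (hg : AEStronglyMeasurable g μ) :
    AEStronglyMeasurable (fun y => V y (g y)) μ :=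
  (isBoundedBilinearMap_apply (𝕜 := ℂ) (E := F) (F := F)).continuous.comp_aestronglyMeasurable
    ((continuous_potential hV).aestronglyMeasurable.prodMk hg)

theorem integrable_bump_smul (hg : LocallyIntegrable g volume) (x : EuclideanSpace ℝ κ) :
    Integrable (fun y => φ.normed volume (x - y) • g y) volume := by
  have := φ.hasCompactSupport_normed.convolutionExists_left
    (L := (ContinuousLinearMap.lsmul ℝ ℝ : ℝ →L[ℝ] F →L[ℝ] F)) (μ := volume)
    (φ.continuous_normed (μ := volume)) hg x
  exact this.integrable_swap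

theorem continuous_fderiv_bump (e : EuclideanSpace ℝ κ) :
    Continuous fun z => fderiv ℝ (φ.normed volume) z e :=
  ((φ.contDiff_normed (n := 1) (μ := volume)).continuous_fderiv (by norm_num)).clm_apply
    continuous_const

theorem hasCompactSupport_fderiv_bump (e : EuclideanSpace ℝ κ) :
    HasCompactSupport fun z => fderiv ℝ (φ.normed (volume : Measure (EuclideanSpace ℝ κ))) z e :=
  ((φ.hasCompactSupport_normed (μ := volume)).fderiv (𝕜 := ℝ)).mono' (fun x hx =>
    subset_tsupport _ (by intro h0; apply hx; simp [h0]))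

theorem integrable_fderiv_bump_smul (hg : LocallyIntegrable g volume) (x e : EuclideanSpace ℝ κ) :
    Integrable (fun y => fderiv ℝ (φ.normed volume) (x - y) e • g y) volume := by
  have := (hasCompactSupport_fderiv_bump (φ := φ) e).convolutionExists_left
    (L := (ContinuousLinearMap.lsmul ℝ ℝ : ℝ →L[ℝ] F →L[ℝ] F)) (μ := volume)
    (continuous_fderiv_bump e) hg x
  exact this.integrable_swap

theorem map_rsmul (L : F →ₗ[ℂ] F) (r : ℝ) (v : F) : L (r • v) = r • L v :=
  (L.restrictScalars ℝ).map_smul r v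

theorem bump_eq_zero {z : EuclideanSpace ℝ κ} (hz : ¬ ‖z‖ < φ.rOut) :
    φ.normed volume z = 0 := by
  have h1 : z ∉ Function.support (φ.normed volume) := by
    rw [φ.support_normed_eq, Metric.mem_ball, dist_zero_right]
    exact hz
  simpa using h1

/-- pointwise bound of the commutator integrand -/
theorem norm_comm_le {L : ℝ} (hL : LipPot V L) (x y : EuclideanSpace ℝ κ) :
    ‖φ.normed volume (x - y) • (V x (g y) - V y (g y))‖ ≤
      (L * φ.rOut) * (φ.normed volume (x - y) * ‖g y‖) := by
  rw [norm_smul, Real.norm_of_nonneg (φ.nonneg_normed _)]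
  by_cases hxy : ‖x - y‖ < φ.rOut
  · calc φ.normed volume (x - y) * ‖V x (g y) - V y (g y)‖
          ≤ φ.normed volume (x - y) * (L * φ.rOut * ‖g y‖) := by
            have h0 := φ.nonneg_normed (μ := (volume : Measure (EuclideanSpace ℝ κ))) (x - y)
            have hL0 := hL.1
            gcongr
            exact (hL.2 x y (g y)).trans (by gcongr)
        _ = _ := by ring
  · rw [bump_eq_zero hxy]; simp

theorem integrable_comm {L : ℝ} (hL : LipPot V L) (hg : LocallyIntegrable g volume)
    (x : EuclideanSpace ℝ κ) :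
    Integrable (fun y => φ.normed volume (x - y) • (V x (g y) - V y (g y))) volume := by
  have hI : Integrable (fun y => φ.normed volume (x - y) • g y) volume := integrable_bump_smul hg x
  have hb : Integrable (fun y => (L * φ.rOut) * ‖φ.normed volume (x - y) • g y‖) volume :=
    hI.norm.const_mul _
  refine hb.mono' ?_ (Eventually.of_forall fun y => ?_)
  · refine ((φ.continuous_normed.comp
      (continuous_const.sub continuous_id)).aestronglyMeasurable).smul ?_
    exact ((LinearMap.toContinuousLinearMap (V x)).continuous.comp_aestronglyMeasurable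
      hg.aestronglyMeasurable).sub (aesm_potential hL.continuous hg.aestronglyMeasurable)
  · refine (norm_comm_le hL x y).trans (le_of_eq ?_)
    rw [norm_smul, Real.norm_of_nonneg (φ.nonneg_normed _)]

theorem inner_rs_right (u : F) (r : ℝ) (v : F) : ⟪u, r • v⟫_ℂ = (r : ℂ) * ⟪u, v⟫_ℂ := by
  rw [← Complex.coe_smul, inner_smul_right]

theorem inner_rs_left (u : F) (r : ℝ) (v : F) : ⟪r • u, v⟫_ℂ = (r : ℂ) * ⟪u, v⟫_ℂ := by
  rw [← Complex.coe_smul, inner_smul_left, Complex.conj_ofReal]

/-- The mollified equation. -/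
theorem dirac_moll (ha : ∀ k, (a k).IsSymmetric) (hVs : ∀ x, (V x).IsSymmetric) {L : ℝ}
    (hL : LipPot V L) (hg : LocallyIntegrable g volume) (hY : LocallyIntegrable Y volume)
    (hw : ∀ ψ : EuclideanSpace ℝ κ → F, ContDiff ℝ ∞ ψ → HasCompactSupport ψ →
      ∫ x, ⟪g x, dirac a V ψ x⟫_ℂ = ∫ x, ⟪Y x, ψ x⟫_ℂ) (x : EuclideanSpace ℝ κ) :
    dirac a V (moll φ g) x = moll φ Y x +
      ∫ y, φ.normed volume (x - y) • (V x (g y) - V y (g y)) := by
  have : CompleteSpace F := FiniteDimensional.complete ℂ F
  set ρ : EuclideanSpace ℝ κ → ℝ := φ.normed volume with hρ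
  have hρs : ContDiff ℝ ∞ ρ := φ.contDiff_normed
  have hI : Integrable (fun y => ρ (x - y) • g y) volume := integrable_bump_smul hg x
  have hIY : Integrable (fun y => ρ (x - y) • Y y) volume := integrable_bump_smul hY x
  have hId : ∀ e, Integrable (fun y => fderiv ℝ ρ (x - y) e • g y) volume := fun e =>
    integrable_fderiv_bump_smul hg x e
  have hIC : Integrable (fun y => ρ (x - y) • (V x (g y) - V y (g y))) volume :=
    integrable_comm hL hg x
  refine ext_inner_right ℂ fun v => ?_
  -- the test function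
  set ψ : EuclideanSpace ℝ κ → F := fun y => ρ (x - y) • v with hψ
  have hψs : ContDiff ℝ ∞ ψ := (hρs.comp (contDiff_const.sub contDiff_id)).smul contDiff_const
  have hψc : HasCompactSupport ψ := by
    refine HasCompactSupport.intro (isCompact_closedBall x φ.rOut) fun y hy => ?_
    have : ρ (x - y) = 0 := by
      refine bump_eq_zero fun h => hy ?_
      rw [Metric.mem_closedBall, dist_comm, dist_eq_norm]
      exact h.le
    rw [hψ]
    simp only
    rw [this, zero_smul]
  have hψd : ∀ y e, fderiv ℝ ψ y e = -(fderiv ℝ ρ (x - y) e) • v := by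
    intro y e
    have h1 : HasFDerivAt (fun y => ρ (x - y)) (-(fderiv ℝ ρ (x - y))) y := by
      have h2 : HasFDerivAt ρ (fderiv ℝ ρ (x - y)) (x - y) :=
        (hρs.differentiable (by simp) (x - y)).hasFDerivAt
      exact (h2.comp y ((hasFDerivAt_const x y).sub (hasFDerivAt_id y))).congr_fderiv
        (by ext e; simp)
    have h4 := h1.smul_const v
    rw [hψ, h4.fderiv]
    simp
  have hkey := hw ψ hψs hψc
  -- left side
  have hL1 : ⟪dirac a V (moll φ g) x, v⟫_ℂ =
      ∫ y, ((∑ k, Complex.I * ⟪fderiv ℝ ρ (x - y) (EuclideanSpace.single k 1) • g y, a k v⟫_ℂ) +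
        ⟪ρ (x - y) • g y, V x v⟫_ℂ) := by
    have h1 : ∀ k, Integrable (fun y => Complex.I *
        ⟪fderiv ℝ ρ (x - y) (EuclideanSpace.single k 1) • g y, a k v⟫_ℂ) volume := fun k =>
      ((hId _).inner_const _).const_mul _
    rw [integral_add (integrable_finset_sum _ fun k _ => h1 k) (hI.inner_const _),
      integral_finset_sum _ fun k _ => h1 k]
    simp only [integral_const_mul]
    unfold dirac
    rw [inner_add_left, sum_inner]
    congr 1
    · refine Finset.sum_congr rfl fun k _ => ?_
      rw [inner_smul_left, ha k, fderiv_moll hg, inner_int_left (hId _)]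
      simp
    · rw [hVs x]
      unfold moll
      rw [inner_int_left hI]
  have hR1 : ∫ y, ⟪g y, dirac a V ψ y⟫_ℂ =
      ∫ y, ((∑ k, Complex.I * ⟪fderiv ℝ ρ (x - y) (EuclideanSpace.single k 1) • g y, a k v⟫_ℂ) +
        ⟪ρ (x - y) • V y (g y), v⟫_ℂ) := by
    refine integral_congr_ae (Eventually.of_forall fun y => ?_)
    simp only
    unfold dirac
    rw [inner_add_right, inner_sum]
    congr 1
    · refine Finset.sum_congr rfl fun k _ => ?_
      rw [hψd, map_rsmul, inner_smul_right, inner_rs_right, inner_rs_left]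
      push_cast
      ring
    · rw [hψ]
      simp only
      rw [map_rsmul, inner_rs_right, inner_rs_left, hVs y]
  have hR2 : ∫ y, ⟪Y y, ψ y⟫_ℂ = ⟪moll φ Y x, v⟫_ℂ := by
    unfold moll
    rw [inner_int_left hIY]
    refine integral_congr_ae (Eventually.of_forall fun y => ?_)
    simp only [hψ]
    rw [inner_rs_right, inner_rs_left]
  have hI2 : Integrable (fun y => ρ (x - y) • V y (g y)) volume := by
    have h1 : Integrable (fun y => ρ (x - y) • V x (g y)) volume := by
      have := (LinearMap.toContinuousLinearMap (V x)).integrable_comp hI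
      refine this.congr (Eventually.of_forall fun y => ?_)
      simp only [LinearMap.coe_toContinuousLinearMap']
      rw [map_rsmul]
    refine (h1.sub hIC).congr (Eventually.of_forall fun y => ?_)
    simp only [Pi.sub_apply, smul_sub]
    abel
  rw [inner_add_left, inner_int_left hIC, ← hR2, ← hkey, hR1, hL1, ← integral_add]
  · refine integral_congr_ae (Eventually.of_forall fun y => ?_)
    simp only
    rw [smul_sub, inner_sub_left, inner_rs_left, inner_rs_left, inner_rs_left, hVs x, ]
    ring
  · refine Integrable.add ?_ (hI2.inner_const _)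
    exact integrable_finset_sum _ fun k _ => ((hId _).inner_const _).const_mul _
  · exact hIC.inner_const _

/-- `L²` bound of the commutator term. -/
theorem eLpNorm_comm_le {L : ℝ} (hL : LipPot V L) (hg : AEStronglyMeasurable g volume) :
    eLpNorm (fun x => ∫ y, φ.normed volume (x - y) • (V x (g y) - V y (g y))) 2 volume ≤
      ENNReal.ofReal (L * φ.rOut) * eLpNorm g 2 volume := by
  refine eLpNorm_le_of_kernel (φ := φ) hg fun x => ?_
  refine (enorm_integral_le_lintegral_enorm _).trans ?_
  rw [← lintegral_const_mul' _ _ ENNReal.ofReal_ne_top]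
  refine lintegral_mono fun y => ?_
  rw [← ofReal_norm_eq_enorm, ← ofReal_norm_eq_enorm, ← ENNReal.ofReal_mul (φ.nonneg_normed _),
    ← ENNReal.ofReal_mul (mul_nonneg hL.1 φ.rOut_pos.le)]
  exact ENNReal.ofReal_le_ofReal (norm_comm_le hL x y)

/-- WEAK = STRONG for compactly supported functions and Lipschitz potentials, all charges at
once: mollifications are smooth, supported in a fixed ball, and converge in the graph norm. -/
theorem weak_strong {ι : Type*} {a : ι → κ → F →ₗ[ℂ] F}
    {V : ι → EuclideanSpace ℝ κ → F →ₗ[ℂ] F}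
    (ha : ∀ α k, (a α k).IsSymmetric) (hVs : ∀ α x, (V α x).IsSymmetric) {L : ℝ}
    (hL : ∀ α, LipPot (V α) L) {g : EuclideanSpace ℝ κ → F} {Y : ι → EuclideanSpace ℝ κ → F}
    (hg : MemLp g 2 volume) (hY : ∀ α, MemLp (Y α) 2 volume) {R : ℝ}
    (hgR : ∀ y, R < ‖y‖ → g y = 0)
    (hw : ∀ α, ∀ ψ : EuclideanSpace ℝ κ → F, ContDiff ℝ ∞ ψ → HasCompactSupport ψ →
      ∫ x, ⟪g x, dirac (a α) (V α) ψ x⟫_ℂ = ∫ x, ⟪Y α x, ψ x⟫_ℂ) :
    ∃ φ : ℕ → EuclideanSpace ℝ κ → F, (∀ n, ContDiff ℝ ∞ (φ n)) ∧
      (∀ n y, R + 1 < ‖y‖ → φ n y = 0) ∧ (∀ n, HasCompactSupport (φ n)) ∧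
      Tendsto (fun n => eLpNorm (φ n - g) 2 volume) atTop (𝓝 0) ∧
      ∀ α, Tendsto (fun n => eLpNorm (dirac (a α) (V α) (φ n) - Y α) 2 volume) atTop (𝓝 0) := by
  have : CompleteSpace F := FiniteDimensional.complete ℂ F
  let φs : ℕ → ContDiffBump (0 : EuclideanSpace ℝ κ) := fun n =>
    ⟨1 / (2 * ((n : ℝ) + 1)), 1 / ((n : ℝ) + 1), by positivity, by
      apply one_div_lt_one_div_of_lt
      · positivity
      · have : (0 : ℝ) < (n : ℝ) + 1 := by positivity
        linarith⟩
  have hr : ∀ n, (φs n).rOut = 1 / ((n : ℝ) + 1) := fun n => rfl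
  have hr1 : ∀ n, (φs n).rOut ≤ 1 := fun n => by
    rw [hr]
    rw [div_le_one (by positivity)]
    have : (0 : ℝ) ≤ n := Nat.cast_nonneg n
    linarith
  have hrt : Tendsto (fun n => (φs n).rOut) atTop (𝓝 0) := by
    simp only [hr]
    exact tendsto_one_div_add_atTop_nhds_zero_nat
  have hgl : LocallyIntegrable g volume := hg.locallyIntegrable (by norm_num)
  have hYl : ∀ α, LocallyIntegrable (Y α) volume := fun α => (hY α).locallyIntegrable (by norm_num)
  refine ⟨fun n => moll (φs n) g, fun n => contDiff_moll hgl, fun n y hy => ?_, fun n => ?_,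
    tendsto_moll hg hrt, fun α => ?_⟩
  · refine moll_eq_zero hgR ?_
    have := hr1 n
    linarith
  · exact hasCompactSupport_moll hgR
  · have h1 := tendsto_moll (hY α) hrt
    have h2 : Tendsto (fun n => ENNReal.ofReal (L * (φs n).rOut) * eLpNorm g 2 volume) atTop
        (𝓝 0) := by
      have h3 : Tendsto (fun n => ENNReal.ofReal (L * (φs n).rOut)) atTop (𝓝 0) := by
        have := ENNReal.tendsto_ofReal (hrt.const_mul L)
        simpa using this
      have := ENNReal.Tendsto.mul_const h3 (Or.inr hg.2.ne)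
      simpa using this
    have h3 := h1.add h2
    rw [add_zero] at h3
    refine tendsto_of_tendsto_of_tendsto_of_le_of_le tendsto_const_nhds h3
      (fun _ => zero_le) fun n => ?_
    have e : dirac (a α) (V α) (moll (φs n) g) - Y α =
        (moll (φs n) (Y α) - Y α) +
          fun x => ∫ y, (φs n).normed volume (x - y) • (V α x (g y) - V α y (g y)) := by
      funext x
      simp only [Pi.sub_apply, Pi.add_apply]
      rw [dirac_moll (ha α) (hVs α) (hL α) hgl (hYl α) (hw α) x]
      abel
    rw [e]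
    have hm1 : AEStronglyMeasurable (moll (φs n) (Y α) - Y α) volume :=
      ((contDiff_moll (hYl α)).continuous.aestronglyMeasurable).sub (hY α).1
    have hm2 : AEStronglyMeasurable (fun x => ∫ y, (φs n).normed volume (x - y) •
        (V α x (g y) - V α y (g y))) volume := by
      have e2 : (fun x => ∫ y, (φs n).normed volume (x - y) • (V α x (g y) - V α y (g y))) =
          dirac (a α) (V α) (moll (φs n) g) - moll (φs n) (Y α) := by
        funext x
        simp only [Pi.sub_apply]
        rw [dirac_moll (ha α) (hVs α) (hL α) hgl (hYl α) (hw α) x]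
        abel
      rw [e2]
      exact (continuous_dirac (hL α).continuous
        ((contDiff_moll hgl).of_le (by simp))).aestronglyMeasurable.sub
        (contDiff_moll (hYl α)).continuous.aestronglyMeasurable
    exact (eLpNorm_add_le hm1 hm2 (by norm_num)).trans
      (add_le_add le_rfl (eLpNorm_comm_le (hL α) hg.1))

end WS

end Crest.Agent.R330.Moll350
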