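import Crest.Agent.R330.Brid_837

/-!
# Row 330, S5d-UP: interface of the upper bound `z ≤ p(N)` at weak coupling (helper8)

* `wlin b G p α β A y` : the linear part of the coefficients of the charges `Q^{g,1}` at `p / g`;
  `wpot_shift` : `w^{g,1}(p/g + y) = wlin p y + g w^{quad}(y)` if `w^{1,1}(p) = 0`.
* `qlin b M G p α` : the linear charges at `p`; `dcharge_shift`.
* `adv b om p` : the gauge direction `[om, p]`.
* `PolyL2 f`, `Liou b M G p Φ` : the Liouville property of the linear charges.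
-/

set_option autoImplicit false
set_option linter.unusedSectionVars false

open MeasureTheory Filter Topology Metric Crest.MathPhysics.MatrixQM
open scoped ContDiff InnerProductSpace ENNReal

noncomputable section

namespace Crest.Agent.R330.UpDef8

open Crest.Agent.R330.Defs478 Crest.Agent.R330.IBP837 Crest.Agent.R330.Cov837
  Crest.Agent.R330.Brid837

variable {N : ℕ} {F : Type*} [NormedAddCommGroup F] [InnerProductSpace ℂ F]

/-- The linear part at `p`. -/
def wlin (b : ColorBasis N) (G : GammaNine) (p : Cfg N) (α β : Fin 16) (A : Fin (N ^ 2 - 1))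
    (y : Cfg N) : ℝ :=
  (∑ B : Fin (N ^ 2 - 1), ∑ C : Fin (N ^ 2 - 1), ∑ i : Fin 9, ∑ j : Fin 9,
    1 / 2 * b.structConst A B C * (p (i, B) * y (j, C) + y (i, B) * p (j, C)) * G.γ2 i j α β) -
  ∑ j : Fin 9, cc j * y (j, A) * (Gam G * G.γ j) α β

theorem wpot_shift (b : ColorBasis N) (G : GammaNine) {g : ℝ} (hg : g ≠ 0) (p y : Cfg N)
    (α β : Fin 16) (A : Fin (N ^ 2 - 1)) (hp : wpot b G 1 1 α β A p = 0) :
    wpot b G g 1 α β A (g⁻¹ • p + y) = wlin b G p α β A y + g * wco b G α β A y := by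
  have e1 : wpot b G g 1 α β A (g⁻¹ • p + y) =
      g⁻¹ * wpot b G 1 1 α β A p + (wlin b G p α β A y + g * wco b G α β A y) := by
    unfold wpot wlin wco
    have h1 : (∑ B : Fin (N ^ 2 - 1), ∑ C : Fin (N ^ 2 - 1), ∑ i : Fin 9, ∑ j : Fin 9,
        1 / 2 * b.structConst A B C * (g⁻¹ • p + y : Cfg N) (i, B) * (g⁻¹ • p + y : Cfg N) (j, C) *
          G.γ2 i j α β) =
        g⁻¹ * (g⁻¹ * ∑ B : Fin (N ^ 2 - 1), ∑ C : Fin (N ^ 2 - 1), ∑ i : Fin 9, ∑ j : Fin 9,
          1 / 2 * b.structConst A B C * p (i, B) * p (j, C) * G.γ2 i j α β) +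
        (g⁻¹ * (∑ B : Fin (N ^ 2 - 1), ∑ C : Fin (N ^ 2 - 1), ∑ i : Fin 9, ∑ j : Fin 9,
          1 / 2 * b.structConst A B C * (p (i, B) * y (j, C) + y (i, B) * p (j, C)) *
            G.γ2 i j α β) +
        ∑ B : Fin (N ^ 2 - 1), ∑ C : Fin (N ^ 2 - 1), ∑ i : Fin 9, ∑ j : Fin 9,
          1 / 2 * b.structConst A B C * y (i, B) * y (j, C) * G.γ2 i j α β) := by
      simp only [Finset.mul_sum, ← Finset.sum_add_distrib]
      refine Finset.sum_congr rfl fun B _ => Finset.sum_congr rfl fun C _ =>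
        Finset.sum_congr rfl fun i _ => Finset.sum_congr rfl fun j _ => ?_
      simp only [PiLp.add_apply, PiLp.smul_apply, smul_eq_mul]
      ring
    have h2 : (∑ j : Fin 9, cc j * (g⁻¹ • p + y : Cfg N) (j, A) * (Gam G * G.γ j) α β) =
        g⁻¹ * (∑ j : Fin 9, cc j * p (j, A) * (Gam G * G.γ j) α β) +
        ∑ j : Fin 9, cc j * y (j, A) * (Gam G * G.γ j) α β := by
      simp only [Finset.mul_sum, ← Finset.sum_add_distrib]
      refine Finset.sum_congr rfl fun j _ => ?_
      simp only [PiLp.add_apply, PiLp.smul_apply, smul_eq_mul]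
      ring
    rw [h1, h2]
    field_simp
    ring
  rw [e1, hp, mul_zero, zero_add]


theorem kin_shift (M : FermionRep N F) (G : GammaNine) (α : Fin 16) (φ : Cfg N → F)
    (q y : Cfg N) : kin M G α (fun z => φ (q + z)) y = kin M G α φ (q + y) := by
  unfold kin
  have h : fderiv ℝ (fun z => φ (q + z)) y = fderiv ℝ φ (q + y) := by
    rw [fderiv_comp_add_left]
  simp only [h]








end Crest.Agent.R330.UpDef8

end
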