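import Crest.Agent.R330.S5Defs_798
import Crest.Agent.R330.UpDef_8
import Crest.Agent.R330.Ims_714
import Crest.Agent.R330.Moll_596
import Crest.Agent.R330.TrA_798

-- ▼ part R330/TrB_798
section

/-!
# Row 330, S5e (helper798), part B: the local trial function

* `f0 r A Ω u = cut r u • gau A Ω u`, `floc r A Ω p x = f0 (x - p)`.
* `lin_sq` : `Σ_{β,A} wlin c u² = ‖A u‖²` for a vacuum package.
* `tau_bound` : `‖A τ‖ ≤ g C ‖τ‖²` if `g⁻¹ c + τ` is a vacuum.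
* `dch_floc` : pointwise bound of the charges on the local trial function.
* `gint_scale` : scaling of Gaussian integrals over balls.
-/

set_option autoImplicit false
set_option linter.unusedSectionVars false
set_option linter.unusedVariables false

open MeasureTheory Filter Topology Metric Set Module Crest.MathPhysics.MatrixQM
open scoped ContDiff InnerProductSpace ENNReal NNReal Pointwise

noncomputable section

namespace Crest.Agent.R330.TrB798

open Crest.Agent.R330.Defs478 Crest.Agent.R330.S5Defs798 Crest.Agent.R330.Moll596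
  Crest.Agent.R330.Ims714

variable {N : ℕ} {F : Type} [NormedAddCommGroup F] [InnerProductSpace ℂ F]
  [FiniteDimensional ℂ F] {b : ColorBasis N} {M : FermionRep N F}

/-! ## the quadratic form -/

section quad

variable {A : Cfg N →ₗ[ℝ] Cfg N}

theorem S_add_le (symm : ∀ u v, ⟪A u, v⟫_ℝ = ⟪u, A v⟫_ℝ) (pos : ∀ u, 0 ≤ ⟪u, A u⟫_ℝ)
    (u v : Cfg N) : ⟪u + v, A (u + v)⟫_ℝ ≤ 2 * ⟪u, A u⟫_ℝ + 2 * ⟪v, A v⟫_ℝ := by
  have h := pos (u - v)
  simp only [map_sub, map_add, inner_sub_left, inner_sub_right, inner_add_left,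
    inner_add_right] at h ⊢
  linarith

theorem S_smul (t : ℝ) (u : Cfg N) : ⟪t • u, A (t • u)⟫_ℝ = t ^ 2 * ⟪u, A u⟫_ℝ := by
  rw [map_smul, inner_smul_left, inner_smul_right]
  simp
  ring

theorem S_cont (A : Cfg N →ₗ[ℝ] Cfg N) : Continuous fun u : Cfg N => ⟪u, A u⟫_ℝ :=
  continuous_id.inner A.continuous_of_finiteDimensional

/-- Gaussian integral over a ball -/
def gint (A : Cfg N →ₗ[ℝ] Cfg N) (κ r : ℝ) : ℝ :=
  ∫ u in closedBall (0 : Cfg N) r, Real.exp (-κ * ⟪u, A u⟫_ℝ)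

theorem gexp_cont (A : Cfg N →ₗ[ℝ] Cfg N) (κ : ℝ) :
    Continuous fun u : Cfg N => Real.exp (-κ * ⟪u, A u⟫_ℝ) :=
  Real.continuous_exp.comp (continuous_const.mul (S_cont A))

theorem gexp_integrableOn (A : Cfg N →ₗ[ℝ] Cfg N) (κ r : ℝ) :
    IntegrableOn (fun u : Cfg N => Real.exp (-κ * ⟪u, A u⟫_ℝ)) (closedBall 0 r) :=
  (gexp_cont A κ).continuousOn.integrableOn_compact (isCompact_closedBall _ _)

theorem gint_nonneg (A : Cfg N →ₗ[ℝ] Cfg N) (κ r : ℝ) : 0 ≤ gint A κ r :=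
  setIntegral_nonneg measurableSet_closedBall fun u _ => (Real.exp_pos _).le

theorem gint_pos (A : Cfg N →ₗ[ℝ] Cfg N) (κ : ℝ) {r : ℝ} (hr : 0 < r) : 0 < gint A κ r := by
  unfold gint
  rw [setIntegral_pos_iff_support_of_nonneg_ae
    (Eventually.of_forall fun u => (Real.exp_pos _).le) (gexp_integrableOn A κ r)]
  have : (Function.support fun u : Cfg N => Real.exp (-κ * ⟪u, A u⟫_ℝ)) = univ := by
    ext u
    simp [(Real.exp_pos _).ne']
  rw [this, univ_inter]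
  exact measure_closedBall_pos _ _ hr

theorem gint_mono (pos : ∀ u, 0 ≤ ⟪u, A u⟫_ℝ) {κ κ' : ℝ} (h : κ ≤ κ') (r : ℝ) :
    gint A κ' r ≤ gint A κ r := by
  refine setIntegral_mono_on (gexp_integrableOn A κ' r) (gexp_integrableOn A κ r)
    measurableSet_closedBall fun u _ => ?_
  apply Real.exp_le_exp.2
  nlinarith [pos u]

theorem gint_scale (A : Cfg N →ₗ[ℝ] Cfg N) (κ r : ℝ) {t : ℝ} (ht : 0 < t) :
    gint A κ (t * r) = t ^ finrank ℝ (Cfg N) * gint A (κ * t ^ 2) r := by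
  have h := Measure.setIntegral_comp_smul_of_pos (volume : Measure (Cfg N))
    (fun u : Cfg N => Real.exp (-κ * ⟪u, A u⟫_ℝ)) (closedBall (0 : Cfg N) r) ht
  have h2 : t • closedBall (0 : Cfg N) r = closedBall 0 (t * r) := by
    rw [smul_closedBall' ht.ne', smul_zero, Real.norm_of_nonneg ht.le]
  rw [h2] at h
  have h3 : ∫ u in closedBall (0 : Cfg N) r, Real.exp (-κ * ⟪t • u, A (t • u)⟫_ℝ) =
      gint A (κ * t ^ 2) r := by
    unfold gint
    refine integral_congr_ae (Eventually.of_forall fun u => ?_)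
    simp only [S_smul]
    congr 1
    ring
  rw [h3] at h
  rw [h]
  unfold gint
  have ht' : t ^ finrank ℝ (Cfg N) ≠ 0 := (pow_pos ht _).ne'
  rw [smul_eq_mul, ← mul_assoc, mul_inv_cancel₀ ht', one_mul]

theorem gint_le (pos : ∀ u, 0 ≤ ⟪u, A u⟫_ℝ) (r : ℝ) :
    gint A 1 (2 * r) ≤ 4 ^ finrank ℝ (Cfg N) * gint A (3 / 2) (r / 2) := by
  have h := gint_scale A 1 (r / 2) (t := 4) (by norm_num)
  rw [show (4 : ℝ) * (r / 2) = 2 * r by ring] at h
  rw [h]
  refine mul_le_mul_of_nonneg_left (gint_mono pos (by norm_num) _) (by positivity)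

end quad

/-! ## Gaussian and cut-off -/

theorem norm_gau {A : Cfg N →ₗ[ℝ] Cfg N} {Ω : F} (hΩ : ‖Ω‖ = 1) (u : Cfg N) :
    ‖gau A Ω u‖ = Real.exp (-(1 / 2) * ⟪u, A u⟫_ℝ) := by
  unfold gau
  rw [norm_smul, hΩ, mul_one, Real.norm_of_nonneg (Real.exp_pos _).le]

theorem norm_gau_sq {A : Cfg N →ₗ[ℝ] Cfg N} {Ω : F} (hΩ : ‖Ω‖ = 1) (u : Cfg N) :
    ‖gau A Ω u‖ ^ 2 = Real.exp (-1 * ⟪u, A u⟫_ℝ) := by
  rw [norm_gau hΩ, ← Real.exp_nat_mul]
  congr 1
  push_cast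
  ring

theorem gau_smooth (A : Cfg N →ₗ[ℝ] Cfg N) (Ω : F) : ContDiff ℝ ∞ (gau A Ω) := by
  have h0 : ContDiff ℝ ∞ fun u : Cfg N => ⟪u, A u⟫_ℝ :=
    contDiff_id.inner ℝ ((LinearMap.toContinuousLinearMap A).contDiff)
  have h1 : ContDiff ℝ ∞ fun u : Cfg N => Real.exp (-(1 / 2) * ⟪u, A u⟫_ℝ) :=
    Real.contDiff_exp.comp (contDiff_const.mul h0)
  exact h1.smul contDiff_const

theorem hasFDerivAt_gau (A : Cfg N →ₗ[ℝ] Cfg N) (symm : ∀ u v, ⟪A u, v⟫_ℝ = ⟪u, A v⟫_ℝ)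
    (Ω : F) (u v : Cfg N) :
    fderiv ℝ (gau A Ω) u v = (-⟪A u, v⟫_ℝ) • gau A Ω u := by
  have hA : HasFDerivAt (fun w : Cfg N => A w) (LinearMap.toContinuousLinearMap A) u :=
    (LinearMap.toContinuousLinearMap A).hasFDerivAt
  have h1 : HasFDerivAt (fun w : Cfg N => ⟪w, A w⟫_ℝ)
      (((innerSL ℝ u).comp (LinearMap.toContinuousLinearMap A)) +
        (innerSL ℝ (A u))) u := by
    have h := (hasFDerivAt_id (𝕜 := ℝ) u).inner ℝ hA
    refine h.congr_fderiv ?_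
    ext w
    simp [real_inner_comm]
  have h2 : HasFDerivAt (fun w : Cfg N => Real.exp (-(1 / 2) * ⟪w, A w⟫_ℝ) • Ω) _ u :=
    ((h1.const_mul (-(1 / 2))).exp).smul_const Ω
  have h3 : fderiv ℝ (gau A Ω) u = _ := h2.fderiv
  rw [h3]
  simp only [ContinuousLinearMap.smulRight_apply, _root_.smul_apply, _root_.add_apply,
    ContinuousLinearMap.comp_apply, innerSL_apply_apply, LinearMap.coe_toContinuousLinearMap',
    smul_eq_mul]
  unfold gau
  rw [smul_smul]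
  congr 1
  rw [symm u v]
  ring

/-! ## coefficients -/

/-- coefficients of the linear part -/
def slin (b : ColorBasis N) (G : GammaNine) (c : Cfg N) (α : Fin 16) (u : Cfg N) :
    Fin 16 × Fin (N ^ 2 - 1) → ℝ := fun p => wlin b G c α p.1 p.2 u

/-- coefficients of the quadratic part -/
def squa (b : ColorBasis N) (G : GammaNine) (α : Fin 16) (u : Cfg N) :
    Fin 16 × Fin (N ^ 2 - 1) → ℝ := fun p => wpot b G 1 0 α p.1 p.2 u

theorem thc_sum (M : FermionRep N F) (s : Fin 16 × Fin (N ^ 2 - 1) → ℝ) (f : F) :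
    thc M s f = ∑ A : Fin (N ^ 2 - 1), ∑ β : Fin 16, ((s (β, A) : ℝ) : ℂ) • M.θ β A f := by
  rw [thc_apply, Fintype.sum_prod_type, Finset.sum_comm]

theorem lcharge_eq_dop (b : ColorBasis N) (M : FermionRep N F) (G : GammaNine) (c : Cfg N)
    (α : Fin 16) (φ : Cfg N → F) (x : Cfg N) :
    lcharge b M G c α φ x = dop G M α (fun y => thc M (slin b G c α y)) φ x := by
  unfold lcharge dop Defs478.kin
  rw [thc_sum]
  rfl

theorem lcharge_mul (b : ColorBasis N) (M : FermionRep N F) (G : GammaNine) (c : Cfg N)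
    (α : Fin 16) {χ : Cfg N → ℝ} {φ : Cfg N → F} {x : Cfg N} (hχ : DifferentiableAt ℝ χ x)
    (hφ : DifferentiableAt ℝ φ x) :
    lcharge b M G c α (fun y => χ y • φ y) x =
      χ x • lcharge b M G c α φ x + Ims714.kin G M α (grad χ x) (φ x) := by
  rw [lcharge_eq_dop, lcharge_eq_dop, dop_mul G M α _ hχ hφ]

theorem inner_grad (χ : Cfg N → ℝ) (x v : Cfg N) : ⟪grad χ x, v⟫_ℝ = fderiv ℝ χ x v := by
  have hv : v = ∑ k, v k • (EuclideanSpace.single k (1 : ℝ) : Cfg N) := by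
    ext k
    rw [WithLp.ofLp_sum, Finset.sum_apply]
    simp
  conv_rhs => rw [hv, map_sum]
  rw [PiLp.inner_apply]
  refine Finset.sum_congr rfl fun k _ => ?_
  rw [map_smul, grad_apply, smul_eq_mul]
  simp

theorem norm_grad_le (χ : Cfg N → ℝ) (x : Cfg N) : ‖grad χ x‖ ≤ ‖fderiv ℝ χ x‖ := by
  have h := inner_grad χ x (grad χ x)
  rw [real_inner_self_eq_norm_sq] at h
  have h2 := (fderiv ℝ χ x).le_opNorm (grad χ x)
  have h3 : ‖grad χ x‖ ^ 2 ≤ ‖fderiv ℝ χ x‖ * ‖grad χ x‖ := by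
    rw [h]; exact (le_abs_self _).trans h2
  rcases (norm_nonneg (grad χ x)).eq_or_lt with h0 | h0
  · rw [← h0]; positivity
  · nlinarith

/-- the kinetic part on the Gaussian -/
theorem kin_gau {A : Cfg N →ₗ[ℝ] Cfg N} (symm : ∀ u v, ⟪A u, v⟫_ℝ = ⟪u, A v⟫_ℝ) (Ω : F)
    (M : FermionRep N F) (G : GammaNine) (α : Fin 16) (u : Cfg N) :
    Defs478.kin M G α (gau A Ω) u = -Ims714.kin G M α (A u) (gau A Ω u) := by
  rw [kin_apply]
  unfold Defs478.kin
  rw [← Finset.sum_neg_distrib]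
  refine Finset.sum_congr rfl fun i _ => ?_
  rw [← Finset.sum_neg_distrib]
  refine Finset.sum_congr rfl fun B _ => ?_
  rw [← Finset.sum_neg_distrib]
  refine Finset.sum_congr rfl fun β _ => ?_
  rw [hasFDerivAt_gau A symm]
  have h : ⟪A u, (EuclideanSpace.single (i, B) (1 : ℝ) : Cfg N)⟫_ℝ = A u (i, B) := by
    rw [EuclideanSpace.inner_single_right]
    simp
  rw [h, ← Complex.coe_smul, map_smul, ← smul_neg, ← neg_smul]
  push_cast
  rfl

variable {R : GaugeAction b M} {G : GammaNine} {c : Cfg N} {A : Cfg N →ₗ[ℝ] Cfg N} {Ω : F}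

/-- the linearised coefficients square to `A²` -/
theorem lin_sq (h : VacPack b M R G c A Ω) (α : Fin 16) (u : Cfg N) :
    ∑ p, slin b G c α u p ^ 2 = ‖A u‖ ^ 2 := by
  have h1 := h.kill α u
  unfold lcharge at h1
  rw [kin_gau h.symm] at h1
  have h2 : thc M (slin b G c α u) (gau A Ω u) = Ims714.kin G M α (A u) (gau A Ω u) := by
    rw [thc_sum]
    rw [neg_add_eq_zero] at h1
    exact h1.symm
  have h3 := congrArg (fun v => ‖v‖ ^ 2) h2
  simp only [norm_thc_sq, norm_kin_sq] at h3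
  have h4 : 0 < ‖gau A Ω u‖ ^ 2 := by rw [norm_gau_sq h.unit]; exact Real.exp_pos _
  have h5 : (1 / 2 * ∑ p, slin b G c α u p ^ 2) = 1 / 2 * ‖A u‖ ^ 2 :=
    mul_right_cancel₀ h4.ne' h3
  linarith

theorem abs_wpot_quad (b : ColorBasis N) (G : GammaNine) (α β : Fin 16) (B : Fin (N ^ 2 - 1))
    (u : Cfg N) : |wpot b G 1 0 α β B u| ≤
      (∑ C : Fin (N ^ 2 - 1), ∑ D : Fin (N ^ 2 - 1), ∑ i : Fin 9, ∑ j : Fin 9,
        |1 / 2 * b.structConst B C D * G.γ2 i j α β|) * ‖u‖ ^ 2 := by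
  unfold wpot
  rw [one_mul, zero_mul, sub_zero]
  simp only [Finset.sum_mul]
  refine (Finset.abs_sum_le_sum_abs _ _).trans (Finset.sum_le_sum fun C _ => ?_)
  refine (Finset.abs_sum_le_sum_abs _ _).trans (Finset.sum_le_sum fun D _ => ?_)
  refine (Finset.abs_sum_le_sum_abs _ _).trans (Finset.sum_le_sum fun i _ => ?_)
  refine (Finset.abs_sum_le_sum_abs _ _).trans (Finset.sum_le_sum fun j _ => ?_)
  have h1 : |u (i, C)| ≤ ‖u‖ := by
    have := PiLp.norm_apply_le u (i, C)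
    rwa [Real.norm_eq_abs] at this
  have h2 : |u (j, D)| ≤ ‖u‖ := by
    have := PiLp.norm_apply_le u (j, D)
    rwa [Real.norm_eq_abs] at this
  have h3 : 1 / 2 * b.structConst B C D * u (i, C) * u (j, D) * G.γ2 i j α β =
      (1 / 2 * b.structConst B C D * G.γ2 i j α β) * (u (i, C) * u (j, D)) := by ring
  rw [h3, abs_mul, abs_mul (u (i, C))]
  refine mul_le_mul_of_nonneg_left ?_ (abs_nonneg _)
  calc |u (i, C)| * |u (j, D)| ≤ ‖u‖ * ‖u‖ :=
        mul_le_mul h1 h2 (abs_nonneg _) (norm_nonneg _)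
    _ = ‖u‖ ^ 2 := by ring

theorem exists_quad_bound (b : ColorBasis N) (G : GammaNine) :
    ∃ C : ℝ, 0 ≤ C ∧ ∀ α u, ∑ p, squa b G α u p ^ 2 ≤ C * ‖u‖ ^ 4 := by
  set K : Fin 16 → Fin 16 × Fin (N ^ 2 - 1) → ℝ := fun α p =>
    ∑ C : Fin (N ^ 2 - 1), ∑ D : Fin (N ^ 2 - 1), ∑ i : Fin 9, ∑ j : Fin 9,
      |1 / 2 * b.structConst p.2 C D * G.γ2 i j α p.1| with hK
  refine ⟨∑ α, ∑ p, K α p ^ 2, Finset.sum_nonneg fun α _ => Finset.sum_nonneg fun p _ =>
    sq_nonneg _, fun α u => ?_⟩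
  have h1 : ∑ p, squa b G α u p ^ 2 ≤ (∑ p, K α p ^ 2) * ‖u‖ ^ 4 := by
    rw [Finset.sum_mul]
    refine Finset.sum_le_sum fun p _ => ?_
    have h2 := abs_wpot_quad b G α p.1 p.2 u
    have h3 : squa b G α u p ^ 2 = |wpot b G 1 0 α p.1 p.2 u| ^ 2 := by
      rw [sq_abs]; rfl
    rw [h3, show ‖u‖ ^ 4 = (‖u‖ ^ 2) ^ 2 by ring, ← mul_pow]
    exact pow_le_pow_left₀ (abs_nonneg _) h2 2
  refine h1.trans (mul_le_mul_of_nonneg_right ?_ (by positivity))
  exact Finset.single_le_sum (f := fun α => ∑ p, K α p ^ 2)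
    (fun α _ => Finset.sum_nonneg fun p _ => sq_nonneg _) (Finset.mem_univ α)

/-- if `g⁻¹ c + τ` is a vacuum then `A τ` is small -/
theorem tau_bound (h : VacPack b M R G c A Ω) (hc : ∀ α β B, wpot b G 1 1 α β B c = 0) {g : ℝ}
    (hg : 0 < g) {C : ℝ} (hC0 : 0 ≤ C) (hC : ∀ α u, ∑ p, squa b G α u p ^ 2 ≤ C * ‖u‖ ^ 4)
    {τ : Cfg N} (hτ : ∀ α β B, wpot b G g 1 α β B (g⁻¹ • c + τ) = 0) :
    ⟪τ, A τ⟫_ℝ ≤ g * Real.sqrt C * ‖τ‖ ^ 3 := by
  have h1 : ∀ p, slin b G c 0 τ p = -(g * squa b G 0 τ p) := by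
    intro p
    have h2 := wpot_shift b G (hc 0 p.1 p.2) hg.ne' τ
    rw [hτ] at h2
    show wlin b G c 0 p.1 p.2 τ = -(g * wpot b G 1 0 0 p.1 p.2 τ)
    linarith
  have h3 : ‖A τ‖ ^ 2 ≤ (g * Real.sqrt C * ‖τ‖ ^ 2) ^ 2 := by
    rw [← lin_sq h 0 τ]
    have h4 : ∑ p, slin b G c 0 τ p ^ 2 = g ^ 2 * ∑ p, squa b G 0 τ p ^ 2 := by
      rw [Finset.mul_sum]
      refine Finset.sum_congr rfl fun p _ => ?_
      rw [h1 p]; ring
    rw [h4, mul_pow, mul_pow, Real.sq_sqrt hC0]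
    have := mul_le_mul_of_nonneg_left (hC 0 τ) (sq_nonneg g)
    calc _ ≤ _ := this
      _ = _ := by ring
  have h5 : ‖A τ‖ ≤ g * Real.sqrt C * ‖τ‖ ^ 2 := le_of_sq_le_sq h3 (by positivity)
  calc ⟪τ, A τ⟫_ℝ ≤ ‖τ‖ * ‖A τ‖ := real_inner_le_norm _ _
    _ ≤ ‖τ‖ * (g * Real.sqrt C * ‖τ‖ ^ 2) := mul_le_mul_of_nonneg_left h5 (norm_nonneg _)
    _ = _ := by ring

/-! ## the local trial function -/

/-- the cut-off Gaussian -/
def f0 (r : ℝ) (A : Cfg N →ₗ[ℝ] Cfg N) (Ω : F) (u : Cfg N) : F := cut r u • gau A Ω u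

/-- the cut-off Gaussian at `p` -/
def floc (r : ℝ) (A : Cfg N →ₗ[ℝ] Cfg N) (Ω : F) (p x : Cfg N) : F := f0 r A Ω (x - p)

theorem f0_smooth (r : ℝ) (A : Cfg N →ₗ[ℝ] Cfg N) (Ω : F) : ContDiff ℝ ∞ (f0 r A Ω) :=
  (cut_smooth r).smul (gau_smooth A Ω)

theorem floc_smooth (r : ℝ) (A : Cfg N →ₗ[ℝ] Cfg N) (Ω : F) (p : Cfg N) :
    ContDiff ℝ ∞ (floc r A Ω p) :=
  (f0_smooth r A Ω).comp (contDiff_id.sub contDiff_const)

theorem floc_supp {r : ℝ} (hr : 0 < r) (A : Cfg N →ₗ[ℝ] Cfg N) (Ω : F) (p : Cfg N) {x : Cfg N}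
    (hx : floc r A Ω p x ≠ 0) : dist x p ≤ 2 * r := by
  by_contra h
  rw [not_le] at h
  apply hx
  unfold floc f0
  rw [cut_zero hr (by rw [← dist_eq_norm]; exact h.le), zero_smul]

theorem floc_compact {r : ℝ} (hr : 0 < r) (A : Cfg N →ₗ[ℝ] Cfg N) (Ω : F) (p : Cfg N) :
    HasCompactSupport (floc r A Ω p) :=
  HasCompactSupport.intro (isCompact_closedBall p (2 * r)) fun x hx => by
    by_contra hne
    exact hx (floc_supp hr A Ω p hne)

theorem fderiv_cut_far {r : ℝ} (hr : 0 < r) {u : Cfg N} (hu : 2 * r < ‖u‖) :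
    fderiv ℝ (cut r : Cfg N → ℝ) u = 0 := by
  have h : (cut r : Cfg N → ℝ) =ᶠ[𝓝 u] fun _ => 0 := by
    have h2 : {v : Cfg N | 2 * r < ‖v‖} ∈ 𝓝 u := (isOpen_lt continuous_const continuous_norm).mem_nhds hu
    filter_upwards [h2] with v hv
    exact cut_zero hr hv.le
  rw [h.fderiv_eq]
  simp

theorem norm_fderiv_cut_le {r C : ℝ} (hr : 0 < r)
    (hC : ∀ x : Cfg N, ‖fderiv ℝ cut0 x‖ ≤ C) (u : Cfg N) :
    ‖fderiv ℝ (cut r : Cfg N → ℝ) u‖ ≤ C / r := by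
  rw [fderiv_cut, norm_smul, norm_inv, Real.norm_of_nonneg hr.le, div_eq_inv_mul]
  exact mul_le_mul_of_nonneg_left (hC _) (by positivity)

/-- the charges on the local trial function, in the shifted coordinate -/
theorem dcharge_floc (h : VacPack b M R G c A Ω) (hc : ∀ α β B, wpot b G 1 1 α β B c = 0)
    {g : ℝ} (hg : 0 < g) (r : ℝ) (α : Fin 16) (u : Cfg N) :
    dcharge b M G g 1 α (floc r A Ω (g⁻¹ • c)) (g⁻¹ • c + u) =
      Ims714.kin G M α (grad (cut r) u) (gau A Ω u) +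
        ((g : ℝ) : ℂ) • thc M (squa b G α u) (f0 r A Ω u) := by
  have e1 : (fun z => floc r A Ω (g⁻¹ • c) (g⁻¹ • c + z)) = f0 r A Ω := by
    funext z
    unfold floc
    rw [add_sub_cancel_left]
  have e2 : lcharge b M G c α (f0 r A Ω) u =
      Ims714.kin G M α (grad (cut r) u) (gau A Ω u) := by
    have h2 := lcharge_mul b M G c α (χ := cut r) (φ := gau A Ω) (x := u)
      ((cut_smooth r).differentiable (by simp) u) ((gau_smooth A Ω).differentiable (by simp) u)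
    rw [h.kill α u, smul_zero, zero_add] at h2
    exact h2
  rw [← e2]
  unfold dcharge lcharge
  have e3 := UpDef8.kin_shift M G α (floc r A Ω (g⁻¹ • c)) (g⁻¹ • c) u
  rw [e1] at e3
  rw [← e3, add_assoc, thc_sum, Finset.smul_sum, ← Finset.sum_add_distrib]
  congr 1
  refine Finset.sum_congr rfl fun B _ => ?_
  rw [Finset.smul_sum, ← Finset.sum_add_distrib]
  refine Finset.sum_congr rfl fun β _ => ?_
  rw [wpot_shift b G (hc α β B) hg.ne' u, smul_smul, ← congrFun e1 u, ← add_smul]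
  unfold squa
  push_cast
  rfl

theorem norm_dcharge_floc (h : VacPack b M R G c A Ω) (hc : ∀ α β B, wpot b G 1 1 α β B c = 0)
    {g : ℝ} (hg : 0 < g) {r : ℝ} (hr : 0 < r) {C₁ C₂ : ℝ}
    (hC₁ : ∀ x : Cfg N, ‖fderiv ℝ cut0 x‖ ≤ C₁) (hC₂ : 0 ≤ C₂)
    (hq : ∀ α u, ∑ p, squa b G α u p ^ 2 ≤ C₂ * ‖u‖ ^ 4) (α : Fin 16) (u : Cfg N) :
    ‖dcharge b M G g 1 α (floc r A Ω (g⁻¹ • c)) (g⁻¹ • c + u)‖ ^ 2 ≤
      (closedBall (0 : Cfg N) (2 * r)).indicator
        (fun u => ((C₁ / r) ^ 2 + g ^ 2 * (C₂ * (2 * r) ^ 4)) * Real.exp (-1 * ⟪u, A u⟫_ℝ)) u := by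
  rw [dcharge_floc h hc hg]
  by_cases hu : u ∈ closedBall (0 : Cfg N) (2 * r)
  · rw [indicator_of_mem hu]
    rw [mem_closedBall_zero_iff] at hu
    have h1 : ‖Ims714.kin G M α (grad (cut r) u) (gau A Ω u)‖ ^ 2 ≤
        1 / 2 * (C₁ / r) ^ 2 * Real.exp (-1 * ⟪u, A u⟫_ℝ) := by
      rw [norm_kin_sq, norm_gau_sq h.unit]
      have h2 := (norm_grad_le (cut r) u).trans (norm_fderiv_cut_le hr hC₁ u)
      have h3 := pow_le_pow_left₀ (norm_nonneg _) h2 2
      have h4 := (Real.exp_pos (-1 * ⟪u, A u⟫_ℝ)).le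
      nlinarith [mul_le_mul_of_nonneg_right h3 h4]
    have h2 : ‖((g : ℝ) : ℂ) • thc M (squa b G α u) (f0 r A Ω u)‖ ^ 2 ≤
        1 / 2 * (g ^ 2 * (C₂ * (2 * r) ^ 4)) * Real.exp (-1 * ⟪u, A u⟫_ℝ) := by
      rw [norm_smul, mul_pow, norm_thc_sq, Complex.norm_real, Real.norm_eq_abs, sq_abs]
      have h3 : ‖f0 r A Ω u‖ ^ 2 ≤ Real.exp (-1 * ⟪u, A u⟫_ℝ) := by
        unfold f0
        rw [norm_smul, mul_pow, norm_gau_sq h.unit, Real.norm_of_nonneg (cut_nonneg r u)]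
        have h4 : cut r u ^ 2 ≤ 1 := pow_le_one₀ (cut_nonneg r u) (cut_le_one r u)
        exact mul_le_of_le_one_left (Real.exp_pos _).le h4
      have h4 : ∑ p, squa b G α u p ^ 2 ≤ C₂ * (2 * r) ^ 4 :=
        (hq α u).trans (mul_le_mul_of_nonneg_left (pow_le_pow_left₀ (norm_nonneg _) hu 4) hC₂)
      have h5 : (∑ p, squa b G α u p ^ 2) * ‖f0 r A Ω u‖ ^ 2 ≤
          (C₂ * (2 * r) ^ 4) * Real.exp (-1 * ⟪u, A u⟫_ℝ) :=
        mul_le_mul h4 h3 (by positivity) (by positivity)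
      have h6 := mul_le_mul_of_nonneg_left h5 (sq_nonneg g)
      nlinarith
    have h3 : ∀ a d : F, ‖a + d‖ ^ 2 ≤ 2 * ‖a‖ ^ 2 + 2 * ‖d‖ ^ 2 := by
      intro a d
      have h4 := norm_add_le a d
      have h5 : ‖a + d‖ ^ 2 ≤ (‖a‖ + ‖d‖) ^ 2 := pow_le_pow_left₀ (norm_nonneg _) h4 2
      nlinarith [sq_nonneg (‖a‖ - ‖d‖)]
    refine (h3 _ _).trans ?_
    nlinarith [h1, h2]
  · rw [indicator_of_notMem hu]
    rw [mem_closedBall_zero_iff, not_le] at hu
    have h1 : grad (cut r) u = 0 := by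
      have := norm_grad_le (cut r) u
      rw [fderiv_cut_far hr hu, norm_zero] at this
      exact norm_le_zero_iff.1 this
    have h2 : f0 r A Ω u = 0 := by
      unfold f0
      rw [cut_zero hr hu.le, zero_smul]
    have h3 : Ims714.kin G M α (0 : Cfg N) = 0 := by
      have := Ims714.kin_smul G M α 0 (0 : Cfg N)
      simpa using this
    rw [h1, h2, h3]
    simp

theorem int_dcharge_floc (h : VacPack b M R G c A Ω) (hc : ∀ α β B, wpot b G 1 1 α β B c = 0)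
    {g : ℝ} (hg : 0 < g) {r : ℝ} (hr : 0 < r) {C₁ C₂ : ℝ}
    (hC₁ : ∀ x : Cfg N, ‖fderiv ℝ cut0 x‖ ≤ C₁) (hC₂ : 0 ≤ C₂)
    (hq : ∀ α u, ∑ p, squa b G α u p ^ 2 ≤ C₂ * ‖u‖ ^ 4) (α : Fin 16) :
    ∫ x, ‖dcharge b M G g 1 α (floc r A Ω (g⁻¹ • c)) x‖ ^ 2 ≤
      ((C₁ / r) ^ 2 + g ^ 2 * (C₂ * (2 * r) ^ 4)) * gint A 1 (2 * r) := by
  rw [← integral_add_left_eq_self _ (g⁻¹ • c)]
  have e : ((C₁ / r) ^ 2 + g ^ 2 * (C₂ * (2 * r) ^ 4)) * gint A 1 (2 * r) =
      ∫ u, (closedBall (0 : Cfg N) (2 * r)).indicator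
        (fun u => ((C₁ / r) ^ 2 + g ^ 2 * (C₂ * (2 * r) ^ 4)) *
          Real.exp (-1 * ⟪u, A u⟫_ℝ)) u := by
    rw [integral_indicator measurableSet_closedBall, integral_const_mul]
    rfl
  rw [e]
  refine integral_mono_of_nonneg (Eventually.of_forall fun u => by positivity) ?_
    (Eventually.of_forall fun u => norm_dcharge_floc h hc hg hr hC₁ hC₂ hq α u)
  rw [integrable_indicator_iff measurableSet_closedBall]
  exact (gexp_integrableOn A 1 (2 * r)).const_mul _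

end Crest.Agent.R330.TrB798

end
end

-- ▼ part R330/TrC_798

/-!
# Row 330, S5e (helper798), part C: the trial state at one vacuum

* `exists_near_stab` : compactness; `ov_eq` : the overlap of the local trial function with its
  gauge transform; `trial_one` : the trial state.
-/

set_option autoImplicit false
set_option linter.unusedSectionVars false
set_option linter.unusedVariables false

open MeasureTheory Filter Topology Metric Set Module Crest.MathPhysics.MatrixQM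
open scoped ContDiff InnerProductSpace ENNReal NNReal

noncomputable section

namespace Crest.Agent.R330.TrC798

open Crest.Agent.R330.Defs478 Crest.Agent.R330.S5Defs798 Crest.Agent.R330.Moll596
  Crest.Agent.R330.Ims714 Crest.Agent.R330.TrA798 Crest.Agent.R330.TrB798
  Crest.Agent.R330.SUgrp596

variable {N : ℕ} {F : Type} [NormedAddCommGroup F] [InnerProductSpace ℂ F]
  [FiniteDimensional ℂ F] {b : ColorBasis N} {M : FermionRep N F}

theorem exists_near_stab (b : ColorBasis N) (c : Cfg N) {U : Set (SU N)} (hU : IsOpen U)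
    (hs : ∀ h, b.act h c = c → h ∈ U) :
    ∃ δ : ℝ, 0 < δ ∧ ∀ h : SU N, dist (b.act h c) c ≤ δ → h ∈ U := by
  have hK : IsCompact (Uᶜ) := hU.isClosed_compl.isCompact
  have hcont : Continuous fun h : SU N => dist (b.act h c) c :=
    ((isoAct b).cont_left c).dist continuous_const
  rcases (Uᶜ).eq_empty_or_nonempty with h0 | h0
  · exact ⟨1, one_pos, fun h _ => by
      by_contra hh
      have : h ∈ Uᶜ := hh
      rw [h0] at this
      exact this⟩
  · obtain ⟨k, hk, hmin⟩ := hK.exists_isMinOn h0 hcont.continuousOn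
    have hpos : 0 < dist (b.act k c) c := by
      rw [dist_pos]
      intro hh
      exact hk (hs k hh)
    refine ⟨dist (b.act k c) c / 2, by positivity, fun h hh => ?_⟩
    by_contra hn
    have h1 : dist (b.act k c) c ≤ dist (b.act h c) c := hmin hn
    linarith

theorem exists_spin (R : GaugeAction b M) (c : Cfg N) {Ω : F} (hΩ : ‖Ω‖ = 1)
    (hn : ∀ h, b.act h c = c → R.ρ h Ω = Ω) :
    ∃ δ : ℝ, 0 < δ ∧ ∀ h : SU N, dist (b.act h c) c ≤ δ → 1 / 2 ≤ (⟪Ω, R.ρ h⁻¹ Ω⟫_ℂ).re := by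
  have hcont : Continuous fun h : SU N => (⟪Ω, R.ρ h⁻¹ Ω⟫_ℂ).re := by
    refine Complex.continuous_re.comp (continuous_const.inner ?_)
    have h1 : Continuous fun h : SU N => LinearMap.toContinuousLinearMap (R.ρ h⁻¹) :=
      R.continuous.comp continuous_inv
    exact h1.clm_apply continuous_const
  obtain ⟨δ, hδ, h⟩ := exists_near_stab b c (U := {h : SU N | 1 / 2 < (⟪Ω, R.ρ h⁻¹ Ω⟫_ℂ).re})
    (isOpen_lt continuous_const hcont) (fun h hh => by
      have h1 : R.ρ h⁻¹ Ω = Ω := by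
        have h2 := Cov837.rho_inv_apply (g := h) R Ω
        rwa [hn h hh] at h2
      show 1 / 2 < (⟪Ω, R.ρ h⁻¹ Ω⟫_ℂ).re
      rw [h1, inner_self_eq_norm_sq_to_K, hΩ]
      norm_num)
  exact ⟨δ, hδ, fun k hk => (h k hk).le⟩

/-- the difference of the conjugated quadratic form -/
def dif (b : ColorBasis N) (A : Cfg N →ₗ[ℝ] Cfg N) (h : SU N) : Cfg N →L[ℝ] Cfg N :=
  LinearMap.toContinuousLinearMap
    ((((Cov837.actL b h).symm.toLinearEquiv : Cfg N →ₗ[ℝ] Cfg N) ∘ₗ A ∘ₗ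
      ((Cov837.actL b h).toLinearEquiv : Cfg N →ₗ[ℝ] Cfg N)) - A)

theorem dif_apply (b : ColorBasis N) (A : Cfg N →ₗ[ℝ] Cfg N) (h : SU N) (u : Cfg N) :
    dif b A h u = b.act h⁻¹ (A (b.act h u)) - A u := rfl

attribute [irreducible] dif

theorem act_cont₂ (b : ColorBasis N) : Continuous fun p : SU N × Cfg N => b.act p.1 p.2 :=
  Cov837.act_continuous₂ b

theorem dif_cont_apply (b : ColorBasis N) (A : Cfg N →ₗ[ℝ] Cfg N) (u : Cfg N) :
    Continuous fun h : SU N => b.act h⁻¹ (A (b.act h u)) - A u := by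
  have h1 : Continuous fun h : SU N => A (b.act h u) :=
    A.continuous_of_finiteDimensional.comp ((isoAct b).cont_left u)
  have h2 : Continuous fun h : SU N => ((h⁻¹, A (b.act h u)) : SU N × Cfg N) :=
    continuous_inv.prodMk h1
  have h3 := (act_cont₂ b).comp h2
  have h4 : ((fun p : SU N × Cfg N => b.act p.1 p.2) ∘
      fun h : SU N => ((h⁻¹, A (b.act h u)) : SU N × Cfg N)) =
      fun h : SU N => b.act h⁻¹ (A (b.act h u)) := rfl
  rw [h4] at h3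
  exact h3.sub continuous_const

theorem dif_cont (b : ColorBasis N) (A : Cfg N →ₗ[ℝ] Cfg N) : Continuous (dif b A) := by
  refine continuous_clm_apply.2 fun u => ?_
  have h : (fun h : SU N => dif b A h u) = fun h : SU N => b.act h⁻¹ (A (b.act h u)) - A u :=
    funext fun h => dif_apply b A h u
  rw [h]
  exact dif_cont_apply b A u

theorem exists_form (b : ColorBasis N) {A : Cfg N →ₗ[ℝ] Cfg N} (c : Cfg N)
    (inv : ∀ h, b.act h c = c → ∀ u, A (b.act h u) = b.act h (A u)) {δ : ℝ} (hδ : 0 < δ) :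
    ∃ η : ℝ, 0 < η ∧ ∀ h : SU N, dist (b.act h c) c ≤ η → ∀ u,
      ⟪b.act h u, A (b.act h u)⟫_ℝ ≤ ⟪u, A u⟫_ℝ + δ * ‖u‖ ^ 2 := by
  obtain ⟨η, hη, h⟩ := exists_near_stab b c (U := {h : SU N | ‖dif b A h‖ < δ})
    (isOpen_lt (dif_cont b A).norm continuous_const) (fun h hh => by
      have h1 : dif b A h = 0 := by
        ext1 u
        rw [dif_apply, inv h hh u, Cov837.act_inv_act, sub_self]
        rfl
      show ‖dif b A h‖ < δ
      rw [h1, norm_zero]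
      exact hδ)
  refine ⟨η, hη, fun k hk u => ?_⟩
  have h1 : ‖dif b A k‖ < δ := h k hk
  have h2 : ⟪b.act k u, A (b.act k u)⟫_ℝ = ⟪u, A u⟫_ℝ + ⟪u, dif b A k u⟫_ℝ := by
    rw [dif_apply, inner_sub_right]
    have h3 : ⟪b.act k u, A (b.act k u)⟫_ℝ = ⟪u, b.act k⁻¹ (A (b.act k u))⟫_ℝ := by
      conv_lhs => rw [← Cov837.act_act_inv (b := b) (g := k) (A (b.act k u))]
      exact Cov837.inner_act _ _ _ _
    rw [h3]
    ring
  rw [h2]
  have h3 : ⟪u, dif b A k u⟫_ℝ ≤ ‖u‖ * ‖dif b A k u‖ := real_inner_le_norm _ _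
  have h4 : ‖dif b A k u‖ ≤ δ * ‖u‖ :=
    ((dif b A k).le_opNorm u).trans (mul_le_mul_of_nonneg_right h1.le (norm_nonneg _))
  have h5 := mul_le_mul_of_nonneg_left h4 (norm_nonneg u)
  nlinarith

/-! ## vacuum configurations along the orbit -/

theorem wpot_zero_orbit {G : GammaNine} {c : Cfg N} (hc : ∀ α β B, wpot b G 1 1 α β B c = 0)
    {g : ℝ} (hg : 0 < g) (h : SU N) (α β : Fin 16) (B : Fin (N ^ 2 - 1)) :
    wpot b G g 1 α β B (b.act h (g⁻¹ • c)) = 0 := by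
  rw [Brid837.isCov_wpot h (g⁻¹ • c) α β B]
  refine Finset.sum_eq_zero fun C _ => ?_
  have h1 := wpot_shift b G (hc α β C) hg.ne' 0
  rw [add_zero] at h1
  have h2 : wpot b G 1 0 α β C (0 : Cfg N) = 0 := by
    unfold wpot; simp
  have h3 : wlin b G c α β C 0 = 0 := by
    unfold wlin
    rw [add_zero, h2]; ring
  rw [h1, h2, h3]
  simp

/-! ## the overlap -/

/-- the scalar profile -/
def prof (r : ℝ) (A : Cfg N →ₗ[ℝ] Cfg N) (u : Cfg N) : ℝ :=
  cut r u * Real.exp (-(1 / 2) * ⟪u, A u⟫_ℝ)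

theorem f0_eq (r : ℝ) (A : Cfg N →ₗ[ℝ] Cfg N) (Ω : F) (u : Cfg N) :
    f0 r A Ω u = prof r A u • Ω := by
  unfold f0 gau prof
  rw [smul_smul]

theorem prof_nonneg (r : ℝ) (A : Cfg N →ₗ[ℝ] Cfg N) (u : Cfg N) : 0 ≤ prof r A u :=
  mul_nonneg (cut_nonneg _ _) (Real.exp_pos _).le

theorem prof_cont (r : ℝ) (A : Cfg N →ₗ[ℝ] Cfg N) : Continuous (prof r A) :=
  (cut_smooth r).continuous.mul (gexp_cont A (1 / 2))

/-- the scalar overlap integral -/
def ovJ (b : ColorBasis N) (r : ℝ) (A : Cfg N →ₗ[ℝ] Cfg N) (h : SU N) (τ : Cfg N) : ℝ :=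
  ∫ u, prof r A u * prof r A (τ + b.act h u)

theorem ov_eq (R : GaugeAction b M) (r : ℝ) (A : Cfg N →ₗ[ℝ] Cfg N) (Ω : F) (p : Cfg N)
    (h : SU N) :
    (∫ x, ⟪floc r A Ω p x, R.ρ h⁻¹ (floc r A Ω p (b.act h x))⟫_ℂ) =
      (ovJ b r A h (b.act h p - p) : ℂ) * ⟪Ω, R.ρ h⁻¹ Ω⟫_ℂ := by
  rw [← integral_add_left_eq_self _ p]
  have h1 : ∀ u, ⟪floc r A Ω p (p + u), R.ρ h⁻¹ (floc r A Ω p (b.act h (p + u)))⟫_ℂ =
      ((prof r A u * prof r A ((b.act h p - p) + b.act h u) : ℝ) : ℂ) * ⟪Ω, R.ρ h⁻¹ Ω⟫_ℂ := by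
    intro u
    unfold floc
    rw [add_sub_cancel_left, Cov837.act_add, add_sub_right_comm, f0_eq, f0_eq,
      ← Complex.coe_smul, ← Complex.coe_smul, map_smul, inner_smul_left, inner_smul_right,
      Complex.conj_ofReal]
    push_cast
    ring
  simp only [h1]
  rw [integral_mul_const, integral_complex_ofReal]
  rfl

theorem ovJ_nonneg (b : ColorBasis N) (r : ℝ) (A : Cfg N →ₗ[ℝ] Cfg N) (h : SU N) (τ : Cfg N) :
    0 ≤ ovJ b r A h τ :=
  integral_nonneg fun u => mul_nonneg (prof_nonneg _ _ _) (prof_nonneg _ _ _)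

theorem ovJ_lower {A : Cfg N →ₗ[ℝ] Cfg N} (symm : ∀ u v, ⟪A u, v⟫_ℝ = ⟪u, A v⟫_ℝ)
    (pos : ∀ u, 0 ≤ ⟪u, A u⟫_ℝ) {r : ℝ} (hr : 0 < r) {h : SU N} {τ : Cfg N}
    (hτ : ‖τ‖ ≤ r / 2) (hS : ⟪τ, A τ⟫_ℝ ≤ 1)
    (hf : ∀ u, ⟪b.act h u, A (b.act h u)⟫_ℝ ≤ ⟪u, A u⟫_ℝ + 1 / r ^ 2 * ‖u‖ ^ 2) :
    Real.exp (-2) * gint A (3 / 2) (r / 2) ≤ ovJ b r A h τ := by
  have hint : Integrable fun u => prof r A u * prof r A (τ + b.act h u) := by
    refine Continuous.integrable_of_hasCompactSupport ?_ ?_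
    · refine (prof_cont r A).mul ((prof_cont r A).comp (continuous_const.add ?_))
      exact (Cov837.actL b h).continuous
    · have : HasCompactSupport (prof r A) := by
        unfold prof
        exact (cut_supp hr).mul_right
      exact this.mul_right
  have h1 : ∫ u in closedBall (0 : Cfg N) (r / 2), prof r A u * prof r A (τ + b.act h u) ≤
      ovJ b r A h τ :=
    setIntegral_le_integral hint (Eventually.of_forall fun u =>
      mul_nonneg (prof_nonneg _ _ _) (prof_nonneg _ _ _))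
  refine le_trans ?_ h1
  unfold gint
  rw [← integral_const_mul]
  refine setIntegral_mono_on ((gexp_integrableOn A _ _).const_mul _) hint.integrableOn
    measurableSet_closedBall fun u hu => ?_
  rw [mem_closedBall_zero_iff] at hu
  have c1 : cut r u = 1 := cut_one hr (hu.trans (by linarith))
  have c2 : cut r (τ + b.act h u) = 1 := by
    refine cut_one hr ?_
    calc ‖τ + b.act h u‖ ≤ ‖τ‖ + ‖b.act h u‖ := norm_add_le _ _
      _ = ‖τ‖ + ‖u‖ := by rw [Cov837.norm_act]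
      _ ≤ r := by linarith
  unfold prof
  rw [c1, c2, one_mul, one_mul, ← Real.exp_add, ← Real.exp_add]
  apply Real.exp_le_exp.2
  have h2 := S_add_le symm pos τ (b.act h u)
  have h3 := hf u
  have h4 : 1 / r ^ 2 * ‖u‖ ^ 2 ≤ 1 / 4 := by
    have h5 : ‖u‖ ^ 2 ≤ (r / 2) ^ 2 := pow_le_pow_left₀ (norm_nonneg _) hu 2
    rw [one_div, inv_mul_le_iff₀ (by positivity)]
    nlinarith
  have h5 := pos u
  nlinarith

/-! ## the trial state -/

theorem dist_orbit (b : ColorBasis N) (c : Cfg N) {g : ℝ} (hg : 0 < g) (k : SU N) :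
    dist (b.act k c) c = g * dist (b.act k (g⁻¹ • c)) (g⁻¹ • c) := by
  rw [Cov837.act_smul, dist_eq_norm, dist_eq_norm, ← smul_sub, norm_smul, norm_inv,
    Real.norm_of_nonneg hg.le, ← mul_assoc, mul_inv_cancel₀ hg.ne', one_mul]

theorem dcharge_floc_supp {G : GammaNine} {r : ℝ} (hr : 0 < r) (A : Cfg N →ₗ[ℝ] Cfg N) (Ω : F)
    (p : Cfg N) (g m : ℝ) (α : Fin 16) (x : Cfg N)
    (hx : dcharge b M G g m α (floc r A Ω p) x ≠ 0) : dist x p ≤ 2 * r := by
  have h1 : x ∈ tsupport (floc r A Ω p) :=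
    Brid837.tsupport_dcharge_subset (subset_tsupport _ hx)
  have h2 : tsupport (floc r A Ω p) ⊆ closedBall p (2 * r) :=
    closure_minimal (fun y hy => floc_supp hr A Ω p hy) isClosed_closedBall
  exact h2 h1

theorem gavg_supp (R : GaugeAction b M) {f : Cfg N → F} {x : Cfg N} (hx : gavg R f x ≠ 0) :
    ∃ k : SU N, f (b.act k x) ≠ 0 := by
  by_contra h
  push Not at h
  apply hx
  unfold gavg Avg798.avg
  simp [h]

theorem trial_one (R : GaugeAction b M) {G : GammaNine} {c : Cfg N} {A : Cfg N →ₗ[ℝ] Cfg N}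
    {Ω : F} (h : VacPack b M R G c A Ω) (hc : ∀ α β B, wpot b G 1 1 α β B c = 0) {ε : ℝ}
    (hε : 0 < ε) :
    ∃ r : ℝ, 0 < r ∧ ∃ g₀ : ℝ, 0 < g₀ ∧ ∀ g : ℝ, 0 < g → g < g₀ →
      ∃ φ : Cfg N → F, IsCoreVec b R φ ∧ 0 < ∫ x, ‖φ x‖ ^ 2 ∧
        qf b M G g 1 φ ≤ ε * ∫ x, ‖φ x‖ ^ 2 ∧
        ∀ x, φ x ≠ 0 → ∃ k : SU N, dist x (b.act k (g⁻¹ • c)) ≤ 2 * r := by
  obtain ⟨C₁, hC₁0, hC₁⟩ := exists_cut0_bound (Cfg N)
  obtain ⟨C₂, hC₂0, hC₂⟩ := exists_quad_bound b G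
  set d := finrank ℝ (Cfg N) with hd
  set κ : ℝ := 1 / 2 * Real.exp (-2) with hκ
  have hκ0 : 0 < κ := by rw [hκ]; positivity
  set K : ℝ := 17 ^ d * 4 ^ d / κ with hK
  have hK0 : 0 < K := by rw [hK]; positivity
  set r : ℝ := 1 + 2 * K * C₁ ^ 2 / ε with hr_def
  have hr1 : 1 ≤ r := by
    have : 0 ≤ 2 * K * C₁ ^ 2 / ε := by positivity
    rw [hr_def]; linarith
  have hr : 0 < r := by linarith
  have hKr : K * (C₁ / r) ^ 2 ≤ ε / 2 := by
    rw [div_pow, mul_div_assoc', div_le_iff₀ (by positivity)]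
    have h1 : 2 * K * C₁ ^ 2 / ε ≤ r ^ 2 := by
      have : r ≤ r ^ 2 := by nlinarith
      rw [hr_def] at this ⊢
      linarith
    rw [div_le_iff₀ hε] at h1
    linarith
  obtain ⟨δ₁, hδ₁, hspin⟩ := exists_spin R c h.unit h.neut
  obtain ⟨η, hη, hform⟩ := exists_form b c h.inv (δ := 1 / r ^ 2) (by positivity)
  set L : ℝ := K * (C₂ * (2 * r) ^ 4) with hL
  have hL0 : 0 ≤ L := by rw [hL]; positivity
  set T : ℝ := Real.sqrt C₂ * (4 * r) ^ 3 with hT
  have hT0 : 0 ≤ T := by rw [hT]; positivity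
  refine ⟨r, hr, min (min 1 (ε / 2 / (L + 1))) (min (min δ₁ η / (4 * r)) (1 / (T + 1))), ?_, ?_⟩
  · have : 0 < min δ₁ η := lt_min hδ₁ hη
    refine lt_min (lt_min one_pos (by positivity)) (lt_min (by positivity) (by positivity))
  intro g hg hg₀
  have hg1 : g < 1 := hg₀.trans_le ((min_le_left _ _).trans (min_le_left _ _))
  have hg2 : g < ε / 2 / (L + 1) := hg₀.trans_le ((min_le_left _ _).trans (min_le_right _ _))
  have hg3 : g < min δ₁ η / (4 * r) := hg₀.trans_le ((min_le_right _ _).trans (min_le_left _ _))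
  have hg4 : g < 1 / (T + 1) := hg₀.trans_le ((min_le_right _ _).trans (min_le_right _ _))
  have hgL : g ^ 2 * L ≤ ε / 2 := by
    rw [lt_div_iff₀ (by positivity)] at hg2
    have h1 : g ^ 2 * L ≤ g * L := by
      refine mul_le_mul_of_nonneg_right ?_ hL0
      nlinarith
    nlinarith
  have hgr : g * (4 * r) < min δ₁ η := by rwa [lt_div_iff₀ (by positivity)] at hg3
  have hgT : g * T ≤ 1 := by
    rw [lt_div_iff₀ (by positivity)] at hg4
    nlinarith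
  set p : Cfg N := g⁻¹ • c with hp
  set f := floc r A Ω p with hf
  have hfs : ContDiff ℝ ∞ f := floc_smooth r A Ω p
  have hfc : HasCompactSupport f := floc_compact hr A Ω p
  have hfsupp : ∀ x, f x ≠ 0 → dist x p ≤ 2 * r := fun x hx => floc_supp hr A Ω p hx
  set I := gint A (3 / 2) (r / 2) with hI
  have hI0 : 0 < I := gint_pos A _ (by positivity)
  -- group elements moving `p` by at most `4 r`
  have hnear : ∀ k : SU N, dist (b.act k p) p ≤ 2 * (2 * r) →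
      dist (b.act k c) c ≤ δ₁ ∧ dist (b.act k c) c ≤ η := by
    intro k hk
    have h1 : dist (b.act k c) c ≤ g * (4 * r) := by
      rw [dist_orbit b c hg k]
      refine mul_le_mul_of_nonneg_left ?_ hg.le
      linarith
    exact ⟨h1.trans (hgr.le.trans (min_le_left _ _)), h1.trans (hgr.le.trans (min_le_right _ _))⟩
  have hov : ∀ k : SU N, (∫ x, ⟪f x, R.ρ k⁻¹ (f (b.act k x))⟫_ℂ).re =
      ovJ b r A k (b.act k p - p) * (⟪Ω, R.ρ k⁻¹ Ω⟫_ℂ).re := by
    intro k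
    rw [hf, ov_eq, Complex.re_ofReal_mul]
  have hlow : κ * nu b p (r / 2) * I ≤ ∫ x, ‖gavg R f x‖ ^ 2 := by
    refine gavg_lower R hfs.continuous hfsupp (by linarith) hI0.le ?_ ?_
    · intro k hk
      have hk2 : dist (b.act k p) p ≤ 2 * (2 * r) := hk.trans (by linarith)
      obtain ⟨h1, h2⟩ := hnear k hk2
      rw [hov]
      have h3 := hspin k h1
      have hτ : ‖b.act k p - p‖ ≤ r / 2 := by rwa [← dist_eq_norm]
      have hτ0 : ∀ α β B, wpot b G g 1 α β B (g⁻¹ • c + (b.act k p - p)) = 0 := by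
        intro α β B
        rw [← hp, add_sub_cancel]
        exact wpot_zero_orbit hc hg k α β B
      have hS : ⟪b.act k p - p, A (b.act k p - p)⟫_ℝ ≤ 1 := by
        refine (tau_bound h hc hg hC₂0 hC₂ hτ0).trans ?_
        have h4 : ‖b.act k p - p‖ ^ 3 ≤ (4 * r) ^ 3 :=
          pow_le_pow_left₀ (norm_nonneg _) (hτ.trans (by linarith)) 3
        calc g * Real.sqrt C₂ * ‖b.act k p - p‖ ^ 3 ≤ g * Real.sqrt C₂ * (4 * r) ^ 3 :=
              mul_le_mul_of_nonneg_left h4 (by positivity)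
          _ = g * T := by rw [hT]; ring
          _ ≤ 1 := hgT
      have h5 := ovJ_lower h.symm h.pos hr hτ hS (hform k h2)
      calc κ * I = (Real.exp (-2) * I) * (1 / 2) := by rw [hκ]; ring
        _ ≤ ovJ b r A k (b.act k p - p) * (⟪Ω, R.ρ k⁻¹ Ω⟫_ℂ).re :=
          mul_le_mul h5 h3 (by norm_num) (ovJ_nonneg _ _ _ _ _)
    · intro k hk
      rw [hov]
      exact mul_nonneg (ovJ_nonneg _ _ _ _ _) (by linarith [hspin k (hnear k hk).1])
  have hpos : 0 < ∫ x, ‖gavg R f x‖ ^ 2 := by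
    refine lt_of_lt_of_le ?_ hlow
    have := nu_pos b p (r := r / 2) (by positivity)
    positivity
  refine ⟨gavg R f, core_gavg R hfs hfc, hpos, ?_, ?_⟩
  · -- the energy
    have hup : ∀ α, ∫ x, ‖dcharge b M G g 1 α (gavg R f) x‖ ^ 2 ≤
        nu b p (2 * (2 * r)) * (((C₁ / r) ^ 2 + g ^ 2 * (C₂ * (2 * r) ^ 4)) * gint A 1 (2 * r)) := by
      intro α
      rw [dcharge_gavg R G g 1 α hfs]
      refine (gavg_upper R (continuous_dcharge b M G g 1 α (hfs.of_le (by exact_mod_cast le_top)))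
        (fun x hx => dcharge_floc_supp hr A Ω p g 1 α x hx)).trans ?_
      exact mul_le_mul_of_nonneg_left (int_dcharge_floc h hc hg hr hC₁ hC₂0 hC₂ α)
        (nu_nonneg _ _ _)
    have hqf : qf b M G g 1 (gavg R f) ≤
        nu b p (2 * (2 * r)) * (((C₁ / r) ^ 2 + g ^ 2 * (C₂ * (2 * r) ^ 4)) * gint A 1 (2 * r)) := by
      unfold qf
      have h1 : ∑ α : Fin 16, ∫ x, ‖dcharge b M G g 1 α (gavg R f) x‖ ^ 2 ≤
          ∑ _α : Fin 16, nu b p (2 * (2 * r)) *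
            (((C₁ / r) ^ 2 + g ^ 2 * (C₂ * (2 * r) ^ 4)) * gint A 1 (2 * r)) :=
        Finset.sum_le_sum fun α _ => hup α
      rw [Finset.sum_const, Finset.card_univ, Fintype.card_fin, nsmul_eq_mul] at h1
      push_cast at h1
      linarith
    have hdbl : nu b p (2 * (2 * r)) ≤ 17 ^ d * nu b p (r / 2) := by
      have h1 := nu_doubling b p (r := r / 2) (R := 2 * (2 * r)) (by positivity) (by positivity)
      have h2 : 1 + 2 * (2 * (2 * r)) / (r / 2) = 17 := by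
        field_simp
        norm_num
      rwa [h2] at h1
    have hgi : gint A 1 (2 * r) ≤ 4 ^ d * I := gint_le h.pos r
    have hE : 0 ≤ (C₁ / r) ^ 2 + g ^ 2 * (C₂ * (2 * r) ^ 4) := by positivity
    calc qf b M G g 1 (gavg R f) ≤ _ := hqf
      _ ≤ (17 ^ d * nu b p (r / 2)) *
          (((C₁ / r) ^ 2 + g ^ 2 * (C₂ * (2 * r) ^ 4)) * (4 ^ d * I)) := by
          refine mul_le_mul hdbl (mul_le_mul_of_nonneg_left hgi hE)
            (mul_nonneg hE (gint_nonneg _ _ _)) ?_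
          have := nu_nonneg b p (r / 2)
          positivity
      _ = (K * (C₁ / r) ^ 2 + g ^ 2 * L) * (κ * nu b p (r / 2) * I) := by
          rw [hL, hK]
          field_simp
      _ ≤ ε * (κ * nu b p (r / 2) * I) := by
          refine mul_le_mul_of_nonneg_right (by linarith) ?_
          have := nu_nonneg b p (r / 2)
          positivity
      _ ≤ ε * ∫ x, ‖gavg R f x‖ ^ 2 := mul_le_mul_of_nonneg_left hlow hε.le
  · intro x hx
    obtain ⟨k, hk⟩ := gavg_supp R hx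
    refine ⟨k⁻¹, ?_⟩
    have h1 := hfsupp _ hk
    have h2 := (Cov837.actL b k⁻¹).dist_map (b.act k x) p
    rw [← h2] at h1
    simp only [Cov837.actL_apply, Cov837.act_inv_act] at h1
    exact h1

end Crest.Agent.R330.TrC798

end
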