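import Crest.Agent.R330.En_87
import Crest.Agent.R330.Const_416
import Crest.Agent.R330.TrC_798
import Crest.Agent.R330.VId_87
import Crest.Agent.R330.S5Defs_798
import Crest.Agent.R330.Low_967
import Crest.Agent.R330.VacB_303
import Crest.Agent.R330.LinI_561
import Crest.Agent.R330.En_682_Mg
import Crest.Agent.R330.Moll_350
import Crest.Agent.R330.LinEx_674
import Crest.Agent.R330.WeitzG_726
import Crest.Agent.R330.Om0_331
import Crest.Agent.R330.Ims_714
import Mathlib

-- ▼ part R330/Const_87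
section

/-!
# Row 330, section 4 closed (helper87): `L42All`, `ConstZ` from `Weak` and `GapAll`
-/

set_option autoImplicit false

open MeasureTheory Filter Topology
open scoped ContDiff InnerProductSpace ENNReal
open Crest.MathPhysics.MatrixQM

noncomputable section

namespace Crest.Agent.R330.Const87

open Crest.Agent.R330.Defs478 Crest.Agent.R330.Top478 Crest.Agent.R330.Const416

/-- **(4.2)** for all data. -/
theorem l42 {N : ℕ} (hN : 0 < N) {F : Type*} [NormedAddCommGroup F] [InnerProductSpace ℂ F]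
    [FiniteDimensional ℂ F] (b : ColorBasis N) (M : FermionRep N F) (R : GaugeAction b M)
    (G : GammaNine) : L42 b M R G :=
  fun s hs => ⟨En87.C42 b G s, fun _ hφ =>
    En87.quartic_le hN b M G hs (hφ.1.of_le (WithTop.coe_le_coe.2 (le_top : (2 : ℕ∞) ≤ ⊤))) hφ.2.1⟩

theorem l42All {N : ℕ} (hN : 0 < N) : L42All N :=
  fun _ _ _ _ _ b M R G => l42 hN b M R G



end Crest.Agent.R330.Const87

end
end

-- ▼ part R330/TrD_798
section

/-!
# Row 330, S5e (helper798), part D: `Trial N` from the list of orbits and the vacuum packages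

`trial_of : OrbitsProp N → VacWpot N → VacPackProp N → Trial N`.
-/

set_option autoImplicit false
set_option linter.unusedSectionVars false
set_option linter.unusedVariables false

open MeasureTheory Filter Topology Metric Set Module Crest.MathPhysics.MatrixQM
open scoped ContDiff InnerProductSpace ENNReal NNReal

noncomputable section

namespace Crest.Agent.R330.TrD798

open Crest.Agent.R330.Defs478 Crest.Agent.R330.S5Defs798 Crest.Agent.R330.TrA798
  Crest.Agent.R330.TrC798 Crest.Agent.R330.SUgrp596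

variable {N : ℕ} {b : ColorBasis N}

/-- two different orbits have positive distance -/
theorem exists_orbit_gap (b : ColorBasis N) (x y : Cfg N)
    (hxy : ∀ h : SU N, b.act h x ≠ y) :
    ∃ D : ℝ, 0 < D ∧ ∀ k k' : SU N, D ≤ dist (b.act k x) (b.act k' y) := by
  have hx : IsCompact (range fun k : SU N => b.act k x) :=
    isCompact_range ((isoAct b).cont_left x)
  have hy : IsCompact (range fun k : SU N => b.act k y) :=
    isCompact_range ((isoAct b).cont_left y)
  have hdis : Disjoint (range fun k : SU N => b.act k x) (range fun k : SU N => b.act k y) := by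
    rw [Set.disjoint_left]
    rintro _ ⟨k, rfl⟩ ⟨k', hk'⟩
    have h1 : b.act (k'⁻¹ * k) x = y := by
      rw [Cov837.act_mul]
      have h2 : b.act k' y = b.act k x := hk'
      rw [← h2, Cov837.act_inv_act]
    exact hxy _ h1
  obtain ⟨r, hr, h⟩ := exists_pos_forall_lt_edist hx hy.isClosed hdis
  refine ⟨r, hr, fun k k' => ?_⟩
  have h1 := h _ (mem_range_self k) _ (mem_range_self k')
  rw [edist_dist] at h1
  have h2 : ((r : ℝ≥0∞)) < ENNReal.ofReal (dist (b.act k x) (b.act k' y)) := h1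
  rw [← ENNReal.ofReal_coe_nnreal] at h2
  exact ((ENNReal.ofReal_lt_ofReal_iff_of_nonneg r.2).1 h2).le

theorem trial_of (hO : OrbitsProp N) (hW : VacWpot N) (hV : VacPackProp N) : Trial N := by
  intro F _ _ _ _ b M R G ε hε
  obtain ⟨c, hc⟩ := hO b
  have hpack : ∀ l, ∃ A Ω, VacPack b M R G (c l) A Ω := fun l => hV F b M R G (c l) (hc.vac l)
  choose A Ω hP using hpack
  have hone := fun l => trial_one R (hP l) ((hW b G (c l)).1 (hc.vac l)) hε
  choose r hr g₀ hg₀ hone using hone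
  have hgap : ∀ l l', l ≠ l' → ∃ D : ℝ, 0 < D ∧ ∀ k k' : SU N,
      D ≤ dist (b.act k (c l)) (b.act k' (c l')) := fun l l' hl =>
    exists_orbit_gap b (c l) (c l') fun h hh => hl (hc.inj l l' h hh)
  have hD : ∃ D : ℝ, 0 < D ∧ ∀ l l', l ≠ l' → ∀ k k' : SU N,
      D ≤ dist (b.act k (c l)) (b.act k' (c l')) := by
    choose D hD0 hD using hgap
    have h1 : ∀ᶠ δ in 𝓝[>] (0 : ℝ), ∀ q : Nat.Partition N × Nat.Partition N,
        ∀ hq : q.1 ≠ q.2, δ < D q.1 q.2 hq := by
      refine eventually_all.2 fun q => ?_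
      by_cases hq : q.1 = q.2
      · exact Eventually.of_forall fun δ hq' => absurd hq hq'
      · filter_upwards [Ioo_mem_nhdsGT (hD0 q.1 q.2 hq)] with δ hδ hq'
        exact hδ.2
    obtain ⟨δ, hδ, hδ0⟩ := (h1.and self_mem_nhdsWithin).exists
    exact ⟨δ, hδ0, fun l l' hl k k' => (hδ (l, l') hl).le.trans (hD l l' hl k k')⟩
  obtain ⟨D, hD0, hD⟩ := hD
  have hev : ∀ᶠ g in 𝓝[>] (0 : ℝ), (∀ l, g < g₀ l) ∧
      ∀ q : Nat.Partition N × Nat.Partition N, g * (2 * r q.1 + 2 * r q.2) < D := by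
    refine Filter.Eventually.and (eventually_all.2 fun l => ?_) (eventually_all.2 fun q => ?_)
    · filter_upwards [Ioo_mem_nhdsGT (hg₀ l)] with δ hδ
      exact hδ.2
    · have h1 : 0 < 2 * r q.1 + 2 * r q.2 := by linarith [hr q.1, hr q.2]
      filter_upwards [Ioo_mem_nhdsGT (show 0 < D / (2 * r q.1 + 2 * r q.2) by positivity)]
        with δ hδ
      exact (lt_div_iff₀ h1).1 hδ.2
  obtain ⟨g₁, hg₁, hsub⟩ := mem_nhdsGT_iff_exists_Ioo_subset.1 hev
  refine ⟨g₁, hg₁, fun g hg hgg => ?_⟩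
  obtain ⟨h1, h2⟩ := hsub ⟨hg, hgg⟩
  have hφ := fun l => hone l g hg (h1 l)
  choose φ hcore hpos hqf hsupp using hφ
  refine ⟨φ, hcore, hpos, hqf, fun l l' hl => ?_⟩
  have hts : ∀ l, tsupport (φ l) ⊆
      {x | infDist x (range fun k : SU N => b.act k (g⁻¹ • c l)) ≤ 2 * r l} := by
    intro l
    refine closure_minimal (fun x hx => ?_) (isClosed_le (continuous_infDist_pt _) continuous_const)
    obtain ⟨k, hk⟩ := hsupp l x hx
    exact (infDist_le_dist_of_mem (mem_range_self k)).trans hk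
  have hcomp : ∀ l, IsCompact (range fun k : SU N => b.act k (g⁻¹ • c l)) := fun l =>
    isCompact_range ((isoAct b).cont_left _)
  rw [Set.disjoint_left]
  intro x hx hx'
  obtain ⟨_, ⟨k, rfl⟩, hk⟩ := (hcomp l).exists_infDist_eq_dist (range_nonempty _) x
  obtain ⟨_, ⟨k', rfl⟩, hk'⟩ := (hcomp l').exists_infDist_eq_dist (range_nonempty _) x
  have e1 := hts l hx
  have e2 := hts l' hx'
  rw [mem_ofPred_eq, hk] at e1
  rw [mem_ofPred_eq, hk'] at e2
  have e3 : dist (b.act k (g⁻¹ • c l)) (b.act k' (g⁻¹ • c l')) ≤ 2 * r l + 2 * r l' := by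
    refine (dist_triangle_left _ _ x).trans ?_
    exact add_le_add e1 e2
  have e4 : dist (b.act k (g⁻¹ • c l)) (b.act k' (g⁻¹ • c l')) =
      g⁻¹ * dist (b.act k (c l)) (b.act k' (c l')) := by
    rw [Cov837.act_smul, Cov837.act_smul, dist_eq_norm, dist_eq_norm, ← smul_sub, norm_smul,
      norm_inv, Real.norm_of_nonneg hg.le]
  have e5 := hD l l' hl k k'
  have e6 := h2 (l, l')
  rw [e4, inv_mul_le_iff₀ hg] at e3
  have e7 : D ≤ g * (2 * r l + 2 * r l') := e5.trans e3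
  exact absurd e6 (not_lt.2 e7)

end Crest.Agent.R330.TrD798

end
end

-- ▼ part R330/VacW_8
section

/-!
# Row 330, S5a1' (helper8): `VacWpot N`

The zeros of the potential are the zeros of all coefficients `wpot 1 1`.
-/

set_option autoImplicit false

open Crest.MathPhysics.MatrixQM

namespace Crest.Agent.R330.VacW8

open Crest.Agent.R330.Defs478 Crest.Agent.R330.CoerCfg87 Crest.Agent.R330.S5Defs798
  Crest.Agent.R330.VId87

variable {N : ℕ}

theorem Vcyc_nonneg (b : ColorBasis N) (g m : ℝ) (x : Cfg N) : 0 ≤ Vcyc b g m x :=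
  Finset.sum_nonneg fun _ _ => Finset.sum_nonneg fun _ _ => sq_nonneg _

theorem Vhi_nonneg (x : Cfg N) : 0 ≤ Vhi x :=
  Finset.sum_nonneg fun _ _ => Finset.sum_nonneg fun _ _ => sq_nonneg _

/-- the high components vanish -/
theorem comp_zero {x : Cfg N} (h : Vhi x = 0) {j : Fin 9} (hj : ¬ (j : ℕ) < 3)
    (A : Fin (N ^ 2 - 1)) : CoerCfg87.comp x j A = 0 := by
  unfold Vhi at h
  have h1 := (Finset.sum_eq_zero_iff_of_nonneg (fun i _ =>
    Finset.sum_nonneg fun A _ => sq_nonneg _)).1 h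
  have hj' : (j : ℕ) - 3 < 6 := by omega
  have h2 := (Finset.sum_eq_zero_iff_of_nonneg (fun A _ => sq_nonneg _)).1
    (h1 ⟨(j : ℕ) - 3, hj'⟩ (Finset.mem_univ _)) A (Finset.mem_univ _)
  have h3 : (⟨((⟨(j : ℕ) - 3, hj'⟩ : Fin 6) : ℕ) + 3, by omega⟩ : Fin 9) = j := by
    ext
    simp only []
    omega
  rw [h3] at h2
  exact pow_eq_zero_iff (two_ne_zero) |>.1 h2

theorem Voth_zero (b : ColorBasis N) {x : Cfg N} (h : Vhi x = 0) : Voth b x = 0 := by
  unfold Voth
  refine mul_eq_zero_of_right _ (Finset.sum_eq_zero fun A _ => Finset.sum_eq_zero fun i _ =>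
    Finset.sum_eq_zero fun j _ => ?_)
  split_ifs with hij
  · rfl
  · have h0 : br b (CoerCfg87.comp x i) (CoerCfg87.comp x j) A = 0 := by
      unfold br
      refine Finset.sum_eq_zero fun B _ => Finset.sum_eq_zero fun C _ => ?_
      rcases not_and_or.1 hij with hi | hj
      · rw [comp_zero h hi]; ring
      · rw [comp_zero h hj]; ring
    rw [h0]; norm_num

/-- LEAF S5a1' -/
theorem vacWpot (N : ℕ) : VacWpot N := by
  intro b G c
  have h0 : ∀ x : Cfg N, Vsq G b 1 1 x = 0 ↔ ∀ α β A, wpot b G 1 1 α β A x = 0 := by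
    intro x
    unfold Vsq
    constructor
    · intro h α β A
      have h1 : ∑ α : Fin 16, ∑ β : Fin 16, ∑ A : Fin (N ^ 2 - 1), (wpot b G 1 1 α β A x) ^ 2 = 0 := by
        linarith
      have h2 := (Finset.sum_eq_zero_iff_of_nonneg (fun α _ => Finset.sum_nonneg fun β _ =>
        Finset.sum_nonneg fun A _ => sq_nonneg _)).1 h1 α (Finset.mem_univ _)
      have h3 := (Finset.sum_eq_zero_iff_of_nonneg (fun β _ =>
        Finset.sum_nonneg fun A _ => sq_nonneg _)).1 h2 β (Finset.mem_univ _)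
      have h4 := (Finset.sum_eq_zero_iff_of_nonneg (fun A _ => sq_nonneg _)).1 h3 A
        (Finset.mem_univ _)
      exact pow_eq_zero_iff (two_ne_zero) |>.1 h4
    · intro h
      simp only [h]
      simp
  rw [← h0, Vsq_eq]
  have h1 := Vcyc_nonneg b 1 1 c
  have h2 := Vhi_nonneg c
  have h3 := Voth_nonneg b c
  constructor
  · rintro ⟨h4, h5⟩
    rw [h4, h5, Voth_zero b h5]
    ring
  · intro h
    constructor <;> nlinarith

end Crest.Agent.R330.VacW8
end

-- ▼ part R330/LowFin_967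
section

/-!
# Row 330, field `low` (helper967): `Trial N` and `Lower N`, unconditional
-/

set_option autoImplicit false

noncomputable section

namespace Crest.Agent.R330.LowFin967

open Crest.Agent.R330.S5Defs798

theorem trial {N : ℕ} (hN : 0 < N) : Trial N :=
  TrD798.trial_of (Vacua303.orbitsProp hN) (VacW8.vacWpot N) (Crest.Agent.R330.Lin561.vacPackProp N)

/-- **FIELD `low`** -/
theorem lower {N : ℕ} (hN : 0 < N) : Lower N := Low967.lower_of (trial hN)

end Crest.Agent.R330.LowFin967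

end
end

-- ▼ part R330/UpFin_8
section

/-!
# Row 330, field `up` (helper8): `Upper N` from the two remaining leaves
-/

set_option autoImplicit false

namespace Crest.Agent.R330.UpFin8

open Crest.Agent.R330.S5Defs798

theorem upper {N : ℕ} (hN : 0 < N) (hP : VacPackProp N) (hL : LiouvilleProp N) : Upper N :=
  Up8.upper_of (Vacua303.orbitsProp hN) hP (VacW8.vacWpot N) hL (En682.en_prop hN)
    (En682.vz_prop hN)

end Crest.Agent.R330.UpFin8
end

-- ▼ part R330/Agmon_350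
section

/-!
Row 330 (helper350), leaf S5.U4-AGMON: Liouville theorem for zero modes of a family of first order
operators `D_α φ = Σ_k a_αk (-i ∂_k φ) + V_α φ` (Lipschitz potentials).  If on test functions
`Σ_α ‖D_α φ‖² ≥ ∫ (c |x|² - C) |φ|²` (confinement) and
`Σ_α ‖D_α φ‖² ≥ w₀ (‖φ‖² - |⟨Φ, φ⟩|²)`, then every locally square integrable weak solution `f` of
`D_α f = 0` (all `α`) with `∫ e^{-K|x|} |f|² < ∞` is a multiple of `Φ`.  No elliptic regularity.
-/

set_option autoImplicit false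
set_option linter.unusedSectionVars false
set_option linter.deprecated false

noncomputable section

namespace Crest.Agent.R330.Agmon350

open MeasureTheory Filter Topology Crest.Agent.R330.IBP837 Crest.Agent.R330.Moll350
open scoped ContDiff InnerProductSpace ENNReal

/-! ### 1. Unit step cut-offs -/

section Cut

theorem exists_deriv_bound : ∃ K : ℝ, 0 < K ∧ ∀ t : ℝ, |deriv Real.smoothTransition t| ≤ K := by
  have hc : Continuous (deriv Real.smoothTransition) :=
    (Real.smoothTransition.contDiff (n := 1)).continuous_deriv (by norm_num)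
  obtain ⟨K, hK⟩ := (isCompact_Icc (a := (0 : ℝ)) (b := 1)).exists_bound_of_continuousOn
    hc.continuousOn
  refine ⟨max K 1, by positivity, fun t => ?_⟩
  by_cases h0 : t < 0
  · have : deriv Real.smoothTransition t = 0 := by
      have h : Real.smoothTransition =ᶠ[𝓝 t] fun _ => (0 : ℝ) := by
        filter_upwards [gt_mem_nhds h0] with s hs
        exact Real.smoothTransition.zero_of_nonpos hs.le
      rw [h.deriv_eq, deriv_const]
    rw [this]; simp
  · by_cases h1 : 1 < t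
    · have : deriv Real.smoothTransition t = 0 := by
        have h : Real.smoothTransition =ᶠ[𝓝 t] fun _ => (1 : ℝ) := by
          filter_upwards [lt_mem_nhds h1] with s hs
          exact Real.smoothTransition.one_of_one_le hs.le
        rw [h.deriv_eq, deriv_const]
      rw [this]; simp
    · push Not at h0 h1
      have := hK t ⟨h0, h1⟩
      rw [Real.norm_eq_abs] at this
      exact this.trans (le_max_left _ _)

variable {E : Type*} [NormedAddCommGroup E] [InnerProductSpace ℝ E]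

/-- `1` on `|x| ≤ R`, `0` for `|x| ≥ R + 1`. -/
def cut (R : ℝ) (x : E) : ℝ := Real.smoothTransition (((R + 1) ^ 2 - ‖x‖ ^ 2) / (2 * R + 1))

theorem cut_contDiff (R : ℝ) {n : ℕ∞} : ContDiff ℝ n (cut (E := E) R) := by
  unfold cut
  exact Real.smoothTransition.contDiff.comp
    ((contDiff_const.sub (contDiff_norm_sq ℝ)).div_const _)

theorem cut_one {R : ℝ} (hR : 0 ≤ R) {x : E} (hx : ‖x‖ ≤ R) : cut R x = 1 := by
  refine Real.smoothTransition.one_of_one_le ?_
  rw [le_div_iff₀ (by positivity)]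
  nlinarith [norm_nonneg x]

theorem cut_zero {R : ℝ} (hR : 0 ≤ R) {x : E} (hx : R + 1 ≤ ‖x‖) : cut R x = 0 := by
  refine Real.smoothTransition.zero_of_nonpos ?_
  refine div_nonpos_of_nonpos_of_nonneg ?_ (by positivity)
  nlinarith [norm_nonneg x]

theorem cut_nonneg (R : ℝ) (x : E) : 0 ≤ cut R x := Real.smoothTransition.nonneg _

theorem cut_le_one (R : ℝ) (x : E) : cut R x ≤ 1 := Real.smoothTransition.le_one _


theorem cut_fderiv_inner {R : ℝ} (hR : 0 ≤ R) {x : E} (hx : ‖x‖ < R) :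
    fderiv ℝ (cut R) x = 0 := by
  have h : cut (E := E) R =ᶠ[𝓝 x] fun _ => (1 : ℝ) := by
    have : ∀ᶠ y in 𝓝 x, ‖y‖ < R := continuous_norm.continuousAt.eventually (gt_mem_nhds hx)
    filter_upwards [this] with y hy
    exact cut_one hR hy.le
  rw [h.fderiv_eq]
  simp

theorem cut_fderiv_outer {R : ℝ} (hR : 0 ≤ R) {x : E} (hx : R + 1 < ‖x‖) :
    fderiv ℝ (cut R) x = 0 := by
  have h : cut (E := E) R =ᶠ[𝓝 x] fun _ => (0 : ℝ) := by
    have : ∀ᶠ y in 𝓝 x, R + 1 < ‖y‖ := continuous_norm.continuousAt.eventually (lt_mem_nhds hx)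
    filter_upwards [this] with y hy
    exact cut_zero hR hy.le
  rw [h.fderiv_eq]
  simp

theorem cut_fderiv_bound : ∃ K : ℝ, 0 < K ∧ ∀ R : ℝ, 0 ≤ R → ∀ x : E,
    ‖fderiv ℝ (cut R) x‖ ≤ K := by
  obtain ⟨K, hK, hKb⟩ := exists_deriv_bound
  refine ⟨2 * K, by positivity, fun R hR x => ?_⟩
  by_cases hx : R + 1 < ‖x‖
  · rw [cut_fderiv_outer hR hx]; simp; positivity
  push Not at hx
  have hu : HasFDerivAt (fun y : E => ((R + 1) ^ 2 - ‖y‖ ^ 2) / (2 * R + 1))
      ((2 * R + 1)⁻¹ • (-(2 • (innerSL ℝ x) : E →L[ℝ] ℝ))) x := by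
    have h1 : HasFDerivAt (fun y : E => ‖y‖ ^ 2) (2 • (innerSL ℝ x)) x :=
      (hasStrictFDerivAt_norm_sq x).hasFDerivAt
    have h2 := (h1.const_sub ((R + 1) ^ 2)).const_mul ((2 * R + 1)⁻¹)
    refine h2.congr_of_eventuallyEq (Eventually.of_forall fun y => ?_)
    simp only
    rw [div_eq_inv_mul]
  have hs : HasDerivAt Real.smoothTransition (deriv Real.smoothTransition
      (((R + 1) ^ 2 - ‖x‖ ^ 2) / (2 * R + 1))) (((R + 1) ^ 2 - ‖x‖ ^ 2) / (2 * R + 1)) :=
    ((Real.smoothTransition.contDiff (n := 1)).differentiable (by norm_num) _).hasDerivAt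
  have hcomp := hs.comp_hasFDerivAt x hu
  have he : fderiv ℝ (cut R) x = deriv Real.smoothTransition
      (((R + 1) ^ 2 - ‖x‖ ^ 2) / (2 * R + 1)) • ((2 * R + 1)⁻¹ • (-(2 • (innerSL ℝ x) : E →L[ℝ] ℝ))) :=
    hcomp.fderiv
  rw [he, norm_smul, norm_smul, norm_neg, Real.norm_eq_abs, Real.norm_eq_abs,
    abs_of_pos (by positivity : (0 : ℝ) < (2 * R + 1)⁻¹)]
  have h3 : ‖(2 • (innerSL ℝ x) : E →L[ℝ] ℝ)‖ ≤ 2 * ‖x‖ := by
    refine (norm_nsmul_le).trans ?_
    rw [innerSL_apply_norm]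
    norm_num
  have h4 : (2 * R + 1)⁻¹ * ‖(2 • (innerSL ℝ x) : E →L[ℝ] ℝ)‖ ≤ 2 := by
    rw [inv_mul_le_iff₀ (by positivity)]
    refine h3.trans ?_
    nlinarith
  calc _ ≤ K * 2 := by
        gcongr
        · exact hKb _
    _ = 2 * K := by ring

end Cut

/-! ### 2. Transfer of form inequalities from test functions to `χ f` -/

section Transfer

variable {κ : Type*} [Fintype κ] [DecidableEq κ]
  {F : Type*} [NormedAddCommGroup F] [InnerProductSpace ℂ F] [FiniteDimensional ℂ F]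

/-- Commutator with a cut-off. -/
def cmt (a : κ → F →ₗ[ℂ] F) (χ : EuclideanSpace ℝ κ → ℝ) (f : EuclideanSpace ℝ κ → F)
    (x : EuclideanSpace ℝ κ) : F :=
  ∑ k, (-Complex.I) • (fderiv ℝ χ x (EuclideanSpace.single k 1)) • a k (f x)

/-- `f` is square integrable on every ball. -/
def L2loc (f : EuclideanSpace ℝ κ → F) : Prop :=
  ∀ R : ℝ, MemLp f 2 (volume.restrict (Metric.closedBall 0 R))

theorem L2loc.locallyIntegrable {f : EuclideanSpace ℝ κ → F} (hf : L2loc f) :
    LocallyIntegrable f volume := by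
  intro x
  refine ⟨Metric.closedBall 0 (‖x‖ + 1), ?_, ?_⟩
  · have h : Metric.ball (0 : EuclideanSpace ℝ κ) (‖x‖ + 1) ∈ 𝓝 x :=
      Metric.isOpen_ball.mem_nhds (by simp)
    exact Filter.mem_of_superset h Metric.ball_subset_closedBall
  · have : IsFiniteMeasure ((volume : Measure (EuclideanSpace ℝ κ)).restrict
        (Metric.closedBall 0 (‖x‖ + 1))) :=
      ⟨by rw [Measure.restrict_apply_univ]; exact measure_closedBall_lt_top⟩
    exact (hf (‖x‖ + 1)).integrable (by norm_num)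

theorem L2loc.aesm {f : EuclideanSpace ℝ κ → F} (hf : L2loc f) :
    AEStronglyMeasurable f volume := hf.locallyIntegrable.aestronglyMeasurable

theorem L2loc.memLp_of_bound {f u : EuclideanSpace ℝ κ → F} (hf : L2loc f) {M R : ℝ}
    (hu : AEStronglyMeasurable u volume) (hb : ∀ x, ‖u x‖ ≤ M * ‖f x‖)
    (h0 : ∀ x, R < ‖x‖ → u x = 0) : MemLp u 2 volume := by
  have h1 : MemLp ((Metric.closedBall (0 : EuclideanSpace ℝ κ) R).indicator f) 2 volume :=
    (memLp_indicator_iff_restrict Metric.isClosed_closedBall.measurableSet).mpr (hf R)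
  refine h1.of_le_mul (c := M) hu (Eventually.of_forall fun x => ?_)
  by_cases hx : R < ‖x‖
  · rw [h0 x hx]
    simp only [norm_zero]
    by_cases hM : 0 ≤ M
    · positivity
    · have : x ∉ Metric.closedBall (0 : EuclideanSpace ℝ κ) R := by simpa using hx
      rw [Set.indicator_of_notMem this]
      simp
  · have : x ∈ Metric.closedBall (0 : EuclideanSpace ℝ κ) R := by simpa using hx
    rw [Set.indicator_of_mem this]
    exact hb x

theorem integrable_inner_loc {f ψ : EuclideanSpace ℝ κ → F} (hf : LocallyIntegrable f volume)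
    (hψ : Continuous ψ) (hc : HasCompactSupport ψ) : Integrable (fun x => ⟪f x, ψ x⟫_ℂ) := by
  have h : Integrable (fun x => ‖ψ x‖ • f x) :=
    hf.integrable_smul_left_of_hasCompactSupport hψ.norm hc.norm
  refine h.norm.mono' (hf.aestronglyMeasurable.inner hψ.aestronglyMeasurable)
    (Eventually.of_forall fun x => ?_)
  refine (norm_inner_le_norm _ _).trans (le_of_eq ?_)
  rw [norm_smul, norm_norm, mul_comm]

variable {a : κ → F →ₗ[ℂ] F} {V : EuclideanSpace ℝ κ → F →ₗ[ℂ] F}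

theorem continuous_cmt {χ : EuclideanSpace ℝ κ → ℝ} (hχ : ContDiff ℝ 1 χ)
    {ψ : EuclideanSpace ℝ κ → F} (hψ : Continuous ψ) : Continuous (cmt a χ ψ) := by
  unfold cmt
  refine continuous_finset_sum _ fun k _ => ?_
  refine Continuous.const_smul ?_ _
  exact ((hχ.continuous_fderiv (by norm_num)).clm_apply continuous_const).smul
    ((LinearMap.continuous_of_finiteDimensional (a k)).comp hψ)

theorem aesm_cmt {χ : EuclideanSpace ℝ κ → ℝ} (hχ : ContDiff ℝ 1 χ)
    {f : EuclideanSpace ℝ κ → F} (hf : AEStronglyMeasurable f volume) :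
    AEStronglyMeasurable (cmt a χ f) volume := by
  unfold cmt
  refine Finset.aestronglyMeasurable_fun_sum _ fun k _ => ?_
  refine AEStronglyMeasurable.const_smul ?_ _
  exact ((hχ.continuous_fderiv (by norm_num)).clm_apply
    continuous_const).aestronglyMeasurable.smul
    ((LinearMap.continuous_of_finiteDimensional (a k)).comp_aestronglyMeasurable hf)

theorem weak_cut (ha : ∀ k, (a k).IsSymmetric) (hV : ∀ v, Continuous fun x => V x v)
    {f : EuclideanSpace ℝ κ → F} (hf : LocallyIntegrable f volume)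
    {χ : EuclideanSpace ℝ κ → ℝ} (hχ : ContDiff ℝ ∞ χ)
    (hw : ∀ ψ : EuclideanSpace ℝ κ → F, ContDiff ℝ ∞ ψ → HasCompactSupport ψ →
      ∫ x, ⟪f x, dirac a V ψ x⟫_ℂ = 0)
    {ψ : EuclideanSpace ℝ κ → F} (hψ : ContDiff ℝ ∞ ψ) (hψc : HasCompactSupport ψ) :
    ∫ x, ⟪χ x • f x, dirac a V ψ x⟫_ℂ = ∫ x, ⟪cmt a χ f x, ψ x⟫_ℂ := by
  have h0 := hw (fun y => χ y • ψ y) (hχ.smul hψ) hψc.smul_left
  have hpt : ∀ x, ⟪f x, dirac a V (fun y => χ y • ψ y) x⟫_ℂ =
      ⟪f x, χ x • dirac a V ψ x⟫_ℂ + ⟪f x, cmt a χ ψ x⟫_ℂ := by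
    intro x
    rw [dirac_leibniz (hχ.differentiable (by simp) x) (hψ.differentiable (by simp) x),
      inner_add_right]
    rfl
  have hI1 : Integrable (fun x => ⟪f x, χ x • dirac a V ψ x⟫_ℂ) :=
    integrable_inner_loc hf (hχ.continuous.smul (continuous_dirac hV (hψ.of_le (by simp))))
      (hasCompactSupport_dirac hψc).smul_left
  have hcc : HasCompactSupport (cmt a χ ψ) := by
    refine hψc.mono' fun x hx => subset_tsupport _ ?_
    intro h0; apply hx; simp [cmt, h0]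
  have hI2 : Integrable (fun x => ⟪f x, cmt a χ ψ x⟫_ℂ) :=
    integrable_inner_loc hf (continuous_cmt (hχ.of_le (by simp)) hψ.continuous) hcc
  rw [integral_congr_ae (Eventually.of_forall hpt), integral_add hI1 hI2] at h0
  have e1 : ∫ x, ⟪χ x • f x, dirac a V ψ x⟫_ℂ = ∫ x, ⟪f x, χ x • dirac a V ψ x⟫_ℂ := by
    refine integral_congr_ae (Eventually.of_forall fun x => ?_)
    simp only
    rw [inner_rs_left, inner_rs_right]
  have e2 : ∫ x, ⟪cmt a χ f x, ψ x⟫_ℂ = - ∫ x, ⟪f x, cmt a χ ψ x⟫_ℂ := by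
    rw [← integral_neg]
    refine integral_congr_ae (Eventually.of_forall fun x => ?_)
    simp only [cmt]
    rw [sum_inner, inner_sum, ← Finset.sum_neg_distrib]
    refine Finset.sum_congr rfl fun k _ => ?_
    rw [inner_smul_left, inner_smul_right, inner_rs_left, inner_rs_right, ha k]
    simp
  rw [e1, e2]
  linear_combination h0

theorem sum_sq_fderiv_le (L : EuclideanSpace ℝ κ →L[ℝ] ℝ) :
    ∑ k, (L (EuclideanSpace.single k 1)) ^ 2 ≤ ‖L‖ ^ 2 := by
  set s := ∑ k, (L (EuclideanSpace.single k 1)) ^ 2 with hs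
  set v : EuclideanSpace ℝ κ := ∑ k, L (EuclideanSpace.single k 1) • EuclideanSpace.single k 1
    with hv
  have hs0 : 0 ≤ s := Finset.sum_nonneg fun _ _ => sq_nonneg _
  have h1 : L v = s := by
    rw [hv, map_sum, hs]
    refine Finset.sum_congr rfl fun k _ => ?_
    rw [map_smul, smul_eq_mul, sq]
  have h2 : ‖v‖ ^ 2 = s := by
    rw [EuclideanSpace.norm_sq_eq, hs]
    refine Finset.sum_congr rfl fun k _ => ?_
    rw [hv]
    simp [Finset.sum_apply, Pi.single_apply]
  have h3 : s ≤ ‖L‖ * ‖v‖ := by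
    rw [← h1]
    exact (le_abs_self _).trans (L.le_opNorm v)
  have h4 : s ^ 2 ≤ ‖L‖ ^ 2 * s := by
    calc s ^ 2 ≤ (‖L‖ * ‖v‖) ^ 2 := by gcongr
      _ = ‖L‖ ^ 2 * s := by rw [mul_pow, h2]
  by_contra hne
  push Not at hne
  have : 0 < s := lt_of_le_of_lt (sq_nonneg _) hne
  nlinarith

/-- Clifford type bound. -/
def CliffBd {ι : Type*} [Fintype ι] (a : ι → κ → F →ₗ[ℂ] F) (C₀ : ℝ) : Prop :=
  ∀ (η : κ → ℝ) (v : F), ∑ α, ‖∑ k, η k • a α k v‖ ^ 2 ≤ C₀ * (∑ k, η k ^ 2) * ‖v‖ ^ 2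

theorem norm_cmt (χ : EuclideanSpace ℝ κ → ℝ) (f : EuclideanSpace ℝ κ → F)
    (x : EuclideanSpace ℝ κ) :
    ‖cmt a χ f x‖ = ‖∑ k, (fderiv ℝ χ x (EuclideanSpace.single k 1)) • a k (f x)‖ := by
  unfold cmt
  rw [← Finset.smul_sum, norm_smul]
  simp

variable {ι : Type*} [Fintype ι] {A : ι → κ → F →ₗ[ℂ] F}
  {W : ι → EuclideanSpace ℝ κ → F →ₗ[ℂ] F}

theorem sum_norm_cmt_le {C₀ : ℝ} (hC : 0 ≤ C₀) (hcl : CliffBd A C₀)
    (χ : EuclideanSpace ℝ κ → ℝ) (f : EuclideanSpace ℝ κ → F) (x : EuclideanSpace ℝ κ) :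
    ∑ α, ‖cmt (A α) χ f x‖ ^ 2 ≤ C₀ * ‖fderiv ℝ χ x‖ ^ 2 * ‖f x‖ ^ 2 := by
  simp only [norm_cmt]
  refine (hcl _ _).trans ?_
  gcongr
  exact sum_sq_fderiv_le _

theorem norm_cmt_le {C₀ : ℝ} (hC : 0 ≤ C₀) (hcl : CliffBd A C₀)
    {χ : EuclideanSpace ℝ κ → ℝ} {K : ℝ} (f : EuclideanSpace ℝ κ → F) (x : EuclideanSpace ℝ κ)
    (hK : ‖fderiv ℝ χ x‖ ≤ K) (α : ι) :
    ‖cmt (A α) χ f x‖ ≤ (Real.sqrt C₀ * K) * ‖f x‖ := by
  have h1 : ‖cmt (A α) χ f x‖ ^ 2 ≤ C₀ * ‖fderiv ℝ χ x‖ ^ 2 * ‖f x‖ ^ 2 :=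
    (Finset.single_le_sum (f := fun α => ‖cmt (A α) χ f x‖ ^ 2)
      (fun _ _ => sq_nonneg _) (Finset.mem_univ α)).trans (sum_norm_cmt_le hC hcl χ f x)
  have hK0 : 0 ≤ K := (norm_nonneg _).trans hK
  refine le_of_sq_le_sq ?_ (by positivity)
  refine h1.trans ?_
  rw [mul_pow, mul_pow, Real.sq_sqrt hC]
  gcongr

/-- Smooth approximations of `χ f` in the graph norm of all charges. -/
theorem exists_seq {C₀ L : ℝ} (hC : 0 ≤ C₀) (hcl : CliffBd A C₀)
    (hA : ∀ α k, (A α k).IsSymmetric) (hWs : ∀ α x, (W α x).IsSymmetric)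
    (hL : ∀ α, LipPot (W α) L) {f : EuclideanSpace ℝ κ → F} (hf : L2loc f)
    (hw : ∀ α, ∀ ψ : EuclideanSpace ℝ κ → F, ContDiff ℝ ∞ ψ → HasCompactSupport ψ →
      ∫ x, ⟪f x, dirac (A α) (W α) ψ x⟫_ℂ = 0)
    {χ : EuclideanSpace ℝ κ → ℝ} (hχ : ContDiff ℝ ∞ χ) {R : ℝ}
    (hχR : ∀ x, R < ‖x‖ → χ x = 0) (hχ1 : ∀ x, |χ x| ≤ 1) :
    MemLp (fun x => χ x • f x) 2 volume ∧ (∀ α, MemLp (cmt (A α) χ f) 2 volume) ∧
    ∃ φ : ℕ → EuclideanSpace ℝ κ → F, (∀ n, ContDiff ℝ ∞ (φ n)) ∧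
      (∀ n y, R + 1 < ‖y‖ → φ n y = 0) ∧ (∀ n, HasCompactSupport (φ n)) ∧
      Tendsto (fun n => eLpNorm (φ n - fun x => χ x • f x) 2 volume) atTop (𝓝 0) ∧
      ∀ α, Tendsto (fun n => eLpNorm (dirac (A α) (W α) (φ n) - cmt (A α) χ f) 2 volume)
        atTop (𝓝 0) := by
  have hχc : HasCompactSupport χ := by
    refine HasCompactSupport.intro (isCompact_closedBall (0 : EuclideanSpace ℝ κ) R)
      fun x hx => hχR x (by simpa using hx)
  have hdc : Continuous fun x => fderiv ℝ χ x := hχ.continuous_fderiv (by simp)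
  obtain ⟨K, hK⟩ := (hχc.fderiv (𝕜 := ℝ)).exists_bound_of_continuous hdc
  have hd0 : ∀ x, R < ‖x‖ → fderiv ℝ χ x = 0 := by
    intro x hx
    have h : χ =ᶠ[𝓝 x] fun _ => (0 : ℝ) := by
      have : ∀ᶠ y in 𝓝 x, R < ‖y‖ := continuous_norm.continuousAt.eventually (lt_mem_nhds hx)
      filter_upwards [this] with y hy
      exact hχR y hy
    rw [h.fderiv_eq]
    simp
  have hg : MemLp (fun x => χ x • f x) 2 volume := by
    refine hf.memLp_of_bound (M := 1) (R := R)
      (hχ.continuous.aestronglyMeasurable.smul hf.aesm) (fun x => ?_) fun x hx => ?_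
    · rw [norm_smul, Real.norm_eq_abs]
      gcongr
      exact hχ1 x
    · rw [hχR x hx, zero_smul]
  have hY : ∀ α, MemLp (cmt (A α) χ f) 2 volume := by
    intro α
    refine hf.memLp_of_bound (M := Real.sqrt C₀ * K) (R := R)
      (aesm_cmt (hχ.of_le (by simp)) hf.aesm) (fun x => norm_cmt_le hC hcl f x (hK x) α)
      fun x hx => ?_
    simp [cmt, hd0 x hx]
  refine ⟨hg, hY, weak_strong hA hWs hL hg hY (R := R) (fun y hy => by rw [hχR y hy, zero_smul])
    fun α ψ hψ hψc => ?_⟩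
  exact weak_cut (hA α) (hL α).continuous hf.locallyIntegrable hχ (hw α) hψ hψc

theorem int_inner_self {X : Type*} [MeasurableSpace X] {μ : Measure X} (f : X → F) :
    ∫ x, ⟪f x, f x⟫_ℂ ∂μ = ((∫ x, ‖f x‖ ^ 2 ∂μ : ℝ) : ℂ) := by
  rw [← integral_complex_ofReal]
  refine integral_congr_ae (Eventually.of_forall fun x => ?_)
  simp only
  rw [inner_self_eq_norm_sq_to_K]
  push_cast
  rfl

theorem tendsto_int_sq {X : Type*} [MeasurableSpace X] {μ : Measure X} {f : ℕ → X → F}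
    {f₀ : X → F} (hf : ∀ n, MemLp (f n) 2 μ) (hf₀ : MemLp f₀ 2 μ)
    (h : Tendsto (fun n => eLpNorm (f n - f₀) 2 μ) atTop (𝓝 0)) :
    Tendsto (fun n => ∫ x, ‖f n x‖ ^ 2 ∂μ) atTop (𝓝 (∫ x, ‖f₀ x‖ ^ 2 ∂μ)) := by
  have h1 := tendsto_integral_inner hf hf₀ hf hf₀ h h
  simp only [int_inner_self] at h1
  have h2 := (Complex.continuous_re.tendsto _).comp h1
  simpa [Function.comp_def] using h2

theorem tendsto_int_weight {w : EuclideanSpace ℝ κ → ℝ} (hw : Continuous w) {R : ℝ}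
    {f : ℕ → EuclideanSpace ℝ κ → F} {f₀ : EuclideanSpace ℝ κ → F}
    (hf : ∀ n, MemLp (f n) 2 volume) (hf₀ : MemLp f₀ 2 volume)
    (h0 : ∀ n y, R < ‖y‖ → f n y = 0) (h00 : ∀ y, R < ‖y‖ → f₀ y = 0)
    (h : Tendsto (fun n => eLpNorm (f n - f₀) 2 volume) atTop (𝓝 0)) :
    Tendsto (fun n => ∫ x, w x * ‖f n x‖ ^ 2) atTop (𝓝 (∫ x, w x * ‖f₀ x‖ ^ 2)) := by
  obtain ⟨M, hM⟩ := (isCompact_closedBall (0 : EuclideanSpace ℝ κ) R).exists_bound_of_continuousOn
    hw.continuousOn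
  have hb : ∀ (u : EuclideanSpace ℝ κ → F), (∀ y, R < ‖y‖ → u y = 0) →
      ∀ x, ‖w x • u x‖ ≤ max M 0 * ‖u x‖ := by
    intro u hu x
    by_cases hx : R < ‖x‖
    · rw [hu x hx]; simp
    · rw [norm_smul]
      gcongr
      exact (hM x (by simpa using hx)).trans (le_max_left _ _)
  have hm : ∀ (u : EuclideanSpace ℝ κ → F), MemLp u 2 volume → (∀ y, R < ‖y‖ → u y = 0) →
      MemLp (fun x => w x • u x) 2 volume := fun u hu h0 =>
    hu.of_le_mul (c := max M 0) (hw.aestronglyMeasurable.smul hu.1)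
      (Eventually.of_forall (hb u h0))
  have hconv : Tendsto (fun n => eLpNorm ((fun x => w x • f n x) - fun x => w x • f₀ x) 2 volume)
      atTop (𝓝 0) := by
    have h1 : Tendsto (fun n => ENNReal.ofReal (max M 0) * eLpNorm (f n - f₀) 2 volume) atTop
        (𝓝 0) := by
      have := ENNReal.Tendsto.const_mul (a := ENNReal.ofReal (max M 0)) h
        (Or.inr ENNReal.ofReal_ne_top)
      simpa using this
    refine tendsto_of_tendsto_of_tendsto_of_le_of_le tendsto_const_nhds h1 (fun _ => zero_le)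
      fun n => ?_
    refine eLpNorm_le_mul_eLpNorm_of_ae_le_mul (Eventually.of_forall fun x => ?_) 2
    have := hb (f n - f₀) (fun y hy => by simp [h0 n y hy, h00 y hy]) x
    simpa [smul_sub] using this
  have h2 := tendsto_integral_inner (fun n => hm _ (hf n) (h0 n)) (hm _ hf₀ h00) hf hf₀ hconv h
  have e : ∀ u : EuclideanSpace ℝ κ → F, ∫ x, ⟪w x • u x, u x⟫_ℂ =
      ((∫ x, w x * ‖u x‖ ^ 2 : ℝ) : ℂ) := by
    intro u
    rw [← integral_complex_ofReal]
    refine integral_congr_ae (Eventually.of_forall fun x => ?_)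
    simp only
    rw [inner_rs_left, inner_self_eq_norm_sq_to_K]
    push_cast
    rfl
  simp only [e] at h2
  have h3 := (Complex.continuous_re.tendsto _).comp h2
  simpa [Function.comp_def] using h3



end Transfer

/-! ### 3. The growth argument -/

theorem discrete {J a : ℕ → ℝ} {B D G K : ℝ} {n₀ : ℕ} (hB : 0 < B) (hD : 0 ≤ D) (hK : 0 ≤ K)
    (hrec : ∀ m ≥ n₀, a m * J m ≤ B * J (m + 1) + D) (ha : Tendsto a atTop atTop)
    (hg : ∀ m : ℕ, J m ≤ G * Real.exp (K * (m + 1))) : ∀ᶠ n in atTop, J n ≤ D := by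
  have h1 : ∀ᶠ m in atTop, B * Real.exp (K + 1) + 1 ≤ a m := ha.eventually_ge_atTop _
  rw [eventually_atTop] at h1
  obtain ⟨n₁, hn₁⟩ := h1
  rw [eventually_atTop]
  refine ⟨max n₀ n₁, fun n hn => ?_⟩
  by_contra hne
  push Not at hne
  have hexp : 1 ≤ Real.exp (K + 1) := Real.one_le_exp (by linarith)
  have hstep : ∀ m ≥ max n₀ n₁, D < J m → Real.exp (K + 1) * J m ≤ J (m + 1) := by
    intro m hm hJ
    have h2 := hrec m ((le_max_left _ _).trans hm)
    have h3 := hn₁ m ((le_max_right _ _).trans hm)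
    have hJ0 : 0 < J m := lt_of_le_of_lt hD hJ
    have h4 : (B * Real.exp (K + 1) + 1) * J m ≤ a m * J m := by gcongr
    have h5 : B * (Real.exp (K + 1) * J m) ≤ B * J (m + 1) := by nlinarith
    exact le_of_mul_le_mul_left h5 hB
  have hall : ∀ k : ℕ, D < J (n + k) ∧ Real.exp (K + 1) ^ k * J n ≤ J (n + k) := by
    intro k
    induction k with
    | zero => simpa using hne
    | succ k ih =>
      obtain ⟨ih1, ih2⟩ := ih
      have h2 := hstep (n + k) (hn.trans (Nat.le_add_right _ _)) ih1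
      refine ⟨?_, ?_⟩
      · have h4 : 0 < J (n + k) := lt_of_le_of_lt hD ih1
        have : J (n + k) ≤ J (n + k + 1) := by nlinarith
        exact lt_of_lt_of_le ih1 this
      · calc Real.exp (K + 1) ^ (k + 1) * J n = Real.exp (K + 1) * (Real.exp (K + 1) ^ k * J n) := by
              ring
          _ ≤ Real.exp (K + 1) * J (n + k) := by gcongr
          _ ≤ _ := h2
  have hJn : 0 < J n := lt_of_le_of_lt hD hne
  have hfin : ∀ k : ℕ, (k : ℝ) * J n ≤ G * Real.exp (K * (n + 1)) := by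
    intro k
    have h2 := (hall k).2
    have h3 := hg (n + k)
    have h4 : Real.exp (K + 1) ^ k = Real.exp (K * k) * Real.exp k := by
      rw [← Real.exp_nat_mul, ← Real.exp_add]
      ring_nf
    have h5 : Real.exp (K * (((n + k : ℕ) : ℝ) + 1)) =
        Real.exp (K * k) * Real.exp (K * (n + 1)) := by
      rw [← Real.exp_add]
      push_cast
      ring_nf
    have h6 : Real.exp (K * k) * (Real.exp k * J n) ≤
        Real.exp (K * k) * (G * Real.exp (K * (n + 1))) := by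
      calc _ = Real.exp (K + 1) ^ k * J n := by rw [h4]; ring
        _ ≤ _ := h2.trans h3
        _ = _ := by rw [h5]; ring
    have h7 := le_of_mul_le_mul_left h6 (Real.exp_pos _)
    have h8 : (k : ℝ) ≤ Real.exp k := by linarith [Real.add_one_le_exp (k : ℝ)]
    calc (k : ℝ) * J n ≤ Real.exp k * J n := by gcongr
      _ ≤ _ := h7
  obtain ⟨k, hk⟩ := exists_nat_gt (G * Real.exp (K * (n + 1)) / J n)
  have := hfin k
  rw [div_lt_iff₀ hJn] at hk
  linarith

section Main

variable {κ : Type*} [Fintype κ] [DecidableEq κ]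
  {F : Type*} [NormedAddCommGroup F] [InnerProductSpace ℂ F] [FiniteDimensional ℂ F]



theorem L2loc_of_growth {f : EuclideanSpace ℝ κ → F} (hfm : AEStronglyMeasurable f volume)
    {K : ℝ} (hg : Integrable fun x => Real.exp (-(K * ‖x‖)) * ‖f x‖ ^ 2) (hK : 0 ≤ K) :
    L2loc f := by
  intro R
  rw [memLp_two_iff_integrable_sq_norm hfm.restrict]
  have h1 : IntegrableOn (fun x => Real.exp (K * R) * (Real.exp (-(K * ‖x‖)) * ‖f x‖ ^ 2))
      (Metric.closedBall 0 R) := (hg.const_mul _).integrableOn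
  refine h1.mono' (hfm.restrict.norm.pow 2) ?_
  refine (ae_restrict_iff' Metric.isClosed_closedBall.measurableSet).mpr
    (Eventually.of_forall fun x hx => ?_)
  have hx' : ‖x‖ ≤ R := by simpa using hx
  rw [Real.norm_of_nonneg (by positivity), ← mul_assoc, ← Real.exp_add]
  have : (1 : ℝ) ≤ Real.exp (K * R + -(K * ‖x‖)) := Real.one_le_exp (by nlinarith)
  nlinarith [sq_nonneg ‖f x‖]

theorem L2loc.integrableOn {f : EuclideanSpace ℝ κ → F} (hf : L2loc f) (R : ℝ) :
    IntegrableOn (fun x => ‖f x‖ ^ 2) (Metric.closedBall 0 R) volume :=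
  (memLp_two_iff_integrable_sq_norm hf.aesm.restrict).mp (hf R)



variable {ι : Type*} [Fintype ι] {A : ι → κ → F →ₗ[ℂ] F}
  {W : ι → EuclideanSpace ℝ κ → F →ₗ[ℂ] F}



end Main

end Crest.Agent.R330.Agmon350
end
end

-- ▼ part R330/LiouEX_350
section

/-!
Row 330 (helper350), leaf S5-LIOUVILLE, analytic half: Liouville theorem for zero modes of linear
charges satisfying helper674's inequality (EX), with flat directions.
-/

set_option autoImplicit false
set_option linter.unusedSectionVars false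
set_option linter.deprecated false

noncomputable section

namespace Crest.Agent.R330.LiouEX350

open MeasureTheory Filter Topology Crest.Agent.R330.IBP837 Crest.Agent.R330.Moll350
  Crest.Agent.R330.Agmon350
open scoped ContDiff InnerProductSpace ENNReal

/-! ### 1. The growth lemma, abstractly -/

section Growth

variable {X : Type*} [MeasurableSpace X] {μ : Measure X}

/-- closed shells of a function -/
def sh (r : X → ℝ) (m : ℕ) : Set X := {x | (m : ℝ) ≤ r x ∧ r x ≤ m + 1}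

theorem measurableSet_sh {r : X → ℝ} (hr : Measurable r) (m : ℕ) : MeasurableSet (sh r m) :=
  (measurableSet_le measurable_const hr).inter (measurableSet_le hr measurable_const)

theorem mass_finite {r h : X → ℝ} {χ : ℕ → X → ℝ} {c C B G K : ℝ} (hc : 0 < c) (hB : 0 ≤ B)
    (hK : 0 ≤ K) (hr : Measurable r) (hr0 : ∀ x, 0 ≤ r x) (hh : ∀ x, 0 ≤ h x)
    (hloc : ∀ n : ℕ, IntegrableOn h {x | r x ≤ n} μ) (hχm : ∀ n, Measurable (χ n))
    (h0 : ∀ n x, 0 ≤ χ n x) (h1 : ∀ n x, χ n x ≤ 1)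
    (hone : ∀ (n : ℕ) x, r x ≤ n → χ n x = 1) (hzero : ∀ (n : ℕ) x, (n : ℝ) + 1 ≤ r x → χ n x = 0)
    (ineq : ∀ n : ℕ, ∫ x, (c * r x ^ 2 - C) * (χ n x ^ 2 * h x) ∂μ ≤
      B * ∫ x in sh r n, h x ∂μ)
    (grow : ∀ m : ℕ, ∫ x in sh r m, h x ∂μ ≤ G * Real.exp (K * (m + 1))) :
    Integrable h μ ∧ Tendsto (fun m : ℕ => ∫ x in sh r m, h x ∂μ) atTop (𝓝 0) := by
  set J : ℕ → ℝ := fun m => ∫ x in sh r m, h x ∂μ with hJ
  have hJ0 : ∀ m, 0 ≤ J m := fun m => integral_nonneg fun x => hh x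
  have hmB : ∀ n : ℕ, MeasurableSet {x | r x ≤ n} := fun n => measurableSet_le hr measurable_const
  have hshs : ∀ m : ℕ, sh r m ⊆ {x | r x ≤ ((m + 1 : ℕ) : ℝ)} := by
    intro m x hx
    have := hx.2
    simpa using this
  have hshI : ∀ m : ℕ, IntegrableOn h (sh r m) μ := fun m => (hloc (m + 1)).mono_set (hshs m)
  have hindB : ∀ n : ℕ, Integrable ({x | r x ≤ n}.indicator h) μ := fun n =>
    (integrable_indicator_iff (hmB n)).mpr (hloc n)
  have hindS : ∀ m : ℕ, Integrable ((sh r m).indicator h) μ := fun m =>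
    (integrable_indicator_iff (measurableSet_sh hr m)).mpr (hshI m)
  -- measurability of h
  have hhm : AEStronglyMeasurable h μ := by
    have h2 : ∀ x, Tendsto (fun n : ℕ => {x | r x ≤ n}.indicator h x) atTop (𝓝 (h x)) := by
      intro x
      refine tendsto_const_nhds.congr' ?_
      obtain ⟨m₀, hm₀⟩ := exists_nat_gt (r x)
      filter_upwards [eventually_ge_atTop m₀] with m hm
      rw [Set.indicator_of_mem]
      have h2 : (m₀ : ℝ) ≤ m := by exact_mod_cast hm
      exact (hm₀.le.trans h2)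
    exact aestronglyMeasurable_of_tendsto_ae atTop (fun n => (hindB n).1)
      (Eventually.of_forall h2)
  obtain ⟨n₀, hn₀⟩ : ∃ n₀ : ℕ, ∀ s : ℝ, (n₀ : ℝ) ≤ s → 1 ≤ c * s ^ 2 - C := by
    obtain ⟨n₀, hn₀⟩ := exists_nat_gt (max 1 ((|C| + 1) / c))
    refine ⟨n₀, fun s hs => ?_⟩
    have h1 : 1 ≤ s := ((le_max_left _ _).trans hn₀.le).trans hs
    have h2 : (|C| + 1) / c ≤ s := ((le_max_right _ _).trans hn₀.le).trans hs
    rw [div_le_iff₀ hc] at h2
    have h3 : s * c ≤ c * s ^ 2 := by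
      nlinarith [mul_nonneg hc.le (mul_nonneg (by linarith : (0:ℝ) ≤ s)
        (by linarith : (0:ℝ) ≤ s - 1))]
    have h4 := le_abs_self C
    linarith
  set S₀ : ℝ := ∫ x in {x | r x ≤ n₀}, h x ∂μ with hS₀
  have hS₀0 : 0 ≤ S₀ := integral_nonneg fun x => hh x
  have hsqle : ∀ (n : ℕ) (x : X), χ n x ^ 2 * h x ≤ h x := by
    intro n x
    have h3 : χ n x ^ 2 ≤ 1 := by nlinarith [h0 n x, h1 n x]
    nlinarith [hh x]
  have hsq0 : ∀ (n : ℕ) (x : X), 0 ≤ χ n x ^ 2 * h x := fun n x =>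
    mul_nonneg (sq_nonneg _) (hh x)
  have hLHS : ∀ n : ℕ, Integrable (fun x => (c * r x ^ 2 - C) * (χ n x ^ 2 * h x)) μ := by
    intro n
    refine ((hindB (n + 1)).const_mul (c * ((n : ℝ) + 1) ^ 2 + |C|)).mono'
      (((((hr.pow_const 2).const_mul c).sub_const C).aestronglyMeasurable).mul
        ((((hχm n).pow_const 2).aestronglyMeasurable).mul hhm)) (Eventually.of_forall fun x => ?_)
    rw [norm_mul, Real.norm_of_nonneg (hsq0 n x)]
    by_cases hx : (n : ℝ) + 1 ≤ r x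
    · rw [hzero n x hx]
      simp only [ne_eq, OfNat.ofNat_ne_zero, not_false_eq_true, zero_pow, zero_mul, mul_zero]
      exact mul_nonneg (by positivity) (Set.indicator_nonneg (fun _ _ => hh _) _)
    · push Not at hx
      rw [Set.indicator_of_mem (by
        show r x ≤ ((n + 1 : ℕ) : ℝ)
        push_cast; exact hx.le)]
      refine mul_le_mul ?_ (hsqle n x) (hsq0 n x) (by positivity)
      rw [Real.norm_eq_abs]
      refine (abs_sub _ _).trans ?_
      rw [abs_of_nonneg (by positivity)]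
      have h5 : r x ^ 2 ≤ ((n : ℝ) + 1) ^ 2 := by
        have := hr0 x
        gcongr
      nlinarith
  have hlow : ∀ (n : ℕ) (x : X), -(|C| * h x) ≤ (c * r x ^ 2 - C) * (χ n x ^ 2 * h x) := by
    intro n x
    have h1 : -|C| ≤ c * r x ^ 2 - C := by
      have := le_abs_self C
      have h2 : 0 ≤ c * r x ^ 2 := by positivity
      linarith
    calc -(|C| * h x) ≤ -(|C| * (χ n x ^ 2 * h x)) := by
          have := mul_le_mul_of_nonneg_left (hsqle n x) (abs_nonneg C)
          linarith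
      _ = -|C| * (χ n x ^ 2 * h x) := by ring
      _ ≤ _ := mul_le_mul_of_nonneg_right h1 (hsq0 n x)
  have hrec : ∀ m ≥ n₀, (c * (m : ℝ) ^ 2 - C) * J m ≤
      (B + 1) * J (m + 1) + (|C| + 1) * S₀ := by
    intro m hm
    have h1 : ∫ x, ((c * (m : ℝ) ^ 2 - C) * (sh r m).indicator h x -
        |C| * {x | r x ≤ n₀}.indicator h x) ∂μ ≤
        ∫ x, (c * r x ^ 2 - C) * (χ (m + 1) x ^ 2 * h x) ∂μ := by
      refine integral_mono (((hindS m).const_mul _).sub ((hindB _).const_mul _)) (hLHS (m + 1))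
        fun x => ?_
      simp only
      by_cases hx : x ∈ sh r m
      · rw [Set.indicator_of_mem hx]
        have e1 : χ (m + 1) x = 1 := hone _ _ (by push_cast; exact hx.2)
        rw [e1, one_pow, one_mul]
        have h2 : 0 ≤ |C| * {x | r x ≤ n₀}.indicator h x :=
          mul_nonneg (abs_nonneg _) (Set.indicator_nonneg (fun _ _ => hh _) _)
        have h3 : (c * (m : ℝ) ^ 2 - C) * h x ≤ (c * r x ^ 2 - C) * h x := by
          refine mul_le_mul_of_nonneg_right ?_ (hh _)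
          have := hx.1
          have : (m : ℝ) ^ 2 ≤ r x ^ 2 := by gcongr
          nlinarith
        linarith
      · rw [Set.indicator_of_notMem hx, mul_zero, zero_sub]
        by_cases hx2 : r x ≤ n₀
        · rw [Set.indicator_of_mem (show x ∈ {x | r x ≤ n₀} from hx2)]
          exact hlow (m + 1) x
        · rw [Set.indicator_of_notMem (show x ∉ {x | r x ≤ n₀} from hx2), mul_zero, neg_zero]
          have := hn₀ (r x) (not_le.mp hx2).le
          exact mul_nonneg (by linarith) (hsq0 _ _)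
    rw [integral_sub ((hindS m).const_mul _) ((hindB _).const_mul _), integral_const_mul,
      integral_const_mul, integral_indicator (measurableSet_sh hr m),
      integral_indicator (hmB n₀)] at h1
    have h2 := h1.trans (ineq (m + 1))
    have h3 := hJ0 (m + 1)
    have h4 : (c * (m : ℝ) ^ 2 - C) * J m - |C| * S₀ ≤ B * J (m + 1) := h2
    nlinarith
  have ha : Tendsto (fun m : ℕ => c * (m : ℝ) ^ 2 - C) atTop atTop := by
    refine tendsto_atTop_add_const_right _ _ ?_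
    exact (Tendsto.const_mul_atTop hc
      ((tendsto_pow_atTop (by norm_num)).comp tendsto_natCast_atTop_atTop))
  have hJev := discrete (J := J) (B := B + 1) (D := (|C| + 1) * S₀)
    (G := G) (K := K) (n₀ := n₀) (by positivity) (by positivity) hK hrec ha grow
  have hmass : ∀ n : ℕ, n₀ ≤ n → ∫ x in {x | r x ≤ n}, h x ∂μ ≤ B * J n + (|C| + 1) * S₀ := by
    intro n hn
    have hn' : (n₀ : ℝ) ≤ n := by exact_mod_cast hn
    have h1 : ∫ x, ({x | r x ≤ n}.indicator h x -
        (|C| + 1) * {x | r x ≤ n₀}.indicator h x) ∂μ ≤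
        ∫ x, (c * r x ^ 2 - C) * (χ n x ^ 2 * h x) ∂μ := by
      refine integral_mono ((hindB _).sub ((hindB _).const_mul _)) (hLHS n) fun x => ?_
      simp only
      by_cases hx : r x ≤ n₀
      · rw [Set.indicator_of_mem (show x ∈ {x | r x ≤ n} from hx.trans hn'),
          Set.indicator_of_mem (show x ∈ {x | r x ≤ n₀} from hx)]
        have := hlow n x
        linarith
      · rw [Set.indicator_of_notMem (show x ∉ {x | r x ≤ n₀} from hx), mul_zero, sub_zero]
        have h2 := hn₀ (r x) (not_le.mp hx).le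
        by_cases hx2 : r x ≤ n
        · rw [Set.indicator_of_mem (show x ∈ {x | r x ≤ n} from hx2), hone n x hx2, one_pow,
            one_mul]
          nlinarith [hh x]
        · rw [Set.indicator_of_notMem (show x ∉ {x | r x ≤ n} from hx2)]
          exact mul_nonneg (by linarith) (hsq0 _ _)
    rw [integral_sub (hindB _) ((hindB _).const_mul _), integral_const_mul,
      integral_indicator (hmB _), integral_indicator (hmB _)] at h1
    have h2 := h1.trans (ineq n)
    linarith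
  have hcover : AECover μ atTop fun n : ℕ => {x | r x ≤ n} := by
    refine ⟨Eventually.of_forall fun x => ?_, fun n => hmB n⟩
    obtain ⟨m₀, hm₀⟩ := exists_nat_gt (r x)
    filter_upwards [eventually_ge_atTop m₀] with m hm
    have h2 : (m₀ : ℝ) ≤ m := by exact_mod_cast hm
    exact (hm₀.le.trans h2)
  have hfint : Integrable h μ := by
    refine hcover.integrable_of_integral_bounded_of_nonneg_ae
      (B * ((|C| + 1) * S₀) + (|C| + 1) * S₀) (fun n => hloc n)
      (Eventually.of_forall fun x => hh x) ?_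
    filter_upwards [hJev, eventually_ge_atTop n₀] with n h1 h2
    refine (hmass n h2).trans ?_
    nlinarith
  refine ⟨hfint, ?_⟩
  have h1 : Tendsto (fun m : ℕ => ∫ x, (sh r m).indicator h x ∂μ)
      atTop (𝓝 (∫ _ : X, (0 : ℝ) ∂μ)) := by
    refine tendsto_integral_of_dominated_convergence h
      (fun m => (hindS m).1) hfint (fun m => Eventually.of_forall fun x => ?_)
      (Eventually.of_forall fun x => ?_)
    · rw [Real.norm_of_nonneg (Set.indicator_nonneg (fun _ _ => hh _) _)]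
      exact Set.indicator_le_self' (fun _ _ => hh _) x
    · refine tendsto_const_nhds.congr' ?_
      obtain ⟨m₀, hm₀⟩ := exists_nat_gt (r x)
      filter_upwards [eventually_ge_atTop m₀] with m hm
      rw [Set.indicator_of_notMem]
      intro hx
      have h2 : (m₀ : ℝ) ≤ m := by exact_mod_cast hm
      have h3 : (m : ℝ) ≤ r x := hx.1
      linarith
  rw [integral_zero] at h1
  refine h1.congr fun m => ?_
  rw [integral_indicator (measurableSet_sh hr m)]

end Growth

/-! ### 2. Orthonormal bases -/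

section ONB

variable {E : Type*} [NormedAddCommGroup E] [InnerProductSpace ℝ E] [FiniteDimensional ℝ E]
  {ν : Type*} [Fintype ν]

theorem sum_sq_onb (e : OrthonormalBasis ν ℝ E) (L : E →L[ℝ] ℝ) :
    ∑ n, (L (e n)) ^ 2 = ‖L‖ ^ 2 := by
  have : CompleteSpace E := FiniteDimensional.complete ℝ E
  obtain ⟨w, rfl⟩ := (InnerProductSpace.toDual ℝ E).surjective L
  simp only [InnerProductSpace.toDual_apply_apply, LinearIsometryEquiv.norm_map]
  rw [← e.sum_sq_norm_inner_left w]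
  simp only [Real.norm_eq_abs, sq_abs]

theorem hs_aux {F : Type*} [NormedAddCommGroup F] [InnerProductSpace ℝ F]
    [FiniteDimensional ℝ F] (e : OrthonormalBasis ν ℝ E) (L : E →L[ℝ] F) :
    ∑ n, ‖L (e n)‖ ^ 2 = ∑ j, ‖((innerSL ℝ (stdOrthonormalBasis ℝ F j)).comp L : E →L[ℝ] ℝ)‖ ^ 2 := by
  let f := stdOrthonormalBasis ℝ F
  have h1 : ∀ j, ‖((innerSL ℝ (f j)).comp L : E →L[ℝ] ℝ)‖ ^ 2 =
      ∑ n, (⟪f j, L (e n)⟫_ℝ) ^ 2 := fun j => by
    rw [← sum_sq_onb e]
    rfl
  simp only [show ∀ j, stdOrthonormalBasis ℝ F j = f j from fun j => rfl, h1]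
  rw [Finset.sum_comm]
  refine Finset.sum_congr rfl fun n _ => ?_
  rw [← f.sum_sq_norm_inner_right (L (e n))]
  simp only [Real.norm_eq_abs, sq_abs]

/-- The Hilbert-Schmidt norm does not depend on the orthonormal basis. -/
theorem hs_onb {F : Type*} [NormedAddCommGroup F] [InnerProductSpace ℝ F]
    [FiniteDimensional ℝ F] {ν' : Type*} [Fintype ν'] (e : OrthonormalBasis ν ℝ E)
    (e' : OrthonormalBasis ν' ℝ E) (L : E →L[ℝ] F) :
    ∑ n, ‖L (e n)‖ ^ 2 = ∑ n, ‖L (e' n)‖ ^ 2 := by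
  rw [hs_aux e, hs_aux e']

end ONB

/-! ### 3. One cut-off -/

section Main

variable {κ : Type*} [Fintype κ] [DecidableEq κ]
  {F : Type*} [NormedAddCommGroup F] [InnerProductSpace ℂ F] [FiniteDimensional ℂ F]
  {ν : Type*} [Fintype ν] {ι : Type*} [Fintype ι] {β : Type*} [Fintype β]

/-- `∂_n φ + λ_n y_n φ` in an orthonormal basis. -/
def dn (e : OrthonormalBasis ν ℝ (EuclideanSpace ℝ κ)) (lam : ν → ℝ) (n : ν)
    (φ : EuclideanSpace ℝ κ → F) (y : EuclideanSpace ℝ κ) : F :=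
  fderiv ℝ φ y (e n) + (lam n * ⟪e n, y⟫_ℝ) • φ y

variable {e : OrthonormalBasis ν ℝ (EuclideanSpace ℝ κ)} {lam : ν → ℝ}

theorem single_sum (v : EuclideanSpace ℝ κ) :
    v = ∑ k, v k • (EuclideanSpace.single k (1 : ℝ) : EuclideanSpace ℝ κ) := by
  ext j
  simp [Finset.sum_apply, Pi.single_apply]

/-- the operators `-i ∂_v` as `dirac` -/
theorem dirac_const (v : EuclideanSpace ℝ κ) (φ : EuclideanSpace ℝ κ → F)
    (y : EuclideanSpace ℝ κ) :
    dirac (fun k => ((v k : ℝ) : ℂ) • (LinearMap.id : F →ₗ[ℂ] F)) (fun _ => 0) φ y =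
      (-Complex.I) • fderiv ℝ φ y v := by
  unfold dirac
  conv_rhs => rw [single_sum v, map_sum]
  rw [Finset.smul_sum]
  simp only [LinearMap.zero_apply, add_zero, LinearMap.smul_apply, LinearMap.id_apply, map_smul,
    Complex.coe_smul]

theorem cmt_const (v : EuclideanSpace ℝ κ) (χ : EuclideanSpace ℝ κ → ℝ)
    (f : EuclideanSpace ℝ κ → F) (y : EuclideanSpace ℝ κ) :
    cmt (fun k => ((v k : ℝ) : ℂ) • (LinearMap.id : F →ₗ[ℂ] F)) χ f y =
      (-Complex.I) • (fderiv ℝ χ y v) • f y := by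
  unfold cmt
  conv_rhs => rw [single_sum v, map_sum]
  rw [Finset.sum_smul, Finset.smul_sum]
  refine Finset.sum_congr rfl fun k _ => ?_
  simp only [LinearMap.smul_apply, LinearMap.id_apply, map_smul, Complex.coe_smul, smul_eq_mul]
  rw [smul_smul, mul_comm]

theorem continuous_dn (n : ν) {φ : EuclideanSpace ℝ κ → F} (hφ : ContDiff ℝ 1 φ) :
    Continuous (dn e lam n φ) := by
  unfold dn
  refine Continuous.add ((hφ.continuous_fderiv (by norm_num)).clm_apply continuous_const) ?_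
  have h1 : Continuous fun y : EuclideanSpace ℝ κ => ⟪e n, y⟫_ℝ :=
    Continuous.inner continuous_const continuous_id
  exact (continuous_const.mul h1).smul hφ.continuous

theorem hasCompactSupport_dn (n : ν) {φ : EuclideanSpace ℝ κ → F} (hc : HasCompactSupport φ) :
    HasCompactSupport (dn e lam n φ) := by
  unfold dn
  refine HasCompactSupport.add (hasCompactSupport_fderiv_apply hc (e n)) hc.smul_left

theorem memLp_dn (n : ν) {φ : EuclideanSpace ℝ κ → F} (hφ : ContDiff ℝ 1 φ)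
    (hc : HasCompactSupport φ) : MemLp (dn e lam n φ) 2 volume :=
  (continuous_dn n hφ).memLp_of_hasCompactSupport (hasCompactSupport_dn n hc)

theorem integrable_sq_cc {u : EuclideanSpace ℝ κ → F} (hu : Continuous u)
    (hc : HasCompactSupport u) : Integrable (fun y => ‖u y‖ ^ 2) volume :=
  (memLp_two_iff_integrable_sq_norm hu.aestronglyMeasurable).mp
    (hu.memLp_of_hasCompactSupport hc)

/-- change of orthonormal basis in the bosonic term -/
theorem sum_dn (T : EuclideanSpace ℝ κ →ₗ[ℝ] EuclideanSpace ℝ κ) (hTs : T.IsSymmetric)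
    (he : ∀ n, T (e n) = lam n • e n) {φ : EuclideanSpace ℝ κ → F} (hφ : ContDiff ℝ 1 φ)
    (hc : HasCompactSupport φ) :
    ∑ k, ∫ y, ‖fderiv ℝ φ y (EuclideanSpace.single k 1) + (T y) k • φ y‖ ^ 2 =
      ∑ n, ∫ y, ‖dn e lam n φ y‖ ^ 2 := by
  have : FiniteDimensional ℝ F := FiniteDimensional.complexToReal F
  have hT : Continuous T := LinearMap.continuous_of_finiteDimensional T
  have hi1 : ∀ k, Integrable (fun y => ‖fderiv ℝ φ y (EuclideanSpace.single k 1) +
      (T y) k • φ y‖ ^ 2) volume := by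
    intro k
    refine integrable_sq_cc ?_ ?_
    · refine Continuous.add ((hφ.continuous_fderiv (by norm_num)).clm_apply continuous_const) ?_
      exact ((EuclideanSpace.proj k).continuous.comp hT).smul hφ.continuous
    · exact HasCompactSupport.add (hasCompactSupport_fderiv_apply hc _) hc.smul_left
  have hi2 : ∀ n, Integrable (fun y => ‖dn e lam n φ y‖ ^ 2) volume := fun n =>
    integrable_sq_cc (continuous_dn n hφ) (hasCompactSupport_dn n hc)
  rw [← integral_finset_sum _ fun k _ => hi1 k, ← integral_finset_sum _ fun n _ => hi2 n]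
  refine integral_congr_ae (Eventually.of_forall fun y => ?_)
  simp only
  let _ : InnerProductSpace ℝ F := InnerProductSpace.rclikeToReal ℂ F
  have h := hs_onb (F := F) (EuclideanSpace.basisFun κ ℝ) e
    (fderiv ℝ φ y + (innerSL ℝ (T y)).smulRight (φ y) : EuclideanSpace ℝ κ →L[ℝ] F)
  simp only [ContinuousLinearMap.add_apply, ContinuousLinearMap.smulRight_apply,
    innerSL_apply_apply, EuclideanSpace.basisFun_apply] at h
  have e1 : ∀ k, ⟪T y, (EuclideanSpace.single k (1 : ℝ) : EuclideanSpace ℝ κ)⟫_ℝ = (T y) k := by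
    intro k
    rw [EuclideanSpace.inner_single_right]
    simp
  have e2 : ∀ n, ⟪T y, e n⟫_ℝ = lam n * ⟪e n, y⟫_ℝ := by
    intro n
    rw [hTs y (e n), he n, inner_smul_right, real_inner_comm]
  simp only [e1, e2] at h
  exact h

/-- The hypotheses. -/
structure Dat (A : ι → κ → F →ₗ[ℂ] F) (W : ι → EuclideanSpace ℝ κ → F →ₗ[ℂ] F)
    (Bv : β → F →ₗ[ℂ] F) (e : OrthonormalBasis ν ℝ (EuclideanSpace ℝ κ)) (lam : ν → ℝ)
    (C₀ cb L : ℝ) (f : EuclideanSpace ℝ κ → F) : Prop where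
  c0 : 0 < C₀
  cb0 : 0 < cb
  lam0 : ∀ n, 0 ≤ lam n
  cl : ∀ (η : κ → ℝ) (v : F), ∑ α, ‖∑ k, η k • A α k v‖ ^ 2 = C₀ * (∑ k, η k ^ 2) * ‖v‖ ^ 2
  symA : ∀ α k, (A α k).IsSymmetric
  symW : ∀ α x, (W α x).IsSymmetric
  lip : ∀ α, LipPot (W α) L
  ex : ∀ φ : EuclideanSpace ℝ κ → F, ContDiff ℝ ∞ φ → HasCompactSupport φ →
    C₀ * (∑ n, ∫ y, ‖dn e lam n φ y‖ ^ 2) + cb * (∑ j, ∫ y, ‖Bv j (φ y)‖ ^ 2) ≤
      ∑ α, ∫ y, ‖dirac (A α) (W α) φ y‖ ^ 2
  f2 : L2loc f
  weak : ∀ α, ∀ ψ : EuclideanSpace ℝ κ → F, ContDiff ℝ ∞ ψ → HasCompactSupport ψ →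
    ∫ y, ⟪f y, dirac (A α) (W α) ψ y⟫_ℂ = 0
  flat : ∀ n, lam n = 0 → ∀ ψ : EuclideanSpace ℝ κ → F, ContDiff ℝ ∞ ψ → HasCompactSupport ψ →
    ∫ y, ⟪f y, fderiv ℝ ψ y (e n)⟫_ℂ = 0

/-- flat directions -/
def vT (e : OrthonormalBasis ν ℝ (EuclideanSpace ℝ κ)) (lam : ν → ℝ) (n : ν) :
    EuclideanSpace ℝ κ := if lam n = 0 then e n else 0

/-- the transversal gradient energy of a cut-off -/
def EN (e : OrthonormalBasis ν ℝ (EuclideanSpace ℝ κ)) (lam : ν → ℝ)
    (f : EuclideanSpace ℝ κ → F) (χ : EuclideanSpace ℝ κ → ℝ) : ℝ :=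
  ∫ y, (∑ n, if lam n = 0 then 0 else (fderiv ℝ χ y (e n)) ^ 2) * ‖f y‖ ^ 2

variable {A : ι → κ → F →ₗ[ℂ] F} {W : ι → EuclideanSpace ℝ κ → F →ₗ[ℂ] F}
  {Bv : β → F →ₗ[ℂ] F} {C₀ cb L : ℝ} {f : EuclideanSpace ℝ κ → F}

/-- the extended family of charges -/
def extA (A : ι → κ → F →ₗ[ℂ] F) (e : OrthonormalBasis ν ℝ (EuclideanSpace ℝ κ)) (lam : ν → ℝ) :
    ι ⊕ ν → κ → F →ₗ[ℂ] F :=
  Sum.elim A fun n k => ((vT e lam n k : ℝ) : ℂ) • LinearMap.id

def extW (ν : Type*) (W : ι → EuclideanSpace ℝ κ → F →ₗ[ℂ] F) :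
    ι ⊕ ν → EuclideanSpace ℝ κ → F →ₗ[ℂ] F :=
  Sum.elim W fun _ _ => 0

theorem inner_vT_le (n : ν) (η : EuclideanSpace ℝ κ) : ⟪vT e lam n, η⟫_ℝ ^ 2 ≤ ⟪e n, η⟫_ℝ ^ 2 := by
  unfold vT
  split_ifs
  · exact le_rfl
  · rw [inner_zero_left]
    nlinarith [sq_nonneg (⟪e n, η⟫_ℝ)]

theorem cliff_ext (D : Dat A W Bv e lam C₀ cb L f) : CliffBd (extA A e lam) (C₀ + 1) := by
  intro η v
  rw [Fintype.sum_sum_type]
  simp only [extA, Sum.elim_inl, Sum.elim_inr]
  rw [D.cl η v, add_mul, add_mul, one_mul]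
  refine add_le_add le_rfl ?_
  have h1 : ∀ n, ‖∑ k, η k • (((vT e lam n k : ℝ) : ℂ) • (LinearMap.id : F →ₗ[ℂ] F)) v‖ ^ 2 =
      ⟪vT e lam n, WithLp.toLp 2 η⟫_ℝ ^ 2 * ‖v‖ ^ 2 := by
    intro n
    have h2 : ∑ k, η k • (((vT e lam n k : ℝ) : ℂ) • (LinearMap.id : F →ₗ[ℂ] F)) v =
        ⟪vT e lam n, WithLp.toLp 2 η⟫_ℝ • v := by
      rw [PiLp.inner_apply, Finset.sum_smul]
      refine Finset.sum_congr rfl fun k _ => ?_
      simp only [LinearMap.smul_apply, LinearMap.id_apply, Complex.coe_smul, smul_smul,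
        RCLike.inner_apply, conj_trivial]
    rw [h2, norm_smul, mul_pow, Real.norm_eq_abs, sq_abs]
  simp only [h1]
  rw [← Finset.sum_mul]
  refine mul_le_mul_of_nonneg_right ?_ (sq_nonneg _)
  calc ∑ n, ⟪vT e lam n, WithLp.toLp 2 η⟫_ℝ ^ 2 ≤ ∑ n, ⟪e n, WithLp.toLp 2 η⟫_ℝ ^ 2 :=
        Finset.sum_le_sum fun n _ => inner_vT_le n _
    _ = ‖(WithLp.toLp 2 η : EuclideanSpace ℝ κ)‖ ^ 2 := by
        rw [← e.sum_sq_norm_inner_right]
        simp only [Real.norm_eq_abs, sq_abs]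
    _ = ∑ k, η k ^ 2 := by
        rw [EuclideanSpace.norm_sq_eq]
        simp

theorem key_seq (D : Dat A W Bv e lam C₀ cb L f) {χ : EuclideanSpace ℝ κ → ℝ}
    (hχ : ContDiff ℝ ∞ χ) {R : ℝ} (hχR : ∀ x, R < ‖x‖ → χ x = 0) (hχ1 : ∀ x, |χ x| ≤ 1) :
    MemLp (fun x => χ x • f x) 2 volume ∧
    ∃ φ : ℕ → EuclideanSpace ℝ κ → F, (∀ m, ContDiff ℝ ∞ (φ m)) ∧
      (∀ m y, R + 1 < ‖y‖ → φ m y = 0) ∧ (∀ m, HasCompactSupport (φ m)) ∧
      Tendsto (fun m => eLpNorm (φ m - fun x => χ x • f x) 2 volume) atTop (𝓝 0) ∧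
      ∃ ε : ℕ → ℝ, Tendsto ε atTop (𝓝 (EN e lam f χ)) ∧
        ∀ m, C₀ * (∑ n, if lam n = 0 then 0 else ∫ y, ‖dn e lam n (φ m) y‖ ^ 2) +
          cb * (∑ j, ∫ y, ‖Bv j (φ m y)‖ ^ 2) ≤ C₀ * ε m := by
  have hC0 := D.c0
  -- the extended weak equations
  have hsA : ∀ α k, (extA A e lam α k).IsSymmetric := by
    rintro (α | n) k
    · exact D.symA α k
    · intro x y
      simp only [extA, Sum.elim_inr, LinearMap.smul_apply, LinearMap.id_apply, inner_smul_left,
        inner_smul_right, Complex.conj_ofReal]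
  have hsW : ∀ α x, (extW ν W α x).IsSymmetric := by
    rintro (α | n) x
    · exact D.symW α x
    · intro u v
      simp [extW]
  have hLip : ∀ α, LipPot (extW ν W α) (max L 0) := by
    rintro (α | n)
    · refine ⟨le_max_right _ _, fun x y v => (((D.lip α).2 x y v).trans ?_)⟩
      gcongr
      exact le_max_left _ _
    · refine ⟨le_max_right _ _, fun x y v => ?_⟩
      simp only [extW, Sum.elim_inr, LinearMap.zero_apply, sub_zero, norm_zero]
      positivity
  have hweak : ∀ α, ∀ ψ : EuclideanSpace ℝ κ → F, ContDiff ℝ ∞ ψ → HasCompactSupport ψ →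
      ∫ x, ⟪f x, dirac (extA A e lam α) (extW ν W α) ψ x⟫_ℂ = 0 := by
    rintro (α | n) ψ hψ hψc
    · exact D.weak α ψ hψ hψc
    · have h1 : ∀ x, dirac (extA A e lam (Sum.inr n)) (extW ν W (Sum.inr n)) ψ x =
          (-Complex.I) • fderiv ℝ ψ x (vT e lam n) := fun x => dirac_const (vT e lam n) ψ x
      simp only [h1, inner_smul_right, integral_const_mul]
      by_cases hn : lam n = 0
      · have h2 := D.flat n hn ψ hψ hψc
        simp only [vT, hn, if_true]
        rw [h2, mul_zero]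
      · simp [vT, hn]
  obtain ⟨hg, hY, φ, p1, p2, p3, p4, p5⟩ := exists_seq (C₀ := C₀ + 1) (by linarith) (cliff_ext D)
    hsA hsW hLip D.f2 hweak hχ hχR hχ1
  refine ⟨hg, φ, p1, p2, p3, p4, ?_⟩
  have hφ : ∀ m, ContDiff ℝ 1 (φ m) := fun m => (p1 m).of_le (by simp)
  have hV : ∀ α v, Continuous fun x => extW ν W α x v := fun α => (hLip α).continuous
  have hD : ∀ α m, MemLp (dirac (extA A e lam α) (extW ν W α) (φ m)) 2 volume := fun α m =>
    memLp_dirac (hV α) (hφ m) (p3 m)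
  have hlim : ∀ α, Tendsto (fun m => ∫ y, ‖dirac (extA A e lam α) (extW ν W α) (φ m) y‖ ^ 2)
      atTop (𝓝 (∫ y, ‖cmt (extA A e lam α) χ f y‖ ^ 2)) := fun α =>
    tendsto_int_sq (hD α) (hY α) (p5 α)
  have hYi : ∀ α, Integrable (fun y => ‖cmt (extA A e lam α) χ f y‖ ^ 2) volume := fun α =>
    (memLp_two_iff_integrable_sq_norm (hY α).1).mp (hY α)
  refine ⟨fun m => C₀⁻¹ * (∑ α, ∫ y, ‖dirac (A α) (W α) (φ m) y‖ ^ 2) -
    ∑ n, ∫ y, ‖dirac (extA A e lam (Sum.inr n)) (extW ν W (Sum.inr n)) (φ m) y‖ ^ 2, ?_, ?_⟩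
  · have t1 := ((tendsto_finset_sum Finset.univ fun (α : ι) _ =>
      hlim (Sum.inl α)).const_mul C₀⁻¹).sub
      (tendsto_finset_sum Finset.univ fun (n : ν) _ => hlim (Sum.inr n))
    have e1 : C₀⁻¹ * (∑ α : ι, ∫ y, ‖cmt (extA A e lam (Sum.inl α)) χ f y‖ ^ 2) -
        ∑ n : ν, ∫ y, ‖cmt (extA A e lam (Sum.inr n)) χ f y‖ ^ 2 = EN e lam f χ := by
      rw [← integral_finset_sum _ fun α _ => hYi (Sum.inl α),
        ← integral_finset_sum _ fun n _ => hYi (Sum.inr n), ← integral_const_mul,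
        ← integral_sub ((integrable_finset_sum _ fun α _ => hYi (Sum.inl α)).const_mul _)
          (integrable_finset_sum _ fun n _ => hYi (Sum.inr n))]
      unfold EN
      refine integral_congr_ae (Eventually.of_forall fun y => ?_)
      simp only
      have a1 : ∑ α : ι, ‖cmt (extA A e lam (Sum.inl α)) χ f y‖ ^ 2 =
          C₀ * (∑ n, (fderiv ℝ χ y (e n)) ^ 2) * ‖f y‖ ^ 2 := by
        simp only [norm_cmt, extA, Sum.elim_inl]
        rw [D.cl, sum_sq_onb e]
        have := sum_sq_onb (EuclideanSpace.basisFun κ ℝ) (fderiv ℝ χ y)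
        simp only [EuclideanSpace.basisFun_apply] at this
        rw [this]
      have a2 : ∀ n : ν, ‖cmt (extA A e lam (Sum.inr n)) χ f y‖ ^ 2 =
          (if lam n = 0 then (fderiv ℝ χ y (e n)) ^ 2 else 0) * ‖f y‖ ^ 2 := by
        intro n
        have : cmt (extA A e lam (Sum.inr n)) χ f y =
            (-Complex.I) • (fderiv ℝ χ y (vT e lam n)) • f y := cmt_const _ _ _ _
        rw [this, norm_smul, norm_smul]
        unfold vT
        split_ifs with hn
        · simp [mul_pow]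
        · simp
      rw [a1]
      simp only [a2]
      rw [← Finset.sum_mul, ← mul_assoc, ← mul_assoc, inv_mul_cancel₀ hC0.ne', one_mul, ← sub_mul,
        ← Finset.sum_sub_distrib]
      congr 1
      refine Finset.sum_congr rfl fun n _ => ?_
      split_ifs <;> simp
    rw [e1] at t1
    exact t1
  · intro m
    have h1 := D.ex (φ m) (p1 m) (p3 m)
    have h2 : ∀ n, ∫ y, ‖dirac (extA A e lam (Sum.inr n)) (extW ν W (Sum.inr n)) (φ m) y‖ ^ 2 =
        if lam n = 0 then ∫ y, ‖dn e lam n (φ m) y‖ ^ 2 else 0 := by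
      intro n
      have h3 : ∀ x, dirac (extA A e lam (Sum.inr n)) (extW ν W (Sum.inr n)) (φ m) x =
          (-Complex.I) • fderiv ℝ (φ m) x (vT e lam n) := fun x => dirac_const (vT e lam n) _ x
      simp only [h3]
      split_ifs with hn
      · refine integral_congr_ae (Eventually.of_forall fun y => ?_)
        simp only [vT, hn, if_true, dn, norm_smul, zero_mul, zero_smul, add_zero]
        simp
      · simp [vT, hn]
    have h4 : (∑ n, if lam n = 0 then 0 else ∫ y, ‖dn e lam n (φ m) y‖ ^ 2) =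
        (∑ n, ∫ y, ‖dn e lam n (φ m) y‖ ^ 2) -
        ∑ n, ∫ y, ‖dirac (extA A e lam (Sum.inr n)) (extW ν W (Sum.inr n)) (φ m) y‖ ^ 2 := by
      rw [← Finset.sum_sub_distrib]
      refine Finset.sum_congr rfl fun n _ => ?_
      rw [h2]
      split_ifs <;> simp
    rw [h4]
    simp only
    rw [mul_sub, mul_sub, ← mul_assoc, mul_inv_cancel₀ hC0.ne', one_mul]
    linarith

/-! ### 4. Consequences of the key inequality -/

theorem cs_real {X : Type*} [MeasurableSpace X] {μ : Measure X} {u v : X → F}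
    (hu : MemLp u 2 μ) (hv : MemLp v 2 μ) :
    ‖∫ x, ⟪u x, v x⟫_ℂ ∂μ‖ ^ 2 ≤ (∫ x, ‖u x‖ ^ 2 ∂μ) * ∫ x, ‖v x‖ ^ 2 ∂μ := by
  have h1 : ‖∫ x, ⟪u x, v x⟫_ℂ ∂μ‖ ≤ ∫ x, ‖u x‖ * ‖v x‖ ∂μ := by
    refine (norm_integral_le_integral_norm _).trans ?_
    refine integral_mono_of_nonneg (Eventually.of_forall fun x => norm_nonneg _)
      (hu.norm.integrable_mul hv.norm) (Eventually.of_forall fun x => ?_)
    exact norm_inner_le_norm _ _
  have h2 := integral_mul_le_Lp_mul_Lq_of_nonneg (μ := μ) (p := 2) (q := 2)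
    (by constructor <;> norm_num) (f := fun x => ‖u x‖) (g := fun x => ‖v x‖)
    (Eventually.of_forall fun x => norm_nonneg _) (Eventually.of_forall fun x => norm_nonneg _)
    (by simpa using hu.norm) (by simpa using hv.norm)
  have h3 : ‖∫ x, ⟪u x, v x⟫_ℂ ∂μ‖ ≤ (∫ x, ‖u x‖ ^ 2 ∂μ) ^ (1 / 2 : ℝ) *
      (∫ x, ‖v x‖ ^ 2 ∂μ) ^ (1 / 2 : ℝ) := by
    refine h1.trans (h2.trans (le_of_eq ?_))
    simp only [Real.rpow_ofNat]
  have hu0 : 0 ≤ ∫ x, ‖u x‖ ^ 2 ∂μ := integral_nonneg fun x => sq_nonneg _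
  have hv0 : 0 ≤ ∫ x, ‖v x‖ ^ 2 ∂μ := integral_nonneg fun x => sq_nonneg _
  calc ‖∫ x, ⟪u x, v x⟫_ℂ ∂μ‖ ^ 2 ≤ ((∫ x, ‖u x‖ ^ 2 ∂μ) ^ (1 / 2 : ℝ) *
      (∫ x, ‖v x‖ ^ 2 ∂μ) ^ (1 / 2 : ℝ)) ^ 2 := by gcongr
    _ = _ := by
      rw [mul_pow, ← Real.sqrt_eq_rpow, ← Real.sqrt_eq_rpow, Real.sq_sqrt hu0, Real.sq_sqrt hv0]

theorem fderiv_coord_smul (v : EuclideanSpace ℝ κ) {φ : EuclideanSpace ℝ κ → F}
    (hφ : Differentiable ℝ φ) (y w : EuclideanSpace ℝ κ) :
    fderiv ℝ (fun z => ⟪v, z⟫_ℝ • φ z) y w = ⟪v, y⟫_ℝ • fderiv ℝ φ y w + ⟪v, w⟫_ℝ • φ y := by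
  have h1 : HasFDerivAt (fun z : EuclideanSpace ℝ κ => ⟪v, z⟫_ℝ) (innerSL ℝ v) y :=
    (innerSL ℝ v).hasFDerivAt
  rw [fderiv_fun_smul h1.differentiableAt (hφ y), h1.fderiv]
  simp

theorem dn_weak (n : ν) {φ ψ : EuclideanSpace ℝ κ → F} (hφ : ContDiff ℝ 1 φ)
    (hψ : ContDiff ℝ 1 ψ) (hc : HasCompactSupport φ) :
    ∫ y, ⟪φ y, -(fderiv ℝ ψ y (e n)) + (lam n * ⟪e n, y⟫_ℝ) • ψ y⟫_ℂ =
      ∫ y, ⟪dn e lam n φ y, ψ y⟫_ℂ := by
  have hcont : Continuous fun y : EuclideanSpace ℝ κ => lam n * ⟪e n, y⟫_ℝ :=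
    continuous_const.mul (Continuous.inner continuous_const continuous_id)
  have i1 : Integrable (fun y => ⟪φ y, -(fderiv ℝ ψ y (e n))⟫_ℂ) volume :=
    integrable_inner_of_cont hφ.continuous (fderiv_apply_continuous hψ _).neg (Or.inl hc)
  have i2 : Integrable (fun y => ⟪φ y, (lam n * ⟪e n, y⟫_ℝ) • ψ y⟫_ℂ) volume :=
    integrable_inner_of_cont hφ.continuous (hcont.smul hψ.continuous) (Or.inl hc)
  have i3 : Integrable (fun y => ⟪fderiv ℝ φ y (e n), ψ y⟫_ℂ) volume :=
    integrable_inner_of_cont (fderiv_apply_continuous hφ _) hψ.continuous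
      (Or.inl (hasCompactSupport_fderiv_apply hc _))
  have i4 : Integrable (fun y => ⟪(lam n * ⟪e n, y⟫_ℝ) • φ y, ψ y⟫_ℂ) volume :=
    integrable_inner_of_cont (hcont.smul hφ.continuous) hψ.continuous (Or.inl hc.smul_left)
  simp only [dn, inner_add_left, inner_add_right]
  rw [integral_add i1 i2, integral_add i3 i4, ibp hφ hψ (Or.inl hc)]
  congr 1
  · rw [← integral_neg]
    refine integral_congr_ae (Eventually.of_forall fun y => ?_)
    simp only [inner_neg_right]
  · refine integral_congr_ae (Eventually.of_forall fun y => ?_)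
    simp only
    rw [inner_rs_left, inner_rs_right]

/-- confinement for one mode -/
theorem conf (n : ν) {φ : EuclideanSpace ℝ κ → F} (hφ : ContDiff ℝ 1 φ)
    (hc : HasCompactSupport φ) :
    ∫ y, (lam n ^ 2 * ⟪e n, y⟫_ℝ ^ 2 - lam n) * ‖φ y‖ ^ 2 ≤ ∫ y, ‖dn e lam n φ y‖ ^ 2 := by
  have hs : Continuous fun y : EuclideanSpace ℝ κ => ⟪e n, y⟫_ℝ :=
    Continuous.inner continuous_const continuous_id
  have hd : Continuous fun y => fderiv ℝ φ y (e n) := fderiv_apply_continuous hφ _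
  have hdc : HasCompactSupport fun y => fderiv ℝ φ y (e n) := hasCompactSupport_fderiv_apply hc _
  set I : ℂ := ∫ y, ⟪fderiv ℝ φ y (e n), ⟪e n, y⟫_ℝ • φ y⟫_ℂ with hI
  have hψ : ContDiff ℝ 1 fun y => ⟪e n, y⟫_ℝ • φ y :=
    (contDiff_const.inner ℝ contDiff_id).smul hφ
  have e1 : I = - (starRingEnd ℂ I) - ((∫ y, ‖φ y‖ ^ 2 : ℝ) : ℂ) := by
    have i1 : Integrable (fun y => ⟪φ y, ⟪e n, y⟫_ℝ • fderiv ℝ φ y (e n)⟫_ℂ) volume :=
      integrable_inner_of_cont hφ.continuous (hs.smul hd) (Or.inl hc)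
    have i2 : Integrable (fun y => ⟪φ y, φ y⟫_ℂ) volume :=
      integrable_inner_of_cont hφ.continuous hφ.continuous (Or.inl hc)
    conv_lhs => rw [hI, ibp hφ hψ (Or.inl hc)]
    have h2 : ∀ y, ⟪φ y, fderiv ℝ (fun z => ⟪e n, z⟫_ℝ • φ z) y (e n)⟫_ℂ =
        ⟪φ y, ⟪e n, y⟫_ℝ • fderiv ℝ φ y (e n)⟫_ℂ + ⟪φ y, φ y⟫_ℂ := by
      intro y
      rw [fderiv_coord_smul _ (hφ.differentiable (by norm_num)), inner_add_right,
        real_inner_self_eq_norm_sq, e.norm_eq_one, one_pow, one_smul]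
    simp only [h2]
    rw [integral_add i1 i2, int_inner_self]
    have h3 : ∫ y, ⟪φ y, ⟪e n, y⟫_ℝ • fderiv ℝ φ y (e n)⟫_ℂ = starRingEnd ℂ I := by
      rw [hI, ← integral_conj]
      refine integral_congr_ae (Eventually.of_forall fun y => ?_)
      simp only [inner_conj_symm]
      rw [inner_rs_left, inner_rs_right]
    rw [h3]
    ring
  have e2 : 2 * I.re = - ∫ y, ‖φ y‖ ^ 2 := by
    have := congrArg Complex.re e1
    simp only [Complex.sub_re, Complex.neg_re, Complex.conj_re, Complex.ofReal_re] at this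
    linarith
  have j1 : Integrable (fun y => ‖fderiv ℝ φ y (e n)‖ ^ 2) volume := integrable_sq_cc hd hdc
  have j2 : Integrable (fun y => ⟪fderiv ℝ φ y (e n), ⟪e n, y⟫_ℝ • φ y⟫_ℂ) volume :=
    integrable_inner_of_cont hd (hs.smul hφ.continuous) (Or.inl hdc)
  have j3 : Integrable (fun y => ⟪e n, y⟫_ℝ ^ 2 * ‖φ y‖ ^ 2) volume := by
    have := integrable_sq_cc (hs.smul hφ.continuous) hc.smul_left
    refine this.congr (Eventually.of_forall fun y => ?_)
    simp only [Pi.smul_apply', norm_smul, mul_pow, Real.norm_eq_abs, sq_abs]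
  have j4 : Integrable (fun y => ‖φ y‖ ^ 2) volume := integrable_sq_cc hφ.continuous hc
  have e3 : ∫ y, ‖dn e lam n φ y‖ ^ 2 = (∫ y, ‖fderiv ℝ φ y (e n)‖ ^ 2) +
      2 * lam n * I.re + lam n ^ 2 * ∫ y, ⟪e n, y⟫_ℝ ^ 2 * ‖φ y‖ ^ 2 := by
    have h1 : I.re = ∫ y, (⟪fderiv ℝ φ y (e n), ⟪e n, y⟫_ℝ • φ y⟫_ℂ).re := by
      rw [hI]
      exact (integral_re j2).symm
    have j5 : Integrable (fun y => 2 * lam n *
        (⟪fderiv ℝ φ y (e n), ⟪e n, y⟫_ℝ • φ y⟫_ℂ).re) volume := j2.re.const_mul _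
    have j6 : Integrable (fun y => ‖fderiv ℝ φ y (e n)‖ ^ 2 + 2 * lam n *
        (⟪fderiv ℝ φ y (e n), ⟪e n, y⟫_ℝ • φ y⟫_ℂ).re) volume := j1.add j5
    rw [h1, ← integral_const_mul, ← integral_const_mul, ← integral_add j1 j5,
      ← integral_add j6 (j3.const_mul _)]
    refine integral_congr_ae (Eventually.of_forall fun y => ?_)
    simp only [dn]
    rw [norm_add_sq (𝕜 := ℂ), norm_smul, mul_smul]
    have h2 : ⟪fderiv ℝ φ y (e n), lam n • ⟪e n, y⟫_ℝ • φ y⟫_ℂ =
        (lam n : ℂ) * ⟪fderiv ℝ φ y (e n), ⟪e n, y⟫_ℝ • φ y⟫_ℂ := inner_rs_right _ _ _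
    rw [h2]
    simp only [RCLike.re_to_complex, Complex.re_ofReal_mul, norm_mul, Real.norm_eq_abs]
    rw [mul_pow, mul_pow, sq_abs, sq_abs]
    ring
  have e4 : ∫ y, (lam n ^ 2 * ⟪e n, y⟫_ℝ ^ 2 - lam n) * ‖φ y‖ ^ 2 =
      lam n ^ 2 * (∫ y, ⟪e n, y⟫_ℝ ^ 2 * ‖φ y‖ ^ 2) - lam n * ∫ y, ‖φ y‖ ^ 2 := by
    rw [← integral_const_mul, ← integral_const_mul, ← integral_sub (j3.const_mul _)
      (j4.const_mul _)]
    refine integral_congr_ae (Eventually.of_forall fun y => ?_)
    simp only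
    ring
  have e5 : 0 ≤ ∫ y, ‖fderiv ℝ φ y (e n)‖ ^ 2 := integral_nonneg fun y => sq_nonneg _
  have e6 : 2 * lam n * I.re = -(lam n * ∫ y, ‖φ y‖ ^ 2) := by
    rw [show 2 * lam n * I.re = lam n * (2 * I.re) by ring, e2]
    ring
  rw [e3, e4, e6]
  linarith

/-- the transversal weight -/
def wt (e : OrthonormalBasis ν ℝ (EuclideanSpace ℝ κ)) (lam : ν → ℝ)
    (y : EuclideanSpace ℝ κ) : ℝ :=
  ∑ n, if lam n = 0 then 0 else (lam n ^ 2 * ⟪e n, y⟫_ℝ ^ 2 - lam n)

theorem continuous_wt : Continuous (wt e lam) := by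
  unfold wt
  refine continuous_finset_sum _ fun n _ => ?_
  have hs : Continuous fun y : EuclideanSpace ℝ κ => ⟪e n, y⟫_ℝ :=
    Continuous.inner continuous_const continuous_id
  split_ifs
  · exact continuous_const
  · exact (continuous_const.mul (hs.pow 2)).sub continuous_const

theorem K1 (D : Dat A W Bv e lam C₀ cb L f) {χ : EuclideanSpace ℝ κ → ℝ}
    (hχ : ContDiff ℝ ∞ χ) {R : ℝ} (hχR : ∀ x, R < ‖x‖ → χ x = 0) (hχ1 : ∀ x, |χ x| ≤ 1) :
    ∫ y, wt e lam y * ‖χ y • f y‖ ^ 2 ≤ EN e lam f χ := by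
  obtain ⟨hg, φ, p1, p2, p3, p4, ε, p5, p6⟩ := key_seq D hχ hχR hχ1
  have hφ : ∀ m, ContDiff ℝ 1 (φ m) := fun m => (p1 m).of_le (by simp)
  have hm : ∀ m, MemLp (φ m) 2 volume := fun m =>
    (hφ m).continuous.memLp_of_hasCompactSupport (p3 m)
  have t1 := tendsto_int_weight (w := wt e lam) continuous_wt (R := R + 1) hm hg p2
    (fun y hy => by rw [hχR y (by linarith), zero_smul]) p4
  refine le_of_tendsto_of_tendsto' t1 p5 fun m => ?_
  have h1 : C₀ * (∑ n, if lam n = 0 then 0 else ∫ y, ‖dn e lam n (φ m) y‖ ^ 2) ≤ C₀ * ε m := by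
    refine le_trans ?_ (p6 m)
    have : 0 ≤ cb * (∑ j, ∫ y, ‖Bv j (φ m y)‖ ^ 2) :=
      mul_nonneg D.cb0.le (Finset.sum_nonneg fun j _ => integral_nonneg fun y => sq_nonneg _)
    linarith
  have h2 := le_of_mul_le_mul_left h1 D.c0
  have h3 : ∫ y, wt e lam y * ‖φ m y‖ ^ 2 =
      ∑ n, ∫ y, (if lam n = 0 then 0 else (lam n ^ 2 * ⟪e n, y⟫_ℝ ^ 2 - lam n)) *
      ‖φ m y‖ ^ 2 := by
    rw [← integral_finset_sum]
    · refine integral_congr_ae (Eventually.of_forall fun y => ?_)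
      simp only [wt]
      rw [Finset.sum_mul]
    · intro n _
      have hs : Continuous fun y : EuclideanSpace ℝ κ => ⟪e n, y⟫_ℝ :=
        Continuous.inner continuous_const continuous_id
      refine Continuous.integrable_of_hasCompactSupport ?_ ?_
      · refine Continuous.mul ?_ ((hφ m).continuous.norm.pow 2)
        split_ifs
        · exact continuous_const
        · exact (continuous_const.mul (hs.pow 2)).sub continuous_const
      · refine HasCompactSupport.mul_left ?_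
        refine (p3 m).mono' fun x hx => subset_tsupport _ ?_
        intro h0; apply hx; simp [h0]
  rw [h3]
  refine (Finset.sum_le_sum fun n _ => ?_).trans h2
  split_ifs with hn
  · simp
  · exact conf n (hφ m) (p3 m)

theorem K2 (D : Dat A W Bv e lam C₀ cb L f) {χ : EuclideanSpace ℝ κ → ℝ}
    (hχ : ContDiff ℝ ∞ χ) {R : ℝ} (hχR : ∀ x, R < ‖x‖ → χ x = 0) (hχ1 : ∀ x, |χ x| ≤ 1)
    {n : ν} (hn : lam n ≠ 0) {ψ : EuclideanSpace ℝ κ → F} (hψ : ContDiff ℝ ∞ ψ)
    (hψc : HasCompactSupport ψ) :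
    ‖∫ y, ⟪χ y • f y, -(fderiv ℝ ψ y (e n)) + (lam n * ⟪e n, y⟫_ℝ) • ψ y⟫_ℂ‖ ^ 2 ≤
      EN e lam f χ * ∫ y, ‖ψ y‖ ^ 2 := by
  obtain ⟨hg, φ, p1, p2, p3, p4, ε, p5, p6⟩ := key_seq D hχ hχR hχ1
  have hφ : ∀ m, ContDiff ℝ 1 (φ m) := fun m => (p1 m).of_le (by simp)
  have hψ1 : ContDiff ℝ 1 ψ := hψ.of_le (by simp)
  have hm : ∀ m, MemLp (φ m) 2 volume := fun m =>
    (hφ m).continuous.memLp_of_hasCompactSupport (p3 m)
  have hcont : Continuous fun y : EuclideanSpace ℝ κ => lam n * ⟪e n, y⟫_ℝ :=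
    continuous_const.mul (Continuous.inner continuous_const continuous_id)
  have hu : MemLp (fun y => -(fderiv ℝ ψ y (e n)) + (lam n * ⟪e n, y⟫_ℝ) • ψ y) 2 volume :=
    Continuous.memLp_of_hasCompactSupport
      ((fderiv_apply_continuous hψ1 _).neg.add (hcont.smul hψ.continuous))
      ((hasCompactSupport_fderiv_apply hψc _).neg.add hψc.smul_left)
  have t1 := ((tendsto_integral_inner hm hg (fun _ : ℕ => hu) hu p4 (by simp)).norm.pow 2)
  have t2 := p5.mul_const (∫ y, ‖ψ y‖ ^ 2)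
  refine le_of_tendsto_of_tendsto' t1 t2 fun m => ?_
  rw [dn_weak n (hφ m) hψ1 (p3 m)]
  refine (cs_real (memLp_dn n (hφ m) (p3 m))
    (hψ.continuous.memLp_of_hasCompactSupport hψc)).trans ?_
  refine mul_le_mul_of_nonneg_right ?_ (integral_nonneg fun y => sq_nonneg _)
  have h1 : C₀ * (∑ n, if lam n = 0 then 0 else ∫ y, ‖dn e lam n (φ m) y‖ ^ 2) ≤ C₀ * ε m := by
    refine le_trans ?_ (p6 m)
    have : 0 ≤ cb * (∑ j, ∫ y, ‖Bv j (φ m y)‖ ^ 2) :=
      mul_nonneg D.cb0.le (Finset.sum_nonneg fun j _ => integral_nonneg fun y => sq_nonneg _)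
    linarith
  have h2 := le_of_mul_le_mul_left h1 D.c0
  refine le_trans ?_ h2
  have h3 := Finset.single_le_sum (f := fun n => if lam n = 0 then 0 else
    ∫ y, ‖dn e lam n (φ m) y‖ ^ 2) (fun n _ => by
      split_ifs
      · exact le_rfl
      · exact integral_nonneg fun y => sq_nonneg _) (Finset.mem_univ n)
  simpa [hn] using h3

theorem K3 (D : Dat A W Bv e lam C₀ cb L f) {χ : EuclideanSpace ℝ κ → ℝ}
    (hχ : ContDiff ℝ ∞ χ) {R : ℝ} (hχR : ∀ x, R < ‖x‖ → χ x = 0) (hχ1 : ∀ x, |χ x| ≤ 1)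
    (j : β) : cb * ∫ y, ‖Bv j (χ y • f y)‖ ^ 2 ≤ C₀ * EN e lam f χ := by
  obtain ⟨hg, φ, p1, p2, p3, p4, ε, p5, p6⟩ := key_seq D hχ hχR hχ1
  have hφ : ∀ m, ContDiff ℝ 1 (φ m) := fun m => (p1 m).of_le (by simp)
  have hm : ∀ m, MemLp (φ m) 2 volume := fun m =>
    (hφ m).continuous.memLp_of_hasCompactSupport (p3 m)
  set T : F →L[ℂ] F := LinearMap.toContinuousLinearMap (Bv j) with hT
  have hTm : ∀ {u : EuclideanSpace ℝ κ → F}, MemLp u 2 volume →
      MemLp (fun y => Bv j (u y)) 2 volume := fun hu => T.comp_memLp' hu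
  have hconv : Tendsto (fun m => eLpNorm ((fun y => Bv j (φ m y)) -
      fun y => Bv j (χ y • f y)) 2 volume) atTop (𝓝 0) := by
    have h1 : Tendsto (fun m => ENNReal.ofReal ‖T‖ *
        eLpNorm (φ m - fun x => χ x • f x) 2 volume) atTop (𝓝 0) := by
      have := ENNReal.Tendsto.const_mul (a := ENNReal.ofReal ‖T‖) p4
        (Or.inr ENNReal.ofReal_ne_top)
      simpa using this
    refine tendsto_of_tendsto_of_tendsto_of_le_of_le tendsto_const_nhds h1 (fun _ => zero_le)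
      fun m => ?_
    refine eLpNorm_le_mul_eLpNorm_of_ae_le_mul (Eventually.of_forall fun x => ?_) 2
    simp only [Pi.sub_apply]
    rw [← map_sub]
    exact T.le_opNorm _
  have t1 := (tendsto_int_sq (fun m => hTm (hm m)) (hTm hg) hconv).const_mul cb
  have t2 := p5.const_mul C₀
  refine le_of_tendsto_of_tendsto' t1 t2 fun m => ?_
  refine le_trans ?_ (p6 m)
  have h1 : 0 ≤ C₀ * (∑ n, if lam n = 0 then 0 else ∫ y, ‖dn e lam n (φ m) y‖ ^ 2) := by
    refine mul_nonneg D.c0.le (Finset.sum_nonneg fun n _ => ?_)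
    split_ifs
    · exact le_rfl
    · exact integral_nonneg fun y => sq_nonneg _
  have h3 := Finset.single_le_sum (f := fun j => ∫ y, ‖Bv j (φ m y)‖ ^ 2)
    (fun j _ => integral_nonneg fun y => sq_nonneg _) (Finset.mem_univ j)
  have h4 := mul_le_mul_of_nonneg_left h3 D.cb0.le
  linarith

/-! ### 5. Product cut-offs -/

/-- diagonal operators in the basis -/
def mulP (e : OrthonormalBasis ν ℝ (EuclideanSpace ℝ κ)) (s : ν → ℝ) :
    EuclideanSpace ℝ κ →L[ℝ] EuclideanSpace ℝ κ :=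
  ∑ n, s n • (innerSL ℝ (e n)).smulRight (e n)

theorem mulP_apply (s : ν → ℝ) (y : EuclideanSpace ℝ κ) :
    mulP e s y = ∑ n, (s n * ⟪e n, y⟫_ℝ) • e n := by
  unfold mulP
  simp only [ContinuousLinearMap.sum_apply, ContinuousLinearMap.smul_apply,
    ContinuousLinearMap.smulRight_apply, innerSL_apply_apply, smul_smul]

theorem inner_mulP (s : ν → ℝ) (m : ν) (y : EuclideanSpace ℝ κ) :
    ⟪e m, mulP e s y⟫_ℝ = s m * ⟪e m, y⟫_ℝ := by
  rw [mulP_apply, e.orthonormal.inner_right_fintype]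

theorem norm_mulP (s : ν → ℝ) (y : EuclideanSpace ℝ κ) :
    ‖mulP e s y‖ ^ 2 = ∑ n, s n ^ 2 * ⟪e n, y⟫_ℝ ^ 2 := by
  rw [← e.sum_sq_norm_inner_right]
  refine Finset.sum_congr rfl fun n _ => ?_
  rw [inner_mulP, Real.norm_eq_abs, sq_abs, mul_pow]

theorem mulP_basis (s : ν → ℝ) (n : ν) : mulP e s (e n) = s n • e n := by
  classical
  rw [mulP_apply]
  simp only [e.inner_eq_ite, mul_ite, mul_one, mul_zero, ite_smul, zero_smul]
  rw [Finset.sum_ite_eq' ]
  simp

/-- transversal indicator -/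
def sN (lam : ν → ℝ) (n : ν) : ℝ := if lam n = 0 then 0 else 1

/-- flat indicator -/
def sT (lam : ν → ℝ) (n : ν) : ℝ := if lam n = 0 then 1 else 0

theorem PQ (y : EuclideanSpace ℝ κ) : mulP e (sN lam) y + mulP e (sT lam) y = y := by
  rw [mulP_apply, mulP_apply, ← Finset.sum_add_distrib]
  conv_rhs => rw [← e.sum_repr' y]
  refine Finset.sum_congr rfl fun n _ => ?_
  rw [← add_smul]
  congr 1
  unfold sN sT
  split_ifs <;> simp

theorem norm_mulP_le {s : ν → ℝ} (hs : ∀ n, s n ^ 2 ≤ 1) (y : EuclideanSpace ℝ κ) :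
    ‖mulP e s y‖ ≤ ‖y‖ := by
  have h : ‖mulP e s y‖ ^ 2 ≤ ‖y‖ ^ 2 := by
    rw [norm_mulP, ← e.sum_sq_norm_inner_right y]
    refine Finset.sum_le_sum fun n _ => ?_
    rw [Real.norm_eq_abs, sq_abs]
    nlinarith [hs n, sq_nonneg (⟪e n, y⟫_ℝ)]
  exact le_of_sq_le_sq h (norm_nonneg _)

theorem sN_sq (n : ν) : sN lam n ^ 2 ≤ 1 := by unfold sN; split_ifs <;> norm_num
theorem sT_sq (n : ν) : sT lam n ^ 2 ≤ 1 := by unfold sT; split_ifs <;> norm_num

/-- product cut-off -/
def cc2 (e : OrthonormalBasis ν ℝ (EuclideanSpace ℝ κ)) (lam : ν → ℝ) (R S : ℕ)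
    (y : EuclideanSpace ℝ κ) : ℝ :=
  cut (R : ℝ) (mulP e (sN lam) y) * cut (S : ℝ) (mulP e (sT lam) y)

theorem cc2_contDiff (R S : ℕ) : ContDiff ℝ ∞ (cc2 e lam R S) :=
  ((cut_contDiff _).comp (mulP e (sN lam)).contDiff).mul
    ((cut_contDiff _).comp (mulP e (sT lam)).contDiff)

theorem cc2_zero {R S : ℕ} {y : EuclideanSpace ℝ κ} (hy : (R : ℝ) + S + 2 < ‖y‖) :
    cc2 e lam R S y = 0 := by
  have h1 : ‖y‖ ≤ ‖mulP e (sN lam) y‖ + ‖mulP e (sT lam) y‖ := by
    conv_lhs => rw [← PQ (e := e) (lam := lam) y]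
    exact norm_add_le _ _
  unfold cc2
  by_cases h2 : (R : ℝ) + 1 ≤ ‖mulP e (sN lam) y‖
  · rw [cut_zero (Nat.cast_nonneg R) h2, zero_mul]
  · have h3 : (S : ℝ) + 1 ≤ ‖mulP e (sT lam) y‖ := by
      push Not at h2
      linarith
    rw [cut_zero (Nat.cast_nonneg S) h3, mul_zero]

theorem cc2_nonneg (R S : ℕ) (y : EuclideanSpace ℝ κ) : 0 ≤ cc2 e lam R S y :=
  mul_nonneg (cut_nonneg _ _) (cut_nonneg _ _)

theorem cc2_abs (R S : ℕ) (y : EuclideanSpace ℝ κ) : |cc2 e lam R S y| ≤ 1 := by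
  rw [abs_of_nonneg (cc2_nonneg R S y)]
  exact mul_le_one₀ (cut_le_one _ _) (cut_nonneg _ _) (cut_le_one _ _)

theorem cc2_one {R S : ℕ} {y : EuclideanSpace ℝ κ} (hR : ‖y‖ ≤ R) (hS : ‖y‖ ≤ S) :
    cc2 e lam R S y = 1 := by
  unfold cc2
  rw [cut_one (Nat.cast_nonneg R) ((norm_mulP_le sN_sq y).trans hR),
    cut_one (Nat.cast_nonneg S) ((norm_mulP_le sT_sq y).trans hS), one_mul]

theorem cc2_fderiv (R S : ℕ) (y : EuclideanSpace ℝ κ) {n : ν} (hn : lam n ≠ 0) :
    fderiv ℝ (cc2 e lam R S) y (e n) =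
      fderiv ℝ (cut (R : ℝ)) (mulP e (sN lam) y) (e n) * cut (S : ℝ) (mulP e (sT lam) y) := by
  have d1 : DifferentiableAt ℝ (cut (E := EuclideanSpace ℝ κ) (R : ℝ)) (mulP e (sN lam) y) :=
    ((cut_contDiff (n := 1) _).differentiable (by norm_num)) _
  have d2 : DifferentiableAt ℝ (cut (E := EuclideanSpace ℝ κ) (S : ℝ)) (mulP e (sT lam) y) :=
    ((cut_contDiff (n := 1) _).differentiable (by norm_num)) _
  have h1 : HasFDerivAt (fun y => cut (R : ℝ) (mulP e (sN lam) y))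
      ((fderiv ℝ (cut (R : ℝ)) (mulP e (sN lam) y)).comp (mulP e (sN lam))) y :=
    d1.hasFDerivAt.comp y (mulP e (sN lam)).hasFDerivAt
  have h2 : HasFDerivAt (fun y => cut (S : ℝ) (mulP e (sT lam) y))
      ((fderiv ℝ (cut (S : ℝ)) (mulP e (sT lam) y)).comp (mulP e (sT lam))) y :=
    d2.hasFDerivAt.comp y (mulP e (sT lam)).hasFDerivAt
  have h3 := h1.mul h2
  have h4 : fderiv ℝ (cc2 e lam R S) y = cut (R : ℝ) (mulP e (sN lam) y) •
      ((fderiv ℝ (cut (S : ℝ)) (mulP e (sT lam) y)).comp (mulP e (sT lam))) +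
      cut (S : ℝ) (mulP e (sT lam) y) •
      ((fderiv ℝ (cut (R : ℝ)) (mulP e (sN lam) y)).comp (mulP e (sN lam))) := h3.fderiv
  rw [h4]
  simp only [ContinuousLinearMap.add_apply, ContinuousLinearMap.smul_apply,
    ContinuousLinearMap.comp_apply, mulP_basis, sN, sT, hn, if_false, zero_smul, one_smul,
    map_zero, smul_eq_mul, mul_zero, zero_add]
  ring

/-- the mass density cut off in the flat directions -/
def hS (e : OrthonormalBasis ν ℝ (EuclideanSpace ℝ κ)) (lam : ν → ℝ)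
    (f : EuclideanSpace ℝ κ → F) (S : ℕ) (y : EuclideanSpace ℝ κ) : ℝ :=
  cut (S : ℝ) (mulP e (sT lam) y) ^ 2 * ‖f y‖ ^ 2

theorem hS_nonneg (S : ℕ) (y : EuclideanSpace ℝ κ) : 0 ≤ hS e lam f S y := by
  unfold hS; positivity

theorem continuous_cutT (S : ℕ) :
    Continuous fun y : EuclideanSpace ℝ κ => cut (S : ℝ) (mulP e (sT lam) y) :=
  ((cut_contDiff (n := 0) (S : ℝ)).continuous).comp (mulP e (sT lam)).continuous

theorem continuous_cutN (R : ℕ) :
    Continuous fun y : EuclideanSpace ℝ κ => cut (R : ℝ) (mulP e (sN lam) y) :=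
  ((cut_contDiff (n := 0) (R : ℝ)).continuous).comp (mulP e (sN lam)).continuous

theorem hS_le_ind {S n : ℕ} {y : EuclideanSpace ℝ κ} (hy : ‖mulP e (sN lam) y‖ ≤ n) :
    hS e lam f S y ≤ (Metric.closedBall (0 : EuclideanSpace ℝ κ) ((n : ℝ) + S + 1)).indicator
      (fun y => ‖f y‖ ^ 2) y := by
  by_cases h2 : (S : ℝ) + 1 ≤ ‖mulP e (sT lam) y‖
  · unfold hS
    rw [cut_zero (Nat.cast_nonneg S) h2]
    simp only [ne_eq, OfNat.ofNat_ne_zero, not_false_eq_true, zero_pow, zero_mul]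
    exact Set.indicator_nonneg (fun _ _ => sq_nonneg _) _
  · have h1 : ‖y‖ ≤ ‖mulP e (sN lam) y‖ + ‖mulP e (sT lam) y‖ := by
      conv_lhs => rw [← PQ (e := e) (lam := lam) y]
      exact norm_add_le _ _
    push Not at h2
    rw [Set.indicator_of_mem (by simp only [Metric.mem_closedBall, dist_zero_right]; linarith)]
    unfold hS
    have h3 := cut_nonneg (S : ℝ) (mulP e (sT lam) y)
    have h4 := cut_le_one (S : ℝ) (mulP e (sT lam) y)
    have h5 : cut (S : ℝ) (mulP e (sT lam) y) ^ 2 ≤ 1 := by nlinarith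
    nlinarith [sq_nonneg ‖f y‖]

theorem aesm_hS (hf : L2loc f) (S : ℕ) : AEStronglyMeasurable (hS e lam f S) volume := by
  unfold hS
  exact (((continuous_cutT S).pow 2).aestronglyMeasurable).mul (hf.aesm.norm.pow 2)

theorem hS_integrableOn (hf : L2loc f) (S n : ℕ) :
    IntegrableOn (hS e lam f S) {y | ‖mulP e (sN lam) y‖ ≤ n} volume := by
  have h1 : Integrable ((Metric.closedBall (0 : EuclideanSpace ℝ κ) ((n : ℝ) + S + 1)).indicator
      (fun y => ‖f y‖ ^ 2)) volume :=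
    (integrable_indicator_iff Metric.isClosed_closedBall.measurableSet).mpr (hf.integrableOn _)
  refine h1.integrableOn.mono' (aesm_hS hf S).restrict ?_
  have hms : MeasurableSet {y : EuclideanSpace ℝ κ | ‖mulP e (sN lam) y‖ ≤ n} :=
    (isClosed_le ((mulP e (sN lam)).continuous.norm) continuous_const).measurableSet
  refine (ae_restrict_iff' hms).mpr (Eventually.of_forall fun y hy => ?_)
  rw [Real.norm_of_nonneg (hS_nonneg S y)]
  exact hS_le_ind hy

/-- the gradient energy of the product cut-off is controlled by a shell mass -/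
theorem EN_le (hf : L2loc f) {Kc : ℝ} (hKc : ∀ R : ℝ, 0 ≤ R → ∀ x : EuclideanSpace ℝ κ,
      ‖fderiv ℝ (cut R) x‖ ≤ Kc) (R S : ℕ) :
    EN e lam f (cc2 e lam R S) ≤
      Kc ^ 2 * ∫ y in sh (fun y => ‖mulP e (sN lam) y‖) R, hS e lam f S y := by
  have hKc0 : 0 ≤ Kc := (norm_nonneg _).trans (hKc 0 le_rfl 0)
  have hrm : Measurable fun y : EuclideanSpace ℝ κ => ‖mulP e (sN lam) y‖ :=
    (mulP e (sN lam)).continuous.norm.measurable
  unfold EN
  rw [← integral_const_mul, ← integral_indicator (measurableSet_sh hrm R)]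
  refine integral_mono_of_nonneg (Eventually.of_forall fun y => ?_) ?_
    (Eventually.of_forall fun y => ?_)
  · refine mul_nonneg (Finset.sum_nonneg fun n _ => ?_) (sq_nonneg _)
    split_ifs
    · exact le_rfl
    · exact sq_nonneg _
  · rw [integrable_indicator_iff (measurableSet_sh hrm R)]
    refine Integrable.const_mul ?_ _
    refine (hS_integrableOn hf S (R + 1)).mono_set fun y hy => ?_
    have := hy.2
    simpa using this
  · simp only
    have h1 : (∑ n, if lam n = 0 then 0 else (fderiv ℝ (cc2 e lam R S) y (e n)) ^ 2) ≤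
        ‖fderiv ℝ (cut (R : ℝ)) (mulP e (sN lam) y)‖ ^ 2 *
          cut (S : ℝ) (mulP e (sT lam) y) ^ 2 := by
      rw [← sum_sq_onb e, Finset.sum_mul]
      refine Finset.sum_le_sum fun n _ => ?_
      split_ifs with hn
      · positivity
      · rw [cc2_fderiv R S y hn, mul_pow]
    have h2 : (∑ n, if lam n = 0 then 0 else (fderiv ℝ (cc2 e lam R S) y (e n)) ^ 2) *
        ‖f y‖ ^ 2 ≤ ‖fderiv ℝ (cut (R : ℝ)) (mulP e (sN lam) y)‖ ^ 2 * hS e lam f S y := by
      unfold hS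
      rw [← mul_assoc]
      exact mul_le_mul_of_nonneg_right h1 (sq_nonneg _)
    refine h2.trans ?_
    by_cases hx : y ∈ sh (fun y => ‖mulP e (sN lam) y‖) R
    · rw [Set.indicator_of_mem hx]
      have := hS_nonneg (e := e) (lam := lam) (f := f) S y
      gcongr
      exact hKc R (Nat.cast_nonneg R) _
    · rw [Set.indicator_of_notMem hx]
      have : fderiv ℝ (cut (R : ℝ)) (mulP e (sN lam) y) = 0 := by
        by_cases h1 : ‖mulP e (sN lam) y‖ < R
        · exact cut_fderiv_inner (Nat.cast_nonneg R) h1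
        · refine cut_fderiv_outer (Nat.cast_nonneg R) ?_
          by_contra h2
          exact hx ⟨not_lt.mp h1, not_lt.mp h2⟩
      rw [this]; simp

theorem EN_nonneg (χ : EuclideanSpace ℝ κ → ℝ) : 0 ≤ EN e lam f χ := by
  unfold EN
  refine integral_nonneg fun y => mul_nonneg (Finset.sum_nonneg fun n _ => ?_) (sq_nonneg _)
  split_ifs
  · exact le_rfl
  · exact sq_nonneg _

theorem integrable_weight {w : EuclideanSpace ℝ κ → ℝ} (hw : Continuous w) {R : ℝ}
    {u : EuclideanSpace ℝ κ → F} (hu : MemLp u 2 volume) (h0 : ∀ y, R < ‖y‖ → u y = 0) :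
    Integrable (fun y => w y * ‖u y‖ ^ 2) volume := by
  obtain ⟨M, hM⟩ := (isCompact_closedBall (0 : EuclideanSpace ℝ κ) R).exists_bound_of_continuousOn
    hw.continuousOn
  have h1 : Integrable (fun y => ‖u y‖ ^ 2) volume := (memLp_two_iff_integrable_sq_norm hu.1).mp hu
  refine (h1.const_mul (max M 0)).mono' (hw.aestronglyMeasurable.mul h1.1)
    (Eventually.of_forall fun y => ?_)
  rw [norm_mul, Real.norm_of_nonneg (sq_nonneg _)]
  by_cases hy : R < ‖y‖
  · rw [h0 y hy]; simp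
  · refine mul_le_mul_of_nonneg_right ?_ (sq_nonneg _)
    exact (hM y (by simpa using hy)).trans (le_max_left _ _)

/-- the transversal cut-off energies tend to zero -/
theorem EN_tendsto (D : Dat A W Bv e lam C₀ cb L f) {K : ℝ} (hK : 0 ≤ K)
    (hg : Integrable fun x => Real.exp (-(K * ‖x‖)) * ‖f x‖ ^ 2) (S : ℕ) :
    Tendsto (fun R : ℕ => EN e lam f (cc2 e lam R S)) atTop (𝓝 0) := by
  obtain ⟨Kc, hKc, hKb⟩ := cut_fderiv_bound (E := EuclideanSpace ℝ κ)
  have hf := D.f2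
  set r : EuclideanSpace ℝ κ → ℝ := fun y => ‖mulP e (sN lam) y‖ with hr
  have hrc : Continuous r := (mulP e (sN lam)).continuous.norm
  -- the lower bound of the weight
  obtain ⟨c, hc, hcl⟩ : ∃ c : ℝ, 0 < c ∧ ∀ n, lam n ≠ 0 → c ≤ lam n ^ 2 := by
    by_cases hne : (Finset.univ.filter fun n => lam n ≠ 0).Nonempty
    · obtain ⟨n, hn, hmin⟩ := Finset.exists_min_image _ (fun n => lam n ^ 2) hne
      refine ⟨lam n ^ 2, ?_, fun m hm => hmin m (by simp [hm])⟩
      have : lam n ≠ 0 := (Finset.mem_filter.mp hn).2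
      positivity
    · refine ⟨1, one_pos, fun n hn => ?_⟩
      exact absurd ⟨n, by simp [hn]⟩ hne
  set C : ℝ := ∑ n, if lam n = 0 then 0 else lam n with hCd
  have hwt : ∀ y, c * r y ^ 2 - C ≤ wt e lam y := by
    intro y
    rw [hr]
    simp only
    rw [norm_mulP, Finset.mul_sum, hCd, ← Finset.sum_sub_distrib]
    unfold wt
    refine Finset.sum_le_sum fun n _ => ?_
    unfold sN
    split_ifs with hn
    · simp
    · have := hcl n hn
      nlinarith [sq_nonneg (⟪e n, y⟫_ℝ)]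
  have key := mass_finite (μ := (volume : Measure (EuclideanSpace ℝ κ))) (r := r)
    (h := hS e lam f S) (χ := fun n y => cut (n : ℝ) (mulP e (sN lam) y)) (c := c) (C := C)
    (B := Kc ^ 2) (G := (∫ x, Real.exp (-(K * ‖x‖)) * ‖f x‖ ^ 2) * Real.exp (K * (S + 1)))
    (K := K) hc (sq_nonneg _) hK hrc.measurable (fun y => norm_nonneg _) (fun y => hS_nonneg S y)
    (fun n => hS_integrableOn hf S n) (fun n => (continuous_cutN n).measurable)
    (fun n y => cut_nonneg _ _) (fun n y => cut_le_one _ _)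
    (fun n y hy => cut_one (Nat.cast_nonneg n) hy) (fun n y hy => cut_zero (Nat.cast_nonneg n) hy)
    ?_ ?_
  · -- conclusion
    have h1 := key.2.const_mul (Kc ^ 2)
    rw [mul_zero] at h1
    exact tendsto_of_tendsto_of_tendsto_of_le_of_le tendsto_const_nhds h1
      (fun R => EN_nonneg _) fun R => EN_le hf hKb R S
  · intro n
    have hz : ∀ y, (n : ℝ) + S + 2 < ‖y‖ → cc2 e lam n S y = 0 := fun y hy => cc2_zero hy
    have h1 := K1 D (cc2_contDiff n S) hz (cc2_abs n S)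
    obtain ⟨hgm, -⟩ := key_seq D (cc2_contDiff n S) hz (cc2_abs n S)
    refine le_trans ?_ (h1.trans (EN_le hf hKb n S))
    have e1 : ∀ y, cut (n : ℝ) (mulP e (sN lam) y) ^ 2 * hS e lam f S y =
        ‖cc2 e lam n S y • f y‖ ^ 2 := by
      intro y
      unfold hS cc2
      rw [norm_smul, mul_pow, Real.norm_eq_abs, sq_abs, mul_pow]
      ring
    simp only [e1]
    refine integral_mono (integrable_weight (by fun_prop) (R := (n : ℝ) + S + 2) hgm fun y hy => ?_)
      (integrable_weight continuous_wt (R := (n : ℝ) + S + 2) hgm fun y hy => ?_) fun y => ?_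
    · rw [hz y hy, zero_smul]
    · rw [hz y hy, zero_smul]
    · exact mul_le_mul_of_nonneg_right (hwt y) (sq_nonneg _)
  · intro m
    have hms : MeasurableSet (sh r m) := measurableSet_sh hrc.measurable m
    have hsub : sh r m ⊆ {y | r y ≤ ((m + 1 : ℕ) : ℝ)} := by
      intro y hy
      have := hy.2
      simpa using this
    have h1 : ∫ y in sh r m, hS e lam f S y ≤
        ∫ y in sh r m, Real.exp (K * (S + 1)) * Real.exp (K * (m + 1)) *
          (Real.exp (-(K * ‖y‖)) * ‖f y‖ ^ 2) := by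
      refine setIntegral_mono_on ((hS_integrableOn hf S (m + 1)).mono_set hsub)
        (hg.const_mul _).integrableOn hms fun y hy => ?_
      refine (hS_le_ind (n := m + 1) (hsub hy)).trans ?_
      by_cases hy3 : y ∈ Metric.closedBall (0 : EuclideanSpace ℝ κ) (((m + 1 : ℕ) : ℝ) + S + 1)
      swap
      · rw [Set.indicator_of_notMem hy3]
        positivity
      rw [Set.indicator_of_mem hy3]
      have hy2 : ‖y‖ ≤ ((m + 1 : ℕ) : ℝ) + S + 1 := by simpa using hy3
      rw [← mul_assoc, ← Real.exp_add, ← Real.exp_add]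
      have : (1 : ℝ) ≤ Real.exp (K * (S + 1) + K * (m + 1) + -(K * ‖y‖)) := by
        refine Real.one_le_exp ?_
        push_cast at hy2
        nlinarith
      nlinarith [sq_nonneg ‖f y‖]
    refine h1.trans ?_
    rw [integral_const_mul]
    have h2 : ∫ y in sh r m, Real.exp (-(K * ‖y‖)) * ‖f y‖ ^ 2 ≤
        ∫ y, Real.exp (-(K * ‖y‖)) * ‖f y‖ ^ 2 :=
      setIntegral_le_integral hg (Eventually.of_forall fun x => by positivity)
    calc _ ≤ Real.exp (K * (S + 1)) * Real.exp (K * (m + 1)) *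
          ∫ y, Real.exp (-(K * ‖y‖)) * ‖f y‖ ^ 2 :=
          mul_le_mul_of_nonneg_left h2 (by positivity)
      _ = _ := by ring

/-! ### 6. The weak equations of the limit -/

theorem weak_n (D : Dat A W Bv e lam C₀ cb L f) {K : ℝ} (hK : 0 ≤ K)
    (hg : Integrable fun x => Real.exp (-(K * ‖x‖)) * ‖f x‖ ^ 2) (n : ν)
    {ψ : EuclideanSpace ℝ κ → F} (hψ : ContDiff ℝ ∞ ψ) (hψc : HasCompactSupport ψ) :
    ∫ y, ⟪f y, -(fderiv ℝ ψ y (e n)) + (lam n * ⟪e n, y⟫_ℝ) • ψ y⟫_ℂ = 0 := by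
  by_cases hn : lam n = 0
  · simp only [hn, zero_mul, zero_smul, add_zero, inner_neg_right]
    rw [integral_neg, D.flat n hn ψ hψ hψc, neg_zero]
  obtain ⟨ρ, hρ⟩ := hψc.isCompact.isBounded.subset_closedBall 0
  obtain ⟨S, hS⟩ := exists_nat_ge ρ
  have hu0 : ∀ y, ρ < ‖y‖ → -(fderiv ℝ ψ y (e n)) + (lam n * ⟪e n, y⟫_ℝ) • ψ y = 0 := by
    intro y hy
    have hy2 : y ∉ tsupport ψ := fun h => by
      have := hρ h
      simp only [Metric.mem_closedBall, dist_zero_right] at this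
      linarith
    have h1 : ψ =ᶠ[𝓝 y] (0 : EuclideanSpace ℝ κ → F) := notMem_tsupport_iff_eventuallyEq.mp hy2
    rw [h1.fderiv_eq, h1.eq_of_nhds]
    simp
  have hev : ∀ᶠ R : ℕ in atTop,
      ‖∫ y, ⟪f y, -(fderiv ℝ ψ y (e n)) + (lam n * ⟪e n, y⟫_ℝ) • ψ y⟫_ℂ‖ ^ 2 ≤
        EN e lam f (cc2 e lam R S) * ∫ y, ‖ψ y‖ ^ 2 := by
    filter_upwards [eventually_ge_atTop S] with R hR
    have hR' : (S : ℝ) ≤ R := by exact_mod_cast hR
    have hz : ∀ y, (R : ℝ) + S + 2 < ‖y‖ → cc2 e lam R S y = 0 := fun y hy => cc2_zero hy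
    have h1 := K2 D (cc2_contDiff R S) (R := (R : ℝ) + S + 2) hz
      (cc2_abs R S) hn hψ hψc
    refine le_trans (le_of_eq ?_) h1
    congr 2
    refine integral_congr_ae (Eventually.of_forall fun y => ?_)
    simp only
    by_cases hy : ρ < ‖y‖
    · rw [hu0 y hy]; simp
    · push Not at hy
      rw [cc2_one (by linarith) (by linarith), one_smul]
  have hlim : Tendsto (fun R : ℕ => EN e lam f (cc2 e lam R S) * ∫ y, ‖ψ y‖ ^ 2) atTop (𝓝 0) := by
    have := (EN_tendsto D hK hg S).mul_const (∫ y, ‖ψ y‖ ^ 2)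
    rwa [zero_mul] at this
  have h0 : ‖∫ y, ⟪f y, -(fderiv ℝ ψ y (e n)) + (lam n * ⟪e n, y⟫_ℝ) • ψ y⟫_ℂ‖ ^ 2 ≤ 0 :=
    ge_of_tendsto hlim hev
  have h2 : ‖∫ y, ⟪f y, -(fderiv ℝ ψ y (e n)) + (lam n * ⟪e n, y⟫_ℝ) • ψ y⟫_ℂ‖ = 0 := by
    nlinarith [norm_nonneg (∫ y, ⟪f y, -(fderiv ℝ ψ y (e n)) + (lam n * ⟪e n, y⟫_ℝ) • ψ y⟫_ℂ)]
  exact norm_eq_zero.mp h2

theorem bv_zero (D : Dat A W Bv e lam C₀ cb L f) {K : ℝ} (hK : 0 ≤ K)
    (hg : Integrable fun x => Real.exp (-(K * ‖x‖)) * ‖f x‖ ^ 2) (j : β) :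
    ∀ᵐ y, Bv j (f y) = 0 := by
  have hball : ∀ S : ℕ, ∀ᵐ y ∂(volume.restrict (Metric.closedBall (0 : EuclideanSpace ℝ κ) S)),
      Bv j (f y) = 0 := by
    intro S
    set T : F →L[ℂ] F := LinearMap.toContinuousLinearMap (Bv j) with hT
    have hmem : MemLp (fun y => Bv j (f y)) 2
        (volume.restrict (Metric.closedBall (0 : EuclideanSpace ℝ κ) S)) :=
      T.comp_memLp' (D.f2 S)
    have hint : Integrable (fun y => ‖Bv j (f y)‖ ^ 2)
        (volume.restrict (Metric.closedBall (0 : EuclideanSpace ℝ κ) S)) :=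
      (memLp_two_iff_integrable_sq_norm hmem.1).mp hmem
    have hev : ∀ᶠ R : ℕ in atTop, cb * ∫ y in Metric.closedBall (0 : EuclideanSpace ℝ κ) S,
        ‖Bv j (f y)‖ ^ 2 ≤ C₀ * EN e lam f (cc2 e lam R S) := by
      filter_upwards [eventually_ge_atTop S] with R hR
      have hR' : (S : ℝ) ≤ R := by exact_mod_cast hR
      have hz : ∀ y, (R : ℝ) + S + 2 < ‖y‖ → cc2 e lam R S y = 0 := fun y hy => cc2_zero hy
      refine le_trans ?_ (K3 D (cc2_contDiff R S) (R := (R : ℝ) + S + 2) hz (cc2_abs R S) j)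
      refine mul_le_mul_of_nonneg_left ?_ D.cb0.le
      obtain ⟨hgm, -⟩ := key_seq D (cc2_contDiff R S) hz (cc2_abs R S)
      have hm2 : MemLp (fun y => Bv j (cc2 e lam R S y • f y)) 2 volume := T.comp_memLp' hgm
      have hi2 : Integrable (fun y => ‖Bv j (cc2 e lam R S y • f y)‖ ^ 2) volume :=
        (memLp_two_iff_integrable_sq_norm hm2.1).mp hm2
      calc ∫ y in Metric.closedBall (0 : EuclideanSpace ℝ κ) S, ‖Bv j (f y)‖ ^ 2
          = ∫ y in Metric.closedBall (0 : EuclideanSpace ℝ κ) S,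
            ‖Bv j (cc2 e lam R S y • f y)‖ ^ 2 := by
            refine setIntegral_congr_fun Metric.isClosed_closedBall.measurableSet fun y hy => ?_
            have hy' : ‖y‖ ≤ S := by simpa using hy
            rw [cc2_one (hy'.trans hR') hy', one_smul]
        _ ≤ _ := setIntegral_le_integral hi2 (Eventually.of_forall fun y => sq_nonneg _)
    have hlim : Tendsto (fun R : ℕ => C₀ * EN e lam f (cc2 e lam R S)) atTop (𝓝 0) := by
      have := (EN_tendsto D hK hg S).const_mul C₀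
      rwa [mul_zero] at this
    have h0 : cb * ∫ y in Metric.closedBall (0 : EuclideanSpace ℝ κ) S, ‖Bv j (f y)‖ ^ 2 ≤ 0 :=
      ge_of_tendsto hlim hev
    have h1 : 0 ≤ ∫ y in Metric.closedBall (0 : EuclideanSpace ℝ κ) S, ‖Bv j (f y)‖ ^ 2 :=
      integral_nonneg fun y => sq_nonneg _
    have h2 : ∫ y in Metric.closedBall (0 : EuclideanSpace ℝ κ) S, ‖Bv j (f y)‖ ^ 2 = 0 := by
      refine le_antisymm ?_ h1
      by_contra hne
      push Not at hne
      have := mul_pos D.cb0 hne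
      linarith
    rw [integral_eq_zero_iff_of_nonneg (fun y => sq_nonneg _) hint] at h2
    filter_upwards [h2] with y hy
    simpa using hy
  have hall : ∀ᵐ y : EuclideanSpace ℝ κ, ∀ S : ℕ,
      y ∈ Metric.closedBall (0 : EuclideanSpace ℝ κ) S → Bv j (f y) = 0 := by
    rw [ae_all_iff]
    intro S
    exact (ae_restrict_iff' Metric.isClosed_closedBall.measurableSet).mp (hball S)
  filter_upwards [hall] with y hy
  obtain ⟨S, hS⟩ := exists_nat_ge ‖y‖
  exact hy S (by simpa using hS)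

/-- A locally integrable function with zero weak gradient is constant. -/
theorem ae_const_of_weak {h : EuclideanSpace ℝ κ → F} (hloc : LocallyIntegrable h volume)
    (hw : ∀ v : EuclideanSpace ℝ κ, ∀ ψ : EuclideanSpace ℝ κ → F, ContDiff ℝ ∞ ψ →
      HasCompactSupport ψ → ∫ y, ⟪h y, fderiv ℝ ψ y v⟫_ℂ = 0) :
    ∃ c : F, h =ᵐ[volume] fun _ => c := by
  have : CompleteSpace F := FiniteDimensional.complete ℂ F
  -- mollifications are constant
  have hconst : ∀ φ : ContDiffBump (0 : EuclideanSpace ℝ κ), ∀ x y, moll φ h x = moll φ h y := by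
    intro φ
    refine is_const_of_fderiv_eq_zero (𝕜 := ℝ)
      ((contDiff_moll hloc).differentiable (by simp)) fun x => ?_
    ext v
    rw [fderiv_moll hloc]
    simp only [ContinuousLinearMap.zero_apply]
    refine ext_inner_right ℂ fun w => ?_
    rw [inner_int_left (integrable_fderiv_bump_smul hloc x v), inner_zero_left]
    have hρs : ContDiff ℝ ∞ (φ.normed (volume : Measure (EuclideanSpace ℝ κ))) :=
      φ.contDiff_normed
    set ρ : EuclideanSpace ℝ κ → ℝ := φ.normed volume with hρ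
    set ψ : EuclideanSpace ℝ κ → F := fun y => ρ (x - y) • w with hψ
    have hψs : ContDiff ℝ ∞ ψ := (hρs.comp (contDiff_const.sub contDiff_id)).smul contDiff_const
    have hψc : HasCompactSupport ψ := by
      refine HasCompactSupport.intro (isCompact_closedBall x φ.rOut) fun y hy => ?_
      have : ρ (x - y) = 0 := by
        refine bump_eq_zero fun h => hy ?_
        rw [Metric.mem_closedBall, dist_comm, dist_eq_norm]
        exact h.le
      rw [hψ]
      simp only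
      rw [this, zero_smul]
    have hψd : ∀ y, fderiv ℝ ψ y v = -(fderiv ℝ ρ (x - y) v) • w := by
      intro y
      have h1 : HasFDerivAt (fun y => ρ (x - y)) (-(fderiv ℝ ρ (x - y))) y := by
        have h2 : HasFDerivAt ρ (fderiv ℝ ρ (x - y)) (x - y) :=
          (hρs.differentiable (by simp) (x - y)).hasFDerivAt
        exact (h2.comp y ((hasFDerivAt_const x y).sub (hasFDerivAt_id y))).congr_fderiv
          (by ext e; simp)
      have h4 := h1.smul_const w
      rw [hψ, h4.fderiv]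
      simp
    have h0 := hw v ψ hψs hψc
    rw [← neg_eq_zero, ← integral_neg, ← h0]
    refine integral_congr_ae (Eventually.of_forall fun y => ?_)
    simp only
    rw [hψd, inner_rs_left, inner_rs_right]
    push_cast
    ring
  let φs : ℕ → ContDiffBump (0 : EuclideanSpace ℝ κ) := fun n =>
    ⟨1 / (2 * ((n : ℝ) + 1)), 1 / ((n : ℝ) + 1), by positivity, by
      apply one_div_lt_one_div_of_lt
      · positivity
      · have : (0 : ℝ) < (n : ℝ) + 1 := by positivity
        linarith⟩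
  have hrt : Tendsto (fun n => (φs n).rOut) atTop (𝓝 0) := tendsto_one_div_add_atTop_nhds_zero_nat
  have hae := ContDiffBump.ae_convolution_tendsto_right_of_locallyIntegrable (φ := φs) (K := 2)
    (μ := (volume : Measure (EuclideanSpace ℝ κ))) hrt (Eventually.of_forall fun n => by
      show 1 / ((n : ℝ) + 1) ≤ 2 * (1 / (2 * ((n : ℝ) + 1)))
      apply le_of_eq
      field_simp) hloc
  have hae' : ∀ᵐ x, Tendsto (fun n => moll (φs n) h x) atTop (𝓝 (h x)) := by
    filter_upwards [hae] with x hx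
    refine hx.congr fun n => ?_
    rw [moll_eq_conv]
  obtain ⟨x₀, hx₀⟩ := hae'.exists
  refine ⟨h x₀, ?_⟩
  filter_upwards [hae'] with x hx
  exact tendsto_nhds_unique hx (hx₀.congr fun n => hconst (φs n) x₀ x)

/-- half of the quadratic form -/
def qq (e : OrthonormalBasis ν ℝ (EuclideanSpace ℝ κ)) (lam : ν → ℝ)
    (y : EuclideanSpace ℝ κ) : ℝ := (1 / 2) * ∑ n, lam n * ⟪e n, y⟫_ℝ ^ 2

theorem qq_contDiff : ContDiff ℝ ∞ (qq e lam) := by
  unfold qq
  refine contDiff_const.mul (ContDiff.sum fun n _ => contDiff_const.mul ?_)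
  exact (contDiff_const.inner ℝ contDiff_id).pow 2

theorem qq_fderiv (n : ν) (y : EuclideanSpace ℝ κ) :
    fderiv ℝ (qq e lam) y (e n) = lam n * ⟪e n, y⟫_ℝ := by
  classical
  have h1 : ∀ m, HasFDerivAt (fun y : EuclideanSpace ℝ κ => lam m * ⟪e m, y⟫_ℝ ^ 2)
      (lam m • ((2 * ⟪e m, y⟫_ℝ) • innerSL ℝ (e m))) y := by
    intro m
    have h2 : HasFDerivAt (fun z : EuclideanSpace ℝ κ => ⟪e m, z⟫_ℝ) (innerSL ℝ (e m)) y :=
      (innerSL ℝ (e m)).hasFDerivAt
    have h3 := (h2.pow 2).const_mul (lam m)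
    simpa using h3
  have h2 : HasFDerivAt (qq e lam) ((1 / 2 : ℝ) • ∑ m, lam m • ((2 * ⟪e m, y⟫_ℝ) •
      innerSL ℝ (e m))) y := by
    unfold qq
    exact (HasFDerivAt.fun_sum fun m _ => h1 m).const_mul (1 / 2)
  rw [h2.fderiv]
  simp only [ContinuousLinearMap.smul_apply, ContinuousLinearMap.sum_apply, innerSL_apply_apply,
    smul_eq_mul, e.inner_eq_ite, mul_ite, mul_one, mul_zero]
  rw [Finset.sum_ite_eq']
  simp
  ring

theorem conclusion (D : Dat A W Bv e lam C₀ cb L f) {K : ℝ} (hK : 0 ≤ K)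
    (hg : Integrable fun x => Real.exp (-(K * ‖x‖)) * ‖f x‖ ^ 2) {Ω : F}
    (hB : ∀ v : F, (∀ j, Bv j v = 0) → ∃ c : ℂ, v = c • Ω) :
    ∃ c : ℂ, f =ᵐ[volume] fun y => c • (Real.exp (-(qq e lam y)) • Ω) := by
  have hq : ContDiff ℝ ∞ (qq e lam) := qq_contDiff
  have hexp : ContDiff ℝ ∞ fun y => Real.exp (qq e lam y) := Real.contDiff_exp.comp hq
  have hloc : LocallyIntegrable (fun y => Real.exp (qq e lam y) • f y) volume := by
    rw [locallyIntegrable_iff]
    intro k hk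
    exact (D.f2.locallyIntegrable.integrableOn_isCompact hk).continuousOn_smul
      hexp.continuous.continuousOn hk
  have hweak : ∀ v : EuclideanSpace ℝ κ, ∀ ψ : EuclideanSpace ℝ κ → F, ContDiff ℝ ∞ ψ →
      HasCompactSupport ψ → ∫ y, ⟪Real.exp (qq e lam y) • f y, fderiv ℝ ψ y v⟫_ℂ = 0 := by
    intro v ψ hψ hψc
    have hbasis : ∀ n, ∫ y, ⟪Real.exp (qq e lam y) • f y, fderiv ℝ ψ y (e n)⟫_ℂ = 0 := by
      intro n
      have h1 := weak_n D hK hg n (ψ := fun y => Real.exp (qq e lam y) • ψ y)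
        (hexp.smul hψ) hψc.smul_left
      rw [← neg_eq_zero, ← integral_neg, ← h1]
      refine integral_congr_ae (Eventually.of_forall fun y => ?_)
      simp only
      have h2 : fderiv ℝ (fun y => Real.exp (qq e lam y) • ψ y) y (e n) =
          Real.exp (qq e lam y) • (fderiv ℝ ψ y (e n) + (lam n * ⟪e n, y⟫_ℝ) • ψ y) := by
        rw [fderiv_fun_smul (hexp.differentiable (by simp) y) (hψ.differentiable (by simp) y)]
        simp only [ContinuousLinearMap.add_apply, ContinuousLinearMap.smul_apply,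
          ContinuousLinearMap.smulRight_apply]
        have h3 : fderiv ℝ (fun y => Real.exp (qq e lam y)) y (e n) =
            Real.exp (qq e lam y) * (lam n * ⟪e n, y⟫_ℝ) := by
          have h4 : HasFDerivAt (fun y => Real.exp (qq e lam y))
              (Real.exp (qq e lam y) • fderiv ℝ (qq e lam) y) y :=
            (hq.differentiable (by simp) y).hasFDerivAt.exp
          rw [h4.fderiv]
          simp [qq_fderiv]
        rw [h3, smul_add, smul_smul]
      rw [h2, inner_rs_left, ← mul_neg, ← inner_neg_right, ← inner_rs_right]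
      congr 1
      simp only [smul_neg, smul_add, smul_smul]
      have : (lam n * ⟪e n, y⟫_ℝ * Real.exp (qq e lam y)) • ψ y =
        (Real.exp (qq e lam y) * (lam n * ⟪e n, y⟫_ℝ)) • ψ y := by ring_nf
      rw [this]
      abel
    have hexpand : ∀ y, fderiv ℝ ψ y v = ∑ n, ⟪e n, v⟫_ℝ • fderiv ℝ ψ y (e n) := by
      intro y
      conv_lhs => rw [← e.sum_repr' v, map_sum]
      simp only [map_smul]
    have hint : ∀ n, Integrable (fun y => ⟪Real.exp (qq e lam y) • f y,
        ⟪e n, v⟫_ℝ • fderiv ℝ ψ y (e n)⟫_ℂ) volume := by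
      intro n
      exact integrable_inner_loc hloc
        ((fderiv_apply_continuous (hψ.of_le (by simp)) _).const_smul _)
        ((hasCompactSupport_fderiv_apply hψc _).smul_left (f := fun _ => ⟪e n, v⟫_ℝ))
    simp only [hexpand, inner_sum]
    rw [integral_finset_sum _ fun n _ => hint n]
    refine Finset.sum_eq_zero fun n _ => ?_
    simp only [inner_rs_right]
    rw [integral_const_mul, hbasis n, mul_zero]
  obtain ⟨c, hc⟩ := ae_const_of_weak hloc hweak
  have hBc : ∀ j, Bv j c = 0 := by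
    intro j
    obtain ⟨y, hy1, hy2⟩ := (hc.and (bv_zero D hK hg j)).exists
    have hy1' : Real.exp (qq e lam y) • f y = c := hy1
    rw [← hy1', map_rsmul, hy2, smul_zero]
  obtain ⟨z, hz⟩ := hB c hBc
  refine ⟨z, ?_⟩
  filter_upwards [hc] with y hy
  have h1 : f y = Real.exp (-(qq e lam y)) • c := by
    have hy' : Real.exp (qq e lam y) • f y = c := hy
    rw [← hy', smul_smul, ← Real.exp_add]
    simp
  rw [h1, hz, smul_comm]

/-! ### 7. The theorem -/

/-- **LIOUVILLE THEOREM from (EX)** (flat directions allowed). -/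
theorem liouville_EX {T : EuclideanSpace ℝ κ →ₗ[ℝ] EuclideanSpace ℝ κ} (hT : T.IsSymmetric)
    (hTp : ∀ u, 0 ≤ ⟪u, T u⟫_ℝ) (hC : 0 < C₀) (hcb : 0 < cb)
    (CL : ∀ (η : κ → ℝ) (v : F), ∑ α, ‖∑ k, η k • A α k v‖ ^ 2 = C₀ * (∑ k, η k ^ 2) * ‖v‖ ^ 2)
    (hA : ∀ α k, (A α k).IsSymmetric) (hW : ∀ α x, (W α x).IsSymmetric)
    (hL : ∀ α, LipPot (W α) L)
    (EX : ∀ φ : EuclideanSpace ℝ κ → F, ContDiff ℝ ∞ φ → HasCompactSupport φ →
      C₀ * (∑ k, ∫ y, ‖fderiv ℝ φ y (EuclideanSpace.single k 1) + (T y) k • φ y‖ ^ 2) +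
        cb * (∑ j, ∫ y, ‖Bv j (φ y)‖ ^ 2) ≤ ∑ α, ∫ y, ‖dirac (A α) (W α) φ y‖ ^ 2)
    {Ω : F} (hB : ∀ v : F, (∀ j, Bv j v = 0) → ∃ c : ℂ, v = c • Ω)
    {K : ℝ} (hK : 0 ≤ K) (hfm : AEStronglyMeasurable f volume)
    (hg : Integrable fun x => Real.exp (-(K * ‖x‖)) * ‖f x‖ ^ 2)
    (hw : ∀ α, ∀ ψ : EuclideanSpace ℝ κ → F, ContDiff ℝ ∞ ψ → HasCompactSupport ψ →
      ∫ y, ⟪f y, dirac (A α) (W α) ψ y⟫_ℂ = 0)
    (hflat : ∀ v, T v = 0 → ∀ ψ : EuclideanSpace ℝ κ → F, ContDiff ℝ ∞ ψ → HasCompactSupport ψ →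
      ∫ y, ⟪f y, fderiv ℝ ψ y v⟫_ℂ = 0) :
    ∃ c : ℂ, f =ᵐ[volume] fun y => c • (Real.exp (-(1 / 2) * ⟪y, T y⟫_ℝ) • Ω) := by
  let e := hT.eigenvectorBasis (n := Module.finrank ℝ (EuclideanSpace ℝ κ)) rfl
  let lam := hT.eigenvalues (n := Module.finrank ℝ (EuclideanSpace ℝ κ)) rfl
  have he : ∀ n, T (e n) = lam n • e n := fun n => hT.apply_eigenvectorBasis rfl n
  have hlam : ∀ n, 0 ≤ lam n := by
    intro n
    have h1 := hTp (e n)
    rw [he, inner_smul_right, real_inner_self_eq_norm_sq, e.norm_eq_one] at h1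
    simpa using h1
  have D : Dat A W Bv e lam C₀ cb L f :=
    { c0 := hC
      cb0 := hcb
      lam0 := hlam
      cl := CL
      symA := hA
      symW := hW
      lip := hL
      ex := fun φ hφ hc => by
        rw [← sum_dn T hT he (hφ.of_le (by simp)) hc]
        exact EX φ hφ hc
      f2 := L2loc_of_growth hfm hg hK
      weak := hw
      flat := fun n hn ψ hψ hψc => hflat (e n) (by rw [he, hn, zero_smul]) ψ hψ hψc }
  obtain ⟨c, hc⟩ := conclusion D hK hg hB
  refine ⟨c, ?_⟩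
  filter_upwards [hc] with y hy
  rw [hy]
  have h1 : ⟪y, T y⟫_ℝ = ∑ n, lam n * ⟪e n, y⟫_ℝ ^ 2 := by
    rw [← e.sum_inner_mul_inner y (T y)]
    refine Finset.sum_congr rfl fun n _ => ?_
    rw [← hT (e n) y, he, inner_smul_left, real_inner_comm (e n) y]
    simp
    ring
  rw [h1]
  unfold qq
  congr 4
  ring

end Main

end Crest.Agent.R330.LiouEX350
end
end

-- ▼ part R330/LinEx2_674
section

/-!
# Row 330, S5c: the exact identity for the linearised charges (helper674)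

* `trZ_wlin`, `lcharge_eq` : the linearised charges of helper798 as `chargeW`.
* `ex_le` : the identity of `LinEx_674` in the shape of helper350's `liouville_EX`.
* `bv_line` : the common kernel of the annihilation operators is at most a line.
-/

set_option autoImplicit false
set_option linter.unusedSectionVars false

open MeasureTheory Filter Topology
open scoped ContDiff InnerProductSpace ENNReal
open Crest.MathPhysics.MatrixQM
open Crest.Agent.R330.IBP837 Crest.Agent.R330.Weitz726 Crest.Agent.R330.Defs478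

noncomputable section

namespace Crest.Agent.R330.LinEx674

open Crest.Agent.R330.S5Defs798

variable {N : ℕ} {F : Type*} [NormedAddCommGroup F] [InnerProductSpace ℂ F]

theorem trZ_wlin (b : ColorBasis N) (G : GammaNine) (c : Cfg N) : TrZ G (wlin b G c) := by
  intro k x
  have h1 := trZ_wpot b G 1 1 k (c + x)
  have h2 := trZ_wpot b G 1 1 k c
  have h3 := trZ_wpot b G 1 0 k x
  unfold wlin
  simp only [mul_sub, Finset.sum_sub_distrib, h1, h2, h3, sub_zero]

section

variable [FiniteDimensional ℂ F]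

theorem lcharge_eq (b : ColorBasis N) (M : FermionRep N F) (G : GammaNine) (c : Cfg N)
    (α : Fin 16) (φ : Cfg N → F) (x : Cfg N) :
    lcharge b M G c α φ x = chargeW M G (wlin b G c) α φ x := by
  unfold lcharge chargeW dirac
  congr 1
  · unfold kin
    rw [Fintype.sum_prod_type]
    refine Finset.sum_congr rfl fun i _ => Finset.sum_congr rfl fun A _ => ?_
    rw [dco_apply, Finset.smul_sum]
    exact Finset.sum_congr rfl fun β _ => by rw [smul_smul]
  · rw [vco_apply]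

variable {M : FermionRep N F} {G : GammaNine}
  {W : Fin 16 → Fin 16 → Fin (N ^ 2 - 1) → Cfg N → ℝ} {I : VV N →ₗ[ℝ] VV N}
  {A B : Cfg N →ₗ[ℝ] Cfg N}

/-- The exact identity with the sums outside of the integrals. -/
theorem lin_exact' (h : LinW G W I A) (hI : IsCS I) (hT : TrZ G W)
    (hB : ∀ x y, ⟪B x, y⟫_ℝ = ⟪x, B y⟫_ℝ) (hAB : ∀ x, B (B x) = A x)
    {φ : Cfg N → F} (hφ : ContDiff ℝ 2 φ) (hc : HasCompactSupport φ) :
    ∑ α, ∫ x, ‖chargeW M G W α φ x‖ ^ 2 =
      8 * (∑ k : Fin 9 × Fin (N ^ 2 - 1), ∫ x,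
        ‖fderiv ℝ φ x (EuclideanSpace.single k 1) + A x k • φ x‖ ^ 2) +
      1 / 2 * ∑ j : Fin 16 × (Fin 9 × Fin (N ^ 2 - 1)), ∫ x,
        ‖bop M I (gv G j.1 (B (EuclideanSpace.single j.2 1))) (φ x)‖ ^ 2 := by
  have h1 : ContDiff ℝ 1 φ := hφ.of_le (by norm_num)
  rw [lin_exact h hI hT hB hAB hφ hc]
  congr 2
  · rw [integral_finsetSum]
    intro k _
    have hcont : Continuous fun x =>
        fderiv ℝ φ x (EuclideanSpace.single k 1) + A x k • φ x :=
      (fderiv_apply_continuous h1 _).add ((acL A k).continuous.smul h1.continuous)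
    refine (hcont.norm.pow 2).integrable_of_hasCompactSupport ?_
    refine HasCompactSupport.of_support_subset_isCompact hc fun x hx => ?_
    by_contra hx'
    apply hx
    have e1 : fderiv ℝ φ x = 0 := by
      by_contra h'
      exact hx' (support_fderiv_subset ℝ h')
    have e2 : φ x = 0 := image_eq_zero_of_notMem_tsupport hx'
    simp [e1, e2]
  · unfold nsum
    rw [Fintype.sum_prod_type, integral_finsetSum]
    · refine Finset.sum_congr rfl fun α _ => ?_
      rw [integral_finsetSum]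
      intro k _
      exact (((cont_lin _).comp h1.continuous).norm.pow 2).integrable_of_hasCompactSupport
        (hc.mono fun x hx h0 => hx (by
          have : φ x = 0 := h0
          simp [this]))
    · intro α _
      refine integrable_finsetSum _ fun k _ => ?_
      exact (((cont_lin _).comp h1.continuous).norm.pow 2).integrable_of_hasCompactSupport
        (hc.mono fun x hx h0 => hx (by
          have : φ x = 0 := h0
          simp [this]))

/-- **(EX)** in the shape of `liouville_EX`. -/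
theorem ex_le {b : ColorBasis N} {c : Cfg N} (h : LinW G (wlin b G c) I A) (hI : IsCS I)
    (hB : ∀ x y, ⟪B x, y⟫_ℝ = ⟪x, B y⟫_ℝ) (hAB : ∀ x, B (B x) = A x)
    {φ : Cfg N → F} (hφ : ContDiff ℝ ∞ φ) (hc : HasCompactSupport φ) :
    8 * (∑ k : Fin 9 × Fin (N ^ 2 - 1), ∫ y,
        ‖fderiv ℝ φ y (EuclideanSpace.single k 1) + (A y) k • φ y‖ ^ 2) +
      1 / 2 * (∑ j : Fin 16 × (Fin 9 × Fin (N ^ 2 - 1)), ∫ y,
        ‖bop M I (gv G j.1 (B (EuclideanSpace.single j.2 1))) (φ y)‖ ^ 2) ≤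
    ∑ α, ∫ y, ‖dirac (dco M G α) (fun x => vco M (fun β A => wlin b G c α β A x)) φ y‖ ^ 2 :=
  (lin_exact' h hI (trZ_wlin b G c) hB hAB (contDiff_infty.1 hφ 2) hc).symm.le

/-! ## The vacuum line -/

/-- the matrix of `-I` on the pair index -/
def matI (I : VV N →ₗ[ℝ] VV N) : Matrix (Om0331.Idx N) (Om0331.Idx N) ℝ :=
  fun l k => -(I (fun β A => if (β, A) = k then 1 else 0) l.1 l.2)

theorem Th_unit (M : FermionRep N F) (k : Om0331.Idx N) :
    Th M (fun β A => if (β, A) = k then 1 else 0) = M.θ k.1 k.2 := by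
  ext v
  rw [Th_apply' M]
  rw [Finset.sum_eq_single k]
  · simp
  · intro p _ hp
    have : ¬ ((p.1, p.2) : Om0331.Idx N) = k := hp
    rw [if_neg this]
    simp
  · intro h; exact absurd (Finset.mem_univ _) h

/-- the vacua of `I` in the language of helper45 and helper331 -/
theorem isVac_of_bop {I : VV N →ₗ[ℝ] VV N} {v : F} (h : ∀ u, bop M I u v = 0) :
    Neut45.IsVac (Om0331.tht M) (matI I) v := by
  intro k
  have h1 := h (fun β A => if (β, A) = k then 1 else 0)
  rw [bop_apply, Th_unit, sub_eq_zero] at h1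
  rw [Om0331.tht, h1, Th_apply' M, neg_smul, ← smul_neg, ← Finset.sum_neg_distrib]
  congr 1
  refine Finset.sum_congr rfl fun p _ => ?_
  unfold matI
  push_cast
  rw [neg_smul, neg_neg]

theorem vac_line_bop {I : VV N →ₗ[ℝ] VV N} {Ω v : F} (h0 : Ω ≠ 0)
    (hΩ : ∀ u, bop M I u Ω = 0) (hv : ∀ u, bop M I u v = 0) : ∃ k : ℂ, v = k • Ω :=
  Om0331.vac_line M h0 (isVac_of_bop hΩ) (isVac_of_bop hv)

/-- the vectors `γ_α(e_{jA})`, `α = 0..15`, span -/
theorem unit_eq_sum (G : GammaNine) (j : Fin 9) (k : Om0331.Idx N) :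
    (fun β A => if (β, A) = k then (1 : ℝ) else 0 : VV N) =
      ∑ α, G.γ j k.1 α • gv G α (EuclideanSpace.single (j, k.2) 1) := by
  funext β a
  simp only [Finset.sum_apply, Pi.smul_apply, smul_eq_mul, gv_single, ug]
  by_cases ha : a = k.2
  · simp only [ha, if_true]
    have h1 := congrFun (congrFun (gamma_sq G j) k.1) β
    rw [Matrix.mul_apply, Matrix.one_apply] at h1
    rw [h1]
    by_cases hb : β = k.1
    · rw [if_pos hb.symm, if_pos (by rw [hb])]
    · rw [if_neg (Ne.symm hb), if_neg fun h => hb (congrArg Prod.fst h)]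
  · have h2 : ¬ ((β, a) : Om0331.Idx N) = k := fun h => ha (congrArg Prod.snd h)
    simp [ha, h2]

/-- **(BV)**: if the range of `B` contains one full direction `j`, the common kernel of the
`b(γ_α B e_k)` is the vacuum line. -/
theorem bv_line {I : VV N →ₗ[ℝ] VV N} {B : Cfg N →ₗ[ℝ] Cfg N} {j : Fin 9}
    (hr : ∀ a, ∃ w, B w = EuclideanSpace.single (j, a) 1) {Ω : F} (h0 : Ω ≠ 0)
    (hΩ : ∀ u, bop M I u Ω = 0) {v : F}
    (hv : ∀ i : Fin 16 × (Fin 9 × Fin (N ^ 2 - 1)),
      bop M I (gv G i.1 (B (EuclideanSpace.single i.2 1))) v = 0) : ∃ k : ℂ, v = k • Ω := by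
  refine vac_line_bop h0 hΩ fun u => ?_
  -- `b(γ_α B w) v = 0`
  have h1 : ∀ α w, bop M I (gv G α (B w)) v = 0 := by
    intro α w
    have e : gv G α (B w) = ∑ k : Fin 9 × Fin (N ^ 2 - 1),
        w k • gv G α (B (EuclideanSpace.single k 1)) := by
      conv_lhs => rw [sum_single w]
      rw [map_sum, ← gvL_apply, map_sum]
      exact Finset.sum_congr rfl fun k _ => by rw [map_smul, map_smul, gvL_apply]
    rw [e]
    have h2 : ∀ s : Finset (Fin 9 × Fin (N ^ 2 - 1)),
        bop M I (∑ k ∈ s, w k • gv G α (B (EuclideanSpace.single k 1))) v = 0 := by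
      intro s
      classical
      induction s using Finset.induction_on with
      | empty => simp [bop_apply, Th_zero]
      | insert a s ha ih =>
        rw [Finset.sum_insert ha, bop_add, bop_smul, LinearMap.add_apply, LinearMap.smul_apply,
          hv (α, a), ih]
        simp
    exact h2 _
  have h3 : ∀ k : Om0331.Idx N, bop M I (fun β A => if (β, A) = k then (1 : ℝ) else 0) v = 0 := by
    intro k
    obtain ⟨w, hw⟩ := hr k.2
    rw [unit_eq_sum G j k, ← hw]
    have h2 : ∀ s : Finset (Fin 16), bop M I (∑ α ∈ s, G.γ j k.1 α • gv G α (B w)) v = 0 := by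
      intro s
      classical
      induction s using Finset.induction_on with
      | empty => simp [bop_apply, Th_zero]
      | insert a s ha ih =>
        rw [Finset.sum_insert ha, bop_add, bop_smul, LinearMap.add_apply, LinearMap.smul_apply,
          h1, ih]
        simp
    exact h2 _
  have h4 : u = ∑ k : Om0331.Idx N, u k.1 k.2 •
      (fun β A => if (β, A) = k then (1 : ℝ) else 0 : VV N) := by
    funext β a
    simp only [Finset.sum_apply, Pi.smul_apply, smul_eq_mul, mul_ite, mul_one, mul_zero]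
    rw [Finset.sum_ite_eq]
    simp
  rw [h4]
  have h5 : ∀ s : Finset (Om0331.Idx N), bop M I (∑ k ∈ s, u k.1 k.2 •
      (fun β A => if (β, A) = k then (1 : ℝ) else 0 : VV N)) v = 0 := by
    intro s
    classical
    induction s using Finset.induction_on with
    | empty => simp [bop_apply, Th_zero]
    | insert a s ha ih =>
      rw [Finset.sum_insert ha, bop_add, bop_smul, LinearMap.add_apply, LinearMap.smul_apply,
        h3, ih]
      simp
  exact h5 _

end

end Crest.Agent.R330.LinEx674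

end
end

-- ▼ part R330/LiouP_350
section

/-!
Row 330 (helper350): binding of `liouville_EX` to helper798's `LiouvilleProp`, from one package
`EXPack` (complex structure, frequencies, vacuum) per vacuum configuration.
-/

set_option autoImplicit false
set_option linter.unusedSectionVars false

open MeasureTheory Filter Topology
open scoped ContDiff InnerProductSpace ENNReal
open Crest.MathPhysics.MatrixQM
open Crest.Agent.R330.IBP837 Crest.Agent.R330.Weitz726 Crest.Agent.R330.Defs478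
open Crest.Agent.R330.Moll350 Crest.Agent.R330.Agmon350 Crest.Agent.R330.LiouEX350

noncomputable section

namespace Crest.Agent.R330.LiouP350

open Crest.Agent.R330.S5Defs798 Crest.Agent.R330.LinEx674

variable {N : ℕ} {F : Type*} [NormedAddCommGroup F] [InnerProductSpace ℂ F]
  [FiniteDimensional ℂ F]

/-- `(CL)` for the kinetic symbols. -/
theorem cl_dco (M : FermionRep N F) (G : GammaNine) (η : Fin 9 × Fin (N ^ 2 - 1) → ℝ) (v : F) :
    ∑ α, ‖∑ k, η k • dco M G α k v‖ ^ 2 = 8 * (∑ k, η k ^ 2) * ‖v‖ ^ 2 := by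
  have h : ∀ α, ‖∑ k, η k • dco M G α k v‖ ^ 2 = 1 / 2 * (∑ k, η k ^ 2) * ‖v‖ ^ 2 := by
    intro α
    have h1 := Ims714.norm_kin_sq G M α (WithLp.toLp 2 η : Cfg N) v
    rw [EuclideanSpace.norm_sq_eq] at h1
    simp only [Real.norm_eq_abs, sq_abs] at h1
    have h2 : Ims714.kin G M α (WithLp.toLp 2 η : Cfg N) v =
        (-Complex.I) • ∑ k, η k • dco M G α k v := by
      rw [Ims714.kin_apply, Finset.smul_sum, Fintype.sum_prod_type]
      refine Finset.sum_congr rfl fun i _ => Finset.sum_congr rfl fun A _ => ?_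
      rw [dco_apply, Finset.smul_sum, Finset.smul_sum]
      refine Finset.sum_congr rfl fun β _ => ?_
      rw [← Complex.coe_smul (η (i, A)), smul_smul, smul_smul, smul_smul]
      congr 1
      ring
    rw [← h1, h2, norm_smul]
    simp
  simp only [h]
  rw [Finset.sum_const, Finset.card_univ, Fintype.card_fin]
  simp only [nsmul_eq_mul]
  push_cast
  ring

/-- linear potentials are Lipschitz -/
theorem lipPot_lin (M : FermionRep N F) (w : Fin 16 → Fin (N ^ 2 - 1) → Cfg N →ₗ[ℝ] ℝ) :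
    ∃ L, LipPot (fun x => vco M (fun β A => w β A x)) L := by
  refine ⟨∑ A : Fin (N ^ 2 - 1), ∑ β : Fin 16,
    ‖LinearMap.toContinuousLinearMap (w β A)‖ *
      ‖(LinearMap.toContinuousLinearMap (M.θ β A) : F →L[ℂ] F)‖, ?_, fun x y v => ?_⟩
  · positivity
  · have h : vco M (fun β A => w β A x) v - vco M (fun β A => w β A y) v =
        ∑ A : Fin (N ^ 2 - 1), ∑ β : Fin 16, ((w β A (x - y) : ℝ) : ℂ) • M.θ β A v := by
      rw [vco_apply, vco_apply, ← Finset.sum_sub_distrib]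
      refine Finset.sum_congr rfl fun A _ => ?_
      rw [← Finset.sum_sub_distrib]
      refine Finset.sum_congr rfl fun β _ => ?_
      rw [map_sub, ← sub_smul]
      push_cast
      rfl
    rw [h, Finset.sum_mul, Finset.sum_mul]
    refine (norm_sum_le _ _).trans (Finset.sum_le_sum fun A _ => ?_)
    rw [Finset.sum_mul, Finset.sum_mul]
    refine (norm_sum_le _ _).trans (Finset.sum_le_sum fun β _ => ?_)
    rw [norm_smul, Complex.norm_real]
    have h1 : ‖w β A (x - y)‖ ≤ ‖LinearMap.toContinuousLinearMap (w β A)‖ * ‖x - y‖ :=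
      (LinearMap.toContinuousLinearMap (w β A)).le_opNorm _
    have h2 : ‖M.θ β A v‖ ≤ ‖(LinearMap.toContinuousLinearMap (M.θ β A) : F →L[ℂ] F)‖ * ‖v‖ :=
      (LinearMap.toContinuousLinearMap (M.θ β A)).le_opNorm _
    calc _ ≤ (‖LinearMap.toContinuousLinearMap (w β A)‖ * ‖x - y‖) *
          (‖(LinearMap.toContinuousLinearMap (M.θ β A) : F →L[ℂ] F)‖ * ‖v‖) := by gcongr
      _ = _ := by ring

/-- One package per vacuum configuration. -/
structure EXPack (b : ColorBasis N) (M : FermionRep N F) (G : GammaNine) (c : Cfg N)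
    (I : VV N →ₗ[ℝ] VV N) (A B : Cfg N →ₗ[ℝ] Cfg N) (Ω : F) : Prop where
  cs : IsCS I
  linW : LinW G (wlin b G c) I A
  symB : ∀ x y, ⟪B x, y⟫_ℝ = ⟪x, B y⟫_ℝ
  sq : ∀ x, B (B x) = A x
  ker : ∀ u, A u = 0 → ∃ om, u = brk b om c
  full : ∃ j : Fin 9, ∀ a, ∃ w, B w = EuclideanSpace.single (j, a) 1
  vac0 : Ω ≠ 0
  vac : ∀ u, bop M I u Ω = 0

/-- the linearised coefficients as linear forms -/
theorem exists_lin {b : ColorBasis N} {G : GammaNine} {c : Cfg N} {I : VV N →ₗ[ℝ] VV N}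
    {A : Cfg N →ₗ[ℝ] Cfg N} (h : LinW G (wlin b G c) I A) (α : Fin 16) :
    ∃ w : Fin 16 → Fin (N ^ 2 - 1) → Cfg N →ₗ[ℝ] ℝ, ∀ β a x, wlin b G c α β a x = w β a x :=
  ⟨fun β a => lw G I A α β a, fun β a x => congrFun (congrFun (h α x) β) a⟩

/-- **Liouville at one vacuum.** -/
theorem liou_pack {b : ColorBasis N} {M : FermionRep N F} {G : GammaNine} {c : Cfg N}
    {I : VV N →ₗ[ℝ] VV N} {A B : Cfg N →ₗ[ℝ] Cfg N} {Ω : F} (h : EXPack b M G c I A B Ω)
    {f : Cfg N → F} {K : ℝ} (hK : 0 ≤ K) (hfm : AEStronglyMeasurable f volume)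
    (hg : Integrable fun x => Real.exp (-(K * ‖x‖)) * ‖f x‖ ^ 2)
    (hw : ∀ α, ∀ ψ : Cfg N → F, ContDiff ℝ ∞ ψ → HasCompactSupport ψ →
      ∫ y, ⟪f y, lcharge b M G c α ψ y⟫_ℂ = 0)
    (hflat : ∀ om, ∀ ψ : Cfg N → F, ContDiff ℝ ∞ ψ → HasCompactSupport ψ →
      ∫ y, ⟪f y, fderiv ℝ ψ y (brk b om c)⟫_ℂ = 0) :
    ∃ k : ℂ, f =ᵐ[volume] fun y => k • gau A Ω y := by
  have hAs : A.IsSymmetric := fun x y => by
    rw [← h.sq x, ← h.sq y, h.symB, h.symB]
  have hAp : ∀ u, 0 ≤ ⟪u, A u⟫_ℝ := fun u => by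
    rw [← h.sq u, ← h.symB, real_inner_self_eq_norm_sq]
    positivity
  have hLip : ∀ α, ∃ L, LipPot (fun x => vco M (fun β a => wlin b G c α β a x)) L := by
    intro α
    obtain ⟨w, hw'⟩ := exists_lin h.linW α
    simp only [hw']
    exact lipPot_lin M w
  choose L hL using hLip
  have hL' : ∀ α, LipPot (fun x => vco M (fun β a => wlin b G c α β a x)) (∑ α, L α) := by
    intro α
    refine ⟨Finset.sum_nonneg fun α _ => (hL α).1, fun x y v => ((hL α).2 x y v).trans ?_⟩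
    have h1 : L α ≤ ∑ α, L α := Finset.single_le_sum (fun α _ => (hL α).1) (Finset.mem_univ α)
    gcongr
  obtain ⟨j, hj⟩ := h.full
  obtain ⟨k, hk⟩ := liouville_EX (A := fun α => dco M G α)
    (W := fun α x => vco M (fun β a => wlin b G c α β a x))
    (Bv := fun j : Fin 16 × (Fin 9 × Fin (N ^ 2 - 1)) =>
      bop M I (gv G j.1 (B (EuclideanSpace.single j.2 1))))
    (C₀ := 8) (cb := 1 / 2) (L := ∑ α, L α) hAs hAp (by norm_num) (by norm_num)
    (cl_dco M G) (fun α k => dco_symm M G α k) (fun α x => vco_symm M _)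
    hL'
    (fun φ hφ hc => ex_le h.linW h.cs h.symB h.sq hφ hc)
    (fun v hv => bv_line hj h.vac0 h.vac hv) hK hfm hg
    (fun α ψ hψ hψc => by
      rw [← hw α ψ hψ hψc]
      refine integral_congr_ae (Eventually.of_forall fun y => ?_)
      simp only
      rw [lcharge_eq]
      rfl)
    (fun v hv ψ hψ hψc => by
      obtain ⟨om, rfl⟩ := h.ker v hv
      exact hflat om ψ hψ hψc)
  exact ⟨k, hk⟩

/-! ## Gaussians are zero modes -/

theorem hasFDerivAt_quad {A : Cfg N →ₗ[ℝ] Cfg N} (hs : ∀ u v, ⟪A u, v⟫_ℝ = ⟪u, A v⟫_ℝ)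
    (u : Cfg N) : HasFDerivAt (fun u => ⟪u, A u⟫_ℝ) ((2 : ℝ) • innerSL ℝ (A u)) u := by
  have h1 : HasFDerivAt (fun u : Cfg N => A u) (LinearMap.toContinuousLinearMap A) u :=
    (LinearMap.toContinuousLinearMap A).hasFDerivAt
  have h2 := (hasFDerivAt_id u).inner ℝ h1
  refine h2.congr_fderiv ?_
  ext v
  simp only [ContinuousLinearMap.comp_apply, ContinuousLinearMap.prod_apply,
    fderivInnerCLM_apply, _root_.smul_apply, innerSL_apply_apply, smul_eq_mul, id]
  have e1 : ⟪u, A v⟫_ℝ = ⟪A u, v⟫_ℝ := (hs u v).symm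
  have e2 : ⟪v, A u⟫_ℝ = ⟪A u, v⟫_ℝ := real_inner_comm _ _
  simp only [LinearMap.coe_toContinuousLinearMap', ContinuousLinearMap.coe_id', id_eq]
  rw [e1, e2]
  ring

theorem contDiff_gau (A : Cfg N →ₗ[ℝ] Cfg N) (Ω : F) : ContDiff ℝ ∞ (gau A Ω) := by
  have h : ContDiff ℝ ∞ fun u : Cfg N => Real.exp (-(1 / 2) * ⟪u, A u⟫_ℝ) :=
    Real.contDiff_exp.comp (contDiff_const.mul
      (contDiff_id.inner ℝ (LinearMap.toContinuousLinearMap A).contDiff))
  exact h.smul contDiff_const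

theorem fderiv_gau {A : Cfg N →ₗ[ℝ] Cfg N} (hs : ∀ u v, ⟪A u, v⟫_ℝ = ⟪u, A v⟫_ℝ) (Ω : F)
    {v : Cfg N} (hv : A v = 0) (u : Cfg N) : fderiv ℝ (gau A Ω) u v = 0 := by
  have h1 := (((hasFDerivAt_quad hs u).const_mul (-(1 / 2 : ℝ))).exp).smul_const Ω
  have h2 : fderiv ℝ (gau A Ω) u = _ := h1.fderiv
  rw [h2]
  simp only [ContinuousLinearMap.smulRight_apply, _root_.smul_apply,
    innerSL_apply_apply, smul_eq_mul]
  rw [hs, hv, inner_zero_right]
  simp

/-- exponentials of the norm are integrable -/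
theorem integrable_exp_norm : Integrable fun x : Cfg N => Real.exp (-(2 * ‖x‖)) := by
  set d := Module.finrank ℝ (Cfg N) with hd
  have h1 : Integrable fun x : Cfg N => (1 + ‖x‖) ^ (-((d + 1 : ℕ) : ℝ)) :=
    integrable_one_add_norm (by push_cast; linarith)
  have h2 := h1.const_mul (((d + 1).factorial : ℝ) * Real.exp 1)
  refine h2.mono' (by fun_prop) (Eventually.of_forall fun x => ?_)
  rw [Real.norm_of_nonneg (Real.exp_pos _).le]
  have h3 := Real.pow_div_factorial_le_exp (1 + ‖x‖) (by positivity) (d + 1)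
  rw [div_le_iff₀ (by positivity)] at h3
  have hp : (0 : ℝ) < (1 + ‖x‖) ^ (d + 1) := by positivity
  rw [Real.rpow_neg (by positivity), Real.rpow_natCast, ← div_eq_mul_inv, le_div_iff₀ hp]
  calc Real.exp (-(2 * ‖x‖)) * (1 + ‖x‖) ^ (d + 1)
      ≤ Real.exp (-(2 * ‖x‖)) * (Real.exp (1 + ‖x‖) * ((d + 1).factorial : ℝ)) := by gcongr
    _ = ((d + 1).factorial : ℝ) * (Real.exp (-(2 * ‖x‖)) * Real.exp (1 + ‖x‖)) := by ring
    _ = ((d + 1).factorial : ℝ) * Real.exp (1 - ‖x‖) := by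
        rw [← Real.exp_add]
        ring_nf
    _ ≤ ((d + 1).factorial : ℝ) * Real.exp 1 := by
        gcongr
        linarith [norm_nonneg x]

/-- **LEAF S5-LIOUVILLE** from one package per vacuum. -/
theorem liouvilleProp_of (hP : ∀ (F : Type) [NormedAddCommGroup F] [InnerProductSpace ℂ F]
    [FiniteDimensional ℂ F] [Nontrivial F] (b : ColorBasis N) (M : FermionRep N F)
    (_ : GaugeAction b M) (G : GammaNine) (c : Cfg N), IsVacCfg b c →
    ∃ I A B, ∃ Ω : F, EXPack b M G c I A B Ω) : LiouvilleProp N := by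
  intro F _ _ _ _ b M R G c A' Ω' hc hV f hfm hgrow hw hflat
  obtain ⟨I, A, B, Ω, hE⟩ := hP F b M R G c hc
  -- growth of f
  have hg : Integrable fun x => Real.exp (-(2 * ‖x‖)) * ‖f x‖ ^ 2 := by
    refine ⟨?_, ?_⟩
    · refine AEStronglyMeasurable.mul ?_ (hfm.norm.pow 2)
      exact (by fun_prop : Continuous fun x : Cfg N => Real.exp (-(2 * ‖x‖))).aestronglyMeasurable
    · rw [HasFiniteIntegral]
      refine lt_of_le_of_lt (le_of_eq ?_) hgrow
      refine lintegral_congr fun x => ?_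
      rw [enorm_mul, Real.enorm_eq_ofReal (Real.exp_pos _).le, enorm_pow, enorm_norm]
      congr 3
      ring_nf
  obtain ⟨k, hk⟩ := liou_pack hE (by norm_num : (0 : ℝ) ≤ 2) hfm hg (fun α ψ h1 h2 => hw ψ h1 h2 α)
    (fun om ψ h1 h2 => hflat ψ h1 h2 om)
  -- the given Gaussian is a zero mode
  have hs := hV.symm
  have hgc : ContDiff ℝ ∞ (gau A' Ω') := contDiff_gau A' Ω'
  have hg1 : ContDiff ℝ 1 (gau A' Ω') := hgc.of_le (by simp)
  have hbd : ∀ x, ‖gau A' Ω' x‖ ≤ 1 := by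
    intro x
    unfold gau
    rw [norm_smul, hV.unit, mul_one, Real.norm_of_nonneg (Real.exp_pos _).le]
    refine Real.exp_le_one_iff.mpr ?_
    have := hV.pos x
    linarith
  have hgg : Integrable fun x => Real.exp (-(2 * ‖x‖)) * ‖gau A' Ω' x‖ ^ 2 := by
    refine integrable_exp_norm.mono' ?_ (Eventually.of_forall fun x => ?_)
    · exact ((by fun_prop : Continuous fun x : Cfg N => Real.exp (-(2 * ‖x‖))).mul
        (hgc.continuous.norm.pow 2)).aestronglyMeasurable
    · rw [norm_mul, Real.norm_of_nonneg (Real.exp_pos _).le, norm_pow, norm_norm]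
      have h1 : ‖gau A' Ω' x‖ ^ 2 ≤ 1 := by
        have := hbd x
        have := norm_nonneg (gau A' Ω' x)
        nlinarith
      have := Real.exp_pos (-(2 * ‖x‖))
      nlinarith
  have hlin : ∀ α, ∀ v, Continuous fun x => vco M (fun β a => wlin b G c α β a x) v := by
    intro α
    obtain ⟨w, hw'⟩ := exists_lin hE.linW α
    simp only [hw']
    obtain ⟨L, hL⟩ := lipPot_lin M w
    exact hL.continuous
  obtain ⟨k', hk'⟩ := liou_pack hE (f := gau A' Ω') (by norm_num : (0 : ℝ) ≤ 2)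
    hgc.continuous.aestronglyMeasurable hgg
    (fun α ψ h1 h2 => by
      have e1 : ∫ y, ⟪gau A' Ω' y, lcharge b M G c α ψ y⟫_ℂ =
          ∫ y, ⟪gau A' Ω' y, dirac (dco M G α)
            (fun x => vco M (fun β a => wlin b G c α β a x)) ψ y⟫_ℂ := by
        refine integral_congr_ae (Eventually.of_forall fun y => ?_)
        simp only
        rw [lcharge_eq]
        rfl
      rw [e1, ← dirac_symm (fun k => dco_symm M G α k) (fun x => vco_symm M _) (hlin α) hg1
        (h1.of_le (by simp)) (Or.inr h2)]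
      rw [← integral_zero (Cfg N) ℂ]
      refine integral_congr_ae (Eventually.of_forall fun y => ?_)
      simp only
      have e2 : dirac (dco M G α) (fun x => vco M (fun β a => wlin b G c α β a x))
          (gau A' Ω') y = lcharge b M G c α (gau A' Ω') y := (lcharge_eq b M G c α _ y).symm
      rw [e2, hV.kill α y, inner_zero_left])
    (fun om ψ h1 h2 => by
      have e1 := ibp hg1 (h1.of_le (by simp) : ContDiff ℝ 1 ψ) (Or.inr h2) (brk b om c)
        (μ := (volume : Measure (Cfg N)))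
      have e2 : A' (brk b om c) = 0 := (hV.ker _).mpr ⟨om, rfl⟩
      have e3 : ∫ x, ⟪fderiv ℝ (gau A' Ω') x (brk b om c), ψ x⟫_ℂ = 0 := by
        rw [← integral_zero (Cfg N) ℂ]
        refine integral_congr_ae (Eventually.of_forall fun y => ?_)
        simp only
        rw [fderiv_gau hs Ω' e2, inner_zero_left]
      rw [e3] at e1
      exact neg_eq_zero.mp e1.symm)
  have hne : ∀ x, gau A' Ω' x ≠ 0 := by
    intro x hx
    have h0 : Ω' ≠ 0 := by
      intro h0
      have := hV.unit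
      rw [h0, norm_zero] at this
      norm_num at this
    unfold gau at hx
    rcases smul_eq_zero.mp hx with h1 | h1
    · exact (Real.exp_pos _).ne' h1
    · exact h0 h1
  have hk0 : k' ≠ 0 := by
    intro h0
    obtain ⟨x, hx⟩ := hk'.exists
    have hx' : gau A' Ω' x = k' • gau A Ω x := hx
    rw [h0, zero_smul] at hx'
    exact hne x hx'
  refine ⟨k / k', ?_⟩
  filter_upwards [hk, hk'] with x h1 h2
  rw [h1, h2, smul_smul, div_mul_cancel₀ _ hk0]

end Crest.Agent.R330.LiouP350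
end
end

-- ▼ part R330/Sqrt_350
section

/-!
Row 330 (helper350): square roots of symmetric non-negative maps.
-/

set_option autoImplicit false

open scoped InnerProductSpace

noncomputable section

namespace Crest.Agent.R330.Sqrt350

/-- A symmetric non-negative real map has a symmetric square root; its range is the orthogonal
complement of the kernel. -/
theorem exists_sqrt {E : Type*} [NormedAddCommGroup E] [InnerProductSpace ℝ E]
    [FiniteDimensional ℝ E] {A : E →ₗ[ℝ] E} (hs : A.IsSymmetric) (hp : ∀ u, 0 ≤ ⟪u, A u⟫_ℝ) :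
    ∃ B : E →ₗ[ℝ] E, (∀ x y, ⟪B x, y⟫_ℝ = ⟪x, B y⟫_ℝ) ∧ (∀ x, B (B x) = A x) ∧
      ∀ y, (∀ u, A u = 0 → ⟪u, y⟫_ℝ = 0) → ∃ w, B w = y := by
  set n := Module.finrank ℝ E with hn
  set e : OrthonormalBasis (Fin n) ℝ E := hs.eigenvectorBasis rfl with he
  set l : Fin n → ℝ := hs.eigenvalues rfl with hl
  have hA : ∀ i, A (e i) = l i • e i := fun i => hs.apply_eigenvectorBasis rfl i
  have hl0 : ∀ i, 0 ≤ l i := by
    intro i
    have h := hp (e i)
    rw [hA, inner_smul_right, real_inner_self_eq_norm_sq, e.norm_eq_one] at h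
    simpa using h
  let B : E →ₗ[ℝ] E := ∑ i, Real.sqrt (l i) • (innerₛₗ ℝ (e i)).smulRight (e i)
  have hB : ∀ x, B x = ∑ i, (Real.sqrt (l i) * ⟪e i, x⟫_ℝ) • e i := by
    intro x
    simp only [B, LinearMap.sum_apply, LinearMap.smul_apply, LinearMap.smulRight_apply,
      innerₛₗ_apply_apply, smul_smul]
  have hBe : ∀ i, B (e i) = Real.sqrt (l i) • e i := by
    intro i
    rw [hB, Finset.sum_eq_single i]
    · rw [real_inner_self_eq_norm_sq, e.norm_eq_one]
      norm_num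
    · intro j _ hj
      rw [e.orthonormal.2 hj, mul_zero, zero_smul]
    · intro h
      exact absurd (Finset.mem_univ _) h
  refine ⟨B, fun x y => ?_, fun x => ?_, fun y hy => ?_⟩
  · rw [hB, hB, sum_inner, inner_sum]
    refine Finset.sum_congr rfl fun i _ => ?_
    rw [real_inner_smul_left, real_inner_smul_right, real_inner_comm x (e i)]
    ring
  · have h : B.comp B = A := by
      refine e.toBasis.ext fun i => ?_
      rw [LinearMap.comp_apply, OrthonormalBasis.coe_toBasis, hBe, map_smul, hBe, smul_smul,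
        Real.mul_self_sqrt (hl0 i), hA]
    exact LinearMap.congr_fun h x
  · refine ⟨∑ i, ((Real.sqrt (l i))⁻¹ * ⟪e i, y⟫_ℝ) • e i, ?_⟩
    rw [map_sum]
    conv_rhs => rw [← e.sum_repr' y]
    refine Finset.sum_congr rfl fun i _ => ?_
    rw [map_smul, hBe, smul_smul]
    by_cases h0 : l i = 0
    · have h1 : ⟪e i, y⟫_ℝ = 0 := hy _ (by rw [hA, h0, zero_smul])
      rw [h1]
      simp
    · have h1 : Real.sqrt (l i) ≠ 0 := (Real.sqrt_pos.2 (lt_of_le_of_ne (hl0 i) (Ne.symm h0))).ne'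
      congr 1
      field_simp

end Crest.Agent.R330.Sqrt350
end
end

-- ▼ part R330/LiouQ_350
section

/-!
Row 330 (helper350): `LiouvilleProp N`, closed.
-/

set_option autoImplicit false
set_option linter.unusedSectionVars false

open MeasureTheory Filter Topology
open scoped ContDiff InnerProductSpace ENNReal
open Crest.MathPhysics.MatrixQM

noncomputable section

namespace Crest.Agent.R330.LiouQ350

open Crest.Agent.R330.Defs478 Crest.Agent.R330.S5Defs798 Crest.Agent.R330.LinEx674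
  Crest.Agent.R330.LiouP350

variable {N : ℕ}

theorem brk_hi (b : ColorBasis N) {c : Cfg N} (hc : IsVacCfg b c) (om : Fin (N ^ 2 - 1) → ℝ)
    {j : Fin 9} (hj : 3 ≤ (j : ℕ)) (A : Fin (N ^ 2 - 1)) : brk b om c (j, A) = 0 := by
  change CoerCfg87.br b om (CoerCfg87.comp c j) A = 0
  have h2 : CoerCfg87.comp c j = fun _ => 0 := by
    funext B
    exact Lin561.comp_hi b hc hj B
  rw [h2]
  unfold CoerCfg87.br
  simp

/-- the package at every vacuum configuration -/
theorem exPack (F : Type) [NormedAddCommGroup F] [InnerProductSpace ℂ F]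
    [FiniteDimensional ℂ F] [Nontrivial F] (b : ColorBasis N) (M : FermionRep N F)
    (R : GaugeAction b M) (G : GammaNine) (c : Cfg N) (hc : IsVacCfg b c) :
    ∃ I A B, ∃ Ω : F, EXPack b M G c I A B Ω := by
  obtain ⟨A, Ω, I, hV, hW, hI, hb⟩ := Lin561.linModel b G M R c hc
  have hAs : A.IsSymmetric := fun x y => hV.symm x y
  obtain ⟨B, hB, hBB, hBr⟩ := Sqrt350.exists_sqrt hAs hV.pos
  refine ⟨I, A, B, Ω, hI, hW, hB, hBB, fun u hu => (hV.ker u).1 hu,
    ⟨8, fun a => hBr _ fun u hu => ?_⟩, ?_, hb⟩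
  · obtain ⟨om, rfl⟩ := (hV.ker u).1 hu
    rw [EuclideanSpace.inner_single_right]
    rw [brk_hi b hc om (by decide : 3 ≤ ((8 : Fin 9) : ℕ)) a]
    simp
  · intro h0
    have := hV.unit
    rw [h0, norm_zero] at this
    norm_num at this

/-- **LEAF S5-LIOUVILLE**, closed. -/
theorem liouvilleProp (N : ℕ) : LiouvilleProp N :=
  liouvilleProp_of fun F _ _ _ _ b M R G c hc => exPack F b M R G c hc

end Crest.Agent.R330.LiouQ350
end
end

-- ▼ part R330/UpCl_350

/-!
Row 330 (helper350): `Upper N`, closed (field `up` of S12).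
-/

set_option autoImplicit false

namespace Crest.Agent.R330.UpCl350

open Crest.Agent.R330.S5Defs798

/-- **field `up`**, closed. -/
theorem upper {N : ℕ} (hN : 0 < N) : Upper N :=
  UpFin8.upper hN (Lin561.vacPackProp N) (LiouQ350.liouvilleProp N)

end Crest.Agent.R330.UpCl350
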