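import Mathlib
import Crest.Prelude.Def_MatrixModel
import Crest.Agent.R330.TightA_399_Mg
import Crest.Agent.R330.TrialSys_796
import Crest.Agent.R330.TightF_291
import Crest.Agent.R330.Par2_522
import Crest.Agent.R330.JQ_916
import Crest.Agent.R330.Master_288
import Crest.Agent.R330.GapCl_967
import Crest.Agent.R330.StrUp_796
import Crest.Agent.R330.TrialSum_879
import Crest.Agent.R330.Close_478
import Crest.Agent.R330.E2_942
import Crest.Agent.R330.QM0_363
import Crest.Agent.R330.WSLit_596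
import Crest.Agent.R330.Dict_416
import Crest.Agent.R330.AnnAbs_245
import Crest.Agent.R330.Chan_441
import Crest.Agent.R330.GapAllN_967
import Crest.Agent.R330.CapZ_818
import Crest.Agent.R330.HardyG_968
import Crest.Agent.R330.Ims_714
import Crest.Agent.R330.WeitzY_726
import Crest.Agent.R330.UpCl_350_Mg
import Crest.Agent.R330.ChLit_879_Mg
import Crest.Agent.R330.Gram_167
import Crest.Agent.R330.SlEx_814
import Crest.Agent.R330.LitC_974
import Crest.Agent.R330.HBind_450_Mg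
import Crest.Agent.R330.UPack_311
import Crest.Agent.R330.HQFin_478_Mg

-- ▼ part R330/TightTop_423
section

/-!
Row 330 (helper423), leaf S10.1-TIGHT, part 3: the frozen Props `TrialSys796.TightAll` (796's (d))
and `TightA399.Tight` from good vector fields.
-/

set_option autoImplicit false

noncomputable section

namespace Crest.Agent.R330.TightTop423

open MeasureTheory Filter Topology Crest.MathPhysics.MatrixQM
open Crest.Agent.R330.Tight423 Crest.Agent.R330.Defs478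

variable {N : ℕ}

theorem tight_of_exists (hN : 0 < N) {b : ColorBasis N} (h : ∃ v, GoodField b v)
    {F : Type*} [NormedAddCommGroup F] [InnerProductSpace ℂ F] [FiniteDimensional ℂ F]
    (M : FermionRep N F) (R : GaugeAction b M) (G : GammaNine) :
    TrialSys796.Tight b M R G := by
  obtain ⟨v, hv⟩ := h
  obtain ⟨C, _, hC⟩ := tight_of_field M G hN hv one_pos
  refine ⟨C, 1, fun g hg φ hφ => ?_⟩
  have h1 := hC g hg φ (IBP837.core_contDiff hφ (WithTop.coe_le_coe.2 le_top)) hφ.2.1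
  unfold TrialSys796.En
  rwa [add_comm]

theorem tightAll_of_exists (hN : 0 < N) (h : ∀ b : ColorBasis N, ∃ v, GoodField b v) :
    TrialSys796.TightAll N := fun _ _ _ _ _ b M R G => tight_of_exists hN (h b) M R G


end Crest.Agent.R330.TightTop423
end
end

-- ▼ part R330/TightAll_423
section

/-!
Row 330 (helper423 + helper291), leaf S10.1-TIGHT closed: tightness at infinity, uniform in the
coupling.
-/

set_option autoImplicit false

noncomputable section

namespace Crest.Agent.R330.TightAll423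

open MeasureTheory Filter Topology Crest.MathPhysics.MatrixQM
open Crest.Agent.R330.Tight423 Crest.Agent.R330.Defs478

variable {N : ℕ}

/-- the field of helper291 is a good field -/
theorem exists_good (hN : 0 < N) (b : ColorBasis N) : ∃ v, GoodField b v := by
  obtain ⟨v, h1, ⟨K2, _, h2⟩, ⟨K3, _, h3⟩, h4, ⟨K5, hK5, h5⟩⟩ := TightF291.exists_field b hN
  exact ⟨v, h1.of_le (by simp), ⟨K2, h2⟩, ⟨K3, h3⟩, h4, ⟨K5, fun x => (h5 x).trans
    (mul_le_mul_of_nonneg_left (by linarith) hK5)⟩⟩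



/-- **796's (d).** -/
theorem tightAll (hN : 0 < N) : TrialSys796.TightAll N :=
  TightTop423.tightAll_of_exists hN fun b => exists_good hN b


end Crest.Agent.R330.TightAll423
end
end

-- ▼ part R330/Even_522
section

/-!
# Row 330 (helper522): all zero states are even (input (10) of `Close_478`)

* `susy` : 916's algebra on the core, unconditional.
* `oddBound` : `(1/6) ‖φ‖² ≤ q_{g,1} φ` for odd core vectors.
* `evenAll : Close478.EvenAll N` (for every `N`, no hypothesis).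
-/

set_option autoImplicit false
set_option linter.unusedSectionVars false
set_option maxHeartbeats 400000

open Filter Topology Set MeasureTheory Crest.MathPhysics.MatrixQM
open scoped InnerProductSpace Matrix ENNReal

noncomputable section

namespace Crest.Agent.R330.Even522

open Crest.Agent.R330.Defs478 Crest.Agent.R330.SInd478 Crest.Agent.R330.Par478
open Crest.Agent.R330.SDefs726 Crest.Agent.R330.JQ916 Crest.Agent.R330.Par522
  Crest.Agent.R330.GapAlg916 Crest.Agent.R330.Dict416 Crest.Agent.R330.GapCl967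

variable {N : ℕ} {F : Type} [NormedAddCommGroup F] [InnerProductSpace ℂ F]
  [FiniteDimensional ℂ F] [Nontrivial F] {b : ColorBasis N} {M : FermionRep N F}

/-- The algebra on the core. -/
theorem susy (R : GaugeAction b M) (G : GammaNine) (g m : ℝ) :
    Susy G m (ιC R) (Qc R G g m) (Hc R G g m) (Jc R G) :=
  (susy_of (Hf := Master288.Ham b M G g m) fun α β _ hφ x =>
    Master288.master R G g m (cv_c2 hφ) hφ.2.2 α β x).1

/-- The bound on odd core vectors. -/
theorem odd_bound (R : GaugeAction b M) (G : GammaNine) (g : ℝ) {m : ℝ} (hm : 0 ≤ m)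
    {P : F →ₗ[ℂ] F} (hP : IsParity M G P) {φ : Cfg N → F} (hφ : IsCoreVec b R φ)
    (hodd : ∀ x, P (φ x) = -φ x) : m / 6 * ∫ x, ‖φ x‖ ^ 2 ≤ qf b M G g m φ := by
  have hq : ((0, 1) : Fin 9 × Fin 9) ∈ planes := by decide
  obtain ⟨h1, h2⟩ := planes_blk hq
  refine odd_bound_lit (R := R) (G := G) hm (Q := Qc R G g m) (fun α φ => rfl) (susy R G g m)
    (V := Uq R G (0, 1)) ?_ ?_ (fun φ => rfl) hP hφ hodd
  · refine TorB149.rot_of_per (TorB149.blk_rot h1 h2) (fun α φ => rfl) (Hc_apply R G g m)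
      (fun φ => rfl) (by positivity) fun φ => ?_
    apply Subtype.ext
    rw [TorB149.UC_coe]
    exact U_rot_eight_pi h1 φ.1
  · exact Proj967.hasProj_U (rot_transpose 0 1) (by positivity)

theorem oddBound (N : ℕ) : OddBound N := by
  intro F _ _ _ _ b M R G g _ P hP φ hφ hodd
  exact odd_bound R G g zero_le_one hP hφ hodd

/-- **All zero states are even**, for every `N`. -/
theorem evenAll (N : ℕ) : Close478.EvenAll N := evenAll_of (oddBound N)

end Crest.Agent.R330.Even522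

end
end

-- ▼ part R330/StrongTop_796
section

/-!
# Row 330, section 10 (helper796): literal `DUp N`

* `dUp_of` : `TrialAll N → TightAll N → DUp N`.
-/

set_option autoImplicit false
set_option linter.unusedSectionVars false

open MeasureTheory Filter Topology Crest.MathPhysics.MatrixQM
open scoped ContDiff InnerProductSpace ENNReal

noncomputable section

namespace Crest.Agent.R330.StrongTop796

open Crest.Agent.R330.Defs478 Crest.Agent.R330.Top478 Crest.Agent.R330.FA416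
  Crest.Agent.R330.Dict416 Crest.Agent.R330.Scale423 Crest.Agent.R330.ScaleD423
  Crest.Agent.R330.TrialSys796 Crest.Agent.R330.StrAbs796 Crest.Agent.R330.StrUp796

/-! ### D-up -/

section up

variable {N : ℕ} {F : Type*} [NormedAddCommGroup F] [InnerProductSpace ℂ F]
  [FiniteDimensional ℂ F] {b : ColorBasis N} {M : FermionRep N F} {R : GaugeAction b M}
  {G : GammaNine}

open Classical in
/-- The scaled vectors, zero for `g ≤ 0`. -/
def scl (N : ℕ) (F : Type*) [NormedAddCommGroup F] [InnerProductSpace ℂ F]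
    [FiniteDimensional ℂ F] (g : ℝ) (ψ : L2 N F) : L2 N F :=
  if h : 0 < g then UsLp N F (g ^ ((1 : ℝ) / 3)) (Real.rpow_pos_of_pos h _) ψ else 0

theorem scl_pos {g : ℝ} (h : 0 < g) (ψ : L2 N F) :
    scl N F g ψ = UsLp N F (g ^ ((1 : ℝ) / 3)) (Real.rpow_pos_of_pos h _) ψ := by
  unfold scl
  rw [dif_pos h]

theorem norm_scl_le (g : ℝ) (ψ : L2 N F) : ‖scl N F g ψ‖ ≤ ‖ψ‖ := by
  unfold scl
  split_ifs with h
  · rw [LinearIsometryEquiv.norm_map]
  · rw [norm_zero]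
    exact norm_nonneg _

/-- **Literal D-up for one set of data.** -/
theorem dUp_data {L : Type*} [NormedAddCommGroup L] [InnerProductSpace ℂ L] [CompleteSpace L]
    {X : Type*} [AddCommGroup X] [Module ℂ X] {e : X →ₗ[ℂ] L} {D : Fin 16 → X →ₗ[ℂ] X}
    {T : ℝ → X → Cfg N → F} {K0 : Submodule ℂ L} {d : ℕ}
    (hsep : TopologicalSpace.SeparableSpace L) (hTr : IsTrial b M R G e D T)
    (hFree : IsFree e D K0 d) (hcap : CapBall b M R G T) (ht : Tight b M R G) {k : ℕ}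
    (hk : ∀ g₁ : ℝ, ∃ g : ℝ, 0 < g ∧ g₁ < g ∧ Sec478.DimGe b M R G g 1 (k + d)) :
    Sec478.DimGe b M R G 1 0 k := by
  by_contra hnot
  -- the kernel of `Q^{1,0}` is finite dimensional
  unfold Sec478.DimGe at hnot
  rw [not_le] at hnot
  have hfin : Module.rank ℂ (zker b M R G 1 0) < Cardinal.aleph0 :=
    hnot.trans Cardinal.natCast_lt_aleph0
  have hfd : FiniteDimensional ℂ (zker b M R G 1 0) := Module.rank_lt_aleph0_iff.1 hfin
  set n : ℕ := Module.finrank ℂ (zker b M R G 1 0) with hn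
  have hnk : n < k := by
    have h1 : (n : Cardinal) = Module.rank ℂ (zker b M R G 1 0) := Module.finrank_eq_rank _ _
    rw [← h1] at hnot
    exact_mod_cast hnot
  have hK0 : FiniteDimensional ℂ K0 := by
    refine Module.rank_lt_aleph0_iff.1 ?_
    rw [hFree.rank]
    exact Cardinal.natCast_lt_aleph0
  have hK0r : Module.finrank ℂ K0 = d := by
    rw [Module.finrank, hFree.rank, Cardinal.toNat_natCast]
  let bas := Module.finBasis ℂ (zker b M R G 1 0)
  set Bu : ℝ := ∑ i, ‖(bas i : L2 N F)‖ with hBu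
  have hup := up (tr_of hTr) (fun g a u v => qc_symm g 1 a u v) (c := 1)
    (fun g a u => norm_qc_le g 1 a u) K0 hFree.uniq
    (fun g i => scl N F g (bas i : L2 N F)) (Bu := Bu)
    (fun g i => (norm_scl_le g _).trans (Finset.single_le_sum
      (f := fun i => ‖(bas i : L2 N F)‖) (fun i _ => norm_nonneg _) (Finset.mem_univ i)))
    (fun g v hg hv hQ hT hU => ?_) (m := k + d) (by
      rw [hK0r, Fintype.card_fin]
      omega)
  · obtain ⟨g₁, hg₁⟩ := eventually_atTop.1 hup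
    obtain ⟨g, h0, h1, h2⟩ := hk g₁
    exact hg₁ g h1.le (Lit416.dimGe_iff.1 h2)
  · -- capture
    refine cap_seq hcap ht hg hv hQ (fun χ => ?_) fun ψ hψ => ?_
    · refine (hT χ).congr' ?_
      filter_upwards [hg.eventually (hTr.core χ)] with j hj
      rw [inner_ιC, coe_Tc hj]
    · -- the zero state in the basis
      have hψ2 : MemLp ψ 2 volume := hψ.1
      set ψL : L2 N F := hψ2.toLp ψ with hψL
      have hmem : ψL ∈ zker b M R G 1 0 := toLp_mem_zker hψ
      have hsum : ψL = ∑ i, (bas.repr ⟨ψL, hmem⟩ i) • (bas i : L2 N F) := by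
        have h1 := congrArg Subtype.val (bas.sum_repr ⟨ψL, hmem⟩)
        simp only [Submodule.coe_sum, Submodule.coe_smul] at h1
        exact h1.symm
      have h0 : Tendsto (fun j => ∑ i, (starRingEnd ℂ) (bas.repr ⟨ψL, hmem⟩ i) *
          ⟪scl N F (g j) (bas i : L2 N F), ιC R (v j)⟫_ℂ) atTop (𝓝 0) := by
        have h1 : Tendsto (fun j => ∑ i, (starRingEnd ℂ) (bas.repr ⟨ψL, hmem⟩ i) *
          ⟪scl N F (g j) (bas i : L2 N F), ιC R (v j)⟫_ℂ) atTop
          (𝓝 (∑ i, (starRingEnd ℂ) (bas.repr ⟨ψL, hmem⟩ i) * 0)) :=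
          tendsto_finsetSum _ fun i _ => (hU i).const_mul _
        simpa using h1
      refine h0.congr' ?_
      filter_upwards [hg.eventually_gt_atTop 0] with j hj
      have hl : 0 < g j ^ ((1 : ℝ) / 3) := Real.rpow_pos_of_pos hj _
      have h2 : ∫ x, ⟪Us (g j ^ ((1 : ℝ) / 3)) ψ x, (v j).1 x⟫_ℂ =
          ⟪UsLp N F _ hl ψL, ιC R (v j)⟫_ℂ := by
        rw [hψL, UsLp_toLp hl hψ2, ιC_apply, inner_toLp]
      rw [h2]
      conv_rhs => rw [hsum]
      rw [map_sum, sum_inner]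
      refine Finset.sum_congr rfl fun i _ => ?_
      rw [map_smul, inner_smul_left, scl_pos hj]

end up

/-- **Literal D-up.** -/
theorem dUp_of {N : ℕ} (hT : TrialAll N) (hTi : TightAll N) : Sec478.DUp N := by
  intro F _ _ _ _ b M R G k hk
  obtain ⟨L, _, _, _, X, _, _, e, D, T, K0, -, hsep, hTr, hFree, hCap⟩ := hT F b M R G
  exact dUp_data hsep hTr hFree hCap (hTi F b M R G) hk

end Crest.Agent.R330.StrongTop796

end
end

-- ▼ part R330/S9Top_441
section

/-!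
# Row 330, closing of sections 8 - 11 (helper441)

Everything above `Below N → ChanAll N` : the fields `ann`, `dup`, `dlow` of `Close478.StepIn`.

* `BallAll N` : capture on balls from capture on annuli, for all data.
* `trialAll_of` : `SysAll N → BallAll N → TrialAll N`.
* `Top N` : the fields `ann`, `dup`, `dlow`; `top_of`.
-/

set_option autoImplicit false

open MeasureTheory Filter Topology Crest.MathPhysics.MatrixQM
open scoped ContDiff InnerProductSpace ENNReal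

noncomputable section

namespace Crest.Agent.R330.S9Top441

open Crest.Agent.R330.Defs478 Crest.Agent.R330.Top478 Crest.Agent.R330.Sec478
  Crest.Agent.R330.SInd478 Crest.Agent.R330.Close478 Crest.Agent.R330.TrialSys796
  Crest.Agent.R330.Chan441

/-- Capture on balls from capture on annuli, for all data. -/
def BallAll (N : ℕ) : Prop :=
  ∀ (F : Type) [NormedAddCommGroup F] [InnerProductSpace ℂ F] [FiniteDimensional ℂ F]
    [Nontrivial F] (b : ColorBasis N) (M : FermionRep N F) (R : GaugeAction b M) (G : GammaNine)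
    (X : Type) (T : ℝ → X → Cfg N → F), CapAnn b M R G 1 T → CapBall b M R G T

/-- Trial systems with capture on balls. -/
theorem trialAll_of {N : ℕ} (hS : SysAll N) (hB : BallAll N) : TrialAll N := by
  intro F _ _ _ _ b M R G
  obtain ⟨L, i1, i2, i3, X, j1, j2, e, D, W, T, K0, hL, hC, -, h1⟩ := hS F b M R G
  exact ⟨L, i1, i2, i3, X, j1, j2, e, D 1, T, K0, hL.dense, hL.sep, hC.isTrial, hL.free,
    hB F b M R G X T h1⟩

/-- The fields of `StepIn` which come from sections 8 - 11. -/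
structure Top (N : ℕ) : Prop where
  ann : Below N → AnnHIAll N
  dup : Below N → DUp N
  dlow : Below N → DLow N

/-- **The closing**: from the channels, with the four theorems above them as arguments. -/
theorem top_of {N : ℕ} (hch : Below N → ChanAll N) (hA : SysAll N → AnnHIAll N)
    (hB : HIAll N → BallAll N) (hup : TrialAll N → DUp N) (hlow : TrialAll N → DLow N) :
    Top N := by
  have hS : Below N → SysAll N := fun h => TrialSum879.sysAll_of (hch h)
  have hT : Below N → TrialAll N := fun h =>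
    trialAll_of (hS h) (hB (hiAll_of_ann (hA (hS h))))
  exact ⟨fun h => hA (hS h), fun h => hup (hT h), fun h => hlow (hT h)⟩

/-- With 796's D-up. -/
theorem top_of' {N : ℕ} (hch : Below N → ChanAll N) (hA : SysAll N → AnnHIAll N)
    (hB : HIAll N → BallAll N) (hT : TightAll N) (hlow : TrialAll N → DLow N) : Top N :=
  top_of hch hA hB (fun h => StrongTop796.dUp_of h hT) hlow

end Crest.Agent.R330.S9Top441

end
end

-- ▼ part R330/DLow_942
section

/-!
# Row 330 (helper942): lower bound of the kernel by duality (D-LOW), abstract part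

`V` the core, `ι : V →ₗ H`, `T : V →ₗ H` the Hamiltonian on the core, `Z` the kernel (a closed
subspace of `H` orthogonal to the range of `T`), gap inequality `δ ‖φ - P φ‖² ≤ ⟨T φ, φ⟩` on the
core, `(ι + T) V` dense.

* `close_of_weak` : if `|⟨T v, u⟩| ≤ η (‖v‖ + ‖T v‖)` on the core then `‖u - P u‖ ≤ (4 + 2/δ) η`.
* `rank_ge_of_close` : almost orthonormal vectors close to `Z` : lower bound of the rank of `Z`.
-/

set_option autoImplicit false

open Filter Topology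
open scoped InnerProductSpace

namespace Crest.Agent.R330.DLow942

section Close

variable {H : Type*} [NormedAddCommGroup H] [InnerProductSpace ℂ H]
variable {V : Type*} [AddCommGroup V] [Module ℂ V]
variable (ι T : V →ₗ[ℂ] H) (Z : Submodule ℂ H) [Z.HasOrthogonalProjection]

/-- **Weakly harmonic vectors are close to the kernel.** -/
theorem close_of_weak {δ η : ℝ} (hδ : 0 < δ) (hη : 0 ≤ η)
    (hsym : ∀ φ, 0 ≤ (⟪T φ, ι φ⟫_ℂ).re)
    (hTZ : ∀ φ, ∀ z ∈ Z, ⟪T φ, z⟫_ℂ = 0)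
    (hgap : ∀ φ, δ * ‖ι φ - Z.starProjection (ι φ)‖ ^ 2 ≤ (⟪T φ, ι φ⟫_ℂ).re)
    (hd : DenseRange (fun φ => ι φ + T φ)) {u : H}
    (hu : ∀ φ, ‖⟪T φ, u⟫_ℂ‖ ≤ η * (‖ι φ‖ + ‖T φ‖)) :
    ‖u - Z.starProjection u‖ ≤ (4 + 2 / δ) * η := by
  set P := Z.starProjection with hP
  set u' := u - P u with hu'
  have hPu' : P u' = 0 := by
    rw [hP, Submodule.starProjection_apply_eq_zero_iff, hu']
    exact Z.sub_starProjection_mem_orthogonal _
  -- the basic inequality for a core vector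
  have key : ∀ φ, ∀ e : ℝ, 0 ≤ e → ‖ι φ + T φ - u'‖ ≤ e →
      ‖ι φ + T φ‖ ^ 2 ≤ e ^ 2 + (2 + 1 / δ) * ((2 * η + e) * ‖ι φ + T φ‖) := by
    intro φ e he hφ
    set f := ι φ + T φ with hf
    have hPT : P (T φ) = 0 := by
      rw [hP, Submodule.starProjection_apply_eq_zero_iff, Submodule.mem_orthogonal']
      exact hTZ φ
    have hPι : ‖P (ι φ)‖ ≤ e := by
      have h1 : P (ι φ) = P (f - u') := by
        rw [map_sub, hPu', sub_zero, hf, map_add, hPT, add_zero]
      rw [h1]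
      exact (Z.norm_starProjection_apply_le _).trans hφ
    have hpyth : ‖ι φ‖ ^ 2 = ‖P (ι φ)‖ ^ 2 + ‖ι φ - P (ι φ)‖ ^ 2 := by
      have h0 : ⟪P (ι φ), ι φ - P (ι φ)⟫_ℂ = 0 :=
        Submodule.inner_right_of_mem_orthogonal (Z.starProjection_apply_mem _)
          (Z.sub_starProjection_mem_orthogonal _)
      have h1 : ι φ = P (ι φ) + (ι φ - P (ι φ)) := by abel
      conv_lhs => rw [h1]
      rw [@norm_add_sq ℂ, h0]
      simp
    have hn : ‖f‖ ^ 2 = ‖ι φ‖ ^ 2 + 2 * (⟪T φ, ι φ⟫_ℂ).re + ‖T φ‖ ^ 2 := by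
      have h7 : (⟪ι φ, T φ⟫_ℂ).re = (⟪T φ, ι φ⟫_ℂ).re := by
        rw [← inner_conj_symm (ι φ) (T φ), Complex.conj_re]
      rw [hf, @norm_add_sq ℂ, ← h7]
      rfl
    have hg := hgap φ
    have hs := hsym φ
    have hιf : ‖ι φ‖ ≤ ‖f‖ := by
      apply le_of_sq_le_sq _ (norm_nonneg _)
      nlinarith [sq_nonneg ‖T φ‖]
    have hTf : ‖T φ‖ ≤ ‖f‖ := by
      apply le_of_sq_le_sq _ (norm_nonneg _)
      nlinarith [sq_nonneg ‖ι φ‖]
    -- `⟨T φ, f⟩`
    have h2 : (⟪T φ, ι φ⟫_ℂ).re + ‖T φ‖ ^ 2 = (⟪T φ, f⟫_ℂ).re := by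
      rw [hf, inner_add_right, Complex.add_re, ← inner_self_eq_norm_sq (𝕜 := ℂ)]
      rfl
    have h3 : ⟪T φ, f⟫_ℂ = ⟪T φ, u⟫_ℂ + ⟪T φ, f - u'⟫_ℂ := by
      have : ⟪T φ, u'⟫_ℂ = ⟪T φ, u⟫_ℂ := by
        rw [hu', inner_sub_right, hTZ φ _ (Z.starProjection_apply_mem _), sub_zero]
      rw [← this, ← inner_add_right]
      congr 1
      abel
    have h4 : (⟪T φ, f⟫_ℂ).re ≤ (2 * η + e) * ‖f‖ := by
      have a1 : (⟪T φ, u⟫_ℂ).re ≤ η * (‖f‖ + ‖f‖) :=
        (Complex.re_le_norm _).trans ((hu φ).trans (by gcongr))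
      have a2 : (⟪T φ, f - u'⟫_ℂ).re ≤ ‖f‖ * e :=
        (Complex.re_le_norm _).trans ((norm_inner_le_norm _ _).trans (by gcongr))
      rw [h3, Complex.add_re]
      linarith
    have h5 : ‖ι φ‖ ^ 2 ≤ e ^ 2 + 1 / δ * (⟪T φ, ι φ⟫_ℂ).re := by
      have a1 : ‖P (ι φ)‖ ^ 2 ≤ e ^ 2 := by gcongr
      have a2 : ‖ι φ - P (ι φ)‖ ^ 2 ≤ 1 / δ * (⟪T φ, ι φ⟫_ℂ).re := by
        rw [one_div, ← div_eq_inv_mul, le_div_iff₀ hδ]
        linarith
      linarith
    have hδ' : 0 < 1 / δ := by positivity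
    have h6 : ‖f‖ ^ 2 ≤ e ^ 2 + (2 + 1 / δ) * ((⟪T φ, ι φ⟫_ℂ).re + ‖T φ‖ ^ 2) := by
      have : 0 ≤ (1 + 1 / δ) * ‖T φ‖ ^ 2 := by positivity
      nlinarith
    rw [h2] at h6
    have : (2 + 1 / δ) * (⟪T φ, f⟫_ℂ).re ≤ (2 + 1 / δ) * ((2 * η + e) * ‖f‖) := by gcongr
    linarith
  -- pass to the limit
  have hex : ∀ n : ℕ, ∃ φ, ‖ι φ + T φ - u'‖ < 1 / ((n : ℝ) + 1) := by
    intro n
    have := Metric.denseRange_iff.1 hd u' (1 / ((n : ℝ) + 1)) (by positivity)
    obtain ⟨φ, hφ⟩ := this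
    exact ⟨φ, by rwa [dist_comm, dist_eq_norm] at hφ⟩
  choose v hv using hex
  have hlim : Tendsto (fun n => ι (v n) + T (v n)) atTop (𝓝 u') := by
    rw [tendsto_iff_norm_sub_tendsto_zero]
    exact squeeze_zero (fun _ => norm_nonneg _) (fun n => (hv n).le)
      tendsto_one_div_add_atTop_nhds_zero_nat
  have hnl : Tendsto (fun n => ‖ι (v n) + T (v n)‖) atTop (𝓝 ‖u'‖) := hlim.norm
  have h0 : Tendsto (fun n : ℕ => 1 / ((n : ℝ) + 1)) atTop (𝓝 0) :=
    tendsto_one_div_add_atTop_nhds_zero_nat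
  have hfin : ‖u'‖ ^ 2 ≤ 0 ^ 2 + (2 + 1 / δ) * ((2 * η + 0) * ‖u'‖) :=
    le_of_tendsto_of_tendsto (hnl.pow 2)
      ((h0.pow 2).add ((((tendsto_const_nhds.add h0)).mul hnl).const_mul _))
      (Eventually.of_forall fun n => key (v n) _ (by positivity) (hv n).le)
  by_cases hz : ‖u'‖ = 0
  · rw [hz]
    positivity
  · have hp : 0 < ‖u'‖ := lt_of_le_of_ne (norm_nonneg _) (Ne.symm hz)
    have : ‖u'‖ * ‖u'‖ ≤ ((4 + 2 / δ) * η) * ‖u'‖ := by
      have e1 : (2 + 1 / δ) * ((2 * η + 0) * ‖u'‖) = ((4 + 2 / δ) * η) * ‖u'‖ := by ring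
      nlinarith
    exact le_of_mul_le_mul_right this hp


end Close

/-! ### Counting -/

section Count

variable {H : Type*} [NormedAddCommGroup H] [InnerProductSpace ℂ H]




end Count

end Crest.Agent.R330.DLow942
end

-- ▼ part R330/DLowS_942
section

/-!
# Row 330 (helper942): D-LOW by duality, for the sixteen charges

`close_of_dual` : `Susy G m ι Q Ham J`, gap inequality and density of `(1 + H) D` : if the vectors
`Q_α u` are small in the dual norm of the form then `u` is close to the kernel.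
-/

set_option autoImplicit false

namespace Crest.Agent.R330.DLow942

open Crest.MathPhysics.MatrixQM
open Crest.Agent.R330.GapAlg916
open scoped InnerProductSpace

variable {D H : Type*} [AddCommGroup D] [Module ℂ D] [NormedAddCommGroup H]
  [InnerProductSpace ℂ H]
variable {G : GammaNine} {m : ℝ} {ι : D →ₗ[ℂ] H} {Q : Fin 16 → D →ₗ[ℂ] D}
  {Ham : D →ₗ[ℂ] D} {J : Fin 9 × Fin 9 → D →ₗ[ℂ] D}

/-- graph norm of the form: `‖w‖² + ⟨w, H w⟩` -/
noncomputable def fn (ι : D →ₗ[ℂ] H) (Ham : D →ₗ[ℂ] D) (w : D) : ℝ :=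
  ‖ι w‖ ^ 2 + (⟪ι w, ι (Ham w)⟫_ℂ).re

theorem fn_nonneg (h : Susy G m ι Q Ham J) (w : D) : 0 ≤ fn ι Ham w := by
  have : 0 ≤ (⟪ι w, ι (Ham w)⟫_ℂ).re := by
    rw [← h.form_self]
    positivity
  unfold fn
  positivity

/-- The charges of a core vector are bounded in the form norm by its graph norm. -/
theorem sum_fn_le (h : Susy G m ι Q Ham J) (hm : 0 ≤ m) (φ : D) :
    ∑ α, fn ι Ham (Q α φ) ≤ (168 + 160 * m ^ 2) * (‖ι φ‖ + ‖ι (Ham φ)‖) ^ 2 := by
  have h1 := E2942.energy_le h hm φ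
  have h2 : ∑ α, ‖ι (Q α φ)‖ ^ 2 = 16 * (⟪ι φ, ι (Ham φ)⟫_ℂ).re := by
    rw [← h.form_self]
    ring
  have h3 : (⟪ι φ, ι (Ham φ)⟫_ℂ).re ≤ ‖ι φ‖ * ‖ι (Ham φ)‖ :=
    (Complex.re_le_norm _).trans (norm_inner_le_norm _ _)
  unfold fn
  rw [Finset.sum_add_distrib, h2]
  have a0 := norm_nonneg (ι φ)
  have b0 := norm_nonneg (ι (Ham φ))
  set a := ‖ι φ‖
  set b := ‖ι (Ham φ)‖
  have e1 : a ^ 2 ≤ (a + b) ^ 2 := by gcongr; linarith
  have e2 : b ^ 2 ≤ (a + b) ^ 2 := by gcongr; linarith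
  have e3 : 2 * (a * b) ≤ (a + b) ^ 2 := by nlinarith
  have e4 : m ^ 2 * a ^ 2 ≤ m ^ 2 * (a + b) ^ 2 := by gcongr
  nlinarith

/-- **D-LOW.** If the vectors `Q_α u` are small in the dual norm of the form, `u` is close to the
kernel `Z`. -/
theorem close_of_dual (h : Susy G m ι Q Ham J) (hm : 0 ≤ m) (Z : Submodule ℂ H)
    [Z.HasOrthogonalProjection] {δ : ℝ} (hδ : 0 < δ)
    (hZ : ∀ φ, ∀ z ∈ Z, ⟪ι (Ham φ), z⟫_ℂ = 0)
    (hgap : ∀ φ, δ * ‖ι φ - Z.starProjection (ι φ)‖ ^ 2 ≤ (⟪ι φ, ι (Ham φ)⟫_ℂ).re)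
    (hd : DenseRange (fun φ => ι φ + ι (Ham φ))) {u : D} {η : ℝ} (hη : 0 ≤ η)
    (hu : ∀ α w, ‖⟪ι w, ι (Q α u)⟫_ℂ‖ ≤ η * Real.sqrt (fn ι Ham w)) :
    ‖ι u - Z.starProjection (ι u)‖ ≤ (4 + 2 / δ) * ((4 + 4 * m) * η) := by
  have hre : ∀ φ, (⟪ι (Ham φ), ι φ⟫_ℂ).re = (⟪ι φ, ι (Ham φ)⟫_ℂ).re := fun φ => by
    rw [h.Ham_symm]
  refine close_of_weak ι (ι ∘ₗ Ham) Z hδ (by positivity) (fun φ => ?_) hZ (fun φ => ?_) hd
    fun φ => ?_
  · change 0 ≤ (⟪ι (Ham φ), ι φ⟫_ℂ).re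
    rw [hre, ← h.form_self]
    positivity
  · change _ ≤ (⟪ι (Ham φ), ι φ⟫_ℂ).re
    rw [hre]
    exact hgap φ
  · change ‖⟪ι (Ham φ), ι u⟫_ℂ‖ ≤ _ * (‖ι φ‖ + ‖ι (Ham φ)‖)
    rw [h.Ham_symm, ← h.form_eq, norm_mul]
    have h1 : ‖∑ α, ⟪ι (Q α φ), ι (Q α u)⟫_ℂ‖ ≤ η * ∑ α, Real.sqrt (fn ι Ham (Q α φ)) := by
      rw [Finset.mul_sum]
      exact (norm_sum_le _ _).trans (Finset.sum_le_sum fun α _ => hu α (Q α φ))
    -- Cauchy-Schwarz
    have h2 : (∑ α, Real.sqrt (fn ι Ham (Q α φ))) ^ 2 ≤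
        16 * ∑ α, fn ι Ham (Q α φ) := by
      have := Finset.sum_mul_sq_le_sq_mul_sq Finset.univ (fun _ : Fin 16 => (1 : ℝ))
        (fun α => Real.sqrt (fn ι Ham (Q α φ)))
      simp only [one_mul, one_pow, Finset.sum_const, Finset.card_univ, Fintype.card_fin,
        nsmul_eq_mul, mul_one] at this
      refine this.trans (le_of_eq ?_)
      push_cast
      congr 1
      exact Finset.sum_congr rfl fun α _ => Real.sq_sqrt (fn_nonneg h _)
    have h3 : ∑ α, Real.sqrt (fn ι Ham (Q α φ)) ≤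
        (64 + 64 * m) * (‖ι φ‖ + ‖ι (Ham φ)‖) := by
      apply le_of_sq_le_sq _ (by positivity)
      refine h2.trans ?_
      have h4 := sum_fn_le h hm φ
      have h5 : 0 ≤ (‖ι φ‖ + ‖ι (Ham φ)‖) ^ 2 := by positivity
      rw [mul_pow]
      have h6 : 16 * (168 + 160 * m ^ 2) ≤ (64 + 64 * m) ^ 2 := by nlinarith
      nlinarith
    have h7 : ‖(1 / 16 : ℂ)‖ = 1 / 16 := by norm_num
    rw [h7]
    calc 1 / 16 * ‖∑ α, ⟪ι (Q α φ), ι (Q α u)⟫_ℂ‖
        ≤ 1 / 16 * (η * ((64 + 64 * m) * (‖ι φ‖ + ‖ι (Ham φ)‖))) := by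
          have := h1.trans (mul_le_mul_of_nonneg_left h3 hη)
          linarith
      _ = (4 + 4 * m) * η * (‖ι φ‖ + ‖ι (Ham φ)‖) := by ring

end Crest.Agent.R330.DLow942
end

-- ▼ part R330/StrongLow_796
section

/-!
# Row 330, section 11 (helper796): literal `DLow N`

* `Pack b M R G g m`, `PackAll N` : the supersymmetry algebra and the graph core on the core
  vectors (the inputs of the gap).
* `close_lit` : closeness to the kernel by duality, literal charges.
* `dLow_of` : `TrialAll N → GapAll N → PackAll N → DLow N`.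
-/

set_option autoImplicit false
set_option linter.unusedSectionVars false

open MeasureTheory Filter Topology Crest.MathPhysics.MatrixQM
open scoped ContDiff InnerProductSpace ENNReal

noncomputable section

namespace Crest.Agent.R330.StrongLow796

open Crest.Agent.R330.Defs478 Crest.Agent.R330.Top478 Crest.Agent.R330.FA416
  Crest.Agent.R330.Dict416 Crest.Agent.R330.Scale423 Crest.Agent.R330.ScaleD423
  Crest.Agent.R330.TrialSys796 Crest.Agent.R330.StrAbs796 Crest.Agent.R330.StrUp796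
  Crest.Agent.R330.StrLow796 Crest.Agent.R330.GapAlg916

/-! ### Norms and inner products in the closure of the core -/

section clo

variable {V H H' : Type*} [AddCommGroup V] [Module ℂ V] [NormedAddCommGroup H]
  [InnerProductSpace ℂ H] [NormedAddCommGroup H'] [InnerProductSpace ℂ H']

theorem norm_ιc (ι : V →ₗ[ℂ] H) (φ : V) : ‖ιc ι φ‖ = ‖ι φ‖ := rfl

theorem inner_ιc (ι : V →ₗ[ℂ] H) (φ ψ : V) : ⟪ιc ι φ, ιc ι ψ⟫_ℂ = ⟪ι φ, ι ψ⟫_ℂ := rfl

theorem susy_ιc {G : GammaNine} {m : ℝ} {ι : V →ₗ[ℂ] H} {Q : Fin 16 → V →ₗ[ℂ] V}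
    {Ham : V →ₗ[ℂ] V} {J : Fin 9 × Fin 9 → V →ₗ[ℂ] V} (h : Susy G m ι Q Ham J) :
    Susy G m (ιc ι) Q Ham J := ⟨fun α φ ψ => h.symm α φ ψ, h.master, h.comm⟩

/-- Projections on the kernel in the closure and in the space. -/
theorem dist_le_of_ιc [CompleteSpace H] {ι : V →ₗ[ℂ] H} {Q : V →ₗ[ℂ] H'} {u : V}
    [(kerF (ιc ι) Q).HasOrthogonalProjection] {c : ℝ}
    (h : ‖ιc ι u - (kerF (ιc ι) Q).starProjection (ιc ι u)‖ ≤ c) :
    ‖ι u - (kerF ι Q).starProjection (ι u)‖ ≤ c := by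
  set P := (kerF (ιc ι) Q).starProjection (ιc ι u) with hP
  have hPm : ((P : clo ι) : H) ∈ kerF ι Q :=
    (kerF_ιc _).1 (Submodule.starProjection_apply_mem _ _)
  have h3 : ‖ι u - (kerF ι Q).starProjection (ι u)‖ ≤ ‖ι u - (P : H)‖ := by
    rw [Submodule.starProjection_minimal]
    exact ciInf_le ⟨0, by rintro _ ⟨x, rfl⟩; exact norm_nonneg _⟩ (⟨(P : H), hPm⟩ : kerF ι Q)
  exact h3.trans h

theorem dense_ιc {ι : V →ₗ[ℂ] H} {Ham : V →ₗ[ℂ] V}
    (hd : ∀ φ, ι φ ∈ closure (Set.range fun ψ => ι ψ + ι (Ham ψ))) :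
    DenseRange (fun φ => ιc ι φ + ιc ι (Ham φ)) := by
  have hle : clo ι ≤ clo (ι + ι ∘ₗ Ham) := by
    refine Submodule.topologicalClosure_minimal _ ?_ (Submodule.isClosed_topologicalClosure _)
    rintro y ⟨φ, rfl⟩
    have h1 := hd φ
    rw [mem_closure_iff_seq_limit] at h1
    obtain ⟨x, hx, hlim⟩ := h1
    choose ψ hψ using hx
    refine mem_clo_iff.2 ⟨ψ, hlim.congr fun n => ?_⟩
    exact (hψ n).symm
  intro x
  obtain ⟨φ, hφ⟩ := mem_clo_iff.1 (hle x.2)
  rw [mem_closure_iff_seq_limit]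
  exact ⟨fun n => ιc ι (φ n) + ιc ι (Ham (φ n)), fun n => ⟨φ n, rfl⟩,
    tendsto_subtype_rng.2 hφ⟩

/-- **Closeness to the kernel by duality**, abstract form with core not dense. -/
theorem close_abs [CompleteSpace H] {G : GammaNine} {ι : V →ₗ[ℂ] H} {Q : Fin 16 → V →ₗ[ℂ] V}
    {Ham : V →ₗ[ℂ] V} {J : Fin 9 × Fin 9 → V →ₗ[ℂ] V} {QQ : V →ₗ[ℂ] H'}
    (hS : Susy G 1 ι Q Ham J)
    (hQQ : ∀ φ ψ, ⟪QQ φ, QQ ψ⟫_ℂ = ∑ α, ⟪ι (Q α φ), ι (Q α ψ)⟫_ℂ)
    (hd : ∀ φ, ι φ ∈ closure (Set.range fun ψ => ι ψ + ι (Ham ψ))) {δ : ℝ} (hδ : 0 < δ)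
    (hG : Gap ι QQ (16 * δ)) {η : ℝ} (hη : 0 ≤ η) {u : V}
    (hu : ∀ α v, ‖⟪ι (Q α u), ι v⟫_ℂ‖ ≤ η * (‖ι v‖ + ‖QQ v‖)) :
    ‖ι u - (kerF ι QQ).starProjection (ι u)‖ ≤ ((4 + 2 / δ) * 40) * η := by
  have hC : CompleteSpace (clo ι) := (isClosed_clo ι).completeSpace_coe
  have hS' := susy_ιc hS
  have hform2 : ∀ φ ψ, ⟪QQ φ, QQ ψ⟫_ℂ = ⟪(16 : ℂ) • ιc ι (Ham φ), ιc ι ψ⟫_ℂ := by
    intro φ ψ
    rw [inner_smul_left, inner_ιc, hS.Ham_symm, ← hS.form_eq, hQQ, Complex.conj_ofNat]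
    ring
  have hform : ∀ φ, ‖QQ φ‖ ^ 2 = 16 * (⟪ιc ι φ, ιc ι (Ham φ)⟫_ℂ).re := by
    intro φ
    have h1 : (‖QQ φ‖ ^ 2 : ℝ) = (⟪QQ φ, QQ φ⟫_ℂ).re := by
      rw [inner_self_eq_norm_sq_to_K]
      norm_cast
    rw [h1, hform2, inner_smul_left, Complex.conj_ofNat, hS'.Ham_symm]
    simp
  have hfn : ∀ w, DLow942.fn (ιc ι) Ham w = ‖ι w‖ ^ 2 + (1 / 16) * ‖QQ w‖ ^ 2 := fun w => by
    unfold DLow942.fn
    rw [hform, norm_ιc]
    ring
  have hgap := gap_to_ιc hG
  refine dist_le_of_ιc ((DLow942.close_of_dual hS' zero_le_one (kerF (ιc ι) QQ) hδ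
    (fun φ z hz => ?_) (fun φ => ?_) (dense_ιc hd) (u := u) (η := 5 * η) (by positivity)
    (fun α w => ?_)).trans (le_of_eq (by ring)))
  · -- the range of the Hamiltonian is orthogonal to the kernel
    have h1 := AbsLow291.inner_A_kerF (ι := ιc ι) (Q := QQ)
      (A := (16 : ℂ) • (ιc ι ∘ₗ Ham)) (fun φ ψ => hform2 φ ψ) φ hz
    have h2 : ⟪(16 : ℂ) • ιc ι (Ham φ), z⟫_ℂ = 0 := h1
    rw [inner_smul_left] at h2
    rcases mul_eq_zero.1 h2 with h3 | h3
    · rw [Complex.conj_ofNat] at h3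
      norm_num at h3
    · exact h3
  · -- the gap
    have h1 := hgap.proj (by positivity) φ
    rw [hform] at h1
    linarith
  · -- the pairing
    have h1 := hu α w
    rw [norm_inner_symm, hfn, inner_ιc]
    refine h1.trans ?_
    rw [mul_comm 5 η, mul_assoc]
    refine mul_le_mul_of_nonneg_left ?_ hη
    set s : ℝ := Real.sqrt (‖ι w‖ ^ 2 + (1 / 16) * ‖QQ w‖ ^ 2) with hs
    have h3 : ‖ι w‖ ≤ s := by
      rw [hs]
      refine Real.le_sqrt_of_sq_le ?_
      nlinarith [sq_nonneg ‖QQ w‖]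
    have h4 : ‖QQ w‖ / 4 ≤ s := by
      rw [hs]
      refine Real.le_sqrt_of_sq_le ?_
      nlinarith [sq_nonneg ‖ι w‖]
    linarith

end clo

section data

variable {N : ℕ} {F : Type*} [NormedAddCommGroup F] [InnerProductSpace ℂ F]
  [FiniteDimensional ℂ F] {b : ColorBasis N} {M : FermionRep N F} {R : GaugeAction b M}
  {G : GammaNine}

/-- The supersymmetry algebra and the graph core on core vectors. -/
def Pack (b : ColorBasis N) (M : FermionRep N F) (R : GaugeAction b M) (G : GammaNine)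
    (g m : ℝ) : Prop :=
  ∃ (Q : Fin 16 → core b R →ₗ[ℂ] core b R) (Ham : core b R →ₗ[ℂ] core b R)
    (J : Fin 9 × Fin 9 → core b R →ₗ[ℂ] core b R),
    (∀ α φ, (Q α φ : Cfg N → F) = dcharge b M G g m α (φ : Cfg N → F)) ∧
    Susy G m (ιC R) Q Ham J ∧
    ∀ φ : core b R, ιC R φ ∈ closure (Set.range fun ψ => ιC R ψ + ιC R (Ham ψ))

/-- **Closeness to the kernel by duality**, literal charges. -/
theorem close_lit {g : ℝ} (hP : Pack b M R G g 1) {δ : ℝ} (hδ : 0 < δ)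
    (hG : Sec478.GapZ b M R G g 1 δ) {η : ℝ} (hη : 0 ≤ η) {u : core b R}
    (hu : ∀ α v, ‖⟪ιC R (qc R G g 1 α u), ιC R v⟫_ℂ‖ ≤
      η * (‖ιC R v‖ + ‖QC R G g 1 v‖)) :
    ‖ιC R u - (kerF (ιC R) (QC R G g 1)).starProjection (ιC R u)‖ ≤
      ((4 + 2 / δ) * 40) * η := by
  obtain ⟨Q, Ham, J, hQ, hS, hd⟩ := hP
  have hQq : ∀ α, Q α = qc R G g 1 α := fun α => LinearMap.ext fun φ => Subtype.ext (hQ α φ)
  refine close_abs hS (fun φ ψ => ?_) hd hδ (Lit416.gapZ_iff.1 hG) hη fun α v => ?_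
  · rw [PiLp.inner_apply]
    refine Finset.sum_congr rfl fun α _ => ?_
    rw [hQq]
    rfl
  · rw [hQq]
    exact hu α v

/-- **Literal D-low for one set of data.** -/
theorem dLow_data {L : Type*} [NormedAddCommGroup L] [InnerProductSpace ℂ L]
    {X : Type*} [AddCommGroup X] [Module ℂ X] {e : X →ₗ[ℂ] L} {D : Fin 16 → X →ₗ[ℂ] X}
    {T : ℝ → X → Cfg N → F} {K0 : Submodule ℂ L} {d : ℕ} (hTr : IsTrial b M R G e D T)
    (hFree : IsFree e D K0 d) {δ : ℝ} (hδ : 0 < δ)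
    (hG : ∀ᶠ g in atTop, Sec478.GapZ b M R G g 1 δ)
    (hP : ∀ᶠ g in atTop, Pack b M R G g 1) {k : ℕ} (hk : Sec478.DimGe b M R G 1 0 k) :
    ∀ᶠ g in atTop, Sec478.DimGe b M R G g 1 (k + d) := by
  have h := low_of_close (tr_of hTr) (C := (4 + 2 / δ) * 40) (κ' := 1) (by positivity)
    zero_le_one (Eventually.of_forall fun g a φ => norm_qc_le g 1 a φ) ?_ K0 hFree.rank
    hFree.approx (k := k) ?_
  · exact h.mono fun g hg => Lit416.dimGe_iff.2 hg
  · filter_upwards [hG, hP] with g h1 h2 η hη u hu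
    exact close_lit h2 hδ h1 hη hu
  · -- the bound states
    intro ε hε S
    -- radius on which the trial states vanish
    choose r hr0 hr using hTr.far
    obtain ⟨ρ₁, hρ₁, hρS⟩ : ∃ ρ₁ : ℝ, 0 < ρ₁ ∧ ∀ χ ∈ S, ρ₁ ≤ r χ := by
      by_cases hS : S.Nonempty
      · obtain ⟨χ₀, -, hmin⟩ := S.exists_min_image r hS
        exact ⟨r χ₀, hr0 χ₀, hmin⟩
      · exact ⟨1, one_pos, fun χ hχ => absurd ⟨χ, hχ⟩ hS⟩
    set τ : ℝ := min ε (ε ^ 2 / 16) with hτ
    have hτ0 : 0 < τ := lt_min hε (by positivity)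
    obtain ⟨ρ₀, hρ₀, hq⟩ := QM0363.quasi_family hk hτ0
    obtain ⟨g₁, -, hq⟩ := hq (min ρ₀ ρ₁) (lt_min hρ₀ hρ₁) (min_le_left _ _)
    have hfar : ∀ᶠ g in atTop, ∀ χ ∈ S, ∀ x, ‖x‖ < r χ → T g χ x = 0 :=
      (Filter.eventually_all_finset S).2 fun χ _ => hr χ
    have hcore : ∀ᶠ g in atTop, ∀ χ ∈ S, IsCoreVec b R (T g χ) :=
      (Filter.eventually_all_finset S).2 fun χ _ => hTr.core χ
    filter_upwards [eventually_ge_atTop g₁, hfar, hcore] with g hg hfar hcore
    obtain ⟨w, hw1, hw2, hw3, hw4⟩ := hq g hg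
    refine ⟨fun i => ⟨w i, hw1 i⟩, fun i j => ?_, fun i => ?_, fun χ hχ i => ?_⟩
    · rw [inner_ιC]
      exact (hw3 i j).trans (min_le_left _ _)
    · refine le_of_sq_le_sq ?_ hε.le
      rw [norm_QC_sq]
      have h1 := (hw4 i).trans (min_le_right _ _)
      change 16 * qf b M G g 1 (w i) ≤ ε ^ 2
      linarith
    · rw [inner_ιC, coe_Tc (hcore χ hχ)]
      have h1 : ∀ x, ⟪T g χ x, w i x⟫_ℂ = 0 := fun x => by
        rcases lt_or_ge ‖x‖ ρ₁ with h2 | h2
        · rw [hfar χ hχ x (h2.trans_le (hρS χ hχ)), inner_zero_left]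
        · rw [hw2 i x ((min_le_right _ _).trans h2), inner_zero_right]
      simp only [h1, integral_zero, norm_zero]
      exact hε.le

end data

/-- The algebra and the graph core for all data. -/
def PackAll (N : ℕ) : Prop :=
  ∀ (F : Type) [NormedAddCommGroup F] [InnerProductSpace ℂ F] [FiniteDimensional ℂ F]
    [Nontrivial F] (b : ColorBasis N) (M : FermionRep N F) (R : GaugeAction b M) (G : GammaNine)
    (g : ℝ), 0 < g → Pack b M R G g 1

/-- **Literal D-low.** -/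
theorem dLow_of {N : ℕ} (hT : TrialAll N) (hG : Sec478.GapAll N) (hP : PackAll N) :
    Sec478.DLow N := by
  intro F _ _ _ _ b M R G k hk
  obtain ⟨L, _, _, _, X, _, _, e, D, T, K0, -, -, hTr, hFree, -⟩ := hT F b M R G
  have h := dLow_data hTr hFree (δ := 1 / 24) (by norm_num)
    ((eventually_gt_atTop 0).mono fun g hg => hG F b M R G g hg)
    ((eventually_gt_atTop 0).mono fun g hg => hP F b M R G g hg) hk
  obtain ⟨g₁, hg₁⟩ := eventually_atTop.1 h
  exact ⟨g₁, fun g _ hg => hg₁ g hg.le⟩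

end Crest.Agent.R330.StrongLow796

end
end

-- ▼ part R330/Esa_596
section

/-!
# R330 (helper596): essential self-adjointness of every single charge on the core

* `mem_clo_iff_inv` : the closure of the core in `L²` = the invariant `L²` functions.
* `charge_weak_strong_one` : weak = strong for ONE charge `dcharge g m α`, tested on the core.
* `dense_sub` : `(Q_α - c) D` is dense in the closure of the core for every non-real `c`
  (abstract shape of FA3_416); `exists_core_sub` : the same with functions.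
-/

set_option autoImplicit false
set_option linter.unusedSectionVars false
set_option linter.unusedVariables false

open MeasureTheory Set Filter Topology Crest.MathPhysics.MatrixQM
open scoped ContDiff InnerProductSpace ENNReal

universe v

noncomputable section
namespace Crest.Agent.R330.Esa596
open Crest.Agent.R330.SUgrp596 Crest.Agent.R330.Moll596 Crest.Agent.R330.WS596
  Crest.Agent.R330.Haar596 Crest.Agent.R330.IBP837 Crest.Agent.R330.Cov837
  Crest.Agent.R330.Brid837 Crest.Agent.R330.Defs478 Crest.Agent.R330.WSLit596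
  Crest.Agent.R330.FA416 Crest.Agent.R330.Dict416

variable {N : ℕ} {F : Type v} [NormedAddCommGroup F] [InnerProductSpace ℂ F]
  [FiniteDimensional ℂ F] {b : ColorBasis N} {M : FermionRep N F} {R : GaugeAction b M}
  {G : GammaNine} {g m : ℝ}

/-- the closure of the core = invariant `L²` functions -/
theorem mem_clo_iff_inv {x : L2 N F} : x ∈ clo (ιC R) ↔ InvAE R (x : Cfg N → F) := by
  rw [mem_clo_iff]
  constructor
  · rintro ⟨φ, h⟩
    refine InvAE.of_tendsto (φ := fun n => (φ n).1) (fun n => core_aesm (φ n).2)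
      (fun n => InvAE.of_core (φ n).2) (Lp.aestronglyMeasurable x) ?_
    have h' : Tendsto (fun n => ((cv_memLp (φ n).2).toLp (φ n).1 : L2 N F)) atTop
        (𝓝 ((Lp.memLp x).toLp (x : Cfg N → F))) := by
      rw [Lp.toLp_coeFn]
      exact h
    exact (tendsto_toLp_iff (fun n => cv_memLp (φ n).2) (Lp.memLp x)).1 h'
  · intro h
    obtain ⟨φ, h1, h2⟩ := exists_core_tendsto (Lp.memLp x) h
    refine ⟨fun n => ⟨φ n, h1 n⟩, ?_⟩
    have := (tendsto_toLp_iff (fun n => cv_memLp (h1 n)) (Lp.memLp x)).2 h2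
    rw [Lp.toLp_coeFn] at this
    exact this


theorem InvAE.congr {Ψ Ψ' : Cfg N → F} (h : InvAE R Ψ) (he : Ψ =ᵐ[volume] Ψ') : InvAE R Ψ' := by
  intro k
  have h1 := (act_measurePreserving b k).quasiMeasurePreserving.ae_eq_comp he
  filter_upwards [h k, he, h1] with x hx hx2 hx3
  have hx3' : Ψ (b.act k x) = Ψ' (b.act k x) := hx3
  rw [← hx3', hx, hx2]

theorem InvAE.smul {Ψ : Cfg N → F} (h : InvAE R Ψ) (c : ℂ) : InvAE R (fun x => c • Ψ x) := by
  intro k
  filter_upwards [h k] with x hx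
  rw [hx, map_smul]

/-- **weak = strong for one charge, tested on the core** -/
theorem charge_weak_strong_one (α : Fin 16) {Ψ χ : Cfg N → F} (hΨ : MemLp Ψ 2 volume)
    (hΨi : InvAE R Ψ) (hχ : MemLp χ 2 volume) (hχi : InvAE R χ)
    (h : ∀ ψ, IsCoreVec b R ψ → ∫ x, ⟪Ψ x, dcharge b M G g m α ψ x⟫_ℂ = ∫ x, ⟪χ x, ψ x⟫_ℂ) :
    ∃ φ : ℕ → Cfg N → F, (∀ n, IsCoreVec b R (φ n)) ∧
      Tendsto (fun n => eLpNorm (φ n - Ψ) 2 volume) atTop (𝓝 0) ∧
      Tendsto (fun n => eLpNorm (dcharge b M G g m α (φ n) - χ) 2 volume) atTop (𝓝 0) := by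
  have hW : ∀ α β A, Continuous (wpot b G g m α β A) := fun α β A => wpot_continuous β A
  have hw : ∀ ψ : Cfg N → F, ContDiff ℝ ∞ ψ → HasCompactSupport ψ →
      ∫ x, ⟪Ψ x, chargeW M G (wpot b G g m) α ψ x⟫_ℂ = ∫ x, ⟪χ x, ψ x⟫_ℂ := fun ψ hψ hc =>
    weak_of_core_weak hW isCov_wpot α (hΨ.locallyIntegrable (by norm_num))
      (hχ.locallyIntegrable (by norm_num)) hΨi hχi
      (fun ψ hψ => by rw [← dcharge_eq]; exact h ψ hψ) hψ hc
  obtain ⟨φ, h1, h2, h3, h4, h5⟩ := dirac_weak_strong (ι := Unit) (a := fun _ => dco M G α)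
    (V := fun _ x => vco M (fun β A => wpot b G g m α β A x)) (fun _ => vco_cont M hW α)
    (fun _ => dco_symm M G α) (fun _ x => vco_symm M _) hΨ (χ := fun _ => χ) (fun _ => hχ)
    (fun _ => hw)
  refine ⟨φ, fun n => ⟨h1 n, h2 n, fun k x => ?_⟩, h4, ?_⟩
  · exact h3 n (actL b k) ((LinearMap.toContinuousLinearMap (R.ρ k)).restrictScalars ℝ) (hΨi k) x
  · refine (h5 ()).congr fun n => ?_
    rw [dcharge_eq]
    rfl

/-- a symmetric operator has no non-real generalised eigenvalue in the weak sense -/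
theorem zero_of_weak_eigen (α : Fin 16) {c : ℂ} (hc : c.im ≠ 0) {Ψ : Cfg N → F}
    (hΨ : MemLp Ψ 2 volume) (hΨi : InvAE R Ψ)
    (h : ∀ ψ, IsCoreVec b R ψ →
      ∫ x, ⟪Ψ x, dcharge b M G g m α ψ x⟫_ℂ = c * ∫ x, ⟪Ψ x, ψ x⟫_ℂ) : Ψ =ᵐ[volume] 0 := by
  set χ : Cfg N → F := fun x => (starRingEnd ℂ c) • Ψ x with hχd
  have hχ : MemLp χ 2 volume := hΨ.const_smul (starRingEnd ℂ c)
  have hχi : InvAE R χ := InvAE.smul hΨi _
  obtain ⟨φ, h1, h2, h3⟩ := charge_weak_strong_one (G := G) (g := g) (m := m) α hΨ hΨi hχ hχi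
    (fun ψ hψ => by
      rw [h ψ hψ, ← integral_const_mul]
      refine integral_congr_ae (Eventually.of_forall fun x => ?_)
      simp only [hχd, inner_smul_left, Complex.conj_conj])
  have hm : ∀ n, MemLp (φ n) 2 volume := fun n => cv_memLp (h1 n)
  have hq : ∀ n, MemLp (dcharge b M G g m α (φ n)) 2 volume := fun n => cv_memLp_dcharge G g m α (h1 n)
  have hA := tendsto_integral_inner hm hΨ hq hχ h2 h3
  have hB := tendsto_integral_inner hq hχ hm hΨ h3 h2
  have hs : ∀ n, ∫ x, ⟪φ n x, dcharge b M G g m α (φ n) x⟫_ℂ =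
      ∫ x, ⟪dcharge b M G g m α (φ n) x, φ n x⟫_ℂ := fun n =>
    (dcharge_symm ((h1 n).1.of_le (by norm_cast)) ((h1 n).1.of_le (by norm_cast))
      (Or.inl (h1 n).2.1)).symm
  simp only [hs] at hA
  have key := tendsto_nhds_unique hA hB
  have e1 : ∫ x, ⟪Ψ x, χ x⟫_ℂ = (starRingEnd ℂ c) * ((∫ x, ‖Ψ x‖ ^ 2 : ℝ) : ℂ) := by
    rw [← integral_complex_ofReal, ← integral_const_mul]
    refine integral_congr_ae (Eventually.of_forall fun x => ?_)
    simp only [hχd, inner_smul_right, inner_self_eq_norm_sq_to_K]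
    norm_cast
  have e2 : ∫ x, ⟪χ x, Ψ x⟫_ℂ = c * ((∫ x, ‖Ψ x‖ ^ 2 : ℝ) : ℂ) := by
    rw [← integral_complex_ofReal, ← integral_const_mul]
    refine integral_congr_ae (Eventually.of_forall fun x => ?_)
    simp only [hχd, inner_smul_left, inner_self_eq_norm_sq_to_K, Complex.conj_conj]
    norm_cast
  rw [e1, e2] at key
  have h0 : (∫ x, ‖Ψ x‖ ^ 2 : ℝ) = 0 := by
    have := congrArg Complex.im key
    simp only [Complex.mul_im, Complex.conj_re, Complex.conj_im, Complex.ofReal_re,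
      Complex.ofReal_im, mul_zero, zero_add] at this
    have h5 : c.im * (∫ x, ‖Ψ x‖ ^ 2 : ℝ) = 0 := by linarith
    exact (mul_eq_zero.1 h5).resolve_left hc
  have h6 := (integral_eq_zero_iff_of_nonneg (fun x => by positivity)
    (hΨ.integrable_norm_pow (by norm_num))).1 h0
  filter_upwards [h6] with x hx
  have : ‖Ψ x‖ ^ 2 = 0 := hx
  simpa using this

/-- one charge minus a constant, on the core, with values in `L²` -/
def qsub (R : GaugeAction b M) (G : GammaNine) (g m : ℝ) (α : Fin 16) (c : ℂ) :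
    core b R →ₗ[ℂ] L2 N F where
  toFun φ := qL R G g m α φ - c • ιC R φ
  map_add' φ ψ := by
    rw [qL_add, map_add, smul_add]
    abel
  map_smul' a φ := by
    rw [qL_smul, map_smul, RingHom.id_apply, smul_sub, smul_comm c a]

theorem qsub_apply (α : Fin 16) (c : ℂ) (φ : core b R) :
    qsub R G g m α c φ = qL R G g m α φ - c • ιC R φ := rfl

theorem qL_mem_clo (α : Fin 16) (φ : core b R) : qL R G g m α φ ∈ clo (ιC R) :=
  mem_clo (ι := ιC R) (⟨dcharge b M G g m α φ.1, core_dcharge φ.2⟩ : core b R)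

/-- **essential self-adjointness of every charge**: `(Q_α - c) D` is dense in the closure of the
core for non-real `c`. -/
theorem dense_sub (α : Fin 16) {c : ℂ} (hc : c.im ≠ 0) {x : L2 N F} (hx : x ∈ clo (ιC R)) :
    x ∈ clo (qsub R G g m α c) := by
  have := complete_F F
  refine dense_of_weak (ι := ιC R) (qsub R G g m α c) (fun φ => ?_) (fun χ hχ h => ?_) x hx
  · exact sub_mem (qL_mem_clo α φ) (Submodule.smul_mem _ _ (mem_clo φ))
  · have hz : (χ : Cfg N → F) =ᵐ[volume] 0 := by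
      refine zero_of_weak_eigen (R := R) (G := G) (g := g) (m := m) α hc (Lp.memLp χ)
        (mem_clo_iff_inv.1 hχ) fun ψ hψ => ?_
      have h1 := h ⟨ψ, hψ⟩
      rw [qsub_apply, inner_sub_right, inner_smul_right, sub_eq_zero] at h1
      have e1 : ⟪χ, qL R G g m α ⟨ψ, hψ⟩⟫_ℂ =
          ∫ x, ⟪(χ : Cfg N → F) x, dcharge b M G g m α ψ x⟫_ℂ := by
        have := inner_toLp (Lp.memLp χ) (cv_memLp_dcharge G g m α hψ)
        rw [Lp.toLp_coeFn] at this
        exact this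
      have e2 : ⟪χ, ιC R ⟨ψ, hψ⟩⟫_ℂ = ∫ x, ⟪(χ : Cfg N → F) x, ψ x⟫_ℂ := by
        have := inner_toLp (Lp.memLp χ) (cv_memLp hψ)
        rw [Lp.toLp_coeFn] at this
        exact this
      rw [e1, e2] at h1
      exact h1
    exact (Lp.eq_zero_iff_ae_eq_zero).2 hz


end Crest.Agent.R330.Esa596
end
end

-- ▼ part R330/AnnHI_245
section

/-!
# Row 330, field `ann` (helper245): `AnnHIAll N` from the summed trial system

**annHIAll_of_sys** : `Chan441.SysAll N → Close478.AnnHIAll N`.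

Only mass `0` is used: isometry, weak intertwining, radial multiplication, capture on annuli; weak =
strong, equality of the squares and the Hardy inequality on test amplitudes for the limit system.
-/

set_option autoImplicit false
set_option linter.unusedSectionVars false

open MeasureTheory Filter Topology Set Crest.MathPhysics.MatrixQM
open scoped ContDiff InnerProductSpace ENNReal

noncomputable section

namespace Crest.Agent.R330.AnnHI245

open Crest.Agent.R330.Defs478 Crest.Agent.R330.Top478 Crest.Agent.R330.Sec478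
  Crest.Agent.R330.TrialSys796 Crest.Agent.R330.Chan441 Crest.Agent.R330.Dict416
  Crest.Agent.R330.FA416 Crest.Agent.R330.AnnAbs245 Crest.Agent.R330.Brid837

/-! ### The radial weight -/

/-- A smooth weight `w` with `w(t)² t ≤ 1` for `t ≥ 0`, `w(t)² t = 1` for `1 ≤ t ≤ L²` and compact
support in `(0, ∞)`. -/
theorem exists_weight (L : ℝ) (hL : 1 ≤ L) : ∃ w : ℝ → ℝ, ContDiff ℝ ∞ w ∧
    (∀ t, 0 ≤ t → w t ^ 2 * t ≤ 1) ∧ (∀ t, 1 ≤ t → t ≤ L ^ 2 → w t ^ 2 * t = 1) ∧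
    (∀ t, w t ^ 2 ≤ 4) ∧ ∀ t, w t ≠ 0 → 1 / 4 ≤ t ∧ t ≤ L ^ 2 + 1 := by
  have hL2 : 1 ≤ L ^ 2 := by nlinarith
  set c : ℝ := (1 + L ^ 2) / 2 with hc
  have hr1 : (0 : ℝ) < (L ^ 2 - 1) / 2 + 1 / 4 := by linarith
  have hr2 : (L ^ 2 - 1) / 2 + 1 / 4 < (L ^ 2 - 1) / 2 + 1 / 2 := by linarith
  let η : ContDiffBump c := ⟨(L ^ 2 - 1) / 2 + 1 / 4, (L ^ 2 - 1) / 2 + 1 / 2, hr1, hr2⟩
  have hη1 : ∀ t, 1 ≤ t → t ≤ L ^ 2 → η t = 1 := by
    intro t h1 h2
    refine η.one_of_mem_closedBall ?_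
    rw [Metric.mem_closedBall, Real.dist_eq, abs_le]
    show -((L ^ 2 - 1) / 2 + 1 / 4) ≤ t - c ∧ t - c ≤ (L ^ 2 - 1) / 2 + 1 / 4
    rw [hc]
    constructor <;> linarith
  have hη2 : ∀ t, η t ≠ 0 → 1 / 2 < t ∧ t < L ^ 2 + 1 / 2 := by
    intro t h1
    have h2 : t ∈ Function.support η := h1
    rw [η.support_eq, Metric.mem_ball, Real.dist_eq, abs_lt] at h2
    have h3 : -((L ^ 2 - 1) / 2 + 1 / 2) < t - c ∧ t - c < (L ^ 2 - 1) / 2 + 1 / 2 := h2
    rw [hc] at h3
    constructor <;> linarith [h3.1, h3.2]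
  refine ⟨fun t => η t / Real.sqrt t, ?_, ?_, ?_, ?_, ?_⟩
  · rw [contDiff_iff_contDiffAt]
    intro t
    by_cases ht : 1 / 4 < t
    · have h0 : (0 : ℝ) < t := by linarith
      exact (η.contDiff.contDiffAt).div ((Real.contDiffAt_sqrt h0.ne')) (Real.sqrt_ne_zero'.2 h0)
    · have h1 : (fun t => η t / Real.sqrt t) =ᶠ[𝓝 t] fun _ => 0 := by
        filter_upwards [Iio_mem_nhds (show t < 1 / 2 by linarith [not_lt.1 ht])] with s hs
        have h2 : η s = 0 := by
          by_contra h3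
          exact absurd (hη2 s h3).1 (not_lt.2 (le_of_lt hs))
        rw [h2, zero_div]
      exact contDiffAt_const.congr_of_eventuallyEq h1
  · intro t ht
    rcases eq_or_lt_of_le ht with h0 | h0
    · rw [← h0, mul_zero]
      exact zero_le_one
    · rw [div_pow, Real.sq_sqrt ht, div_mul_cancel₀ _ h0.ne']
      exact pow_le_one₀ η.nonneg η.le_one
  · intro t h1 h2
    have h0 : (0 : ℝ) < t := by linarith
    show (η t / Real.sqrt t) ^ 2 * t = 1
    rw [div_pow, Real.sq_sqrt h0.le, div_mul_cancel₀ _ h0.ne', hη1 t h1 h2, one_pow]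
  · intro t
    show (η t / Real.sqrt t) ^ 2 ≤ 4
    by_cases h : η t = 0
    · rw [h, zero_div]
      norm_num
    · have h1 := hη2 t h
      have h0 : (0 : ℝ) < t := by linarith [h1.1]
      rw [div_pow, Real.sq_sqrt h0.le, div_le_iff₀ h0]
      have h2 : η t ^ 2 ≤ 1 := pow_le_one₀ η.nonneg η.le_one
      linarith [h1.1]
  · intro t ht
    have h : η t ≠ 0 := fun h => ht (by simp [h])
    have h1 := hη2 t h
    constructor <;> linarith [h1.1, h1.2]

/-! ### Multiplication operators on `L²` -/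

section mul

variable {N : ℕ} {F : Type*} [NormedAddCommGroup F] [InnerProductSpace ℂ F]

theorem memLp_mul {w : Cfg N → ℝ} (hw : Continuous w) {C : ℝ} (hC : ∀ x, |w x| ≤ C)
    {f : Cfg N → F} (hf : MemLp f 2 volume) :
    MemLp (fun x => ((w x : ℝ) : ℂ) • f x) 2 volume := by
  refine MemLp.of_le_mul (c := C) hf ?_ ?_
  · exact ((Complex.continuous_ofReal.comp hw).aestronglyMeasurable).smul hf.1
  · refine Eventually.of_forall fun x => ?_
    rw [norm_smul, Complex.norm_real, Real.norm_eq_abs]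
    exact mul_le_mul_of_nonneg_right (hC x) (norm_nonneg _)

/-- Multiplication by a bounded continuous function. -/
def mulL {w : Cfg N → ℝ} (hw : Continuous w) {C : ℝ} (hC : ∀ x, |w x| ≤ C) :
    L2 N F →L[ℂ] L2 N F :=
  LinearMap.mkContinuous
    { toFun := fun f => (memLp_mul hw hC (Lp.memLp f)).toLp _
      map_add' := fun f h => by
        rw [← MemLp.toLp_add]
        refine (MemLp.toLp_eq_toLp_iff _ _).2 ?_
        filter_upwards [Lp.coeFn_add f h] with x hx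
        rw [hx]
        simp [smul_add]
      map_smul' := fun c f => by
        rw [RingHom.id_apply, ← MemLp.toLp_const_smul]
        refine (MemLp.toLp_eq_toLp_iff _ _).2 ?_
        filter_upwards [Lp.coeFn_smul c f] with x hx
        rw [hx]
        simp only [Pi.smul_apply]
        rw [smul_comm] } C (fun f => by
      have hC0 : 0 ≤ C := (abs_nonneg _).trans (hC 0)
      refine (sq_le_sq₀ (norm_nonneg _) (mul_nonneg hC0 (norm_nonneg _))).1 ?_
      show ‖((memLp_mul hw hC (Lp.memLp f)).toLp _ : L2 N F)‖ ^ 2 ≤ _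
      rw [norm_toLp_sq, mul_pow, norm_sq_eq_integral f, ← integral_const_mul]
      refine integral_mono ((memLp_mul hw hC (Lp.memLp f)).integrable_norm_pow (by norm_num))
        (((Lp.memLp f).integrable_norm_pow (by norm_num)).const_mul _) fun x => ?_
      simp only [norm_smul, Complex.norm_real, Real.norm_eq_abs, mul_pow]
      exact mul_le_mul_of_nonneg_right (pow_le_pow_left₀ (abs_nonneg _) (hC x) 2)
        (sq_nonneg _))

theorem mulL_toLp {w : Cfg N → ℝ} (hw : Continuous w) {C : ℝ} (hC : ∀ x, |w x| ≤ C)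
    {f : Cfg N → F} (hf : MemLp f 2 volume) :
    mulL hw hC (hf.toLp f : L2 N F) = (memLp_mul hw hC hf).toLp _ := by
  show (memLp_mul hw hC (Lp.memLp (hf.toLp f))).toLp _ = _
  refine (MemLp.toLp_eq_toLp_iff _ _).2 ?_
  filter_upwards [hf.coeFn_toLp] with x hx
  rw [hx]

end mul

/-! ### The charges on the core -/

section core

variable {N : ℕ} {F : Type*} [NormedAddCommGroup F] [InnerProductSpace ℂ F]
  [FiniteDimensional ℂ F] {b : ColorBasis N} {M : FermionRep N F} {R : GaugeAction b M}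

variable (R) in
/-- One charge as a linear map of the core. -/
def qm (G : GammaNine) (g m : ℝ) (α : Fin 16) : core b R →ₗ[ℂ] core b R where
  toFun φ := ⟨dcharge b M G g m α φ.1, core_dcharge φ.2⟩
  map_add' φ ψ := Subtype.ext (dcharge_add b M G g m α (cv_diff φ.2) (cv_diff ψ.2))
  map_smul' c φ := Subtype.ext (dcharge_smul b M G g m α c (cv_diff φ.2))

theorem qm_coe (G : GammaNine) (g m : ℝ) (α : Fin 16) (φ : core b R) :
    (qm R G g m α φ).1 = dcharge b M G g m α φ.1 := rfl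

theorem ιC_qm (G : GammaNine) (g m : ℝ) (α : Fin 16) (φ : core b R) :
    ιC R (qm R G g m α φ) = qL R G g m α φ := rfl

theorem qm_symm (G : GammaNine) (g m : ℝ) (α : Fin 16) (u v : core b R) :
    ⟪ιC R (qm R G g m α u), ιC R v⟫_ℂ = ⟪ιC R u, ιC R (qm R G g m α v)⟫_ℂ := by
  rw [inner_ιC, inner_ιC]
  exact dcharge_symm (u.2.1.of_le (by norm_cast)) (v.2.1.of_le (by norm_cast)) (Or.inl u.2.2.1)

theorem qm_sq [Nontrivial F] (G : GammaNine) (g : ℝ) (α β : Fin 16) (v : core b R) :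
    qm R G g 0 β (qm R G g 0 β v) = qm R G g 0 α (qm R G g 0 α v) := by
  have key : ∀ γ : Fin 16, ∀ x, dcharge b M G g 0 γ (dcharge b M G g 0 γ v.1) x =
      Master288.Ham b M G g 0 v.1 x := by
    intro γ x
    have h1 := Master288.master R G g 0 (v.2.1.of_le (by norm_cast)) v.2.2.2 γ γ x
    rw [if_pos rfl] at h1
    simp only [zero_mul, Complex.ofReal_zero, mul_zero, zero_smul, Finset.sum_const_zero,
      add_zero] at h1
    rw [← two_smul ℂ] at h1
    exact smul_right_injective F (two_ne_zero : (2 : ℂ) ≠ 0) h1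
  refine Subtype.ext (funext fun x => ?_)
  rw [qm_coe, qm_coe, qm_coe, qm_coe, key, key]

theorem norm_mulL_sq {w : Cfg N → ℝ} (hw : Continuous w) {C : ℝ} (hC : ∀ x, |w x| ≤ C)
    (v : core b R) : ‖mulL hw hC (ιC R v)‖ ^ 2 = ∫ x, w x ^ 2 * ‖v.1 x‖ ^ 2 := by
  rw [ιC_apply, mulL_toLp hw hC (cv_memLp v.2), norm_toLp_sq]
  refine integral_congr_ae (Eventually.of_forall fun x => ?_)
  simp only [norm_smul, Complex.norm_real, Real.norm_eq_abs, mul_pow, sq_abs]

theorem norm_sub_mulL_sq {w : Cfg N → ℝ} (hw : Continuous w) {C : ℝ} (hC : ∀ x, |w x| ≤ C)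
    (u v : core b R) : ‖ιC R u - mulL hw hC (ιC R v)‖ ^ 2 =
      ∫ x, ‖u.1 x - ((w x : ℝ) : ℂ) • v.1 x‖ ^ 2 := by
  rw [ιC_apply v, mulL_toLp hw hC (cv_memLp v.2), norm_ιC_sub_sq]

theorem En_eq (G : GammaNine) (g : ℝ) (v : core b R) :
    AnnAbs245.En (ιC R) (qm R G g 0) v = (∫ x, ‖v.1 x‖ ^ 2) + 16 * qf b M G g 0 v.1 := by
  unfold AnnAbs245.En
  rw [norm_ιC_sq]
  congr 1
  simp only [ιC_qm, norm_qL_sq, qf]
  ring

theorem qf_nonneg' (G : GammaNine) (g m : ℝ) (φ : Cfg N → F) : 0 ≤ qf b M G g m φ := by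
  unfold qf
  refine mul_nonneg (by norm_num) (Finset.sum_nonneg fun α _ => integral_nonneg fun x => ?_)
  positivity

theorem En_le (G : GammaNine) (g : ℝ) (v : core b R) :
    TrialSys796.En b M G g 0 v.1 ≤ AnnAbs245.En (ιC R) (qm R G g 0) v := by
  rw [En_eq]
  unfold TrialSys796.En
  have := qf_nonneg' (b := b) (M := M) G g 0 v.1
  linarith

end core

/-! ### The theorem for one set of data -/

section main

variable {N : ℕ} {F : Type*} [NormedAddCommGroup F] [InnerProductSpace ℂ F]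
  [FiniteDimensional ℂ F] [Nontrivial F] {b : ColorBasis N} {M : FermionRep N F}
  {R : GaugeAction b M} {G : GammaNine}
  {L : Type*} [NormedAddCommGroup L] [InnerProductSpace ℂ L] [CompleteSpace L] {X : Type*}
  [AddCommGroup X] [Module ℂ X] {e : X →ₗ[ℂ] L} {D : ℝ → Fin 16 → X →ₗ[ℂ] X}
  {W : (ℝ → ℝ) → X →ₗ[ℂ] X} {T : ℝ → X → Cfg N → F} {K0 : Submodule ℂ L} {d : ℕ}

open Classical in
/-- The trial map with values in the core. -/
def Tc (R : GaugeAction b M) (T : ℝ → X → Cfg N → F) (g : ℝ) (χ : X) : core b R :=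
  if h : IsCoreVec b R (T g χ) then ⟨T g χ, h⟩ else 0

theorem Tc_coe {g : ℝ} {χ : X} (h : IsCoreVec b R (T g χ)) : (Tc R T g χ).1 = T g χ := by
  unfold Tc
  rw [dif_pos h]

theorem sys_of (hC : IsChan b M R G e D W T) :
    Sys (ιC R) (fun g => qm R G g 0) e (D 0) (Tc R T) where
  sym g a u v := qm_symm G g 0 a u v
  iso χ χ' := by
    refine (hC.iso χ χ').congr' ?_
    filter_upwards [hC.core χ, hC.core χ'] with g h1 h2
    rw [inner_ιC, Tc_coe h1, Tc_coe h2]
  dec χ a ε hε := by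
    filter_upwards [hC.dual 0 (Or.inl rfl) χ a ε hε, hC.core χ, hC.core (D 0 a χ)] with g h1 h2 h3 v
    have h4 := h1 v.1 v.2
    have h5 : ⟪ιC R v, ιC R (qm R G g 0 a (Tc R T g χ) - Tc R T g (D 0 a χ))⟫_ℂ =
        ∫ x, ⟪v.1 x, dcharge b M G g 0 a (T g χ) x - T g (D 0 a χ) x⟫_ℂ := by
      rw [inner_ιC]
      refine integral_congr_ae (Eventually.of_forall fun x => ?_)
      show ⟪v.1 x, (qm R G g 0 a (Tc R T g χ)).1 x - (Tc R T g (D 0 a χ)).1 x⟫_ℂ = _
      rw [qm_coe, Tc_coe h2, Tc_coe h3]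
    rw [h5]
    exact h4.trans (mul_le_mul_of_nonneg_left (Real.sqrt_le_sqrt (En_le G g v)) hε.le)

set_option maxHeartbeats 1000000 in
/-- **`AnnHI` from the trial system at mass `0`.** -/
theorem annHI_of (hL : IsLim e D W K0 d) (hC : IsChan b M R G e D W T)
    (hcap : CapAnn b M R G 0 T) {κ : ℝ} (hκ : κ < 49 / 8) (Λ : ℝ) :
    HIAnn245.AnnHI b M R G κ Λ := by
  have := hL.sep
  set Λ' : ℝ := max Λ 1 with hΛ'
  have hΛ1 : 1 ≤ Λ' := le_max_right _ _
  obtain ⟨w, hw1, hw2, hw3, hw4, hw5⟩ := exists_weight Λ' hΛ1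
  set wx : Cfg N → ℝ := fun x => w (‖x‖ ^ 2) with hwx
  have hwc : Continuous wx := hw1.continuous.comp (continuous_norm.pow 2)
  have hwb : ∀ x, |wx x| ≤ 2 := fun x => by
    have h1 := hw4 (‖x‖ ^ 2)
    have h2 : |wx x| ^ 2 ≤ 2 ^ 2 := by
      rw [sq_abs]
      linarith
    exact (sq_le_sq₀ (abs_nonneg _) (by norm_num)).1 h2
  set B : L2 N F →L[ℂ] L2 N F := mulL hwc hwb with hB
  have hS := sys_of hC
  have hBι : ∀ v : core b R, ‖B (ιC R v)‖ ^ 2 = ∫ x, wx x ^ 2 * ‖v.1 x‖ ^ 2 :=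
    norm_mulL_sq hwc hwb
  -- recovery
  have hrec := hS.recover (0 : Fin 16) (fun g β v => qm_sq G g 0 β v)
    (fun β χ => hL.sq β 0 χ) (fun β χ χ' => hL.symm 0 β χ χ') (by
      intro g _ v ε hε
      have h1 := Esa596.dense_sub (R := R) (G := G) (g := g) (m := 0) (0 : Fin 16)
        (c := Complex.I) (by simp) (mem_clo v)
      obtain ⟨φ, h2⟩ := mem_clo_iff.1 h1
      obtain ⟨n, hn⟩ := ((tendsto_iff_norm_sub_tendsto_zero.1 h2).eventually_lt_const hε).exists
      refine ⟨φ n, ?_⟩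
      rw [Esa596.qsub_apply] at hn
      exact hn)
  -- capture
  have hcap' : ∀ (g : ℕ → ℝ) (v : ℕ → core b R) (C : ℝ), Tendsto g atTop atTop →
      (∀ j, AnnAbs245.En (ιC R) (qm R G (g j) 0) (v j) ≤ C) →
      (∀ χ, Tendsto (fun j => ⟪ιC R (Tc R T (g j) χ), ιC R (v j)⟫_ℂ) atTop (𝓝 0)) →
      Tendsto (fun j => ‖B (ιC R (v j))‖) atTop (𝓝 0) := by
    intro g v C hg hv hT
    have h1 := hcap g (fun j => (v j).1) C hg (fun j => (v j).2)
      (fun j => (En_le G (g j) (v j)).trans (hv j)) (fun χ => by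
        refine (hT χ).congr' ?_
        filter_upwards [hg.eventually (hC.core χ)] with j hj
        rw [inner_ιC, Tc_coe hj]) (1 / 2) (Λ' + 1) (by norm_num)
    have h2 : Tendsto (fun j => 4 * ∫ x in {x : Cfg N | 1 / 2 ≤ ‖x‖ ∧ ‖x‖ ≤ Λ' + 1},
        ‖(v j).1 x‖ ^ 2) atTop (𝓝 0) := by
      have := h1.const_mul 4
      rwa [mul_zero] at this
    have h3 : Tendsto (fun j => ‖B (ιC R (v j))‖ ^ 2) atTop (𝓝 0) := by
      refine squeeze_zero (fun _ => sq_nonneg _) (fun j => ?_) h2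
      rw [hBι]
      have hSm : MeasurableSet {x : Cfg N | 1 / 2 ≤ ‖x‖ ∧ ‖x‖ ≤ Λ' + 1} :=
        ((isClosed_le continuous_const continuous_norm).inter
          (isClosed_le continuous_norm continuous_const)).measurableSet
      have hint : Integrable (fun x => ‖(v j).1 x‖ ^ 2) :=
        (cv_memLp (v j).2).integrable_norm_pow (by norm_num)
      rw [← integral_const_mul, ← integral_indicator hSm]
      refine integral_mono_of_nonneg (Eventually.of_forall fun x => by positivity) ?_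
        (Eventually.of_forall fun x => ?_)
      · exact Integrable.indicator (hint.const_mul 4) hSm
      · show wx x ^ 2 * ‖(v j).1 x‖ ^ 2 ≤ _
        by_cases hx : wx x = 0
        · rw [hx, zero_pow two_ne_zero, zero_mul]
          exact Set.indicator_nonneg (fun _ _ => by positivity) _
        · have h4 := hw5 _ hx
          have h5 : x ∈ {x : Cfg N | 1 / 2 ≤ ‖x‖ ∧ ‖x‖ ≤ Λ' + 1} := by
            constructor
            · nlinarith [norm_nonneg x, h4.1]
            · nlinarith [norm_nonneg x, h4.2]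
          rw [Set.indicator_of_mem h5]
          exact mul_le_mul_of_nonneg_right (hw4 _) (sq_nonneg _)
    have h4 := h3.sqrt
    rw [Real.sqrt_zero] at h4
    exact h4.congr fun j => Real.sqrt_sq (norm_nonneg _)
  -- the weight of the trial states
  have hW : ∀ χ, Tendsto (fun g => ‖ιC R (Tc R T g (W w χ)) - B (ιC R (Tc R T g χ))‖) atTop
      (𝓝 0) := by
    intro χ
    have h1 : Tendsto (fun g => ‖ιC R (Tc R T g (W w χ)) - B (ιC R (Tc R T g χ))‖ ^ 2) atTop
        (𝓝 0) := by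
      refine (hC.rad w hw1 χ).congr' ?_
      filter_upwards [hC.core χ, hC.core (W w χ)] with g h2 h3
      rw [norm_sub_mulL_sq hwc hwb, Tc_coe h2, Tc_coe h3]
    have h4 := h1.sqrt
    rw [Real.sqrt_zero] at h4
    exact h4.congr fun j => Real.sqrt_sq (norm_nonneg _)
  have hws : ∀ (f : L) (k : Fin 16 → L), (∀ χ a, ⟪f, e (D 0 a χ)⟫_ℂ = ⟪k a, e χ⟫_ℂ) →
      ∀ ε : ℝ, 0 < ε → ∃ χ, ‖e χ - f‖ ≤ ε ∧ ∀ a, ‖e (D 0 a χ) - k a‖ ≤ ε := by
    intro f k h
    refine hL.ws f k fun χ a => ?_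
    rw [← inner_conj_symm, h, inner_conj_symm]
  obtain ⟨g₀, hg₀⟩ := hS.ann hrec hws B (fun χ => W w χ) hW hcap' (κ := 49 / 8)
    (c₀ := 1 / 16) (by norm_num) (fun χ => hL.hardy w hw1 hw2 χ) hκ Λ'
  refine ⟨g₀, fun g hg φ hφ hsupp => ?_⟩
  have hsupp' : ∀ x, φ x ≠ 0 → 1 ≤ ‖x‖ ^ 2 ∧ ‖x‖ ^ 2 ≤ Λ' ^ 2 := by
    intro x hx
    obtain ⟨h1, h2⟩ := hsupp x hx
    have h3 : ‖x‖ ≤ Λ' := h2.trans (le_max_left _ _)
    exact ⟨by nlinarith, pow_le_pow_left₀ (norm_nonneg _) h3 2⟩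
  have hBφ : ‖B (ιC R ⟨φ, hφ⟩)‖ ^ 2 = ∫ x, ‖φ x‖ ^ 2 / ‖x‖ ^ 2 := by
    rw [hBι]
    refine integral_congr_ae (Eventually.of_forall fun x => ?_)
    show wx x ^ 2 * ‖φ x‖ ^ 2 = ‖φ x‖ ^ 2 / ‖x‖ ^ 2
    by_cases hx : φ x = 0
    · rw [hx, norm_zero, zero_pow two_ne_zero, mul_zero, zero_div]
    · obtain ⟨h1, h2⟩ := hsupp' x hx
      have h3 := hw3 _ h1 h2
      have h0 : (0 : ℝ) < ‖x‖ ^ 2 := by linarith
      have h4 : wx x ^ 2 = 1 / ‖x‖ ^ 2 := by
        rw [eq_div_iff h0.ne']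
        exact h3
      rw [h4]
      ring
  have hφB : ‖ιC R ⟨φ, hφ⟩‖ ≤ Λ' * ‖B (ιC R ⟨φ, hφ⟩)‖ := by
    refine (sq_le_sq₀ (norm_nonneg _) (by positivity)).1 ?_
    rw [mul_pow, hBφ, norm_ιC_sq, ← integral_const_mul]
    have hint : Integrable (fun x => ‖φ x‖ ^ 2) := (cv_memLp hφ).integrable_norm_pow (by norm_num)
    have e1 : ∀ x, Λ' ^ 2 * (‖φ x‖ ^ 2 / ‖x‖ ^ 2) = Λ' ^ 2 * (wx x ^ 2 * ‖φ x‖ ^ 2) := by
      intro x
      by_cases hx : φ x = 0
      · rw [hx, norm_zero, zero_pow two_ne_zero, mul_zero, zero_div]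
      · obtain ⟨h1, h2⟩ := hsupp' x hx
        have h3 := hw3 _ h1 h2
        have h0 : (0 : ℝ) < ‖x‖ ^ 2 := by linarith
        have h4 : wx x ^ 2 = 1 / ‖x‖ ^ 2 := by
          rw [eq_div_iff h0.ne']
          exact h3
        rw [h4]
        ring
    have hint2 : Integrable (fun x => Λ' ^ 2 * (‖φ x‖ ^ 2 / ‖x‖ ^ 2)) := by
      refine (Integrable.congr ?_ (Eventually.of_forall fun x => (e1 x).symm))
      refine Integrable.const_mul ?_ _
      refine Integrable.mono' (hint.const_mul 4) ?_ (Eventually.of_forall fun x => ?_)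
      · exact ((hwc.pow 2).aestronglyMeasurable).mul hint.1
      · rw [Real.norm_eq_abs, abs_of_nonneg (by positivity)]
        exact mul_le_mul_of_nonneg_right (hw4 _) (sq_nonneg _)
    refine integral_mono hint hint2 fun x => ?_
    show ‖φ x‖ ^ 2 ≤ Λ' ^ 2 * (‖φ x‖ ^ 2 / ‖x‖ ^ 2)
    by_cases hx : φ x = 0
    · rw [hx, norm_zero, zero_pow two_ne_zero, zero_div, mul_zero]
    · obtain ⟨h1, h2⟩ := hsupp' x hx
      have h0 : (0 : ℝ) < ‖x‖ ^ 2 := by linarith
      rw [mul_div_assoc', le_div_iff₀ h0]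
      nlinarith [sq_nonneg ‖φ x‖]
  have h1 := hg₀ g hg ⟨φ, hφ⟩ hφB
  rw [hBφ] at h1
  refine h1.trans (le_of_eq ?_)
  simp only [ιC_qm, norm_qL_sq, qf]

end main

/-- **Field `ann`: the annulus Hardy inequality for all data.** -/
theorem annHIAll_of_sys {N : ℕ} (h : SysAll N) : Close478.AnnHIAll N := by
  intro F _ _ _ _ b M R G κ hκ Λ
  obtain ⟨L, _, _, _, X, _, _, e, D, W, T, K0, hL, hC, hcap, -⟩ := h F b M R G
  exact annHI_of hL hC hcap hκ Λ

end Crest.Agent.R330.AnnHI245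

end
end

-- ▼ part R330/S9TopB_441
section

/-!
# Row 330, closing of sections 8 - 11, part B (helper441)

* `packAll` : the algebra and the graph core for all data.
* `top` : the fields `ann`, `dup`, `dlow` of `Close478.StepIn` from `Below N → ChanAll N`,
  capture on balls and tightness.
-/

set_option autoImplicit false

open MeasureTheory Filter Topology Crest.MathPhysics.MatrixQM
open scoped ContDiff InnerProductSpace ENNReal

noncomputable section

namespace Crest.Agent.R330.S9TopB441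

open Crest.Agent.R330.Defs478 Crest.Agent.R330.Top478 Crest.Agent.R330.Sec478
  Crest.Agent.R330.SInd478 Crest.Agent.R330.Close478 Crest.Agent.R330.TrialSys796
  Crest.Agent.R330.Chan441 Crest.Agent.R330.S9Top441

/-- The algebra and the graph core for all data. -/
theorem packAll (N : ℕ) : StrongLow796.PackAll N := by
  intro F _ _ _ _ b M R G g _
  exact ⟨JQ916.Qc R G g 1, JQ916.Hc R G g 1, _, fun α φ => rfl, SusyL916.susy R G g 1,
    GapAllN967.dens R G g 1⟩

/-- **The closing** with everything landed filled in. -/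
theorem top {N : ℕ} (hch : Below N → ChanAll N) (hB : HIAll N → BallAll N)
    (hT : TightAll N) : Top N :=
  top_of' hch AnnHI245.annHIAll_of_sys hB hT fun h =>
    StrongLow796.dLow_of h (GapAllN967.gapAll N) (packAll N)

end Crest.Agent.R330.S9TopB441

end
end

-- ▼ part R330/CapZB_818
section

/-!
# Row 330, S9-CAPZ (helper818): capture on balls for all data

`ballAll_of : HIAll N → S9Top441.BallAll N` and `top`: the fields `ann`, `dup`, `dlow` from
`Below N → ChanAll N` and tightness.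
-/

set_option autoImplicit false

open MeasureTheory Filter Topology Crest.MathPhysics.MatrixQM
open scoped ContDiff InnerProductSpace ENNReal

noncomputable section

namespace Crest.Agent.R330.CapZB818

open Crest.Agent.R330.Close478 Crest.Agent.R330.TrialSys796 Crest.Agent.R330.Chan441
  Crest.Agent.R330.S9Top441

/-- **Capture on balls** for all data. -/
theorem ballAll_of {N : ℕ} (h : HIAll N) : BallAll N := by
  intro F _ _ _ _ b M R G X T hA
  exact CapZ818.capBall_of hA (h F b M R G 1 (by norm_num)) (by norm_num)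

/-- The closing with capture on balls filled in. -/
theorem top {N : ℕ} (hch : Below N → ChanAll N) (hT : TightAll N) : Top N :=
  S9TopB441.top hch ballAll_of hT

end Crest.Agent.R330.CapZB818

end
end

-- ▼ part R330/HardyH_968
section

/-!
# Row 330, S9 (helper968): compactness and the tail estimate

* `qe_smul_le` : `q(c φ) ≤ 2 q(φ) + ∫ |∇c|² |φ|²`, `|c| ≤ 1`.
* `GradB Q S` : `‖∇φ‖² ≤ C (q(φ) + ∫ (1+|x|) |φ|²)` for core functions.
* `exists_limit` : local compactness of core functions bounded with the weight `1/(1+|x|²)`.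
* `tail_le` : the exterior Hardy inequality with a cut-off.
-/

set_option autoImplicit false
set_option linter.unusedSectionVars false
set_option linter.unusedVariables false

open MeasureTheory Set Filter Topology ENNReal
open scoped ContDiff InnerProductSpace

noncomputable section

namespace Crest.Agent.R330.Decay968

open Moll596 WS596

section general

variable {E : Type*} [NormedAddCommGroup E] [InnerProductSpace ℝ E] [FiniteDimensional ℝ E]
  [MeasurableSpace E] [BorelSpace E]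
variable {F : Type*} [NormedAddCommGroup F] [InnerProductSpace ℂ F] [CompleteSpace F]
variable {κ : Type*} [Fintype κ]
variable {Q : κ → FOp E F} {S : Set ((E ≃ₗᵢ[ℝ] E) × (F →L[ℝ] F))} {u : E → F}
  {k R₀ : ℝ}

/-! ### Algebra of the core -/

theorem Core.sub {f g : E → F} (hf : Core S f) (hg : Core S g) : Core S (fun x => f x - g x) where
  smooth := hf.smooth.sub hg.smooth
  supp := hf.supp.sub hg.supp
  eqv p hp x := by rw [hf.eqv p hp, hg.eqv p hp, map_sub]

theorem Core.rsmul {f : E → F} (r : ℝ) (hf : Core S f) : Core S (fun x => r • f x) where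
  smooth := contDiff_const.smul hf.smooth
  supp := hf.supp.comp_left (g := fun v => r • v) (smul_zero r)
  eqv p hp x := by rw [hf.eqv p hp, map_smul]

theorem Core.smul_rad {f : E → F} {w : E → ℝ} (hw : ContDiff ℝ ∞ w)
    (hrad : ∀ x y, ‖x‖ = ‖y‖ → w x = w y) (hf : Core S f) : Core S (fun x => w x • f x) where
  smooth := hw.smul hf.smooth
  supp := hf.supp.smul_left
  eqv p hp x := by rw [hf.eqv p hp, map_smul, hrad _ _ (p.1.norm_map x)]

theorem FOp.op_sub (P : FOp E F) {f g : E → F} (hf : ContDiff ℝ ∞ f) (hg : ContDiff ℝ ∞ g)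
    (x : E) : P.op (fun x => f x - g x) x = P.op f x - P.op g x := by
  have h1 : DifferentiableAt ℝ f x := hf.differentiable (by simp) x
  have h2 : DifferentiableAt ℝ g x := hg.differentiable (by simp) x
  rw [FOp.op, FOp.op, FOp.op, fderiv_fun_sub h1 h2, map_sub, map_sub]
  abel

theorem FOp.op_rsmul (P : FOp E F) {f : E → F} (hf : ContDiff ℝ ∞ f) (r : ℝ) (x : E) :
    P.op (fun x => r • f x) x = r • P.op f x := by
  have h1 : DifferentiableAt ℝ f x := hf.differentiable (by simp) x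
  rw [FOp.op, FOp.op, fderiv_fun_const_smul h1, map_smul, map_smul, smul_add]

theorem enorm_sq_eq' {G : Type*} [SeminormedAddCommGroup G] (v : G) :
    ‖v‖ₑ ^ 2 = ENNReal.ofReal (‖v‖ ^ 2) := by
  rw [← ofReal_norm, ENNReal.ofReal_pow (norm_nonneg _)]

theorem enorm_sub_sq_le (v w : F) : ‖v - w‖ₑ ^ 2 ≤ 2 * ‖v‖ₑ ^ 2 + 2 * ‖w‖ₑ ^ 2 := by
  have h := enorm_add_sq_le v (-w)
  rwa [← sub_eq_add_neg, enorm_neg] at h

theorem qe_sub_le {f g : E → F} (hf : ContDiff ℝ ∞ f) (hg : ContDiff ℝ ∞ g) :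
    qe Q (fun x => f x - g x) ≤ 2 * qe Q f + 2 * qe Q g := by
  unfold qe
  have h1 : ∀ a, ∫⁻ x, ‖(Q a).op (fun x => f x - g x) x‖ₑ ^ 2 ≤
      2 * (∫⁻ x, ‖(Q a).op f x‖ₑ ^ 2) + 2 * ∫⁻ x, ‖(Q a).op g x‖ₑ ^ 2 := fun a => by
    simp only [FOp.op_sub (Q a) hf hg]
    rw [← lintegral_const_mul' _ _ (by norm_num), ← lintegral_const_mul' _ _ (by norm_num),
      ← lintegral_add_left' ((aem_sq ((Q a).op_continuous hf).aestronglyMeasurable).const_mul 2)]
    exact lintegral_mono fun x => enorm_sub_sq_le _ _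
  calc (1 / 16 : ℝ≥0∞) * ∑ a, ∫⁻ x, ‖(Q a).op (fun x => f x - g x) x‖ₑ ^ 2
      ≤ (1 / 16) * ∑ a, (2 * (∫⁻ x, ‖(Q a).op f x‖ₑ ^ 2) + 2 * ∫⁻ x, ‖(Q a).op g x‖ₑ ^ 2) := by
        gcongr with a
        exact h1 a
    _ = _ := by
        rw [Finset.sum_add_distrib, ← Finset.mul_sum, ← Finset.mul_sum]
        ring

theorem enorm_real_sq (r : ℝ) : ‖r‖ₑ ^ 2 = ENNReal.ofReal (r ^ 2) := by
  rw [← ofReal_norm, ← ENNReal.ofReal_pow (norm_nonneg _), Real.norm_eq_abs, sq_abs]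

theorem qe_rsmul {f : E → F} (hf : ContDiff ℝ ∞ f) (r : ℝ) :
    qe Q (fun x => r • f x) = ENNReal.ofReal (r ^ 2) * qe Q f := by
  unfold qe
  simp only [FOp.op_rsmul _ hf, enorm_smul, mul_pow, enorm_real_sq]
  simp only [lintegral_const_mul' _ _ ENNReal.ofReal_ne_top]
  rw [← Finset.mul_sum]
  ring

/-- The form of a product. -/
theorem qe_smul_le (hQ : Frame Q) {c : E → ℝ} {φ : E → F} (hc : ContDiff ℝ ∞ c)
    (hc1 : ∀ x, |c x| ≤ 1) (hφ : ContDiff ℝ ∞ φ) :
    qe Q (fun x => c x • φ x) ≤ 2 * qe Q φ + ∫⁻ x, ‖fderiv ℝ c x‖ₑ ^ 2 * ‖φ x‖ₑ ^ 2 := by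
  have hdc : Continuous (fderiv ℝ c) := hc.continuous_fderiv (by simp)
  have hAc : ∀ a, Continuous fun x => (Q a).A ((fderiv ℝ c x).smulRight (φ x)) := fun a =>
    (Q a).A.continuous.comp ((ContinuousLinearMap.smulRightL ℝ E F).continuous₂.comp
      (hdc.prodMk hφ.continuous))
  have h1 : ∀ a, ∫⁻ x, ‖(Q a).op (fun x => c x • φ x) x‖ₑ ^ 2 ≤
      2 * (∫⁻ x, ‖(Q a).op φ x‖ₑ ^ 2) +
        2 * ∫⁻ x, ‖(Q a).A ((fderiv ℝ c x).smulRight (φ x))‖ₑ ^ 2 := fun a => by
    rw [← lintegral_const_mul' _ _ (by norm_num), ← lintegral_const_mul' _ _ (by norm_num),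
      ← lintegral_add_left' ((aem_sq ((Q a).op_continuous hφ).aestronglyMeasurable).const_mul 2)]
    refine lintegral_mono fun x => ?_
    rw [FOp.op_smul _ hc hφ]
    refine (enorm_add_sq_le _ _).trans ?_
    gcongr
    rw [enorm_smul]
    calc ‖c x‖ₑ * ‖(Q a).op φ x‖ₑ ≤ 1 * ‖(Q a).op φ x‖ₑ := by
          gcongr
          rw [← ofReal_norm, Real.norm_eq_abs]
          exact ENNReal.ofReal_le_one.2 (hc1 x)
      _ = _ := one_mul _
  have h2 : ∑ a, ∫⁻ x, ‖(Q a).A ((fderiv ℝ c x).smulRight (φ x))‖ₑ ^ 2 =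
      8 * ∫⁻ x, ‖fderiv ℝ c x‖ₑ ^ 2 * ‖φ x‖ₑ ^ 2 := by
    rw [← lintegral_finsetSum' _ fun a _ => aem_sq (hAc a).aestronglyMeasurable]
    simp only [hQ.sym_enorm]
    rw [lintegral_const_mul' _ _ (by norm_num)]
  unfold qe
  calc (1 / 16 : ℝ≥0∞) * ∑ a, ∫⁻ x, ‖(Q a).op (fun x => c x • φ x) x‖ₑ ^ 2
      ≤ (1 / 16) * ∑ a, (2 * (∫⁻ x, ‖(Q a).op φ x‖ₑ ^ 2) +
        2 * ∫⁻ x, ‖(Q a).A ((fderiv ℝ c x).smulRight (φ x))‖ₑ ^ 2) := by
        gcongr with a
        exact h1 a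
    _ = 2 * ((1 / 16) * ∑ a, ∫⁻ x, ‖(Q a).op φ x‖ₑ ^ 2) +
        (1 / 16 * 16) * ∫⁻ x, ‖fderiv ℝ c x‖ₑ ^ 2 * ‖φ x‖ₑ ^ 2 := by
        rw [Finset.sum_add_distrib, ← Finset.mul_sum, ← Finset.mul_sum, h2]
        ring
    _ = _ := by
        rw [one_div, ENNReal.inv_mul_cancel (by norm_num) (by norm_num), one_mul]

/-! ### The tail -/

variable (E) in
/-- The gradient of the exterior cut-off. -/
theorem exists_ext_bound {R₀ : ℝ} (hR₀ : 0 < R₀) : ∃ K : ℝ, 0 ≤ K ∧ ∀ x : E,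
    ‖fderiv ℝ (ext R₀ : E → ℝ) x‖ₑ ^ 2 ≤
      indicator {x : E | ‖x‖ ≤ 2 * R₀} (fun _ => ENNReal.ofReal K) x := by
  obtain ⟨C, hC⟩ := ((cut_supp (E := E) hR₀).fderiv ℝ).exists_bound_of_continuous
    ((cut_smooth R₀).continuous_fderiv (by simp))
  refine ⟨C ^ 2, by positivity, fun x => ?_⟩
  by_cases hx : ‖x‖ ≤ 2 * R₀
  · rw [indicator_of_mem (show x ∈ {x | ‖x‖ ≤ 2 * R₀} from hx)]
    refine enorm_sq_le ?_
    rw [fderiv_ext, norm_neg]
    exact hC x
  · rw [fderiv_ext_of_one (ext_one hR₀ (not_le.1 hx).le)]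
    have h0 : ‖(0 : E →L[ℝ] ℝ)‖ₑ ^ 2 = 0 := by
      rw [enorm_sq_eq', norm_zero, zero_pow two_ne_zero, ENNReal.ofReal_zero]
    exact h0.le.trans zero_le

/-- **The exterior Hardy inequality with a cut-off.** -/
theorem exists_tail_le (hQ : Frame Q) (hR₀ : 0 < R₀) (hH : HI Q S k R₀) :
    ∃ K : ℝ, 0 ≤ K ∧ ∀ f : E → F, Core S f →
      ENNReal.ofReal k * ∫⁻ x in {x | ‖x‖ ≤ 2 * R₀}ᶜ, jw x * ‖f x‖ₑ ^ 2 ≤
        2 * qe Q f + ENNReal.ofReal K * ∫⁻ x in {x | ‖x‖ ≤ 2 * R₀}, ‖f x‖ₑ ^ 2 := by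
  obtain ⟨K, hK, hb⟩ := exists_ext_bound E hR₀
  refine ⟨K, hK, fun f hf => ?_⟩
  have hc := hf.smul_rad (ext_smooth R₀) fun x y hxy => ext_radial R₀ hxy
  have h1 := hH _ hc fun x hx => by simp only [ext_zero hR₀ hx.le, zero_smul]
  have h2 : ∫⁻ x in {x | ‖x‖ ≤ 2 * R₀}ᶜ, jw x * ‖f x‖ₑ ^ 2 ≤
      ∫⁻ x, ‖ext R₀ x • f x‖ₑ ^ 2 / ‖x‖ₑ ^ 2 := by
    refine le_trans ?_ (setLIntegral_le_lintegral {x : E | ‖x‖ ≤ 2 * R₀}ᶜ _)
    refine setLIntegral_mono_ae' (measurableSet_cball _).compl (Eventually.of_forall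
      fun x hx => ?_)
    have hx' : 2 * R₀ < ‖x‖ := not_le.1 hx
    have hx0 : 0 < ‖x‖ := by linarith
    rw [ext_one hR₀ hx'.le, one_smul, mul_comm, div_eq_mul_inv]
    gcongr
    rw [jw, enorm_sq_eq', ← ENNReal.ofReal_inv_of_pos (by positivity)]
    refine ENNReal.ofReal_le_ofReal ?_
    rw [one_div]
    exact inv_anti₀ (by positivity) (by linarith)
  refine (mul_le_mul_right h2 _).trans (h1.trans ((qe_smul_le hQ (ext_smooth R₀) (fun x => ?_)
    hf.smooth).trans ?_))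
  · rw [abs_of_nonneg (ext_nonneg _ _)]
    exact ext_le_one _ _
  · gcongr
    rw [← lintegral_const_mul' _ _ ENNReal.ofReal_ne_top,
      ← lintegral_indicator (measurableSet_cball _)]
    refine lintegral_mono fun x => ?_
    refine (mul_le_mul_left (hb x) _).trans ?_
    by_cases hx : x ∈ {x : E | ‖x‖ ≤ 2 * R₀}
    · rw [indicator_of_mem hx, indicator_of_mem hx]
    · rw [indicator_of_notMem hx, indicator_of_notMem hx, zero_mul]

end general

/-! ### Local compactness -/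

section compact

variable {ι : Type*} [Fintype ι] [DecidableEq ι]

local notation "V" => EuclideanSpace ℝ ι

variable {F : Type*} [NormedAddCommGroup F] [InnerProductSpace ℂ F] [FiniteDimensional ℂ F]
  [CompleteSpace F]
variable {κ : Type*} [Fintype κ]
variable {Q : κ → FOp (EuclideanSpace ℝ ι) F}
  {S : Set ((EuclideanSpace ℝ ι ≃ₗᵢ[ℝ] EuclideanSpace ℝ ι) × (F →L[ℝ] F))}
  {u : EuclideanSpace ℝ ι → F} {k R₀ : ℝ}

/-- Control of the gradient. -/
def GradB (Q : κ → FOp V F) (S : Set ((V ≃ₗᵢ[ℝ] V) × (F →L[ℝ] F))) : Prop :=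
  ∃ C : ℝ, 0 ≤ C ∧ ∀ φ : V → F, Core S φ →
    ∫⁻ x, ∑ i, ‖fderiv ℝ φ x (EuclideanSpace.single i 1)‖ₑ ^ 2 ≤
      ENNReal.ofReal C * (qe Q φ + ∫⁻ x, ENNReal.ofReal (1 + ‖x‖) * ‖φ x‖ₑ ^ 2)

/-- The weight `1/(1+|x|²)` as a real function. -/
def rw1 (x : V) : ℝ := (1 + ‖x‖ ^ 2)⁻¹

theorem rw1_pos (x : V) : 0 < rw1 x := by unfold rw1; positivity

theorem rw1_le_one (x : V) : rw1 x ≤ 1 := by
  unfold rw1
  refine inv_le_one_of_one_le₀ ?_
  have : (0 : ℝ) ≤ ‖x‖ ^ 2 := by positivity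
  linarith

theorem rw1_smooth : ContDiff ℝ ∞ (rw1 : V → ℝ) := by
  unfold rw1
  refine (contDiff_const.add (contDiff_norm_sq ℝ)).inv fun x => ?_
  positivity

theorem rw1_deriv (x : V) : ‖fderiv ℝ (rw1 : V → ℝ) x‖ ≤ rw1 x := by
  have h1 : HasFDerivAt (fun x : V => 1 + ‖x‖ ^ 2) (2 • innerSL ℝ x) x :=
    ((hasStrictFDerivAt_norm_sq x).hasFDerivAt).const_add 1
  have h2 : HasFDerivAt (rw1 : V → ℝ) (-((1 + ‖x‖ ^ 2) ^ 2)⁻¹ • (2 • innerSL ℝ x)) x :=
    (hasDerivAt_inv (by positivity : (1 + ‖x‖ ^ 2 : ℝ) ≠ 0)).comp_hasFDerivAt x h1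
  rw [h2.fderiv, norm_smul, two_smul, norm_neg, norm_inv, Real.norm_of_nonneg (by positivity)]
  have h6 : ‖innerSL ℝ x + innerSL ℝ x‖ ≤ 1 + ‖x‖ ^ 2 := by
    refine (norm_add_le _ _).trans ?_
    rw [innerSL_apply_norm]
    nlinarith [sq_nonneg (‖x‖ - 1)]
  calc ((1 + ‖x‖ ^ 2) ^ 2)⁻¹ * ‖innerSL ℝ x + innerSL ℝ x‖
      ≤ ((1 + ‖x‖ ^ 2) ^ 2)⁻¹ * (1 + ‖x‖ ^ 2) := by gcongr
    _ = rw1 x := by
      unfold rw1
      field_simp

theorem ofReal_rw1 (x : V) : ENNReal.ofReal (rw1 x) = jw x := by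
  rw [rw1, jw, one_div]

theorem toReal_lintegral_sq {μ : Measure V} {f : V → F} (hf : AEStronglyMeasurable f μ) :
    ∫ x, ‖f x‖ ^ 2 ∂μ = (∫⁻ x, ‖f x‖ₑ ^ 2 ∂μ).toReal := by
  rw [integral_eq_lintegral_of_nonneg_ae (Eventually.of_forall fun x => sq_nonneg _)
    (hf.norm.pow 2)]
  simp only [enorm_sq_eq]

/-- **Local compactness.** -/
theorem exists_limit (hQ : Frame Q) (hG : GradB Q S) {f : ℕ → V → F} (hf : ∀ n, Core S (f n))
    {C₀ : ℝ} (hC₀ : 0 ≤ C₀) (hq : ∀ n, qe Q (f n) ≤ ENNReal.ofReal C₀)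
    (hj : ∀ n, ∫⁻ x, jw x * ‖f n x‖ₑ ^ 2 ≤ ENNReal.ofReal C₀) :
    ∃ (u : V → F) (j : ℕ → ℕ), AEStronglyMeasurable u volume ∧ StrictMono j ∧
      ∫⁻ x, jw x * ‖u x‖ₑ ^ 2 ≠ ⊤ ∧ LC (fun n => f (j n)) u := by
  obtain ⟨C, hC, hG⟩ := hG
  set g : ℕ → V → F := fun n x => rw1 x • f n x with hg
  have hgc : ∀ n, Core S (g n) := fun n =>
    (hf n).smul_rad rw1_smooth fun x y hxy => by unfold rw1; rw [hxy]
  have hgn : ∀ n, ∫⁻ x, ‖g n x‖ₑ ^ 2 ≤ ENNReal.ofReal C₀ := fun n => by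
    refine le_trans (lintegral_mono fun x => ?_) (hj n)
    simp only [hg]
    rw [enorm_smul, mul_pow, enorm_real_sq, ← ofReal_rw1]
    gcongr
    have h1 := rw1_pos x
    have h2 := rw1_le_one x
    nlinarith
  have hgq : ∀ n, qe Q (g n) ≤ ENNReal.ofReal (3 * C₀) := fun n => by
    refine (qe_smul_le hQ rw1_smooth (fun x => ?_) (hf n).smooth).trans ?_
    · rw [abs_of_pos (rw1_pos x)]
      exact rw1_le_one x
    · rw [show 3 * C₀ = 2 * C₀ + C₀ by ring, ENNReal.ofReal_add (by positivity) hC₀,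
        ENNReal.ofReal_mul (by norm_num), ENNReal.ofReal_ofNat]
      refine add_le_add (mul_le_mul_right (hq n) 2) (le_trans (lintegral_mono fun x => ?_) (hj n))
      refine mul_le_mul_left ?_ _
      rw [← ofReal_rw1, enorm_sq_eq']
      refine ENNReal.ofReal_le_ofReal ?_
      have h1 := rw1_deriv x
      have h2 := rw1_le_one x
      have h3 := norm_nonneg (fderiv ℝ (rw1 : V → ℝ) x)
      nlinarith
  have hgw : ∀ n, ∫⁻ x, ENNReal.ofReal (1 + ‖x‖) * ‖g n x‖ₑ ^ 2 ≤ ENNReal.ofReal (2 * C₀) :=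
    fun n => by
      rw [ENNReal.ofReal_mul (by norm_num), ENNReal.ofReal_ofNat]
      refine le_trans ?_ (mul_le_mul_right (hj n) 2)
      rw [← lintegral_const_mul' _ _ (by norm_num)]
      refine lintegral_mono fun x => ?_
      simp only [hg]
      have h0 : (2 : ℝ≥0∞) * ENNReal.ofReal (rw1 x) = ENNReal.ofReal (2 * rw1 x) := by
        rw [ENNReal.ofReal_mul (by norm_num), ENNReal.ofReal_ofNat]
      rw [enorm_smul, mul_pow, enorm_real_sq, ← ofReal_rw1, ← mul_assoc, ← mul_assoc,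
        ← ENNReal.ofReal_mul (by positivity), h0]
      refine mul_le_mul_left (ENNReal.ofReal_le_ofReal ?_) _
      have h1 := rw1_pos x
      have h2 : (1 + ‖x‖) * rw1 x ≤ 2 := by
        unfold rw1
        rw [mul_inv_le_iff₀ (by positivity)]
        nlinarith [sq_nonneg (‖x‖ - 1)]
      nlinarith
  set C₁ : ℝ := C * (3 * C₀ + 2 * C₀) with hC₁
  have hC₁0 : 0 ≤ C₁ := by positivity
  have hgg : ∀ n, ∫⁻ x, ∑ i, ‖fderiv ℝ (g n) x (EuclideanSpace.single i 1)‖ₑ ^ 2 ≤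
      ENNReal.ofReal C₁ := fun n => by
    refine (hG _ (hgc n)).trans ?_
    rw [hC₁, ENNReal.ofReal_mul hC, ENNReal.ofReal_add (by positivity) (by positivity)]
    exact mul_le_mul_right (add_le_add (hgq n) (hgw n)) _
  -- Rellich
  have hr0 : ∀ n, ∫ x, ‖g n x‖ ^ 2 ≤ max C₀ C₁ := fun n => by
    rw [toReal_lintegral_sq (hgc n).smooth.continuous.aestronglyMeasurable]
    refine le_trans ?_ (le_max_left _ _)
    have h1 := ENNReal.toReal_mono ENNReal.ofReal_ne_top (hgn n)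
    rwa [ENNReal.toReal_ofReal hC₀] at h1
  have hr1 : ∀ n, ∫ x, ∑ i, ‖fderiv ℝ (g n) x (EuclideanSpace.single i 1)‖ ^ 2 ≤ max C₀ C₁ :=
    fun n => by
      have hcont : Continuous fun x => ∑ i, ‖fderiv ℝ (g n) x (EuclideanSpace.single i 1)‖ ^ 2 :=
        continuous_finsetSum _ fun i _ =>
          (((hgc n).smooth.continuous_fderiv (by simp)).clm_apply continuous_const).norm.pow 2
      rw [integral_eq_lintegral_of_nonneg_ae (Eventually.of_forall fun x => by positivity)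
        hcont.aestronglyMeasurable]
      refine le_trans ?_ (le_max_right _ _)
      have h1 := ENNReal.toReal_mono ENNReal.ofReal_ne_top (hgg n)
      rw [ENNReal.toReal_ofReal hC₁0] at h1
      refine le_trans (le_of_eq ?_) h1
      congr 1
      refine lintegral_congr fun x => ?_
      rw [ENNReal.ofReal_sum_of_nonneg fun i _ => by positivity]
      simp only [enorm_sq_eq]
  obtain ⟨Ψ, j, hΨ, hj', hlim⟩ := Rel893.rellich_local (fun n => (hgc n).smooth)
    (fun n => (hgc n).supp) hr0 hr1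
  set u : V → F := fun x => (1 + ‖x‖ ^ 2) • Ψ x with hu
  have hum : AEStronglyMeasurable u volume :=
    (by fun_prop : Continuous fun x : V => (1 + ‖x‖ ^ 2 : ℝ)).aestronglyMeasurable.smul hΨ.1
  have hLC : LC (fun n => f (j n)) u := fun R => by
    have h1 : ∀ n, ∫⁻ x in {x | ‖x‖ ≤ R}, ‖g (j n) x - Ψ x‖ₑ ^ 2 =
        ENNReal.ofReal (∫ x in {x : V | ‖x‖ ≤ R}, ‖g (j n) x - Ψ x‖ ^ 2) := fun n => by
      have hm : AEStronglyMeasurable (fun x => g (j n) x - Ψ x) volume :=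
        (hgc (j n)).smooth.continuous.aestronglyMeasurable.sub hΨ.1
      rw [toReal_lintegral_sq hm.restrict, ENNReal.ofReal_toReal]
      refine ne_top_of_le_ne_top (n2_ne_top ?_) (setLIntegral_le_lintegral _ _)
      exact (Rel893.memLp_core (hgc _).smooth (hgc _).supp).sub hΨ
    have h2 : Tendsto (fun n => ∫⁻ x in {x | ‖x‖ ≤ R}, ‖g (j n) x - Ψ x‖ₑ ^ 2) atTop (𝓝 0) := by
      simp only [h1]
      have := ENNReal.tendsto_ofReal (hlim R)
      rwa [ENNReal.ofReal_zero] at this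
    have h3 := ENNReal.Tendsto.const_mul (a := ENNReal.ofReal ((1 + R ^ 2) ^ 2)) h2
      (Or.inr ENNReal.ofReal_ne_top)
    rw [mul_zero] at h3
    refine tendsto_of_tendsto_of_tendsto_of_le_of_le tendsto_const_nhds h3 (fun _ => zero_le)
      fun n => ?_
    simp only
    rw [← lintegral_const_mul' _ _ ENNReal.ofReal_ne_top]
    refine setLIntegral_mono_ae' (measurableSet_cball R) (Eventually.of_forall fun x hx => ?_)
    have hx' : ‖x‖ ≤ R := hx
    have e : f (j n) x - u x = (1 + ‖x‖ ^ 2) • (g (j n) x - Ψ x) := by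
      simp only [hu, hg, rw1]
      rw [smul_sub, smul_smul, mul_inv_cancel₀ (by positivity), one_smul]
    rw [e, enorm_smul, mul_pow, enorm_real_sq]
    gcongr
  refine ⟨u, j, hum, hj', ?_, hLC⟩
  have hball : ∀ R : ℝ, ∫⁻ x in {x | ‖x‖ ≤ R}, jw x * ‖u x‖ₑ ^ 2 ≤ 2 * ENNReal.ofReal C₀ :=
    fun R => by
      have h1 : ∀ n, ∫⁻ x in {x | ‖x‖ ≤ R}, jw x * ‖u x‖ₑ ^ 2 ≤
          2 * (∫⁻ x in {x | ‖x‖ ≤ R}, ‖f (j n) x - u x‖ₑ ^ 2) + 2 * ENNReal.ofReal C₀ :=
        fun n => by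
          have hm : AEMeasurable (fun x => ‖f (j n) x - u x‖ₑ ^ 2)
              ((volume : Measure V).restrict {x | ‖x‖ ≤ R}) :=
            (aem_sq ((hf (j n)).smooth.continuous.aestronglyMeasurable.sub hum)).restrict
          calc ∫⁻ x in {x | ‖x‖ ≤ R}, jw x * ‖u x‖ₑ ^ 2
              ≤ ∫⁻ x in {x | ‖x‖ ≤ R}, (2 * ‖f (j n) x - u x‖ₑ ^ 2 +
                2 * (jw x * ‖f (j n) x‖ₑ ^ 2)) := by
                refine lintegral_mono fun x => ?_
                have e : u x = f (j n) x - (f (j n) x - u x) := by abel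
                calc jw x * ‖u x‖ₑ ^ 2 ≤
                    jw x * (2 * ‖f (j n) x‖ₑ ^ 2 + 2 * ‖f (j n) x - u x‖ₑ ^ 2) := by
                      gcongr
                      conv_lhs => rw [e]
                      exact enorm_sub_sq_le _ _
                  _ = 2 * (jw x * ‖f (j n) x - u x‖ₑ ^ 2) + 2 * (jw x * ‖f (j n) x‖ₑ ^ 2) := by
                      ring
                  _ ≤ _ := by
                      gcongr
                      exact mul_le_of_le_one_left zero_le (jw_le_one x)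
            _ = 2 * (∫⁻ x in {x | ‖x‖ ≤ R}, ‖f (j n) x - u x‖ₑ ^ 2) +
                2 * ∫⁻ x in {x | ‖x‖ ≤ R}, jw x * ‖f (j n) x‖ₑ ^ 2 := by
                rw [lintegral_add_left' (hm.const_mul 2), lintegral_const_mul' _ _ (by norm_num),
                  lintegral_const_mul' _ _ (by norm_num)]
            _ ≤ _ := by
                gcongr
                exact (setLIntegral_le_lintegral _ _).trans (hj (j n))
      have h2 := (ENNReal.Tendsto.const_mul (a := 2) (hLC R) (Or.inr (by norm_num))).add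
        (tendsto_const_nhds (x := 2 * ENNReal.ofReal C₀))
      rw [mul_zero, zero_add] at h2
      exact ge_of_tendsto' h2 h1
  have hU : (⋃ n : ℕ, {x : V | ‖x‖ ≤ (n : ℝ)}) = univ := by
    refine eq_univ_of_forall fun x => ?_
    obtain ⟨n, hn⟩ := exists_nat_ge ‖x‖
    exact mem_iUnion.2 ⟨n, hn⟩
  have hdir : Directed (· ⊆ ·) fun n : ℕ => {x : V | ‖x‖ ≤ (n : ℝ)} := by
    refine directed_of_isDirected_le fun a b hab x hx => ?_
    have hx' : ‖x‖ ≤ (a : ℝ) := hx
    have hab' : (a : ℝ) ≤ b := by exact_mod_cast hab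
    exact hx'.trans hab'
  have h5 := setLIntegral_iUnion_of_directed (μ := (volume : Measure V))
    (fun x => jw x * ‖u x‖ₑ ^ 2) hdir
  rw [hU, Measure.restrict_univ] at h5
  rw [h5]
  refine ne_top_of_le_ne_top (ENNReal.mul_ne_top (by norm_num) ENNReal.ofReal_ne_top :
    2 * ENNReal.ofReal C₀ ≠ ⊤) (iSup_le fun n => hball n)

end compact

end Crest.Agent.R330.Decay968

end
end

-- ▼ part R330/HardyI_968
section

/-!
# Row 330, S9 (helper968): the global Hardy inequality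

* `pair_lim` : pairings with functions with finite second moment pass to local limits which are
  bounded with the weight `1/(1+|x|²)`.
* `hardy_perp` : for `2 < k` there is `c > 0` with
  `c ∫ |φ - χ|²/(1+|x|²) ≤ q(φ)` for all core `φ` and zero states `χ` with `φ - χ` orthogonal to
  all zero states.
-/

set_option autoImplicit false
set_option linter.unusedSectionVars false
set_option linter.unusedVariables false

open MeasureTheory Set Filter Topology ENNReal
open scoped ContDiff InnerProductSpace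

noncomputable section

namespace Crest.Agent.R330.Decay968

open Moll596 WS596

section general

variable {E : Type*} [NormedAddCommGroup E] [InnerProductSpace ℝ E] [FiniteDimensional ℝ E]
  [MeasurableSpace E] [BorelSpace E]
variable {F : Type*} [NormedAddCommGroup F] [InnerProductSpace ℂ F] [CompleteSpace F]
variable {κ : Type*} [Fintype κ]
variable {Q : κ → FOp E F} {S : Set ((E ≃ₗᵢ[ℝ] E) × (F →L[ℝ] F))} {u : E → F}
  {k R₀ : ℝ}

/-! ### Pairings -/

theorem lintegral_mul_le {μ : Measure E} {f g : E → ℝ≥0∞} (hf : AEMeasurable f μ)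
    (hg : AEMeasurable g μ) : ∫⁻ x, f x * g x ∂μ ≤
      (∫⁻ x, f x ^ 2 ∂μ) ^ (1 / 2 : ℝ) * (∫⁻ x, g x ^ 2 ∂μ) ^ (1 / 2 : ℝ) := by
  have h2 := ENNReal.lintegral_mul_le_Lp_mul_Lq μ (Real.HolderConjugate.two_two) hf hg
  simp only [ENNReal.rpow_two] at h2
  exact h2

theorem enorm_inner_le (v w : F) : ‖⟪v, w⟫_ℂ‖ₑ ≤ ‖v‖ₑ * ‖w‖ₑ := by
  rw [← ofReal_norm, ← ofReal_norm, ← ofReal_norm, ← ENNReal.ofReal_mul (norm_nonneg _)]
  exact ENNReal.ofReal_le_ofReal (norm_inner_le_norm _ _)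

/-- Weighted Cauchy-Schwarz. -/
theorem lintegral_wmul_le {μ : Measure E} {f g : E → F} (hf : AEStronglyMeasurable f μ)
    (hg : AEStronglyMeasurable g μ) : ∫⁻ x, ‖f x‖ₑ * ‖g x‖ₑ ∂μ ≤
      (∫⁻ x, ENNReal.ofReal (1 + ‖x‖ ^ 2) * ‖f x‖ₑ ^ 2 ∂μ) ^ (1 / 2 : ℝ) *
        (∫⁻ x, jw x * ‖g x‖ₑ ^ 2 ∂μ) ^ (1 / 2 : ℝ) := by
  have hs : ∀ x : E, (0 : ℝ) < Real.sqrt (1 + ‖x‖ ^ 2) := fun x => Real.sqrt_pos.2 (by positivity)
  have h1 : ∀ x, ‖f x‖ₑ * ‖g x‖ₑ = (ENNReal.ofReal (Real.sqrt (1 + ‖x‖ ^ 2)) * ‖f x‖ₑ) *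
      (ENNReal.ofReal (Real.sqrt (1 + ‖x‖ ^ 2))⁻¹ * ‖g x‖ₑ) := fun x => by
    have h2 : ENNReal.ofReal (Real.sqrt (1 + ‖x‖ ^ 2)) *
        ENNReal.ofReal (Real.sqrt (1 + ‖x‖ ^ 2))⁻¹ = 1 := by
      rw [← ENNReal.ofReal_mul (hs x).le, mul_inv_cancel₀ (hs x).ne', ENNReal.ofReal_one]
    calc ‖f x‖ₑ * ‖g x‖ₑ = 1 * (‖f x‖ₑ * ‖g x‖ₑ) := (one_mul _).symm
      _ = _ := by
        rw [← h2]
        ring
  have h3 : ∀ x, (ENNReal.ofReal (Real.sqrt (1 + ‖x‖ ^ 2)) * ‖f x‖ₑ) ^ 2 =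
      ENNReal.ofReal (1 + ‖x‖ ^ 2) * ‖f x‖ₑ ^ 2 := fun x => by
    rw [mul_pow, ← ENNReal.ofReal_pow (hs x).le, Real.sq_sqrt (by positivity)]
  have h4 : ∀ x, (ENNReal.ofReal (Real.sqrt (1 + ‖x‖ ^ 2))⁻¹ * ‖g x‖ₑ) ^ 2 =
      jw x * ‖g x‖ₑ ^ 2 := fun x => by
    rw [mul_pow, ← ENNReal.ofReal_pow (inv_pos.2 (hs x)).le, inv_pow,
      Real.sq_sqrt (by positivity), jw, one_div]
  have hc : Continuous fun x : E => Real.sqrt (1 + ‖x‖ ^ 2) := by fun_prop
  have hc' : Continuous fun x : E => (Real.sqrt (1 + ‖x‖ ^ 2))⁻¹ := hc.inv₀ fun x => (hs x).ne'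
  have h5 := lintegral_mul_le (μ := μ)
    (f := fun x => ENNReal.ofReal (Real.sqrt (1 + ‖x‖ ^ 2)) * ‖f x‖ₑ)
    (g := fun x => ENNReal.ofReal (Real.sqrt (1 + ‖x‖ ^ 2))⁻¹ * ‖g x‖ₑ)
    ((hc.measurable.ennreal_ofReal.aemeasurable).mul hf.enorm)
    ((hc'.measurable.ennreal_ofReal.aemeasurable).mul hg.enorm)
  simp only [h3, h4, ← h1] at h5
  exact h5

/-- The tail of an integrable function. -/
theorem tendsto_tail {f : E → ℝ≥0∞} (hf : AEMeasurable f volume) (h : ∫⁻ x, f x ≠ ⊤) :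
    Tendsto (fun n : ℕ => ∫⁻ x in {x : E | ‖x‖ ≤ (n : ℝ)}ᶜ, f x) atTop (𝓝 0) := by
  have h0 : ∫⁻ x : E, (0 : ℝ≥0∞) = 0 := by simp
  simp only [← lintegral_indicator (measurableSet_cball _).compl]
  rw [← h0]
  refine tendsto_lintegral_of_dominated_convergence' f
    (fun n => hf.indicator (measurableSet_cball _).compl)
    (fun n => Eventually.of_forall fun x => indicator_le_self _ _ _) h
    (Eventually.of_forall fun x => ?_)
  refine tendsto_const_nhds.congr' ?_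
  obtain ⟨m, hm⟩ := exists_nat_ge ‖x‖
  filter_upwards [eventually_ge_atTop m] with n hn
  rw [indicator_of_notMem]
  intro hx
  apply hx
  have : (m : ℝ) ≤ n := by exact_mod_cast hn
  exact hm.trans this

/-- **Pairings pass to the limit.** -/
theorem pair_lim {η : E → F} (hη : AEStronglyMeasurable η volume)
    (hη2 : ∫⁻ x, ENNReal.ofReal (1 + ‖x‖ ^ 2) * ‖η x‖ₑ ^ 2 ≠ ⊤) {g : ℕ → E → F}
    (hg : ∀ n, AEStronglyMeasurable (g n) volume) {B : ℝ≥0∞} (hB : B ≠ ⊤)
    (hgB : ∀ n, ∫⁻ x, jw x * ‖g n x‖ₑ ^ 2 ≤ B)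
    (hloc : ∀ R : ℝ, Tendsto (fun n => ∫⁻ x in {x | ‖x‖ ≤ R}, ‖g n x‖ₑ ^ 2) atTop (𝓝 0)) :
    Tendsto (fun n => ∫ x, ⟪η x, g n x⟫_ℂ) atTop (𝓝 0) := by
  rw [tendsto_zero_iff_enorm_tendsto_zero]
  set T : ℕ → ℝ≥0∞ := fun m => ∫⁻ x in {x : E | ‖x‖ ≤ (m : ℝ)}ᶜ,
    ENNReal.ofReal (1 + ‖x‖ ^ 2) * ‖η x‖ₑ ^ 2 with hT
  have hcont : Continuous fun x : E => (1 + ‖x‖ ^ 2 : ℝ) := by fun_prop
  have hTt : Tendsto T atTop (𝓝 0) :=
    tendsto_tail ((hcont.measurable.ennreal_ofReal.aemeasurable).mul (aem_sq hη)) hη2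
  set a : ℝ≥0∞ := ∫⁻ x, ‖η x‖ₑ ^ 2 with ha
  have ha' : a ≠ ⊤ := by
    refine ne_top_of_le_ne_top hη2 (lintegral_mono fun x => ?_)
    refine le_mul_of_one_le_left zero_le ?_
    rw [← ENNReal.ofReal_one]
    refine ENNReal.ofReal_le_ofReal ?_
    have : (0 : ℝ) ≤ ‖x‖ ^ 2 := by positivity
    linarith
  have hbound : ∀ m n : ℕ, ‖∫ x, ⟪η x, g n x⟫_ℂ‖ₑ ≤
      a ^ (1 / 2 : ℝ) * (∫⁻ x in {x | ‖x‖ ≤ (m : ℝ)}, ‖g n x‖ₑ ^ 2) ^ (1 / 2 : ℝ) +
        T m ^ (1 / 2 : ℝ) * B ^ (1 / 2 : ℝ) := fun m n => by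
    refine (enorm_integral_le_lintegral_enorm _).trans ?_
    refine (lintegral_mono fun x => enorm_inner_le (η x) (g n x)).trans ?_
    rw [← lintegral_add_compl _ (measurableSet_cball (m : ℝ))]
    refine add_le_add ?_ ?_
    · refine (lintegral_mul_le hη.enorm.restrict (hg n).enorm.restrict).trans ?_
      gcongr
      exact setLIntegral_le_lintegral _ _
    · refine (lintegral_wmul_le hη.restrict (hg n).restrict).trans ?_
      gcongr
      exact (setLIntegral_le_lintegral _ _).trans (hgB n)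
  rw [ENNReal.tendsto_nhds_zero]
  intro ε hε
  have h1 : Tendsto (fun m => T m ^ (1 / 2 : ℝ) * B ^ (1 / 2 : ℝ)) atTop (𝓝 0) := by
    have := ENNReal.Tendsto.mul_const (b := B ^ (1 / 2 : ℝ)) (tendsto_half hTt)
      (Or.inr (ENNReal.rpow_ne_top_of_nonneg (by norm_num) hB))
    rwa [zero_mul] at this
  have hε2 : 0 < ε / 2 := ENNReal.half_pos hε.ne'
  obtain ⟨m, hm⟩ := (ENNReal.tendsto_nhds_zero.1 h1 _ hε2).exists
  have h2 : Tendsto (fun n => a ^ (1 / 2 : ℝ) *
      (∫⁻ x in {x | ‖x‖ ≤ (m : ℝ)}, ‖g n x‖ₑ ^ 2) ^ (1 / 2 : ℝ)) atTop (𝓝 0) := by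
    have := ENNReal.Tendsto.const_mul (a := a ^ (1 / 2 : ℝ)) (tendsto_half (hloc m))
      (Or.inr (ENNReal.rpow_ne_top_of_nonneg (by norm_num) ha'))
    rwa [mul_zero] at this
  filter_upwards [ENNReal.tendsto_nhds_zero.1 h2 _ hε2] with n hn
  refine (hbound m n).trans ((add_le_add hn hm).trans ?_)
  rw [ENNReal.add_halves]

theorem integrable_inner_memLp {f g : E → F} (hf : MemLp f 2 volume) (hg : MemLp g 2 volume) :
    Integrable fun x => ⟪f x, g x⟫_ℂ := by
  have h1 : Integrable fun x => ‖f x‖ * ‖g x‖ := hf.norm.integrable_mul hg.norm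
  refine h1.mono' (hf.1.inner hg.1) (Eventually.of_forall fun x => norm_inner_le_norm _ _)

theorem Core.memLp {f : E → F} (hf : Core S f) : MemLp f 2 volume :=
  hf.smooth.continuous.memLp_of_hasCompactSupport hf.supp

theorem lint_le_qe (f : E → F) (a : κ) : ∫⁻ x, ‖(Q a).op f x‖ₑ ^ 2 ≤ 16 * qe Q f := by
  unfold qe
  rw [← mul_assoc, one_div, ENNReal.mul_inv_cancel (by norm_num) (by norm_num), one_mul]
  exact Finset.single_le_sum (f := fun a => ∫⁻ x, ‖(Q a).op f x‖ₑ ^ 2) (fun _ _ => zero_le)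
    (Finset.mem_univ a)

/-! ### Zero states -/

theorem Ker.exists_approx {χ : E → F} (h : Ker Q S χ) {ε : ℝ≥0∞} (hε : 0 < ε) :
    ∃ f : E → F, Core S f ∧ ∫⁻ x, ‖f x - χ x‖ₑ ^ 2 ≤ ε ∧ qe Q f ≤ ε := by
  obtain ⟨φ, h1, h2, h3⟩ := h.app
  have h4 := (ENNReal.continuous_pow 2).continuousAt.tendsto.comp h2
  simp only [ne_eq, OfNat.ofNat_ne_zero, not_false_eq_true, zero_pow, Function.comp_def,
    sq_eLpNorm] at h4
  have h5 : Tendsto (fun n => qe Q (φ n)) atTop (𝓝 0) := by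
    have h6 : Tendsto (fun n => (1 / 16 : ℝ≥0∞) * ∑ a, eLpNorm ((Q a).op (φ n)) 2 volume ^ 2)
        atTop (𝓝 ((1 / 16) * ∑ a : κ, (0 : ℝ≥0∞) ^ 2)) := by
      refine ENNReal.Tendsto.const_mul ?_ (Or.inr (by
        rw [one_div]; exact ENNReal.inv_ne_top.2 (by norm_num)))
      exact tendsto_finsetSum _ fun a _ =>
        (ENNReal.continuous_pow 2).continuousAt.tendsto.comp (h3 a)
    simp only [ne_eq, OfNat.ofNat_ne_zero, not_false_eq_true, zero_pow, Finset.sum_const_zero,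
      mul_zero, sq_eLpNorm] at h6
    exact h6
  obtain ⟨n, hn1, hn2⟩ := ((ENNReal.tendsto_nhds_zero.1 h4 ε hε).and
    (ENNReal.tendsto_nhds_zero.1 h5 ε hε)).exists
  exact ⟨φ n, h1 n, hn1, hn2⟩

theorem Ker.rsmul {χ : E → F} (h : Ker Q S χ) (r : ℝ) : Ker Q S (fun x => r • χ x) := by
  obtain ⟨φ, h1, h2, h3⟩ := h.app
  refine ⟨h.memLp.const_smul r, fun n x => r • φ n x, fun n => (h1 n).rsmul r, ?_, fun a => ?_⟩
  · have e : ∀ n, eLpNorm (fun x => r • φ n x - r • χ x) 2 volume =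
        ‖r‖ₑ * eLpNorm (fun x => φ n x - χ x) 2 volume := fun n => by
      have : (fun x => r • φ n x - r • χ x) = r • fun x => φ n x - χ x := by
        funext x
        simp [smul_sub]
      rw [this, eLpNorm_const_smul]
    simp only [e]
    have := ENNReal.Tendsto.const_mul (a := ‖r‖ₑ) h2 (Or.inr enorm_ne_top)
    rwa [mul_zero] at this
  · have e : ∀ n, eLpNorm ((Q a).op (fun x => r • φ n x)) 2 volume =
        ‖r‖ₑ * eLpNorm ((Q a).op (φ n)) 2 volume := fun n => by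
      have : (Q a).op (fun x => r • φ n x) = r • (Q a).op (φ n) := by
        funext x
        exact FOp.op_rsmul _ (h1 n).smooth r x
      rw [this, eLpNorm_const_smul]
    simp only [e]
    have := ENNReal.Tendsto.const_mul (a := ‖r‖ₑ) (h3 a) (Or.inr enorm_ne_top)
    rwa [mul_zero] at this

end general

/-! ### The contradiction -/

section compact

variable {ι : Type*} [Fintype ι] [DecidableEq ι]
variable {F : Type*} [NormedAddCommGroup F] [InnerProductSpace ℂ F] [FiniteDimensional ℂ F]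
  [CompleteSpace F]
variable {κ : Type*} [Fintype κ]
variable {Q : κ → FOp (EuclideanSpace ℝ ι) F}
  {S : Set ((EuclideanSpace ℝ ι ≃ₗᵢ[ℝ] EuclideanSpace ℝ ι) × (F →L[ℝ] F))}
  {u : EuclideanSpace ℝ ι → F} {k R₀ : ℝ}

theorem tendsto_ofReal_div (C : ℝ) :
    Tendsto (fun n : ℕ => ENNReal.ofReal (C / ((n : ℝ) + 1))) atTop (𝓝 0) := by
  have h1 : Tendsto (fun n : ℕ => C / ((n : ℝ) + 1)) atTop (𝓝 0) :=
    tendsto_const_nhds.div_atTop (tendsto_atTop_add_const_right _ _ tendsto_natCast_atTop_atTop)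
  have := ENNReal.tendsto_ofReal h1
  rwa [ENNReal.ofReal_zero] at this

/-- No sequence contradicts the Hardy inequality. -/
theorem no_seq (hQ : Frame Q) (hR₀ : 0 < R₀) (hH : HI Q S k R₀) (hk : 2 < k) (hG : GradB Q S)
    {φ χ : ℕ → EuclideanSpace ℝ ι → F} (hφ : ∀ n, Core S (φ n)) (hχ : ∀ n, Ker Q S (χ n))
    (hp : ∀ n, ∀ η : EuclideanSpace ℝ ι → F, Ker Q S η → ∫ x, ⟪η x, φ n x - χ n x⟫_ℂ = 0)
    (hq : ∀ n, qe Q (φ n) ≤ ENNReal.ofReal (1 / ((n : ℝ) + 1)))
    (h1 : ∀ n, ∫⁻ x, jw x * ‖φ n x - χ n x‖ₑ ^ 2 = 1) : False := by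
  have hpos : ∀ n : ℕ, 0 < ENNReal.ofReal (1 / ((n : ℝ) + 1)) := fun n =>
    ENNReal.ofReal_pos.2 (by positivity)
  have hle1 : ∀ n : ℕ, ENNReal.ofReal (1 / ((n : ℝ) + 1)) ≤ 1 := fun n => by
    refine ENNReal.ofReal_le_one.2 ?_
    rw [div_le_one (by positivity)]
    have : (0 : ℝ) ≤ n := Nat.cast_nonneg n
    linarith
  choose χ' hχc hχ1 hχ2 using fun n => (hχ n).exists_approx (hpos n)
  set f : ℕ → EuclideanSpace ℝ ι → F := fun n x => φ n x - χ' n x with hf
  have hfc : ∀ n, Core S (f n) := fun n => (hφ n).sub (hχc n)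
  have hm1 : ∀ n, AEStronglyMeasurable (fun x => φ n x - χ n x) volume := fun n =>
    (hφ n).memLp.1.sub (hχ n).memLp.1
  have hm2 : ∀ n, AEStronglyMeasurable (fun x => χ' n x - χ n x) volume := fun n =>
    (hχc n).memLp.1.sub (hχ n).memLp.1
  have hfq : ∀ n, qe Q (f n) ≤ 4 * ENNReal.ofReal (1 / ((n : ℝ) + 1)) := fun n => by
    refine (qe_sub_le (hφ n).smooth (hχc n).smooth).trans ?_
    refine (add_le_add (mul_le_mul_right (hq n) 2) (mul_le_mul_right (hχ2 n) 2)).trans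
      (le_of_eq ?_)
    rw [← add_mul]
    norm_num
  have hfj : ∀ n, ∫⁻ x, jw x * ‖f n x‖ₑ ^ 2 ≤
      2 * 1 + 2 * ENNReal.ofReal (1 / ((n : ℝ) + 1)) := fun n => by
    have hm : AEMeasurable (fun x => jw x * ‖φ n x - χ n x‖ₑ ^ 2)
        (volume : Measure (EuclideanSpace ℝ ι)) := measurable_jw.aemeasurable.mul (aem_sq (hm1 n))
    calc ∫⁻ x, jw x * ‖f n x‖ₑ ^ 2
        ≤ ∫⁻ x, (2 * (jw x * ‖φ n x - χ n x‖ₑ ^ 2) + 2 * ‖χ' n x - χ n x‖ₑ ^ 2) := by
          refine lintegral_mono fun x => ?_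
          have e : f n x = (φ n x - χ n x) - (χ' n x - χ n x) := by
            simp only [hf]
            abel
          rw [e]
          calc jw x * ‖(φ n x - χ n x) - (χ' n x - χ n x)‖ₑ ^ 2
              ≤ jw x * (2 * ‖φ n x - χ n x‖ₑ ^ 2 + 2 * ‖χ' n x - χ n x‖ₑ ^ 2) := by
                gcongr
                exact enorm_sub_sq_le _ _
            _ = 2 * (jw x * ‖φ n x - χ n x‖ₑ ^ 2) + 2 * (jw x * ‖χ' n x - χ n x‖ₑ ^ 2) := by ring
            _ ≤ _ := by
                gcongr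
                exact mul_le_of_le_one_left zero_le (jw_le_one x)
      _ = 2 * (∫⁻ x, jw x * ‖φ n x - χ n x‖ₑ ^ 2) + 2 * ∫⁻ x, ‖χ' n x - χ n x‖ₑ ^ 2 := by
          rw [lintegral_add_left' (hm.const_mul 2), lintegral_const_mul' _ _ (by norm_num),
            lintegral_const_mul' _ _ (by norm_num)]
      _ ≤ _ := by
          rw [h1]
          gcongr
          exact hχ1 n
  have hqb : ∀ n, qe Q (f n) ≤ ENNReal.ofReal 4 := fun n => by
    refine (hfq n).trans ?_
    calc 4 * ENNReal.ofReal (1 / ((n : ℝ) + 1)) ≤ 4 * 1 := by gcongr; exact hle1 n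
      _ = ENNReal.ofReal 4 := by rw [mul_one, ENNReal.ofReal_ofNat]
  have hjb : ∀ n, ∫⁻ x, jw x * ‖f n x‖ₑ ^ 2 ≤ ENNReal.ofReal 4 := fun n => by
    refine (hfj n).trans ?_
    calc 2 * 1 + 2 * ENNReal.ofReal (1 / ((n : ℝ) + 1)) ≤ 2 * 1 + 2 * 1 := by gcongr; exact hle1 n
      _ = ENNReal.ofReal 4 := by rw [ENNReal.ofReal_ofNat]; norm_num
  obtain ⟨u, j, hum, hj, hufin, hLC⟩ := exists_limit hQ hG hfc (by norm_num : (0 : ℝ) ≤ 4) hqb hjb
  have hqt : Tendsto (fun n => qe Q (f (j n))) atTop (𝓝 0) := by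
    have h2 := ENNReal.Tendsto.const_mul (a := 4) (tendsto_ofReal_div 1) (Or.inr (by norm_num))
    rw [mul_zero] at h2
    exact tendsto_of_tendsto_of_tendsto_of_le_of_le tendsto_const_nhds
      (h2.comp hj.tendsto_atTop) (fun _ => zero_le) fun n => hfq (j n)
  have hsol : Sol Q S u := by
    refine sol_of_lim hQ.adj (fun n => hfc (j n)) hum hufin hLC fun a => ?_
    have h2 := ENNReal.Tendsto.const_mul (a := 16) hqt (Or.inr (by norm_num))
    rw [mul_zero] at h2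
    exact tendsto_of_tendsto_of_tendsto_of_le_of_le tendsto_const_nhds h2 (fun _ => zero_le)
      fun n => lint_le_qe (f (j n)) a
  have huL : MemLp u 2 volume := hsol.memLp hQ hR₀ hH (by linarith)
  have huK : Ker Q S u := hsol.ker hQ.adj huL
  -- `u` is zero
  have hmom : ∫⁻ x, ENNReal.ofReal (1 + ‖x‖ ^ 2) * ‖u x‖ₑ ^ 2 ≠ ⊤ := by
    have := hsol.moment hQ hR₀ hH (s := 1) zero_le_one (by norm_num; linarith)
    simpa only [Real.rpow_one] using this
  have hB : 2 * ENNReal.ofReal 4 + 2 * (∫⁻ x, jw x * ‖u x‖ₑ ^ 2) ≠ ⊤ :=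
    ENNReal.add_ne_top.2 ⟨ENNReal.mul_ne_top (by norm_num) ENNReal.ofReal_ne_top,
      ENNReal.mul_ne_top (by norm_num) hufin⟩
  have hP1 : Tendsto (fun n => ∫ x, ⟪u x, f (j n) x - u x⟫_ℂ) atTop (𝓝 0) := by
    refine pair_lim hum hmom (fun n => (hfc (j n)).memLp.1.sub hum) hB (fun n => ?_) hLC
    have hm : AEMeasurable (fun x => jw x * ‖f (j n) x‖ₑ ^ 2)
        (volume : Measure (EuclideanSpace ℝ ι)) :=
      measurable_jw.aemeasurable.mul (aem_sq (hfc (j n)).memLp.1)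
    calc ∫⁻ x, jw x * ‖f (j n) x - u x‖ₑ ^ 2
        ≤ ∫⁻ x, (2 * (jw x * ‖f (j n) x‖ₑ ^ 2) + 2 * (jw x * ‖u x‖ₑ ^ 2)) := by
          refine lintegral_mono fun x => ?_
          calc jw x * ‖f (j n) x - u x‖ₑ ^ 2
              ≤ jw x * (2 * ‖f (j n) x‖ₑ ^ 2 + 2 * ‖u x‖ₑ ^ 2) := by
                gcongr
                exact enorm_sub_sq_le _ _
            _ = _ := by ring
      _ = 2 * (∫⁻ x, jw x * ‖f (j n) x‖ₑ ^ 2) + 2 * ∫⁻ x, jw x * ‖u x‖ₑ ^ 2 := by
          rw [lintegral_add_left' (hm.const_mul 2), lintegral_const_mul' _ _ (by norm_num),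
            lintegral_const_mul' _ _ (by norm_num)]
      _ ≤ _ := by
          gcongr
          exact hjb (j n)
  have hP2 : Tendsto (fun n => ∫ x, ⟪u x, χ n x - χ' n x⟫_ℂ) atTop (𝓝 0) := by
    refine tendsto_pair_zero huL (fun n => (hχ n).memLp.1.sub (hχc n).memLp.1) ?_
    refine tendsto_of_tendsto_of_tendsto_of_le_of_le tendsto_const_nhds
      (tendsto_ofReal_div 1) (fun _ => zero_le) fun n => ?_
    refine le_trans (le_of_eq (lintegral_congr fun x => ?_)) (hχ1 n)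
    rw [← enorm_neg, neg_sub]
  have hP3 : ∀ n, ∫ x, ⟪u x, f n x⟫_ℂ = ∫ x, ⟪u x, χ n x - χ' n x⟫_ℂ := fun n => by
    have e : ∀ x, ⟪u x, f n x⟫_ℂ = ⟪u x, φ n x - χ n x⟫_ℂ + ⟪u x, χ n x - χ' n x⟫_ℂ := fun x => by
      rw [← inner_add_right]
      congr 1
      simp only [hf]
      abel
    have i1 : Integrable fun x => ⟪u x, φ n x - χ n x⟫_ℂ :=
      integrable_inner_memLp huL ((hφ n).memLp.sub (hχ n).memLp)
    have i2 : Integrable fun x => ⟪u x, χ n x - χ' n x⟫_ℂ :=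
      integrable_inner_memLp huL ((hχ n).memLp.sub (hχc n).memLp)
    simp only [e]
    rw [integral_add i1 i2, hp n u huK, zero_add]
  have huu : ∫ x, ⟪u x, u x⟫_ℂ = 0 := by
    have e : ∀ n, ∫ x, ⟪u x, u x⟫_ℂ =
        (∫ x, ⟪u x, χ (j n) x - χ' (j n) x⟫_ℂ) - ∫ x, ⟪u x, f (j n) x - u x⟫_ℂ := fun n => by
      have i1 : Integrable fun x => ⟪u x, f (j n) x⟫_ℂ :=
        integrable_inner_memLp huL (hfc (j n)).memLp
      have i2 : Integrable fun x => ⟪u x, f (j n) x - u x⟫_ℂ :=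
        integrable_inner_memLp huL ((hfc (j n)).memLp.sub huL)
      rw [← hP3, ← integral_sub i1 i2]
      refine integral_congr_ae (Eventually.of_forall fun x => ?_)
      simp only
      rw [← inner_sub_right]
      congr 1
      abel
    have ht := (hP2.comp hj.tendsto_atTop).sub hP1
    rw [sub_zero] at ht
    refine tendsto_nhds_unique (tendsto_const_nhds (x := ∫ x, ⟪u x, u x⟫_ℂ)
      (f := (atTop : Filter ℕ))) (ht.congr fun n => ?_)
    exact (e n).symm
  have hu0 : ∀ᵐ x, u x = 0 := by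
    have h2 : ∫ x, ‖u x‖ ^ 2 = 0 := by
      have e : ∀ x, ⟪u x, u x⟫_ℂ = ((‖u x‖ ^ 2 : ℝ) : ℂ) := fun x => by
        rw [inner_self_eq_norm_sq_to_K]
        simp
      simp only [e] at huu
      rw [integral_complex_ofReal] at huu
      exact_mod_cast huu
    have h3 := (integral_eq_zero_iff_of_nonneg (fun x => sq_nonneg ‖u x‖)
      (huL.integrable_norm_pow (by norm_num))).1 h2
    filter_upwards [h3] with x hx
    have h4 : ‖u x‖ ^ 2 = 0 := hx
    simpa using h4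
  -- the whole mass goes to zero
  obtain ⟨K, hK, htail⟩ := exists_tail_le hQ hR₀ hH
  have hin : Tendsto (fun n => ∫⁻ x in {x | ‖x‖ ≤ 2 * R₀}, ‖f (j n) x‖ₑ ^ 2) atTop (𝓝 0) := by
    refine (hLC (2 * R₀)).congr fun n => ?_
    refine lintegral_congr_ae ?_
    filter_upwards [ae_restrict_of_ae hu0] with x hx
    rw [hx, sub_zero]
  have hout : Tendsto (fun n => ENNReal.ofReal k *
      ∫⁻ x in {x | ‖x‖ ≤ 2 * R₀}ᶜ, jw x * ‖f (j n) x‖ₑ ^ 2) atTop (𝓝 0) := by
    have h2 := (ENNReal.Tendsto.const_mul (a := 2) hqt (Or.inr (by norm_num))).add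
      (ENNReal.Tendsto.const_mul (a := ENNReal.ofReal K) hin (Or.inr ENNReal.ofReal_ne_top))
    rw [mul_zero, mul_zero, add_zero] at h2
    exact tendsto_of_tendsto_of_tendsto_of_le_of_le tendsto_const_nhds h2 (fun _ => zero_le)
      fun n => htail _ (hfc (j n))
  have hk0 : ENNReal.ofReal k ≠ 0 := by
    rw [Ne, ENNReal.ofReal_eq_zero, not_le]
    linarith
  have hout' : Tendsto (fun n =>
      ∫⁻ x in {x | ‖x‖ ≤ 2 * R₀}ᶜ, jw x * ‖f (j n) x‖ₑ ^ 2) atTop (𝓝 0) := by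
    have h2 := ENNReal.Tendsto.const_mul (a := (ENNReal.ofReal k)⁻¹) hout
      (Or.inr (ENNReal.inv_ne_top.2 hk0))
    rw [mul_zero] at h2
    refine h2.congr fun n => ?_
    rw [← mul_assoc, ENNReal.inv_mul_cancel hk0 ENNReal.ofReal_ne_top, one_mul]
  have hall : Tendsto (fun n => 2 * ((∫⁻ x in {x | ‖x‖ ≤ 2 * R₀}, ‖f (j n) x‖ₑ ^ 2) +
      ∫⁻ x in {x | ‖x‖ ≤ 2 * R₀}ᶜ, jw x * ‖f (j n) x‖ₑ ^ 2) +
        2 * ENNReal.ofReal (1 / ((j n : ℝ) + 1))) atTop (𝓝 0) := by
    have h2 := (ENNReal.Tendsto.const_mul (a := 2) (hin.add hout') (Or.inr (by norm_num))).add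
      (ENNReal.Tendsto.const_mul (a := 2) ((tendsto_ofReal_div 1).comp hj.tendsto_atTop)
        (Or.inr (by norm_num)))
    simp only [add_zero, mul_zero] at h2
    exact h2
  have hge : ∀ n, (1 : ℝ≥0∞) ≤ 2 * ((∫⁻ x in {x | ‖x‖ ≤ 2 * R₀}, ‖f (j n) x‖ₑ ^ 2) +
      ∫⁻ x in {x | ‖x‖ ≤ 2 * R₀}ᶜ, jw x * ‖f (j n) x‖ₑ ^ 2) +
        2 * ENNReal.ofReal (1 / ((j n : ℝ) + 1)) := fun n => by
    have hm : AEMeasurable (fun x => jw x * ‖f (j n) x‖ₑ ^ 2)
        (volume : Measure (EuclideanSpace ℝ ι)) :=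
      measurable_jw.aemeasurable.mul (aem_sq (hfc (j n)).memLp.1)
    calc (1 : ℝ≥0∞) = ∫⁻ x, jw x * ‖φ (j n) x - χ (j n) x‖ₑ ^ 2 := (h1 (j n)).symm
      _ ≤ ∫⁻ x, (2 * (jw x * ‖f (j n) x‖ₑ ^ 2) + 2 * ‖χ' (j n) x - χ (j n) x‖ₑ ^ 2) := by
          refine lintegral_mono fun x => ?_
          have e : φ (j n) x - χ (j n) x = f (j n) x + (χ' (j n) x - χ (j n) x) := by
            simp only [hf]
            abel
          rw [e]
          calc jw x * ‖f (j n) x + (χ' (j n) x - χ (j n) x)‖ₑ ^ 2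
              ≤ jw x * (2 * ‖f (j n) x‖ₑ ^ 2 + 2 * ‖χ' (j n) x - χ (j n) x‖ₑ ^ 2) := by
                gcongr
                exact enorm_add_sq_le _ _
            _ = 2 * (jw x * ‖f (j n) x‖ₑ ^ 2) + 2 * (jw x * ‖χ' (j n) x - χ (j n) x‖ₑ ^ 2) := by
                ring
            _ ≤ _ := by
                gcongr
                exact mul_le_of_le_one_left zero_le (jw_le_one x)
      _ = 2 * (∫⁻ x, jw x * ‖f (j n) x‖ₑ ^ 2) + 2 * ∫⁻ x, ‖χ' (j n) x - χ (j n) x‖ₑ ^ 2 := by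
          rw [lintegral_add_left' (hm.const_mul 2), lintegral_const_mul' _ _ (by norm_num),
            lintegral_const_mul' _ _ (by norm_num)]
      _ ≤ _ := by
          rw [← lintegral_add_compl (fun x => jw x * ‖f (j n) x‖ₑ ^ 2)
            (measurableSet_cball (2 * R₀))]
          gcongr with x
          · exact mul_le_of_le_one_left zero_le (jw_le_one x)
          · exact hχ1 (j n)
  have := ge_of_tendsto' hall hge
  simp at this

/-- **The global Hardy inequality.** -/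
theorem hardy_perp (hQ : Frame Q) (hR₀ : 0 < R₀) (hH : HI Q S k R₀) (hk : 2 < k)
    (hG : GradB Q S) :
    ∃ c : ℝ, 0 < c ∧ ∀ φ χ : EuclideanSpace ℝ ι → F, Core S φ → Ker Q S χ →
      (∀ η : EuclideanSpace ℝ ι → F, Ker Q S η → ∫ x, ⟪η x, φ x - χ x⟫_ℂ = 0) →
      ENNReal.ofReal c * ∫⁻ x, jw x * ‖φ x - χ x‖ₑ ^ 2 ≤ qe Q φ := by
  by_contra hcon
  push Not at hcon
  choose φ χ hφ hχ hp hlt using fun n : ℕ => hcon (1 / ((n : ℝ) + 1)) (by positivity)
  set I : ℕ → ℝ≥0∞ := fun n => ∫⁻ x, jw x * ‖φ n x - χ n x‖ₑ ^ 2 with hI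
  have hI0 : ∀ n, I n ≠ 0 := fun n h0 => by
    have := hlt n
    rw [show ∫⁻ x, jw x * ‖φ n x - χ n x‖ₑ ^ 2 = I n from rfl, h0, mul_zero] at this
    exact absurd this (by simp)
  have hIt : ∀ n, I n ≠ ⊤ := fun n => jw_int_ne_top ((hφ n).memLp.sub (hχ n).memLp)
  have hIr : ∀ n, 0 < (I n).toReal := fun n => ENNReal.toReal_pos (hI0 n) (hIt n)
  set r : ℕ → ℝ := fun n => (Real.sqrt (I n).toReal)⁻¹ with hr
  have hr2 : ∀ n, ENNReal.ofReal (r n ^ 2) * I n = 1 := fun n => by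
    have h1 : r n ^ 2 = ((I n).toReal)⁻¹ := by
      simp only [hr]
      rw [inv_pow, Real.sq_sqrt (hIr n).le]
    rw [h1, ENNReal.ofReal_inv_of_pos (hIr n), ENNReal.ofReal_toReal (hIt n),
      ENNReal.inv_mul_cancel (hI0 n) (hIt n)]
  refine no_seq hQ hR₀ hH hk hG (φ := fun n x => r n • φ n x) (χ := fun n x => r n • χ n x)
    (fun n => (hφ n).rsmul _) (fun n => (hχ n).rsmul _) (fun n η hη => ?_) (fun n => ?_)
    fun n => ?_
  · have e : ∀ x, ⟪η x, r n • φ n x - r n • χ n x⟫_ℂ =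
        (r n : ℂ) * ⟪η x, φ n x - χ n x⟫_ℂ := fun x => by
      rw [← smul_sub, inner_rsmul_right]
    simp only [e]
    rw [integral_const_mul, hp n η hη, mul_zero]
  · rw [qe_rsmul (hφ n).smooth]
    calc ENNReal.ofReal (r n ^ 2) * qe Q (φ n)
        ≤ ENNReal.ofReal (r n ^ 2) * (ENNReal.ofReal (1 / ((n : ℝ) + 1)) * I n) :=
          mul_le_mul_right (hlt n).le _
      _ = ENNReal.ofReal (1 / ((n : ℝ) + 1)) * (ENNReal.ofReal (r n ^ 2) * I n) := by ring
      _ = _ := by rw [hr2, mul_one]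
  · have e : ∀ x, jw x * ‖r n • φ n x - r n • χ n x‖ₑ ^ 2 =
        ENNReal.ofReal (r n ^ 2) * (jw x * ‖φ n x - χ n x‖ₑ ^ 2) := fun x => by
      rw [← smul_sub, enorm_smul, mul_pow, enorm_real_sq]
      ring
    simp only [e]
    rw [lintegral_const_mul' _ _ ENNReal.ofReal_ne_top]
    exact hr2 n

end compact

end Crest.Agent.R330.Decay968

end
end

-- ▼ part R330/HardyL_968
section

/-!
# Row 330, S9 (helper968): decay and global Hardy inequality, literal form

* `Qd b M G` : the supercharges as first order expressions; `frame_Qd`, `gradB_Qd`, `hi_of`.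
* `Sd b R` : the gauge group as symmetry data; `core_iff`, `ker_iff`.
* `decay_all : HIAll N → DecayAll N`, `hardy_all : HIAll N → HardyAll N`.
-/

set_option autoImplicit false
set_option linter.unusedSectionVars false
set_option linter.unusedVariables false

open MeasureTheory Set Filter Topology ENNReal Crest.MathPhysics.MatrixQM
open scoped ContDiff InnerProductSpace

noncomputable section

namespace Crest.Agent.R330.HardyL968

open Moll596 WS596 WSLit596 Decay968 Defs478 IBP837 Cov837 Brid837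

variable {N : ℕ} {F : Type*} [NormedAddCommGroup F] [InnerProductSpace ℂ F]
  [FiniteDimensional ℂ F] {b : ColorBasis N} {M : FermionRep N F}

/-! ### The charges -/

/-- The supercharges as first order expressions. -/
def Qd (b : ColorBasis N) (M : FermionRep N F) (G : GammaNine) (α : Fin 16) : FOp (Cfg N) F :=
  chF M G (W := wpot b G 1 0) (fun _ β A => wpot_continuous β A) α

theorem Qd_op (G : GammaNine) (α : Fin 16) (φ : Cfg N → F) :
    (Qd b M G α).op φ = dcharge b M G 1 0 α φ := by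
  rw [Qd, chF_op, dcharge_eq]

theorem Qd_adj (G : GammaNine) (α : Fin 16) : Adj (Qd b M G α) (Qd b M G α) :=
  chF_adj (fun _ β A => wpot_continuous β A) α

/-- The symbol. -/
theorem Qd_A (G : GammaNine) (α : Fin 16) (ℓ : Cfg N →L[ℝ] ℝ) (v : F) :
    (Qd b M G α).A (ℓ.smulRight v) =
      Ims714.kin G M α ((InnerProductSpace.toDual ℝ (Cfg N)).symm ℓ) v := by
  have h1 : (Qd b M G α).A (ℓ.smulRight v) = ∑ k, (-Complex.I) • dco M G α k
      ((ℓ.smulRight v) (EuclideanSpace.single k (1 : ℝ))) :=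
    diracF_A (dco M G α) (fun x => vco M (fun β A => wpot b G 1 0 α β A x))
      (vco_cont M (fun _ β A => wpot_continuous β A) α) _
  have h2 : ∀ k, ((InnerProductSpace.toDual ℝ (Cfg N)).symm ℓ) k =
      ℓ (EuclideanSpace.single k (1 : ℝ)) := fun k => by
    have h3 := InnerProductSpace.toDual_symm_apply (𝕜 := ℝ) (x := EuclideanSpace.single k (1 : ℝ))
      (y := ℓ)
    rw [← h3, EuclideanSpace.inner_single_right]
    simp
  rw [h1, Ims714.kin_apply, Fintype.sum_prod_type]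
  refine Finset.sum_congr rfl fun i _ => Finset.sum_congr rfl fun A _ => ?_
  rw [dco_apply, Finset.smul_sum, h2]
  refine Finset.sum_congr rfl fun β _ => ?_
  rw [ContinuousLinearMap.smulRight_apply, ← Complex.coe_smul, map_smul, smul_smul]

theorem frame_Qd (b : ColorBasis N) (M : FermionRep N F) (G : GammaNine) :
    Frame (Qd b M G) where
  adj := Qd_adj G
  sym ℓ v := by
    simp only [Qd_A, Ims714.norm_kin_sq, LinearIsometryEquiv.norm_map, Finset.sum_const,
      Finset.card_univ, Fintype.card_fin]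
    rw [nsmul_eq_mul]
    push_cast
    ring

/-! ### Symmetries -/

/-- The gauge group as symmetry data. -/
def Sd (b : ColorBasis N) {M : FermionRep N F} (R : GaugeAction b M) :
    Set ((Cfg N ≃ₗᵢ[ℝ] Cfg N) × (F →L[ℝ] F)) :=
  Set.range fun g => (actL b g, (LinearMap.toContinuousLinearMap (R.ρ g)).restrictScalars ℝ)

theorem core_iff {R : GaugeAction b M} {φ : Cfg N → F} :
    Core (Sd b R) φ ↔ IsCoreVec b R φ := by
  constructor
  · intro h
    exact ⟨h.smooth, h.supp, fun g x => h.eqv _ ⟨g, rfl⟩ x⟩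
  · intro h
    refine ⟨h.1, h.2.1, ?_⟩
    rintro p ⟨g, rfl⟩ x
    exact h.2.2 g x

theorem ker_iff {R : GaugeAction b M} {G : GammaNine} {ψ : Cfg N → F} :
    Ker (Qd b M G) (Sd b R) ψ ↔ ψ ∈ zset b M R G 1 0 := by
  constructor
  · rintro ⟨h1, φ, h2, h3, h4⟩
    refine ⟨h1, φ, fun n => core_iff.1 (h2 n), h3, fun α => ?_⟩
    have := h4 α
    simpa only [Qd_op] using this
  · rintro ⟨h1, φ, h2, h3, h4⟩
    refine ⟨h1, φ, fun n => core_iff.2 (h2 n), h3, fun α => ?_⟩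
    simp only [Qd_op]
    exact h4 α

/-! ### The form -/

theorem ofReal_integral_sq {f : Cfg N → F} (hf : MemLp f 2 volume) :
    ENNReal.ofReal (∫ x, ‖f x‖ ^ 2) = ∫⁻ x, ‖f x‖ₑ ^ 2 := by
  rw [toReal_lintegral_sq hf.1, ENNReal.ofReal_toReal (n2_ne_top hf)]

theorem memLp_dcharge {R : GaugeAction b M} (G : GammaNine) {φ : Cfg N → F}
    (h : IsCoreVec b R φ) (α : Fin 16) : MemLp (dcharge b M G 1 0 α φ) 2 volume := by
  rw [← Qd_op]
  exact ((Qd b M G α).op_continuous h.1).memLp_of_hasCompactSupport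
    ((Qd b M G α).op_supp h.2.1)

theorem qe_eq {R : GaugeAction b M} (G : GammaNine) {φ : Cfg N → F} (h : IsCoreVec b R φ) :
    qe (Qd b M G) φ = ENNReal.ofReal (qf b M G 1 0 φ) := by
  unfold qe qf
  simp only [Qd_op]
  rw [ENNReal.ofReal_mul (by norm_num), ENNReal.ofReal_sum_of_nonneg fun α _ =>
    integral_nonneg fun x => sq_nonneg _]
  congr 1
  · rw [one_div, one_div, ENNReal.ofReal_inv_of_pos (by norm_num), ENNReal.ofReal_ofNat]
  · exact Finset.sum_congr rfl fun α _ => (ofReal_integral_sq (memLp_dcharge G h α)).symm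

/-- The exterior Hardy inequality. -/
theorem hi_of {R : GaugeAction b M} {G : GammaNine} {k : ℝ} (hk : 0 ≤ k)
    (h : HIAnn245.HI b M R G k) :
    ∃ ρ : ℝ, 0 < ρ ∧ Decay968.HI (Qd b M G) (Sd b R) k ρ := by
  obtain ⟨ρ, hρ, hH⟩ := h
  refine ⟨ρ, hρ, fun φ hφ h0 => ?_⟩
  have hc := core_iff.1 hφ
  have h1 := hH φ hc h0
  rw [qe_eq G hc]
  refine le_trans (le_of_eq ?_) (ENNReal.ofReal_le_ofReal h1)
  rw [ENNReal.ofReal_mul hk]
  congr 1
  have hpt : ∀ x, ‖φ x‖ₑ ^ 2 / ‖x‖ₑ ^ 2 = ENNReal.ofReal (‖φ x‖ ^ 2 / ‖x‖ ^ 2) := fun x => by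
    by_cases hx : ‖x‖ < ρ
    · rw [h0 x hx]
      simp
    · have hx0 : 0 < ‖x‖ := hρ.trans_le (not_lt.1 hx)
      rw [ENNReal.ofReal_div_of_pos (by positivity), enorm_sq_eq', enorm_sq_eq']
  have hI : Integrable fun x => ‖φ x‖ ^ 2 / ‖x‖ ^ 2 := by
    have h2 : Integrable fun x => ‖φ x‖ ^ 2 := hφ.memLp.integrable_norm_pow (by norm_num)
    refine (h2.const_mul (1 / ρ ^ 2)).mono' ?_ (Eventually.of_forall fun x => ?_)
    · exact (hc.1.continuous.norm.pow 2).aestronglyMeasurable.div₀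
        (continuous_norm.pow 2).aestronglyMeasurable
    · rw [Real.norm_of_nonneg (by positivity)]
      by_cases hx : ‖x‖ < ρ
      · rw [h0 x hx]
        simp
      · have hx' : ρ ≤ ‖x‖ := not_lt.1 hx
        have hx0 : 0 < ‖x‖ := hρ.trans_le hx'
        rw [div_eq_mul_one_div, mul_comm]
        gcongr
  simp only [hpt]
  rw [← ofReal_integral_eq_lintegral_ofReal hI (Eventually.of_forall fun x => by positivity)]

/-- Control of the gradient. -/
theorem gradB_Qd (b : ColorBasis N) (M : FermionRep N F) (R : GaugeAction b M) (G : GammaNine) :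
    GradB (Qd b M G) (Sd b R) := by
  obtain ⟨C, hC, hY⟩ := Weitz726.Yop_bound b M G
  refine ⟨2 + 2 * C, by positivity, fun φ hφ => ?_⟩
  have hc := core_iff.1 hφ
  have hen := Weitz726.energy b M G 1 0 (hc.1.of_le (by norm_cast)) hc.2.1
  have hqf : qf b M G 1 0 φ =
      (1 / 16 : ℝ) * ∑ α, ∫ x, ‖chargeW M G (wpot b G 1 0) α φ x‖ ^ 2 := by
    unfold qf
    simp only [dcharge_eq]
  rw [← hqf] at hen
  have hx : Integrable fun x => ‖x‖ * ‖φ x‖ ^ 2 :=
    (continuous_norm.mul (hc.1.continuous.norm.pow 2)).integrable_of_hasCompactSupport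
      (hc.2.1.mono' fun x hx => subset_tsupport _ fun h0 => hx (by simp [h0]))
  have hx1 : Integrable fun x => (1 + ‖x‖) * ‖φ x‖ ^ 2 :=
    ((continuous_const.add continuous_norm).mul
      (hc.1.continuous.norm.pow 2)).integrable_of_hasCompactSupport
      (hc.2.1.mono' fun x hx => subset_tsupport _ fun h0 => hx (by simp [h0]))
  have hW0 : 0 ≤ ∫ x, Weitz726.Wsq (wpot b G 1 0) x / 32 * ‖φ x‖ ^ 2 := by
    refine integral_nonneg fun x => ?_
    have h1 : 0 ≤ Weitz726.Wsq (wpot b G 1 0) x := by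
      unfold Weitz726.Wsq
      refine Finset.sum_nonneg fun α _ => ?_
      show 0 ≤ ∑ β, ∑ A, wpot b G 1 0 α β A x * wpot b G 1 0 α β A x
      exact Finset.sum_nonneg fun β _ => Finset.sum_nonneg fun A _ => mul_self_nonneg _
    have h2 : 0 ≤ ‖φ x‖ ^ 2 := sq_nonneg _
    positivity
  have hY1 : ‖∫ x, (⟪φ x, (((1 : ℝ) : ℂ) • Weitz726.Yop b M G x +
      ((0 / 8 : ℝ) : ℂ) • Weitz726.IG M G) (φ x)⟫_ℂ).re‖ ≤ ∫ x, C * (‖x‖ * ‖φ x‖ ^ 2) := by
    refine norm_integral_le_of_norm_le (hx.const_mul C) (Eventually.of_forall fun x => ?_)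
    rw [Real.norm_eq_abs]
    refine (Complex.abs_re_le_norm _).trans ((norm_inner_le_norm _ _).trans ?_)
    have h3 : (((1 : ℝ) : ℂ) • Weitz726.Yop b M G x +
      ((0 / 8 : ℝ) : ℂ) • Weitz726.IG M G) (φ x) = Weitz726.Yop b M G x (φ x) := by
      simp
    rw [h3]
    calc ‖φ x‖ * ‖Weitz726.Yop b M G x (φ x)‖ ≤ ‖φ x‖ * (C * ‖x‖ * ‖φ x‖) := by
          gcongr
          exact hY x _
      _ = C * (‖x‖ * ‖φ x‖ ^ 2) := by ring
  rw [integral_const_mul, Real.norm_eq_abs] at hY1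
  have hY2 := (abs_le.1 hY1).1
  have hqf0 : 0 ≤ qf b M G 1 0 φ := SInd478.qf_nonneg b M G 1 0 φ
  have hxx : ∫ x, ‖x‖ * ‖φ x‖ ^ 2 ≤ ∫ x, (1 + ‖x‖) * ‖φ x‖ ^ 2 := by
    refine integral_mono hx hx1 fun x => ?_
    simp only
    nlinarith [sq_nonneg ‖φ x‖]
  have hx0 : 0 ≤ ∫ x, (1 + ‖x‖) * ‖φ x‖ ^ 2 := integral_nonneg fun x => by positivity
  have hmain : ∑ k : Fin 9 × Fin (N ^ 2 - 1),
      ∫ x, ‖fderiv ℝ φ x (EuclideanSpace.single k 1)‖ ^ 2 ≤
        (2 + 2 * C) * (qf b M G 1 0 φ + ∫ x, (1 + ‖x‖) * ‖φ x‖ ^ 2) := by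
    have h4 : C * ∫ x, ‖x‖ * ‖φ x‖ ^ 2 ≤ C * ∫ x, (1 + ‖x‖) * ‖φ x‖ ^ 2 :=
      mul_le_mul_of_nonneg_left hxx hC
    nlinarith [mul_nonneg hC hqf0, mul_nonneg hC hx0]
  -- extended real valued form
  have hder : ∀ k, MemLp (fun x => fderiv ℝ φ x (EuclideanSpace.single k 1)) 2 volume := fun k =>
    ((hc.1.continuous_fderiv (by simp)).clm_apply continuous_const).memLp_of_hasCompactSupport
      ((hc.2.1.fderiv ℝ).comp_left (g := fun L : Cfg N →L[ℝ] F =>
        L (EuclideanSpace.single k 1)) rfl)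
  have e1 : ∫⁻ x, ∑ k, ‖fderiv ℝ φ x (EuclideanSpace.single k 1)‖ₑ ^ 2 =
      ENNReal.ofReal (∑ k, ∫ x, ‖fderiv ℝ φ x (EuclideanSpace.single k 1)‖ ^ 2) := by
    rw [lintegral_finsetSum' _ fun k _ => aem_sq (hder k).1,
      ENNReal.ofReal_sum_of_nonneg fun k _ => integral_nonneg fun x => sq_nonneg _]
    exact Finset.sum_congr rfl fun k _ => (ofReal_integral_sq (hder k)).symm
  have e2 : ∫⁻ x, ENNReal.ofReal (1 + ‖x‖) * ‖φ x‖ₑ ^ 2 =
      ENNReal.ofReal (∫ x, (1 + ‖x‖) * ‖φ x‖ ^ 2) := by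
    rw [ofReal_integral_eq_lintegral_ofReal hx1 (Eventually.of_forall fun x => by positivity)]
    refine lintegral_congr fun x => ?_
    rw [enorm_sq_eq', ENNReal.ofReal_mul (by positivity)]
  rw [e1, e2, qe_eq G hc, ← ENNReal.ofReal_add hqf0 hx0, ← ENNReal.ofReal_mul (by positivity)]
  exact ENNReal.ofReal_le_ofReal hmain

/-! ### The fields -/

/-- **Decay of the zero states.** -/
theorem integrable_moment {R : GaugeAction b M} {G : GammaNine}
    (hHI : ∀ κ : ℝ, κ < 49 / 8 → HIAnn245.HI b M R G κ) {ψ : Cfg N → F}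
    (hψ : ψ ∈ zset b M R G 1 0) {s : ℝ} (hs : 0 ≤ s) (hs2 : s < 5 / 2) :
    Integrable fun x => ‖x‖ ^ (2 * s) * ‖ψ x‖ ^ 2 := by
  have := complete_F F
  obtain ⟨k, hk1, hk2⟩ : ∃ k, (s + 1) ^ 2 / 2 < k ∧ k < 49 / 8 :=
    exists_between (by nlinarith)
  have hk0 : 0 ≤ k := (by positivity : 0 ≤ (s + 1) ^ 2 / 2).trans hk1.le
  obtain ⟨ρ, hρ, hH⟩ := hi_of hk0 (hHI k hk2)
  have hK : Ker (Qd b M G) (Sd b R) ψ := ker_iff.2 hψ
  have hm := (hK.sol (Qd_adj G)).moment (frame_Qd b M G) hρ hH hs hk1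
  have hmeas : AEStronglyMeasurable (fun x : Cfg N => (1 + ‖x‖ ^ 2) ^ s * ‖ψ x‖ ^ 2) volume := by
    have hc : Continuous fun x : Cfg N => (1 + ‖x‖ ^ 2) ^ s := by
      refine Continuous.rpow_const (by fun_prop) fun x => Or.inl ?_
      positivity
    exact hc.aestronglyMeasurable.mul (hK.memLp.1.norm.pow 2)
  have hI : Integrable fun x : Cfg N => (1 + ‖x‖ ^ 2) ^ s * ‖ψ x‖ ^ 2 := by
    refine ⟨hmeas, ?_⟩
    rw [hasFiniteIntegral_iff_ofReal (Eventually.of_forall fun x => by positivity)]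
    refine lt_of_le_of_lt (le_of_eq (lintegral_congr fun x => ?_)) (lt_top_iff_ne_top.2 hm)
    rw [ENNReal.ofReal_mul (by positivity), enorm_sq_eq']
  refine hI.mono' ?_ (Eventually.of_forall fun x => ?_)
  · have hc : Continuous fun x : Cfg N => ‖x‖ ^ (2 * s) :=
      continuous_norm.rpow_const fun x => Or.inr (by positivity)
    exact hc.aestronglyMeasurable.mul (hK.memLp.1.norm.pow 2)
  · rw [Real.norm_of_nonneg (by positivity)]
    have h1 : ‖x‖ ^ (2 * s) = (‖x‖ ^ 2) ^ s := by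
      rw [Real.rpow_mul (norm_nonneg _)]
      norm_num
    rw [h1]
    gcongr
    linarith

/-- **Decay**, field `decay` of `StepIn`. -/
theorem decay_all (N : ℕ) (h : Close478.HIAll N) : Close478.DecayAll N := by
  intro F _ _ _ _ b M R G ψ hψ s hs hs2
  exact integrable_moment (fun κ hκ => h F b M R G κ hκ) hψ hs hs2

/-- **The global Hardy inequality**, field `hardy` of `StepIn`. -/
theorem hardy_all (N : ℕ) (h : Close478.HIAll N) : Close478.HardyAll N := by
  intro F _ _ _ _ b M R G ψ hψ hn hl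
  have := complete_F F
  obtain ⟨ρ, hρ, hH⟩ := hi_of (k := 3) (by norm_num) (h F b M R G 3 (by norm_num))
  obtain ⟨c, hc, hcc⟩ := hardy_perp (frame_Qd b M G) hρ hH (by norm_num) (gradB_Qd b M R G)
  refine ⟨c, hc, fun φ hφ => ?_⟩
  set a : ℂ := ∫ y, ⟪ψ y, φ y⟫_ℂ with ha
  have hφ' : Core (Sd b R) φ := core_iff.2 hφ
  have haψ : Ker (Qd b M G) (Sd b R) (fun x => a • ψ x) := ker_iff.2 (zset_smul a hψ)
  have hψ2 : MemLp ψ 2 volume := hψ.1
  have hψψ : ∫ x, ⟪ψ x, ψ x⟫_ℂ = 1 := by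
    have e : ∀ x, ⟪ψ x, ψ x⟫_ℂ = ((‖ψ x‖ ^ 2 : ℝ) : ℂ) := fun x => by
      rw [inner_self_eq_norm_sq_to_K]
      simp
    simp only [e]
    rw [integral_complex_ofReal, hn]
    simp
  have hmain := hcc φ (fun x => a • ψ x) hφ' haψ fun η hη => by
    have h1 := hl η (ker_iff.1 hη)
    set d : ℂ := ∫ y, ⟪ψ y, η y⟫_ℂ with hd
    have e1 : (fun x => ⟪η x, φ x - a • ψ x⟫_ℂ) =ᵐ[volume] fun x =>
        (starRingEnd ℂ d) * (⟪ψ x, φ x⟫_ℂ - a * ⟪ψ x, ψ x⟫_ℂ) := by
      filter_upwards [h1] with x hx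
      rw [hx, inner_smul_left, inner_sub_right, inner_smul_right]
    have i1 : Integrable fun x => ⟪ψ x, φ x⟫_ℂ := integrable_inner_memLp hψ2 hφ'.memLp
    have i2 : Integrable fun x => a * ⟪ψ x, ψ x⟫_ℂ :=
      (integrable_inner_memLp hψ2 hψ2).const_mul a
    rw [integral_congr_ae e1, integral_const_mul, integral_sub i1 i2, integral_const_mul, hψψ,
      mul_one, ← ha, sub_self, mul_zero]
  rw [qe_eq G hφ] at hmain
  have hI : Integrable fun x => (1 + ‖x‖ ^ 2)⁻¹ * ‖φ x - a • ψ x‖ ^ 2 := by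
    have h2 : MemLp (fun x => φ x - a • ψ x) 2 volume := hφ'.memLp.sub (hψ2.const_smul a)
    have h3 : Integrable fun x => ‖φ x - a • ψ x‖ ^ 2 := h2.integrable_norm_pow (by norm_num)
    have hcont : Continuous fun x : Cfg N => (1 + ‖x‖ ^ 2)⁻¹ := by
      refine Continuous.inv₀ (by fun_prop) fun x => ?_
      positivity
    refine h3.mono' (hcont.aestronglyMeasurable.mul h3.1) (Eventually.of_forall fun x => ?_)
    rw [Real.norm_of_nonneg (by positivity)]
    refine mul_le_of_le_one_left (by positivity) (inv_le_one_of_one_le₀ ?_)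
    have : (0 : ℝ) ≤ ‖x‖ ^ 2 := by positivity
    linarith
  have e2 : ∫⁻ x, jw x * ‖φ x - a • ψ x‖ₑ ^ 2 =
      ENNReal.ofReal (∫ x, (1 + ‖x‖ ^ 2)⁻¹ * ‖φ x - a • ψ x‖ ^ 2) := by
    rw [ofReal_integral_eq_lintegral_ofReal hI (Eventually.of_forall fun x => by positivity)]
    refine lintegral_congr fun x => ?_
    rw [enorm_sq_eq', ENNReal.ofReal_mul (by positivity), jw, one_div]
  rw [e2, ← ENNReal.ofReal_mul hc.le] at hmain
  exact (ENNReal.ofReal_le_ofReal_iff (SInd478.qf_nonneg b M G 1 0 φ)).1 hmain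

end Crest.Agent.R330.HardyL968

end
end

-- ▼ part R330/Last_478
section

/-!
# Row 330: S0512 from the channels (helper478, closer of section 12)

`s0512_of_chan` : the statement of S0512 follows from `Below N → ChanAll N` for all `N ≥ 2`.
-/

set_option autoImplicit false

open MeasureTheory Filter Topology Crest.MathPhysics.MatrixQM
open scoped ContDiff InnerProductSpace ENNReal

noncomputable section

namespace Crest.Agent.R330.Last478

open Crest.Agent.R330.Defs478 Crest.Agent.R330.Top478 Crest.Agent.R330.Sec478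
  Crest.Agent.R330.SInd478 Crest.Agent.R330.Close478

theorem stepIn {N : ℕ} (hN : 2 ≤ N) (h : Below N → Chan441.ChanAll N) : StepIn N where
  gap := GapAllN967.gapAll N
  l42 := Const87.l42All (by omega)
  low := LowFin967.lower (by omega)
  up := UpCl350.upper (by omega)
  dlow := (CapZB818.top h (TightAll423.tightAll (by omega))).dlow
  dup := (CapZB818.top h (TightAll423.tightAll (by omega))).dup
  ann := (CapZB818.top h (TightAll423.tightAll (by omega))).ann
  decay := HardyL968.decay_all N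
  hardy := HardyL968.hardy_all N
  even _ := Even522.evenAll N


/-- **The statement of S0512** from the channels. -/
theorem s0512_of_chan (h : ∀ N, 2 ≤ N → Below N → Chan441.ChanAll N) {N : ℕ} (hN : 2 ≤ N)
    (F : Type) [NormedAddCommGroup F] [InnerProductSpace ℂ F] [FiniteDimensional ℂ F]
    [Nontrivial F] (b : ColorBasis N) (M : FermionRep N F) (R : GaugeAction b M)
    (G : GammaNine) :
    ∃ Ψ₀ ∈ zeroEnergyStates b M R G, ¬ (Ψ₀ =ᵐ[volume] 0) ∧
      ∀ Ψ ∈ zeroEnergyStates b M R G, ∃ c : ℂ, Ψ =ᵐ[volume] c • Ψ₀ :=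
  Close478.s0512_of (fun N hN => stepIn hN (h N hN)) hN F b M R G

end Crest.Agent.R330.Last478

end
end

-- ▼ part R330/ChanTop_478
section

/-!
# Row 330, S8-TOP: `ChanAll N` from the statements on one partition (helper478)

* `ChIn P` : the open statements on the trial states of one `P : TPack C M R G`: local isometry and
  change of charts (inputs of 167's `gramT`), the dual estimate, capture at mass zero and one.
* `chanAll_of` : `ChanAll N` from `∃ P, ChIn P` for every partition with at least two parts.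
* `s0512_of` : the statement of S0512 from the same input.
-/

set_option autoImplicit false
set_option linter.unusedSectionVars false

open MeasureTheory Filter Topology Crest.MathPhysics.MatrixQM
open scoped ContDiff InnerProductSpace ENNReal

noncomputable section

namespace Crest.Agent.R330.ChanTop478

open Crest.Agent.R330.Defs478 Crest.Agent.R330.TDef414 Crest.Agent.R330.Chan441
  Crest.Agent.R330.Parts879 Crest.Agent.R330.Geo692 Crest.Agent.R330.ChSys399
  Crest.Agent.R330.CapGlue737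

section one

variable {N p : ℕ} {b : ColorBasis N} {S : Type} [Group S] [Fintype S] {C : Chn b p S}
  {F : Type} [NormedAddCommGroup F] [InnerProductSpace ℂ F] [FiniteDimensional ℂ F]
  {M : FermionRep N F} {R : GaugeAction b M} {G : GammaNine}

/-- The open statements on the trial states of one channel. -/
structure ChIn (P : TPack C M R G) : Prop where
  /-- (G1) local isometry (372) -/
  iso : Gram167.HIso P
  /-- (G3) change of charts (372) -/
  chart : Gram167.HChart P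
  /-- (T5) the dual estimate (547/714) -/
  dual : DualT P
  /-- capture at mass zero (342/8/737) -/
  cap0 : CapT P 0
  /-- capture at mass one -/
  cap1 : CapT P 1

theorem chartT (C : Chn b p S) : ChartT C := fun X0 h0 => by
  obtain ⟨σ, h1, -⟩ := SlEx814.exists_Sl C h0.reg one_pos
  exact ⟨σ, h1⟩

theorem coreT [Nontrivial F] (P : TPack C M R G) : CoreT P := fun σ χ => TCore383.core P σ χ

theorem suppT (h0 : ¬ C.BReg 0) (P : TPack C M R G) : SuppT P := fun σ χ => by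
  obtain ⟨δ, ρ, hδ, -, h⟩ := TCore383.supp h0 P σ χ
  exact ⟨δ, ρ, hδ, Eventually.of_forall h⟩

theorem ChIn.gramT [Nontrivial F] {P : TPack C M R G} (h : ChIn P) : GramT P :=
  Gram167.gramT (TCore383.core P) h.iso h.chart (LitC974.conc P)

end one

variable {N : ℕ}

theorem not_breg (b : ColorBasis N) (L : Lam N) : ¬ (chn b L).BReg 0 := by
  intro h
  have h2 := L.two_le_m
  have h3 : (⟨0, by omega⟩ : Fin L.m) ≠ ⟨1, by omega⟩ := by
    intro h4
    have := congrArg Fin.val h4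
    simp at this
  exact h ⟨(⟨0, by omega⟩, ⟨1, by omega⟩), h3⟩ (map_zero _)

section chan

variable {b : ColorBasis N} {F : Type} [NormedAddCommGroup F] [InnerProductSpace ℂ F]
  [FiniteDimensional ℂ F] [Nontrivial F] {M : FermionRep N F} {R : GaugeAction b M}
  {G : GammaNine}

/-- The bundled channel of a partition. -/
def theChan {L : Lam N} {P : TPack (chn b L) M R G} (hP : ChIn P) : Chan441.Chan b M R G :=
  ChLit879.chanLit (C := chn b L) (by have := L.two_le_m; omega) P (chartT _) (coreT P)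
    (suppT (not_breg b L) P) (Rad969.radT P) hP.gramT hP.dual

end chan

/-- The open input of `ChanAll N`: one pack with the statements `ChIn` for every partition. -/
def PackAll (N : ℕ) : Prop :=
  ∀ (F : Type) [NormedAddCommGroup F] [InnerProductSpace ℂ F] [FiniteDimensional ℂ F]
    [Nontrivial F] (b : ColorBasis N) (M : FermionRep N F) (R : GaugeAction b M)
    (G : GammaNine) (L : Lam N), ∃ P : TPack (chn b L) M R G, ChIn P

/-- **`ChanAll N`** from the statements on one partition. -/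
theorem chanAll_of (hN : 0 < N) (h : PackAll N) : ChanAll N := by
  intro F _ _ _ _ b M R G
  choose P hP using h F b M R G
  refine ⟨Lam N, inferInstance, fun L => theChan (hP L), card_Lam N, fun i j hij => ?_, ?_, ?_⟩
  · exact ConcT974.orth_TT hij (P i) (P j)
  · exact capFam_of_capT hN le_rfl zero_le_one (orbitT b) P fun L => (hP L).cap0
  · exact capFam_of_capT hN zero_le_one le_rfl (orbitT b) P fun L => (hP L).cap1

/-- **The statement of S0512** from the packs. -/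
theorem s0512_of (h : ∀ N, 2 ≤ N → Close478.Below N → PackAll N) {N : ℕ} (hN : 2 ≤ N)
    (F : Type) [NormedAddCommGroup F] [InnerProductSpace ℂ F] [FiniteDimensional ℂ F]
    [Nontrivial F] (b : ColorBasis N) (M : FermionRep N F) (R : GaugeAction b M)
    (G : GammaNine) :
    ∃ Ψ₀ ∈ zeroEnergyStates b M R G, ¬ (Ψ₀ =ᵐ[volume] 0) ∧
      ∀ Ψ ∈ zeroEnergyStates b M R G, ∃ c : ℂ, Ψ =ᵐ[volume] c • Ψ₀ :=
  Last478.s0512_of_chan (fun N hN hb => chanAll_of (by omega) (h N hN hb)) hN F b M R G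

end Crest.Agent.R330.ChanTop478

end
end

-- ▼ part R330/Fin_478

/-!
# Row 330: S0512 (helper478)

* `locAt` : the inputs of the local capture estimate (342, 924, 879, 406/596, 186/815, 424/245).
* `packAll` : the trial data of all channels, from `Below N`.
* `s0512` : **the statement of S0512**.
-/

set_option autoImplicit false
set_option linter.unusedSectionVars false

open MeasureTheory Filter Topology Crest.MathPhysics.MatrixQM
open scoped ContDiff InnerProductSpace ENNReal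

noncomputable section

namespace Crest.Agent.R330.Fin478

open Crest.Agent.R330.TDef414 Crest.Agent.R330.Chan441 Crest.Agent.R330.Parts879
  Crest.Agent.R330.Geo692 Crest.Agent.R330.ChanTop478 Crest.Agent.R330.T7776
  Crest.Agent.R330.Psi477 Crest.Agent.R330.Close478 Crest.Agent.R330.LocF8
  Crest.Agent.R330.LocD8

/-- The inputs of the local capture estimate. -/
theorem locAt {N p : ℕ} {b : ColorBasis N} {S : Type} [Group S] [Fintype S] {C : Chn b p S}
    {F : Type} [NormedAddCommGroup F] [InnerProductSpace ℂ F] [FiniteDimensional ℂ F]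
    [Nontrivial F] {M : FermionRep N F} {R : GaugeAction b M} {G : GammaNine}
    (P : TPack C M R G) (σ : Sl C) {m : ℝ} (h0 : 0 ≤ m) (h1 : m ≤ 1) : LocAt P σ m where
  i1 := LocG8.i1 P σ m h0 h1
  tail := XCut924.tail M R G σ h0 h1
  mass := LocG8.mass P σ m
  hq := HQFin478.hq P σ h0 h1
  i3 := I3Fin478.i3 P σ h0 h1
  i4 := LocG8.i4 P σ m

/-- The trial data of all channels. -/
theorem packAll {N : ℕ} (hB : Below N) : PackAll N := by
  intro F _ _ _ _ b M R G L
  obtain ⟨P, hP⟩ := exists_tpack_of (R := R) (M := M) (b := b) (G := G) hB L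
    ⟨_, UPack311.uData b L G R⟩ (fun D T => PsiB726.psiData_chn b M R L T)
    (fun D T P hP => HBind450.psiHardy T (Link973.link b L D.bn) (Link973.linkCov b L D.bn) P hP)
  have hC := Gram6372.cross P
  exact ⟨P, ⟨GramX167.hiso P hC, GramX167.hchart P hC, Dual478.dualT P,
    capT_of_forall hP (fun σ => locAt P σ le_rfl zero_le_one),
    capT_of_forall hP (fun σ => locAt P σ zero_le_one le_rfl)⟩⟩


/-- **The statement of S0512.** -/
theorem s0512 {N : ℕ} (hN : 2 ≤ N)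
    (F : Type) [NormedAddCommGroup F] [InnerProductSpace ℂ F] [FiniteDimensional ℂ F]
    [Nontrivial F] (b : ColorBasis N) (M : FermionRep N F) (R : GaugeAction b M)
    (G : GammaNine) :
    ∃ Ψ₀ ∈ zeroEnergyStates b M R G, ¬ (Ψ₀ =ᵐ[volume] 0) ∧
      ∀ Ψ ∈ zeroEnergyStates b M R G, ∃ c : ℂ, Ψ =ᵐ[volume] c • Ψ₀ :=
  ChanTop478.s0512_of (fun _ _ hB => packAll hB) hN F b M R G

end Crest.Agent.R330.Fin478

end
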