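import Crest.Agent.R330.Top_478
import Crest.Agent.R330.DiagB_304
import Crest.Agent.R330.Bind6_839

-- ▼ part R330/Parts_879
section

/-!
# Row 330, S8-SUM: the index set of the channels (helper879)

* `Lam N` : partitions of `N` with at least two parts; `card_Lam : card (Lam N) = pN N - 1`.
* `P.m`, `P.k : Fin P.m → ℕ` : number and sizes of the clusters (sorted, non-increasing);
  `sum_k`, `k_pos`, `k_lt`, `two_le_m`, `map_k` (the multiset of sizes is the partition).
* `P.eqv : (Σ p, Fin (P.k p)) ≃ Fin N`, `P.cl : Fin N → Fin P.m` (label of the cluster),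
  `card_cl`, `cl_surj`.
* `exists_label` : every `f : Fin N → ι` with two different values is `r ∘ P.cl` up to a permutation
  of `Fin N`, with `r` injective, for some `P : Lam N`; `label_unique` : `P` is unique.
* `Sw P` : permutations of the clusters which preserve the sizes; `lift σ : Perm (Fin N)` moves the
  clusters accordingly (`cl_lift`, `lift_eqv`).
-/

set_option autoImplicit false

noncomputable section

namespace Crest.Agent.R330.Parts879

open Crest.Agent.R330.Top478

/-- Partitions of `N` with at least two parts. -/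
def Lam (N : ℕ) : Type := {P : Nat.Partition N // 2 ≤ P.parts.card}

variable {N : ℕ}

instance : DecidableEq (Lam N) := Classical.decEq _

instance : Fintype (Lam N) := by
  unfold Lam
  exact Subtype.fintype _

theorem parts_card_eq_zero (P : Nat.Partition N) (h : P.parts.card = 0) : N = 0 := by
  have h1 := P.parts_sum
  rw [Multiset.card_eq_zero.1 h] at h1
  simpa using h1.symm

theorem card_lt_two_iff (P : Nat.Partition N) :
    ¬ 2 ≤ P.parts.card ↔ P = Nat.Partition.indiscrete N := by
  constructor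
  · intro h
    rcases Nat.eq_zero_or_pos N with rfl | hN
    · exact Subsingleton.elim _ _
    have h1 : P.parts.card ≠ 0 := fun h0 => hN.ne' (parts_card_eq_zero P h0)
    have h2 : P.parts.card = 1 := by omega
    obtain ⟨a, ha⟩ := Multiset.card_eq_one.1 h2
    have h3 := P.parts_sum
    rw [ha, Multiset.sum_singleton] at h3
    subst h3
    apply Nat.Partition.ext
    rw [ha, Nat.Partition.indiscrete_parts hN.ne']
  · rintro rfl h
    rcases Nat.eq_zero_or_pos N with rfl | hN
    · have h0 : (Nat.Partition.indiscrete 0).parts = 0 := by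
        have h1 := (Nat.Partition.indiscrete 0).parts_sum
        rw [Multiset.sum_eq_zero_iff] at h1
        refine Multiset.eq_zero_of_forall_notMem fun a ha => ?_
        have h2 := h1 a ha
        have h3 := (Nat.Partition.indiscrete 0).parts_pos ha
        omega
      rw [h0] at h
      simp at h
    · rw [Nat.Partition.indiscrete_parts hN.ne'] at h
      simp at h

theorem card_Lam (N : ℕ) : Fintype.card (Lam N) = pN N - 1 := by
  classical
  have h1 : Fintype.card (Lam N) =
      Fintype.card {P : Nat.Partition N // ¬ P = Nat.Partition.indiscrete N} := by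
    refine Fintype.card_congr (Equiv.subtypeEquivRight fun P => ?_)
    rw [← card_lt_two_iff, not_not]
  rw [h1, Fintype.card_subtype_compl, Fintype.card_subtype_eq]
  rfl

namespace Lam

variable (P : Lam N)

/-- The number of clusters. -/
def m : ℕ := P.1.parts.card

/-- The list of the sizes, non-increasing. -/
def list : List ℕ := P.1.parts.sort (· ≥ ·)

theorem length_list : P.list.length = P.m := by
  unfold list m
  exact Multiset.length_sort _

/-- The sizes of the clusters. -/
def k (p : Fin P.m) : ℕ := P.list.get (p.cast P.length_list.symm)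

theorem two_le_m : 2 ≤ P.m := P.2


theorem coe_list : (P.list : Multiset ℕ) = P.1.parts := Multiset.sort_eq _ _

theorem ofFn_k : List.ofFn P.k = P.list := by
  apply List.ext_get
  · rw [List.length_ofFn, P.length_list]
  · intro n h1 h2
    simp [k]

theorem map_k : (Finset.univ : Finset (Fin P.m)).val.map P.k = P.1.parts := by
  rw [← P.coe_list, ← P.ofFn_k]
  rw [Fin.univ_val_map]

theorem sum_k : ∑ p, P.k p = N := by
  have h := P.1.parts_sum
  rw [← P.map_k] at h
  exact h

theorem k_mem (p : Fin P.m) : P.k p ∈ P.1.parts := by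
  rw [← P.map_k]
  exact Multiset.mem_map_of_mem _ (Finset.mem_univ_val p)

theorem k_pos (p : Fin P.m) : 0 < P.k p := P.1.parts_pos (P.k_mem p)

theorem one_le_k (p : Fin P.m) : 1 ≤ P.k p := P.k_pos p


/-- Every cluster is smaller than `N`. -/
theorem k_lt (p : Fin P.m) : P.k p < N := by
  obtain ⟨q, hq⟩ : ∃ q : Fin P.m, q ≠ p := by
    have : Nontrivial (Fin P.m) := Fin.nontrivial_iff_two_le.2 P.two_le_m
    exact exists_ne p
  have h1 : P.k p + P.k q ≤ ∑ r, P.k r := by
    have h2 : ∑ r ∈ ({p, q} : Finset (Fin P.m)), P.k r ≤ ∑ r, P.k r :=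
      Finset.sum_le_sum_of_subset (Finset.subset_univ _)
    rwa [Finset.sum_pair hq.symm] at h2
  rw [P.sum_k] at h1
  have := P.k_pos q
  omega

theorem two_le (P : Lam N) : 2 ≤ N := by
  have h1 : ∑ _p : Fin P.m, 1 ≤ ∑ p, P.k p := Finset.sum_le_sum fun p _ => P.one_le_k p
  rw [P.sum_k] at h1
  simp only [Finset.sum_const, Finset.card_univ, Fintype.card_fin, smul_eq_mul, mul_one] at h1
  exact P.two_le_m.trans h1

/-- The identification of the disjoint union of the clusters with `Fin N`. -/
def eqv : (Σ p : Fin P.m, Fin (P.k p)) ≃ Fin N := finSigmaFinEquiv.trans (finCongr P.sum_k)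

/-- The label of the cluster. -/
def cl (a : Fin N) : Fin P.m := (P.eqv.symm a).1

theorem cl_eqv (x : Σ p : Fin P.m, Fin (P.k p)) : P.cl (P.eqv x) = x.1 := by
  rw [cl, Equiv.symm_apply_apply]

theorem fib_bij (p : Fin P.m) : Function.Bijective
    (fun i : Fin (P.k p) => (⟨P.eqv ⟨p, i⟩, P.cl_eqv _⟩ : {a : Fin N // P.cl a = p})) := by
  constructor
  · intro i j hij
    have h1 := P.eqv.injective (congrArg Subtype.val hij)
    simpa using h1
  · rintro ⟨a, rfl⟩
    refine ⟨(P.eqv.symm a).2, Subtype.ext ?_⟩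
    change P.eqv (P.eqv.symm a) = a
    rw [Equiv.apply_symm_apply]

/-- The cluster of label `p`. -/
def fib (p : Fin P.m) : Fin (P.k p) ≃ {a : Fin N // P.cl a = p} := Equiv.ofBijective _ (P.fib_bij p)


theorem card_cl (p : Fin P.m) : Fintype.card {a : Fin N // P.cl a = p} = P.k p := by
  classical
  rw [← Fintype.card_congr (P.fib p), Fintype.card_fin]


theorem cl_surj (p : Fin P.m) : ∃ a : Fin N, P.cl a = p :=
  ⟨P.eqv ⟨p, ⟨0, P.k_pos p⟩⟩, P.cl_eqv _⟩

end Lam

/-! ### Equivalences from equal multisets of values -/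

theorem card_fiber {α ν : Type*} [Fintype α] [DecidableEq ν] (f : α → ν) (n : ν)
    [Fintype {a // f a = n}] :
    Fintype.card {a // f a = n} = Multiset.count n ((Finset.univ : Finset α).val.map f) := by
  rw [Fintype.card_subtype, Multiset.count_map, Finset.card_def, Finset.filter_val]
  congr 1
  exact Multiset.filter_congr fun a _ => eq_comm

/-- An equivalence which matches two functions with the same multiset of values. -/
theorem exists_equiv_of_map_eq {α β ν : Type*} [Fintype α] [Fintype β] (f : α → ν) (g : β → ν)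
    (h : (Finset.univ : Finset α).val.map f = (Finset.univ : Finset β).val.map g) :
    ∃ e : α ≃ β, ∀ a, g (e a) = f a := by
  classical
  have h1 : ∀ n, Nonempty ({a // f a = n} ≃ {b // g b = n}) := fun n =>
    Fintype.card_eq.1 (by rw [card_fiber, card_fiber, h])
  let E := fun n => (h1 n).some
  refine ⟨(Equiv.sigmaFiberEquiv f).symm.trans ((Equiv.sigmaCongrRight E).trans
    (Equiv.sigmaFiberEquiv g)), fun a => ?_⟩
  exact (E (f a) ⟨a, rfl⟩).2

/-- Labellings with matching fibre sizes differ by permutations. -/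
theorem exists_perm_of_card {α ι κ : Type*} [Fintype α] [DecidableEq ι] [DecidableEq κ]
    (f : α → ι) (g : α → κ) (e : ι ≃ κ)
    (h : ∀ y, Fintype.card {a // f a = y} = Fintype.card {a // g a = e y}) :
    ∃ τ : Equiv.Perm α, ∀ a, g (τ a) = e (f a) := by
  classical
  have h1 : ∀ y, Nonempty ({a // f a = y} ≃ {a // g a = e y}) := fun y => Fintype.card_eq.1 (h y)
  let E := fun n => (h1 n).some
  let T : (Σ y, {a // f a = y}) ≃ Σ z, {a // g a = z} :=
    (Equiv.sigmaCongrRight E).trans (Equiv.sigmaCongrLeft (β := fun z => {a // g a = z}) e)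
  refine ⟨(Equiv.sigmaFiberEquiv f).symm.trans (T.trans (Equiv.sigmaFiberEquiv g)), fun a => ?_⟩
  exact (E (f a) ⟨a, rfl⟩).2

/-- Every labelling of `Fin N` with at least two values is a cluster labelling, up to a permutation
and an injective renaming of the labels. -/
theorem exists_label {ι : Type*} (f : Fin N → ι) (hf : ∃ a b, f a ≠ f b) :
    ∃ (P : Lam N) (r : Fin P.m → ι) (τ : Equiv.Perm (Fin N)), Function.Injective r ∧
      ∀ a, f (τ a) = r (P.cl a) := by
  classical
  obtain ⟨a₀, b₀, hab⟩ := hf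
  set S : Finset ι := Finset.univ.image f with hS
  let sz : S → ℕ := fun y => Fintype.card {a // f a = y.1}
  have hfS : ∀ a, f a ∈ S := fun a => Finset.mem_image_of_mem _ (Finset.mem_univ a)
  let fS : Fin N → S := fun a => ⟨f a, hfS a⟩
  have hsz : ∀ y : S, sz y = Fintype.card {a // fS a = y} := fun y =>
    Fintype.card_congr (Equiv.subtypeEquivRight fun a => by
      simp only [fS, Subtype.ext_iff])
  have hpos : ∀ y : S, 0 < sz y := fun y => by
    obtain ⟨a, -, ha⟩ := Finset.mem_image.1 y.2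
    exact Fintype.card_pos_iff.2 ⟨⟨a, ha⟩⟩
  have hsum : ∑ y : S, sz y = N := by
    have h1 : Fintype.card (Σ y : S, {a // fS a = y}) = N := by
      rw [Fintype.card_congr (Equiv.sigmaFiberEquiv fS), Fintype.card_fin]
    rw [Fintype.card_sigma] at h1
    rw [← h1]
    exact Finset.sum_congr rfl fun y _ => hsz y
  have hcard : 2 ≤ Fintype.card S := by
    have h2 : (⟨f a₀, hfS a₀⟩ : S) ≠ ⟨f b₀, hfS b₀⟩ := fun h => hab (congrArg Subtype.val h)
    exact Fintype.one_lt_card_iff.2 ⟨_, _, h2⟩
  let P : Lam N := ⟨{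
    parts := (Finset.univ : Finset S).val.map sz
    parts_pos := by
      intro i hi
      obtain ⟨y, -, rfl⟩ := Multiset.mem_map.1 hi
      exact hpos y
    parts_sum := hsum }, by
      rw [Multiset.card_map]
      exact hcard⟩
  obtain ⟨e, he⟩ := exists_equiv_of_map_eq P.k sz P.map_k
  have hfib : ∀ p, Fintype.card {a // P.cl a = p} = Fintype.card {a // fS a = e p} := fun p => by
    rw [P.card_cl, ← he p]
    exact hsz _
  obtain ⟨τ, hτ⟩ := exists_perm_of_card P.cl fS e hfib
  refine ⟨P, fun p => (e p).1, τ, fun p q hpq => e.injective (Subtype.ext hpq), fun a => ?_⟩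
  exact congrArg Subtype.val (hτ a)

/-- The partition is determined by the labelling. -/
theorem label_unique {ι : Type*} {P Q : Lam N} {r : Fin P.m → ι} {s : Fin Q.m → ι}
    (hr : Function.Injective r) (hs : Function.Injective s) (τ : Equiv.Perm (Fin N))
    (h : ∀ a, r (P.cl a) = s (Q.cl (τ a))) : P = Q := by
  classical
  -- the bijection of the labels
  have h1 : ∀ p : Fin P.m, ∃ q : Fin Q.m, s q = r p := fun p => by
    obtain ⟨a, ha⟩ := P.cl_surj p
    exact ⟨Q.cl (τ a), by rw [← h a, ha]⟩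
  choose e he using h1
  have he_inj : Function.Injective e := fun p q hpq => hr (by rw [← he p, ← he q, hpq])
  have he_surj : Function.Surjective e := fun q => by
    obtain ⟨a, ha⟩ := Q.cl_surj q
    refine ⟨P.cl (τ.symm a), hs ?_⟩
    rw [he, h, Equiv.apply_symm_apply, ha]
  let E : Fin P.m ≃ Fin Q.m := Equiv.ofBijective e ⟨he_inj, he_surj⟩
  have hk : ∀ p, Q.k (E p) = P.k p := fun p => by
    rw [← P.card_cl, ← Q.card_cl]
    refine Fintype.card_congr (Equiv.subtypeEquiv τ.symm fun a => ?_)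
    have h2 := h (τ.symm a)
    rw [Equiv.apply_symm_apply] at h2
    constructor
    · intro ha
      exact hr (by rw [h2, ha]; exact he p)
    · intro ha
      refine hs ?_
      rw [← h2, ha]
      exact (he p).symm
  apply Subtype.ext
  apply Nat.Partition.ext
  rw [← P.map_k, ← Q.map_k]
  have h3 : (Finset.univ : Finset (Fin Q.m)).val = (Finset.univ : Finset (Fin P.m)).val.map E :=
    (Multiset.map_univ_val_equiv E).symm
  rw [h3, Multiset.map_map]
  exact Multiset.map_congr rfl fun p _ => (hk p).symm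

/-! ### Permutations of clusters of equal size -/

/-- The permutations of the clusters which preserve the sizes. -/
def Sw (P : Lam N) : Subgroup (Equiv.Perm (Fin P.m)) where
  carrier := {σ | ∀ p, P.k (σ p) = P.k p}
  mul_mem' := by
    intro σ τ hσ hτ p
    change P.k (σ (τ p)) = P.k p
    rw [hσ, hτ]
  one_mem' := fun p => rfl
  inv_mem' := by
    intro σ hσ p
    have h := hσ (σ⁻¹ p)
    rw [← h]
    congr 1
    exact σ.apply_symm_apply p

theorem mem_Sw {P : Lam N} {σ : Equiv.Perm (Fin P.m)} : σ ∈ Sw P ↔ ∀ p, P.k (σ p) = P.k p :=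
  Iff.rfl

/-- The permutation of `Fin N` which moves the clusters. -/
def lift {P : Lam N} (σ : Equiv.Perm (Fin P.m)) (hσ : σ ∈ Sw P) : Equiv.Perm (Fin N) :=
  P.eqv.symm.trans (((Equiv.sigmaCongrRight fun p => finCongr (hσ p).symm).trans
    (Equiv.sigmaCongrLeft (β := fun p => Fin (P.k p)) σ)).trans P.eqv)

theorem cl_lift {P : Lam N} (σ : Equiv.Perm (Fin P.m)) (hσ : σ ∈ Sw P) (a : Fin N) :
    P.cl (lift σ hσ a) = σ (P.cl a) := by
  unfold lift
  simp only [Equiv.trans_apply]
  rw [P.cl_eqv]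
  rfl


end Crest.Agent.R330.Parts879

end
end

-- ▼ part R330/Geo8_692

/-!
# Row 330, S8-GEO (helper692): the geometry of one channel `P : Lam N`

* `Cen b P` : the centre of the block algebra, `finrank = m - 1`; `cen b P` : an isometric
  parametrisation by `EuclideanSpace ℝ (Fin (m - 1))`; `lab` : the diagonal values.
* `XS P` : positions; `cfX b P : XS P →ₗᵢ[ℝ] Cfg N`; `pos b P X p` : the position of cluster `p`;
  `cfX_eq_dg`, `sum_pos`, `norm_sq_pos`, `exists_pos`, `pos_inj`.
* `Reg b P`, `UU b P` : distinct positions, distinct `b`-parts.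
* `kk b P` : the block algebra; `kc_cfX` : the stabiliser algebra of `cfX b P X` for `X ∈ Reg`.
* `Kst P` : the block subgroup; `act_cfX_iff` : it is the stabiliser.
-/

set_option autoImplicit false
set_option linter.unusedSectionVars false

open MeasureTheory Filter Topology Crest.MathPhysics.MatrixQM
open scoped ContDiff InnerProductSpace ENNReal BigOperators

noncomputable section

namespace Crest.Agent.R330.Geo692

open Crest.Agent.R330.Parts879 Crest.Agent.R330.LS839 Crest.Agent.R330.Bind6839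
open Crest.Agent.R330.Frame839 (kc Tn)
open Crest.Agent.R330.Blk304 (hm cf hs)
open Crest.Agent.R330.Diag304 (dg)

variable {N : ℕ} (b : ColorBasis N) (P : Lam N)

/-! ## The centre -/

/-- The block scalar matrix with values `r`. -/
def bsc (r : Fin P.m → ℝ) : Matrix (Fin N) (Fin N) ℂ :=
  Matrix.diagonal fun a => ((r (P.cl a) : ℝ) : ℂ)

theorem bsc_add (r s : Fin P.m → ℝ) : bsc P (r + s) = bsc P r + bsc P s := by
  unfold bsc
  rw [Matrix.diagonal_add]
  congr 1
  funext a
  simp

theorem bsc_smul (t : ℝ) (r : Fin P.m → ℝ) : bsc P (t • r) = (t : ℂ) • bsc P r := by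
  unfold bsc
  rw [← Matrix.diagonal_smul]
  congr 1
  funext a
  simp


theorem bsc_herm (r : Fin P.m → ℝ) : (bsc P r).IsHermitian := by
  unfold bsc
  rw [Matrix.IsHermitian, Matrix.diagonal_conjTranspose]
  congr 1
  funext a
  simp

theorem sum_cl (f : Fin P.m → ℝ) : ∑ a : Fin N, f (P.cl a) = ∑ p, (P.k p : ℝ) * f p := by
  classical
  rw [← P.eqv.sum_comp, Fintype.sum_sigma]
  refine Finset.sum_congr rfl fun p _ => ?_
  simp [Lam.cl_eqv]

theorem trace_bsc (r : Fin P.m → ℝ) :
    (bsc P r).trace = ((∑ p, (P.k p : ℝ) * r p : ℝ) : ℂ) := by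
  unfold bsc
  rw [Matrix.trace_diagonal, ← sum_cl, Complex.ofReal_sum]

theorem bsc_inj {r s : Fin P.m → ℝ} (h : bsc P r = bsc P s) : r = s := by
  funext p
  obtain ⟨a, rfl⟩ := P.cl_surj p
  have h1 := congrFun (congrFun h a) a
  unfold bsc at h1
  rw [Matrix.diagonal_apply_eq, Matrix.diagonal_apply_eq] at h1
  exact_mod_cast h1

theorem hs_bsc (r : Fin P.m → ℝ) : hs (bsc P r) = ∑ p, (P.k p : ℝ) * r p ^ 2 := by
  rw [← sum_cl P (fun p => r p ^ 2)]
  unfold Blk304.hs bsc
  refine Finset.sum_congr rfl fun a _ => ?_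
  rw [Finset.sum_eq_single a]
  · rw [Matrix.diagonal_apply_eq, Complex.norm_real, Real.norm_eq_abs, sq_abs]
  · intro c _ hc
    rw [Matrix.diagonal_apply_ne _ (Ne.symm hc), norm_zero]
    ring
  · intro h
    exact absurd (Finset.mem_univ _) h

/-- The value vectors with vanishing trace. -/
def Val : Submodule ℝ (Fin P.m → ℝ) :=
  LinearMap.ker (∑ p, (P.k p : ℝ) • LinearMap.proj (R := ℝ) (φ := fun _ : Fin P.m => ℝ) p)

theorem mem_Val {r : Fin P.m → ℝ} : r ∈ Val P ↔ ∑ p, (P.k p : ℝ) * r p = 0 := by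
  unfold Val
  rw [LinearMap.mem_ker, LinearMap.sum_apply]
  simp

theorem finrank_Val : Module.finrank ℝ (Val P) = P.m - 1 := by
  set f : (Fin P.m → ℝ) →ₗ[ℝ] ℝ :=
    ∑ p, (P.k p : ℝ) • LinearMap.proj (R := ℝ) (φ := fun _ : Fin P.m => ℝ) p with hf
  have h1 : LinearMap.range f = ⊤ := by
    rw [LinearMap.range_eq_top]
    refine LinearMap.surjective_of_ne_zero fun h0 => ?_
    have h2 := LinearMap.congr_fun h0 (fun _ => (1 : ℝ))
    rw [hf, LinearMap.sum_apply] at h2
    simp only [LinearMap.smul_apply, LinearMap.proj_apply, smul_eq_mul, mul_one,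
      LinearMap.zero_apply] at h2
    have h3 : (∑ p, (P.k p : ℝ)) = N := by
      rw [← Nat.cast_sum, P.sum_k]
    rw [h3] at h2
    have h4 : N = 0 := by exact_mod_cast h2
    have := P.two_le
    omega
  have h5 := LinearMap.finrank_range_add_finrank_ker f
  rw [h1, finrank_top, Module.finrank_self, Module.finrank_fintype_fun_eq_card,
    Fintype.card_fin] at h5
  change Module.finrank ℝ (LinearMap.ker f) = P.m - 1
  omega

/-- The colour vector of a block scalar matrix. -/
def cvec : (Fin P.m → ℝ) →ₗ[ℝ] Colg N where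
  toFun r := WithLp.toLp 2 (cf b (bsc P r))
  map_add' r s := by rw [bsc_add, Blk304.cf_add, WithLp.toLp_add]
  map_smul' t r := by rw [bsc_smul, Blk304.cf_smul, WithLp.toLp_smul, RingHom.id_apply]

theorem hm_cvec {r : Fin P.m → ℝ} (h : r ∈ Val P) : hm b (cvec b P r).ofLp = bsc P r := by
  change hm b (cf b (bsc P r)) = bsc P r
  refine Blk304.hm_cf b (bsc_herm P r) ?_
  rw [trace_bsc, (mem_Val P).1 h, Complex.ofReal_zero]

/-- The centre of the block algebra. -/
def Cen : Submodule ℝ (Colg N) := (Val P).map (cvec b P)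

theorem mem_Cen {u : Colg N} : u ∈ Cen b P ↔ ∃ r ∈ Val P, hm b u.ofLp = bsc P r := by
  constructor
  · rintro ⟨r, hr, rfl⟩
    exact ⟨r, hr, hm_cvec b P hr⟩
  · rintro ⟨r, hr, h⟩
    refine ⟨r, hr, ?_⟩
    have h1 : (cvec b P r).ofLp = u.ofLp := by
      apply Blk304.hm_inj b
      rw [hm_cvec b P hr, h]
    rw [← WithLp.toLp_ofLp 2 u, ← h1]

theorem cvec_injOn {r s : Fin P.m → ℝ} (hr : r ∈ Val P) (hs' : s ∈ Val P)
    (h : cvec b P r = cvec b P s) : r = s := by
  apply bsc_inj P
  rw [← hm_cvec b P hr, ← hm_cvec b P hs', h]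

theorem finrank_Cen : Module.finrank ℝ (Cen b P) = P.m - 1 := by
  rw [← finrank_Val P]
  have hinj : Function.Injective ((cvec b P).domRestrict (Val P)) := by
    intro r s h
    exact Subtype.ext (cvec_injOn b P r.2 s.2 h)
  have h1 : Cen b P = LinearMap.range ((cvec b P).domRestrict (Val P)) := by
    ext u
    constructor
    · rintro ⟨r, hr, rfl⟩
      exact ⟨⟨r, hr⟩, rfl⟩
    · rintro ⟨r, rfl⟩
      exact ⟨r, r.2, rfl⟩
  rw [h1]
  exact LinearMap.finrank_range_of_inj hinj

/-- An orthonormal basis of the centre. -/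
def cenB : OrthonormalBasis (Fin (P.m - 1)) ℝ (Cen b P) :=
  (stdOrthonormalBasis ℝ (Cen b P)).reindex (finCongr (finrank_Cen b P))

/-- **The isometric parametrisation of the centre.** -/
def cen : EuclideanSpace ℝ (Fin (P.m - 1)) →ₗᵢ[ℝ] Colg N :=
  (Cen b P).subtypeₗᵢ.comp (cenB b P).repr.symm.toLinearIsometry

theorem cen_mem (s : EuclideanSpace ℝ (Fin (P.m - 1))) : cen b P s ∈ Cen b P :=
  ((cenB b P).repr.symm s).2

theorem range_cen : LinearMap.range (cen b P).toLinearMap = Cen b P := by
  ext u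
  constructor
  · rintro ⟨s, rfl⟩
    exact cen_mem b P s
  · intro hu
    refine ⟨(cenB b P).repr ⟨u, hu⟩, ?_⟩
    change (((cenB b P).repr.symm ((cenB b P).repr ⟨u, hu⟩) : Cen b P) : Colg N) = u
    rw [LinearIsometryEquiv.symm_apply_apply]

/-- The diagonal values of the centre vector `cen s`. -/
def lab : EuclideanSpace ℝ (Fin (P.m - 1)) →ₗ[ℝ] (Fin P.m → ℝ) where
  toFun s p := (hm b (cen b P s).ofLp (P.eqv ⟨p, ⟨0, P.k_pos p⟩⟩)
    (P.eqv ⟨p, ⟨0, P.k_pos p⟩⟩)).re
  map_add' s t := by
    funext p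
    rw [map_add, WithLp.ofLp_add, Blk304.hm_add, Matrix.add_apply, Complex.add_re]
    rfl
  map_smul' t s := by
    funext p
    rw [map_smul, WithLp.ofLp_smul, Blk304.hm_smul, Matrix.smul_apply, smul_eq_mul,
      Complex.re_ofReal_mul]
    rfl

theorem hm_cen (s : EuclideanSpace ℝ (Fin (P.m - 1))) :
    hm b (cen b P s).ofLp = bsc P (lab b P s) := by
  obtain ⟨r, hr, h⟩ := (mem_Cen b P).1 (cen_mem b P s)
  have h1 : lab b P s = r := by
    funext p
    change (hm b (cen b P s).ofLp _ _).re = r p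
    rw [h]
    unfold bsc
    rw [Matrix.diagonal_apply_eq, P.cl_eqv, Complex.ofReal_re]
  rw [h, h1]

theorem lab_mem (s : EuclideanSpace ℝ (Fin (P.m - 1))) : lab b P s ∈ Val P := by
  obtain ⟨r, hr, h⟩ := (mem_Cen b P).1 (cen_mem b P s)
  rw [hm_cen] at h
  rw [bsc_inj P h]
  exact hr

theorem cvec_lab (s : EuclideanSpace ℝ (Fin (P.m - 1))) : cvec b P (lab b P s) = cen b P s := by
  have h1 : (cvec b P (lab b P s)).ofLp = (cen b P s).ofLp := by
    apply Blk304.hm_inj b
    rw [hm_cvec b P (lab_mem b P s), hm_cen]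
  rw [← WithLp.toLp_ofLp 2 (cen b P s), ← h1]

theorem lab_inj {s t : EuclideanSpace ℝ (Fin (P.m - 1))} (h : lab b P s = lab b P t) : s = t := by
  apply (cen b P).injective
  rw [← cvec_lab, ← cvec_lab, h]

theorem exists_lab {r : Fin P.m → ℝ} (hr : r ∈ Val P) : ∃ s, lab b P s = r := by
  have h1 : cvec b P r ∈ Cen b P := ⟨r, hr, rfl⟩
  rw [← range_cen] at h1
  obtain ⟨s, hs'⟩ := h1
  refine ⟨s, cvec_injOn b P (lab_mem b P s) hr ?_⟩
  rw [cvec_lab]
  exact hs'

theorem norm_sq_lab (s : EuclideanSpace ℝ (Fin (P.m - 1))) :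
    ∑ p, (P.k p : ℝ) * lab b P s p ^ 2 = ‖s‖ ^ 2 := by
  rw [← hs_bsc, ← hm_cen, ← Diag304.norm_colg_sq, LinearIsometry.norm_map]

/-! ## Positions -/

/-- The space of positions of the channel. -/
abbrev XS (P : Lam N) := EuclideanSpace ℝ (Fin 9 × Fin (P.m - 1))

/-- The `i`-th row of a position. -/
def xrow (X : XS P) (i : Fin 9) : EuclideanSpace ℝ (Fin (P.m - 1)) := WithLp.toLp 2 fun s => X (i, s)

theorem norm_sq_xrow (X : XS P) : ‖X‖ ^ 2 = ∑ i, ‖xrow P X i‖ ^ 2 := by
  rw [EuclideanSpace.norm_sq_eq, Fintype.sum_prod_type]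
  refine Finset.sum_congr rfl fun i _ => ?_
  rw [EuclideanSpace.norm_sq_eq]
  rfl

/-- **The diagonal configuration of a position.** -/
def cfX : XS P →ₗᵢ[ℝ] Cfg N where
  toFun X := mkc fun i => cen b P (xrow P X i)
  map_add' X Y := by
    refine ext_comp fun i => ?_
    rw [comp_add, comp_mkc, comp_mkc, comp_mkc, ← map_add]
    rfl
  map_smul' t X := by
    refine ext_comp fun i => ?_
    rw [comp_smul, comp_mkc, comp_mkc, RingHom.id_apply, ← map_smul]
    rfl
  norm_map' X := by
    have h : ‖(mkc fun i => cen b P (xrow P X i) : Cfg N)‖ ^ 2 = ‖X‖ ^ 2 := by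
      rw [norm_sq_comp, norm_sq_xrow]
      refine Finset.sum_congr rfl fun i _ => ?_
      rw [comp_mkc, LinearIsometry.norm_map]
    exact (pow_left_inj₀ (norm_nonneg _) (norm_nonneg _) two_ne_zero).1 h

theorem comp_cfX (X : XS P) (i : Fin 9) : comp (cfX b P X) i = cen b P (xrow P X i) := rfl

/-- The position of the cluster `p`. -/
def pos (X : XS P) (p : Fin P.m) : EuclideanSpace ℝ (Fin 9) :=
  WithLp.toLp 2 fun i => lab b P (xrow P X i) p

theorem pos_apply (X : XS P) (p : Fin P.m) (i : Fin 9) : pos b P X p i = lab b P (xrow P X i) p :=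
  rfl

theorem pos_add (X Y : XS P) (p : Fin P.m) : pos b P (X + Y) p = pos b P X p + pos b P Y p := by
  ext i
  change lab b P (xrow P X i + xrow P Y i) p = _
  rw [map_add]
  rfl

theorem pos_smul (t : ℝ) (X : XS P) (p : Fin P.m) : pos b P (t • X) p = t • pos b P X p := by
  ext i
  change lab b P (t • xrow P X i) p = _
  rw [map_smul]
  rfl

theorem sum_pos (X : XS P) : ∑ a : Fin N, pos b P X (P.cl a) = 0 := by
  ext i
  have h1 := (mem_Val P).1 (lab_mem b P (xrow P X i))
  rw [← sum_cl P (lab b P (xrow P X i))] at h1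
  have h2 : (∑ a : Fin N, pos b P X (P.cl a)) i = ∑ a : Fin N, pos b P X (P.cl a) i := by
    simp
  rw [h2]
  exact h1

theorem sum_k_pos (X : XS P) : ∑ p, (P.k p : ℝ) • pos b P X p = 0 := by
  ext i
  have h1 := (mem_Val P).1 (lab_mem b P (xrow P X i))
  have h2 : (∑ p, (P.k p : ℝ) • pos b P X p) i = ∑ p, (P.k p : ℝ) * pos b P X p i := by
    simp
  rw [h2]
  exact h1

theorem norm_sq_pos (X : XS P) : ∑ p, (P.k p : ℝ) * ‖pos b P X p‖ ^ 2 = ‖X‖ ^ 2 := by
  rw [norm_sq_xrow]
  simp only [EuclideanSpace.norm_sq_eq, Finset.mul_sum]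
  rw [Finset.sum_comm]
  refine Finset.sum_congr rfl fun i _ => ?_
  have h1 := norm_sq_lab b P (xrow P X i)
  rw [EuclideanSpace.norm_sq_eq] at h1
  rw [← h1]
  refine Finset.sum_congr rfl fun p _ => ?_
  rw [pos_apply, Real.norm_eq_abs, sq_abs]

theorem cfX_eq_dg (X : XS P) : cfX b P X = dg b fun a => pos b P X (P.cl a) := by
  apply Blk304.mat_inj b
  intro i
  rw [Diag304.mat_dg b (sum_pos b P X)]
  change hm b (comp (cfX b P X) i).ofLp = _
  rw [comp_cfX, hm_cen]
  rfl

theorem pos_inj {X Y : XS P} (h : ∀ p, pos b P X p = pos b P Y p) : X = Y := by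
  apply (cfX b P).injective
  rw [cfX_eq_dg, cfX_eq_dg]
  congr 1
  funext a
  exact h _

theorem exists_pos {r : Fin P.m → EuclideanSpace ℝ (Fin 9)}
    (hr : ∑ p, (P.k p : ℝ) • r p = 0) : ∃ X : XS P, ∀ p, pos b P X p = r p := by
  have h1 : ∀ i : Fin 9, ∃ s, lab b P s = fun p => r p i := fun i => by
    refine exists_lab b P ((mem_Val P).2 ?_)
    have h2 := congrArg (fun v : EuclideanSpace ℝ (Fin 9) => v i) hr
    simpa using h2
  choose s hs' using h1
  refine ⟨WithLp.toLp 2 fun q => s q.1 q.2, fun p => ?_⟩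
  ext i
  rw [pos_apply]
  have h3 : xrow P (WithLp.toLp 2 fun q : Fin 9 × Fin (P.m - 1) => s q.1 q.2) i = s i := by
    ext j
    rfl
  rw [h3, hs' i]

/-- The positions without collisions. -/
def Reg : Set (XS P) := {X | Function.Injective (pos b P X)}

/-- The positions with different `b`-parts (the last six coordinates). -/
def UU : Set (XS P) :=
  {X | ∀ p q, p ≠ q → ∃ j : Fin 9, 3 ≤ (j : ℕ) ∧ pos b P X p j ≠ pos b P X q j}

theorem UU_subset_Reg : UU b P ⊆ Reg b P := by
  intro X hX p q hpq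
  by_contra h
  obtain ⟨j, -, hj⟩ := hX p q h
  exact hj (by rw [hpq])

/-! ## The block algebra -/

/-- The block algebra. -/
def kk : Submodule ℝ (Colg N) where
  carrier := {u | ∀ a c, P.cl a ≠ P.cl c → hm b u.ofLp a c = 0}
  add_mem' h1 h2 a c h := by
    rw [WithLp.ofLp_add, Blk304.hm_add, Matrix.add_apply, h1 a c h, h2 a c h, add_zero]
  zero_mem' a c _ := by
    rw [WithLp.ofLp_zero, Blk304.hm_zero]
    rfl
  smul_mem' t u h1 a c h := by
    rw [WithLp.ofLp_smul, Blk304.hm_smul, Matrix.smul_apply, h1 a c h, smul_zero]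


theorem mem_kc_cfX (X : XS P) (u : Colg N) : u ∈ kc (actB b) (cfX b P X) ↔
    ∀ a c, pos b P X (P.cl a) ≠ pos b P X (P.cl c) → hm b u.ofLp a c = 0 := by
  rw [Frame839.mem_kc, actB_apply, cfX_eq_dg, Diag304.brx_dg_eq_zero b (sum_pos b P X)]

theorem kk_le_kc (X : XS P) : kk b P ≤ kc (actB b) (cfX b P X) := by
  intro u hu
  rw [mem_kc_cfX]
  intro a c h
  exact hu a c fun h' => h (by rw [h'])

/-- **The stabiliser algebra of a regular position.** -/
theorem kc_cfX {X : XS P} (hX : X ∈ Reg b P) : kc (actB b) (cfX b P X) = kk b P := by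
  refine le_antisymm (fun u hu => ?_) (kk_le_kc b P X)
  rw [mem_kc_cfX] at hu
  intro a c h
  exact hu a c fun h' => h (hX h')

theorem Cen_le_kk : Cen b P ≤ kk b P := by
  intro u hu
  obtain ⟨r, -, h⟩ := (mem_Cen b P).1 hu
  intro a c hac
  rw [h]
  unfold bsc
  exact Matrix.diagonal_apply_ne _ fun h' => hac (by rw [h'])

theorem comc_cfX (X : XS P) : Comc b (cfX b P X) := by
  intro i j
  have h := Diag304.comm_dg b (sum_pos b P X) i j
  rw [← cfX_eq_dg] at h
  exact h



/-! ## The block subgroup -/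

/-- The block subgroup `S(∏ U(k_p))`. -/
def Kst : Subgroup (Matrix.specialUnitaryGroup (Fin N) ℂ) where
  carrier := {g | ∀ a c, P.cl a ≠ P.cl c → (g : Matrix (Fin N) (Fin N) ℂ) a c = 0}
  mul_mem' := by
    intro g h hg hh a c hac
    change ((g : Matrix (Fin N) (Fin N) ℂ) * (h : Matrix (Fin N) (Fin N) ℂ)) a c = 0
    rw [Matrix.mul_apply]
    refine Finset.sum_eq_zero fun d _ => ?_
    by_cases h1 : P.cl a = P.cl d
    · rw [hh d c (fun h2 => hac (h1.trans h2)), mul_zero]
    · rw [hg a d h1, zero_mul]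
  one_mem' := by
    intro a c hac
    exact Matrix.one_apply_ne fun h => hac (by rw [h])
  inv_mem' := by
    intro g hg a c hac
    change (star (g : Matrix (Fin N) (Fin N) ℂ)) a c = 0
    rw [Matrix.star_apply, hg c a (Ne.symm hac), star_zero]




end Crest.Agent.R330.Geo692

end
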