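import Mathlib

-- ▼ part R330/Spec_893
section

/-!
# Row 330: abstract discrete spectrum (helper893)

`FT J W` ("form triple"): a Hilbert space `V` (the form domain) with two continuous linear maps
`J : V → H` (the embedding) and `W : V → K` (the square root of the form), `‖v‖² = ‖J v‖² + ‖W v‖²`,
`J` injective (closability) and every bounded sequence of `V` has a subsequence along which `J` is Cauchy
(compactness).

`FT.exists_minimizer` : the bottom of the form on a closed subspace is attained.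
`FT.exists_eigen` : if `V` is infinite dimensional there is an orthonormal sequence of eigenvectors
`e n` with nondecreasing eigenvalues `E n → ∞`, complete, with min-max lower bounds.
-/

set_option autoImplicit false

open Filter Topology
open scoped InnerProductSpace

noncomputable section
namespace Crest.Agent.R330.Spec893

variable {V H K : Type*} [NormedAddCommGroup V] [InnerProductSpace ℂ V]
  [NormedAddCommGroup H] [InnerProductSpace ℂ H] [NormedAddCommGroup K] [InnerProductSpace ℂ K]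

/-- form triple with compact embedding -/
structure FT (J : V →L[ℂ] H) (W : V →L[ℂ] K) : Prop where
  nsq : ∀ v, ‖v‖ ^ 2 = ‖J v‖ ^ 2 + ‖W v‖ ^ 2
  inj : ∀ v, J v = 0 → v = 0
  cpt : ∀ v : ℕ → V, ∀ C : ℝ, (∀ n, ‖v n‖ ≤ C) →
    ∃ k : ℕ → ℕ, StrictMono k ∧ CauchySeq (fun n => J (v (k n)))

theorem norm_add_smul_sq {G : Type*} [NormedAddCommGroup G] [InnerProductSpace ℂ G] (x y : G)
    (c : ℂ) : ‖x + c • y‖ ^ 2 = ‖x‖ ^ 2 + 2 * (c * ⟪x, y⟫_ℂ).re + ‖c‖ ^ 2 * ‖y‖ ^ 2 := by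
  have h := norm_add_sq (𝕜 := ℂ) x (c • y)
  rw [h, inner_smul_right, norm_smul, mul_pow]
  rfl

/-- Euler-Lagrange equation of a minimizer -/
theorem euler {J : V →L[ℂ] H} {W : V →L[ℂ] K} {S : Submodule ℂ V} {e : V} {E : ℝ} (he : e ∈ S)
    (h0 : ‖W e‖ ^ 2 = E * ‖J e‖ ^ 2) (hmin : ∀ v ∈ S, E * ‖J v‖ ^ 2 ≤ ‖W v‖ ^ 2) {v : V}
    (hv : v ∈ S) : ⟪W e, W v⟫_ℂ = (E : ℂ) * ⟪J e, J v⟫_ℂ := by
  set β : ℂ := ⟪W e, W v⟫_ℂ - (E : ℂ) * ⟪J e, J v⟫_ℂ with hβ
  have key : ∀ t : ℝ, 0 ≤ -2 * t * ‖β‖ ^ 2 + t ^ 2 * ‖β‖ ^ 2 * (‖W v‖ ^ 2 - E * ‖J v‖ ^ 2) := by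
    intro t
    set c : ℂ := -(t : ℂ) * (starRingEnd ℂ) β with hc
    have h1 := hmin (e + c • v) (S.add_mem he (S.smul_mem c hv))
    rw [map_add, map_smul, map_add, map_smul, norm_add_smul_sq, norm_add_smul_sq] at h1
    have h2 : (c * ⟪W e, W v⟫_ℂ).re - E * (c * ⟪J e, J v⟫_ℂ).re = -t * ‖β‖ ^ 2 := by
      have h3 : (c * ⟪W e, W v⟫_ℂ).re - E * (c * ⟪J e, J v⟫_ℂ).re = (c * β).re := by
        rw [hβ, mul_sub, Complex.sub_re]
        congr 1
        have : c * ((E : ℂ) * ⟪J e, J v⟫_ℂ) = (E : ℂ) * (c * ⟪J e, J v⟫_ℂ) := by ring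
        rw [this, Complex.re_ofReal_mul]
      rw [h3, hc]
      have h4 : -(t : ℂ) * (starRingEnd ℂ) β * β = ((-t * ‖β‖ ^ 2 : ℝ) : ℂ) := by
        rw [mul_assoc, Complex.conj_mul']
        push_cast
        ring
      rw [h4, Complex.ofReal_re]
    have h5 : ‖c‖ ^ 2 = t ^ 2 * ‖β‖ ^ 2 := by
      rw [hc, norm_mul, norm_neg, RCLike.norm_conj, mul_pow, Complex.norm_real, Real.norm_eq_abs,
        sq_abs]
    rw [h5] at h1
    nlinarith [h1, h2, h0]
  have hb : ‖β‖ ^ 2 = 0 := by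
    set B : ℝ := ‖W v‖ ^ 2 - E * ‖J v‖ ^ 2 with hB
    have hB0 : 0 ≤ B := sub_nonneg.2 (hmin v hv)
    by_contra hne
    have hpos : 0 < ‖β‖ ^ 2 := lt_of_le_of_ne (by positivity) (Ne.symm hne)
    have h1 := key (1 / (B + 1))
    have h2 : (1 / (B + 1)) ^ 2 * ‖β‖ ^ 2 * B ≤ (1 / (B + 1)) * ‖β‖ ^ 2 := by
      have h3 : (1 / (B + 1)) * B ≤ 1 := by
        rw [one_div, inv_mul_le_iff₀ (by positivity)]
        linarith
      have h4 : 0 ≤ (1 / (B + 1)) * ‖β‖ ^ 2 := by positivity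
      nlinarith
    have h3 : 0 < (1 / (B + 1)) * ‖β‖ ^ 2 := by positivity
    linarith
  have hb' : β = 0 := by
    have := pow_eq_zero_iff (two_ne_zero) |>.1 hb
    exact norm_eq_zero.1 this
  exact sub_eq_zero.1 hb'

namespace FT

variable {J : V →L[ℂ] H} {W : V →L[ℂ] K}



theorem norm_J_pos (h : FT J W) {v : V} (hv : v ≠ 0) : 0 < ‖J v‖ :=
  norm_pos_iff.2 fun h0 => hv (h.inj v h0)

/-- the bottom of the form on a closed subspace is attained -/
theorem exists_minimizer [CompleteSpace V] (h : FT J W) (S : Submodule ℂ V)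
    (hS : IsClosed (S : Set V)) (hne : ∃ v ∈ S, v ≠ 0) :
    ∃ e ∈ S, ‖J e‖ = 1 ∧ ∀ v ∈ S, ‖W e‖ ^ 2 * ‖J v‖ ^ 2 ≤ ‖W v‖ ^ 2 := by
  classical
  -- the set of values of the form on the unit sphere
  set A : Set ℝ := {r | ∃ v ∈ S, ‖J v‖ = 1 ∧ ‖W v‖ ^ 2 = r} with hA
  have hnorm : ∀ v : V, v ≠ 0 → ‖J (((‖J v‖⁻¹ : ℝ) : ℂ) • v)‖ = 1 := by
    intro v hv
    have h1 := h.norm_J_pos hv
    rw [map_smul, norm_smul, Complex.norm_real, Real.norm_eq_abs, abs_of_pos (by positivity)]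
    exact inv_mul_cancel₀ h1.ne'
  have hAne : A.Nonempty := by
    obtain ⟨v, hv, hv0⟩ := hne
    exact ⟨_, _, S.smul_mem _ hv, hnorm v hv0, rfl⟩
  have hAbdd : BddBelow A := ⟨0, by rintro r ⟨v, -, -, rfl⟩; positivity⟩
  set m : ℝ := sInf A with hm
  have hm0 : 0 ≤ m := le_csInf hAne (by rintro r ⟨v, -, -, rfl⟩; positivity)
  have hlow : ∀ v ∈ S, m * ‖J v‖ ^ 2 ≤ ‖W v‖ ^ 2 := by
    intro v hv
    by_cases hv0 : v = 0
    · subst hv0; simp
    have h1 := h.norm_J_pos hv0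
    have h2 : m ≤ ‖W (((‖J v‖⁻¹ : ℝ) : ℂ) • v)‖ ^ 2 :=
      csInf_le hAbdd ⟨_, S.smul_mem _ hv, hnorm v hv0, rfl⟩
    rw [map_smul, norm_smul, Complex.norm_real, Real.norm_eq_abs, abs_of_pos (by positivity),
      mul_pow, inv_pow] at h2
    have h3 : 0 < ‖J v‖ ^ 2 := by positivity
    calc m * ‖J v‖ ^ 2 ≤ ((‖J v‖ ^ 2)⁻¹ * ‖W v‖ ^ 2) * ‖J v‖ ^ 2 := by gcongr
      _ = ‖W v‖ ^ 2 := by field_simp
  -- minimizing sequence
  have hseq : ∀ n : ℕ, ∃ v ∈ S, ‖J v‖ = 1 ∧ ‖W v‖ ^ 2 < m + 1 / ((n : ℝ) + 1) := by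
    intro n
    obtain ⟨r, ⟨v, hv, hv1, hv2⟩, hr⟩ := exists_lt_of_csInf_lt hAne
      (show sInf A < m + 1 / ((n : ℝ) + 1) from lt_add_of_pos_right _ (by positivity))
    exact ⟨v, hv, hv1, by rw [hv2]; exact hr⟩
  choose v hvS hvJ hvW using hseq
  have hvbd : ∀ n, ‖v n‖ ≤ Real.sqrt (m + 2) := by
    intro n
    refine Real.le_sqrt_of_sq_le ?_
    rw [h.nsq, hvJ]
    have h1 := hvW n
    have h2 : 1 / ((n : ℝ) + 1) ≤ 1 := by
      rw [div_le_one (by positivity)]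
      linarith [(Nat.cast_nonneg n : (0 : ℝ) ≤ n)]
    linarith
  obtain ⟨k, hk, hkc⟩ := h.cpt v _ hvbd
  have hkn : ∀ n : ℕ, (n : ℝ) ≤ (k n : ℝ) := fun n => by exact_mod_cast hk.le_apply
  -- the subsequence is Cauchy in V
  have hcs : CauchySeq fun n => v (k n) := by
    rw [Metric.cauchySeq_iff'] at hkc ⊢
    intro ε hε
    -- choose delta
    obtain ⟨δ, hδ, hδε⟩ : ∃ δ : ℝ, 0 < δ ∧ (1 + 2 * m) * δ ^ 2 + 8 * δ < ε ^ 2 := by
      refine ⟨min 1 (ε ^ 2 / (2 * (9 + 2 * m))), by positivity, ?_⟩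
      set δ := min 1 (ε ^ 2 / (2 * (9 + 2 * m))) with hδ
      have h0 : 0 < δ := by positivity
      have h1 : δ ≤ 1 := min_le_left _ _
      have h2 : δ ≤ ε ^ 2 / (2 * (9 + 2 * m)) := min_le_right _ _
      have h3 : δ ^ 2 ≤ δ := by nlinarith
      have h4 : (9 + 2 * m) * δ ≤ ε ^ 2 / 2 := by
        calc (9 + 2 * m) * δ ≤ (9 + 2 * m) * (ε ^ 2 / (2 * (9 + 2 * m))) := by gcongr
          _ = ε ^ 2 / 2 := by field_simp
      have h5 : 0 < ε ^ 2 := by positivity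
      nlinarith
    obtain ⟨N1, hN1⟩ := hkc (δ / 2) (by positivity)
    obtain ⟨N2, hN2⟩ := exists_nat_gt (1 / δ)
    refine ⟨max N1 N2, fun n hn => ?_⟩
    set n0 := max N1 N2 with hn0
    have ha : ∀ p, n0 ≤ p → ‖W (v (k p))‖ ^ 2 < m + δ := by
      intro p hp
      refine (hvW _).trans_le ?_
      have h1 : (N2 : ℝ) ≤ k p := (by exact_mod_cast (le_max_right N1 N2).trans hp : (N2 : ℝ) ≤ p).trans (hkn p)
      have h2 : 1 / ((k p : ℝ) + 1) ≤ δ := by
        rw [div_le_iff₀ (by positivity)]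
        have h3 : 1 / δ < (k p : ℝ) := hN2.trans_le h1
        rw [div_lt_iff₀ hδ] at h3
        nlinarith
      linarith
    have hJ : ‖J (v (k n)) - J (v (k n0))‖ < δ := by
      have h1 := hN1 n ((le_max_left _ _).trans hn)
      have h2 := hN1 n0 (le_max_left _ _)
      rw [dist_eq_norm] at h1 h2
      calc ‖J (v (k n)) - J (v (k n0))‖ = ‖(J (v (k n)) - J (v (k N1))) - (J (v (k n0)) - J (v (k N1)))‖ := by
            congr 1; abel
        _ ≤ _ := norm_sub_le _ _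
        _ < δ := by linarith
    set a := v (k n) with haa
    set b := v (k n0) with hbb
    have haS : a ∈ S := hvS _
    have hbS : b ∈ S := hvS _
    have haJ : ‖J a‖ = 1 := hvJ _
    have hbJ : ‖J b‖ = 1 := hvJ _
    have hWa := ha n hn
    have hWb := ha n0 le_rfl
    have hlow2 := hlow (a + b) (S.add_mem haS hbS)
    have pW := parallelogram_law_with_norm ℂ (W a) (W b)
    have pJ := parallelogram_law_with_norm ℂ (J a) (J b)
    rw [← map_add, ← map_sub] at pW pJ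
    have h1 := h.nsq (a - b)
    have hJ2 : ‖J (a - b)‖ ^ 2 ≤ δ ^ 2 := by
      rw [map_sub]
      exact pow_le_pow_left₀ (norm_nonneg _) hJ.le 2
    have hm' : m * ‖J (a - b)‖ ^ 2 ≤ m * δ ^ 2 := mul_le_mul_of_nonneg_left hJ2 hm0
    rw [haJ, hbJ] at pJ
    rw [dist_eq_norm]
    have h2 : ‖a - b‖ ^ 2 < ε ^ 2 := by
      rw [h1]
      have e1 : ‖J (a + b)‖ ^ 2 = 4 - ‖J (a - b)‖ ^ 2 := by nlinarith [pJ]
      have e2 : ‖W (a - b)‖ ^ 2 = 2 * (‖W a‖ ^ 2 + ‖W b‖ ^ 2) - ‖W (a + b)‖ ^ 2 := by nlinarith [pW]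
      rw [e1] at hlow2
      rw [e2]
      nlinarith
    exact lt_of_pow_lt_pow_left₀ 2 hε.le h2
  obtain ⟨e, he⟩ := cauchySeq_tendsto_of_complete hcs
  have heS : e ∈ S := hS.mem_of_tendsto he (Eventually.of_forall fun n => hvS _)
  have heJ : ‖J e‖ = 1 := by
    have h1 : Tendsto (fun n => ‖J (v (k n))‖) atTop (𝓝 ‖J e‖) :=
      ((J.continuous.tendsto e).comp he).norm
    simp only [hvJ] at h1
    exact tendsto_nhds_unique h1 tendsto_const_nhds |>.symm ▸ rfl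
  have heW : ‖W e‖ ^ 2 ≤ m := by
    have h1 : Tendsto (fun n => ‖W (v (k n))‖ ^ 2) atTop (𝓝 (‖W e‖ ^ 2)) :=
      (((W.continuous.tendsto e).comp he).norm).pow 2
    have h2 : Tendsto (fun n => m + 1 / ((k n : ℝ) + 1)) atTop (𝓝 (m + 0)) := by
      refine tendsto_const_nhds.add ?_
      exact tendsto_one_div_add_atTop_nhds_zero_nat.comp hk.tendsto_atTop
    rw [add_zero] at h2
    exact le_of_tendsto_of_tendsto h1 h2 (Eventually.of_forall fun n => (hvW _).le)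
  refine ⟨e, heS, heJ, fun w hw => ?_⟩
  have h1 : ‖W e‖ ^ 2 * ‖J w‖ ^ 2 ≤ m * ‖J w‖ ^ 2 := by gcongr
  exact h1.trans (hlow w hw)

/-- the `J`-orthogonal complement of a set -/
def perp (J : V →L[ℂ] H) (s : Set V) : Submodule ℂ V where
  carrier := {v | ∀ e ∈ s, ⟪J e, J v⟫_ℂ = 0}
  add_mem' := by
    intro a b ha hb e he
    rw [map_add, inner_add_right, ha e he, hb e he, add_zero]
  zero_mem' := by intro e _; simp
  smul_mem' := by
    intro c a ha e he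
    rw [map_smul, inner_smul_right, ha e he, mul_zero]

theorem mem_perp {J : V →L[ℂ] H} {s : Set V} {v : V} :
    v ∈ perp J s ↔ ∀ e ∈ s, ⟪J e, J v⟫_ℂ = 0 := Iff.rfl

theorem isClosed_perp (J : V →L[ℂ] H) (s : Set V) : IsClosed (perp J s : Set V) := by
  have : (perp J s : Set V) = ⋂ e ∈ s, {v | ⟪J e, J v⟫_ℂ = 0} := by
    ext v; simp [mem_perp, SetLike.mem_coe]
  rw [this]
  refine isClosed_biInter fun e _ => ?_
  exact isClosed_eq (continuous_const.inner J.continuous) continuous_const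

theorem perp_anti (J : V →L[ℂ] H) {s t : Set V} (h : s ⊆ t) : perp J t ≤ perp J s :=
  fun _ hv e he => hv e (h he)

/-- in an infinite dimensional space the complement of a finite set is non-trivial -/
theorem exists_mem_perp (hinf : ¬ FiniteDimensional ℂ V) (J : V →L[ℂ] H) (s : Finset V) :
    ∃ v ∈ perp J (s : Set V), v ≠ 0 := by
  by_contra hcon
  push Not at hcon
  apply hinf
  -- the map `v ↦ (⟪J e, J v⟫)_e` is injective
  let L : V →ₗ[ℂ] (s → ℂ) := LinearMap.pi fun e => (innerₛₗ ℂ (J (e : V))).comp J.toLinearMap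
  have hL : Function.Injective L := by
    rw [injective_iff_map_eq_zero]
    intro v hv
    refine hcon v fun e he => ?_
    have := congrFun hv ⟨e, he⟩
    simpa [L] using this
  exact FiniteDimensional.of_injective L hL

/-- spectral sequence of a form triple -/
structure Eig (J : V →L[ℂ] H) (W : V →L[ℂ] K) (e : ℕ → V) (E : ℕ → ℝ) : Prop where
  orth : ∀ i j, ⟪J (e i), J (e j)⟫_ℂ = if i = j then (1 : ℂ) else 0
  nonneg : ∀ n, 0 ≤ E n
  mono : Monotone E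
  tend : Tendsto E atTop atTop
  weak : ∀ n v, ⟪W (e n), W v⟫_ℂ = (E n : ℂ) * ⟪J (e n), J v⟫_ℂ
  low : ∀ n v, (∀ i < n, ⟪J (e i), J v⟫_ℂ = 0) → E n * ‖J v‖ ^ 2 ≤ ‖W v‖ ^ 2

theorem Eig.complete {e : ℕ → V} {E : ℕ → ℝ} (hE : Eig J W e E) (h : FT J W) {v : V}
    (hv : ∀ i, ⟪J (e i), J v⟫_ℂ = 0) : v = 0 := by
  by_contra hne
  have h1 := h.norm_J_pos hne
  obtain ⟨n, hn⟩ := (hE.tend.eventually (eventually_gt_atTop (‖W v‖ ^ 2 / ‖J v‖ ^ 2))).exists
  have h2 := hE.low n v fun i _ => hv i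
  rw [div_lt_iff₀ (by positivity)] at hn
  linarith

theorem exists_eigen [CompleteSpace V] (h : FT J W) (hinf : ¬ FiniteDimensional ℂ V) :
    ∃ (e : ℕ → V) (E : ℕ → ℝ), Eig J W e E := by
  classical
  have step : ∀ s : Finset V, ∃ x ∈ perp J (s : Set V), ‖J x‖ = 1 ∧
      ∀ v ∈ perp J (s : Set V), ‖W x‖ ^ 2 * ‖J v‖ ^ 2 ≤ ‖W v‖ ^ 2 := fun s =>
    h.exists_minimizer _ (isClosed_perp J _) (exists_mem_perp hinf J s)
  choose nx nx1 nx2 nx3 using step
  obtain ⟨s, s0, ss⟩ : ∃ s : ℕ → Finset V, s 0 = ∅ ∧ ∀ n, s (n + 1) = insert (nx (s n)) (s n) :=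
    ⟨fun n => Nat.rec ∅ (fun _ t => insert (nx t) t) n, rfl, fun _ => rfl⟩
  have smono : Monotone s := by
    refine monotone_nat_of_le_succ fun n => ?_
    rw [ss]; exact Finset.subset_insert _ _
  have smem : ∀ {i n}, i < n → nx (s i) ∈ s n := by
    intro i n hin
    have h1 : nx (s i) ∈ s (i + 1) := by rw [ss]; exact Finset.mem_insert_self _ _
    exact smono hin h1
  have smem' : ∀ {n : ℕ} {x : V}, x ∈ s n → ∃ i < n, x = nx (s i) := by
    intro n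
    induction n with
    | zero => intro x hx; simp [s0] at hx
    | succ n ih =>
      intro x hx
      rw [ss, Finset.mem_insert] at hx
      rcases hx with rfl | hx
      · exact ⟨n, Nat.lt_succ_self n, rfl⟩
      · obtain ⟨i, hi, rfl⟩ := ih hx
        exact ⟨i, hi.trans (Nat.lt_succ_self n), rfl⟩
  obtain ⟨e, he⟩ : ∃ e : ℕ → V, ∀ n, e n = nx (s n) := ⟨_, fun _ => rfl⟩
  obtain ⟨E, hE⟩ : ∃ E : ℕ → ℝ, ∀ n, E n = ‖W (e n)‖ ^ 2 := ⟨_, fun _ => rfl⟩
  have eperp : ∀ n, e n ∈ perp J (↑(s n) : Set V) := fun n => by rw [he]; exact nx1 (s n)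
  have orth0 : ∀ {i j}, i < j → ⟪J (e i), J (e j)⟫_ℂ = 0 := fun {i j} hij =>
    eperp j (e i) (by rw [he]; exact smem hij)
  have nrm : ∀ n, ‖J (e n)‖ = 1 := fun n => by rw [he]; exact nx2 (s n)
  have orth : ∀ i j, ⟪J (e i), J (e j)⟫_ℂ = if i = j then (1 : ℂ) else 0 := by
    intro i j
    rcases lt_trichotomy i j with hij | rfl | hij
    · rw [if_neg hij.ne, orth0 hij]
    · rw [if_pos rfl, inner_self_eq_norm_sq_to_K, nrm]
      simp
    · rw [if_neg hij.ne', ← inner_conj_symm, orth0 hij, map_zero]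
  have low : ∀ n v, (∀ i < n, ⟪J (e i), J v⟫_ℂ = 0) → E n * ‖J v‖ ^ 2 ≤ ‖W v‖ ^ 2 := by
    intro n v hv
    rw [hE, he]
    refine nx3 (s n) v fun x hx => ?_
    obtain ⟨i, hi, rfl⟩ := smem' hx
    rw [← he]
    exact hv i hi
  have mono : Monotone E := by
    refine monotone_nat_of_le_succ fun n => ?_
    have h1 := low n (e (n + 1)) fun i hi => orth0 (hi.trans (Nat.lt_succ_self n))
    rw [nrm, one_pow, mul_one, ← hE] at h1
    exact h1
  have el : ∀ n v, v ∈ perp J (↑(s n) : Set V) → ⟪W (e n), W v⟫_ℂ = (E n : ℂ) * ⟪J (e n), J v⟫_ℂ := by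
    intro n v hv
    refine euler (S := perp J (↑(s n) : Set V)) (eperp n) ?_
      (fun w hw => by rw [hE, he]; exact nx3 (s n) w hw) hv
    rw [hE, nrm, one_pow, mul_one]
  have orthW : ∀ {i j}, i < j → ⟪W (e i), W (e j)⟫_ℂ = 0 := by
    intro i j hij
    rw [el i (e j) (perp_anti J (Finset.coe_subset.2 (smono hij.le)) (eperp j)), orth0 hij, mul_zero]
  have orthW' : ∀ {i j}, i ≠ j → ⟪W (e i), W (e j)⟫_ℂ = 0 := by
    intro i j hij
    rcases lt_or_gt_of_ne hij with h1 | h1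
    · exact orthW h1
    · rw [← inner_conj_symm, orthW h1, map_zero]
  have weak : ∀ n v, ⟪W (e n), W v⟫_ℂ = (E n : ℂ) * ⟪J (e n), J v⟫_ℂ := by
    intro n v
    set p : V := ∑ i ∈ Finset.range n, ⟪J (e i), J v⟫_ℂ • e i with hp
    have h1 : v - p ∈ perp J (↑(s n) : Set V) := by
      intro x hx
      obtain ⟨i, hi, rfl⟩ := smem' hx
      rw [← he]
      rw [map_sub, inner_sub_right, hp, map_sum, inner_sum]
      simp only [map_smul, inner_smul_right, orth]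
      rw [Finset.sum_eq_single i]
      · simp
      · intro j _ hj; rw [if_neg (Ne.symm hj), mul_zero]
      · intro hni; exact absurd (Finset.mem_range.2 hi) hni
    have h2 := el n _ h1
    have h3 : ⟪W (e n), W p⟫_ℂ = 0 := by
      rw [hp, map_sum, inner_sum]
      refine Finset.sum_eq_zero fun i hi => ?_
      rw [map_smul, inner_smul_right, orthW' (Finset.mem_range.1 hi).ne', mul_zero]
    have h4 : ⟪J (e n), J p⟫_ℂ = 0 := by
      rw [hp, map_sum, inner_sum]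
      refine Finset.sum_eq_zero fun i hi => ?_
      rw [map_smul, inner_smul_right, orth, if_neg (Finset.mem_range.1 hi).ne', mul_zero]
    rw [map_sub, map_sub, inner_sub_right, inner_sub_right, h3, h4, sub_zero, sub_zero] at h2
    exact h2
  have tend : Tendsto E atTop atTop := by
    rcases tendsto_atTop_of_monotone mono with h1 | ⟨l, hl⟩
    · exact h1
    exfalso
    have hEl : ∀ n, E n ≤ l := fun n => mono.ge_of_tendsto hl n
    obtain ⟨k, hk, hkc⟩ := h.cpt e (Real.sqrt (1 + l)) (fun n => by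
      refine Real.le_sqrt_of_sq_le ?_
      rw [h.nsq, nrm, ← hE]
      have := hEl n
      linarith)
    rw [Metric.cauchySeq_iff] at hkc
    obtain ⟨N, hN⟩ := hkc 1 one_pos
    have h1 := hN N le_rfl (N + 1) (Nat.le_succ N)
    rw [dist_eq_norm] at h1
    have h2 := norm_sub_sq (𝕜 := ℂ) (J (e (k N))) (J (e (k (N + 1))))
    rw [nrm, nrm, orth0 (hk (Nat.lt_succ_self N))] at h2
    simp only [map_zero, mul_zero, sub_zero, one_pow] at h2
    nlinarith [norm_nonneg (J (e (k N)) - J (e (k (N + 1))))]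
  exact ⟨e, E, orth, fun n => by rw [hE]; positivity, mono, tend, weak, low⟩

end FT

end Crest.Agent.R330.Spec893
end
end

-- ▼ part R330/SpecSec_893
section

/-!
# Row 330: eigenvectors of a form in a symmetry sector (helper893)

`eigen_sector` : `G` = form domain of a closed form (`J` embedding, `W` square root of the form), `U i`
unitaries of `G` lying over unitaries `u i` of `H`, `S = {v | U i v = c i • v}` the sector. If the form is
compact on `S` and `S` is infinite dimensional there is an orthonormal sequence of vectors of `S` which are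
eigenvectors of the form tested on the WHOLE form domain, with eigenvalues `E n → ∞`.

`eigen_sector_pos` : the same with `0 < E n`.
-/

set_option autoImplicit false

open Filter Topology
open scoped InnerProductSpace

noncomputable section
namespace Crest.Agent.R330.Spec893

variable {V H K : Type*} [NormedAddCommGroup V] [InnerProductSpace ℂ V]
  [NormedAddCommGroup H] [InnerProductSpace ℂ H] [NormedAddCommGroup K] [InnerProductSpace ℂ K]

/-- polarisation of `‖v‖² = ‖J v‖² + ‖W v‖²` -/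
theorem inner_polar {J : V →L[ℂ] H} {W : V →L[ℂ] K}
    (hn : ∀ v, ‖v‖ ^ 2 = ‖J v‖ ^ 2 + ‖W v‖ ^ 2) (x y : V) :
    ⟪x, y⟫_ℂ = ⟪J x, J y⟫_ℂ + ⟪W x, W y⟫_ℂ := by
  have h1 := fun z w : V => norm_add_smul_sq z w
  have key : ∀ c : ℂ, (c * ⟪x, y⟫_ℂ).re = (c * (⟪J x, J y⟫_ℂ + ⟪W x, W y⟫_ℂ)).re := by
    intro c
    have a1 := norm_add_smul_sq x y c
    have a2 := norm_add_smul_sq (J x) (J y) c
    have a3 := norm_add_smul_sq (W x) (W y) c
    rw [← map_smul, ← map_add] at a2 a3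
    have b1 := hn (x + c • y)
    have b2 := hn x
    have b3 := hn y
    rw [mul_add, Complex.add_re]
    rw [a1, a2, a3, b2, b3] at b1
    nlinarith [b1]
  apply Complex.ext
  · simpa using key 1
  · have := key (-Complex.I)
    simpa using this

theorem eigen_sector [CompleteSpace V] [CompleteSpace H] {J : V →L[ℂ] H} {W : V →L[ℂ] K}
    (hn : ∀ v, ‖v‖ ^ 2 = ‖J v‖ ^ 2 + ‖W v‖ ^ 2) (hinj : ∀ v, J v = 0 → v = 0)
    {κ : Type*} (U : κ → V ≃ₗᵢ[ℂ] V) (u : κ → H ≃ₗᵢ[ℂ] H) (hJU : ∀ i v, J (U i v) = u i (J v))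
    (c : κ → ℂ) (S : Submodule ℂ V) (hS : ∀ v, v ∈ S ↔ ∀ i, U i v = c i • v)
    (hcpt : ∀ v : ℕ → V, (∀ n, v n ∈ S) → ∀ C : ℝ, (∀ n, ‖v n‖ ≤ C) →
      ∃ k : ℕ → ℕ, StrictMono k ∧ CauchySeq (fun n => J (v (k n))))
    (hinf : ¬ FiniteDimensional ℂ S) :
    ∃ (e : ℕ → V) (E : ℕ → ℝ), (∀ n, e n ∈ S) ∧
      (∀ i j, ⟪J (e i), J (e j)⟫_ℂ = if i = j then (1 : ℂ) else 0) ∧
      (∀ n, 0 ≤ E n) ∧ Monotone E ∧ Tendsto E atTop atTop ∧
      ∀ n v, ⟪W (e n), W v⟫_ℂ = (E n : ℂ) * ⟪J (e n), J v⟫_ℂ := by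
  -- the sector is closed
  have hcl : IsClosed (S : Set V) := by
    have : (S : Set V) = ⋂ i, {v | U i v = c i • v} := by
      ext v; simp [hS]
    rw [this]
    refine isClosed_iInter fun i => isClosed_eq (U i).continuous (continuous_const_smul _)
  have : CompleteSpace S := hcl.completeSpace_coe
  let JS : S →L[ℂ] H := J.comp S.subtypeL
  let WS : S →L[ℂ] K := W.comp S.subtypeL
  have hFT : FT JS WS :=
    { nsq := fun v => hn v
      inj := fun v hv => Subtype.ext (hinj v hv)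
      cpt := fun v C hC => hcpt (fun n => (v n : V)) (fun n => (v n).2) C hC }
  obtain ⟨e, E, hE⟩ := hFT.exists_eigen hinf
  refine ⟨fun n => (e n : V), E, fun n => (e n).2, hE.orth, hE.nonneg, hE.mono, hE.tend, ?_⟩
  intro n v
  -- `J† J e` stays in the sector
  let T : V →L[ℂ] V := (ContinuousLinearMap.adjoint J).comp J
  have hT : ∀ x y : V, ⟪T x, y⟫_ℂ = ⟪J x, J y⟫_ℂ := by
    intro x y
    show ⟪(ContinuousLinearMap.adjoint J) (J x), y⟫_ℂ = _
    rw [ContinuousLinearMap.adjoint_inner_left]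
  have hTS : T (e n) ∈ S := by
    rw [hS]
    intro i
    have h1 : U i (e n : V) = c i • (e n : V) := (hS _).1 (e n).2 i
    refine ext_inner_right ℂ fun y => ?_
    obtain ⟨z, rfl⟩ := (U i).surjective y
    rw [LinearIsometryEquiv.inner_map_map, hT, inner_smul_left, hT, hJU]
    have h2 : ⟪J (e n : V), J z⟫_ℂ = ⟪u i (J (e n : V)), u i (J z)⟫_ℂ :=
      (LinearIsometryEquiv.inner_map_map (u i) _ _).symm
    rw [h2, ← hJU, h1, map_smul, inner_smul_left]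
  set d : V := (e n : V) - ((E n + 1 : ℝ) : ℂ) • T (e n) with hd
  have hdS : d ∈ S := S.sub_mem (e n).2 (S.smul_mem _ hTS)
  have hort : ∀ w ∈ S, ⟪d, w⟫_ℂ = 0 := by
    intro w hw
    have h1 := hE.weak n ⟨w, hw⟩
    have h1' : ⟪W (e n : V), W w⟫_ℂ = (E n : ℂ) * ⟪J (e n : V), J w⟫_ℂ := h1
    rw [hd, inner_sub_left, inner_smul_left, hT, inner_polar hn, h1', Complex.conj_ofReal]
    push_cast
    ring
  have hd0 : d = 0 := by
    have := hort d hdS
    exact inner_self_eq_zero.1 this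
  have he : (e n : V) = ((E n + 1 : ℝ) : ℂ) • T (e n) := sub_eq_zero.1 (hd ▸ hd0)
  have h2 := inner_polar hn (e n : V) v
  have h3 : ⟪(e n : V), v⟫_ℂ = ((E n + 1 : ℝ) : ℂ) * ⟪J (e n : V), J v⟫_ℂ := by
    conv_lhs => rw [he]
    rw [inner_smul_left, hT, Complex.conj_ofReal]
  rw [h3] at h2
  push_cast at h2
  linear_combination -h2

/-- the same with strictly positive eigenvalues -/
theorem eigen_sector_pos [CompleteSpace V] [CompleteSpace H] {J : V →L[ℂ] H} {W : V →L[ℂ] K}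
    (hn : ∀ v, ‖v‖ ^ 2 = ‖J v‖ ^ 2 + ‖W v‖ ^ 2) (hinj : ∀ v, J v = 0 → v = 0)
    {κ : Type*} (U : κ → V ≃ₗᵢ[ℂ] V) (u : κ → H ≃ₗᵢ[ℂ] H) (hJU : ∀ i v, J (U i v) = u i (J v))
    (c : κ → ℂ) (S : Submodule ℂ V) (hS : ∀ v, v ∈ S ↔ ∀ i, U i v = c i • v)
    (hcpt : ∀ v : ℕ → V, (∀ n, v n ∈ S) → ∀ C : ℝ, (∀ n, ‖v n‖ ≤ C) →
      ∃ k : ℕ → ℕ, StrictMono k ∧ CauchySeq (fun n => J (v (k n))))
    (hinf : ¬ FiniteDimensional ℂ S) :
    ∃ (e : ℕ → V) (E : ℕ → ℝ), (∀ n, e n ∈ S) ∧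
      (∀ i j, ⟪J (e i), J (e j)⟫_ℂ = if i = j then (1 : ℂ) else 0) ∧
      (∀ n, 0 < E n) ∧ Monotone E ∧ Tendsto E atTop atTop ∧
      ∀ n v, ⟪W (e n), W v⟫_ℂ = (E n : ℂ) * ⟪J (e n), J v⟫_ℂ := by
  obtain ⟨e, E, h1, h2, h3, h4, h5, h6⟩ := eigen_sector hn hinj U u hJU c S hS hcpt hinf
  obtain ⟨N, hN⟩ := (h5.eventually (eventually_gt_atTop 0)).exists
  refine ⟨fun n => e (n + N), fun n => E (n + N), fun n => h1 _, ?_, ?_, ?_, ?_, fun n v => h6 _ v⟩
  · intro i j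
    rw [h2]
    by_cases hij : i = j
    · rw [if_pos hij, if_pos (by rw [hij])]
    · rw [if_neg hij, if_neg (by omega)]
  · intro n
    exact hN.trans_le (h4 (Nat.le_add_left N n))
  · intro a b hab
    exact h4 (Nat.add_le_add_right hab N)
  · exact h5.comp (tendsto_add_atTop_nat N)

end Crest.Agent.R330.Spec893
end
end

-- ▼ part R330/Graph_893

/-!
# Row 330: the graph Hilbert space of a closable form given by charges (helper893)

`D` a complex vector space (the core), `ι : D → H`, `Q : D → K` linear. `Gph ι Q` = closure of the graph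
`{(ι φ, Q φ)}` in `WithLp 2 (H × K)` = form domain; `JG`, `WG` the two projections.

`exists_eigen_core` : symmetries `u i` of `H` coming from maps of the core preserving `‖Q φ‖`, compactness on
the sector `{v | u i (J v) = c i • J v}`, infinitely many independent core vectors in the sector
==> orthonormal eigenvectors in the sector, `0 < E n → ∞`, weak equation against the whole core.
-/

set_option autoImplicit false

open Filter Topology
open scoped InnerProductSpace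

noncomputable section
namespace Crest.Agent.R330.Graph893

open Crest.Agent.R330.Spec893

variable {D H K : Type*} [AddCommGroup D] [Module ℂ D]
  [NormedAddCommGroup H] [InnerProductSpace ℂ H] [NormedAddCommGroup K] [InnerProductSpace ℂ K]

/-- the graph map -/
def gm (ι : D →ₗ[ℂ] H) (Q : D →ₗ[ℂ] K) : D →ₗ[ℂ] WithLp 2 (H × K) :=
  (WithLp.linearEquiv 2 ℂ (H × K)).symm.toLinearMap ∘ₗ (ι.prod Q)



/-- the closed graph -/
def Gph (ι : D →ₗ[ℂ] H) (Q : D →ₗ[ℂ] K) : Submodule ℂ (WithLp 2 (H × K)) :=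
  (LinearMap.range (gm ι Q)).topologicalClosure

/-- embedding of the form domain -/
def JG (ι : D →ₗ[ℂ] H) (Q : D →ₗ[ℂ] K) : Gph ι Q →L[ℂ] H :=
  (WithLp.fstL 2 ℂ H K).comp (Gph ι Q).subtypeL

/-- the closed charge -/
def WG (ι : D →ₗ[ℂ] H) (Q : D →ₗ[ℂ] K) : Gph ι Q →L[ℂ] K :=
  (WithLp.sndL 2 ℂ H K).comp (Gph ι Q).subtypeL

/-- core vectors in the graph space -/
def gv (ι : D →ₗ[ℂ] H) (Q : D →ₗ[ℂ] K) : D →ₗ[ℂ] Gph ι Q :=
  (gm ι Q).codRestrict _ fun φ => Submodule.le_topologicalClosure _ ⟨φ, rfl⟩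

variable {ι : D →ₗ[ℂ] H} {Q : D →ₗ[ℂ] K}

@[simp] theorem JG_gv (φ : D) : JG ι Q (gv ι Q φ) = ι φ := rfl
@[simp] theorem WG_gv (φ : D) : WG ι Q (gv ι Q φ) = Q φ := rfl

theorem norm_sq (v : Gph ι Q) : ‖v‖ ^ 2 = ‖JG ι Q v‖ ^ 2 + ‖WG ι Q v‖ ^ 2 :=
  WithLp.prod_norm_sq_eq_of_L2 (v : WithLp 2 (H × K))

theorem norm_gv_sq (φ : D) : ‖gv ι Q φ‖ ^ 2 = ‖ι φ‖ ^ 2 + ‖Q φ‖ ^ 2 := norm_sq _

theorem isClosed_Gph : IsClosed (Gph ι Q : Set (WithLp 2 (H × K))) :=
  Submodule.isClosed_topologicalClosure _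

instance [CompleteSpace H] [CompleteSpace K] : CompleteSpace (Gph ι Q) :=
  isClosed_Gph.completeSpace_coe

/-- elements of the graph space are limits of core vectors -/
theorem exists_seq (v : Gph ι Q) : ∃ φ : ℕ → D, Tendsto (fun n => gv ι Q (φ n)) atTop (𝓝 v) := by
  have h1 : (v : WithLp 2 (H × K)) ∈ closure (LinearMap.range (gm ι Q) : Set (WithLp 2 (H × K))) := by
    have := v.2
    unfold Gph at this
    rwa [← SetLike.mem_coe, Submodule.topologicalClosure_coe] at this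
  obtain ⟨y, hy, hlim⟩ := mem_closure_iff_seq_limit.1 h1
  choose φ hφ using hy
  refine ⟨φ, ?_⟩
  rw [tendsto_subtype_rng]
  refine hlim.congr fun n => ?_
  rw [← hφ n]
  rfl

theorem tendsto_J {φ : ℕ → D} {v : Gph ι Q} (h : Tendsto (fun n => gv ι Q (φ n)) atTop (𝓝 v)) :
    Tendsto (fun n => ι (φ n)) atTop (𝓝 (JG ι Q v)) :=
  ((JG ι Q).continuous.tendsto v).comp h

theorem tendsto_W {φ : ℕ → D} {v : Gph ι Q} (h : Tendsto (fun n => gv ι Q (φ n)) atTop (𝓝 v)) :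
    Tendsto (fun n => Q (φ n)) atTop (𝓝 (WG ι Q v)) :=
  ((WG ι Q).continuous.tendsto v).comp h


/-- closability gives injectivity of the embedding -/
theorem inj_of_closable
    (hcl : ∀ (φ : ℕ → D) (k : K), Tendsto (fun n => ι (φ n)) atTop (𝓝 0) →
      Tendsto (fun n => Q (φ n)) atTop (𝓝 k) → k = 0) (v : Gph ι Q) (hv : JG ι Q v = 0) : v = 0 := by
  obtain ⟨φ, hφ⟩ := exists_seq v
  have h1 := tendsto_J hφ
  rw [hv] at h1
  have h2 := hcl φ _ h1 (tendsto_W hφ)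
  have h3 := norm_sq v
  rw [hv, h2] at h3
  simp only [norm_zero, ne_eq, OfNat.ofNat_ne_zero, not_false_eq_true, zero_pow, add_zero] at h3
  exact norm_eq_zero.1 (pow_eq_zero_iff two_ne_zero |>.1 h3)

/-- a symmetry of the core lifts to the graph space -/
theorem exists_lift [CompleteSpace H] [CompleteSpace K] (u : H ≃ₗᵢ[ℂ] H) (Uc : D →ₗ[ℂ] D)
    (h1 : ∀ φ, ι (Uc φ) = u (ι φ)) (h2 : ∀ φ, ‖Q (Uc φ)‖ = ‖Q φ‖) (v : Gph ι Q) :
    ∃ w : Gph ι Q, JG ι Q w = u (JG ι Q v) ∧ ‖w‖ = ‖v‖ := by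
  obtain ⟨φ, hφ⟩ := exists_seq v
  have hn : ∀ ψ : D, ‖gv ι Q (Uc ψ)‖ = ‖gv ι Q ψ‖ := by
    intro ψ
    have h3 : ‖gv ι Q (Uc ψ)‖ ^ 2 = ‖gv ι Q ψ‖ ^ 2 := by
      rw [norm_gv_sq, norm_gv_sq, h1, h2, LinearIsometryEquiv.norm_map]
    exact (pow_left_inj₀ (norm_nonneg _) (norm_nonneg _) two_ne_zero).1 h3
  have hc : CauchySeq fun n => gv ι Q (Uc (φ n)) := by
    have hc0 := hφ.cauchySeq
    rw [Metric.cauchySeq_iff] at hc0 ⊢
    intro ε hε
    obtain ⟨N, hN⟩ := hc0 ε hε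
    refine ⟨N, fun n hn' k hk => ?_⟩
    have := hN n hn' k hk
    rw [dist_eq_norm, ← map_sub] at this ⊢
    rw [← map_sub, hn]
    exact this
  obtain ⟨w, hw⟩ := cauchySeq_tendsto_of_complete hc
  refine ⟨w, ?_, ?_⟩
  · have h3 := tendsto_J hw
    simp only [h1] at h3
    exact tendsto_nhds_unique h3 ((u.continuous.tendsto _).comp (tendsto_J hφ))
  · have h3 := hw.norm
    simp only [hn] at h3
    exact tendsto_nhds_unique h3 hφ.norm

/-- the lift as a unitary of the graph space -/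
theorem exists_unitary [CompleteSpace H] [CompleteSpace K]
    (hinj : ∀ v : Gph ι Q, JG ι Q v = 0 → v = 0) (u : H ≃ₗᵢ[ℂ] H) (Uc Ud : D →ₗ[ℂ] D)
    (h1 : ∀ φ, ι (Uc φ) = u (ι φ)) (h2 : ∀ φ, ‖Q (Uc φ)‖ = ‖Q φ‖)
    (h3 : ∀ φ, ι (Ud φ) = u.symm (ι φ)) (h4 : ∀ φ, ‖Q (Ud φ)‖ = ‖Q φ‖) :
    ∃ U : Gph ι Q ≃ₗᵢ[ℂ] Gph ι Q, ∀ v, JG ι Q (U v) = u (JG ι Q v) := by
  choose f hf1 hf2 using exists_lift (ι := ι) (Q := Q) u Uc h1 h2
  have hext : ∀ v w : Gph ι Q, JG ι Q v = JG ι Q w → v = w := by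
    intro v w h
    exact sub_eq_zero.1 (hinj _ (by rw [map_sub, h, sub_self]))
  let U0 : Gph ι Q →ₗᵢ[ℂ] Gph ι Q :=
    { toFun := f
      map_add' := fun a b => hext _ _ (by rw [hf1, map_add, map_add, map_add, hf1, hf1])
      map_smul' := fun c a => hext _ _ (by
        rw [hf1, RingHom.id_apply, map_smul, map_smul, map_smul, hf1])
      norm_map' := hf2 }
  have hsurj : Function.Surjective U0 := by
    intro w
    obtain ⟨z, hz, -⟩ := exists_lift (ι := ι) (Q := Q) u.symm Ud h3 h4 w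
    refine ⟨z, hext _ _ ?_⟩
    show JG ι Q (f z) = _
    rw [hf1, hz, LinearIsometryEquiv.apply_symm_apply]
  exact ⟨LinearIsometryEquiv.ofSurjective U0 hsurj, fun v => hf1 v⟩

/-- the sector of the graph space -/
def Sct (ι : D →ₗ[ℂ] H) (Q : D →ₗ[ℂ] K) {κ : Type*} (u : κ → H ≃ₗᵢ[ℂ] H) (c : κ → ℂ) :
    Submodule ℂ (Gph ι Q) where
  carrier := {v | ∀ i, u i (JG ι Q v) = c i • JG ι Q v}
  add_mem' := by
    intro a b ha hb i
    rw [map_add, map_add, ha i, hb i, smul_add]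
  zero_mem' := by intro i; simp
  smul_mem' := by
    intro d a ha i
    rw [map_smul, map_smul, ha i, smul_comm]

theorem mem_Sct {κ : Type*} {u : κ → H ≃ₗᵢ[ℂ] H} {c : κ → ℂ} {v : Gph ι Q} :
    v ∈ Sct ι Q u c ↔ ∀ i, u i (JG ι Q v) = c i • JG ι Q v := Iff.rfl

/-- **eigenvectors of the closed form in a symmetry sector** -/
theorem exists_eigen_core [CompleteSpace H] [CompleteSpace K]
    (hcl : ∀ (φ : ℕ → D) (k : K), Tendsto (fun n => ι (φ n)) atTop (𝓝 0) →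
      Tendsto (fun n => Q (φ n)) atTop (𝓝 k) → k = 0)
    {κ : Type*} (u : κ → H ≃ₗᵢ[ℂ] H) (Uc Ud : κ → D →ₗ[ℂ] D)
    (h1 : ∀ i φ, ι (Uc i φ) = u i (ι φ)) (h2 : ∀ i φ, ‖Q (Uc i φ)‖ = ‖Q φ‖)
    (h3 : ∀ i φ, ι (Ud i φ) = (u i).symm (ι φ)) (h4 : ∀ i φ, ‖Q (Ud i φ)‖ = ‖Q φ‖)
    (c : κ → ℂ)
    (hcpt : ∀ v : ℕ → Gph ι Q, (∀ n, v n ∈ Sct ι Q u c) → ∀ C : ℝ, (∀ n, ‖v n‖ ≤ C) →
      ∃ k : ℕ → ℕ, StrictMono k ∧ CauchySeq (fun n => JG ι Q (v (k n))))
    (φ : ℕ → D) (hφ : ∀ n i, u i (ι (φ n)) = c i • ι (φ n))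
    (hind : LinearIndependent ℂ fun n => ι (φ n)) :
    ∃ (e : ℕ → Gph ι Q) (E : ℕ → ℝ), (∀ n, e n ∈ Sct ι Q u c) ∧
      (∀ i j, ⟪JG ι Q (e i), JG ι Q (e j)⟫_ℂ = if i = j then (1 : ℂ) else 0) ∧
      (∀ n, 0 < E n) ∧ Monotone E ∧ Tendsto E atTop atTop ∧
      ∀ n v, ⟪WG ι Q (e n), WG ι Q v⟫_ℂ = (E n : ℂ) * ⟪JG ι Q (e n), JG ι Q v⟫_ℂ := by
  have hinj := inj_of_closable hcl
  have hU : ∀ i, ∃ U : Gph ι Q ≃ₗᵢ[ℂ] Gph ι Q, ∀ v, JG ι Q (U v) = u i (JG ι Q v) := fun i =>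
    exists_unitary hinj (u i) (Uc i) (Ud i) (h1 i) (h2 i) (h3 i) (h4 i)
  choose U hU using hU
  have hns : ∀ v : Gph ι Q, ‖v‖ ^ 2 = ‖JG ι Q v‖ ^ 2 + ‖WG ι Q v‖ ^ 2 := fun v => norm_sq v
  refine eigen_sector_pos (V := Gph ι Q) (J := JG ι Q) (W := WG ι Q) hns hinj U u hU c
    (Sct ι Q u c) ?_ hcpt ?_
  · intro v
    rw [mem_Sct]
    refine forall_congr' fun i => ?_
    rw [← hU]
    constructor
    · intro h
      refine sub_eq_zero.1 (hinj _ ?_)
      rw [map_sub, h, map_smul, sub_self]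
    · intro h
      rw [h, map_smul]
  · intro hfin
    let g : ℕ → Sct ι Q u c := fun n => ⟨gv ι Q (φ n), fun i => hφ n i⟩
    have hg : LinearIndependent ℂ g := by
      refine LinearIndependent.of_comp ((JG ι Q).toLinearMap ∘ₗ (Sct ι Q u c).subtype) ?_
      exact hind
    exact absurd hg.finite (not_finite_iff_infinite.2 inferInstance)

end Crest.Agent.R330.Graph893
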