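import Crest.Agent.R330.Ims_714
import Crest.Agent.R330.Cov_837
import Crest.Agent.R330.Moll_596
import Crest.Agent.R330.Defs_478
import Crest.Agent.R330.Rellich_893

/-!
# R330/Pkg_915 : core approximants of zero modes with all weighted norms (leaf S9-PKG)

`Ψ` a zero mode of a family of Dirac type charges `Q_α = dop G M α (W α)` with
`∫ (1+|x|²)^s |Ψ|² < ∞`. For every `L ≥ 1`, `ε > 0` there is a core vector `φ` with
* `φ = 0` on `|x| ≥ L`;
* `∫ (1+|x|²)^s |φ - Ψ|² ≤ 2 ∫_{|x| ≥ L/2} (1+|x|²)^s |Ψ|² + ε`;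
* `∫ |φ - Ψ|² ≤ 2 ∫_{|x| ≥ L/2} |Ψ|² + ε`;
* `Σ_α ∫ |Q_α φ|² ≤ C L⁻² ∫_{|x| ≥ L/2} |Ψ|² + ε`;
* `∫ (1+|x|²)^(s-1/2) |Dφ|² ≤ C` (from the kinetic bound (1.1)).
-/

set_option autoImplicit false

open MeasureTheory Filter Topology
open scoped ContDiff InnerProductSpace ENNReal
open Crest.MathPhysics.MatrixQM
open Crest.Agent.R330.Ims714

namespace Crest.Agent.R330.Pkg915

variable {N : ℕ} {F : Type*} [NormedAddCommGroup F] [InnerProductSpace ℂ F]

/-! ## gradients of radial weights -/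

theorem grad_inner (χ : Cfg N → ℝ) (x v : Cfg N) : fderiv ℝ χ x v = ⟪grad χ x, v⟫_ℝ := by
  have hv : v = ∑ k, v k • (EuclideanSpace.single k (1 : ℝ) : Cfg N) := by
    ext j
    simp [Finset.sum_apply, Pi.single_apply]
  conv_lhs => rw [hv]
  rw [map_sum, PiLp.inner_apply]
  refine Finset.sum_congr rfl fun k _ => ?_
  rw [map_smul, grad_apply]
  simp

theorem norm_grad_le (χ : Cfg N → ℝ) (x : Cfg N) : ‖grad χ x‖ ≤ ‖fderiv ℝ χ x‖ := by
  have h := grad_inner χ x (grad χ x)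
  rw [real_inner_self_eq_norm_sq] at h
  have h1 : ‖grad χ x‖ ^ 2 ≤ ‖fderiv ℝ χ x‖ * ‖grad χ x‖ := by
    rw [← h]
    refine (le_abs_self _).trans ?_
    rw [← Real.norm_eq_abs]
    exact ContinuousLinearMap.le_opNorm _ _
  rcases eq_or_lt_of_le (norm_nonneg (grad χ x)) with h0 | h0
  · rw [← h0]; exact norm_nonneg _
  · nlinarith

/-- japanese bracket weight -/
noncomputable def jw (p : ℝ) (x : Cfg N) : ℝ := (1 + ‖x‖ ^ 2) ^ p

theorem one_le_base (x : Cfg N) : 1 ≤ 1 + ‖x‖ ^ 2 := by nlinarith [sq_nonneg ‖x‖]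

theorem base_pos (x : Cfg N) : 0 < 1 + ‖x‖ ^ 2 := by nlinarith [sq_nonneg ‖x‖]

theorem jw_pos (p : ℝ) (x : Cfg N) : 0 < jw p x := Real.rpow_pos_of_pos (base_pos x) p

theorem jw_add (p q : ℝ) (x : Cfg N) : jw (p + q) x = jw p x * jw q x :=
  Real.rpow_add (base_pos x) p q

theorem jw_sq (p : ℝ) (x : Cfg N) : jw p x ^ 2 = jw (2 * p) x := by
  rw [two_mul, jw_add, sq]

theorem jw_smooth (p : ℝ) : ContDiff ℝ ∞ (jw p : Cfg N → ℝ) := by
  unfold jw
  exact ContDiff.rpow_const_of_ne (contDiff_const.add (contDiff_norm_sq ℝ))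
    fun x => (base_pos x).ne'

theorem jw_mono {p q : ℝ} (h : p ≤ q) (x : Cfg N) : jw p x ≤ jw q x :=
  Real.rpow_le_rpow_of_exponent_le (one_le_base x) h

theorem one_le_jw {p : ℝ} (h : 0 ≤ p) (x : Cfg N) : 1 ≤ jw p x :=
  Real.one_le_rpow (one_le_base x) h

theorem jw_zero (x : Cfg N) : jw 0 x = 1 := Real.rpow_zero _

theorem jw_le_of_norm_le {p : ℝ} (h : 0 ≤ p) {x : Cfg N} {L : ℝ} (hx : ‖x‖ ≤ L) :
    jw p x ≤ (1 + L ^ 2) ^ p := by
  refine Real.rpow_le_rpow (base_pos x).le ?_ h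
  have := norm_nonneg x
  nlinarith

theorem hasFDerivAt_jw (p : ℝ) (x : Cfg N) :
    HasFDerivAt (jw p) ((2 * p * jw (p - 1) x) • (innerSL ℝ x : Cfg N →L[ℝ] ℝ)) x := by
  have h1 : HasFDerivAt (fun y : Cfg N => 1 + ‖y‖ ^ 2) ((2 : ℝ) • (innerSL ℝ x : Cfg N →L[ℝ] ℝ)) x := by
    have := (hasStrictFDerivAt_norm_sq x).hasFDerivAt
    have h := this.const_add (1 : ℝ)
    have e : ((2 : ℝ) • (innerSL ℝ x : Cfg N →L[ℝ] ℝ)) = (2 : ℕ) • (innerSL ℝ x : Cfg N →L[ℝ] ℝ) := by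
      rw [two_smul, two_smul]
    rw [e]
    exact h
  have h2 := h1.rpow_const (p := p) (Or.inl (base_pos x).ne')
  have h3 : (p * (1 + ‖x‖ ^ 2) ^ (p - 1)) • ((2 : ℝ) • (innerSL ℝ x : Cfg N →L[ℝ] ℝ)) =
      (2 * p * jw (p - 1) x) • (innerSL ℝ x : Cfg N →L[ℝ] ℝ) := by
    rw [smul_smul]
    congr 1
    unfold jw
    ring
  rw [← h3]
  exact h2

theorem norm_grad_jw_le (p : ℝ) (x : Cfg N) : ‖grad (jw p) x‖ ≤ 2 * |p| * jw (p - 1 / 2) x := by
  refine (norm_grad_le _ x).trans ?_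
  rw [(hasFDerivAt_jw p x).fderiv, norm_smul, innerSL_apply_norm, Real.norm_eq_abs, abs_mul, abs_mul,
    abs_of_pos (jw_pos (p - 1) x), abs_of_pos (by norm_num : (0 : ℝ) < 2)]
  have h1 : ‖x‖ ≤ jw (1 / 2) x := by
    unfold jw
    rw [← Real.sqrt_eq_rpow]
    exact Real.le_sqrt_of_sq_le (by nlinarith [sq_nonneg ‖x‖])
  have h2 : jw (p - 1 / 2) x = jw (p - 1) x * jw (1 / 2) x := by
    rw [← jw_add]; congr 1; ring
  rw [h2]
  calc 2 * |p| * jw (p - 1) x * ‖x‖ ≤ 2 * |p| * jw (p - 1) x * jw (1 / 2) x := by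
        have := jw_pos (p - 1) x
        gcongr
    _ = _ := by ring

theorem act_inv_of_radial {b : ColorBasis N} {χ : Cfg N → ℝ}
    (h : ∀ x y : Cfg N, ‖x‖ = ‖y‖ → χ x = χ y) (g : Matrix.specialUnitaryGroup (Fin N) ℂ)
    (x : Cfg N) : χ (b.act g x) = χ x := h _ _ (Cov837.norm_act b g x)


/-! ## the charges -/

/-- squared norm of the full derivative -/
noncomputable def dsq (φ : Cfg N → F) (x : Cfg N) : ℝ :=
  ∑ k : Fin 9 × Fin (N ^ 2 - 1), ‖fderiv ℝ φ x (EuclideanSpace.single k 1)‖ ^ 2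

theorem dsq_nonneg (φ : Cfg N → F) (x : Cfg N) : 0 ≤ dsq φ x :=
  Finset.sum_nonneg fun _ _ => by positivity

theorem grad_norm_sq (χ : Cfg N → ℝ) (x : Cfg N) :
    ‖grad χ x‖ ^ 2 = ∑ k, (fderiv ℝ χ x (EuclideanSpace.single k 1)) ^ 2 := by
  rw [EuclideanSpace.norm_sq_eq]
  refine Finset.sum_congr rfl fun k _ => ?_
  rw [grad_apply, Real.norm_eq_abs, sq_abs]

theorem fderiv_smul_apply {χ : Cfg N → ℝ} {φ : Cfg N → F} {x : Cfg N}
    (hχ : DifferentiableAt ℝ χ x) (hφ : DifferentiableAt ℝ φ x) (v : Cfg N) :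
    fderiv ℝ (fun y => χ y • φ y) x v = χ x • fderiv ℝ φ x v + (fderiv ℝ χ x v) • φ x := by
  rw [fderiv_fun_smul hχ hφ]
  simp [ContinuousLinearMap.smulRight_apply]

omit [InnerProductSpace ℂ F] in
theorem sq_add_le {a c : F} : ‖a + c‖ ^ 2 ≤ 2 * ‖a‖ ^ 2 + 2 * ‖c‖ ^ 2 := by
  have h := norm_add_le a c
  have := norm_nonneg a
  have := norm_nonneg c
  have := norm_nonneg (a + c)
  nlinarith [sq_nonneg (‖a‖ - ‖c‖)]

omit [InnerProductSpace ℂ F] in
theorem sq_sub_le' {a c : F} : ‖a - c‖ ^ 2 ≤ 2 * ‖a‖ ^ 2 + 2 * ‖c‖ ^ 2 := by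
  have h := norm_sub_le a c
  have := norm_nonneg a
  have := norm_nonneg c
  have := norm_nonneg (a - c)
  nlinarith [sq_nonneg (‖a‖ - ‖c‖)]

/-- `w² |Dφ|² ≤ 2 |D(wφ)|² + 2 |∇w|² |φ|²` -/
theorem mul_dsq_le {χ : Cfg N → ℝ} {φ : Cfg N → F} {x : Cfg N}
    (hχ : DifferentiableAt ℝ χ x) (hφ : DifferentiableAt ℝ φ x) :
    χ x ^ 2 * dsq φ x ≤ 2 * dsq (fun y => χ y • φ y) x + 2 * (‖grad χ x‖ ^ 2 * ‖φ x‖ ^ 2) := by
  unfold dsq
  rw [grad_norm_sq, Finset.sum_mul, Finset.mul_sum, Finset.mul_sum, Finset.mul_sum,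
    ← Finset.sum_add_distrib]
  refine Finset.sum_le_sum fun k _ => ?_
  have h : χ x • fderiv ℝ φ x (EuclideanSpace.single k 1) =
      fderiv ℝ (fun y => χ y • φ y) x (EuclideanSpace.single k 1) -
        (fderiv ℝ χ x (EuclideanSpace.single k 1)) • φ x := by
    rw [fderiv_smul_apply hχ hφ]; abel
  have h1 : χ x ^ 2 * ‖fderiv ℝ φ x (EuclideanSpace.single k 1)‖ ^ 2 =
      ‖χ x • fderiv ℝ φ x (EuclideanSpace.single k 1)‖ ^ 2 := by
    rw [norm_smul, mul_pow, Real.norm_eq_abs, sq_abs]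
  have h2 : ‖(fderiv ℝ χ x (EuclideanSpace.single k 1)) • φ x‖ ^ 2 =
      (fderiv ℝ χ x (EuclideanSpace.single k 1)) ^ 2 * ‖φ x‖ ^ 2 := by
    rw [norm_smul, mul_pow, Real.norm_eq_abs, sq_abs]
  rw [h1, h, ← h2]
  exact sq_sub_le'

/-! ## the cut-off -/

/-- radial cut-off: one on `|x| ≤ L/2`, zero for `|x| ≥ L` -/
noncomputable def ct (L : ℝ) (x : Cfg N) : ℝ := Moll596.cut (L / 2) x

theorem ct_smooth (L : ℝ) : ContDiff ℝ ∞ (ct L : Cfg N → ℝ) := Moll596.cut_smooth _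

theorem ct_nonneg (L : ℝ) (x : Cfg N) : 0 ≤ ct L x := Moll596.cut_nonneg _ _

theorem ct_le_one (L : ℝ) (x : Cfg N) : ct L x ≤ 1 := Moll596.cut_le_one _ _

theorem ct_one {L : ℝ} (hL : 0 < L) {x : Cfg N} (hx : ‖x‖ ≤ L / 2) : ct L x = 1 :=
  Moll596.cut_one (half_pos hL) hx

theorem ct_zero {L : ℝ} (hL : 0 < L) {x : Cfg N} (hx : L ≤ ‖x‖) : ct L x = 0 :=
  Moll596.cut_zero (half_pos hL) (by linarith)

theorem ct_radial (L : ℝ) {x y : Cfg N} (h : ‖x‖ = ‖y‖) : ct L x = ct L y :=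
  Moll596.cut_radial _ h

variable (N) in
/-- the gradient bound of the cut-offs -/
theorem exists_grad_ct : ∃ D : ℝ, 0 ≤ D ∧ ∀ L : ℝ, 0 < L → ∀ x : Cfg N,
    ‖grad (ct L) x‖ ^ 2 ≤ D / L ^ 2 ∧ (‖x‖ < L / 2 → grad (ct L) x = 0) := by
  obtain ⟨C, hC, h⟩ := Moll596.exists_cut0_bound (Cfg N)
  refine ⟨4 * C ^ 2, by positivity, fun L hL x => ⟨?_, fun hx => ?_⟩⟩
  · have h1 : ‖grad (ct L) x‖ ≤ 2 * C / L := by
      refine (norm_grad_le _ x).trans ?_
      have h2 : fderiv ℝ (ct L : Cfg N → ℝ) x =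
          (L / 2)⁻¹ • fderiv ℝ Moll596.cut0 ((L / 2)⁻¹ • x) := Moll596.fderiv_cut _ _
      rw [h2, norm_smul, Real.norm_eq_abs, abs_of_pos (by positivity)]
      calc (L / 2)⁻¹ * ‖fderiv ℝ Moll596.cut0 ((L / 2)⁻¹ • x)‖ ≤ (L / 2)⁻¹ * C := by
            gcongr
            exact h _
        _ = 2 * C / L := by field_simp
    calc ‖grad (ct L) x‖ ^ 2 ≤ (2 * C / L) ^ 2 := by gcongr
      _ = 4 * C ^ 2 / L ^ 2 := by ring
  · have h1 : (ct L : Cfg N → ℝ) =ᶠ[𝓝 x] fun _ => 1 := by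
      have : {y : Cfg N | ‖y‖ < L / 2} ∈ 𝓝 x :=
        (isOpen_lt continuous_norm continuous_const).mem_nhds hx
      filter_upwards [this] with y hy
      exact ct_one hL (le_of_lt hy)
    ext k
    rw [grad_apply, h1.fderiv_eq]
    simp

/-! ## the package -/

/-- kinetic bound, a consequence of the energy identity (1.1) -/
def HKin (G : GammaNine) (M : FermionRep N F) (W : Fin 16 → Cfg N → F →ₗ[ℂ] F) : Prop :=
  ∃ K : ℝ, 0 ≤ K ∧ ∀ φ : Cfg N → F, ContDiff ℝ ∞ φ → HasCompactSupport φ →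
    ∫ x, dsq φ x ≤ K * ((∑ α, ∫ x, ‖dop G M α (W α) φ x‖ ^ 2) + ∫ x, jw (1 / 2) x * ‖φ x‖ ^ 2)

/-- the squared norm of all charges -/
noncomputable def csq (G : GammaNine) (M : FermionRep N F) (W : Fin 16 → Cfg N → F →ₗ[ℂ] F)
    (φ : Cfg N → F) (x : Cfg N) : ℝ := ∑ α, ‖dop G M α (W α) φ x‖ ^ 2

theorem csq_nonneg (G : GammaNine) (M : FermionRep N F) (W : Fin 16 → Cfg N → F →ₗ[ℂ] F)
    (φ : Cfg N → F) (x : Cfg N) : 0 ≤ csq G M W φ x :=
  Finset.sum_nonneg fun _ _ => by positivity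

/-- `Σ_α |Q_α(χφ)|² ≤ 2 χ² Σ_α |Q_α φ|² + 16 |∇χ|² |φ|²` -/
theorem csq_mul_le (G : GammaNine) (M : FermionRep N F) (W : Fin 16 → Cfg N → F →ₗ[ℂ] F)
    {χ : Cfg N → ℝ} {φ : Cfg N → F} {x : Cfg N}
    (hχ : DifferentiableAt ℝ χ x) (hφ : DifferentiableAt ℝ φ x) :
    csq G M W (fun y => χ y • φ y) x ≤
      2 * (χ x ^ 2 * csq G M W φ x) + 16 * (‖grad χ x‖ ^ 2 * ‖φ x‖ ^ 2) := by
  have h : ∀ α ∈ (Finset.univ : Finset (Fin 16)),
      ‖dop G M α (W α) (fun y => χ y • φ y) x‖ ^ 2 ≤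
      2 * (χ x ^ 2 * ‖dop G M α (W α) φ x‖ ^ 2) + ‖grad χ x‖ ^ 2 * ‖φ x‖ ^ 2 := by
    intro α _
    have := normSq_dop_mul_le G M α (W α) hχ hφ one_pos
    linarith
  refine (Finset.sum_le_sum h).trans (le_of_eq ?_)
  unfold csq
  rw [Finset.sum_add_distrib, Finset.sum_const, Finset.card_univ, Fintype.card_fin, Finset.mul_sum,
    Finset.mul_sum]
  simp only [nsmul_eq_mul]
  norm_num

/-- pointwise error of the cut-off -/
theorem err_le {s : ℝ} (hs : 0 ≤ s) {L : ℝ} (hL : 0 < L) (Φ Ψ : Cfg N → F) (x : Cfg N) :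
    jw s x * ‖ct L x • Φ x - Ψ x‖ ^ 2 ≤ 2 * (1 + L ^ 2) ^ s * ‖Φ x - Ψ x‖ ^ 2 +
      2 * {x : Cfg N | L / 2 ≤ ‖x‖}.indicator (fun x => jw s x * ‖Ψ x‖ ^ 2) x := by
  have hj := jw_pos s x
  have hB : 0 < (1 + L ^ 2) ^ s := Real.rpow_pos_of_pos (by positivity) s
  rcases le_or_gt L ‖x‖ with h | h
  · rw [ct_zero hL h, zero_smul, zero_sub, norm_neg]
    rw [Set.indicator_of_mem (show x ∈ {x : Cfg N | L / 2 ≤ ‖x‖} by
      simp only [Set.mem_ofPred_eq]; linarith)]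
    nlinarith [mul_nonneg hB.le (sq_nonneg ‖Φ x - Ψ x‖), mul_nonneg hj.le (sq_nonneg ‖Ψ x‖)]
  · have h1 : ct L x • Φ x - Ψ x = ct L x • (Φ x - Ψ x) - (1 - ct L x) • Ψ x := by
      rw [smul_sub, sub_smul, one_smul]; abel
    have hc0 := ct_nonneg L x
    have hc1 := ct_le_one L x
    have h2 : ‖ct L x • Φ x - Ψ x‖ ^ 2 ≤ 2 * ‖Φ x - Ψ x‖ ^ 2 +
        2 * ((1 - ct L x) ^ 2 * ‖Ψ x‖ ^ 2) := by
      rw [h1]
      refine sq_sub_le'.trans ?_
      rw [norm_smul, norm_smul, mul_pow, mul_pow, Real.norm_eq_abs, Real.norm_eq_abs, sq_abs, sq_abs]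
      have : ct L x ^ 2 ≤ 1 := by nlinarith
      nlinarith [sq_nonneg ‖Φ x - Ψ x‖]
    have hjl : jw s x ≤ (1 + L ^ 2) ^ s := jw_le_of_norm_le hs h.le
    have h3 : jw s x * ((1 - ct L x) ^ 2 * ‖Ψ x‖ ^ 2) ≤
        {x : Cfg N | L / 2 ≤ ‖x‖}.indicator (fun x => jw s x * ‖Ψ x‖ ^ 2) x := by
      by_cases hx : x ∈ {x : Cfg N | L / 2 ≤ ‖x‖}
      · rw [Set.indicator_of_mem hx]
        have : (1 - ct L x) ^ 2 ≤ 1 := by nlinarith
        have h4 : (1 - ct L x) ^ 2 * ‖Ψ x‖ ^ 2 ≤ 1 * ‖Ψ x‖ ^ 2 := by gcongr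
        rw [one_mul] at h4
        gcongr
      · rw [Set.indicator_of_notMem hx]
        simp only [Set.mem_ofPred_eq, not_le] at hx
        rw [ct_one hL hx.le]
        simp
    calc jw s x * ‖ct L x • Φ x - Ψ x‖ ^ 2
        ≤ jw s x * (2 * ‖Φ x - Ψ x‖ ^ 2 + 2 * ((1 - ct L x) ^ 2 * ‖Ψ x‖ ^ 2)) := by gcongr
      _ = 2 * jw s x * ‖Φ x - Ψ x‖ ^ 2 + 2 * (jw s x * ((1 - ct L x) ^ 2 * ‖Ψ x‖ ^ 2)) := by ring
      _ ≤ _ := by gcongr

/-! ### integrability -/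

theorem continuous_dsq {φ : Cfg N → F} (hφ : ContDiff ℝ 1 φ) : Continuous (dsq φ) := by
  unfold dsq
  refine continuous_finsetSum _ fun k _ => ?_
  exact ((hφ.continuous_fderiv one_ne_zero).clm_apply continuous_const).norm.pow 2

theorem dsq_eq_zero {φ : Cfg N → F} {x : Cfg N} (h : x ∉ tsupport φ) : dsq φ x = 0 := by
  unfold dsq
  have : fderiv ℝ φ x = 0 := by
    by_contra h1
    exact h (support_fderiv_subset ℝ h1)
  simp [this]

omit [InnerProductSpace ℂ F] in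
theorem hasCompactSupport_of_tsupport {G' : Type*} [Zero G'] {φ : Cfg N → F} {f : Cfg N → G'}
    (hφ : HasCompactSupport φ) (h : ∀ x, x ∉ tsupport φ → f x = 0) : HasCompactSupport f := by
  refine HasCompactSupport.intro hφ ?_
  exact h

theorem integrable_dsq {φ : Cfg N → F} (hφ : ContDiff ℝ 1 φ) (hc : HasCompactSupport φ) :
    Integrable (dsq φ) :=
  (continuous_dsq hφ).integrable_of_hasCompactSupport
    (hasCompactSupport_of_tsupport hc fun _ h => dsq_eq_zero h)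

theorem integrable_jw_dsq (p : ℝ) {φ : Cfg N → F} (hφ : ContDiff ℝ 1 φ)
    (hc : HasCompactSupport φ) : Integrable fun x => jw p x * dsq φ x :=
  ((jw_smooth p).continuous.mul (continuous_dsq hφ)).integrable_of_hasCompactSupport
    (hasCompactSupport_of_tsupport hc fun _ h => by simp [dsq_eq_zero h])

omit [InnerProductSpace ℂ F] in
theorem integrable_jw_norm (p : ℝ) {φ : Cfg N → F} (hφ : Continuous φ)
    (hc : HasCompactSupport φ) : Integrable fun x => jw p x * ‖φ x‖ ^ 2 :=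
  ((jw_smooth p).continuous.mul (hφ.norm.pow 2)).integrable_of_hasCompactSupport
    (hasCompactSupport_of_tsupport hc fun x h => by
      simp [image_eq_zero_of_notMem_tsupport h])

theorem dop_eq_zero (G : GammaNine) (M : FermionRep N F) (α : Fin 16)
    (W : Cfg N → F →ₗ[ℂ] F) {φ : Cfg N → F} {x : Cfg N} (h : x ∉ tsupport φ) :
    dop G M α W φ x = 0 := by
  unfold dop
  have h1 : fderiv ℝ φ x = 0 := by
    by_contra h1
    exact h (support_fderiv_subset ℝ h1)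
  rw [h1, image_eq_zero_of_notMem_tsupport h]
  simp

theorem csq_eq_zero (G : GammaNine) (M : FermionRep N F) (W : Fin 16 → Cfg N → F →ₗ[ℂ] F)
    {φ : Cfg N → F} {x : Cfg N} (h : x ∉ tsupport φ) : csq G M W φ x = 0 := by
  unfold csq
  simp [dop_eq_zero G M _ _ h]

section main

variable [FiniteDimensional ℂ F] {b : ColorBasis N} {M : FermionRep N F} {R : GaugeAction b M}
  {G : GammaNine} {W : Fin 16 → Cfg N → F →ₗ[ℂ] F}

theorem continuous_csq (hW : ∀ α, ∀ φ : Cfg N → F, Continuous φ → Continuous fun x => W α x (φ x))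
    {φ : Cfg N → F} (hφ : ContDiff ℝ 1 φ) : Continuous (csq G M W φ) := by
  unfold csq
  refine continuous_finsetSum _ fun α _ => ?_
  exact (continuous_dop G M α (W α) hφ (hW α φ hφ.continuous)).norm.pow 2

theorem integrable_dop_sq
    (hW : ∀ α, ∀ φ : Cfg N → F, Continuous φ → Continuous fun x => W α x (φ x))
    {φ : Cfg N → F} (hφ : ContDiff ℝ 1 φ) (hc : HasCompactSupport φ) (α : Fin 16) :
    Integrable fun x => ‖dop G M α (W α) φ x‖ ^ 2 :=
  ((continuous_dop G M α (W α) hφ (hW α φ hφ.continuous)).norm.pow 2).integrable_of_hasCompactSupport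
    (hasCompactSupport_of_tsupport hc fun _ h => by simp [dop_eq_zero G M α (W α) h])

theorem integral_csq
    (hW : ∀ α, ∀ φ : Cfg N → F, Continuous φ → Continuous fun x => W α x (φ x))
    {φ : Cfg N → F} (hφ : ContDiff ℝ 1 φ) (hc : HasCompactSupport φ) :
    ∫ x, csq G M W φ x = ∑ α, ∫ x, ‖dop G M α (W α) φ x‖ ^ 2 := by
  unfold csq
  exact integral_finsetSum _ fun α _ => integrable_dop_sq hW hφ hc α

theorem integrable_csq
    (hW : ∀ α, ∀ φ : Cfg N → F, Continuous φ → Continuous fun x => W α x (φ x))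
    {φ : Cfg N → F} (hφ : ContDiff ℝ 1 φ) (hc : HasCompactSupport φ) :
    Integrable (csq G M W φ) := by
  unfold csq
  exact integrable_finsetSum _ fun α _ => integrable_dop_sq hW hφ hc α

theorem integrable_jw_csq (p : ℝ)
    (hW : ∀ α, ∀ φ : Cfg N → F, Continuous φ → Continuous fun x => W α x (φ x))
    {φ : Cfg N → F} (hφ : ContDiff ℝ 1 φ) (hc : HasCompactSupport φ) :
    Integrable fun x => jw p x * csq G M W φ x :=
  ((jw_smooth p).continuous.mul (continuous_csq hW hφ)).integrable_of_hasCompactSupport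
    (hasCompactSupport_of_tsupport hc fun _ h => by simp [csq_eq_zero G M W h])

/-- weighted gradient bound for smooth compactly supported functions -/
theorem grad_bound
    (hW : ∀ α, ∀ φ : Cfg N → F, Continuous φ → Continuous fun x => W α x (φ x))
    (s : ℝ) {K : ℝ} (hK0 : 0 ≤ K)
    (hK : ∀ φ : Cfg N → F, ContDiff ℝ ∞ φ → HasCompactSupport φ →
      ∫ x, dsq φ x ≤ K * ((∑ α, ∫ x, ‖dop G M α (W α) φ x‖ ^ 2) +
        ∫ x, jw (1 / 2) x * ‖φ x‖ ^ 2))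
    {ψ : Cfg N → F} (hψ : ContDiff ℝ ∞ ψ) (hc : HasCompactSupport ψ) :
    ∫ x, jw (s - 1 / 2) x * dsq ψ x ≤
      4 * K * (∫ x, jw (s - 1 / 2) x * csq G M W ψ x) +
        ((32 * K + 2) * (4 * ((s - 1 / 2) / 2) ^ 2) + 2 * K) * ∫ x, jw s x * ‖ψ x‖ ^ 2 := by
  set p : ℝ := (s - 1 / 2) / 2 with hp
  have hψ1 : ContDiff ℝ 1 ψ := hψ.of_le (by exact_mod_cast le_top)
  have hwψ : ContDiff ℝ ∞ fun y => jw p y • ψ y := (jw_smooth p).smul hψ
  have hwψ1 : ContDiff ℝ 1 fun y => jw p y • ψ y := hwψ.of_le (by exact_mod_cast le_top)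
  have hwc : HasCompactSupport fun y => jw p y • ψ y := hc.smul_left (f := jw p)
  have hjd : ∀ x, DifferentiableAt ℝ (jw p : Cfg N → ℝ) x := fun x =>
    (jw_smooth p).differentiable (by simp) x
  have hψd : ∀ x, DifferentiableAt ℝ ψ x := fun x => hψ1.differentiable one_ne_zero x
  have hsq : ∀ x : Cfg N, jw p x ^ 2 = jw (s - 1 / 2) x := fun x => by
    rw [jw_sq, hp]; congr 1; ring
  -- the gradient term
  have hgr : ∀ x, ‖grad (jw p) x‖ ^ 2 * ‖ψ x‖ ^ 2 ≤ 4 * p ^ 2 * (jw s x * ‖ψ x‖ ^ 2) := by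
    intro x
    have h1 : ‖grad (jw p) x‖ ^ 2 ≤ (2 * |p| * jw (p - 1 / 2) x) ^ 2 := by
      have := norm_grad_jw_le p x
      gcongr
    have h2 : (2 * |p| * jw (p - 1 / 2) x) ^ 2 = 4 * p ^ 2 * jw (2 * (p - 1 / 2)) x := by
      rw [mul_pow, mul_pow, sq_abs, jw_sq]; ring
    have h3 : jw (2 * (p - 1 / 2)) x ≤ jw s x := jw_mono (by rw [hp]; linarith) x
    calc ‖grad (jw p) x‖ ^ 2 * ‖ψ x‖ ^ 2 ≤ (4 * p ^ 2 * jw s x) * ‖ψ x‖ ^ 2 := by
          rw [h2] at h1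
          have h4 : 4 * p ^ 2 * jw (2 * (p - 1 / 2)) x ≤ 4 * p ^ 2 * jw s x := by gcongr
          have := h1.trans h4
          gcongr
      _ = _ := by ring
  have hIs := integrable_jw_norm s hψ.continuous hc
  -- step 1
  have e1 : ∫ x, jw (s - 1 / 2) x * dsq ψ x ≤
      2 * (∫ x, dsq (fun y => jw p y • ψ y) x) + 2 * (4 * p ^ 2) * ∫ x, jw s x * ‖ψ x‖ ^ 2 := by
    rw [← integral_const_mul, ← integral_const_mul, ← integral_add ((integrable_dsq hwψ1 hwc).const_mul _)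
      (hIs.const_mul _)]
    refine integral_mono (integrable_jw_dsq _ hψ1 hc) (((integrable_dsq hwψ1 hwc).const_mul _).add
      (hIs.const_mul _)) fun x => ?_
    have h1 := mul_dsq_le (hjd x) (hψd x)
    rw [hsq] at h1
    have h2 := hgr x
    simp only
    linarith
  -- step 2
  have e2 := hK _ hwψ hwc
  have e3 : (∑ α, ∫ x, ‖dop G M α (W α) (fun y => jw p y • ψ y) x‖ ^ 2) ≤
      2 * (∫ x, jw (s - 1 / 2) x * csq G M W ψ x) +
        16 * (4 * p ^ 2) * ∫ x, jw s x * ‖ψ x‖ ^ 2 := by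
    rw [← integral_csq hW hwψ1 hwc, ← integral_const_mul, ← integral_const_mul,
      ← integral_add ((integrable_jw_csq _ hW hψ1 hc).const_mul _) (hIs.const_mul _)]
    refine integral_mono (integrable_csq hW hwψ1 hwc)
      (((integrable_jw_csq _ hW hψ1 hc).const_mul _).add (hIs.const_mul _)) fun x => ?_
    have h1 := csq_mul_le G M W (hjd x) (hψd x)
    rw [hsq] at h1
    have h2 := hgr x
    simp only
    linarith
  have e4 : ∫ x, jw (1 / 2) x * ‖jw p x • ψ x‖ ^ 2 = ∫ x, jw s x * ‖ψ x‖ ^ 2 := by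
    refine integral_congr_ae (Eventually.of_forall fun x => ?_)
    simp only
    rw [norm_smul, mul_pow, Real.norm_eq_abs, sq_abs, hsq, ← mul_assoc, ← jw_add]
    congr 2
    ring
  rw [e4] at e2
  set I1 := ∫ x, jw s x * ‖ψ x‖ ^ 2
  set I2 := ∫ x, jw (s - 1 / 2) x * csq G M W ψ x
  set Q := ∑ α, ∫ x, ‖dop G M α (W α) (fun y => jw p y • ψ y) x‖ ^ 2
  have e5 : K * (Q + I1) ≤ K * (2 * I2 + 16 * (4 * p ^ 2) * I1 + I1) := by
    apply mul_le_mul_of_nonneg_left _ hK0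
    linarith
  calc _ ≤ 2 * (K * (2 * I2 + 16 * (4 * p ^ 2) * I1 + I1)) + 2 * (4 * p ^ 2) * I1 := by linarith
    _ = _ := by ring

/-- the package of estimates for a core vector `ψ` cut off at radius `L` -/
structure Pk (b : ColorBasis N) {M : FermionRep N F} (R : GaugeAction b M) (G : GammaNine)
    (W : Fin 16 → Cfg N → F →ₗ[ℂ] F) (Ψ : Cfg N → F) (s C L ε : ℝ) (ψ : Cfg N → F) : Prop where
  core : IsCoreVec b R ψ
  supp : ∀ x, L ≤ ‖x‖ → ψ x = 0
  err0 : ∫ x, ‖ψ x - Ψ x‖ ^ 2 ≤ 2 * (∫ x in {x : Cfg N | L / 2 ≤ ‖x‖}, ‖Ψ x‖ ^ 2) + ε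
  errs : ∫ x, jw s x * ‖ψ x - Ψ x‖ ^ 2 ≤
    2 * (∫ x in {x : Cfg N | L / 2 ≤ ‖x‖}, jw s x * ‖Ψ x‖ ^ 2) + ε
  charge : ∑ α, ∫ x, ‖dop G M α (W α) ψ x‖ ^ 2 ≤
    C / L ^ 2 * (∫ x in {x : Cfg N | L / 2 ≤ ‖x‖}, ‖Ψ x‖ ^ 2) + ε
  norms : ∫ x, jw s x * ‖ψ x‖ ^ 2 ≤ C
  grad : ∫ x, jw (s - 1 / 2) x * dsq ψ x ≤ C

theorem measurableSet_tail (L : ℝ) : MeasurableSet {x : Cfg N | L / 2 ≤ ‖x‖} :=
  measurableSet_le measurable_const measurable_norm

theorem integrable_err {s : ℝ} {Ψ ψ : Cfg N → F} (hΨ : AEStronglyMeasurable Ψ volume)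
    (hI : Integrable fun x => jw s x * ‖Ψ x‖ ^ 2) (hψ : Continuous ψ) (hc : HasCompactSupport ψ) :
    Integrable fun x => jw s x * ‖ψ x - Ψ x‖ ^ 2 := by
  refine Integrable.mono' (((integrable_jw_norm s hψ hc).const_mul 2).add (hI.const_mul 2))
    ((jw_smooth s).continuous.aestronglyMeasurable.mul
      ((hψ.aestronglyMeasurable.sub hΨ).norm.pow 2)) (Eventually.of_forall fun x => ?_)
  have hj := jw_pos s x
  rw [Real.norm_of_nonneg (by positivity)]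
  have h := @sq_sub_le' F _ (ψ x) (Ψ x)
  simp only [Pi.add_apply]
  calc jw s x * ‖ψ x - Ψ x‖ ^ 2 ≤ jw s x * (2 * ‖ψ x‖ ^ 2 + 2 * ‖Ψ x‖ ^ 2) := by gcongr
    _ = _ := by ring

/-- integrated error of the cut-off -/
theorem int_err {s : ℝ} (hs : 0 ≤ s) {L : ℝ} (hL : 0 < L) {Ψ Φ : Cfg N → F}
    (hΨ : MemLp Ψ 2 volume) (hI : Integrable fun x => jw s x * ‖Ψ x‖ ^ 2)
    (hΦ : Continuous Φ) (hc : HasCompactSupport Φ) :
    ∫ x, jw s x * ‖ct L x • Φ x - Ψ x‖ ^ 2 ≤ 2 * (1 + L ^ 2) ^ s * (∫ x, ‖Φ x - Ψ x‖ ^ 2) +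
      2 * ∫ x in {x : Cfg N | L / 2 ≤ ‖x‖}, jw s x * ‖Ψ x‖ ^ 2 := by
  have hcc : Continuous fun x => ct L x • Φ x := (ct_smooth L).continuous.smul hΦ
  have hccs : HasCompactSupport fun x => ct L x • Φ x := hc.smul_left (f := ct L)
  have hi0 : Integrable fun x => ‖Φ x - Ψ x‖ ^ 2 :=
    Rel893.integrable_norm_sq_of_memLp ((hΦ.memLp_of_hasCompactSupport hc).sub hΨ)
  rw [← integral_indicator (measurableSet_tail L), ← integral_const_mul, ← integral_const_mul,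
    ← integral_add (hi0.const_mul _) ((hI.indicator (measurableSet_tail L)).const_mul _)]
  exact integral_mono (integrable_err hΨ.1 hI hcc hccs) ((hi0.const_mul _).add
    ((hI.indicator (measurableSet_tail L)).const_mul _)) fun x => err_le hs hL Φ Ψ x

/-- integrated charge of the cut-off -/
theorem int_charge
    (hW : ∀ α, ∀ φ : Cfg N → F, Continuous φ → Continuous fun x => W α x (φ x))
    {D : ℝ} (hD : 0 ≤ D) {L : ℝ} (hL : 0 < L)
    (hg : ∀ x : Cfg N, ‖grad (ct L) x‖ ^ 2 ≤ D / L ^ 2 ∧ (‖x‖ < L / 2 → grad (ct L) x = 0))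
    {Ψ Φ : Cfg N → F} (hΨ : MemLp Ψ 2 volume)
    (hΦ : ContDiff ℝ 1 Φ) (hc : HasCompactSupport Φ) :
    ∫ x, csq G M W (fun y => ct L y • Φ y) x ≤ 2 * (∫ x, csq G M W Φ x) +
      32 * (D / L ^ 2) * (∫ x, ‖Φ x - Ψ x‖ ^ 2) +
      32 * (D / L ^ 2) * ∫ x in {x : Cfg N | L / 2 ≤ ‖x‖}, ‖Ψ x‖ ^ 2 := by
  have hct : ContDiff ℝ 1 (ct L : Cfg N → ℝ) := (ct_smooth L).of_le (by exact_mod_cast le_top)
  have hcc : ContDiff ℝ 1 fun x => ct L x • Φ x := hct.smul hΦ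
  have hccs : HasCompactSupport fun x => ct L x • Φ x := hc.smul_left (f := ct L)
  have hi0 : Integrable fun x => ‖Φ x - Ψ x‖ ^ 2 :=
    Rel893.integrable_norm_sq_of_memLp ((hΦ.continuous.memLp_of_hasCompactSupport hc).sub hΨ)
  have hi1 : Integrable fun x => ‖Ψ x‖ ^ 2 := Rel893.integrable_norm_sq_of_memLp hΨ
  have hi2 := hi1.indicator (measurableSet_tail L)
  have hi3 := integrable_csq (M := M) (G := G) hW hΦ hc
  have hDL : 0 ≤ D / L ^ 2 := by positivity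
  have hA : Integrable fun x => 2 * csq G M W Φ x + 32 * (D / L ^ 2) * ‖Φ x - Ψ x‖ ^ 2 :=
    (hi3.const_mul _).add (hi0.const_mul _)
  rw [← integral_indicator (measurableSet_tail L), ← integral_const_mul, ← integral_const_mul,
    ← integral_const_mul, ← integral_add (hi3.const_mul _) (hi0.const_mul _),
    ← integral_add hA (hi2.const_mul _)]
  refine integral_mono (integrable_csq hW hcc hccs) (hA.add (hi2.const_mul _)) fun x => ?_
  have h1 := csq_mul_le G M W (hct.differentiable one_ne_zero x) (hΦ.differentiable one_ne_zero x)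
  have hc0 := ct_nonneg L x
  have hc1 := ct_le_one L x
  have hcs := csq_nonneg G M W Φ x
  have h2 : ct L x ^ 2 * csq G M W Φ x ≤ csq G M W Φ x := by
    have : ct L x ^ 2 ≤ 1 := by nlinarith
    nlinarith
  have h3 : ‖grad (ct L) x‖ ^ 2 * ‖Φ x‖ ^ 2 ≤ D / L ^ 2 * (2 * ‖Φ x - Ψ x‖ ^ 2) +
      D / L ^ 2 * (2 * {x : Cfg N | L / 2 ≤ ‖x‖}.indicator (fun x => ‖Ψ x‖ ^ 2) x) := by
    by_cases hx : x ∈ {x : Cfg N | L / 2 ≤ ‖x‖}
    · rw [Set.indicator_of_mem hx, ← mul_add]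
      have h4 : ‖Φ x‖ ^ 2 ≤ 2 * ‖Φ x - Ψ x‖ ^ 2 + 2 * ‖Ψ x‖ ^ 2 := by
        have := @sq_add_le F _ (Φ x - Ψ x) (Ψ x)
        rwa [sub_add_cancel] at this
      exact mul_le_mul (hg x).1 h4 (by positivity) hDL
    · rw [Set.indicator_of_notMem hx]
      simp only [Set.mem_ofPred_eq, not_le] at hx
      rw [(hg x).2 hx]
      simp only [norm_zero, mul_zero, add_zero]
      have : 0 ≤ D / L ^ 2 * (2 * ‖Φ x - Ψ x‖ ^ 2) := by positivity
      simpa using this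
  simp only
  linarith

omit [InnerProductSpace ℂ F] [FiniteDimensional ℂ F] in
theorem tail_le {s : ℝ} (hs : 0 ≤ s) {L : ℝ} (hL : 0 < L) {Ψ : Cfg N → F}
    (hΨ : MemLp Ψ 2 volume) (hI : Integrable fun x => jw s x * ‖Ψ x‖ ^ 2) :
    (1 + L ^ 2) ^ s * (∫ x in {x : Cfg N | L / 2 ≤ ‖x‖}, ‖Ψ x‖ ^ 2) ≤
      4 ^ s * ∫ x in {x : Cfg N | L / 2 ≤ ‖x‖}, jw s x * ‖Ψ x‖ ^ 2 := by
  have hi1 : Integrable fun x => ‖Ψ x‖ ^ 2 := Rel893.integrable_norm_sq_of_memLp hΨ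
  rw [← integral_const_mul, ← integral_const_mul]
  refine setIntegral_mono_on (hi1.const_mul _).integrableOn (hI.const_mul _).integrableOn
    (measurableSet_tail L) fun x hx => ?_
  simp only [Set.mem_ofPred_eq] at hx
  have h1 : (1 + L ^ 2) ^ s ≤ 4 ^ s * jw s x := by
    unfold jw
    rw [← Real.mul_rpow (by norm_num) (base_pos x).le]
    refine Real.rpow_le_rpow (by positivity) ?_ hs
    nlinarith [norm_nonneg x]
  have h2 : 0 ≤ ‖Ψ x‖ ^ 2 := by positivity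
  calc (1 + L ^ 2) ^ s * ‖Ψ x‖ ^ 2 ≤ (4 ^ s * jw s x) * ‖Ψ x‖ ^ 2 := by gcongr
    _ = _ := by ring

set_option maxHeartbeats 1000000 in
/-- **S9-PKG** -/
theorem pkg
    (hW : ∀ α, ∀ φ : Cfg N → F, Continuous φ → Continuous fun x => W α x (φ x))
    {Ψ : Cfg N → F} (hΨ : MemLp Ψ 2 volume) {φ : ℕ → Cfg N → F} (hφ : ∀ n, IsCoreVec b R (φ n))
    (h1 : Tendsto (fun n => eLpNorm (φ n - Ψ) 2 volume) atTop (𝓝 0))
    (h2 : ∀ α, Tendsto (fun n => eLpNorm (dop G M α (W α) (φ n)) 2 volume) atTop (𝓝 0))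
    {s : ℝ} (hs : 0 ≤ s) (hI : Integrable fun x => jw s x * ‖Ψ x‖ ^ 2) (hK : HKin G M W) :
    ∃ C : ℝ, 0 ≤ C ∧ ∀ L : ℝ, 1 ≤ L → ∀ ε : ℝ, 0 < ε →
      ∀ᶠ n in atTop, Pk b R G W Ψ s C L ε (fun x => ct L x • φ n x) := by
  obtain ⟨K, hK0, hK⟩ := hK
  obtain ⟨D, hD, hg⟩ := exists_grad_ct N
  have hφ1 : ∀ n, ContDiff ℝ 1 (φ n) := fun n => (hφ n).1.of_le (by exact_mod_cast le_top)
  have ha : Tendsto (fun n => ∫ x, ‖φ n x - Ψ x‖ ^ 2) atTop (𝓝 0) := by
    have := (Rel893.tendsto_eLpNorm_iff (f := fun n => φ n - Ψ) (μ := volume) (l := atTop)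
      fun n => ((hφ1 n).continuous.memLp_of_hasCompactSupport (hφ n).2.1).sub hΨ).1 h1
    simpa using this
  have hq : Tendsto (fun n => ∫ x, csq G M W (φ n) x) atTop (𝓝 0) := by
    have h3 : ∀ α, Tendsto (fun n => ∫ x, ‖dop G M α (W α) (φ n) x‖ ^ 2) atTop (𝓝 0) := by
      intro α
      refine (Rel893.tendsto_eLpNorm_iff (f := fun n => dop G M α (W α) (φ n)) (μ := volume)
        (l := atTop) fun n => ?_).1 (h2 α)
      exact (continuous_dop G M α (W α) (hφ1 n) (hW α _ (hφ1 n).continuous)).memLp_of_hasCompactSupport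
        (hasCompactSupport_of_tsupport (hφ n).2.1 fun _ h => dop_eq_zero G M α (W α) h)
    have h4 := tendsto_finsetSum (Finset.univ : Finset (Fin 16)) fun α _ => h3 α
    simp only [Finset.sum_const_zero] at h4
    refine h4.congr fun n => ?_
    rw [integral_csq hW (hφ1 n) (hφ n).2.1]
  set I := ∫ x, jw s x * ‖Ψ x‖ ^ 2 with hIdef
  have hI0 : 0 ≤ I := integral_nonneg fun x => mul_nonneg (jw_pos s x).le (by positivity)
  have hi1 : Integrable fun x => ‖Ψ x‖ ^ 2 := Rel893.integrable_norm_sq_of_memLp hΨ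
  set c := (32 * K + 2) * (4 * ((s - 1 / 2) / 2) ^ 2) + 2 * K with hc
  have hc0 : 0 ≤ c := by positivity
  have h4s : (0 : ℝ) ≤ 4 ^ s := Real.rpow_nonneg (by norm_num) s
  refine ⟨32 * D + (6 * I + 2) + (4 * K * (32 * D * (4 ^ s * I) + 1) + c * (6 * I + 2)),
    by positivity, fun L hL ε hε => ?_⟩
  have hL0 : 0 < L := lt_of_lt_of_le one_pos hL
  set B := (1 + L ^ 2) ^ s with hB
  have hB1 : 1 ≤ B := Real.one_le_rpow (by nlinarith) hs
  set T := ∫ x in {x : Cfg N | L / 2 ≤ ‖x‖}, ‖Ψ x‖ ^ 2 with hT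
  set Ts := ∫ x in {x : Cfg N | L / 2 ≤ ‖x‖}, jw s x * ‖Ψ x‖ ^ 2 with hTs
  have hT0 : 0 ≤ T := integral_nonneg fun x => by positivity
  have hTs0 : 0 ≤ Ts := integral_nonneg fun x => mul_nonneg (jw_pos s x).le (by positivity)
  have hTsI : Ts ≤ I := setIntegral_le_integral hI
    (Eventually.of_forall fun x => mul_nonneg (jw_pos s x).le (by positivity))
  have hDL : D / L ^ 2 ≤ D := div_le_self hD (by nlinarith)
  have hDL0 : 0 ≤ D / L ^ 2 := by positivity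
  -- the smallness
  set δ : ℝ := min ε 1 / (2 * B + 2 + B * (32 * D + 2)) with hδ
  have hden : 0 < 2 * B + 2 + B * (32 * D + 2) := by positivity
  have hδ0 : 0 < δ := div_pos (lt_min hε one_pos) hden
  filter_upwards [(tendsto_order.1 ha).2 δ hδ0, (tendsto_order.1 hq).2 δ hδ0] with n hn1 hn2
  set a := ∫ x, ‖φ n x - Ψ x‖ ^ 2 with ha'
  set q := ∫ x, csq G M W (φ n) x with hq'
  have ha0 : 0 ≤ a := integral_nonneg fun x => by positivity
  have hq0 : 0 ≤ q := integral_nonneg fun x => csq_nonneg G M W _ x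
  have hδm : δ * (2 * B + 2 + B * (32 * D + 2)) = min ε 1 := by
    rw [hδ]; field_simp
  have hsm1 : 2 * B * a ≤ min ε 1 := by
    rw [← hδm]
    have : 2 * B * a ≤ 2 * B * δ := by gcongr
    nlinarith [mul_nonneg hδ0.le (by positivity : 0 ≤ 2 + B * (32 * D + 2))]
  have hsm2 : B * (2 * q + 32 * D * a) ≤ min ε 1 := by
    rw [← hδm]
    have : B * (2 * q + 32 * D * a) ≤ B * (2 * δ + 32 * D * δ) := by gcongr
    nlinarith [mul_nonneg hδ0.le (by positivity : 0 ≤ 2 + 2 * B)]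
  have hsm3 : 2 * a ≤ ε := by
    have : 2 * a ≤ 2 * B * a := by nlinarith
    exact this.trans (hsm1.trans (min_le_left _ _))
  have hsm4 : 2 * q + 32 * D * a ≤ ε := by
    have h0 : 0 ≤ 2 * q + 32 * D * a := by positivity
    have : 2 * q + 32 * D * a ≤ B * (2 * q + 32 * D * a) := by nlinarith
    exact this.trans (hsm2.trans (min_le_left _ _))
  set ψ : Cfg N → F := fun x => ct L x • φ n x with hψ
  have hψs : ContDiff ℝ ∞ ψ := (ct_smooth L).smul (hφ n).1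
  have hψ1 : ContDiff ℝ 1 ψ := hψs.of_le (by exact_mod_cast le_top)
  have hψc : HasCompactSupport ψ := (hφ n).2.1.smul_left (f := ct L)
  have hψ0 : ∀ x, L ≤ ‖x‖ → ψ x = 0 := fun x hx => by
    show ct L x • φ n x = 0
    rw [ct_zero hL0 hx, zero_smul]
  have herrs := int_err hs hL0 hΨ hI (hφ1 n).continuous (hφ n).2.1
  have herr0 := int_err (s := 0) le_rfl hL0 hΨ (by simpa [jw_zero] using hi1) (hφ1 n).continuous
    (hφ n).2.1
  simp only [jw_zero, one_mul, Real.rpow_zero, mul_one] at herr0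
  have hch := int_charge (G := G) (M := M) hW hD hL0 (hg L hL0) hΨ (hφ1 n) (hφ n).2.1
  rw [← hB] at herrs
  have hch' : ∫ x, csq G M W ψ x ≤ 32 * D / L ^ 2 * T + (2 * q + 32 * D * a) := by
    have e1 : 32 * (D / L ^ 2) * a ≤ 32 * D * a := by gcongr
    have e2 : 32 * (D / L ^ 2) * T = 32 * D / L ^ 2 * T := by ring
    linarith
  have hnorm : ∫ x, jw s x * ‖ψ x‖ ^ 2 ≤ 6 * I + 2 := by
    have e1 : ∫ x, jw s x * ‖ψ x‖ ^ 2 ≤ 2 * (∫ x, jw s x * ‖ψ x - Ψ x‖ ^ 2) + 2 * I := by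
      have hie := integrable_err hΨ.1 hI hψ1.continuous hψc
      rw [hIdef, ← integral_const_mul, ← integral_const_mul,
        ← integral_add (hie.const_mul _) (hI.const_mul _)]
      refine integral_mono (integrable_jw_norm s hψ1.continuous hψc)
        ((hie.const_mul _).add (hI.const_mul _)) fun x => ?_
      have h4 := @sq_add_le F _ (ψ x - Ψ x) (Ψ x)
      rw [sub_add_cancel] at h4
      have hj := (jw_pos s x).le
      simp only
      calc jw s x * ‖ψ x‖ ^ 2 ≤ jw s x * (2 * ‖ψ x - Ψ x‖ ^ 2 + 2 * ‖Ψ x‖ ^ 2) := by gcongr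
        _ = _ := by ring
    have e2 : min ε 1 ≤ 1 := min_le_right _ _
    linarith
  refine ⟨isCoreVec_mul (ct_smooth L) (act_inv_of_radial fun x y h => ct_radial L h) (hφ n),
    hψ0, ?_, ?_, ?_, ?_, ?_⟩
  · linarith
  · have e2 : min ε 1 ≤ ε := min_le_left _ _
    linarith
  · rw [← integral_csq hW hψ1 hψc]
    refine hch'.trans ?_
    have e1 : 32 * D / L ^ 2 ≤ (32 * D + (6 * I + 2) +
        (4 * K * (32 * D * (4 ^ s * I) + 1) + c * (6 * I + 2))) / L ^ 2 := by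
      have : 0 ≤ (6 * I + 2) + (4 * K * (32 * D * (4 ^ s * I) + 1) + c * (6 * I + 2)) := by
        positivity
      gcongr
      linarith
    have e2 := mul_le_mul_of_nonneg_right e1 hT0
    linarith
  · have : 0 ≤ 32 * D + (4 * K * (32 * D * (4 ^ s * I) + 1) + c * (6 * I + 2)) := by positivity
    linarith
  · have e0 := grad_bound (G := G) (M := M) hW s hK0 hK hψs hψc
    rw [← hc] at e0
    have e1 : ∫ x, jw (s - 1 / 2) x * csq G M W ψ x ≤ B * ∫ x, csq G M W ψ x := by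
      rw [← integral_const_mul]
      refine integral_mono (integrable_jw_csq _ hW hψ1 hψc)
        ((integrable_csq hW hψ1 hψc).const_mul _) fun x => ?_
      rcases le_or_gt ‖x‖ L with hx | hx
      · have e2 : jw (s - 1 / 2) x ≤ B := (jw_mono (by linarith) x).trans (jw_le_of_norm_le hs hx)
        exact mul_le_mul_of_nonneg_right e2 (csq_nonneg G M W ψ x)
      · have e2 : x ∉ tsupport ψ := by
          intro hx'
          have : tsupport ψ ⊆ Metric.closedBall (0 : Cfg N) L := by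
            refine closure_minimal (fun y hy => ?_) Metric.isClosed_closedBall
            rw [mem_closedBall_zero_iff]
            by_contra h5
            exact hy (hψ0 y (not_le.1 h5).le)
          have := this hx'
          rw [mem_closedBall_zero_iff] at this
          linarith
        show jw (s - 1 / 2) x * csq G M W ψ x ≤ B * csq G M W ψ x
        rw [csq_eq_zero G M W e2, mul_zero, mul_zero]
    have e2 : B * ∫ x, csq G M W ψ x ≤ 32 * D * (4 ^ s * I) + 1 := by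
      have e3 : B * ∫ x, csq G M W ψ x ≤ B * (32 * D / L ^ 2 * T + (2 * q + 32 * D * a)) := by
        gcongr
      have e4 : B * T ≤ 4 ^ s * I := by
        refine (tail_le hs hL0 hΨ hI).trans ?_
        gcongr
      have e5 : 32 * D / L ^ 2 ≤ 32 * D := div_le_self (by positivity) (by nlinarith)
      have e6 : B * (32 * D / L ^ 2 * T) ≤ 32 * D * (4 ^ s * I) := by
        calc B * (32 * D / L ^ 2 * T) = 32 * D / L ^ 2 * (B * T) := by ring
          _ ≤ 32 * D * (4 ^ s * I) := by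
            apply mul_le_mul e5 e4 (by positivity) (by positivity)
      have e7 : min ε 1 ≤ 1 := min_le_right _ _
      linarith
    have e3 : 4 * K * (∫ x, jw (s - 1 / 2) x * csq G M W ψ x) ≤
        4 * K * (32 * D * (4 ^ s * I) + 1) := by
      apply mul_le_mul_of_nonneg_left (e1.trans e2) (by positivity)
    have e4 : c * (∫ x, jw s x * ‖ψ x‖ ^ 2) ≤ c * (6 * I + 2) := by gcongr
    have e5 : 0 ≤ 32 * D + (6 * I + 2) := by positivity
    linarith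

end main

end Crest.Agent.R330.Pkg915
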