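import Crest.Agent.R330.FactI_161
import Crest.Agent.R330.Pkg_915

/-!
# Row 330, S8-PSI (helper477): the block state, algebraic part

* `BD M G k Fb` : the data of the blocks: orthogonal colour isometries `ε p`, small systems.
* `EY k` : the block coordinates `PiLp 2 (fun p => Cfg (k p))`.
* `Pr D f w` : the product of the factors `f p` applied to `w` (161's `pr` over all blocks).
* `slot D f q w` : the same with a variable factor `q`, as a linear map.
* `psi D φ Y` : `Pr D (fun p => φ p (Y p))` as a linear map of `F`.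
* `fderiv_psi_single`, `fderiv_psi` : derivatives.
* `bch D p α g m Φ Y` : the charge of the block `p` on functions `Φ : EY k → F`; `bch_psi`.
* `psi_perp` : commutation with the generators orthogonal to the blocks.
* `psi_lift` : equivariance.
-/

set_option autoImplicit false
set_option linter.unusedSectionVars false

open MeasureTheory Filter Topology Crest.MathPhysics.MatrixQM
open scoped ContDiff InnerProductSpace ENNReal

noncomputable section

namespace Crest.Agent.R330.Psi477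

open Crest.Agent.R330.Cliff442 Crest.Agent.R330.Fact161 Crest.Agent.R330.FactI161
open Crest.Agent.R330.Bind6839 Crest.Agent.R330.Defs478 Crest.Agent.R330.SInd478
open Crest.Agent.R330.Pkg915 Crest.Agent.R330.LS839

variable {N : ℕ} {F : Type*} [NormedAddCommGroup F] [InnerProductSpace ℂ F]
  [FiniteDimensional ℂ F] {κ : Type*} [Fintype κ] [DecidableEq κ] {k : κ → ℕ}
  {Fb : κ → Type*} [∀ p, NormedAddCommGroup (Fb p)] [∀ p, InnerProductSpace ℂ (Fb p)]
  [∀ p, FiniteDimensional ℂ (Fb p)]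

/-- The data of a family of blocks. -/
structure BD (M : FermionRep N F) (G : GammaNine) (k : κ → ℕ) (Fb : κ → Type*)
    [∀ p, NormedAddCommGroup (Fb p)] [∀ p, InnerProductSpace ℂ (Fb p)] where
  /-- the colour embeddings -/
  ε : ∀ p, Colg (k p) →ₗᵢ[ℝ] Colg N
  ho : ∀ p q, p ≠ q → ∀ u v, ⟪ε p u, ε q v⟫_ℝ = 0
  /-- the small modules -/
  Mb : ∀ p, FermionRep (k p) (Fb p)
  /-- the reference vacua -/
  Ω : ∀ p, Fb p
  isv : ∀ p, IsGVac (Mb p) G (Ω p)
  nm : ∀ p, ‖Ω p‖ = 1

/-- The block coordinates. -/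
abbrev EY (k : κ → ℕ) := PiLp 2 (fun p => Cfg (k p))

namespace BD

variable {M : FermionRep N F} {G : GammaNine} (D : BD M G k Fb)

theorem pol (p : κ) : Pol (cr (D.Mb p)) (gu G (k p)) (gv G (k p)) (gs G (k p)) (D.Ω p) :=
  polG (D.isv p) (D.nm p)

theorem orth (p q : κ) (h : p ≠ q) (x : W16 (k p)) (y : W16 (k q)) :
    ⟪te (D.ε p) x, te (D.ε q) y⟫_ℝ = 0 := te_orth (D.ho p q h) x y

/-- The common vacuum space of the blocks. -/
def W : Submodule ℂ F := vacA (cr M) (fun p => te (D.ε p)) (fun p => gu G (k p))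
  (fun p => gv G (k p)) (fun p => gs G (k p))

theorem mem_W {w : F} : w ∈ D.W ↔ ∀ p, w ∈ vacB M G (D.ε p) := mem_vacA

/-- `f` is an even vector of the small module `p`. -/
def Even (p : κ) (f : Fb p) : Prop := par (D.pol p) f = f

theorem even_of {p : κ} {f : Fb p}
    (hf : ∀ P : Fb p →ₗ[ℂ] Fb p, IsParity (D.Mb p) G P → P f = f) : D.Even p f :=
  par_of_parity (D.isv p) (D.nm p) hf

/-- The product over all blocks. -/
def Pr (f : ∀ p, Fb p) (w : F) : F :=
  pr D.pol (cr M) (fun p => te (D.ε p)) Finset.univ.toList f w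

theorem Pr_add (f : ∀ p, Fb p) (w w' : F) : D.Pr f (w + w') = D.Pr f w + D.Pr f w' :=
  pr_add _ _ _ _ _ _

theorem Pr_smul (f : ∀ p, Fb p) (c : ℂ) (w : F) : D.Pr f (c • w) = c • D.Pr f w :=
  pr_smul _ _ _ _ _ _



theorem inner_Pr (f g : ∀ p, Fb p) {w : F} (hw : w ∈ D.W) (w' : F) :
    ⟪D.Pr f w, D.Pr g w'⟫_ℂ = (∏ p, ⟪f p, g p⟫_ℂ) * ⟪w, w'⟫_ℂ := by
  unfold Pr
  rw [inner_pr D.pol (cr M) D.orth (Finset.nodup_toList _) f g hw, Finset.prod_map_toList]

theorem norm_Pr (f : ∀ p, Fb p) {w : F} (hw : w ∈ D.W) :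
    ‖D.Pr f w‖ = (∏ p, ‖f p‖) * ‖w‖ := by
  unfold Pr
  rw [norm_pr D.pol (cr M) D.orth (Finset.nodup_toList _) f hw, Finset.prod_map_toList]

theorem norm_Pr_le (f : ∀ p, Fb p) (w : F) : ‖D.Pr f w‖ ≤ (∏ p, ‖f p‖) * ‖w‖ := by
  unfold Pr
  rw [← Finset.prod_map_toList]
  exact norm_pr_le D.pol (cr M) _ _ _

theorem contDiff_Pr {E : Type*} [NormedAddCommGroup E] [NormedSpace ℝ E] {n : WithTop ℕ∞}
    {f : E → ∀ p, Fb p} {w : E → F} (hf : ∀ p, ContDiff ℝ n fun x => f x p)
    (hw : ContDiff ℝ n w) : ContDiff ℝ n fun x => D.Pr (f x) (w x) :=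
  contDiff_pr D.pol (cr M) _ hf hw

/-- Generators orthogonal to all blocks. -/
theorem th_perp_Pr {y : W16 N} (hy : ∀ p x, ⟪y, te (D.ε p) x⟫_ℝ = 0) {f : ∀ p, Fb p}
    (hf : ∀ p, D.Even p (f p)) (w : F) :
    (cr M).θ y (D.Pr f w) = D.Pr f ((cr M).θ y w) :=
  th_perp_pr_even D.pol (cr M) D.orth (fun p _ x => hy p x) (fun p _ => hf p) w

/-- The generators of the block `q` act on the factor `q`. -/
theorem th_Pr (q : κ) (x : W16 (k q)) {f : ∀ p, Fb p} (hf : ∀ p, p ≠ q → D.Even p (f p)) (w : F) :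
    (cr M).θ (te (D.ε q) x) (D.Pr f w) =
      D.Pr (Function.update f q ((cr (D.Mb q)).θ x (f q))) w :=
  th_pr D.pol (cr M) D.orth (Finset.nodup_toList _) (Finset.mem_toList.2 (Finset.mem_univ q)) x
    (fun p _ hp => hf p hp) w

end BD

/-! ### One variable factor -/

section slot

variable {V : Type*} [NormedAddCommGroup V] [InnerProductSpace ℝ V]
  {Vf Ff ιf : κ → Type*}
  [∀ p, NormedAddCommGroup (Vf p)] [∀ p, InnerProductSpace ℝ (Vf p)]
  [∀ p, NormedAddCommGroup (Ff p)] [∀ p, InnerProductSpace ℂ (Ff p)]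
  {M₁ : ∀ p, CRep (Vf p) (Ff p)} {u v : ∀ p, ιf p → Vf p} {s : ∀ p, Finset (ιf p)}
  {Ω : ∀ p, Ff p} (h : ∀ p, Pol (M₁ p) (u p) (v p) (s p) (Ω p)) (M : CRep V F)
  (e : ∀ p, Vf p →ₗᵢ[ℝ] V)

theorem pr_update_add (q : κ) {l : List κ} (hl : l.Nodup) (hq : q ∈ l) (f : ∀ p, Ff p)
    (x y : Ff q) (w : F) : pr h M e l (Function.update f q (x + y)) w =
      pr h M e l (Function.update f q x) w + pr h M e l (Function.update f q y) w := by
  induction l with
  | nil => exact absurd hq List.not_mem_nil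
  | cons p l ih =>
    obtain ⟨h1, h2⟩ := List.nodup_cons.1 hl
    rw [pr_cons, pr_cons, pr_cons]
    by_cases hpq : p = q
    · subst hpq
      have e1 : ∀ z : Ff p, pr h M e l (Function.update f p z) w = pr h M e l f w := fun z =>
        pr_congr h M (fun r hr => Function.update_of_ne (fun (h0 : r = p) => h1 (h0 ▸ hr)) _ _) w
      rw [e1, e1, e1, Function.update_self, Function.update_self, Function.update_self, map_add,
        LinearMap.add_apply]
    · have hq' : q ∈ l := (List.mem_cons.1 hq).resolve_left (Ne.symm hpq)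
      rw [ih h2 hq', Function.update_of_ne hpq, Function.update_of_ne hpq,
        Function.update_of_ne hpq, map_add]

theorem pr_update_smul (q : κ) {l : List κ} (hl : l.Nodup) (hq : q ∈ l) (f : ∀ p, Ff p)
    (c : ℂ) (x : Ff q) (w : F) : pr h M e l (Function.update f q (c • x)) w =
      c • pr h M e l (Function.update f q x) w := by
  induction l with
  | nil => exact absurd hq List.not_mem_nil
  | cons p l ih =>
    obtain ⟨h1, h2⟩ := List.nodup_cons.1 hl
    rw [pr_cons, pr_cons]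
    by_cases hpq : p = q
    · subst hpq
      have e1 : ∀ z : Ff p, pr h M e l (Function.update f p z) w = pr h M e l f w := fun z =>
        pr_congr h M (fun r hr => Function.update_of_ne (fun (h0 : r = p) => h1 (h0 ▸ hr)) _ _) w
      rw [e1, e1, Function.update_self, Function.update_self, map_smul, LinearMap.smul_apply]
    · have hq' : q ∈ l := (List.mem_cons.1 hq).resolve_left (Ne.symm hpq)
      rw [ih h2 hq', Function.update_of_ne hpq, Function.update_of_ne hpq, map_smul]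

end slot

namespace BD

variable {M : FermionRep N F} {G : GammaNine} (D : BD M G k Fb)

/-- The product with a variable factor `q`. -/
def slot (f : ∀ p, Fb p) (q : κ) (w : F) : Fb q →ₗ[ℂ] F where
  toFun x := D.Pr (Function.update f q x) w
  map_add' x y := pr_update_add D.pol (cr M) (fun p => te (D.ε p)) q (Finset.nodup_toList _)
    (Finset.mem_toList.2 (Finset.mem_univ q)) f x y w
  map_smul' c x := pr_update_smul D.pol (cr M) (fun p => te (D.ε p)) q (Finset.nodup_toList _)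
    (Finset.mem_toList.2 (Finset.mem_univ q)) f c x w

theorem slot_apply (f : ∀ p, Fb p) (q : κ) (w : F) (x : Fb q) :
    D.slot f q w x = D.Pr (Function.update f q x) w := rfl

theorem slot_self (f : ∀ p, Fb p) (q : κ) (w : F) : D.slot f q w (f q) = D.Pr f w := by
  rw [slot_apply, Function.update_eq_self]

theorem th_slot (q : κ) (x : W16 (k q)) {f : ∀ p, Fb p} (hf : ∀ p, p ≠ q → D.Even p (f p)) (w : F)
    (a : Fb q) : (cr M).θ (te (D.ε q) x) (D.slot f q w a) =
      D.slot f q w ((cr (D.Mb q)).θ x a) := by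
  rw [slot_apply, D.th_Pr q x (fun p hp => by rw [Function.update_of_ne hp]; exact hf p hp) w,
    Function.update_idem, Function.update_self, slot_apply]

theorem norm_slot (f : ∀ p, Fb p) (q : κ) {w : F} (hw : w ∈ D.W) (x : Fb q) :
    ‖D.slot f q w x‖ = ‖x‖ * (∏ p ∈ Finset.univ.erase q, ‖f p‖) * ‖w‖ := by
  rw [slot_apply, D.norm_Pr _ hw, ← Finset.mul_prod_erase Finset.univ _ (Finset.mem_univ q),
    Function.update_self]
  congr 2
  refine Finset.prod_congr rfl fun p hp => ?_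
  rw [Function.update_of_ne (Finset.ne_of_mem_erase hp)]


/-! ### The block state -/

variable (φ : ∀ p, Cfg (k p) → Fb p)

/-- The values of the factors. -/
def val (Y : EY k) : ∀ p, Fb p := fun p => φ p (Y p)

/-- **The block state.** -/
def psi (Y : EY k) : F →ₗ[ℂ] F where
  toFun w := D.Pr (val φ Y) w
  map_add' w w' := D.Pr_add _ w w'
  map_smul' c w := D.Pr_smul _ c w

theorem psi_apply (Y : EY k) (w : F) : D.psi φ Y w = D.Pr (val φ Y) w := rfl


theorem norm_psi (Y : EY k) {w : F} (hw : w ∈ D.W) :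
    ‖D.psi φ Y w‖ = (∏ p, ‖φ p (Y p)‖) * ‖w‖ := D.norm_Pr _ hw

theorem norm_psi_le (Y : EY k) (w : F) : ‖D.psi φ Y w‖ ≤ (∏ p, ‖φ p (Y p)‖) * ‖w‖ :=
  D.norm_Pr_le _ w

variable {φ}

theorem psi_eq_zero {Y : EY k} {p : κ} (h : φ p (Y p) = 0) : D.psi φ Y = 0 := by
  ext w
  rw [LinearMap.zero_apply, ← norm_le_zero_iff]
  refine (D.norm_psi_le φ Y w).trans (le_of_eq ?_)
  rw [Finset.prod_eq_zero (Finset.mem_univ p) (by rw [h, norm_zero]), zero_mul]

theorem contDiff_psi {n : WithTop ℕ∞} (hφ : ∀ p, ContDiff ℝ n (φ p)) {E : Type*}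
    [NormedAddCommGroup E] [NormedSpace ℝ E] {Y : E → EY k} {w : E → F} (hY : ContDiff ℝ n Y)
    (hw : ContDiff ℝ n w) : ContDiff ℝ n fun x => D.psi φ (Y x) (w x) := by
  refine D.contDiff_Pr (fun p => (hφ p).comp ?_) hw
  exact (PiLp.proj (𝕜 := ℝ) 2 (fun p => Cfg (k p)) p).contDiff.comp hY

/-! ### Derivatives -/

/-- The vector with one component. -/
abbrev sg (p : κ) (a : Cfg (k p)) : EY k := PiLp.single 2 p a

theorem sum_sg (Y : EY k) : ∑ p, sg p (Y p) = Y := by
  ext q : 1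
  simp [sg, Finset.sum_apply]

theorem fderiv_psi_single (hφ : ∀ p, Differentiable ℝ (φ p)) (Y : EY k) (w : F) (q : κ)
    (a : Cfg (k q)) (hd : DifferentiableAt ℝ (fun Y => D.psi φ Y w) Y) :
    fderiv ℝ (fun Y => D.psi φ Y w) Y (sg q a) =
      D.slot (val φ Y) q w (fderiv ℝ (φ q) (Y q) a) := by
  -- the function along the line
  have h1 : HasDerivAt (fun t : ℝ => D.psi φ (Y + t • sg q a) w)
      (fderiv ℝ (fun Y => D.psi φ Y w) Y (sg q a)) 0 := by
    have h2 : HasDerivAt (fun t : ℝ => Y + t • sg q a) (sg q a) 0 := by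
      simpa using ((hasDerivAt_id (0 : ℝ)).smul_const (sg q a)).const_add Y
    have h3 : HasFDerivAt (fun Y => D.psi φ Y w) (fderiv ℝ (fun Y => D.psi φ Y w) Y)
        (Y + (0 : ℝ) • sg q a) := by
      rw [zero_smul, add_zero]
      exact hd.hasFDerivAt
    exact h3.comp_hasDerivAt 0 h2
  have h4 : ∀ t : ℝ, D.psi φ (Y + t • sg q a) w =
      D.slot (val φ Y) q w (φ q (Y q + t • a)) := by
    intro t
    rw [psi_apply, slot_apply]
    congr 1
    funext p
    by_cases hp : p = q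
    · subst hp
      rw [Function.update_self]
      simp [val, sg]
    · rw [Function.update_of_ne hp]
      simp [val, sg, hp]
  have h5 : HasDerivAt (fun t : ℝ => D.slot (val φ Y) q w (φ q (Y q + t • a)))
      (D.slot (val φ Y) q w (fderiv ℝ (φ q) (Y q) a)) 0 := by
    have h6 : HasDerivAt (fun t : ℝ => Y q + t • a) a 0 := by
      simpa using ((hasDerivAt_id (0 : ℝ)).smul_const a).const_add (Y q)
    have h7 : HasFDerivAt (φ q) (fderiv ℝ (φ q) (Y q)) (Y q + (0 : ℝ) • a) := by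
      rw [zero_smul, add_zero]
      exact (hφ q (Y q)).hasFDerivAt
    have h8 := h7.comp_hasDerivAt 0 h6
    let L : Fb q →L[ℝ] F :=
      (LinearMap.toContinuousLinearMap (D.slot (val φ Y) q w)).restrictScalars ℝ
    exact L.hasFDerivAt.comp_hasDerivAt 0 h8
  have h9 : (fun t : ℝ => D.psi φ (Y + t • sg q a) w) =
      fun t : ℝ => D.slot (val φ Y) q w (φ q (Y q + t • a)) := funext h4
  rw [h9] at h1
  exact h1.unique h5

theorem differentiable_psi (hφ : ∀ p, ContDiff ℝ 1 (φ p)) (w : F) :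
    Differentiable ℝ fun Y => D.psi φ Y w :=
  (D.contDiff_psi hφ contDiff_id contDiff_const).differentiable one_ne_zero

theorem fderiv_sg (hφ : ∀ p, ContDiff ℝ 1 (φ p)) (Y : EY k) (w : F) (q : κ) (a : Cfg (k q)) :
    fderiv ℝ (fun Y => D.psi φ Y w) Y (sg q a) =
      D.slot (val φ Y) q w (fderiv ℝ (φ q) (Y q) a) :=
  D.fderiv_psi_single (fun p => (hφ p).differentiable one_ne_zero) Y w q a
    (D.differentiable_psi hφ w Y)


/-! ### The charge of a block -/

/-- The charge `Q_α^{g,m}` of the block `p` on functions of the block coordinates. -/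
def bch (b : ∀ p, ColorBasis (k p)) (p : κ) (α : Fin 16) (g m : ℝ) (Φ : EY k → F) (Y : EY k) : F :=
  (∑ i : Fin 9, ∑ A : Fin (k p ^ 2 - 1), ∑ β : Fin 16, (-Complex.I * (G.γ i α β : ℂ)) •
    thv M β (D.ε p (EuclideanSpace.single A 1))
      (fderiv ℝ Φ Y (sg p (EuclideanSpace.single (i, A) 1)))) +
  ∑ A : Fin (k p ^ 2 - 1), ∑ β : Fin 16, ((wpot (b p) G g m α β A (Y p) : ℝ) : ℂ) •
    thv M β (D.ε p (EuclideanSpace.single A 1)) (Φ Y)

theorem thv_slot (q : κ) (β : Fin 16) (A : Fin (k q ^ 2 - 1)) {f : ∀ p, Fb p}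
    (hf : ∀ p, p ≠ q → D.Even p (f p)) (w : F) (a : Fb q) :
    thv M β (D.ε q (EuclideanSpace.single A 1)) (D.slot f q w a) =
      D.slot f q w ((D.Mb q).θ β A a) := by
  have h1 := D.th_slot q (ins β (EuclideanSpace.single A 1)) hf w a
  rw [cr_te_ins, cr_ins] at h1
  rw [h1]
  congr 1
  unfold thv
  rw [LinearMap.sum_apply, Finset.sum_eq_single A]
  · simp
  · intro B _ hB
    simp [hB]
  · intro h
    exact absurd (Finset.mem_univ _) h

/-- **The charge of a block acts on its factor.** -/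
theorem bch_psi (b : ∀ p, ColorBasis (k p)) (hφ : ∀ p, ContDiff ℝ 1 (φ p))
    (he : ∀ p y, D.Even p (φ p y)) (p : κ) (α : Fin 16) (g m : ℝ) (w : F) (Y : EY k) :
    D.bch b p α g m (fun Y => D.psi φ Y w) Y =
      D.slot (val φ Y) p w (dcharge (b p) (D.Mb p) G g m α (φ p) (Y p)) := by
  have he' : ∀ q, q ≠ p → D.Even q (val φ Y q) := fun q _ => he q _
  unfold bch dcharge kin
  rw [map_add, map_sum, map_sum]
  congr 1
  · refine Finset.sum_congr rfl fun i _ => ?_
    rw [map_sum]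
    refine Finset.sum_congr rfl fun A _ => ?_
    rw [map_sum]
    refine Finset.sum_congr rfl fun β _ => ?_
    rw [map_smul, D.fderiv_sg hφ, D.thv_slot p β A he']
  · refine Finset.sum_congr rfl fun A _ => ?_
    rw [map_sum]
    refine Finset.sum_congr rfl fun β _ => ?_
    rw [map_smul, ← D.thv_slot p β A he']
    congr 2
    change D.Pr (val φ Y) w = D.slot (val φ Y) p w (val φ Y p)
    rw [slot_self]

/-! ### Commutation and equivariance -/

/-- Commutation with the generators orthogonal to the blocks. -/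
theorem psi_perp (he : ∀ p y, D.Even p (φ p y)) {y : W16 N}
    (hy : ∀ p x, ⟪y, te (D.ε p) x⟫_ℝ = 0) (Y : EY k) (w : F) :
    (cr M).θ y (D.psi φ Y w) = D.psi φ Y ((cr M).θ y w) :=
  D.th_perp_Pr hy (fun p => he p _) w

theorem psi_perp_thv (he : ∀ p y, D.Even p (φ p y)) {c : Colg N}
    (hc : ∀ p x, ⟪c, D.ε p x⟫_ℝ = 0) (β : Fin 16) (Y : EY k) (w : F) :
    thv M β c (D.psi φ Y w) = D.psi φ Y (thv M β c w) := by
  have h := D.psi_perp he (y := ins β c) (fun p x => ins_orth (hc p) β x) Y w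
  rw [cr_ins] at h
  exact h

end BD

end Crest.Agent.R330.Psi477

end
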