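import Crest.Agent.R330.Ims_714
import Crest.Agent.R330.Brid_837

/-!
# R330/Ims2_714 : integrated IMS formulas for the form `qf` (helper714)

* `dcharge_eq_dop`
* `angle_pointwise`, `qf_angle` : `qf (cos θ φ) + qf (sin θ φ) = qf φ + ½ ∫ |∇θ|² |φ|²`
* `qf_ims` : finite families with `Σ J_k² = 1`
* `qf_mul` : the (W) identity, integrated
-/

set_option autoImplicit false
set_option linter.unusedSectionVars false

open MeasureTheory Filter Topology
open scoped ContDiff InnerProductSpace ENNReal
open Crest.MathPhysics.MatrixQM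
open Crest.Agent.R330.Ims714
open Crest.Agent.R330.Defs478 (wpot dcharge qf cc)

namespace Crest.Agent.R330.Ims2714

variable {N : ℕ} {F : Type*} [NormedAddCommGroup F] [InnerProductSpace ℂ F]

/-- the potential part of `Q^{g,m}` as an endomorphism field -/
noncomputable def wend (b : ColorBasis N) (M : FermionRep N F) (G : GammaNine) (g m : ℝ)
    (α : Fin 16) (x : Cfg N) : F →ₗ[ℂ] F :=
  ∑ A : Fin (N ^ 2 - 1), ∑ β : Fin 16, ((wpot b G g m α β A x : ℝ) : ℂ) • M.θ β A

theorem dcharge_eq_dop (b : ColorBasis N) (M : FermionRep N F) (G : GammaNine) (g m : ℝ)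
    (α : Fin 16) (φ : Cfg N → F) :
    dcharge b M G g m α φ = dop G M α (wend b M G g m α) φ := by
  funext x
  simp only [dcharge, Defs478.kin, dop, wend, LinearMap.sum_apply, LinearMap.smul_apply]





variable [FiniteDimensional ℂ F]

theorem integrable_normSq {f : Cfg N → F} (hf : Continuous f) (hc : HasCompactSupport f) :
    Integrable (fun x => ‖f x‖ ^ 2) := by
  refine Continuous.integrable_of_hasCompactSupport (hf.norm.pow 2) ?_
  exact hc.comp_left (g := fun v : F => ‖v‖ ^ 2) (by simp)


variable (b : ColorBasis N) (M : FermionRep N F) (G : GammaNine) (g m : ℝ)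

theorem integrable_dcharge {φ : Cfg N → F} (hφ : ContDiff ℝ 1 φ) (hc : HasCompactSupport φ)
    (α : Fin 16) : Integrable (fun x => ‖dcharge b M G g m α φ x‖ ^ 2) :=
  integrable_normSq (Defs478.continuous_dcharge b M G g m α hφ)
    (Brid837.hasCompactSupport_dcharge hc)



theorem qf_nonneg (φ : Cfg N → F) : 0 ≤ qf b M G g m φ := by
  unfold qf
  refine mul_nonneg (by norm_num) (Finset.sum_nonneg fun α _ => integral_nonneg fun x => ?_)
  positivity


end Crest.Agent.R330.Ims2714
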