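import Crest.Agent.R330.Pkg_915
import Crest.Agent.R330.Par_478
import Crest.Agent.R330.SInd_478
import Crest.Agent.R330.Ims2_714
import Crest.Agent.R330.WeitzY_726
import Crest.Agent.R330.ScaleD_423

-- ▼ part R330/Pkg2_915
section

/-!
# R330/Pkg2_915 : core approximants of the ground state, literal forms (leaf S9-PKG)

* `hKin_wend` : the kinetic bound for every `Q^{g,m}`;
* `exists_even_seq` : even core approximants of a `Ground` state;
* `ground_pkg` : the package for a ground state, every `s < 5/2`.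
-/

set_option autoImplicit false
set_option linter.unusedSectionVars false

open MeasureTheory Filter Topology
open scoped ContDiff InnerProductSpace ENNReal
open Crest.MathPhysics.MatrixQM
open Crest.Agent.R330.Ims714
open Crest.Agent.R330.Defs478 (wpot dcharge qf zset cc Gam)
open Crest.Agent.R330.SInd478 (Ground IsParity)
open Crest.Agent.R330.Ims2714 (wend dcharge_eq_dop)

namespace Crest.Agent.R330.Pkg915

variable {N : ℕ} {F : Type*} [NormedAddCommGroup F] [InnerProductSpace ℂ F]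
  [FiniteDimensional ℂ F]

/-! ## the kinetic bound -/

theorem norm_le_jw (x : Cfg N) : ‖x‖ ≤ jw (1 / 2) x := by
  unfold jw
  rw [← Real.sqrt_eq_rpow]
  exact Real.le_sqrt_of_sq_le (by nlinarith [sq_nonneg ‖x‖])

theorem continuous_wend (b : ColorBasis N) (M : FermionRep N F) (G : GammaNine) (g m : ℝ)
    (α : Fin 16) {φ : Cfg N → F} (hφ : Continuous φ) :
    Continuous fun x => wend b M G g m α x (φ x) := by
  simp only [wend, LinearMap.sum_apply, LinearMap.smul_apply]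
  refine continuous_finsetSum _ fun A _ => continuous_finsetSum _ fun β _ => ?_
  exact (Complex.continuous_ofReal.comp (Defs478.continuous_wpot b G g m α β A)).smul
    ((LinearMap.continuous_of_finiteDimensional (M.θ β A)).comp hφ)

theorem integral_dsq {φ : Cfg N → F} (hφ : ContDiff ℝ 1 φ) (hc : HasCompactSupport φ) :
    ∫ x, dsq φ x = ∑ k : Fin 9 × Fin (N ^ 2 - 1),
      ∫ x, ‖fderiv ℝ φ x (EuclideanSpace.single k 1)‖ ^ 2 := by
  unfold dsq
  refine integral_finsetSum _ fun k _ => ?_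
  refine (((hφ.continuous_fderiv one_ne_zero).clm_apply
    continuous_const).norm.pow 2).integrable_of_hasCompactSupport ?_
  refine hasCompactSupport_of_tsupport hc fun x h => ?_
  have : fderiv ℝ φ x = 0 := by
    by_contra h1
    exact h (support_fderiv_subset ℝ h1)
  simp [this]

/-- **the kinetic bound** -/
theorem hKin_wend (b : ColorBasis N) (M : FermionRep N F) (G : GammaNine) (g m : ℝ) :
    HKin G M (wend b M G g m) := by
  obtain ⟨C, hC, hY⟩ := Weitz726.Yop_bound b M G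
  set D := ‖LinearMap.toContinuousLinearMap (Weitz726.IG M G)‖ with hD
  have hD0 : 0 ≤ D := norm_nonneg _
  refine ⟨1 / 8 + 2 * (|g| * C + |m| / 8 * D), by positivity, fun φ hφ hc => ?_⟩
  have h2 : ContDiff ℝ 2 φ := contDiff_infty.1 hφ 2
  have h1 : ContDiff ℝ 1 φ := hφ.of_le (by exact_mod_cast le_top)
  have hE := Weitz726.energy b M G g m h2 hc
  have e1 : ∀ α, (∫ x, ‖IBP837.chargeW M G (wpot b G g m) α φ x‖ ^ 2) =
      ∫ x, ‖dop G M α (wend b M G g m α) φ x‖ ^ 2 := by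
    intro α
    simp only [← Brid837.dcharge_eq, dcharge_eq_dop]
  simp only [e1] at hE
  rw [← integral_dsq h1 hc] at hE
  have hV : 0 ≤ ∫ x, Weitz726.Wsq (wpot b G g m) x / 32 * ‖φ x‖ ^ 2 := by
    refine integral_nonneg fun x => mul_nonneg (div_nonneg ?_ (by norm_num)) (by positivity)
    unfold Weitz726.Wsq
    exact Finset.sum_nonneg fun _ _ => Finset.sum_nonneg fun _ _ => Finset.sum_nonneg fun _ _ =>
      mul_self_nonneg _
  have hYi : -((|g| * C + |m| / 8 * D) * ∫ x, jw (1 / 2) x * ‖φ x‖ ^ 2) ≤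
      ∫ x, (⟪φ x, ((g : ℂ) • Weitz726.Yop b M G x + ((m / 8 : ℝ) : ℂ) • Weitz726.IG M G)
        (φ x)⟫_ℂ).re := by
    rw [← integral_const_mul]
    have hi := (integrable_jw_norm (1 / 2) h1.continuous hc).const_mul (|g| * C + |m| / 8 * D)
    have hb : ‖∫ x, (⟪φ x, ((g : ℂ) • Weitz726.Yop b M G x + ((m / 8 : ℝ) : ℂ) •
        Weitz726.IG M G) (φ x)⟫_ℂ).re‖ ≤
        ∫ x, (|g| * C + |m| / 8 * D) * (jw (1 / 2) x * ‖φ x‖ ^ 2) := by
      refine norm_integral_le_of_norm_le hi (Eventually.of_forall fun x => ?_)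
      have hj1 : 1 ≤ jw (1 / 2) x := one_le_jw (by norm_num) x
      have hj2 := norm_le_jw x
      rw [Real.norm_eq_abs]
      refine (Complex.abs_re_le_norm _).trans ((norm_inner_le_norm _ _).trans ?_)
      have h3 : ‖((g : ℂ) • Weitz726.Yop b M G x + ((m / 8 : ℝ) : ℂ) • Weitz726.IG M G) (φ x)‖ ≤
          (|g| * C + |m| / 8 * D) * jw (1 / 2) x * ‖φ x‖ := by
        rw [LinearMap.add_apply, LinearMap.smul_apply, LinearMap.smul_apply]
        refine (norm_add_le _ _).trans ?_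
        rw [norm_smul, norm_smul, Complex.norm_real, Complex.norm_real, Real.norm_eq_abs,
          Real.norm_eq_abs, abs_div, abs_of_pos (by norm_num : (0 : ℝ) < 8)]
        have h4 := hY x (φ x)
        have h5 : ‖Weitz726.IG M G (φ x)‖ ≤ D * ‖φ x‖ :=
          (LinearMap.toContinuousLinearMap (Weitz726.IG M G)).le_opNorm (φ x)
        have hn := norm_nonneg (φ x)
        calc |g| * ‖Weitz726.Yop b M G x (φ x)‖ + |m| / 8 * ‖Weitz726.IG M G (φ x)‖
            ≤ |g| * (C * ‖x‖ * ‖φ x‖) + |m| / 8 * (D * ‖φ x‖) := by gcongr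
          _ ≤ |g| * (C * jw (1 / 2) x * ‖φ x‖) + |m| / 8 * (D * (jw (1 / 2) x * ‖φ x‖)) := by
              have : ‖φ x‖ ≤ jw (1 / 2) x * ‖φ x‖ := by nlinarith
              gcongr
          _ = _ := by ring
      calc ‖φ x‖ * ‖((g : ℂ) • Weitz726.Yop b M G x + ((m / 8 : ℝ) : ℂ) • Weitz726.IG M G)
            (φ x)‖ ≤ ‖φ x‖ * ((|g| * C + |m| / 8 * D) * jw (1 / 2) x * ‖φ x‖) := by
            gcongr
        _ = _ := by ring
    rw [Real.norm_eq_abs] at hb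
    exact neg_le_of_abs_le hb
  have hQ : 0 ≤ ∑ α, ∫ x, ‖dop G M α (wend b M G g m α) φ x‖ ^ 2 :=
    Finset.sum_nonneg fun _ _ => integral_nonneg fun _ => by positivity
  have hJ : 0 ≤ ∫ x, jw (1 / 2) x * ‖φ x‖ ^ 2 :=
    integral_nonneg fun x => mul_nonneg (jw_pos _ x).le (by positivity)
  have hc0 : 0 ≤ |g| * C + |m| / 8 * D := by positivity
  nlinarith [mul_nonneg hc0 hQ]

/-! ## moments -/

theorem jw_le_pow {s : ℝ} (hs : 0 ≤ s) (x : Cfg N) : jw s x ≤ 2 ^ s * (1 + ‖x‖ ^ (2 * s)) := by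
  unfold jw
  have hn := norm_nonneg x
  have hp : 0 ≤ ‖x‖ ^ (2 * s) := Real.rpow_nonneg hn _
  have h2 : (0 : ℝ) ≤ 2 ^ s := Real.rpow_nonneg (by norm_num) s
  rcases le_total ‖x‖ 1 with h | h
  · have h1 : (1 + ‖x‖ ^ 2) ^ s ≤ 2 ^ s :=
      Real.rpow_le_rpow (base_pos x).le (by nlinarith) hs
    nlinarith
  · have h1 : (1 + ‖x‖ ^ 2) ^ s ≤ (2 * ‖x‖ ^ 2) ^ s :=
      Real.rpow_le_rpow (base_pos x).le (by nlinarith) hs
    rw [Real.mul_rpow (by norm_num) (by positivity)] at h1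
    have h3 : (‖x‖ ^ 2) ^ s = ‖x‖ ^ (2 * s) := by
      rw [← Real.rpow_natCast, ← Real.rpow_mul hn]
      norm_num
    rw [h3] at h1
    nlinarith

theorem integrable_jw_of_moment {Ψ : Cfg N → F} (hΨ : MemLp Ψ 2 volume) {s : ℝ} (hs : 0 ≤ s)
    (h : Integrable fun x => ‖x‖ ^ (2 * s) * ‖Ψ x‖ ^ 2) :
    Integrable fun x => jw s x * ‖Ψ x‖ ^ 2 := by
  have h0 : Integrable fun x => ‖Ψ x‖ ^ 2 := Rel893.integrable_norm_sq_of_memLp hΨ
  refine Integrable.mono' ((h0.add h).const_mul (2 ^ s))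
    ((jw_smooth s).continuous.aestronglyMeasurable.mul (hΨ.1.norm.pow 2))
    (Eventually.of_forall fun x => ?_)
  have hj := (jw_pos s x).le
  rw [Real.norm_of_nonneg (by positivity)]
  have h1 := jw_le_pow hs x
  simp only [Pi.add_apply]
  calc jw s x * ‖Ψ x‖ ^ 2 ≤ (2 ^ s * (1 + ‖x‖ ^ (2 * s))) * ‖Ψ x‖ ^ 2 := by gcongr
    _ = _ := by ring

theorem half_two (x : ℝ≥0∞) : ENNReal.ofReal (1 / 2) * (x + x) = x := by
  have h : ENNReal.ofReal (1 / 2) + ENNReal.ofReal (1 / 2) = 1 := by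
    rw [← ENNReal.ofReal_add (by norm_num) (by norm_num)]
    norm_num
  rw [mul_add, ← add_mul, h, one_mul]

/-! ## even approximants -/

section even

variable [Nontrivial F] {b : ColorBasis N} {M : FermionRep N F} {R : GaugeAction b M}
  {G : GammaNine} {ψ : Cfg N → F}

theorem parity_unique {P P' : F →ₗ[ℂ] F} (hP : IsParity M G P) (hP' : IsParity M G P') :
    P = P' := by
  obtain ⟨Ω, h0, h⟩ := Par478.exists_gvac M G
  obtain ⟨c, hc⟩ := Par478.schur (M := M) (T := P ∘ₗ P') fun α A v => by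
    simp only [LinearMap.comp_apply]
    rw [hP'.anti, map_neg, hP.anti, neg_neg]
  have h1 := hc Ω
  simp only [LinearMap.comp_apply] at h1
  rw [hP'.vac Ω h, hP.vac Ω h] at h1
  have h2 : c = 1 := by
    by_contra hne
    have h3 : (c - 1) • Ω = 0 := by rw [sub_smul, one_smul, ← h1, sub_self]
    rcases smul_eq_zero.1 h3 with h4 | h4
    · exact hne (sub_eq_zero.1 h4)
    · exact h0 h4
  ext v
  have h3 := hc (P' v)
  simp only [LinearMap.comp_apply, h2, one_smul] at h3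
  rw [hP'.sq] at h3
  exact h3

theorem exists_even_seq (h : ψ ∈ zset b M R G 1 0)
    (he : ∀ P : F →ₗ[ℂ] F, IsParity M G P → ∀ᵐ x, P (ψ x) = ψ x) :
    ∃ φ : ℕ → Cfg N → F, (∀ n, IsCoreVec b R (φ n)) ∧
      (∀ n, ∀ P : F →ₗ[ℂ] F, IsParity M G P → ∀ x, P (φ n x) = φ n x) ∧
      Tendsto (fun n => eLpNorm (φ n - ψ) 2 volume) atTop (𝓝 0) ∧
      ∀ α, Tendsto (fun n => eLpNorm (dcharge b M G 1 0 α (φ n)) 2 volume) atTop (𝓝 0) := by
  obtain ⟨hm, φ, hφ, h1, h2⟩ := h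
  by_cases hP : ∃ P : F →ₗ[ℂ] F, IsParity M G P
  · obtain ⟨P, hP⟩ := hP
    have hPφ : ∀ n, IsCoreVec b R fun x => P (φ n x) := fun n => Par478.core_P (hP.rho R) (hφ n)
    refine ⟨fun n => (1 / 2 : ℂ) • (φ n + fun x => P (φ n x)), fun n =>
      Defs478.cv_smul _ (Defs478.cv_add (hφ n) (hPφ n)), fun n P' hP' x => ?_, ?_, fun α => ?_⟩
    · rw [parity_unique hP' hP]
      simp only [Pi.smul_apply, Pi.add_apply, map_smul, map_add, hP.sq]
      rw [add_comm]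
    · have e1 : ∀ n, eLpNorm ((1 / 2 : ℂ) • (φ n + fun x => P (φ n x)) - ψ) 2 volume ≤
          eLpNorm (φ n - ψ) 2 volume := by
        intro n
        have e2 : eLpNorm ((1 / 2 : ℂ) • (φ n + fun x => P (φ n x)) - ψ) 2 volume =
            eLpNorm ((1 / 2 : ℂ) • ((φ n - ψ) + fun x => P ((φ n - ψ) x))) 2 volume := by
          refine eLpNorm_congr_ae ?_
          filter_upwards [he P hP] with x hx
          simp only [Pi.sub_apply, Pi.smul_apply, Pi.add_apply, map_sub, hx, smul_add, smul_sub]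
          have : ψ x = (1 / 2 : ℂ) • ψ x + (1 / 2 : ℂ) • ψ x := by
            rw [← add_smul]; norm_num
          nth_rewrite 1 [this]
          abel
        rw [e2, eLpNorm_const_smul]
        have hmn : AEStronglyMeasurable (φ n - ψ) volume :=
          (Defs478.cv_aesm (hφ n)).sub hm.1
        have hmP : AEStronglyMeasurable (fun x => P ((φ n - ψ) x)) volume :=
          (LinearMap.continuous_of_finiteDimensional P).comp_aestronglyMeasurable hmn
        have e3 := eLpNorm_add_le hmn hmP (by norm_num : (1 : ℝ≥0∞) ≤ 2)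
        rw [Par478.eLpNorm_P hP] at e3
        have e4 : ‖(1 / 2 : ℂ)‖ₑ = ENNReal.ofReal (1 / 2) := by
          rw [← ofReal_norm]; norm_num
        rw [e4]
        calc _ ≤ ENNReal.ofReal (1 / 2) * (eLpNorm (φ n - ψ) 2 volume +
              eLpNorm (φ n - ψ) 2 volume) := by gcongr
          _ = eLpNorm (φ n - ψ) 2 volume := half_two _
      exact tendsto_of_tendsto_of_tendsto_of_le_of_le tendsto_const_nhds h1 (fun n => bot_le) e1
    · have e1 : ∀ n, eLpNorm (dcharge b M G 1 0 α ((1 / 2 : ℂ) • (φ n + fun x => P (φ n x)))) 2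
          volume ≤ eLpNorm (dcharge b M G 1 0 α (φ n)) 2 volume := by
        intro n
        have d1 := Defs478.cv_diff (hφ n)
        have d2 := Defs478.cv_diff (hPφ n)
        have e2 : dcharge b M G 1 0 α ((1 / 2 : ℂ) • (φ n + fun x => P (φ n x))) =
            (1 / 2 : ℂ) • (dcharge b M G 1 0 α (φ n) -
              fun x => P (dcharge b M G 1 0 α (φ n) x)) := by
          rw [Defs478.dcharge_smul b M G 1 0 α _ (d1.add d2), Defs478.dcharge_add b M G 1 0 α d1 d2]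
          congr 1
          funext x
          simp only [Pi.add_apply, Pi.sub_apply]
          rw [Par478.dcharge_P b hP.anti 1 0 α (d1 x)]
          abel
        rw [e2, eLpNorm_const_smul]
        have hmn : AEStronglyMeasurable (dcharge b M G 1 0 α (φ n)) volume :=
          Defs478.cv_aesm_dcharge (hφ n) _ _ _ _
        have hmP : AEStronglyMeasurable (fun x => P (dcharge b M G 1 0 α (φ n) x)) volume :=
          (LinearMap.continuous_of_finiteDimensional P).comp_aestronglyMeasurable hmn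
        have e3 := eLpNorm_sub_le hmn hmP (by norm_num : (1 : ℝ≥0∞) ≤ 2)
        rw [Par478.eLpNorm_P hP] at e3
        have e4 : ‖(1 / 2 : ℂ)‖ₑ = ENNReal.ofReal (1 / 2) := by
          rw [← ofReal_norm]; norm_num
        rw [e4]
        calc _ ≤ ENNReal.ofReal (1 / 2) * (eLpNorm (dcharge b M G 1 0 α (φ n)) 2 volume +
              eLpNorm (dcharge b M G 1 0 α (φ n)) 2 volume) := by gcongr
          _ = eLpNorm (dcharge b M G 1 0 α (φ n)) 2 volume := half_two _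
      exact tendsto_of_tendsto_of_tendsto_of_le_of_le tendsto_const_nhds (h2 α)
        (fun n => bot_le) e1
  · exact ⟨φ, hφ, fun n P hP' => absurd ⟨P, hP'⟩ hP, h1, h2⟩

/-- **the package for a ground state** -/
theorem ground_pkg (h : Ground b M R G ψ) {s : ℝ} (hs : 0 ≤ s) (hs2 : s < 5 / 2) :
    ∃ C : ℝ, 0 ≤ C ∧ ∀ L : ℝ, 1 ≤ L → ∀ ε : ℝ, 0 < ε → ∃ φ : Cfg N → F,
      Pk b R G (wend b M G 1 0) ψ s C L ε φ ∧
        ∀ P : F →ₗ[ℂ] F, IsParity M G P → ∀ x, P (φ x) = φ x := by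
  obtain ⟨φ, hφ, hev, h1, h2⟩ := exists_even_seq h.mem h.even
  have h2' : ∀ α, Tendsto (fun n => eLpNorm (dop G M α (wend b M G 1 0 α) (φ n)) 2 volume) atTop
      (𝓝 0) := by
    intro α
    have e : (fun n => eLpNorm (dop G M α (wend b M G 1 0 α) (φ n)) 2 volume) =
        fun n => eLpNorm (dcharge b M G 1 0 α (φ n)) 2 volume := by
      funext n
      refine congrArg (fun f => eLpNorm f 2 volume) ?_
      exact (dcharge_eq_dop b M G 1 0 α (φ n)).symm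
    rw [e]
    exact h2 α
  obtain ⟨C, hC, hp⟩ := pkg (fun α φ hφ => continuous_wend b M G 1 0 α hφ) h.memLp hφ h1 h2' hs
    (integrable_jw_of_moment h.memLp hs (h.moment s hs hs2)) (hKin_wend b M G 1 0)
  refine ⟨C, hC, fun L hL ε hε => ?_⟩
  obtain ⟨n, hn⟩ := (hp L hL ε hε).exists
  refine ⟨_, hn, fun P hP x => ?_⟩
  have hr : ∀ (c : ℝ) (f : F), c • f = (c : ℂ) • f := fun c f => (Complex.coe_smul c f).symm
  rw [hr, map_smul, hev n P hP x]

end even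

end Crest.Agent.R330.Pkg915
end

-- ▼ part R330/Pkg3_915

/-!
# R330/Pkg3_915 : the ground state approximants at coupling `g` (leaf S9-PKG)

`ground_family` : for a ground state `ψ` (structure `Ground`) there are `C`, `g₀` such that for all
`g ≥ g₀` there is `φ` (structure `Fam`), a normalised even core vector supported in
`|y| < g^{-1/6}`, close to `U_l ψ`, `l = g^{1/3}`, with all rates.
-/

set_option autoImplicit false
set_option linter.unusedSectionVars false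

open MeasureTheory Filter Topology
open scoped ContDiff InnerProductSpace ENNReal
open Crest.MathPhysics.MatrixQM
open Crest.Agent.R330.Ims714
open Crest.Agent.R330.Defs478 (wpot dcharge qf zset cc Gam)
open Crest.Agent.R330.SInd478 (Ground IsParity)
open Crest.Agent.R330.Ims2714 (wend dcharge_eq_dop)
open Crest.Agent.R330.Scale423

namespace Crest.Agent.R330.Pkg915

variable {N : ℕ} {F : Type*} [NormedAddCommGroup F] [InnerProductSpace ℂ F]

/-! ## scaling of weighted integrals -/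

theorem norm_Us_sq {l : ℝ} (hl : 0 < l) (φ : Cfg N → F) (x : Cfg N) :
    ‖Us l φ x‖ ^ 2 = nrm N l ^ 2 * ‖φ (l • x)‖ ^ 2 := by
  simp only [Us, norm_smul, Complex.norm_real, Real.norm_of_nonneg (nrm_pos hl).le, mul_pow]

theorem int_scale {l : ℝ} (hl : 0 < l) (f : Cfg N → ℝ) :
    ∫ x, nrm N l ^ 2 * f (l • x) = ∫ x, f x := by
  rw [integral_const_mul, Measure.integral_comp_smul volume f l,
    nrm_sq hl, abs_of_pos (inv_pos.2 (pow_pos hl _)), smul_eq_mul, ← mul_assoc,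
    mul_inv_cancel₀ (pow_pos hl _).ne', one_mul]

theorem int_Us {l : ℝ} (hl : 0 < l) (w : Cfg N → ℝ) (φ : Cfg N → F) :
    ∫ x, w (l • x) * ‖Us l φ x‖ ^ 2 = ∫ x, w x * ‖φ x‖ ^ 2 := by
  rw [← int_scale hl fun x => w x * ‖φ x‖ ^ 2]
  refine integral_congr_ae (Eventually.of_forall fun x => ?_)
  simp only
  rw [norm_Us_sq hl]
  ring

theorem int_Us_sub {l : ℝ} (hl : 0 < l) (φ ψ : Cfg N → F) :
    ∫ x, ‖Us l φ x - Us l ψ x‖ ^ 2 = ∫ x, ‖φ x - ψ x‖ ^ 2 := by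
  have h := int_Us hl (fun _ => 1) (φ - ψ)
  simp only [one_mul, Pi.sub_apply] at h
  rw [← h]
  refine integral_congr_ae (Eventually.of_forall fun x => ?_)
  simp [Us, smul_sub]

theorem dsq_Us {l : ℝ} {φ : Cfg N → F} (hφ : Differentiable ℝ φ) (x : Cfg N) :
    dsq (Us l φ) x = nrm N l ^ 2 * (l ^ 2 * dsq φ (l • x)) := by
  have h2 : Us l φ = fun x => (nrm N l : ℝ) • φ (l • x) := by
    funext x; exact Complex.coe_smul _ _
  have hd : ∀ v : Cfg N, fderiv ℝ (Us l φ) x v = nrm N l • (l • fderiv ℝ φ (l • x) v) := by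
    intro v
    have h3 : HasFDerivAt (fun y : Cfg N => φ (l • y))
        ((fderiv ℝ φ (l • x)).comp (l • ContinuousLinearMap.id ℝ (Cfg N))) x :=
      (hφ (l • x)).hasFDerivAt.comp x ((hasFDerivAt_id x).const_smul l)
    have h4 := (h3.const_smul (nrm N l)).fderiv
    rw [h2]
    have h5 : (fun x : Cfg N => nrm N l • φ (l • x)) = (nrm N l • fun y : Cfg N => φ (l • y)) := rfl
    rw [h5, h4]
    simp
  unfold dsq
  rw [Finset.mul_sum, Finset.mul_sum]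
  refine Finset.sum_congr rfl fun k _ => ?_
  rw [hd, norm_smul, norm_smul, mul_pow, mul_pow, Real.norm_eq_abs, Real.norm_eq_abs, sq_abs,
    sq_abs]

theorem int_dsq_Us {l : ℝ} (hl : 0 < l) (w : Cfg N → ℝ) {φ : Cfg N → F}
    (hφ : Differentiable ℝ φ) :
    ∫ x, w (l • x) * dsq (Us l φ) x = l ^ 2 * ∫ x, w x * dsq φ x := by
  rw [← integral_const_mul, ← int_scale hl fun x => l ^ 2 * (w x * dsq φ x)]
  refine integral_congr_ae (Eventually.of_forall fun x => ?_)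
  simp only
  rw [dsq_Us hφ]
  ring

/-! ## the mass term -/

variable [FiniteDimensional ℂ F]

/-- coefficients of the mass term -/
noncomputable def ms (G : GammaNine) (m : ℝ) (α : Fin 16) (x : Cfg N)
    (p : Fin 16 × Fin (N ^ 2 - 1)) : ℝ :=
  -(m * ∑ j : Fin 9, cc j * x (j, p.2) * (Gam G * G.γ j) α p.1)

theorem dcharge_mass (b : ColorBasis N) (M : FermionRep N F) (G : GammaNine) (g m : ℝ)
    (α : Fin 16) (φ : Cfg N → F) (x : Cfg N) :
    dcharge b M G g m α φ x = dcharge b M G g 0 α φ x + thc M (ms G m α x) (φ x) := by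
  unfold dcharge
  rw [add_assoc, thc_apply, Fintype.sum_prod_type, Finset.sum_comm (s := (Finset.univ :
    Finset (Fin 16))), ← Finset.sum_add_distrib]
  congr 1
  refine Finset.sum_congr rfl fun A _ => ?_
  rw [← Finset.sum_add_distrib]
  refine Finset.sum_congr rfl fun β _ => ?_
  rw [← add_smul]
  congr 1
  rw [← Complex.ofReal_add]
  congr 1
  unfold wpot ms
  ring

theorem ms_sq_le (G : GammaNine) (N : ℕ) : ∃ K : ℝ, 0 ≤ K ∧ ∀ (m : ℝ) (α : Fin 16) (x : Cfg N),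
    ∑ p, ms G m α x p ^ 2 ≤ K * m ^ 2 * ‖x‖ ^ 2 := by
  refine ⟨∑ α : Fin 16, ∑ p : Fin 16 × Fin (N ^ 2 - 1),
    (∑ j : Fin 9, |cc j| * |(Gam G * G.γ j) α p.1|) ^ 2, by positivity, fun m α x => ?_⟩
  have h1 : ∀ p : Fin 16 × Fin (N ^ 2 - 1), ms G m α x p ^ 2 ≤
      (∑ j : Fin 9, |cc j| * |(Gam G * G.γ j) α p.1|) ^ 2 * (m ^ 2 * ‖x‖ ^ 2) := by
    intro p
    have h2 : |∑ j : Fin 9, cc j * x (j, p.2) * (Gam G * G.γ j) α p.1| ≤
        (∑ j : Fin 9, |cc j| * |(Gam G * G.γ j) α p.1|) * ‖x‖ := by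
      refine (Finset.abs_sum_le_sum_abs _ _).trans ?_
      rw [Finset.sum_mul]
      refine Finset.sum_le_sum fun j _ => ?_
      rw [abs_mul, abs_mul]
      have hx : |x (j, p.2)| ≤ ‖x‖ := by
        have := PiLp.norm_apply_le x (j, p.2)
        rwa [Real.norm_eq_abs] at this
      calc |cc j| * |x (j, p.2)| * |(Gam G * G.γ j) α p.1|
          ≤ |cc j| * ‖x‖ * |(Gam G * G.γ j) α p.1| := by gcongr
        _ = _ := by ring
    unfold ms
    rw [neg_sq, mul_pow, ← sq_abs (∑ j : Fin 9, cc j * x (j, p.2) * (Gam G * G.γ j) α p.1)]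
    calc m ^ 2 * |∑ j : Fin 9, cc j * x (j, p.2) * (Gam G * G.γ j) α p.1| ^ 2
        ≤ m ^ 2 * ((∑ j : Fin 9, |cc j| * |(Gam G * G.γ j) α p.1|) * ‖x‖) ^ 2 := by gcongr
      _ = _ := by ring
  refine (Finset.sum_le_sum fun p _ => h1 p).trans ?_
  rw [← Finset.sum_mul, ← mul_assoc]
  have h3 : ∑ p : Fin 16 × Fin (N ^ 2 - 1), (∑ j : Fin 9, |cc j| * |(Gam G * G.γ j) α p.1|) ^ 2 ≤
      ∑ α : Fin 16, ∑ p : Fin 16 × Fin (N ^ 2 - 1),
        (∑ j : Fin 9, |cc j| * |(Gam G * G.γ j) α p.1|) ^ 2 :=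
    Finset.single_le_sum (f := fun α : Fin 16 => ∑ p : Fin 16 × Fin (N ^ 2 - 1),
      (∑ j : Fin 9, |cc j| * |(Gam G * G.γ j) α p.1|) ^ 2)
      (fun _ _ => Finset.sum_nonneg fun _ _ => sq_nonneg _) (Finset.mem_univ α)
  gcongr

theorem qf_mass_le (b : ColorBasis N) (M : FermionRep N F) (G : GammaNine) :
    ∃ C : ℝ, 0 ≤ C ∧ ∀ (g m : ℝ) (φ : Cfg N → F), ContDiff ℝ 1 φ → HasCompactSupport φ →
      qf b M G g m φ ≤ 2 * qf b M G g 0 φ + C * m ^ 2 * ∫ x, ‖x‖ ^ 2 * ‖φ x‖ ^ 2 := by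
  obtain ⟨K, hK, hms⟩ := ms_sq_le G N
  refine ⟨K, hK, fun g m φ hφ hc => ?_⟩
  have hi : Integrable fun x : Cfg N => ‖x‖ ^ 2 * ‖φ x‖ ^ 2 :=
    ((continuous_norm.pow 2).mul (hφ.continuous.norm.pow 2)).integrable_of_hasCompactSupport
      (hasCompactSupport_of_tsupport hc fun x h => by
        simp [image_eq_zero_of_notMem_tsupport h])
  have hone : ∀ α, ∫ x, ‖dcharge b M G g m α φ x‖ ^ 2 ≤
      2 * (∫ x, ‖dcharge b M G g 0 α φ x‖ ^ 2) + K * m ^ 2 * ∫ x, ‖x‖ ^ 2 * ‖φ x‖ ^ 2 := by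
    intro α
    have i1 := Ims2714.integrable_dcharge b M G g m hφ hc α
    have i0 := Ims2714.integrable_dcharge b M G g 0 hφ hc α
    rw [← integral_const_mul, ← integral_const_mul,
      ← integral_add (i0.const_mul _) (hi.const_mul _)]
    refine integral_mono i1 ((i0.const_mul _).add (hi.const_mul _)) fun x => ?_
    simp only
    rw [dcharge_mass]
    refine sq_add_le.trans ?_
    rw [norm_thc_sq]
    have h1 := hms m α x
    have h2 : (∑ p, ms G m α x p ^ 2) * ‖φ x‖ ^ 2 ≤ (K * m ^ 2 * ‖x‖ ^ 2) * ‖φ x‖ ^ 2 := by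
      gcongr
    linarith
  unfold qf
  have h3 := Finset.sum_le_sum fun α (_ : α ∈ (Finset.univ : Finset (Fin 16))) => hone α
  rw [Finset.sum_add_distrib, ← Finset.mul_sum, Finset.sum_const, Finset.card_univ,
    Fintype.card_fin, nsmul_eq_mul] at h3
  push_cast at h3
  linarith

/-! ## norms -/

theorem rt_add_le {f h : Cfg N → F} (hf : MemLp f 2 volume) (hh : MemLp h 2 volume) :
    Real.sqrt (∫ x, ‖f x + h x‖ ^ 2) ≤ Real.sqrt (∫ x, ‖f x‖ ^ 2) + Real.sqrt (∫ x, ‖h x‖ ^ 2) := by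
  have h1 := eLpNorm_add_le hf.1 hh.1 (by norm_num : (1 : ℝ≥0∞) ≤ 2)
  rw [Rel893.eLpNorm_two_sq (hf.add hh), Rel893.eLpNorm_two_sq hf, Rel893.eLpNorm_two_sq hh,
    ← ENNReal.ofReal_add (Real.sqrt_nonneg _) (Real.sqrt_nonneg _)] at h1
  exact (ENNReal.ofReal_le_ofReal_iff (by positivity)).1 h1

/-! ## the family before normalisation -/

section fam

variable [Nontrivial F] {b : ColorBasis N} {M : FermionRep N F} {R : GaugeAction b M}
  {G : GammaNine} {ψ : Cfg N → F}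

theorem qf_eq_dop (g m : ℝ) (φ : Cfg N → F) : qf b M G g m φ =
    1 / 16 * ∑ α, ∫ x, ‖dop G M α (wend b M G g m α) φ x‖ ^ 2 := by
  unfold qf
  simp only [dcharge_eq_dop]

/-- the estimates at radius `1/L`, coupling `L⁶`, scaling factor `L²` -/
structure FamL (b : ColorBasis N) {M : FermionRep N F} (R : GaugeAction b M) (G : GammaNine)
    (ψ : Cfg N → F) (C L : ℝ) (φ : Cfg N → F) : Prop where
  core : IsCoreVec b R φ
  supp : ∀ y, L⁻¹ ≤ ‖y‖ → φ y = 0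
  even : ∀ P : F →ₗ[ℂ] F, IsParity M G P → ∀ y, P (φ y) = φ y
  err : ∫ y, ‖φ y - Us (L ^ 2) ψ y‖ ^ 2 ≤ C / L ^ 4
  mom2 : ∫ y, ‖y‖ ^ 2 * ‖φ y‖ ^ 2 ≤ C / L ^ 4
  mom4 : ∫ y, ‖y‖ ^ 4 * ‖φ y‖ ^ 2 ≤ C / L ^ 8
  q0 : qf b M G (L ^ 6) 0 φ ≤ C / L ^ 2
  qm : ∀ m : ℝ, qf b M G (L ^ 6) m φ ≤ C * (1 + m ^ 2) / L ^ 2
  grad0 : ∫ y, dsq φ y ≤ C * L ^ 4
  grad2 : ∫ y, ‖y‖ ^ 2 * dsq φ y ≤ C

theorem exists_famL (h : Ground b M R G ψ) : ∃ C : ℝ, 0 ≤ C ∧ ∀ L : ℝ, 1 ≤ L →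
    ∃ φ : Cfg N → F, FamL b R G ψ C L φ := by
  obtain ⟨C, hC, hp⟩ := ground_pkg h (s := 2) (by norm_num) (by norm_num)
  obtain ⟨K, hK, hmass⟩ := qf_mass_le b M G
  have hI : Integrable fun x => jw 2 x * ‖ψ x‖ ^ 2 :=
    integrable_jw_of_moment h.memLp (by norm_num) (h.moment 2 (by norm_num) (by norm_num))
  set I := ∫ x, jw 2 x * ‖ψ x‖ ^ 2 with hIdef
  have hI0 : 0 ≤ I := integral_nonneg fun x => mul_nonneg (jw_pos 2 x).le (by positivity)
  obtain ⟨Ct, hC0, hC1, hC2, hC3, hC4⟩ : ∃ Ct : ℝ, 0 ≤ Ct ∧ 32 * I + 1 ≤ Ct ∧ C ≤ Ct ∧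
      C * (16 * I) + 1 ≤ Ct ∧ 2 * (C * (16 * I) + 1) + K * C ≤ Ct := by
    have e1 : 0 ≤ 32 * I + 1 := by positivity
    have e2 : 0 ≤ C * (16 * I) + 1 := by positivity
    have e3 : 0 ≤ 2 * (C * (16 * I) + 1) + K * C := by positivity
    exact ⟨(32 * I + 1) + C + (C * (16 * I) + 1) + (2 * (C * (16 * I) + 1) + K * C),
      by linarith, by linarith, by linarith, by linarith, by linarith⟩
  refine ⟨Ct, hC0, fun L hL => ?_⟩
  have hL0 : 0 < L := lt_of_lt_of_le one_pos hL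
  obtain ⟨φ, hφ, hev⟩ := hp L hL (1 / L ^ 6) (by positivity)
  have hφ1 : ContDiff ℝ 1 φ := hφ.core.1.of_le (by exact_mod_cast le_top)
  have hφd : Differentiable ℝ φ := hφ1.differentiable one_ne_zero
  have hc := hφ.core.2.1
  have hl : 0 < L ^ 2 := by positivity
  set T := ∫ x in {x : Cfg N | L / 2 ≤ ‖x‖}, ‖ψ x‖ ^ 2 with hT
  have hT1 : T ≤ 16 * I / L ^ 4 := by
    have e1 := tail_le (s := 2) (by norm_num) hL0 h.memLp hI
    have e2 : ∫ x in {x : Cfg N | L / 2 ≤ ‖x‖}, jw 2 x * ‖ψ x‖ ^ 2 ≤ I :=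
      setIntegral_le_integral hI
        (Eventually.of_forall fun x => mul_nonneg (jw_pos 2 x).le (by positivity))
    rw [← hT] at e1
    have e3 : (1 + L ^ 2) ^ (2 : ℝ) = (1 + L ^ 2) ^ 2 := by norm_num
    have e4 : (4 : ℝ) ^ (2 : ℝ) = 16 := by norm_num
    rw [e3, e4] at e1
    have hT0 : 0 ≤ T := integral_nonneg fun x => by positivity
    rw [le_div_iff₀ (by positivity)]
    have e5 : L ^ 4 ≤ (1 + L ^ 2) ^ 2 := by nlinarith [sq_nonneg L]
    nlinarith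
  have hL2 : (1 : ℝ) ≤ L ^ 2 := one_le_pow₀ hL
  have hL4 : (1 : ℝ) ≤ L ^ 4 := one_le_pow₀ hL
  have hL6 : (1 : ℝ) ≤ L ^ 6 := one_le_pow₀ hL
  have hjj : ∀ (x : Cfg N), ‖x‖ ^ 2 ≤ jw 2 x ∧ ‖x‖ ^ 4 ≤ jw 2 x ∧ 1 ≤ jw (2 - 1 / 2) x ∧
      ‖x‖ ^ 2 ≤ jw (2 - 1 / 2) x := by
    intro x
    have e1 : jw 2 x = (1 + ‖x‖ ^ 2) ^ 2 := by unfold jw; norm_num
    have e2 : jw 1 x = 1 + ‖x‖ ^ 2 := by unfold jw; norm_num
    have e3 : jw 1 x ≤ jw (2 - 1 / 2) x := jw_mono (by norm_num) x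
    have := norm_nonneg x
    refine ⟨?_, ?_, one_le_jw (by norm_num) x, by linarith⟩
    · rw [e1]; nlinarith [sq_nonneg (‖x‖ ^ 2)]
    · rw [e1]; nlinarith [sq_nonneg ‖x‖]
  have hcont : ∀ k : ℕ, Integrable fun x : Cfg N => ‖x‖ ^ k * ‖φ x‖ ^ 2 := fun k =>
    ((continuous_norm.pow k).mul (hφ1.continuous.norm.pow 2)).integrable_of_hasCompactSupport
      (hasCompactSupport_of_tsupport hc fun x h => by
        simp [image_eq_zero_of_notMem_tsupport h])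
  have hcontd : Integrable fun x : Cfg N => ‖x‖ ^ 2 * dsq φ x :=
    ((continuous_norm.pow 2).mul (continuous_dsq hφ1)).integrable_of_hasCompactSupport
      (hasCompactSupport_of_tsupport hc fun x h => by simp [dsq_eq_zero h])
  have hM2 : ∫ x, ‖x‖ ^ 2 * ‖φ x‖ ^ 2 ≤ C :=
    (integral_mono (hcont 2) (integrable_jw_norm 2 hφ1.continuous hc) fun x =>
      mul_le_mul_of_nonneg_right (hjj x).1 (by positivity)).trans hφ.norms
  have hM4 : ∫ x, ‖x‖ ^ 4 * ‖φ x‖ ^ 2 ≤ C :=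
    (integral_mono (hcont 4) (integrable_jw_norm 2 hφ1.continuous hc) fun x =>
      mul_le_mul_of_nonneg_right (hjj x).2.1 (by positivity)).trans hφ.norms
  have hG0 : ∫ x, dsq φ x ≤ C :=
    (integral_mono (integrable_dsq hφ1 hc) (integrable_jw_dsq _ hφ1 hc) fun x => by
      have := mul_le_mul_of_nonneg_right (hjj x).2.2.1 (dsq_nonneg φ x)
      simpa using this).trans hφ.grad
  have hG2 : ∫ x, ‖x‖ ^ 2 * dsq φ x ≤ C :=
    (integral_mono hcontd (integrable_jw_dsq _ hφ1 hc) fun x =>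
      mul_le_mul_of_nonneg_right (hjj x).2.2.2 (dsq_nonneg φ x)).trans hφ.grad
  have hq1 : qf b M G 1 0 φ ≤ (C * (16 * I) + 1) / L ^ 6 := by
    rw [qf_eq_dop]
    have e1 := hφ.charge
    have e2 : C / L ^ 2 * T ≤ C * (16 * I) / L ^ 6 := by
      calc C / L ^ 2 * T ≤ C / L ^ 2 * (16 * I / L ^ 4) := by gcongr
        _ = C * (16 * I) / L ^ 6 := by field_simp
    have e3 : 0 ≤ ∑ α, ∫ x, ‖dop G M α (wend b M G 1 0 α) φ x‖ ^ 2 :=
      Finset.sum_nonneg fun _ _ => integral_nonneg fun _ => by positivity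
    calc _ ≤ ∑ α, ∫ x, ‖dop G M α (wend b M G 1 0 α) φ x‖ ^ 2 := by linarith
      _ ≤ C * (16 * I) / L ^ 6 + 1 / L ^ 6 := by linarith
      _ = _ := by ring
  have hq0 : qf b M G (L ^ 6) 0 (Us (L ^ 2) φ) ≤ (C * (16 * I) + 1) / L ^ 2 := by
    rw [ScaleD423.qf_Us b M G (L ^ 6) 0 hl hφd]
    have e1 : L ^ 6 / (L ^ 2) ^ 3 = 1 := by field_simp
    rw [e1, zero_div]
    calc (L ^ 2) ^ 2 * qf b M G 1 0 φ ≤ (L ^ 2) ^ 2 * ((C * (16 * I) + 1) / L ^ 6) := by gcongr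
      _ = _ := by field_simp
  have hUc : IsCoreVec b R (Us (L ^ 2) φ) := core_Us hl hφ.core
  have hU1 : ContDiff ℝ 1 (Us (L ^ 2) φ) := Us_contDiff hφ1
  have hUm2 : ∫ y, ‖y‖ ^ 2 * ‖Us (L ^ 2) φ y‖ ^ 2 ≤ C / L ^ 4 := by
    have e1 := int_Us hl (fun x => ‖x‖ ^ 2 / L ^ 4) φ
    have e2 : ∀ y : Cfg N, ‖L ^ 2 • y‖ ^ 2 / L ^ 4 = ‖y‖ ^ 2 := fun y => by
      rw [norm_smul, Real.norm_of_nonneg hl.le]
      field_simp
    simp only [e2] at e1
    rw [e1]
    have e3 : ∫ x : Cfg N, ‖x‖ ^ 2 / L ^ 4 * ‖φ x‖ ^ 2 =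
        (∫ x : Cfg N, ‖x‖ ^ 2 * ‖φ x‖ ^ 2) / L ^ 4 := by
      rw [← integral_div]
      exact integral_congr_ae (Eventually.of_forall fun x => by simp only; ring)
    rw [e3]
    gcongr
  have hUm4 : ∫ y, ‖y‖ ^ 4 * ‖Us (L ^ 2) φ y‖ ^ 2 ≤ C / L ^ 8 := by
    have e1 := int_Us hl (fun x => ‖x‖ ^ 4 / L ^ 8) φ
    have e2 : ∀ y : Cfg N, ‖L ^ 2 • y‖ ^ 4 / L ^ 8 = ‖y‖ ^ 4 := fun y => by
      rw [norm_smul, Real.norm_of_nonneg hl.le]
      field_simp
    simp only [e2] at e1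
    rw [e1]
    have e3 : ∫ x : Cfg N, ‖x‖ ^ 4 / L ^ 8 * ‖φ x‖ ^ 2 =
        (∫ x : Cfg N, ‖x‖ ^ 4 * ‖φ x‖ ^ 2) / L ^ 8 := by
      rw [← integral_div]
      exact integral_congr_ae (Eventually.of_forall fun x => by simp only; ring)
    rw [e3]
    gcongr
  refine ⟨Us (L ^ 2) φ, hUc, fun y hy => ?_, fun P hP y => ?_, ?_, ?_, ?_, ?_, fun m => ?_, ?_, ?_⟩
  · have e1 : L ≤ ‖L ^ 2 • y‖ := by
      rw [norm_smul, Real.norm_of_nonneg hl.le]
      calc L = L ^ 2 * L⁻¹ := by field_simp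
        _ ≤ L ^ 2 * ‖y‖ := by gcongr
    show ((nrm N (L ^ 2) : ℝ) : ℂ) • φ (L ^ 2 • y) = 0
    rw [hφ.supp _ e1, smul_zero]
  · show P (((nrm N (L ^ 2) : ℝ) : ℂ) • φ (L ^ 2 • y)) = _
    rw [map_smul, hev P hP]
    rfl
  · rw [int_Us_sub hl]
    refine hφ.err0.trans ?_
    rw [← hT]
    have e1 : 2 * T + 1 / L ^ 6 ≤ (32 * I + 1) / L ^ 4 := by
      have e2 : 1 / L ^ 6 ≤ 1 / L ^ 4 := by
        apply one_div_le_one_div_of_le (by positivity)
        exact pow_le_pow_right₀ hL (by norm_num)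
      calc 2 * T + 1 / L ^ 6 ≤ 2 * (16 * I / L ^ 4) + 1 / L ^ 4 := by linarith
        _ = _ := by ring
    exact e1.trans (div_le_div_of_nonneg_right hC1 (by positivity))
  · exact hUm2.trans (div_le_div_of_nonneg_right hC2 (by positivity))
  · exact hUm4.trans (div_le_div_of_nonneg_right hC2 (by positivity))
  · exact hq0.trans (div_le_div_of_nonneg_right hC3 (by positivity))
  · refine (hmass (L ^ 6) m (Us (L ^ 2) φ) hU1 hUc.2.1).trans ?_
    have e1 : K * m ^ 2 * ∫ y, ‖y‖ ^ 2 * ‖Us (L ^ 2) φ y‖ ^ 2 ≤ K * C * m ^ 2 / L ^ 2 := by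
      have e0 : C / L ^ 4 ≤ C / L ^ 2 :=
        div_le_div_of_nonneg_left hC (by positivity) (pow_le_pow_right₀ hL (by norm_num))
      calc K * m ^ 2 * ∫ y, ‖y‖ ^ 2 * ‖Us (L ^ 2) φ y‖ ^ 2 ≤ K * m ^ 2 * (C / L ^ 2) :=
            mul_le_mul_of_nonneg_left (hUm2.trans e0) (by positivity)
        _ = _ := by ring
    calc 2 * qf b M G (L ^ 6) 0 (Us (L ^ 2) φ) + K * m ^ 2 * ∫ y, ‖y‖ ^ 2 *
          ‖Us (L ^ 2) φ y‖ ^ 2 ≤ 2 * ((C * (16 * I) + 1) / L ^ 2) + K * C * m ^ 2 / L ^ 2 := by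
          linarith
      _ = (2 * (C * (16 * I) + 1) + K * C * m ^ 2) / L ^ 2 := by ring
      _ ≤ _ := by
          refine div_le_div_of_nonneg_right ?_ (by positivity)
          have e2 : 0 ≤ (2 * (C * (16 * I) + 1)) * m ^ 2 + K * C := by positivity
          have e3 : (2 * (C * (16 * I) + 1) + K * C) * (1 + m ^ 2) ≤ Ct * (1 + m ^ 2) := by
            gcongr
          linarith
  · have e1 := int_dsq_Us hl (fun _ => 1) hφd
    simp only [one_mul] at e1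
    rw [e1]
    have e2 : (L ^ 2) ^ 2 = L ^ 4 := by ring
    rw [e2, mul_comm]
    exact mul_le_mul_of_nonneg_right (hG0.trans hC2) (by positivity)
  · have e1 := int_dsq_Us hl (fun x => ‖x‖ ^ 2 / L ^ 4) hφd
    have e2 : ∀ y : Cfg N, ‖L ^ 2 • y‖ ^ 2 / L ^ 4 = ‖y‖ ^ 2 := fun y => by
      rw [norm_smul, Real.norm_of_nonneg hl.le]
      field_simp
    simp only [e2] at e1
    rw [e1]
    have e3 : ∫ x : Cfg N, ‖x‖ ^ 2 / L ^ 4 * dsq φ x = (∫ x : Cfg N, ‖x‖ ^ 2 * dsq φ x) / L ^ 4 := by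
      rw [← integral_div]
      exact integral_congr_ae (Eventually.of_forall fun x => by simp only; ring)
    rw [e3]
    have e4 : (L ^ 2) ^ 2 * ((∫ x : Cfg N, ‖x‖ ^ 2 * dsq φ x) / L ^ 4) =
        ∫ x : Cfg N, ‖x‖ ^ 2 * dsq φ x := by field_simp
    rw [e4]
    exact hG2.trans hC2

/-! ## normalisation -/

theorem qf_smul (g m : ℝ) (c : ℂ) {φ : Cfg N → F} (hφ : Differentiable ℝ φ) :
    qf b M G g m (c • φ) = ‖c‖ ^ 2 * qf b M G g m φ := by
  unfold qf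
  have h1 : ∀ α, ∫ x, ‖dcharge b M G g m α (c • φ) x‖ ^ 2 =
      ‖c‖ ^ 2 * ∫ x, ‖dcharge b M G g m α φ x‖ ^ 2 := by
    intro α
    rw [Defs478.dcharge_smul b M G g m α c hφ, ← integral_const_mul]
    refine integral_congr_ae (Eventually.of_forall fun x => ?_)
    simp only [Pi.smul_apply, norm_smul, mul_pow]
  simp only [h1, ← Finset.mul_sum]
  ring

theorem dsq_smul (c : ℂ) {φ : Cfg N → F} (hφ : Differentiable ℝ φ) (x : Cfg N) :
    dsq (c • φ) x = ‖c‖ ^ 2 * dsq φ x := by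
  unfold dsq
  rw [Finset.mul_sum]
  refine Finset.sum_congr rfl fun k _ => ?_
  rw [fderiv_const_smul (hφ x)]
  rw [show (c • fderiv ℝ φ x) (EuclideanSpace.single k 1) = c • fderiv ℝ φ x (EuclideanSpace.single k 1)
    from rfl, norm_smul, mul_pow]

theorem exists_famL_norm (h : Ground b M R G ψ) : ∃ C L₀ : ℝ, 0 ≤ C ∧ 1 ≤ L₀ ∧ ∀ L : ℝ, L₀ ≤ L →
    ∃ φ : Cfg N → F, FamL b R G ψ C L φ ∧ ∫ y, ‖φ y‖ ^ 2 = 1 := by
  obtain ⟨C, hC, hf⟩ := exists_famL h
  refine ⟨4 * C, 1 + 16 * C, by positivity, by linarith, fun L hL => ?_⟩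
  have hL1 : 1 ≤ L := by linarith
  have hL0 : 0 < L := by linarith
  obtain ⟨φ, hφ⟩ := hf L hL1
  have hl : 0 < L ^ 2 := by positivity
  have hφ1 : ContDiff ℝ 1 φ := hφ.core.1.of_le (by exact_mod_cast le_top)
  have hφd : Differentiable ℝ φ := hφ1.differentiable one_ne_zero
  have hc := hφ.core.2.1
  have hφm : MemLp φ 2 volume := hφ1.continuous.memLp_of_hasCompactSupport hc
  have hUm : MemLp (Us (L ^ 2) ψ) 2 volume := Us_memLp hl h.memLp
  have hU1 : ∫ y, ‖Us (L ^ 2) ψ y‖ ^ 2 = 1 := by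
    rw [ScaleD423.integral_norm_sq_Us hl, h.norm]
  have hsmall : C / L ^ 4 ≤ 1 / 16 := by
    rw [div_le_iff₀ (by positivity)]
    have e1 : L ≤ L ^ 4 := by
      have : (1 : ℝ) ≤ L ^ 3 := one_le_pow₀ hL1
      nlinarith
    linarith
  set δ := Real.sqrt (∫ y, ‖φ y - Us (L ^ 2) ψ y‖ ^ 2) with hδ
  have hδ0 : 0 ≤ δ := Real.sqrt_nonneg _
  have hδsq : δ ^ 2 ≤ C / L ^ 4 := by
    rw [hδ, Real.sq_sqrt (integral_nonneg fun _ => by positivity)]
    exact hφ.err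
  have hδ4 : δ ≤ 1 / 4 := by nlinarith
  set n := Real.sqrt (∫ y, ‖φ y‖ ^ 2) with hn
  have hn0 : 0 ≤ n := Real.sqrt_nonneg _
  have hnsq : n ^ 2 = ∫ y, ‖φ y‖ ^ 2 := by
    rw [hn, Real.sq_sqrt (integral_nonneg fun _ => by positivity)]
  have hdm : MemLp (fun y => φ y - Us (L ^ 2) ψ y) 2 volume := hφm.sub hUm
  have hup : n ≤ δ + 1 := by
    have h1 := rt_add_le hdm hUm
    simp only [sub_add_cancel] at h1
    rw [hU1, Real.sqrt_one] at h1
    exact h1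
  have hlo : 1 ≤ δ + n := by
    have h1 := rt_add_le hdm.neg hφm
    have e1 : ∀ y, ‖(-fun y => φ y - Us (L ^ 2) ψ y) y + φ y‖ ^ 2 = ‖Us (L ^ 2) ψ y‖ ^ 2 := by
      intro y
      simp
    have e2 : ∀ y, ‖(-fun y => φ y - Us (L ^ 2) ψ y) y‖ ^ 2 = ‖φ y - Us (L ^ 2) ψ y‖ ^ 2 := by
      intro y
      simp only [Pi.neg_apply, norm_neg]
    simp only [e1, e2] at h1
    rw [hU1, Real.sqrt_one] at h1
    exact h1
  have hn34 : 3 / 4 ≤ n := by linarith
  have hnpos : 0 < n := by linarith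
  set c : ℂ := ((n⁻¹ : ℝ) : ℂ) with hcdef
  have hcn : ‖c‖ = n⁻¹ := by
    rw [hcdef, Complex.norm_real, Real.norm_of_nonneg (inv_nonneg.2 hn0)]
  have hc2 : ‖c‖ ^ 2 ≤ 2 := by
    rw [hcn, inv_pow]
    have e1 : (9 : ℝ) / 16 ≤ n ^ 2 := by nlinarith
    calc (n ^ 2)⁻¹ ≤ (9 / 16 : ℝ)⁻¹ := inv_anti₀ (by norm_num) e1
      _ ≤ 2 := by norm_num
  have hc4 : ‖c‖ ^ 2 ≤ 4 := by linarith
  refine ⟨c • φ, ⟨Defs478.cv_smul c hφ.core, fun y hy => ?_, fun P hP y => ?_, ?_, ?_, ?_, ?_,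
    fun m => ?_, ?_, ?_⟩, ?_⟩
  · rw [Pi.smul_apply, hφ.supp y hy, smul_zero]
  · rw [Pi.smul_apply, map_smul, hφ.even P hP]
  · have h1 : Real.sqrt (∫ y, ‖(c • φ) y - Us (L ^ 2) ψ y‖ ^ 2) ≤ 2 * δ := by
      have hm1 : MemLp (fun y => (c - 1) • φ y) 2 volume := hφm.const_smul (c - 1)
      have h2 := rt_add_le hm1 hdm
      have e1 : ∀ y, (c - 1) • φ y + (φ y - Us (L ^ 2) ψ y) = (c • φ) y - Us (L ^ 2) ψ y := by
        intro y
        rw [Pi.smul_apply, sub_smul, one_smul]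
        abel
      simp only [e1] at h2
      refine h2.trans ?_
      have e2 : Real.sqrt (∫ y, ‖(c - 1) • φ y‖ ^ 2) ≤ δ := by
        have e3 : ∫ y, ‖(c - 1) • φ y‖ ^ 2 = (‖c - 1‖ * n) ^ 2 := by
          rw [mul_pow, hnsq, ← integral_const_mul]
          refine integral_congr_ae (Eventually.of_forall fun x => ?_)
          simp only [norm_smul, mul_pow]
        rw [e3, Real.sqrt_sq (by positivity)]
        have e4 : ‖c - 1‖ = |n⁻¹ - 1| := by
          rw [hcdef, ← Complex.ofReal_one, ← Complex.ofReal_sub, Complex.norm_real, Real.norm_eq_abs]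
        rw [e4, ← abs_of_nonneg hn0, ← abs_mul, abs_of_nonneg hn0]
        have e5 : (n⁻¹ - 1) * n = 1 - n := by field_simp
        rw [e5, abs_le]
        constructor <;> linarith
      linarith
    have h3 := Real.sq_sqrt (integral_nonneg (μ := volume)
      (f := fun y => ‖(c • φ) y - Us (L ^ 2) ψ y‖ ^ 2) fun _ => by positivity)
    rw [← h3]
    calc Real.sqrt (∫ y, ‖(c • φ) y - Us (L ^ 2) ψ y‖ ^ 2) ^ 2 ≤ (2 * δ) ^ 2 := by
          gcongr
      _ = 4 * δ ^ 2 := by ring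
      _ ≤ 4 * (C / L ^ 4) := by gcongr
      _ = _ := by ring
  · have e1 : ∫ y, ‖y‖ ^ 2 * ‖(c • φ) y‖ ^ 2 = ‖c‖ ^ 2 * ∫ y, ‖y‖ ^ 2 * ‖φ y‖ ^ 2 := by
      rw [← integral_const_mul]
      refine integral_congr_ae (Eventually.of_forall fun x => ?_)
      simp only [Pi.smul_apply, norm_smul, mul_pow]
      ring
    rw [e1]
    calc ‖c‖ ^ 2 * ∫ y, ‖y‖ ^ 2 * ‖φ y‖ ^ 2 ≤ 4 * (C / L ^ 4) := by
          have := hφ.mom2
          have h0 : 0 ≤ ∫ y, ‖y‖ ^ 2 * ‖φ y‖ ^ 2 := integral_nonneg fun _ => by positivity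
          gcongr
      _ = _ := by ring
  · have e1 : ∫ y, ‖y‖ ^ 4 * ‖(c • φ) y‖ ^ 2 = ‖c‖ ^ 2 * ∫ y, ‖y‖ ^ 4 * ‖φ y‖ ^ 2 := by
      rw [← integral_const_mul]
      refine integral_congr_ae (Eventually.of_forall fun x => ?_)
      simp only [Pi.smul_apply, norm_smul, mul_pow]
      ring
    rw [e1]
    calc ‖c‖ ^ 2 * ∫ y, ‖y‖ ^ 4 * ‖φ y‖ ^ 2 ≤ 4 * (C / L ^ 8) := by
          have := hφ.mom4
          have h0 : 0 ≤ ∫ y, ‖y‖ ^ 4 * ‖φ y‖ ^ 2 := integral_nonneg fun _ => by positivity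
          gcongr
      _ = _ := by ring
  · rw [qf_smul _ _ _ hφd]
    calc ‖c‖ ^ 2 * qf b M G (L ^ 6) 0 φ ≤ 4 * (C / L ^ 2) := by
          have := hφ.q0
          have h0 := Ims2714.qf_nonneg b M G (L ^ 6) 0 φ
          gcongr
      _ = _ := by ring
  · rw [qf_smul _ _ _ hφd]
    calc ‖c‖ ^ 2 * qf b M G (L ^ 6) m φ ≤ 4 * (C * (1 + m ^ 2) / L ^ 2) := by
          have := hφ.qm m
          have h0 := Ims2714.qf_nonneg b M G (L ^ 6) m φ
          gcongr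
      _ = _ := by ring
  · have e1 : ∫ y, dsq (c • φ) y = ‖c‖ ^ 2 * ∫ y, dsq φ y := by
      rw [← integral_const_mul]
      exact integral_congr_ae (Eventually.of_forall fun x => dsq_smul c hφd x)
    rw [e1]
    calc ‖c‖ ^ 2 * ∫ y, dsq φ y ≤ 4 * (C * L ^ 4) := by
          have := hφ.grad0
          have h0 : 0 ≤ ∫ y, dsq φ y := integral_nonneg fun _ => dsq_nonneg _ _
          gcongr
      _ = _ := by ring
  · have e1 : ∫ y, ‖y‖ ^ 2 * dsq (c • φ) y = ‖c‖ ^ 2 * ∫ y, ‖y‖ ^ 2 * dsq φ y := by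
      rw [← integral_const_mul]
      refine integral_congr_ae (Eventually.of_forall fun x => ?_)
      simp only [dsq_smul c hφd x]
      ring
    rw [e1]
    have := hφ.grad2
    have h0 : 0 ≤ ∫ y, ‖y‖ ^ 2 * dsq φ y :=
      integral_nonneg fun _ => mul_nonneg (by positivity) (dsq_nonneg _ _)
    exact mul_le_mul hc4 this h0 (by norm_num)
  · have e1 : ∫ y, ‖(c • φ) y‖ ^ 2 = ‖c‖ ^ 2 * ∫ y, ‖φ y‖ ^ 2 := by
      rw [← integral_const_mul]
      refine integral_congr_ae (Eventually.of_forall fun x => ?_)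
      simp only [Pi.smul_apply, norm_smul, mul_pow]
    rw [e1, ← hnsq, hcn]
    field_simp

/-! ## the family, powers of `g` -/

/-- **the approximants of the ground state at coupling `g`** -/
structure Fam (b : ColorBasis N) {M : FermionRep N F} (R : GaugeAction b M) (G : GammaNine)
    (ψ : Cfg N → F) (C g : ℝ) (φ : Cfg N → F) : Prop where
  core : IsCoreVec b R φ
  supp : ∀ y, g ^ (-(1 / 6) : ℝ) ≤ ‖y‖ → φ y = 0
  even : ∀ P : F →ₗ[ℂ] F, IsParity M G P → ∀ y, P (φ y) = φ y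
  norm : ∫ y, ‖φ y‖ ^ 2 = 1
  err : ∫ y, ‖φ y - Us (g ^ (1 / 3 : ℝ)) ψ y‖ ^ 2 ≤ C * g ^ (-(2 / 3) : ℝ)
  mom2 : ∫ y, ‖y‖ ^ 2 * ‖φ y‖ ^ 2 ≤ C * g ^ (-(2 / 3) : ℝ)
  mom4 : ∫ y, ‖y‖ ^ 4 * ‖φ y‖ ^ 2 ≤ C * g ^ (-(4 / 3) : ℝ)
  q0 : qf b M G g 0 φ ≤ C * g ^ (-(1 / 3) : ℝ)
  qm : ∀ m : ℝ, qf b M G g m φ ≤ C * (1 + m ^ 2) * g ^ (-(1 / 3) : ℝ)
  grad0 : ∫ y, dsq φ y ≤ C * g ^ (2 / 3 : ℝ)
  grad2 : ∫ y, ‖y‖ ^ 2 * dsq φ y ≤ C

theorem rpow_inv_pow {g : ℝ} (hg : 0 < g) (k : ℕ) : (g ^ (1 / 6 : ℝ)) ^ k = g ^ ((k : ℝ) / 6) := by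
  rw [← Real.rpow_natCast, ← Real.rpow_mul hg.le]
  congr 1
  ring

/-- **the family** -/
theorem ground_family (h : Ground b M R G ψ) : ∃ C g₀ : ℝ, 0 < C ∧ 1 ≤ g₀ ∧ ∀ g : ℝ, g₀ ≤ g →
    ∃ φ : Cfg N → F, Fam b R G ψ C g φ := by
  obtain ⟨C, L₀, hC, hL0, hf⟩ := exists_famL_norm h
  refine ⟨C + 1, L₀ ^ 6, by positivity, one_le_pow₀ hL0, fun g hg => ?_⟩
  have hg1 : 1 ≤ g := (one_le_pow₀ hL0).trans hg
  have hg0 : 0 < g := by linarith
  set L := g ^ (1 / 6 : ℝ) with hL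
  have hLL : L₀ ≤ L := by
    have e1 : L₀ = (L₀ ^ 6) ^ (1 / 6 : ℝ) := by
      rw [← Real.rpow_natCast, ← Real.rpow_mul (by linarith)]
      norm_num
    rw [e1, hL]
    exact Real.rpow_le_rpow (by positivity) hg (by norm_num)
  obtain ⟨φ, hφ, hn⟩ := hf L hLL
  have h6 : L ^ 6 = g := by
    rw [hL, rpow_inv_pow hg0]; norm_num
  have h2 : L ^ 2 = g ^ (1 / 3 : ℝ) := by
    rw [hL, rpow_inv_pow hg0]; norm_num
  have h4 : L ^ 4 = g ^ (2 / 3 : ℝ) := by
    rw [hL, rpow_inv_pow hg0]; norm_num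
  have h8 : L ^ 8 = g ^ (4 / 3 : ℝ) := by
    rw [hL, rpow_inv_pow hg0]; norm_num
  have hinv : ∀ p : ℝ, g ^ (-p) = (g ^ p)⁻¹ := fun p => Real.rpow_neg hg0.le p
  have hle : ∀ {a B : ℝ}, 0 ≤ B → a ≤ C * B → a ≤ (C + 1) * B := fun hB h => by nlinarith
  refine ⟨φ, ⟨hφ.core, fun y hy => hφ.supp y ?_, hφ.even, hn, ?_, ?_, ?_, ?_, fun m => ?_, ?_, ?_⟩⟩
  · rw [hinv, ← hL] at hy
    exact hy
  · have := hφ.err
    rw [h2, h4, div_eq_mul_inv] at this
    rw [hinv]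
    exact hle (by positivity) this
  · have := hφ.mom2
    rw [h4, div_eq_mul_inv] at this
    rw [hinv]
    exact hle (by positivity) this
  · have := hφ.mom4
    rw [h8, div_eq_mul_inv] at this
    rw [hinv]
    exact hle (by positivity) this
  · have := hφ.q0
    rw [h6, h2, div_eq_mul_inv] at this
    rw [hinv]
    exact hle (by positivity) this
  · have := hφ.qm m
    rw [h6, h2, div_eq_mul_inv, mul_assoc] at this
    rw [hinv, mul_assoc]
    exact hle (by positivity) this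
  · have := hφ.grad0
    rw [h4] at this
    exact hle (by positivity) this
  · have := hφ.grad2
    linarith

end fam

end Crest.Agent.R330.Pkg915
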