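import Crest.Agent.R330.Stab2_973
import Crest.Agent.R330.FactI_161
import Crest.Agent.R330.Par_478
import Crest.Agent.R330.GaugeEx_973
import Crest.Agent.R330.Char_973
import Crest.Agent.R330.PsiGeo_477
import Crest.Agent.R330.Pkg3_915
import Crest.Agent.R330.TDefB_414

-- ▼ part R330/Stab3_973
section

/-!
# Row 330 (helper973), leaf S8-STAB part 3: the module side (St3)

`R : GaugeAction b M`, blocks `D : Dec N k`, `eps_p = D.emb b bp p`, 161's `cr`, `te`, `polG`, `pr`.

* `rho_thv`, `rho_cr` : `ρ(g) θ(x) f = θ(Ad(g) x) ρ(g) f`.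
* `gvac_fix` : the reference vacua are gauge invariant.
* `vacD`, `prD` : 161's `vacA`, `pr` for the blocks of `D`.
* `StK.rho_mem`, `StK.rho_pr`, `StK.rho_core` : the block group.
* `StW.rho_mem`, `StW.rho_pr`, `StW.rho_core` : the block permutations (even factors).
* `StK.act_sum`, `StW.act_sum` : the configurations `Σ_p embCfg p (Y p)`.
-/

set_option autoImplicit false
set_option linter.unusedSectionVars false

noncomputable section

open Crest.MathPhysics.MatrixQM
open scoped InnerProductSpace BigOperators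

namespace Crest.Agent.R330.Stab3973

open Crest.Agent.R330.Cliff442 Crest.Agent.R330.Cliff442.CRep Crest.Agent.R330.Fact161
open Crest.Agent.R330.LS839 Crest.Agent.R330.Bind6839 Crest.Agent.R330.SInd478
open Crest.Agent.R330.FactI161 Crest.Agent.R330.Stab2973
open Crest.Agent.R330.Blk317 (Dec)
open Crest.Agent.R330.Char973 (SU)

/-! ### 1. Gauge covariance of the Clifford module -/

section cov

variable {N : ℕ} {F : Type*} [NormedAddCommGroup F] [InnerProductSpace ℂ F]
  [FiniteDimensional ℂ F] {b : ColorBasis N} {M : FermionRep N F} (R : GaugeAction b M)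

theorem thv_apply' (β : Fin 16) (u : Colg N) (f : F) :
    thv M β u f = ∑ A, ((u A : ℝ) : ℂ) • M.θ β A f := by
  unfold thv
  rw [LinearMap.sum_apply]
  rfl

/-- **Gauge covariance of `θ_β(u)`.** -/
theorem rho_thv (g : SU N) (β : Fin 16) (u : Colg N) (f : F) :
    R.ρ g (thv M β u f) = thv M β (adV b g u) (R.ρ g f) := by
  have h : ∀ A, R.ρ g (M.θ β A f) = ∑ B, ((b.adjMat g B A : ℝ) : ℂ) • M.θ β B (R.ρ g f) := by
    intro A
    have := LinearMap.congr_fun (R.intertwine g β A) f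
    simpa only [LinearMap.comp_apply, LinearMap.sum_apply, LinearMap.smul_apply] using this
  rw [thv_apply', thv_apply', map_sum]
  simp only [map_smul, h, Finset.smul_sum, smul_smul]
  rw [Finset.sum_comm]
  refine Finset.sum_congr rfl fun B _ => ?_
  rw [adV_apply, Complex.ofReal_sum, Finset.sum_smul]
  refine Finset.sum_congr rfl fun A _ => ?_
  rw [Complex.ofReal_mul, mul_comm]

/-- **Gauge covariance of the Clifford module.** -/
theorem rho_cr (g : SU N) (x : W16 N) (f : F) :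
    R.ρ g ((cr M).θ x f) = (cr M).θ (te (adV b g) x) (R.ρ g f) := by
  rw [cr_eq_sum, cr_eq_sum, map_sum]
  refine Finset.sum_congr rfl fun β _ => ?_
  rw [row_te, rho_thv]




theorem rho_inv_rho (g : SU N) (f : F) : R.ρ g⁻¹ (R.ρ g f) = f := by
  have h : (R.ρ g⁻¹ * R.ρ g) f = f := by
    rw [← map_mul, inv_mul_cancel, map_one]
    rfl
  exact h

theorem rho_injective (g : SU N) : Function.Injective (R.ρ g) := fun x y h => by
  rw [← rho_inv_rho R g x, h, rho_inv_rho]



end cov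

/-! ### 2. The blocks -/

section blocks

variable {N : ℕ} {F : Type*} [NormedAddCommGroup F] [InnerProductSpace ℂ F]
  [FiniteDimensional ℂ F] (b : ColorBasis N) (M : FermionRep N F)
  {κ : Type*} [Fintype κ] {k : κ → ℕ} (D : Dec N k) (bp : ∀ p, ColorBasis (k p)) (G : GammaNine)




variable {Ff : κ → Type*} [∀ p, NormedAddCommGroup (Ff p)] [∀ p, InnerProductSpace ℂ (Ff p)]
  {Mb : ∀ p, FermionRep (k p) (Ff p)} {Ω : ∀ p, Ff p} {G}
  (hΩ : ∀ p, IsGVac (Mb p) G (Ω p)) (h1 : ∀ p, ‖Ω p‖ = 1)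



end blocks

/-! ### 3. The block group -/

section stk

variable {N : ℕ} {F : Type*} [NormedAddCommGroup F] [InnerProductSpace ℂ F]
  [FiniteDimensional ℂ F] {b : ColorBasis N} {M : FermionRep N F} (R : GaugeAction b M)
  {κ : Type*} [Fintype κ] {k : κ → ℕ} {D : Dec N k} {bp : ∀ p, ColorBasis (k p)}
  {G : GammaNine}
  {Ff : κ → Type*} [∀ p, NormedAddCommGroup (Ff p)] [∀ p, InnerProductSpace ℂ (Ff p)]
  [∀ p, FiniteDimensional ℂ (Ff p)]
  {Mb : ∀ p, FermionRep (k p) (Ff p)} (Rb : ∀ p, GaugeAction (bp p) (Mb p)) {Ω : ∀ p, Ff p}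
  (hΩ : ∀ p, IsGVac (Mb p) G (Ω p)) (h1 : ∀ p, ‖Ω p‖ = 1)
  {g : SU N} {h : ∀ p, SU (k p)}







end stk

/-! ### 4. Permutations -/

section stw

variable {N : ℕ} {F : Type*} [NormedAddCommGroup F] [InnerProductSpace ℂ F]
  [FiniteDimensional ℂ F] {b : ColorBasis N} {M : FermionRep N F} (R : GaugeAction b M)
  {κ : Type*} [Fintype κ] {k : κ → ℕ} {D : Dec N k} (bb : ∀ n, ColorBasis n)
  {G : GammaNine}
  {Fk : ℕ → Type*} [∀ n, NormedAddCommGroup (Fk n)] [∀ n, InnerProductSpace ℂ (Fk n)]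
  [∀ n, FiniteDimensional ℂ (Fk n)]
  {Mk : ∀ n, FermionRep n (Fk n)} {Ω : ∀ n, Fk n}
  (hΩ : ∀ n, IsGVac (Mk n) G (Ω n)) (h1 : ∀ n, ‖Ω n‖ = 1)
  {w : SU N} {σ : Equiv.Perm κ} {hσ : ∀ p, k (σ p) = k p}





/-- Transport of fermion vectors. -/
def castF {n n' : ℕ} (h : n = n') : Fk n →ₗ[ℂ] Fk n' where
  toFun f := h ▸ f
  map_add' x y := by subst h; rfl
  map_smul' c x := by subst h; rfl


theorem castF_injective {n n' : ℕ} (h : n = n') :
    Function.Injective (castF h : Fk n →ₗ[ℂ] Fk n') := by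
  subst h
  exact Function.injective_id


theorem castF_fun {n n' : ℕ} (h : n = n') (φ : ∀ n, Cfg n → Fk n) (y : Cfg n) :
    castF h (φ n y) = φ n' (castY h y) := by
  subst h
  rfl

theorem castF_const {n n' : ℕ} (h : n = n') (Ω : ∀ n, Fk n) :
    castF h (Ω n) = Ω n' := by
  subst h
  rfl






theorem map_univ_perm (σ : Equiv.Perm κ) :
    ((Finset.univ : Finset κ).toList.map σ).Perm (Finset.univ : Finset κ).toList := by
  rw [List.perm_ext_iff_of_nodup ((List.nodup_map_iff σ.injective).2 (Finset.nodup_toList _))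
    (Finset.nodup_toList _)]
  intro q
  simp only [List.mem_map, Finset.mem_toList, Finset.mem_univ, true_and, iff_true]
  exact ⟨σ.symm q, σ.apply_symm_apply q⟩


end stw

/-! ### 5. Configurations -/

section conf

open Crest.Agent.R330.SlA314 Crest.Agent.R330.SlB314

variable {N : ℕ} {b : ColorBasis N} {κ : Type*} [Fintype κ] {k : κ → ℕ} {D : Dec N k}





/-- The permuted family of configurations. -/
def permY (σ : Equiv.Perm κ) (hσ : ∀ p, k (σ p) = k p) (Y : ∀ p, Cfg (k p)) : ∀ p, Cfg (k p) :=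
  fun q => castY (by rw [← hσ (σ.symm q), Equiv.apply_symm_apply]) (Y (σ.symm q))

theorem permY_apply (σ : Equiv.Perm κ) (hσ : ∀ p, k (σ p) = k p) (Y : ∀ p, Cfg (k p)) (p : κ) :
    permY σ hσ Y (σ p) = castY (hσ p).symm (Y p) := by
  have h : ∀ (q : κ) (hq : q = p) (h1 : k q = k (σ p)), castY h1 (Y q) =
      castY (hσ p).symm (Y p) := by
    intro q hq h1
    subst hq
    rfl
  exact h _ (Equiv.symm_apply_apply σ p) _

end conf

end Crest.Agent.R330.Stab3973

end
end

-- ▼ part R330/GaugeUn_973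
section

/-!
# Row 330 (helper973): uniqueness of the gauge action

* `rho_vac` : `ρ(g) Ω = Ω` for every gauge action (the Fock vacuum is gauge invariant).
* `gaugeAction_unique`, `gaugeAction_eq` : the gauge action is unique.
* `rho_eq_of_adjMat` : `ρ(g)` depends only on the adjoint matrix of `g`.
-/

set_option autoImplicit false
set_option linter.unusedSectionVars false

noncomputable section

open scoped InnerProductSpace Matrix

namespace Crest.Agent.R330.GaugeUn973

open Crest.MathPhysics.MatrixQM Crest.Agent.R330.Vac973 Crest.Agent.R330.GaugeEx973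

variable {N : ℕ} {F : Type*} [NormedAddCommGroup F] [InnerProductSpace ℂ F]
  [FiniteDimensional ℂ F] {b : ColorBasis N} {M : FermionRep N F} {Ω : F}

theorem rho_theta (R : GaugeAction b M) (g : Matrix.specialUnitaryGroup (Fin N) ℂ) (α : Fin 16)
    (A : Fin (N ^ 2 - 1)) (v : F) :
    R.ρ g (M.θ α A v) = ∑ B, (b.adjMat g B A : ℂ) • M.θ α B (R.ρ g v) := by
  have h1 := LinearMap.congr_fun (R.intertwine g α A) v
  simpa only [LinearMap.comp_apply, LinearMap.sum_apply, LinearMap.smul_apply] using h1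

theorem rho_ann (R : GaugeAction b M) (g : Matrix.specialUnitaryGroup (Fin N) ℂ)
    (j : Fin 8 × Fin (N ^ 2 - 1)) (v : F) :
    R.ρ g (ann M j v) = ∑ B, (b.adjMat g B j.2 : ℂ) • ann M (j.1, B) (R.ρ g v) := by
  simp only [ann, LinearMap.add_apply, LinearMap.smul_apply, map_add, map_smul, rho_theta,
    smul_add, Finset.smul_sum, Finset.sum_add_distrib]
  congr 1
  exact Finset.sum_congr rfl fun B _ => smul_comm _ _ _

/-- A gauge transform of the vacuum is annihilated by the annihilators. -/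
theorem ann_rho (h : IsVac M Ω) (R : GaugeAction b M)
    (g : Matrix.specialUnitaryGroup (Fin N) ℂ) (j : Fin 8 × Fin (N ^ 2 - 1)) :
    ann M j (R.ρ g Ω) = 0 := by
  have h1 : ∀ A, ∑ B, (b.adjMat g B A : ℂ) • ann M (j.1, B) (R.ρ g Ω) = 0 := fun A => by
    rw [← rho_ann R g (j.1, A), h.ann, map_zero]
  have h2 : ∑ A, (b.adjMat g j.2 A : ℂ) • ∑ B, (b.adjMat g B A : ℂ) • ann M (j.1, B) (R.ρ g Ω) =
      ann M j (R.ρ g Ω) := by
    simp only [Finset.smul_sum, smul_smul]
    rw [Finset.sum_comm]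
    simp only [← Finset.sum_smul]
    have h3 : ∀ B, ∑ A, ((b.adjMat g j.2 A : ℂ) * (b.adjMat g B A : ℂ)) =
        if j.2 = B then 1 else 0 := fun B => orth_right (adjMat_orth b g) j.2 B
    simp only [h3]
    rw [Finset.sum_eq_single j.2]
    · rw [if_pos rfl, one_smul]
    · intro B _ hB
      rw [if_neg (Ne.symm hB), zero_smul]
    · intro h4
      exact absurd (Finset.mem_univ j.2) h4
  rw [← h2]
  exact Finset.sum_eq_zero fun A _ => by rw [h1, smul_zero]

theorem smul_vac_inj (h : IsVac M Ω) {a a' : ℂ} (h' : a • Ω = a' • Ω) : a = a' :=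
  smul_left_injective ℂ h.ne h'

/-- The character of the vacuum line. -/
def vacChar (h : IsVac M Ω) (R : GaugeAction b M) :
    Matrix.specialUnitaryGroup (Fin N) ℂ →* ℂ where
  toFun g := (h.line (ann_rho h R g)).choose
  map_one' := by
    refine smul_vac_inj h ?_
    rw [← (h.line (ann_rho h R 1)).choose_spec, map_one, one_smul]
    rfl
  map_mul' g g' := by
    refine smul_vac_inj h ?_
    rw [← (h.line (ann_rho h R (g * g'))).choose_spec, map_mul, mul_smul, smul_comm,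
      ← (h.line (ann_rho h R g)).choose_spec]
    show R.ρ g (R.ρ g' Ω) = _
    nth_rewrite 1 [(h.line (ann_rho h R g')).choose_spec]
    rw [map_smul]

theorem vacChar_spec (h : IsVac M Ω) (R : GaugeAction b M)
    (g : Matrix.specialUnitaryGroup (Fin N) ℂ) : R.ρ g Ω = vacChar h R g • Ω :=
  (h.line (ann_rho h R g)).choose_spec

/-- **The Fock vacuum is gauge invariant.** -/
theorem rho_vac (h : IsVac M Ω) (R : GaugeAction b M)
    (g : Matrix.specialUnitaryGroup (Fin N) ℂ) : R.ρ g Ω = Ω := by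
  rw [vacChar_spec h R, Char973.char_trivial, one_smul]

/-- **Every gauge action is the spin lift of the adjoint action.** -/
theorem rho_eq_lift (h : IsVac M Ω) (R : GaugeAction b M)
    (g : Matrix.specialUnitaryGroup (Fin N) ℂ) : R.ρ g = lift h (adjMat_orth b g) :=
  lift_unique h _ (rho_vac h R g) fun α A v => rho_theta R g α A v

theorem gaugeAction_eq (h : IsVac M Ω) (R : GaugeAction b M) : R = gaugeAction b h := by
  have h1 : R.ρ = (gaugeAction b h).ρ := MonoidHom.ext fun g => rho_eq_lift h R g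
  cases R
  simp only at h1
  subst h1
  rfl

/-- **The gauge action is unique.** -/
theorem gaugeAction_unique [Nontrivial F] (R R' : GaugeAction b M) : R = R' := by
  obtain ⟨Ω, h⟩ := exists_vac M
  rw [gaugeAction_eq h R, gaugeAction_eq h R']

instance [Nontrivial F] : Subsingleton (GaugeAction b M) := ⟨gaugeAction_unique⟩




end Crest.Agent.R330.GaugeUn973

end
end

-- ▼ part R330/Exist_973
section

/-!
# Row 330 (helper973): existence of the data

* `nonempty_colorBasis` : `Nonempty (ColorBasis N)` for every `N ≥ 1`.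
* `exists_fermionRep` : for every `N` there is a non-trivial finite-dimensional fermionic module
  (Jordan-Wigner).
* `exists_data` : every colour basis has a fermionic module and a gauge action.
-/

set_option autoImplicit false
set_option linter.unusedSectionVars false

noncomputable section

open scoped InnerProductSpace Matrix ComplexConjugate

namespace Crest.Agent.R330.Exist973

open Crest.MathPhysics.MatrixQM

/-! ### The colour basis -/

section colour

variable {N : ℕ}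

/-- The isometry of `ℝ^(N×N)` on Hermitian matrices. -/
def hmat (v : EuclideanSpace ℝ (Fin N × Fin N)) : Matrix (Fin N) (Fin N) ℂ := fun i j =>
  (1 + Complex.I) / 2 * (v (i, j) : ℂ) + (1 - Complex.I) / 2 * (v (j, i) : ℂ)

theorem hmat_herm (v : EuclideanSpace ℝ (Fin N × Fin N)) : (hmat v).IsHermitian := by
  ext i j
  rw [Matrix.conjTranspose_apply, hmat, hmat, Complex.star_def, map_add, map_mul, map_mul,
    Complex.conj_ofReal, Complex.conj_ofReal, map_div₀, map_div₀, map_add, map_sub, Complex.conj_I,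
    map_one, map_ofNat]
  ring

theorem hmat_trace (v : EuclideanSpace ℝ (Fin N × Fin N)) :
    (hmat v).trace = ((∑ i, v (i, i) : ℝ) : ℂ) := by
  rw [Matrix.trace]
  push_cast
  refine Finset.sum_congr rfl fun i _ => ?_
  rw [Matrix.diag_apply, hmat]
  ring

theorem hmat_inner (v w : EuclideanSpace ℝ (Fin N × Fin N)) :
    (hmat v * hmat w).trace = ((⟪v, w⟫_ℝ : ℝ) : ℂ) := by
  have h1 : ∀ f : Fin N → Fin N → ℂ, ∑ i, ∑ j, f i j = ∑ i, ∑ j, f j i := fun f =>
    Finset.sum_comm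
  rw [Matrix.trace, PiLp.inner_apply, Fintype.sum_prod_type]
  push_cast
  simp only [Matrix.diag_apply, Matrix.mul_apply, RCLike.inner_apply, conj_trivial, hmat,
    Complex.ofReal_mul]
  have h2 : ∀ i j : Fin N, ((1 + Complex.I) / 2 * (v (i, j) : ℂ) +
      (1 - Complex.I) / 2 * (v (j, i) : ℂ)) * ((1 + Complex.I) / 2 * (w (j, i) : ℂ) +
      (1 - Complex.I) / 2 * (w (i, j) : ℂ)) =
      (Complex.I / 2 * ((v (i, j) : ℂ) * (w (j, i) : ℂ)) +
        1 / 2 * ((w (i, j) : ℂ) * (v (i, j) : ℂ))) +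
      (1 / 2 * ((w (j, i) : ℂ) * (v (j, i) : ℂ)) -
        Complex.I / 2 * ((v (j, i) : ℂ) * (w (i, j) : ℂ))) := by
    intro i j
    have h3 := Complex.I_mul_I
    linear_combination ((v (i, j) : ℂ) * (w (j, i) : ℂ) / 4 - (v (i, j) : ℂ) * (w (i, j) : ℂ) / 4
      - (v (j, i) : ℂ) * (w (j, i) : ℂ) / 4 + (v (j, i) : ℂ) * (w (i, j) : ℂ) / 4) * h3
  simp only [h2, Finset.sum_add_distrib, Finset.sum_sub_distrib]
  rw [h1 (fun i j => 1 / 2 * ((w (j, i) : ℂ) * (v (j, i) : ℂ))),
    h1 (fun i j => Complex.I / 2 * ((v (j, i) : ℂ) * (w (i, j) : ℂ)))]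
  have h4 : ∀ x y : ℂ, x + y + (y - x) = 2 * y := fun x y => by ring
  rw [h4]
  simp only [Finset.mul_sum]
  refine Finset.sum_congr rfl fun i _ => Finset.sum_congr rfl fun j _ => ?_
  ring

/-- **Every `N ≥ 1` has a colour basis.** -/
theorem nonempty_colorBasis (hN : 1 ≤ N) : Nonempty (ColorBasis N) := by
  set E := EuclideanSpace ℝ (Fin N × Fin N)
  set δ : E := WithLp.toLp 2 (fun p : Fin N × Fin N => if p.1 = p.2 then (1 : ℝ) else 0) with hδ
  have hδ0 : δ ≠ 0 := by
    intro h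
    have h1 := congrArg (fun v : E => v (⟨0, hN⟩, ⟨0, hN⟩)) h
    simp [hδ] at h1
  have hfr : Module.finrank ℝ E = (N ^ 2 - 1) + 1 := by
    have h1 : 1 ≤ N ^ 2 := Nat.one_le_pow _ _ hN
    simp only [E, finrank_euclideanSpace, Fintype.card_prod, Fintype.card_fin]
    rw [← sq]
    omega
  have : Fact (Module.finrank ℝ E = (N ^ 2 - 1) + 1) := ⟨hfr⟩
  have hfr' : Module.finrank ℝ (ℝ ∙ δ)ᗮ = N ^ 2 - 1 := Submodule.finrank_orthogonal_span_singleton hδ0
  set e : OrthonormalBasis (Fin (N ^ 2 - 1)) ℝ (ℝ ∙ δ)ᗮ :=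
    (stdOrthonormalBasis ℝ (ℝ ∙ δ)ᗮ).reindex (finCongr hfr')
  refine ⟨{ T := fun A => hmat (e A : E), herm := fun A => hmat_herm _, traceless := fun A => ?_,
            orthonormal := fun A B => ?_ }⟩
  · rw [hmat_trace]
    have h1 : ⟪δ, (e A : E)⟫_ℝ = 0 :=
      Submodule.mem_orthogonal_singleton_iff_inner_right.1 (e A).2
    rw [PiLp.inner_apply, Fintype.sum_prod_type] at h1
    simp only [hδ, RCLike.inner_apply, conj_trivial, mul_ite, mul_one, mul_zero,
      Finset.sum_ite_eq, Finset.mem_univ, if_true] at h1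
    rw [h1, Complex.ofReal_zero]
  · rw [hmat_inner]
    have h1 : ⟪(e A : E), (e B : E)⟫_ℝ = ⟪e A, e B⟫_ℝ := rfl
    rw [h1, orthonormal_iff_ite.1 e.orthonormal A B]
    split_ifs <;> simp

end colour

/-! ### Jordan-Wigner -/

section jw

variable {F : Type} [NormedAddCommGroup F] [InnerProductSpace ℂ F]

/-- A family of CAR generators with a parity operator. -/
structure JW (I : Type) [DecidableEq I] (F : Type) [NormedAddCommGroup F]
    [InnerProductSpace ℂ F] where
  /-- the generators -/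
  c : I → F →ₗ[ℂ] F
  /-- the parity -/
  Γ : F →ₗ[ℂ] F
  c_symm : ∀ i, (c i).IsSymmetric
  Γ_symm : Γ.IsSymmetric
  anti : ∀ i j v, c i (c j v) + c j (c i v) = if i = j then v else 0
  Γ_sq : ∀ v, Γ (Γ v) = v
  Γ_anti : ∀ i v, Γ (c i v) = -c i (Γ v)
  irr : ∀ W : Submodule ℂ F, (∀ i, ∀ v ∈ W, c i v ∈ W) → W = ⊥ ∨ W = ⊤

/-- The doubled space. -/
abbrev Dbl (F : Type) := WithLp 2 (F × F)

/-- Linear maps of the doubled space. -/
def dmap (T : F × F →ₗ[ℂ] F × F) : Dbl F →ₗ[ℂ] Dbl F :=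
  (WithLp.linearEquiv 2 ℂ (F × F)).symm.toLinearMap ∘ₗ T ∘ₗ
    (WithLp.linearEquiv 2 ℂ (F × F)).toLinearMap


/-- The factor `1/√2`. -/
def s2 : ℝ := (Real.sqrt 2)⁻¹

theorem s2_sq : (s2 : ℂ) * (s2 : ℂ) = 1 / 2 := by
  rw [← Complex.ofReal_mul, s2, ← mul_inv, Real.mul_self_sqrt (by norm_num)]
  norm_num

/-- The new generators. -/
def newc (Γ : F →ₗ[ℂ] F) : Bool → (F × F →ₗ[ℂ] F × F)
  | false => (s2 : ℂ) • LinearMap.prod (Γ ∘ₗ LinearMap.snd ℂ F F) (Γ ∘ₗ LinearMap.fst ℂ F F)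
  | true => (s2 : ℂ) • LinearMap.prod ((-Complex.I) • (Γ ∘ₗ LinearMap.snd ℂ F F))
      (Complex.I • (Γ ∘ₗ LinearMap.fst ℂ F F))



theorem dext {v w : Dbl F} (h1 : (WithLp.ofLp v).1 = (WithLp.ofLp w).1)
    (h2 : (WithLp.ofLp v).2 = (WithLp.ofLp w).2) : v = w :=
  WithLp.ofLp_injective 2 (Prod.ext h1 h2)

/-- Generators of the doubled module. -/
def dc {I : Type} [DecidableEq I] (X : JW I F) : I ⊕ Bool → Dbl F →ₗ[ℂ] Dbl F
  | Sum.inl i => dmap (LinearMap.prodMap (X.c i) (X.c i))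
  | Sum.inr t => dmap (newc X.Γ t)

section comp

variable {I : Type} [DecidableEq I] (X : JW I F) (v : Dbl F)

theorem dc_inl_fst (i : I) : (WithLp.ofLp (dc X (Sum.inl i) v)).1 = X.c i (WithLp.ofLp v).1 := rfl
theorem dc_inl_snd (i : I) : (WithLp.ofLp (dc X (Sum.inl i) v)).2 = X.c i (WithLp.ofLp v).2 := rfl
theorem dc_f_fst : (WithLp.ofLp (dc X (Sum.inr false) v)).1 =
    (s2 : ℂ) • X.Γ (WithLp.ofLp v).2 := rfl
theorem dc_f_snd : (WithLp.ofLp (dc X (Sum.inr false) v)).2 =
    (s2 : ℂ) • X.Γ (WithLp.ofLp v).1 := rfl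
theorem dc_t_fst : (WithLp.ofLp (dc X (Sum.inr true) v)).1 =
    (s2 : ℂ) • (-Complex.I) • X.Γ (WithLp.ofLp v).2 := rfl
theorem dc_t_snd : (WithLp.ofLp (dc X (Sum.inr true) v)).2 =
    (s2 : ℂ) • Complex.I • X.Γ (WithLp.ofLp v).1 := rfl
theorem dG_fst : (WithLp.ofLp (dmap (LinearMap.prodMap X.Γ (-X.Γ)) v)).1 =
    X.Γ (WithLp.ofLp v).1 := rfl
theorem dG_snd : (WithLp.ofLp (dmap (LinearMap.prodMap X.Γ (-X.Γ)) v)).2 =
    -X.Γ (WithLp.ofLp v).2 := rfl

end comp

/-- One Jordan-Wigner step. -/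
def step {I : Type} [DecidableEq I] (X : JW I F) : JW (I ⊕ Bool) (Dbl F) where
  c := dc X
  Γ := dmap (LinearMap.prodMap X.Γ (-X.Γ))
  c_symm := by
    rintro (i | _ | _) v w
    · rw [WithLp.prod_inner_apply, WithLp.prod_inner_apply, dc_inl_fst, dc_inl_snd, dc_inl_fst,
        dc_inl_snd, X.c_symm i, X.c_symm i]
    · rw [WithLp.prod_inner_apply, WithLp.prod_inner_apply, dc_f_fst, dc_f_snd, dc_f_fst, dc_f_snd,
        inner_smul_left, inner_smul_right, inner_smul_left, inner_smul_right, X.Γ_symm, X.Γ_symm,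
        Complex.conj_ofReal, add_comm]
    · rw [WithLp.prod_inner_apply, WithLp.prod_inner_apply, dc_t_fst, dc_t_snd, dc_t_fst, dc_t_snd]
      simp only [inner_smul_left, inner_smul_right, Complex.conj_ofReal, map_neg, Complex.conj_I,
        neg_neg]
      rw [X.Γ_symm, X.Γ_symm]
      ring
  Γ_symm := by
    intro v w
    rw [WithLp.prod_inner_apply, WithLp.prod_inner_apply, dG_fst, dG_snd, dG_fst, dG_snd,
      inner_neg_left, inner_neg_right, X.Γ_symm, X.Γ_symm]
  anti := by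
    have h2 : ∀ v : F, (s2 : ℂ) • (s2 : ℂ) • v + (s2 : ℂ) • (s2 : ℂ) • v = v := fun v => by
      rw [smul_smul, ← add_smul, s2_sq]
      norm_num
    have h3 : ∀ i v, X.Γ (X.c i v) = -X.c i (X.Γ v) := X.Γ_anti
    rintro (i | _ | _) (j | _ | _) v
    · by_cases hij : i = j
      · subst hij
        rw [if_pos rfl]
        refine dext ?_ ?_
        · show X.c i (X.c i (WithLp.ofLp v).1) + X.c i (X.c i (WithLp.ofLp v).1) = _
          rw [X.anti, if_pos rfl]
        · show X.c i (X.c i (WithLp.ofLp v).2) + X.c i (X.c i (WithLp.ofLp v).2) = _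
          rw [X.anti, if_pos rfl]
      · rw [if_neg (fun h => hij (Sum.inl_injective h))]
        refine dext ?_ ?_
        · show X.c i (X.c j (WithLp.ofLp v).1) + X.c j (X.c i (WithLp.ofLp v).1) = 0
          rw [X.anti, if_neg hij]
        · show X.c i (X.c j (WithLp.ofLp v).2) + X.c j (X.c i (WithLp.ofLp v).2) = 0
          rw [X.anti, if_neg hij]
    · rw [if_neg Sum.inl_ne_inr]
      refine dext ?_ ?_
      · show X.c i ((s2 : ℂ) • X.Γ (WithLp.ofLp v).2) + (s2 : ℂ) • X.Γ (X.c i (WithLp.ofLp v).2) = 0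
        rw [map_smul, h3, smul_neg, add_neg_cancel]
      · show X.c i ((s2 : ℂ) • X.Γ (WithLp.ofLp v).1) + (s2 : ℂ) • X.Γ (X.c i (WithLp.ofLp v).1) = 0
        rw [map_smul, h3, smul_neg, add_neg_cancel]
    · rw [if_neg Sum.inl_ne_inr]
      refine dext ?_ ?_
      · show X.c i ((s2 : ℂ) • (-Complex.I) • X.Γ (WithLp.ofLp v).2) +
          (s2 : ℂ) • (-Complex.I) • X.Γ (X.c i (WithLp.ofLp v).2) = 0
        rw [map_smul, map_smul, h3, smul_neg, smul_neg, add_neg_cancel]
      · show X.c i ((s2 : ℂ) • Complex.I • X.Γ (WithLp.ofLp v).1) +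
          (s2 : ℂ) • Complex.I • X.Γ (X.c i (WithLp.ofLp v).1) = 0
        rw [map_smul, map_smul, h3, smul_neg, smul_neg, add_neg_cancel]
    · rw [if_neg Sum.inr_ne_inl]
      refine dext ?_ ?_
      · show (s2 : ℂ) • X.Γ (X.c j (WithLp.ofLp v).2) + X.c j ((s2 : ℂ) • X.Γ (WithLp.ofLp v).2) = 0
        rw [map_smul, h3, smul_neg, neg_add_cancel]
      · show (s2 : ℂ) • X.Γ (X.c j (WithLp.ofLp v).1) + X.c j ((s2 : ℂ) • X.Γ (WithLp.ofLp v).1) = 0
        rw [map_smul, h3, smul_neg, neg_add_cancel]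
    · rw [if_pos rfl]
      refine dext ?_ ?_
      · show (s2 : ℂ) • X.Γ ((s2 : ℂ) • X.Γ (WithLp.ofLp v).1) +
          (s2 : ℂ) • X.Γ ((s2 : ℂ) • X.Γ (WithLp.ofLp v).1) = _
        rw [map_smul, X.Γ_sq, h2]
      · show (s2 : ℂ) • X.Γ ((s2 : ℂ) • X.Γ (WithLp.ofLp v).2) +
          (s2 : ℂ) • X.Γ ((s2 : ℂ) • X.Γ (WithLp.ofLp v).2) = _
        rw [map_smul, X.Γ_sq, h2]
    · rw [if_neg (fun h => Bool.noConfusion (Sum.inr_injective h))]
      refine dext ?_ ?_
      · show (s2 : ℂ) • X.Γ ((s2 : ℂ) • Complex.I • X.Γ (WithLp.ofLp v).1) +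
          (s2 : ℂ) • (-Complex.I) • X.Γ ((s2 : ℂ) • X.Γ (WithLp.ofLp v).1) = 0
        simp only [map_smul, X.Γ_sq, neg_smul, smul_neg]
        rw [smul_comm Complex.I (s2 : ℂ), add_neg_cancel]
      · show (s2 : ℂ) • X.Γ ((s2 : ℂ) • (-Complex.I) • X.Γ (WithLp.ofLp v).2) +
          (s2 : ℂ) • Complex.I • X.Γ ((s2 : ℂ) • X.Γ (WithLp.ofLp v).2) = 0
        simp only [map_smul, X.Γ_sq, neg_smul, smul_neg, map_neg]
        rw [smul_comm Complex.I (s2 : ℂ), neg_add_cancel]
    · rw [if_neg Sum.inr_ne_inl]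
      refine dext ?_ ?_
      · show (s2 : ℂ) • (-Complex.I) • X.Γ (X.c j (WithLp.ofLp v).2) +
          X.c j ((s2 : ℂ) • (-Complex.I) • X.Γ (WithLp.ofLp v).2) = 0
        rw [map_smul, map_smul, h3, smul_neg, smul_neg, neg_add_cancel]
      · show (s2 : ℂ) • Complex.I • X.Γ (X.c j (WithLp.ofLp v).1) +
          X.c j ((s2 : ℂ) • Complex.I • X.Γ (WithLp.ofLp v).1) = 0
        rw [map_smul, map_smul, h3, smul_neg, smul_neg, neg_add_cancel]
    · rw [if_neg (fun h => Bool.noConfusion (Sum.inr_injective h))]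
      refine dext ?_ ?_
      · show (s2 : ℂ) • (-Complex.I) • X.Γ ((s2 : ℂ) • X.Γ (WithLp.ofLp v).1) +
          (s2 : ℂ) • X.Γ ((s2 : ℂ) • Complex.I • X.Γ (WithLp.ofLp v).1) = 0
        simp only [map_smul, X.Γ_sq, neg_smul, smul_neg]
        rw [smul_comm Complex.I (s2 : ℂ), neg_add_cancel]
      · show (s2 : ℂ) • Complex.I • X.Γ ((s2 : ℂ) • X.Γ (WithLp.ofLp v).2) +
          (s2 : ℂ) • X.Γ ((s2 : ℂ) • (-Complex.I) • X.Γ (WithLp.ofLp v).2) = 0
        simp only [map_smul, X.Γ_sq, neg_smul, smul_neg, map_neg]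
        rw [smul_comm Complex.I (s2 : ℂ), add_neg_cancel]
    · rw [if_pos rfl]
      have h4 : ∀ v : F, (-Complex.I) • Complex.I • v = v := fun v => by
        rw [smul_smul, neg_mul, Complex.I_mul_I, neg_neg, one_smul]
      have h5 : ∀ v : F, Complex.I • (-Complex.I) • v = v := fun v => by
        rw [smul_smul, mul_neg, Complex.I_mul_I, neg_neg, one_smul]
      refine dext ?_ ?_
      · show (s2 : ℂ) • (-Complex.I) • X.Γ ((s2 : ℂ) • Complex.I • X.Γ (WithLp.ofLp v).1) +
          (s2 : ℂ) • (-Complex.I) • X.Γ ((s2 : ℂ) • Complex.I • X.Γ (WithLp.ofLp v).1) = _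
        rw [map_smul, map_smul, X.Γ_sq, smul_comm (-Complex.I) (s2 : ℂ), h4, h2]
      · show (s2 : ℂ) • Complex.I • X.Γ ((s2 : ℂ) • (-Complex.I) • X.Γ (WithLp.ofLp v).2) +
          (s2 : ℂ) • Complex.I • X.Γ ((s2 : ℂ) • (-Complex.I) • X.Γ (WithLp.ofLp v).2) = _
        rw [map_smul, map_smul, X.Γ_sq, smul_comm Complex.I (s2 : ℂ), h5, h2]
  Γ_sq := by
    intro v
    refine dext ?_ ?_
    · rw [dG_fst, dG_fst, X.Γ_sq]
    · rw [dG_snd, dG_snd, map_neg, X.Γ_sq, neg_neg]
  Γ_anti := by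
    rintro (i | _ | _) v
    · refine dext ?_ ?_
      · show X.Γ (X.c i (WithLp.ofLp v).1) = -X.c i (X.Γ (WithLp.ofLp v).1)
        rw [X.Γ_anti]
      · show -X.Γ (X.c i (WithLp.ofLp v).2) = -X.c i (-X.Γ (WithLp.ofLp v).2)
        rw [X.Γ_anti, map_neg]
    · refine dext ?_ ?_
      · show X.Γ ((s2 : ℂ) • X.Γ (WithLp.ofLp v).2) = -((s2 : ℂ) • X.Γ (-X.Γ (WithLp.ofLp v).2))
        rw [map_smul, map_neg, smul_neg, neg_neg]
      · show -X.Γ ((s2 : ℂ) • X.Γ (WithLp.ofLp v).1) = -((s2 : ℂ) • X.Γ (X.Γ (WithLp.ofLp v).1))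
        rw [map_smul]
    · refine dext ?_ ?_
      · show X.Γ ((s2 : ℂ) • (-Complex.I) • X.Γ (WithLp.ofLp v).2) =
          -((s2 : ℂ) • (-Complex.I) • X.Γ (-X.Γ (WithLp.ofLp v).2))
        rw [map_smul, map_smul, map_neg, smul_neg, smul_neg, neg_neg]
      · show -X.Γ ((s2 : ℂ) • Complex.I • X.Γ (WithLp.ofLp v).1) =
          -((s2 : ℂ) • Complex.I • X.Γ (X.Γ (WithLp.ofLp v).1))
        rw [map_smul, map_smul]
  irr := by
    intro W hW
    -- the two projections preserve `W`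
    have hs : (s2 : ℂ) * s2 = 1 / 2 := s2_sq
    have hσ : ∀ v ∈ W, (WithLp.toLp 2 ((WithLp.ofLp v).1, -(WithLp.ofLp v).2) : Dbl F) ∈ W := by
      intro v hv
      have h1 := hW (Sum.inr true) _ (hW (Sum.inr false) v hv)
      have h2 := W.smul_mem (2 * Complex.I) h1
      convert h2 using 1
      refine dext ?_ ?_
      · show (WithLp.ofLp v).1 =
          (2 * Complex.I) • (s2 : ℂ) • (-Complex.I) • X.Γ ((s2 : ℂ) • X.Γ (WithLp.ofLp v).1)
        rw [map_smul, X.Γ_sq]
        simp only [smul_smul]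
        have h3 : 2 * Complex.I * (s2 : ℂ) * -Complex.I * (s2 : ℂ) = 1 := by
          linear_combination (-2 * (s2 : ℂ) * (s2 : ℂ)) * Complex.I_mul_I + 2 * hs
        have h4 : 2 * Complex.I * ((s2 : ℂ) * (-Complex.I * (s2 : ℂ))) = 1 := by
          rw [← h3]; ring
        rw [h4, one_smul]
      · show -(WithLp.ofLp v).2 =
          (2 * Complex.I) • (s2 : ℂ) • Complex.I • X.Γ ((s2 : ℂ) • X.Γ (WithLp.ofLp v).2)
        rw [map_smul, X.Γ_sq]
        simp only [smul_smul]
        have h4 : 2 * Complex.I * ((s2 : ℂ) * (Complex.I * (s2 : ℂ))) = -1 := by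
          linear_combination (2 * (s2 : ℂ) * (s2 : ℂ)) * Complex.I_mul_I - 2 * hs
        rw [h4, neg_one_smul]
    have hp1 : ∀ v ∈ W, (WithLp.toLp 2 ((WithLp.ofLp v).1, (0 : F)) : Dbl F) ∈ W := by
      intro v hv
      have h1 := W.smul_mem (1 / 2 : ℂ) (W.add_mem hv (hσ v hv))
      convert h1 using 1
      refine dext ?_ ?_
      · show (WithLp.ofLp v).1 = (1 / 2 : ℂ) • ((WithLp.ofLp v).1 + (WithLp.ofLp v).1)
        rw [smul_add, ← add_smul]
        norm_num
      · show (0 : F) = (1 / 2 : ℂ) • ((WithLp.ofLp v).2 + -(WithLp.ofLp v).2)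
        rw [add_neg_cancel, smul_zero]
    have hp2 : ∀ v ∈ W, (WithLp.toLp 2 ((0 : F), (WithLp.ofLp v).2) : Dbl F) ∈ W := by
      intro v hv
      have h1 := W.sub_mem hv (hp1 v hv)
      convert h1 using 1
      refine dext ?_ ?_
      · show (0 : F) = (WithLp.ofLp v).1 - (WithLp.ofLp v).1
        rw [sub_self]
      · show (WithLp.ofLp v).2 = (WithLp.ofLp v).2 - 0
        rw [sub_zero]
    -- the first components
    set W1 : Submodule ℂ F :=
      { carrier := {x | (WithLp.toLp 2 (x, (0 : F)) : Dbl F) ∈ W}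
        add_mem' := fun {x y} hx hy => by
          have h1 := W.add_mem hx hy
          show (WithLp.toLp 2 (x + y, (0 : F)) : Dbl F) ∈ W
          convert h1 using 1
          refine dext rfl ?_
          show (0 : F) = 0 + 0
          rw [add_zero]
        zero_mem' := by
          have h1 := W.zero_mem
          show (WithLp.toLp 2 ((0 : F), (0 : F)) : Dbl F) ∈ W
          convert h1 using 1
          exact dext rfl rfl
        smul_mem' := fun a x hx => by
          have h1 := W.smul_mem a hx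
          show (WithLp.toLp 2 (a • x, (0 : F)) : Dbl F) ∈ W
          convert h1 using 1
          refine dext rfl ?_
          show (0 : F) = a • (0 : F)
          rw [smul_zero] } with hW1
    have hswap : ∀ x : F, (WithLp.toLp 2 ((0 : F), x) : Dbl F) ∈ W → X.Γ x ∈ W1 := by
      intro x hx
      have h1 := hW (Sum.inr false) _ hx
      have h2 := W.smul_mem (2 * (s2 : ℂ)) h1
      show (WithLp.toLp 2 (X.Γ x, (0 : F)) : Dbl F) ∈ W
      convert h2 using 1
      refine dext ?_ ?_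
      · show X.Γ x = (2 * (s2 : ℂ)) • (s2 : ℂ) • X.Γ x
        rw [smul_smul, mul_assoc, hs]
        norm_num
      · show (0 : F) = (2 * (s2 : ℂ)) • (s2 : ℂ) • X.Γ (0 : F)
        rw [map_zero, smul_zero, smul_zero]
    have hswap' : ∀ x : F, x ∈ W1 → (WithLp.toLp 2 ((0 : F), X.Γ x) : Dbl F) ∈ W := by
      intro x hx
      have h1 := hW (Sum.inr false) _ hx
      have h2 := W.smul_mem (2 * (s2 : ℂ)) h1
      convert h2 using 1
      refine dext ?_ ?_
      · show (0 : F) = (2 * (s2 : ℂ)) • (s2 : ℂ) • X.Γ (0 : F)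
        rw [map_zero, smul_zero, smul_zero]
      · show X.Γ x = (2 * (s2 : ℂ)) • (s2 : ℂ) • X.Γ x
        rw [smul_smul, mul_assoc, hs]
        norm_num
    rcases X.irr W1 (fun i x hx => by
      have h1 := hW (Sum.inl i) _ hx
      show (WithLp.toLp 2 (X.c i x, (0 : F)) : Dbl F) ∈ W
      convert h1 using 1
      refine dext rfl ?_
      show (0 : F) = X.c i 0
      rw [map_zero]) with h | h
    · left
      rw [Submodule.eq_bot_iff]
      intro v hv
      have h1 : (WithLp.ofLp v).1 ∈ W1 := hp1 v hv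
      rw [h, Submodule.mem_bot] at h1
      have h2 : X.Γ (WithLp.ofLp v).2 ∈ W1 := hswap _ (hp2 v hv)
      rw [h, Submodule.mem_bot] at h2
      refine dext h1 ?_
      have h3 := X.Γ_sq (WithLp.ofLp v).2
      rw [h2, map_zero] at h3
      exact h3.symm
    · right
      rw [Submodule.eq_top_iff']
      intro v
      have h1 : (WithLp.ofLp v).1 ∈ W1 := by rw [h]; trivial
      have h2 : X.Γ (WithLp.ofLp v).2 ∈ W1 := by rw [h]; trivial
      have h3 := hswap' _ h2
      rw [X.Γ_sq] at h3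
      have h4 := W.add_mem h1 h3
      convert h4 using 1
      refine dext ?_ ?_
      · show (WithLp.ofLp v).1 = (WithLp.ofLp v).1 + 0
        rw [add_zero]
      · show (WithLp.ofLp v).2 = 0 + (WithLp.ofLp v).2
        rw [zero_add]

/-- The trivial family on `ℂ`. -/
def triv : JW Empty ℂ where
  c := fun i => i.elim
  Γ := LinearMap.id
  c_symm := fun i => i.elim
  Γ_symm := fun _ _ => rfl
  anti := fun i => i.elim
  Γ_sq := fun _ => rfl
  Γ_anti := fun i => i.elim
  irr := fun W _ => by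
    have h1 : Module.finrank ℂ ℂ = 1 := Module.finrank_self ℂ
    rcases eq_bot_or_bot_lt W with h | h
    · exact Or.inl h
    · right
      obtain ⟨v, hv, hv0⟩ := Submodule.exists_mem_ne_zero_of_ne_bot h.ne'
      rw [Submodule.eq_top_iff']
      intro x
      have h2 := W.smul_mem (x / v) hv
      rwa [smul_eq_mul, div_mul_cancel₀ x hv0] at h2

/-- Relabelling. -/
def JW.relabel {I I' : Type} [DecidableEq I] [DecidableEq I'] (X : JW I F) (e : I' ≃ I) :
    JW I' F where
  c := fun i => X.c (e i)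
  Γ := X.Γ
  c_symm := fun i => X.c_symm _
  Γ_symm := X.Γ_symm
  anti := fun i j v => by
    rw [X.anti]
    simp only [e.injective.eq_iff]
  Γ_sq := X.Γ_sq
  Γ_anti := fun i => X.Γ_anti _
  irr := fun W hW => X.irr W fun i v hv => by
    have h1 := hW (e.symm i) v hv
    rwa [e.apply_symm_apply] at h1

theorem exists_jw (n : ℕ) : ∃ (F : Type) (_ : NormedAddCommGroup F) (_ : InnerProductSpace ℂ F)
    (_ : FiniteDimensional ℂ F) (_ : Nontrivial F), Nonempty (JW (Fin n × Bool) F) := by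
  induction n with
  | zero =>
    exact ⟨ℂ, inferInstance, inferInstance, inferInstance, inferInstance,
      ⟨triv.relabel (Equiv.equivOfIsEmpty _ _)⟩⟩
  | succ n ih =>
    obtain ⟨F, i1, i2, i3, i4, ⟨X⟩⟩ := ih
    have h1 : Fintype.card (Fin (n + 1) × Bool) = Fintype.card ((Fin n × Bool) ⊕ Bool) := by
      simp only [Fintype.card_prod, Fintype.card_sum, Fintype.card_fin, Fintype.card_bool]
      ring
    exact ⟨Dbl F, inferInstance, inferInstance, inferInstance, inferInstance,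
      ⟨(step X).relabel (Fintype.equivOfCardEq h1)⟩⟩

/-- **For every finite index set of even cardinality there is an irreducible module.** -/
theorem exists_jw_of_card (I : Type) [Fintype I] [DecidableEq I] {n : ℕ}
    (hI : Fintype.card I = 2 * n) : ∃ (F : Type) (_ : NormedAddCommGroup F)
    (_ : InnerProductSpace ℂ F) (_ : FiniteDimensional ℂ F) (_ : Nontrivial F),
    Nonempty (JW I F) := by
  obtain ⟨F, i1, i2, i3, i4, ⟨X⟩⟩ := exists_jw n
  have h1 : Fintype.card I = Fintype.card (Fin n × Bool) := by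
    rw [hI, Fintype.card_prod, Fintype.card_fin, Fintype.card_bool, mul_comm]
  exact ⟨F, i1, i2, i3, i4, ⟨X.relabel (Fintype.equivOfCardEq h1)⟩⟩

/-- **Existence of the fermionic module** for every `N`. -/
theorem exists_fermionRep (N : ℕ) : ∃ (F : Type) (_ : NormedAddCommGroup F)
    (_ : InnerProductSpace ℂ F) (_ : FiniteDimensional ℂ F) (_ : Nontrivial F),
    Nonempty (FermionRep N F) := by
  obtain ⟨F, i1, i2, i3, i4, ⟨X⟩⟩ := exists_jw_of_card (Fin 16 × Fin (N ^ 2 - 1))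
    (n := 8 * (N ^ 2 - 1)) (by
      rw [Fintype.card_prod, Fintype.card_fin, Fintype.card_fin]
      ring)
  refine ⟨F, i1, i2, i3, i4, ⟨{ θ := fun α A => X.c (α, A)
                                selfAdjoint := fun α A => X.c_symm _
                                anticomm := fun α A β B => ?_
                                irreducible := fun W hW => ?_ }⟩⟩
  · refine LinearMap.ext fun v => ?_
    have h1 := X.anti (α, A) (β, B) v
    rw [LinearMap.add_apply, LinearMap.comp_apply, LinearMap.comp_apply, h1]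
    simp only [Prod.mk.injEq]
    split_ifs <;> rfl
  · exact X.irr W fun i v hv => hW i.1 i.2 v hv

/-- **Existence of the data** over a colour basis. -/
theorem exists_data {N : ℕ} (b : ColorBasis N) : ∃ (F : Type) (_ : NormedAddCommGroup F)
    (_ : InnerProductSpace ℂ F) (_ : FiniteDimensional ℂ F) (_ : Nontrivial F)
    (M : FermionRep N F), Nonempty (GaugeAction b M) := by
  obtain ⟨F, i1, i2, i3, i4, ⟨M⟩⟩ := exists_fermionRep N
  exact ⟨F, i1, i2, i3, i4, M, GaugeEx973.nonempty_gaugeAction b M⟩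

end jw

end Crest.Agent.R330.Exist973

end
end

-- ▼ part R330/PsiDef_477

/-!
# Row 330, S8-PSI (helper477): the literal block state, definitions

* `LinkCov C k bn ε` : the gauge transformations between regular positions permute the blocks and
  act inside the blocks; every block gauge transformation is one of them.
* `Fml bn Mn Rn G k` : small data indexed by the size: reference vacua `Ω`, ground states `ψ`,
  approximants `φ g` with 915's `Fam`, constants `C`, `g0`; `exists_fml`.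
* `Fml.D` : the block data; `Fml.Psi T ε ho g u` : **the block state**; `Fml.s` : its radius.
* `Fml.Psi_iB`, `Fml.Psi_iBe` : on the block part it is `BD.psi`.
* `Link.qblkB_iBe` : the block charges of functions on `C.Blk`.
-/

set_option autoImplicit false
set_option linter.unusedSectionVars false

open MeasureTheory Filter Topology Crest.MathPhysics.MatrixQM
open scoped ContDiff InnerProductSpace ENNReal

noncomputable section

namespace Crest.Agent.R330.Psi477

open Crest.Agent.R330.Cliff442 Crest.Agent.R330.Fact161 Crest.Agent.R330.FactI161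
open Crest.Agent.R330.Bind6839 Crest.Agent.R330.Defs478 Crest.Agent.R330.SInd478
open Crest.Agent.R330.Pkg915 Crest.Agent.R330.LS839 Crest.Agent.R330.TDef414
open Crest.Agent.R330.Frame839 Crest.Agent.R330.IBP837 Crest.Agent.R330.TCore944
open Crest.Agent.R330.Stab2973 (castV castY)

variable {N p : ℕ} {b : ColorBasis N} {S : Type} [Group S] [Fintype S]
  {κ : Type*} [Fintype κ] [DecidableEq κ] {k : κ → ℕ}

/-- Gauge transformations between regular positions, in the blocks. -/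
structure LinkCov (C : Chn b p S) (k : κ → ℕ) (bn : ∀ n, ColorBasis n)
    (ε : ∀ q, Colg (k q) →ₗᵢ[ℝ] Colg N) : Prop where
  /-- every gauge transformation between regular positions permutes blocks of equal sizes and acts
  by `SU(k q)` inside -/
  cov : ∀ (h : Matrix.specialUnitaryGroup (Fin N) ℂ) (X X' : Pos p), C.Reg X → C.Reg X' →
    b.act h (C.cf X) = C.cf X' → ∃ (σ : Equiv.Perm κ) (hσ : ∀ q, k (σ q) = k q)
      (a : ∀ q, Matrix.specialUnitaryGroup (Fin (k q)) ℂ), ∀ q (u : Colg (k q)),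
        adC b h (ε q u) = ε (σ q) (castV (hσ q).symm (adC (bn (k q)) (a q) u))
  /-- every gauge transformation of a block fixes the positions and the other blocks -/
  iota : ∀ q (a : Matrix.specialUnitaryGroup (Fin (k q)) ℂ),
    ∃ h : Matrix.specialUnitaryGroup (Fin N) ℂ, (∀ X, b.act h (C.cf X) = C.cf X) ∧
      (∀ u, adC b h (ε q u) = ε q (adC (bn (k q)) a u)) ∧
      ∀ q', q' ≠ q → ∀ u, adC b h (ε q' u) = ε q' u

variable {Fn : ℕ → Type} [∀ n, NormedAddCommGroup (Fn n)] [∀ n, InnerProductSpace ℂ (Fn n)]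
  [∀ n, FiniteDimensional ℂ (Fn n)]

/-- The small data, indexed by the size of the block. -/
structure Fml (bn : ∀ n, ColorBasis n) (Mn : ∀ n, FermionRep n (Fn n))
    (Rn : ∀ n, GaugeAction (bn n) (Mn n)) (G : GammaNine) (k : κ → ℕ) where
  /-- reference vacua -/
  Ω : ∀ n, Fn n
  isv : ∀ n, IsGVac (Mn n) G (Ω n)
  nm : ∀ n, ‖Ω n‖ = 1
  /-- ground states -/
  ψ : ∀ n, Cfg n → Fn n
  ground : ∀ q, Ground (bn (k q)) (Mn (k q)) (Rn (k q)) G (ψ (k q))
  /-- approximants at coupling `g` -/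
  φ : ℝ → ∀ n, Cfg n → Fn n
  /-- constant -/
  K : ℝ
  /-- first coupling -/
  g0 : ℝ
  hK : 0 < K
  hg0 : 1 ≤ g0
  fam : ∀ g, g0 ≤ g → ∀ q, Fam (bn (k q)) (Rn (k q)) G (ψ (k q)) K g (φ g (k q))

variable {bn : ∀ n, ColorBasis n} {Mn : ∀ n, FermionRep n (Fn n)}
  {Rn : ∀ n, GaugeAction (bn n) (Mn n)} {G : GammaNine}

theorem fam_mono {N : ℕ} {F : Type*} [NormedAddCommGroup F] [InnerProductSpace ℂ F]
    [FiniteDimensional ℂ F] {b : ColorBasis N} {M : FermionRep N F} {R : GaugeAction b M}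
    {ψ φ : Cfg N → F} {C C' g : ℝ} (hg : 0 ≤ g) (h : Fam b R G ψ C g φ) (hC : C ≤ C') :
    Fam b R G ψ C' g φ where
  core := h.core
  supp := h.supp
  even := h.even
  norm := h.norm
  err := h.err.trans (by gcongr)
  mom2 := h.mom2.trans (by gcongr)
  mom4 := h.mom4.trans (by gcongr)
  q0 := h.q0.trans (by gcongr)
  qm m := (h.qm m).trans (by gcongr)
  grad0 := h.grad0.trans (by gcongr)
  grad2 := h.grad2.trans hC

/-- **The small data exist** as soon as there are ground states for all sizes of the blocks. -/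
theorem exists_fml [∀ n, Nontrivial (Fn n)] (bn : ∀ n, ColorBasis n)
    (Mn : ∀ n, FermionRep n (Fn n)) (Rn : ∀ n, GaugeAction (bn n) (Mn n)) (G : GammaNine)
    (k : κ → ℕ) (hS : ∀ q, SInd (k q)) : Nonempty (Fml bn Mn Rn G k) := by
  classical
  have h1 : ∀ n, ∃ Ω : Fn n, ‖Ω‖ = 1 ∧ IsGVac (Mn n) G Ω := fun n => exists_gvac (Mn n) G
  choose Ω hΩ1 hΩ2 using h1
  have h2 : ∀ n, ∃ ψ : Cfg n → Fn n, (∃ q, k q = n) → Ground (bn n) (Mn n) (Rn n) G ψ := by
    intro n
    by_cases hn : ∃ q, k q = n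
    · obtain ⟨q, rfl⟩ := hn
      obtain ⟨ψ, hψ⟩ := hS q (Fn (k q)) (bn (k q)) (Mn (k q)) (Rn (k q)) G
      exact ⟨ψ, fun _ => hψ⟩
    · exact ⟨0, fun h => absurd h hn⟩
  choose ψ hψ using h2
  have h3 : ∀ n, ∃ (C g₀ : ℝ), 0 < C ∧ 1 ≤ g₀ ∧ ∀ g, g₀ ≤ g → ∃ φ : Cfg n → Fn n,
      (∃ q, k q = n) → Fam (bn n) (Rn n) G (ψ n) C g φ := by
    intro n
    by_cases hn : ∃ q, k q = n
    · obtain ⟨C, g₀, hC, hg, hf⟩ := ground_family (hψ n hn)
      refine ⟨C, g₀, hC, hg, fun g hgg => ?_⟩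
      obtain ⟨φ, hφ⟩ := hf g hgg
      exact ⟨φ, fun _ => hφ⟩
    · exact ⟨1, 1, one_pos, le_rfl, fun g _ => ⟨0, fun h => absurd h hn⟩⟩
  choose C g₀ hC hg₀ hf using h3
  have h4 : ∀ (g : ℝ) (n : ℕ), ∃ φ : Cfg n → Fn n, g₀ n ≤ g → (∃ q, k q = n) →
      Fam (bn n) (Rn n) G (ψ n) (C n) g φ := by
    intro g n
    by_cases hg : g₀ n ≤ g
    · obtain ⟨φ, hφ⟩ := hf n g hg
      exact ⟨φ, fun _ => hφ⟩
    · exact ⟨0, fun h => absurd h hg⟩
  choose φ hφ using h4
  refine ⟨⟨Ω, hΩ2, hΩ1, ψ, fun q => hψ _ ⟨q, rfl⟩, φ, 1 + ∑ q, C (k q), 1 + ∑ q, g₀ (k q), ?_, ?_,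
    fun g hg q => ?_⟩⟩
  · have := Finset.sum_nonneg fun (q : κ) (_ : q ∈ Finset.univ) => (hC (k q)).le
    linarith
  · have := Finset.sum_nonneg fun (q : κ) (_ : q ∈ Finset.univ) =>
      zero_le_one.trans (hg₀ (k q))
    linarith
  · have e1 : C (k q) ≤ ∑ q, C (k q) :=
      Finset.single_le_sum (f := fun q => C (k q)) (fun q _ => (hC (k q)).le) (Finset.mem_univ q)
    have e2 : g₀ (k q) ≤ ∑ q, g₀ (k q) :=
      Finset.single_le_sum (f := fun q => g₀ (k q)) (fun q _ => zero_le_one.trans (hg₀ (k q)))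
        (Finset.mem_univ q)
    have e3 : g₀ (k q) ≤ g := by linarith
    have e4 : 0 ≤ g := zero_le_one.trans ((hg₀ (k q)).trans e3)
    exact fam_mono e4 (hφ g (k q) e3 ⟨q, rfl⟩) (by linarith)

namespace Fml

variable (T : Fml bn Mn Rn G k) {F : Type*} [NormedAddCommGroup F] [InnerProductSpace ℂ F]
  [FiniteDimensional ℂ F] {M : FermionRep N F} (ε : ∀ q, Colg (k q) →ₗᵢ[ℝ] Colg N)
  (ho : ∀ q q', q ≠ q' → ∀ u v, ⟪ε q u, ε q' v⟫_ℝ = 0)

variable (M) in
/-- The block data. -/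
def D : BD M G k (fun q => Fn (k q)) where
  ε := ε
  ho := ho
  Mb q := Mn (k q)
  Ω q := T.Ω (k q)
  isv q := T.isv (k q)
  nm q := T.nm (k q)

/-- The factors at coupling `g`. -/
abbrev fac (g : ℝ) : ∀ q, Cfg (k q) → Fn (k q) := fun q => T.φ g (k q)

variable (M) in
/-- **The block state** at coupling `g`, a function on all configurations. -/
def Psi (g : ℝ) (u : Cfg N) : F →L[ℂ] F :=
  open Classical in
  if T.g0 ≤ g then LinearMap.toContinuousLinearMap ((T.D M ε ho).psi (T.fac g) (iBT ε ho u)) else 0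

/-- Its radius. -/
def s (g : ℝ) : ℝ :=
  open Classical in
  if T.g0 ≤ g then (1 + Fintype.card κ) * g ^ (-(1 / 6) : ℝ) else 1

variable {ε ho}

theorem Psi_of_le {g : ℝ} (hg : T.g0 ≤ g) (u : Cfg N) (f : F) :
    T.Psi M ε ho g u f = (T.D M ε ho).psi (T.fac g) (iBT ε ho u) f := by
  unfold Psi
  rw [if_pos hg]
  rfl

theorem Psi_of_lt {g : ℝ} (hg : ¬ T.g0 ≤ g) (u : Cfg N) : T.Psi M ε ho g u = 0 := by
  unfold Psi
  rw [if_neg hg]

theorem Psi_iB {g : ℝ} (hg : T.g0 ≤ g) (Y : EY k) (f : F) :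
    T.Psi M ε ho g (iB ε ho Y) f = (T.D M ε ho).psi (T.fac g) Y f := by
  rw [T.Psi_of_le hg, iBT_iB]

theorem s_of_le {g : ℝ} (hg : T.g0 ≤ g) :
    T.s g = (1 + Fintype.card κ) * g ^ (-(1 / 6) : ℝ) := by
  unfold s
  rw [if_pos hg]

theorem s_of_lt {g : ℝ} (hg : ¬ T.g0 ≤ g) : T.s g = 1 := by
  unfold s
  rw [if_neg hg]

/-- The factors are even. -/
theorem fac_even {g : ℝ} (hg : T.g0 ≤ g) (q : κ) (y : Cfg (k q)) :
    (T.D M ε ho).Even q (T.fac g q y) :=
  (T.D M ε ho).even_of fun P hP => (T.fam g hg q).even P hP y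

theorem fac_smooth {g : ℝ} (hg : T.g0 ≤ g) (q : κ) : ContDiff ℝ ∞ (T.fac g q) :=
  (T.fam g hg q).core.1

theorem fac_compact {g : ℝ} (hg : T.g0 ≤ g) (q : κ) : HasCompactSupport (T.fac g q) :=
  (T.fam g hg q).core.2.1

theorem fac_cov {g : ℝ} (hg : T.g0 ≤ g) (q : κ) (a : Matrix.specialUnitaryGroup (Fin (k q)) ℂ)
    (y : Cfg (k q)) : T.fac g q ((bn (k q)).act a y) = (Rn (k q)).ρ a (T.fac g q y) :=
  (T.fam g hg q).core.2.2 a y

end Fml

section link

variable {C : Chn b p S} {bb : ∀ q, ColorBasis (k q)} {ε : ∀ q, Colg (k q) →ₗᵢ[ℝ] Colg N}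
  {F : Type*} [NormedAddCommGroup F] [InnerProductSpace ℂ F] [FiniteDimensional ℂ F]
  {M : FermionRep N F} {Fb : κ → Type*} [∀ p, NormedAddCommGroup (Fb p)]
  [∀ p, InnerProductSpace ℂ (Fb p)] [∀ p, FiniteDimensional ℂ (Fb p)]

theorem Fml.Psi_iBe (T : Fml bn Mn Rn G k) (h : Link C k bb ε) {g : ℝ} (hg : T.g0 ≤ g) (Y : EY k)
    (f : F) : T.Psi M ε h.ho g (h.iBe Y : C.Blk) f = (T.D M ε h.ho).psi (T.fac g) Y f := by
  rw [h.coe_iBe, T.Psi_iB hg]

/-- The block charges of functions on `C.Blk`. -/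
theorem Link.qblkB_iBe (h : Link C k bb ε) (D : BD M G k Fb) (hD : D.ε = ε) (g : ℝ) (α : Fin 16)
    {w : C.Blk → F} {Y : EY k} (hw : DifferentiableAt ℝ w (h.iBe Y)) :
    qblkB M G g α w (h.iBe Y) = ∑ q, D.bch bb q α g 0 (fun Y => w (h.iBe Y)) Y := by
  -- extend `w` by the orthogonal projection
  let f : Cfg N → F := fun u => w (h.iBe (iBT ε h.ho u))
  have hf : DifferentiableAt ℝ f (iB ε h.ho Y) := by
    have h1 : DifferentiableAt ℝ (fun u : Cfg N => h.iBe (iBT ε h.ho u)) (iB ε h.ho Y) := by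
      have h2 : DifferentiableAt ℝ (fun Y : EY k => h.iBe Y) (iBT ε h.ho (iB ε h.ho Y)) :=
        h.iBe.toContinuousLinearEquiv.differentiableAt
      exact h2.comp _ (iBT ε h.ho).differentiableAt
    have h3 : DifferentiableAt ℝ w (h.iBe (iBT ε h.ho (iB ε h.ho Y))) := by
      rw [iBT_iB]
      exact hw
    exact h3.comp (iB ε h.ho Y) h1
  have h4 := h.qblk_iB (M := M) (G := G) D hD g α hf
  have h5 : (fun Y : EY k => f (iB ε h.ho Y)) = fun Y => w (h.iBe Y) := by
    funext Y'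
    simp only [f, iBT_iB]
  rw [h5] at h4
  rw [← h4]
  unfold qblkB qblk
  have h6 : f (iB ε h.ho Y) = w (h.iBe Y) := congrFun h5 Y
  have h7 : ∀ v : C.Blk, fderiv ℝ w (h.iBe Y) v = fderiv ℝ f (iB ε h.ho Y) (v : Cfg N) := by
    intro v
    have h8 : HasFDerivAt (fun y : C.Blk => f (y : Cfg N))
        ((fderiv ℝ f (iB ε h.ho Y)).comp C.Blk.subtypeL) (h.iBe Y) := by
      have h9 : HasFDerivAt f (fderiv ℝ f (iB ε h.ho Y)) ((h.iBe Y : C.Blk) : Cfg N) :=
        hf.hasFDerivAt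
      exact h9.comp (h.iBe Y) C.Blk.subtypeL.hasFDerivAt
    have h10 : (fun y : C.Blk => f (y : Cfg N)) = w := by
      funext y
      obtain ⟨Y', rfl⟩ := h.iBe.surjective y
      exact congrFun h5 Y'
    rw [h10] at h8
    rw [h8.fderiv]
    rfl
  rw [h6, h.coe_iBe]
  congr 1
  exact Finset.sum_congr rfl fun n _ => by rw [h7]

end link

end Crest.Agent.R330.Psi477

end
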