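import Crest.Agent.R330.TPk_776
import Crest.Agent.R330.TDefB_414
import Crest.Agent.R330.AFld_984
import Crest.Agent.R330.Link_973
import Crest.Agent.R330.PsiGeo_477
import Crest.Agent.R330.PsiDef_477
import Crest.Agent.R330.Close_478
import Crest.Agent.R330.BlkNeut2_735
import Crest.Agent.R330.Psi8_477
import Crest.Agent.R330.PsiMom_269
import Crest.Agent.R330.Prod3_494
import Crest.Agent.R330.PsiB_726
import Crest.Agent.R330.FactG_161
import Crest.Agent.R330.Prod6_494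
import Crest.Agent.R330.PiVol_269
import Crest.Agent.R330.TDef_414
import Crest.Agent.R330.ChFlat_718

-- ▼ part R330/T7_776
section

/-!
# Row 330, S8 (T7): assembly of the trial data (helper776)

* `aData C` : the Gaussian exponent `Afld C` has all its properties.
* `tpack hU hPsi` : the trial data with `A = Afld C`.
-/

set_option autoImplicit false
set_option linter.unusedSectionVars false

open MeasureTheory Filter Topology Crest.MathPhysics.MatrixQM
open scoped ContDiff InnerProductSpace ENNReal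

noncomputable section

namespace Crest.Agent.R330.T7776

open Crest.Agent.R330.TDef414 Crest.Agent.R330.TPk776 Crest.Agent.R330.AFld984

variable {N p : ℕ} {b : ColorBasis N} {S : Type} [Group S] [Fintype S] (C : Chn b p S)
  {F : Type*} [NormedAddCommGroup F] [InnerProductSpace ℂ F] [FiniteDimensional ℂ F]
  {M : FermionRep N F} {R : GaugeAction b M} {G : GammaNine}

theorem aData : AData C (Afld C) where
  A_smooth := A_smooth C
  A_symm := A_symm C
  A_nonneg := A_nonneg C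
  A_off := A_off C
  A_gauge := A_gauge C
  A_low := A_low C
  A_cov := A_cov C

variable {C}

/-- The trial data with the Gaussian exponent `Afld C`. -/
def tpack {U : Pos p → F →L[ℂ] F} {Psi : ℝ → Cfg N → F →L[ℂ] F} {s : ℝ → ℝ}
    (hU : UData C M R G (Afld C) U) (hPsi : PsiData C M R G Psi s) : TPack C M R G :=
  tpackOf (aData C) hU hPsi




end Crest.Agent.R330.T7776

end
end

-- ▼ part R330/LinkInst_973
section

/-!
# Row 330 (helper973): 477's `Link` for the channels `Geo692.chn b P`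
-/

set_option autoImplicit false

noncomputable section

open Crest.MathPhysics.MatrixQM

namespace Crest.Agent.R330.Link973

open Crest.Agent.R330.Parts879 Crest.Agent.R330.Geo692 Crest.Agent.R330.Psi477

variable {N : ℕ} (b : ColorBasis N) (P : Lam N) (bn : ∀ n, ColorBasis n)

/-- **The blocks of the channel of the partition `P`.** -/
theorem link : Link (chn b P) P.k (fun q => bn (P.k q)) (eps b P bn) where
  ho := eps_ho b P bn
  br := eps_br b P bn
  br0 := eps_br0 b P bn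
  cen0 := cen_eps b P bn
  mem := eps_mem b P bn
  span _ hu := exists_span b P bn hu

end Crest.Agent.R330.Link973

end
end

-- ▼ part R330/T7b_776
section

/-!
# Row 330, S8 (T7): the trial data of the channel of a partition (helper776)

* `Small` : colour bases, fermions and gauge actions for all sizes; `nonempty_small`.
* `exists_tpack_of` : the trial data exist for `chn b P`, from `Below N` and the three open inputs
  (heavy vacuum, block state, block Hardy property).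
-/

set_option autoImplicit false
set_option linter.unusedSectionVars false

open MeasureTheory Filter Topology Crest.MathPhysics.MatrixQM
open scoped ContDiff InnerProductSpace ENNReal

noncomputable section

namespace Crest.Agent.R330.T7776

open Crest.Agent.R330.TDef414 Crest.Agent.R330.TPk776 Crest.Agent.R330.AFld984
  Crest.Agent.R330.Parts879 Crest.Agent.R330.Geo692 Crest.Agent.R330.Psi477
  Crest.Agent.R330.Link973 Crest.Agent.R330.Close478 Crest.Agent.R330.SInd478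

theorem nonempty_cb (n : ℕ) : Nonempty (ColorBasis n) := by
  rcases Nat.eq_zero_or_pos n with rfl | hn
  · exact ⟨{ T := fun _ => 0
             herm := fun A => Fin.elim0 A
             traceless := fun A => Fin.elim0 A
             orthonormal := fun A => Fin.elim0 A }⟩
  · exact Exist973.nonempty_colorBasis hn

/-- Data for all sizes of the blocks. -/
structure Small where
  /-- colour bases -/
  bn : ∀ n, ColorBasis n
  /-- Fock spaces -/
  Fn : ℕ → Type
  i1 : ∀ n, NormedAddCommGroup (Fn n)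
  i2 : ∀ n, InnerProductSpace ℂ (Fn n)
  i3 : ∀ n, FiniteDimensional ℂ (Fn n)
  i4 : ∀ n, Nontrivial (Fn n)
  /-- fermions -/
  Mn : ∀ n, FermionRep n (Fn n)
  /-- gauge actions -/
  Rn : ∀ n, GaugeAction (bn n) (Mn n)

attribute [instance] Small.i1 Small.i2 Small.i3 Small.i4

theorem nonempty_small : Nonempty Small := by
  have h : ∀ n, ∃ (b : ColorBasis n) (F : Type) (_ : NormedAddCommGroup F)
      (_ : InnerProductSpace ℂ F) (_ : FiniteDimensional ℂ F) (_ : Nontrivial F)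
      (M : FermionRep n F), Nonempty (GaugeAction b M) := by
    intro n
    obtain ⟨b⟩ := nonempty_cb n
    exact ⟨b, Exist973.exists_data b⟩
  choose b F i1 i2 i3 i4 M hR using h
  exact ⟨⟨b, F, i1, i2, i3, i4, M, fun n => (hR n).some⟩⟩

variable {N : ℕ} {b : ColorBasis N} {F : Type*} [NormedAddCommGroup F] [InnerProductSpace ℂ F]
  [FiniteDimensional ℂ F] {M : FermionRep N F} {R : GaugeAction b M} {G : GammaNine}

/-- The block state of the partition `P` made of the small data `D`, `T`. -/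
def psiOf (M : FermionRep N F) (b : ColorBasis N) (P : Lam N) (D : Small)
    (T : Fml D.bn D.Mn D.Rn G P.k) : ℝ → Cfg N → F →L[ℂ] F :=
  T.Psi M (eps b P D.bn) (link b P D.bn).ho

theorem exists_small_fml (hB : Below N) (P : Lam N) (G : GammaNine) :
    ∃ D : Small, Nonempty (Fml D.bn D.Mn D.Rn G P.k) := by
  obtain ⟨D⟩ := nonempty_small
  exact ⟨D, exists_fml D.bn D.Mn D.Rn G P.k fun q => hB _ (P.k_pos q) (P.k_lt q)⟩

/-- **(T7)** from its three inputs. -/
theorem exists_tpack_of (hB : Below N) (P : Lam N)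
    (hU : ∃ U, UData (chn b P) M R G (Afld (chn b P)) U)
    (hPsi : ∀ (D : Small) (T : Fml D.bn D.Mn D.Rn G P.k),
      PsiData (chn b P) M R G (psiOf M b P D T) T.s)
    (hH : ∀ (D : Small) (T : Fml D.bn D.Mn D.Rn G P.k) (Pk : TPack (chn b P) M R G),
      Pk.Psi = psiOf M b P D T → PsiHardy Pk) :
    ∃ Pk : TPack (chn b P) M R G, PsiHardy Pk := by
  obtain ⟨D, ⟨T⟩⟩ := exists_small_fml hB P G
  obtain ⟨U, hU⟩ := hU
  exact ⟨tpack hU (hPsi D T), hH D T _ rfl⟩

end Crest.Agent.R330.T7776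

end
end

-- ▼ part R330/PsiCov_477
section

/-!
# Row 330, S8-PSI (helper477): covariance of the block state

* `adC_br`, `kc_act`, `adC_kk`, `adC_cen` : the adjoint action between regular positions.
* `rho_gan`, `Fx_rho` : the amplitude space is stable.
* `act_iB` : the block coordinates under a block permutation with block rotations.
* `Fml.Psi_cov` : **covariance of the block state** (field `Psi_cov` of `TPack`).
* `stab_fix` : the stabiliser acts trivially on the amplitude space.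
-/

set_option autoImplicit false
set_option linter.unusedSectionVars false

open MeasureTheory Filter Topology Crest.MathPhysics.MatrixQM
open scoped ContDiff InnerProductSpace ENNReal

noncomputable section

namespace Crest.Agent.R330.Psi477

open Crest.Agent.R330.Cliff442 Crest.Agent.R330.Cliff442.CRep Crest.Agent.R330.Fact161
open Crest.Agent.R330.FactI161
open Crest.Agent.R330.Bind6839 Crest.Agent.R330.Defs478 Crest.Agent.R330.SInd478
open Crest.Agent.R330.Pkg915 Crest.Agent.R330.LS839 Crest.Agent.R330.TDef414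
open Crest.Agent.R330.Frame839 Crest.Agent.R330.IBP837 Crest.Agent.R330.TCore944
open Crest.Agent.R330.Clus839 Crest.Agent.R330.BlkNeut735
open Crest.Agent.R330.Stab2973 (castV castY)
open Crest.Agent.R330.Stab3973 (castF castF_injective castF_fun castF_const permY permY_apply
  map_univ_perm)

variable {N : ℕ}

local notation "SU" => Matrix.specialUnitaryGroup (Fin N) ℂ

/-! ## The adjoint action -/

section ad

variable (b : ColorBasis N)

theorem adC_br (h : SU) (u v : Colg N) :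
    adC b h ((colAlg b).br u v) = (colAlg b).br (adC b h u) (adC b h v) := by
  have h1 := act_actB (b := b) h u (mkc fun _ => v)
  have h2 := congrArg (fun x : Cfg N => comp x 0) h1
  simp only [comp_actg, comp_act, comp_mkc] at h2
  exact h2

theorem act_zero' (h : SU) : b.act h (0 : Cfg N) = 0 :=
  ext_comp fun i => by rw [comp_actg, comp_zero, map_zero]

theorem act_inv_act (h : SU) (x : Cfg N) : b.act h⁻¹ (b.act h x) = x :=
  ext_comp fun i => by rw [comp_actg, comp_actg, ← adC_mul, inv_mul_cancel, adC_one]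

theorem adC_inv (h : SU) (u : Colg N) : adC b h (adC b h⁻¹ u) = u := by
  rw [← adC_mul, mul_inv_cancel, adC_one]

theorem kc_act (h : SU) {x : Cfg N} {w : Colg N} (hw : w ∈ kc (actB b) x) :
    adC b h w ∈ kc (actB b) (b.act h x) := by
  rw [mem_kc] at hw ⊢
  rw [← act_actB, hw, act_zero']

end ad

variable {p : ℕ} {b : ColorBasis N} {S : Type} [Group S] [Fintype S] {C : Chn b p S}

theorem adC_kk {h : SU} {X X' : Pos p} (hX : C.Reg X) (hX' : C.Reg X')
    (he : b.act h (C.cf X) = C.cf X') {u : Colg N} (hu : u ∈ C.kk) : adC b h u ∈ C.kk := by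
  unfold Chn.Reg at hX hX'
  rw [← hX] at hu
  have h1 := kc_act b h hu
  rw [he, hX'] at h1
  exact h1

theorem act_inv_cf {h : SU} {X X' : Pos p} (he : b.act h (C.cf X) = C.cf X') :
    b.act h⁻¹ (C.cf X') = C.cf X := by
  rw [← he, act_inv_act]

/-- The adjoint action between regular positions preserves the centre of the stabiliser. -/
theorem adC_cen {h : SU} {X X' : Pos p} (hX : C.Reg X) (hX' : C.Reg X')
    (he : b.act h (C.cf X) = C.cf X') (t : EuclideanSpace ℝ (Fin p)) :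
    ∃ t', adC b h (C.cen t) = C.cen t' := by
  obtain ⟨t', ht'⟩ := C.cen_all (adC b h (C.cen t)) (adC_kk hX hX' he (C.cen_mem t)) fun v hv => by
    have h1 : adC b h⁻¹ v ∈ C.kk := adC_kk hX' hX (act_inv_cf he) hv
    have h2 := C.cen_comm t _ h1
    have h3 := adC_br b h (C.cen t) (adC b h⁻¹ v)
    rw [h2, map_zero, adC_inv] at h3
    exact h3.symm
  exact ⟨t', ht'.symm⟩

section rho

variable {F : Type*} [NormedAddCommGroup F] [InnerProductSpace ℂ F] [FiniteDimensional ℂ F]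
  {M : FermionRep N F} (R : GaugeAction b M) {G : GammaNine}

theorem rho_gan (h : SU) (α : Fin 16) (u : Colg N) (f : F) :
    R.ρ h (gan M G α u f) = gan M G α (adC b h u) (R.ρ h f) := by
  unfold gan
  simp only [LinearMap.sub_apply, LinearMap.smul_apply, LinearMap.sum_apply, map_sub, map_smul,
    map_sum, rho_thv]

/-- **The amplitude space is stable** under the gauge transformations between regular positions. -/
theorem Fx_rho {h : SU} {X X' : Pos p} (hX : C.Reg X) (hX' : C.Reg X')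
    (he : b.act h (C.cf X) = C.cf X') {f : F} (hf : f ∈ C.Fx M G) : R.ρ h f ∈ C.Fx M G := by
  intro α u hu
  have h1 : adC b h⁻¹ u ∈ (LinearMap.range C.cen.toLinearMap)ᗮ := by
    rw [Submodule.mem_orthogonal]
    rintro _ ⟨t, rfl⟩
    obtain ⟨t', ht'⟩ := adC_cen hX hX' he t
    have h2 : ⟪adC b h (C.cen t), adC b h (adC b h⁻¹ u)⟫_ℝ = ⟪C.cen t, adC b h⁻¹ u⟫_ℝ :=
      adC_inner h _ _
    rw [adC_inv, ht'] at h2
    change ⟪C.cen t, _⟫_ℝ = 0
    rw [← h2]
    exact (Submodule.mem_orthogonal _ _).1 hu _ (LinearMap.mem_range_self C.cen.toLinearMap t')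
  have h3 := hf α _ h1
  have h4 := rho_gan R (G := G) h α (adC b h⁻¹ u) f
  rw [h3, map_zero, adC_inv] at h4
  exact h4.symm

theorem mem_cenk {X : Pos p} (hX : C.Reg X) (t : EuclideanSpace ℝ (Fin p)) :
    C.cen t ∈ cenk b (C.cf X) := by
  unfold Chn.Reg at hX
  refine ⟨by rw [hX]; exact C.cen_mem t, fun v hv => ?_⟩
  rw [hX] at hv
  have h1 := C.cen_comm t v hv
  have h2 : SlB314.br b (C.cen t).ofLp v.ofLp = 0 := by
    have := congrArg WithLp.ofLp h1
    exact this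
  have h3 := SlB314.cm_br b (C.cen t).ofLp v.ofLp
  rw [h2] at h3
  have h4 : SlA314.cm b (0 : Fin (N ^ 2 - 1) → ℝ) = 0 := by
    have := SlA314.cm_smul b 0 (0 : Fin (N ^ 2 - 1) → ℝ)
    simpa using this
  rw [h4] at h3
  have h5 := (smul_eq_zero.1 h3.symm).resolve_left (by simp [Complex.I_ne_zero])
  exact (sub_eq_zero.1 h5).symm

/-- **The stabiliser of a regular position acts trivially on the amplitude space.** -/
theorem stab_fix (h : SU) (X : Pos p) (hX : C.Reg X) (he : b.act h (C.cf X) = C.cf X) (f : F)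
    (hf : f ∈ C.Fx M G) : R.ρ h f = f := by
  rcases subsingleton_or_nontrivial F with hF | hF
  · exact Subsingleton.elim _ _
  set K : Submodule ℝ (Colg N) := LinearMap.range C.cen.toLinearMap with hK
  have hirr := irr_vacOf G K M
  let E : Submodule ℂ F :=
    { carrier := {f | f ∈ vacOf M G Kᗮ ∧ R.ρ h f = f}
      add_mem' := fun {x y} hx hy => ⟨Submodule.add_mem _ hx.1 hy.1, by
        rw [map_add, hx.2, hy.2]⟩
      zero_mem' := ⟨Submodule.zero_mem _, map_zero _⟩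
      smul_mem' := fun c x hx => ⟨Submodule.smul_mem _ c hx.1, by rw [map_smul, hx.2]⟩ }
  have hE : E ≤ vacOf M G Kᗮ := fun x hx => hx.1
  have hinv : (cr M).InvOn (rowsIn G K) E := by
    intro x hx y hy
    refine ⟨hirr.1 x hx y hy.1, ?_⟩
    have h1 : teL (adC b h) x = x := by
      refine ext_row fun β => ?_
      rw [row_teL]
      obtain ⟨t, ht⟩ := (mem_rowsIn G K).1 hx β
      have ht' : C.cen t = row β x := ht
      rw [← ht']
      exact adC_cenk he (mem_cenk hX t)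
    rw [rho_cr, h1, hy.2]
  obtain ⟨Ω, n1, hv⟩ := exists_gvac M G
  have hΩ : Ω ∈ E := ⟨gvac_mem_vacOf G M hv _, rho_gvac R hv h⟩
  rcases hirr.2 E hE hinv with h0 | h0
  · rw [h0, Submodule.mem_bot] at hΩ
    rw [hΩ, norm_zero] at n1
    exact absurd n1 zero_ne_one
  · have hf' : f ∈ E := by
      rw [h0]
      exact hf
    exact hf'.2

end rho

/-! ## Covariance of the block coordinates -/

variable {κ : Type*} [Fintype κ] [DecidableEq κ] {k : κ → ℕ}
  {bn : ∀ n, ColorBasis n} {ε : ∀ q, Colg (k q) →ₗᵢ[ℝ] Colg N}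

theorem comp_castY {n n' : ℕ} (h : n = n') (y : Cfg n) (i : Fin 9) :
    comp (castY h y) i = castV h (comp y i) := by
  subst h
  rfl

/-- The transported block coordinates. -/
def mvY (σ : Equiv.Perm κ) (hσ : ∀ q, k (σ q) = k q)
    (a : ∀ q, Matrix.specialUnitaryGroup (Fin (k q)) ℂ) (bn : ∀ n, ColorBasis n) (Y : EY k) :
    EY k :=
  WithLp.toLp 2 (permY σ hσ fun q => (bn (k q)).act (a q) (Y q))

theorem mvY_apply (σ : Equiv.Perm κ) (hσ : ∀ q, k (σ q) = k q)
    (a : ∀ q, Matrix.specialUnitaryGroup (Fin (k q)) ℂ) (bn : ∀ n, ColorBasis n) (Y : EY k)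
    (q : κ) : mvY σ hσ a bn Y (σ q) = castY (hσ q).symm ((bn (k q)).act (a q) (Y q)) :=
  permY_apply σ hσ (fun q => (bn (k q)).act (a q) (Y q)) q

theorem act_iB {ho : ∀ q q', q ≠ q' → ∀ u v, ⟪ε q u, ε q' v⟫_ℝ = 0} {h : SU}
    {σ : Equiv.Perm κ} {hσ : ∀ q, k (σ q) = k q}
    {a : ∀ q, Matrix.specialUnitaryGroup (Fin (k q)) ℂ}
    (hc : ∀ q (u : Colg (k q)), adC b h (ε q u) =
      ε (σ q) (castV (hσ q).symm (adC (bn (k q)) (a q) u))) (Y : EY k) :
    b.act h (iB ε ho Y) = iB ε ho (mvY σ hσ a bn Y) := by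
  refine ext_comp fun i => ?_
  rw [comp_actg, comp_iB, comp_iB, map_sum,
    ← Equiv.sum_comp σ fun q => ε q (comp (mvY σ hσ a bn Y q) i)]
  refine Finset.sum_congr rfl fun q _ => ?_
  rw [mvY_apply, comp_castY, comp_actg, hc]

theorem castV_surjective {n n' : ℕ} (h : n = n') : Function.Surjective (castV h) := by
  subst h
  exact Function.surjective_id

/-- `castV` as a linear map. -/
def castVL {n n' : ℕ} (h : n = n') : Colg n →ₗ[ℝ] Colg n' where
  toFun := castV h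
  map_add' := Stab2973.castV_add h
  map_smul' t u := Stab2973.castV_smul h t u

variable {Fn : ℕ → Type} [∀ n, NormedAddCommGroup (Fn n)] [∀ n, InnerProductSpace ℂ (Fn n)]
  [∀ n, FiniteDimensional ℂ (Fn n)] {Mn : ∀ n, FermionRep n (Fn n)}
  {Rn : ∀ n, GaugeAction (bn n) (Mn n)} {G : GammaNine}

theorem castF_thv {n n' : ℕ} (h : n = n') (β : Fin 16) (c : Colg n) (f : Fn n) :
    castF h (thv (Mn n) β c f) = thv (Mn n') β (castV h c) (castF h f) := by
  subst h
  rfl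

variable {F : Type*} [NormedAddCommGroup F] [InnerProductSpace ℂ F] [FiniteDimensional ℂ F]
  {M : FermionRep N F} (R : GaugeAction b M)

/-- **Covariance of products of even covariant factors.** -/
theorem Fml.psi_cov (T : Fml bn Mn Rn G k)
    {ho : ∀ q q', q ≠ q' → ∀ u v, ⟪ε q u, ε q' v⟫_ℝ = 0} {h : SU} {σ : Equiv.Perm κ}
    {hσ : ∀ q, k (σ q) = k q} {a : ∀ q, Matrix.specialUnitaryGroup (Fin (k q)) ℂ}
    (hc : ∀ q (u : Colg (k q)), adC b h (ε q u) =
      ε (σ q) (castV (hσ q).symm (adC (bn (k q)) (a q) u))) {g : ℝ} (hg : T.g0 ≤ g) (Y : EY k)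
    {f : F} (hf : f ∈ (T.D M ε ho).W) (hf' : R.ρ h f ∈ (T.D M ε ho).W) :
    R.ρ h ((T.D M ε ho).psi (T.fac g) Y f) =
      (T.D M ε ho).psi (T.fac g) (mvY σ hσ a bn Y) (R.ρ h f) := by
  have h1 := rho_prG (M := M) (fun q => T.isv (k q)) (fun q => T.nm (k q)) ε ho R (g := h)
    (σ := σ) (τ := fun q => castVL (hσ q).symm ∘ₗ adC (bn (k q)) (a q))
    (Up := fun q => castF (hσ q).symm ∘ₗ (Rn (k q)).ρ (a q))
    (fun q => (castV_surjective _).comp (adC_surjective _ _))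
    (fun q => (castF_injective _).comp (rho_injective _ _)) hc
    (fun q β c f => by
      rw [LinearMap.comp_apply, rho_thv, castF_thv]
      rfl)
    (fun q => by
      rw [LinearMap.comp_apply, rho_gvac (Rn (k q)) (T.isv (k q))]
      exact castF_const _ T.Ω)
    (l := Finset.univ.toList) (Finset.nodup_toList _)
    (f := BD.val (T.fac g) Y) (f' := BD.val (T.fac g) (mvY σ hσ a bn Y))
    (fun q _ => by
      rw [LinearMap.comp_apply]
      change T.φ g (k (σ q)) (mvY σ hσ a bn Y (σ q)) = castF _ ((Rn (k q)).ρ (a q) (T.fac g q (Y q)))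
      rw [mvY_apply, ← T.fac_cov hg]
      exact (castF_fun (hσ q).symm (T.φ g) _).symm) hf
  have h2 := pr_perm (T.D M ε ho).pol (cr M) (T.D M ε ho).orth (map_univ_perm σ)
    ((List.nodup_map_iff σ.injective).2 (Finset.nodup_toList _))
    (f := BD.val (T.fac g) (mvY σ hσ a bn Y)) (fun q => T.fac_even hg q _) hf'
  exact h1.trans h2

/-- The amplitude space lies in the common vacuum space of the blocks. -/
theorem Link.Fx_le_W {bb : ∀ q, ColorBasis (k q)} (h : Link C k bb ε) (T : Fml bn Mn Rn G k)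
    {f : F} (hf : f ∈ C.Fx M G) : f ∈ (T.D M ε h.ho).W :=
  ((mem_Fx_iff M G ε C h.mem (fun q t u => h.cen0 q t u) h.span).1 hf).2

/-- **Covariance of the block state.** -/
theorem Fml.Psi_cov {bb : ∀ q, ColorBasis (k q)} (T : Fml bn Mn Rn G k) (hL : Link C k bb ε)
    (hc : LinkCov C k bn ε) (h : SU) (X X' : Pos p)
    (hX : C.Reg X) (hX' : C.Reg X') (he : b.act h (C.cf X) = C.cf X') (g : ℝ) (Y : Cfg N)
    (hY : Y ∈ C.Blk) (f : F) (hf : f ∈ C.Fx M G) : R.ρ h f ∈ C.Fx M G ∧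
      R.ρ h (T.Psi M ε hL.ho g Y f) = T.Psi M ε hL.ho g (b.act h Y) (R.ρ h f) := by
  have hf' := Fx_rho R hX hX' he hf
  refine ⟨hf', ?_⟩
  by_cases hg : T.g0 ≤ g
  · rw [hL.blk_eq] at hY
    obtain ⟨Y₀, rfl⟩ := hY
    change R.ρ h (T.Psi M ε hL.ho g (iB ε hL.ho Y₀) f) =
      T.Psi M ε hL.ho g (b.act h (iB ε hL.ho Y₀)) (R.ρ h f)
    obtain ⟨σ, hσ, a, hcov⟩ := hc.cov h X X' hX hX' he
    rw [act_iB (hσ := hσ) hcov, T.Psi_iB hg, T.Psi_iB hg]
    exact T.psi_cov R hcov hg Y₀ (hL.Fx_le_W T hf) (hL.Fx_le_W T hf')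
  · rw [T.Psi_of_lt hg, T.Psi_of_lt hg]
    simp

end Crest.Agent.R330.Psi477

end
end

-- ▼ part R330/PsiInt_269
section

/-!
# Row 330, S8-PSI: integrals of the block state `D.psi φ` (helper269)

`φ p : Cfg (k p) → Fb p` smooth with compact support and `∫ ‖φ p‖² = 1`, `w ∈ D.W`.

* `psi_eq_ps` : the block state is the product state of `PsiMom_269`.
* `integral_inner_psi` : `∫ ⟪psi w, psi w'⟫ = ⟪w, w'⟫`.
* `integral_mom2`, `integral_mom4_le`.
* `integral_slot_sq`, `integral_bch`, `sum_integral_bch` : block charges.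
* `dY` : the sum of the squares of the partial derivatives; `normSq_fderiv_le_dY`, `dY_psi`,
  `integral_dY`, `integral_mom_dY_le`.
-/

set_option autoImplicit false
set_option linter.unusedSectionVars false

open MeasureTheory Filter Topology Crest.MathPhysics.MatrixQM
open scoped ContDiff InnerProductSpace ENNReal

noncomputable section

namespace Crest.Agent.R330.PsiInt269

open Crest.Agent.R330.Cliff442 Crest.Agent.R330.Fact161 Crest.Agent.R330.FactI161
open Crest.Agent.R330.Bind6839 Crest.Agent.R330.Defs478 Crest.Agent.R330.SInd478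
open Crest.Agent.R330.Pkg915 Crest.Agent.R330.LS839 Crest.Agent.R330.Psi477
open Crest.Agent.R330.Psi477.BD (val sg sum_sg)

variable {N : ℕ} {F : Type*} [NormedAddCommGroup F] [InnerProductSpace ℂ F]
  [FiniteDimensional ℂ F] {κ : Type*} [Fintype κ] [DecidableEq κ] {k : κ → ℕ}
  {Fb : κ → Type*} [∀ p, NormedAddCommGroup (Fb p)] [∀ p, InnerProductSpace ℂ (Fb p)]
  [∀ p, FiniteDimensional ℂ (Fb p)]
  {M : FermionRep N F} {G : GammaNine} (D : BD M G k Fb) {φ : ∀ p, Cfg (k p) → Fb p}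

theorem psi_eq_ps (w : F) (Y : EY k) :
    D.psi φ Y w = PsiMom269.ps D.pol (cr M) (fun p => te (D.ε p)) φ w Y := rfl


/-! ## integrability -/

section int

variable (hφ : ∀ p, ContDiff ℝ 1 (φ p)) (hc : ∀ p, HasCompactSupport (φ p))
include hφ hc







end int

/-! ## norms and moments -/



section mom

variable (hφ : ∀ p, ContDiff ℝ 1 (φ p)) (hc : ∀ p, HasCompactSupport (φ p))
  (h1 : ∀ p, ∫ y, ‖φ p y‖ ^ 2 = 1)
include hφ hc h1



end mom

/-! ## one variable factor, the charges of the blocks -/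

section slot

variable (h1 : ∀ p, ∫ y, ‖φ p y‖ ^ 2 = 1)
include h1




end slot

section bchint

variable (hφ : ∀ p, ContDiff ℝ 1 (φ p)) (hc : ∀ p, HasCompactSupport (φ p))
include hφ hc



end bchint

/-! ## gradients -/

section grad







variable (hφ : ∀ p, ContDiff ℝ 1 (φ p)) (hc : ∀ p, HasCompactSupport (φ p))
include hφ hc




variable (h1 : ∀ p, ∫ y, ‖φ p y‖ ^ 2 = 1)
include h1



end grad

end Crest.Agent.R330.PsiInt269

end
end

-- ▼ part R330/PsiScale_693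
section

/-!
# Row 330, S8-PSI (helper693): the field `Psi_scale`

* `norm_one_sub_prod_le` : `‖1 - ∏ z‖ ≤ Σ ‖1 - z‖` for `‖z‖ ≤ 1`.
* `int_psi_sub_le` : two families of normalised factors close in `L²` give close block states.
* `pr_smul_all`, `psi_Us` : scaling of the factors scales the block state.
* `psi_scale_le` : `∫ ‖ψ_g Y w - (g/g₀)^{d/6} ψ_{g₀} ((g/g₀)^{1/3} Y) w‖² ≤ K' g₀^{-1/3} ‖w‖²`.
* `Psi_scale` : **the field of `TPack`**.
-/

set_option autoImplicit false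
set_option linter.unusedSectionVars false

open MeasureTheory Filter Topology Crest.MathPhysics.MatrixQM
open scoped ContDiff InnerProductSpace ENNReal

noncomputable section

namespace Crest.Agent.R330.PsiScale693

open Crest.Agent.R330.Cliff442 Crest.Agent.R330.Fact161 Crest.Agent.R330.FactI161
open Crest.Agent.R330.Bind6839 Crest.Agent.R330.Defs478 Crest.Agent.R330.SInd478
open Crest.Agent.R330.Pkg915 Crest.Agent.R330.LS839 Crest.Agent.R330.TDef414
open Crest.Agent.R330.Psi477 Crest.Agent.R330.PsiMom269 Crest.Agent.R330.Scale423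
open Crest.Agent.R330.Prod494 (cs_int)

/-! ### complex products -/

theorem norm_one_sub_prod_le {ι : Type*} (s : Finset ι) (z : ι → ℂ) (h : ∀ i, ‖z i‖ ≤ 1) :
    ‖1 - ∏ i ∈ s, z i‖ ≤ ∑ i ∈ s, ‖1 - z i‖ := by
  classical
  induction s using Finset.induction_on with
  | empty => simp
  | insert a s ha ih =>
    rw [Finset.prod_insert ha, Finset.sum_insert ha]
    have e : 1 - z a * ∏ i ∈ s, z i = (1 - z a) + z a * (1 - ∏ i ∈ s, z i) := by ring
    rw [e]
    refine (norm_add_le _ _).trans (add_le_add le_rfl ?_)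
    rw [norm_mul]
    calc ‖z a‖ * ‖1 - ∏ i ∈ s, z i‖ ≤ 1 * ‖1 - ∏ i ∈ s, z i‖ :=
          mul_le_mul_of_nonneg_right (h a) (norm_nonneg _)
      _ ≤ _ := by rw [one_mul]; exact ih

/-! ### `L²` distances -/

section l2

variable {X V : Type*} [MeasurableSpace X] {μ : Measure X} [NormedAddCommGroup V]
  [InnerProductSpace ℂ V]

theorem int_inner_self (f : X → V) :
    ∫ x, ⟪f x, f x⟫_ℂ ∂μ = ((∫ x, ‖f x‖ ^ 2 ∂μ : ℝ) : ℂ) := by
  rw [← integral_complex_ofReal]
  refine integral_congr_ae (Eventually.of_forall fun x => ?_)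
  simp only
  rw [inner_self_eq_norm_sq_to_K]
  push_cast
  rfl

theorem integrable_inner_l2 {f h : X → V} (hf : MemLp f 2 μ) (hh : MemLp h 2 μ) :
    Integrable (fun x => ⟪f x, h x⟫_ℂ) μ := by
  refine (hf.norm.integrable_mul hh.norm).mono' (hf.1.inner hh.1)
    (Eventually.of_forall fun x => ?_)
  exact norm_inner_le_norm _ _

theorem norm_z_le {f h : X → V} (hf : MemLp f 2 μ) (hh : MemLp h 2 μ)
    (h1 : ∫ x, ‖f x‖ ^ 2 ∂μ = 1) (h2 : ∫ x, ‖h x‖ ^ 2 ∂μ = 1) :
    ‖∫ x, ⟪f x, h x⟫_ℂ ∂μ‖ ≤ 1 := by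
  have h3 := cs_int hf hh
  rw [h1, h2, mul_one] at h3
  have h4 := norm_nonneg (∫ x, ⟪f x, h x⟫_ℂ ∂μ)
  nlinarith

theorem norm_one_sub_z_le {f h : X → V} (hf : MemLp f 2 μ) (hh : MemLp h 2 μ)
    (h1 : ∫ x, ‖f x‖ ^ 2 ∂μ = 1) :
    ‖1 - ∫ x, ⟪f x, h x⟫_ℂ ∂μ‖ ≤ Real.sqrt (∫ x, ‖f x - h x‖ ^ 2 ∂μ) := by
  have h3 : 1 - ∫ x, ⟪f x, h x⟫_ℂ ∂μ = ∫ x, ⟪f x, f x - h x⟫_ℂ ∂μ := by
    have h4 : ∫ x, ⟪f x, f x⟫_ℂ ∂μ = 1 := by rw [int_inner_self, h1]; simp
    rw [← h4, ← integral_sub (integrable_inner_l2 hf hf) (integrable_inner_l2 hf hh)]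
    exact integral_congr_ae (Eventually.of_forall fun x => (inner_sub_right _ _ _).symm)
  rw [h3]
  have h5 := cs_int hf (hf.sub hh)
  rw [h1, one_mul] at h5
  exact Real.le_sqrt_of_sq_le h5

theorem int_sub_sq {f h : X → V} (hf : MemLp f 2 μ) (hh : MemLp h 2 μ) :
    ∫ x, ‖f x - h x‖ ^ 2 ∂μ =
      (∫ x, ‖f x‖ ^ 2 ∂μ) + (∫ x, ‖h x‖ ^ 2 ∂μ) - 2 * (∫ x, ⟪f x, h x⟫_ℂ ∂μ).re := by
  have e1 : Integrable (fun x => ‖f x‖ ^ 2) μ := hf.integrable_norm_pow (by norm_num)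
  have e2 : Integrable (fun x => ‖h x‖ ^ 2) μ := hh.integrable_norm_pow (by norm_num)
  have e3 := integrable_inner_l2 hf hh
  have e4 : (∫ x, ⟪f x, h x⟫_ℂ ∂μ).re = ∫ x, (⟪f x, h x⟫_ℂ).re ∂μ := (integral_re e3).symm
  have e5 : Integrable (fun x => 2 * (⟪f x, h x⟫_ℂ).re) μ := e3.re.const_mul 2
  have e6 : Integrable (fun x => ‖f x‖ ^ 2 + ‖h x‖ ^ 2) μ := e1.add e2
  rw [e4, ← integral_add e1 e2, ← integral_const_mul, ← integral_sub e6 e5]
  refine integral_congr_ae (Eventually.of_forall fun x => ?_)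
  simp only
  rw [@norm_sub_sq ℂ]
  simp only [RCLike.re_to_complex]
  ring

end l2

/-! ### block states -/

variable {N : ℕ} {F : Type*} [NormedAddCommGroup F] [InnerProductSpace ℂ F]
  [FiniteDimensional ℂ F] {κ : Type*} [Fintype κ] [DecidableEq κ] {k : κ → ℕ}
  {Fb : κ → Type*} [∀ p, NormedAddCommGroup (Fb p)] [∀ p, InnerProductSpace ℂ (Fb p)]
  [∀ p, FiniteDimensional ℂ (Fb p)] {M : FermionRep N F} {G : GammaNine}

theorem memLp_cpt {E V : Type*} [NormedAddCommGroup E] [InnerProductSpace ℝ E]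
    [FiniteDimensional ℝ E] [MeasurableSpace E] [BorelSpace E] [NormedAddCommGroup V]
    {f : E → V} (hf : Continuous f) (hc : HasCompactSupport f) : MemLp f 2 (volume : Measure E) :=
  hf.memLp_of_hasCompactSupport hc

theorem psi_eq_ps (D : BD M G k Fb) (φ : ∀ p, Cfg (k p) → Fb p) (Y : EY k) (w : F) :
    D.psi φ Y w = ps D.pol (cr M) (fun p => te (D.ε p)) φ w Y := rfl

/-- **Block states with close factors are close.** -/
theorem int_psi_sub_le (D : BD M G k Fb) {φ φ' : ∀ p, Cfg (k p) → Fb p}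
    (hφ : ∀ p, Continuous (φ p)) (hc : ∀ p, HasCompactSupport (φ p))
    (hφ' : ∀ p, Continuous (φ' p)) (hc' : ∀ p, HasCompactSupport (φ' p))
    (h1 : ∀ p, ∫ y, ‖φ p y‖ ^ 2 = 1) (h1' : ∀ p, ∫ y, ‖φ' p y‖ ^ 2 = 1) {w : F} (hw : w ∈ D.W) :
    ∫ Y : EY k, ‖D.psi φ Y w - D.psi φ' Y w‖ ^ 2 ≤
      2 * (∑ p, Real.sqrt (∫ y, ‖φ p y - φ' p y‖ ^ 2)) * ‖w‖ ^ 2 := by
  simp only [psi_eq_ps]
  have m1 : MemLp (ps D.pol (cr M) (fun p => te (D.ε p)) φ w) 2 volume :=
    memLp_cpt (continuous_ps D.pol (cr M) hφ w) (hasCompactSupport_ps D.pol (cr M) hc w)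
  have m2 : MemLp (ps D.pol (cr M) (fun p => te (D.ε p)) φ' w) 2 volume :=
    memLp_cpt (continuous_ps D.pol (cr M) hφ' w) (hasCompactSupport_ps D.pol (cr M) hc' w)
  rw [int_sub_sq m1 m2, integral_normSq_ps D.pol (cr M) D.orth hw,
    integral_normSq_ps D.pol (cr M) D.orth hw, integral_inner_ps D.pol (cr M) D.orth w hw,
    Finset.prod_eq_one fun p _ => h1 p, Finset.prod_eq_one fun p _ => h1' p]
  set z : κ → ℂ := fun p => ∫ y, ⟪φ p y, φ' p y⟫_ℂ with hz
  have n1 : ∀ p, MemLp (φ p) 2 volume := fun p => memLp_cpt (hφ p) (hc p)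
  have n2 : ∀ p, MemLp (φ' p) 2 volume := fun p => memLp_cpt (hφ' p) (hc' p)
  have h3 : ‖1 - ∏ p, z p‖ ≤ ∑ p, Real.sqrt (∫ y, ‖φ p y - φ' p y‖ ^ 2) :=
    (norm_one_sub_prod_le _ z fun p => norm_z_le (n1 p) (n2 p) (h1 p) (h1' p)).trans
      (Finset.sum_le_sum fun p _ => norm_one_sub_z_le (n1 p) (n2 p) (h1 p))
  have h4 : ((∏ p, z p) * ⟪w, w⟫_ℂ).re = (∏ p, z p).re * ‖w‖ ^ 2 := by
    rw [inner_self_eq_norm_sq_to_K]
    have : ((‖w‖ : ℂ) ^ 2) = ((‖w‖ ^ 2 : ℝ) : ℂ) := by push_cast; rfl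
    change ((∏ p, z p) * ((‖w‖ : ℂ) ^ 2)).re = _
    rw [this, Complex.re_mul_ofReal]
  rw [h4]
  have h5 : 1 - (∏ p, z p).re ≤ ‖1 - ∏ p, z p‖ := by
    have := Complex.re_le_norm (1 - ∏ p, z p)
    rwa [Complex.sub_re, Complex.one_re] at this
  have h6 : 0 ≤ ‖w‖ ^ 2 := sq_nonneg _
  nlinarith

theorem pr_smul_all (D : BD M G k Fb) (l : List κ) (c : κ → ℂ) (f : ∀ p, Fb p) (w : F) :
    pr D.pol (cr M) (fun p => te (D.ε p)) l (fun p => c p • f p) w =
      (l.map c).prod • pr D.pol (cr M) (fun p => te (D.ε p)) l f w := by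
  induction l with
  | nil => simp [pr]
  | cons p l ih =>
    rw [pr_cons, pr_cons, ih, List.map_cons, List.prod_cons, map_smul, map_smul,
      LinearMap.smul_apply, smul_smul, mul_comm]

/-- **Scaling.** -/
theorem psi_Us (D : BD M G k Fb) (l : ℝ) (φ : ∀ p, Cfg (k p) → Fb p) (Y : EY k) (w : F) :
    D.psi (fun p => Us l (φ p)) Y w =
      ((∏ p, Scale423.nrm (k p) l : ℝ) : ℂ) • D.psi φ (l • Y) w := by
  have h := pr_smul_all D Finset.univ.toList (fun p => ((Scale423.nrm (k p) l : ℝ) : ℂ))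
    (fun p => φ p ((l • Y) p)) w
  rw [Finset.prod_map_toList, ← Complex.ofReal_prod] at h
  exact h

theorem prod_nrm {r : ℝ} (hr : 0 < r) : ∏ p, Scale423.nrm (k p) (r ^ (1 / 3 : ℝ)) =
    r ^ (((∑ p, Module.finrank ℝ (Cfg (k p)) : ℕ) : ℝ) / 6) := by
  have h1 : ∀ p, Scale423.nrm (k p) (r ^ (1 / 3 : ℝ)) = r ^ ((Module.finrank ℝ (Cfg (k p)) : ℝ) / 6) := by
    intro p
    unfold Scale423.nrm
    rw [← Real.rpow_mul hr.le]
    congr 1
    ring
  simp only [h1]
  rw [← Real.rpow_sum_of_pos hr]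
  congr 1
  rw [Nat.cast_sum, Finset.sum_div]

theorem finrank_EY : Module.finrank ℝ (EY k) = ∑ p, Module.finrank ℝ (Cfg (k p)) := by
  have h : Module.finrank ℝ (EY k) = Module.finrank ℝ (∀ q, Cfg (k q)) :=
    (WithLp.linearEquiv 2 ℝ (∀ q, Cfg (k q))).finrank_eq
  rw [h, Module.finrank_pi_fintype]

/-- Two members of the family are close after scaling. -/
theorem fam_close {n : ℕ} {V : Type*} [NormedAddCommGroup V] [InnerProductSpace ℂ V]
    [FiniteDimensional ℂ V] {b : ColorBasis n} {Mn : FermionRep n V} {R : GaugeAction b Mn}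
    {ψ φ φ' : Cfg n → V} {K g g' : ℝ} (hK : 0 ≤ K) (hg' : 1 ≤ g') (hg : g' ≤ g)
    (hψ : Ground b Mn R G ψ) (h : Fam b R G ψ K g φ) (h' : Fam b R G ψ K g' φ') :
    Real.sqrt (∫ y, ‖φ y - Us ((g / g') ^ (1 / 3 : ℝ)) φ' y‖ ^ 2) ≤
      2 * Real.sqrt (K * g' ^ (-(2 / 3) : ℝ)) := by
  have p' : 0 < g' := by linarith
  have p0 : 0 < g := by linarith
  set l := (g / g') ^ (1 / 3 : ℝ) with hl
  have hl0 : 0 < l := Real.rpow_pos_of_pos (div_pos p0 p') _
  have pl : 0 < g ^ (1 / 3 : ℝ) := Real.rpow_pos_of_pos p0 _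
  have pl' : 0 < g' ^ (1 / 3 : ℝ) := Real.rpow_pos_of_pos p' _
  have e0 : Us (g ^ (1 / 3 : ℝ)) ψ = Us l (Us (g' ^ (1 / 3 : ℝ)) ψ) := by
    rw [Us_Us hl0 pl', hl, ← Real.mul_rpow p'.le (div_pos p0 p').le, mul_div_cancel₀ _ p'.ne']
  have m1 : MemLp φ 2 volume := memLp_cpt h.core.1.continuous h.core.2.1
  have m1' : MemLp φ' 2 volume := memLp_cpt h'.core.1.continuous h'.core.2.1
  have m2 : MemLp (Us (g ^ (1 / 3 : ℝ)) ψ) 2 volume := Us_memLp pl hψ.memLp
  have m3 : MemLp (Us l φ') 2 volume := Us_memLp hl0 m1'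
  have h1 := rt_add_le (m1.sub m2) (m2.sub m3)
  simp only [Pi.sub_apply, sub_add_sub_cancel] at h1
  refine h1.trans ?_
  have h2 : Real.sqrt (∫ y, ‖φ y - Us (g ^ (1 / 3 : ℝ)) ψ y‖ ^ 2) ≤
      Real.sqrt (K * g' ^ (-(2 / 3) : ℝ)) := by
    refine Real.sqrt_le_sqrt (h.err.trans (mul_le_mul_of_nonneg_left ?_ hK))
    exact Real.rpow_le_rpow_of_nonpos p' hg (by norm_num)
  have h3 : Real.sqrt (∫ y, ‖Us (g ^ (1 / 3 : ℝ)) ψ y - Us l φ' y‖ ^ 2) ≤
      Real.sqrt (K * g' ^ (-(2 / 3) : ℝ)) := by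
    rw [e0, int_Us_sub hl0]
    refine Real.sqrt_le_sqrt (le_trans (le_of_eq ?_) h'.err)
    exact integral_congr_ae (Eventually.of_forall fun y => by
      simp only
      rw [norm_sub_rev])
  linarith

section field

variable {p : ℕ} {b : ColorBasis N} {S : Type} [Group S] [Fintype S] {C : Chn b p S}
  {Fn : ℕ → Type} [∀ n, NormedAddCommGroup (Fn n)] [∀ n, InnerProductSpace ℂ (Fn n)]
  [∀ n, FiniteDimensional ℂ (Fn n)]
  {bn : ∀ n, ColorBasis n} {Mn : ∀ n, FermionRep n (Fn n)}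
  {Rn : ∀ n, GaugeAction (bn n) (Mn n)} (T : Fml bn Mn Rn G k)
  {bb : ∀ q, ColorBasis (k q)} {ε : ∀ q, Colg (k q) →ₗᵢ[ℝ] Colg N}

/-- **Self-similarity of the block state, in block coordinates.** -/
theorem psi_scale_le (ho : ∀ q q', q ≠ q' → ∀ u v, ⟪ε q u, ε q' v⟫_ℝ = 0) {g g' : ℝ}
    (hg' : T.g0 ≤ g') (hg : g' ≤ g) {w : F} (hw : w ∈ (T.D M ε ho).W) :
    ∫ Y : EY k, ‖(T.D M ε ho).psi (T.fac g) Y w -
      (((g / g') ^ ((Module.finrank ℝ (EY k) : ℝ) / 6) : ℝ) : ℂ) •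
        (T.D M ε ho).psi (T.fac g') (((g / g') ^ ((1 : ℝ) / 3)) • Y) w‖ ^ 2 ≤
      4 * Fintype.card κ * Real.sqrt (T.K * g' ^ (-(2 / 3) : ℝ)) * ‖w‖ ^ 2 := by
  have p1 : 1 ≤ g' := T.hg0.trans hg'
  have p' : 0 < g' := by linarith
  have p0 : 0 < g := by linarith
  have hr : 0 < g / g' := div_pos p0 p'
  have hl0 : 0 < (g / g') ^ (1 / 3 : ℝ) := Real.rpow_pos_of_pos hr _
  have hF : ∀ q, Fam (bn (k q)) (Rn (k q)) G (T.ψ (k q)) T.K g (T.φ g (k q)) :=
    T.fam g (hg'.trans hg)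
  have hF' : ∀ q, Fam (bn (k q)) (Rn (k q)) G (T.ψ (k q)) T.K g' (T.φ g' (k q)) := T.fam g' hg'
  have h1 := int_psi_sub_le (T.D M ε ho) (φ := T.fac g)
    (φ' := fun q => Us ((g / g') ^ (1 / 3 : ℝ)) (T.fac g' q))
    (fun q => (hF q).core.1.continuous) (fun q => (hF q).core.2.1)
    (fun q => (Us_contDiff (hF' q).core.1).continuous)
    (fun q => Us_hasCompactSupport hl0 (hF' q).core.2.1) (fun q => (hF q).norm)
    (fun q => by
      have h2 := int_Us hl0 (fun _ => 1) (T.fac g' q)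
      simp only [one_mul] at h2
      rw [h2]
      exact (hF' q).norm) hw
  have h3 : ∀ Y : EY k, (T.D M ε ho).psi (fun q => Us ((g / g') ^ (1 / 3 : ℝ)) (T.fac g' q)) Y w =
      (((g / g') ^ ((Module.finrank ℝ (EY k) : ℝ) / 6) : ℝ) : ℂ) •
        (T.D M ε ho).psi (T.fac g') (((g / g') ^ ((1 : ℝ) / 3)) • Y) w := by
    intro Y
    rw [psi_Us, prod_nrm hr, finrank_EY]
  simp only [h3] at h1
  refine h1.trans (mul_le_mul_of_nonneg_right ?_ (sq_nonneg _))
  have h4 : ∑ q, Real.sqrt (∫ y, ‖T.fac g q y - Us ((g / g') ^ (1 / 3 : ℝ)) (T.fac g' q) y‖ ^ 2) ≤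
      ∑ _q : κ, 2 * Real.sqrt (T.K * g' ^ (-(2 / 3) : ℝ)) :=
    Finset.sum_le_sum fun q _ => fam_close T.hK.le p1 hg (T.ground q) (hF q) (hF' q)
  rw [Finset.sum_const, Finset.card_univ, nsmul_eq_mul] at h4
  nlinarith

/-- Amplitudes are in the common vacuum space of the blocks. -/
theorem Fx_le_W (h : Link C k bb ε) {f : F} (hf : f ∈ C.Fx M G) : f ∈ (T.D M ε h.ho).W := by
  rw [BD.mem_W]
  intro q
  rw [mem_vacB_iff]
  intro β c
  have h1 : ε q c ∈ (LinearMap.range C.cen.toLinearMap)ᗮ := by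
    rw [Submodule.mem_orthogonal]
    rintro _ ⟨t, rfl⟩
    exact h.cen0 q t c
  have h2 := mem_vacOf.1 hf β _ h1
  unfold gan at h2
  simp only [LinearMap.sub_apply, LinearMap.smul_apply, LinearMap.sum_apply] at h2
  exact sub_eq_zero.1 h2

/-- **The field `Psi_scale` of `TPack`.** -/
theorem Psi_scale (h : Link C k bb ε) (δ : ℝ) (hδ : 0 < δ) :
    ∀ᶠ g0 in atTop, ∀ᶠ g in atTop, ∀ f ∈ C.Fx M G,
      ∫ Y : C.Blk, ‖T.Psi M ε h.ho g Y f -
        (((g / g0) ^ ((Module.finrank ℝ C.Blk : ℝ) / 6) : ℝ) : ℂ) •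
          T.Psi M ε h.ho g0 (((g / g0) ^ ((1 : ℝ) / 3)) • (Y : Cfg N)) f‖ ^ 2 ≤ δ * ‖f‖ ^ 2 := by
  have e1 : Tendsto (fun g : ℝ => 4 * Fintype.card κ * Real.sqrt (T.K * g ^ (-(2 / 3) : ℝ)))
      atTop (𝓝 (4 * Fintype.card κ * Real.sqrt (T.K * 0))) :=
    ((Real.continuous_sqrt.tendsto _).comp
      ((tendsto_rpow_neg_atTop (by norm_num : (0 : ℝ) < 2 / 3)).const_mul T.K)).const_mul _
  rw [mul_zero, Real.sqrt_zero, mul_zero] at e1
  filter_upwards [e1.eventually_le_const hδ, eventually_ge_atTop T.g0] with g' h1 hg'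
  filter_upwards [eventually_ge_atTop g'] with g hg f hf
  rw [h.integral_blk']
  have h2 : ∀ Y : EY k, (((g / g') ^ ((1 : ℝ) / 3)) • ((h.iBe Y : C.Blk) : Cfg N)) =
      ((h.iBe (((g / g') ^ ((1 : ℝ) / 3)) • Y) : C.Blk) : Cfg N) := fun Y => by
    rw [map_smul]
    rfl
  have h3 : Module.finrank ℝ C.Blk = Module.finrank ℝ (EY k) :=
    (h.iBe.toLinearEquiv.finrank_eq).symm
  simp only [h2, h3, T.Psi_iBe h (hg'.trans hg), T.Psi_iBe h hg']
  refine (psi_scale_le T h.ho hg' hg (Fx_le_W T h hf)).trans ?_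
  exact mul_le_mul_of_nonneg_right h1 (sq_nonneg _)

end field

end Crest.Agent.R330.PsiScale693

end
end

-- ▼ part R330/LinkCov_973
section

/-!
# Row 330 (helper973): 477's `LinkCov` for the channels `Geo692.chn b P`
-/

set_option autoImplicit false

noncomputable section

open Crest.MathPhysics.MatrixQM

namespace Crest.Agent.R330.Link973

open Crest.Agent.R330.Parts879 Crest.Agent.R330.Geo692 Crest.Agent.R330.Psi477
open Crest.Agent.R330.Stab2973

variable {N : ℕ} (b : ColorBasis N) (P : Lam N) (bn : ∀ n, ColorBasis n)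

/-- **Gauge transformations between regular positions of the channel of the partition `P`.** -/
theorem linkCov : LinkCov (chn b P) P.k bn (eps b P bn) where
  cov h X X' _ hX' hh := by
    obtain ⟨σ, hσ, a, h1, -⟩ := cov b P bn h X X' hX' hh
    exact ⟨σ, hσ, a, h1⟩
  iota q a := by
    have H := stK_iota (dec P) q a
    refine ⟨(dec P).iota q a, fun X => ?_, fun u => ?_, fun q' hq' u => ?_⟩
    · rw [chn_cf, cfX_eq_cenCfg]
      refine H.act_cenCfg b fun i => ?_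
      have h2 := congrArg (fun v : EuclideanSpace ℝ (Fin 9) => v i) (sum_k_pos b P X)
      simpa using h2
    · have h1 := H.adV_emb b (fun p => bn (P.k p)) q u
      rw [Function.update_self] at h1
      exact h1
    · have h1 := H.adV_emb b (fun p => bn (P.k p)) q' u
      rw [Function.update_of_ne hq', adV_one] at h1
      exact h1

end Crest.Agent.R330.Link973

end
end

-- ▼ part R330/PsiB2_726
section

/-!
# Row 330, S8-PSI (helper726): `PsiData` for 477's literal block state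

* `Psi_eq`, `s_eq` : `Fml.Psi`, `Fml.s` are `PsiB`, `sB`.
* `psiData T h hc : PsiData C M R G (T.Psi M ε h.ho) T.s`.
* `exists_small` : small data for all sizes.
* `exists_fml_below`, `psiData_chn` : the channels `Geo692.chn b P`.
-/

set_option autoImplicit false
set_option linter.unusedSectionVars false

open MeasureTheory Filter Topology Crest.MathPhysics.MatrixQM
open scoped ContDiff InnerProductSpace ENNReal

noncomputable section

namespace Crest.Agent.R330.PsiB726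

open Crest.Agent.R330.Bind6839 Crest.Agent.R330.Defs478 Crest.Agent.R330.SInd478
  Crest.Agent.R330.Pkg915 Crest.Agent.R330.LS839 Crest.Agent.R330.TDef414
  Crest.Agent.R330.Frame839 Crest.Agent.R330.Psi477 Crest.Agent.R330.TPk776
  Crest.Agent.R330.Parts879 Crest.Agent.R330.Geo692

section lit

variable {N p : ℕ} {b : ColorBasis N} {S : Type} [Group S] [Fintype S] {C : Chn b p S}
  {κ : Type*} [Fintype κ] [DecidableEq κ] {k : κ → ℕ} {bb : ∀ q, ColorBasis (k q)}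
  {ε : ∀ q, Colg (k q) →ₗᵢ[ℝ] Colg N}
  {F : Type*} [NormedAddCommGroup F] [InnerProductSpace ℂ F] [FiniteDimensional ℂ F]
  {M : FermionRep N F} {R : GaugeAction b M} {G : GammaNine}
  {Fn : ℕ → Type} [∀ n, NormedAddCommGroup (Fn n)] [∀ n, InnerProductSpace ℂ (Fn n)]
  [∀ n, FiniteDimensional ℂ (Fn n)] {bn : ∀ n, ColorBasis n} {Mn : ∀ n, FermionRep n (Fn n)}
  {Rn : ∀ n, GaugeAction (bn n) (Mn n)}

theorem Psi_eq (T : Fml bn Mn Rn G k) (h : Link C k bb ε) :
    T.Psi M ε h.ho = PsiB h (T.D M ε h.ho) T.fac T.g0 := by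
  funext g u
  by_cases hg : T.g0 ≤ g
  · ext f
    rw [T.Psi_of_le hg, PsiB_of_le h _ hg]
  · rw [T.Psi_of_lt hg, PsiB_of_lt h _ hg]

theorem s_eq (T : Fml bn Mn Rn G k) : T.s = sB κ T.g0 := by
  funext g
  unfold sB
  by_cases hg : T.g0 ≤ g
  · rw [T.s_of_le hg, if_pos hg]
  · rw [T.s_of_lt hg, if_neg hg]

/-- **All properties of the block state.** -/
theorem psiData (T : Fml bn Mn Rn G k) (h : Link C k (fun q => bn (k q)) ε)
    (hc : LinkCov C k bn ε) : PsiData C M R G (T.Psi M ε h.ho) T.s := by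
  have hcov := fun h' X X' hX hX' he g Y hY f hf =>
    Fml.Psi_cov (M := M) R T h hc h' X X' hX hX' he g Y hY f hf
  have hsc := PsiScale693.Psi_scale (M := M) T h
  rw [Psi_eq T h] at hcov hsc ⊢
  rw [s_eq]
  exact psiData_of (Rb := fun q => Rn (k q)) (ψ := fun q => T.ψ (k q)) rfl T.hg0 T.fam hcov
    (fun h' X hX he f hf => stab_fix R h' X hX he f hf) hsc

end lit

/-! ## the small data -/


variable {N : ℕ} {F : Type*} [NormedAddCommGroup F] [InnerProductSpace ℂ F]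
  [FiniteDimensional ℂ F]
  {Fn : ℕ → Type} [∀ n, NormedAddCommGroup (Fn n)] [∀ n, InnerProductSpace ℂ (Fn n)]
  [∀ n, FiniteDimensional ℂ (Fn n)]



variable {bn : ∀ n, ColorBasis n} {Mn : ∀ n, FermionRep n (Fn n)}
  {Rn : ∀ n, GaugeAction (bn n) (Mn n)} {G : GammaNine}

/-- **The block state of the channel of a partition.** -/
theorem psiData_chn (b : ColorBasis N) (M : FermionRep N F) (R : GaugeAction b M) (P : Lam N)
    (T : Fml bn Mn Rn G P.k) : PsiData (chn b P) M R G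
      (T.Psi M (Link973.eps b P bn) (Link973.link b P bn).ho) T.s :=
  psiData T (Link973.link b P bn) (Link973.linkCov b P bn)

end Crest.Agent.R330.PsiB726

end
end

-- ▼ part R330/Prod7_494
section

/-!
# Row 330 (helper494): the product projection is `Ψ Ψ^*`, part 1: algebra

Over 161's factorisation (`wop`, `pr`):

* `wadj h M e f` : the adjoint of `wop f`; `bilin_wadj`, `norm_wadj_le`.
* `comm_PE`, `comm_wop`, `comm_wadj` : an operator commuting with all `θ (e x)` commutes with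
  `PE`, `wop f`, `(wop f)^*`.
* `wadj_wop` : `(wop f)^* (wop g w) = ⟪f, g⟫ PE w`.
* `pr_comm_wadj` : the product over the other (even) blocks commutes with `(wop f)^*`.
-/

set_option autoImplicit false
set_option linter.unusedSectionVars false

open MeasureTheory Filter Topology Crest.MathPhysics.MatrixQM
open scoped ContDiff InnerProductSpace ENNReal

noncomputable section

namespace Crest.Agent.R330.Prod494

open Crest.Agent.R330.Cliff442 Crest.Agent.R330.Cliff442.CRep Crest.Agent.R330.Fact161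

section one

variable {V V₁ F F₁ : Type*} [NormedAddCommGroup V] [InnerProductSpace ℝ V]
  [NormedAddCommGroup V₁] [InnerProductSpace ℝ V₁]
  [NormedAddCommGroup F] [InnerProductSpace ℂ F] [NormedAddCommGroup F₁] [InnerProductSpace ℂ F₁]
  [FiniteDimensional ℂ F] {ι : Type*}
  {M₁ : CRep V₁ F₁} {u v : ι → V₁} {s : Finset ι} {Ω : F₁} (h : Pol M₁ u v s Ω)
  (M : CRep V F) (e : V₁ →ₗᵢ[ℝ] V)

/-- the adjoint of `wop f` -/
def wadj (f : F₁) (w : F) : F := (wop h M e f).adjoint w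

theorem inner_wadj_left (f : F₁) (w g : F) : ⟪wadj h M e f w, g⟫_ℂ = ⟪w, wop h M e f g⟫_ℂ := by
  unfold wadj
  rw [LinearMap.adjoint_inner_left]

theorem inner_wadj_right (f : F₁) (w g : F) : ⟪g, wadj h M e f w⟫_ℂ = ⟪wop h M e f g, w⟫_ℂ := by
  unfold wadj
  rw [LinearMap.adjoint_inner_right]

theorem wadj_add (f : F₁) (w w' : F) :
    wadj h M e f (w + w') = wadj h M e f w + wadj h M e f w' := map_add _ _ _

theorem wadj_smul (f : F₁) (c : ℂ) (w : F) : wadj h M e f (c • w) = c • wadj h M e f w :=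
  map_smul _ _ _

theorem wadj_zero (f : F₁) : wadj h M e f 0 = 0 := map_zero _

theorem wadj_add_left (f g : F₁) (w : F) :
    wadj h M e (f + g) w = wadj h M e f w + wadj h M e g w := by
  refine ext_inner_right ℂ fun z => ?_
  rw [inner_add_left, inner_wadj_left, inner_wadj_left, inner_wadj_left, map_add,
    LinearMap.add_apply, inner_add_right]

theorem wadj_smul_left (c : ℂ) (f : F₁) (w : F) :
    wadj h M e (c • f) w = (starRingEnd ℂ) c • wadj h M e f w := by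
  refine ext_inner_right ℂ fun z => ?_
  rw [inner_smul_left, inner_wadj_left, inner_wadj_left, map_smul, LinearMap.smul_apply,
    inner_smul_right, Complex.conj_conj]

theorem norm_wadj_le (f : F₁) (w : F) : ‖wadj h M e f w‖ ≤ ‖f‖ * ‖w‖ := by
  by_cases h0 : ‖wadj h M e f w‖ = 0
  · rw [h0]; positivity
  have h1 : ‖wadj h M e f w‖ ^ 2 ≤ ‖w‖ * (‖f‖ * ‖wadj h M e f w‖) := by
    have h2 : ((‖wadj h M e f w‖ ^ 2 : ℝ) : ℂ) = ⟪w, wop h M e f (wadj h M e f w)⟫_ℂ := by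
      rw [← inner_wadj_left, isc]
    have h3 : ‖wadj h M e f w‖ ^ 2 = ‖⟪w, wop h M e f (wadj h M e f w)⟫_ℂ‖ := by
      rw [← h2, Complex.norm_real, Real.norm_of_nonneg (sq_nonneg _)]
    rw [h3]
    exact (norm_inner_le_norm _ _).trans (mul_le_mul_of_nonneg_left (norm_wop_le h M e _ _)
      (norm_nonneg _))
  have h4 : 0 < ‖wadj h M e f w‖ := lt_of_le_of_ne (norm_nonneg _) (Ne.symm h0)
  have h5 : ‖wadj h M e f w‖ * ‖wadj h M e f w‖ ≤ (‖f‖ * ‖w‖) * ‖wadj h M e f w‖ := by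
    calc _ = ‖wadj h M e f w‖ ^ 2 := by ring
      _ ≤ _ := h1
      _ = _ := by ring
  exact le_of_mul_le_mul_right h5 h4

theorem bilin_wadj : IsBoundedBilinearMap ℝ fun p : F₁ × F => wadj h M e p.1 p.2 where
  add_left x y z := wadj_add_left h M e x y z
  smul_left c x y := by
    have h1 : (c • x : F₁) = (c : ℂ) • x := (Complex.coe_smul c x).symm
    change wadj h M e (c • x) y = c • wadj h M e x y
    rw [h1, wadj_smul_left, Complex.conj_ofReal, Complex.coe_smul]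
  add_right x y z := wadj_add h M e x y z
  smul_right c x y := by
    have h1 : (c • y : F) = (c : ℂ) • y := (Complex.coe_smul c y).symm
    change wadj h M e x (c • y) = c • wadj h M e x y
    rw [h1, wadj_smul, Complex.coe_smul]
  bound := ⟨1, one_pos, fun x y => by rw [one_mul]; exact norm_wadj_le h M e x y⟩

theorem continuous_wadj : Continuous fun p : F₁ × F => wadj h M e p.1 p.2 :=
  (bilin_wadj h M e).continuous

theorem continuous_wop2 : Continuous fun p : F₁ × F => wop h M e p.1 p.2 :=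
  (bilin_wop h M e).continuous


theorem wadj_mem (f : F₁) (w : F) : wadj h M e f w ∈ vacE M e u v s := by
  have h1 : PE M e u v s (wadj h M e f w) = wadj h M e f w := by
    refine ext_inner_left ℂ fun z => ?_
    rw [← inner_PE, inner_wadj_right, inner_wadj_right, wop_PE]
  rw [← h1]
  exact PE_mem M e u v s _

theorem wadj_wop (f g : F₁) (w : F) :
    wadj h M e f (wop h M e g w) = ⟪f, g⟫_ℂ • PE M e u v s w := by
  refine ext_inner_left ℂ fun z => ?_
  rw [inner_wadj_right, inner_wop, inner_smul_right, inner_PE, mul_comm]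

/-- an operator commuting with the block -/
def CommB (U : F →ₗ[ℂ] F) : Prop := ∀ x f, U (M.θ (e x) f) = M.θ (e x) (U f)

variable {M e}

theorem CommB.adjoint {U : F →ₗ[ℂ] F} (hU : CommB M e U) : CommB M e U.adjoint := by
  intro x f
  refine ext_inner_right ℂ fun g => ?_
  rw [LinearMap.adjoint_inner_left, M.symm, ← hU, M.symm, LinearMap.adjoint_inner_left]

theorem CommB.mem {U : F →ₗ[ℂ] F} (hU : CommB M e U) {w : F} (hw : w ∈ vacE M e u v s) :
    U w ∈ vacE M e u v s := by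
  refine mem_vacE.2 fun k hk => ?_
  rw [ann_apply, ← hU, ← hU, ← map_smul, ← map_add, ← ann_apply, mem_vacE.1 hw k hk, map_zero]

theorem CommB.PE {U : F →ₗ[ℂ] F} (hU : CommB M e U) (w : F) :
    PE M e u v s (U w) = U (Fact161.PE M e u v s w) := by
  refine Submodule.eq_starProjection_of_mem_orthogonal (hU.mem (PE_mem M e u v s w)) ?_
  rw [← map_sub]
  intro z hz
  rw [← LinearMap.adjoint_inner_left]
  have h1 := hU.adjoint.mem hz
  have h2 : w - Fact161.PE M e u v s w ∈ (vacE M e u v s)ᗮ :=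
    Submodule.sub_starProjection_mem_orthogonal w
  exact (Submodule.mem_orthogonal _ _).1 h2 _ h1

theorem CommB.wop {U : F →ₗ[ℂ] F} (hU : CommB M e U) (f : F₁) (w : F) :
    U (wop h M e f w) = Fact161.wop h M e f (U w) := by
  obtain ⟨hw, h1⟩ := comm_Op h M M e (e' := e) hU ⟨Fact161.PE M e u v s w, PE_mem M e u v s w⟩
  rw [wop_apply, h1 f, ← wop_PE h M e f (U w), hU.PE w, wop_of_mem h M e f hw]

/-- **Operators commuting with the block commute with the adjoint of `wop f`.** -/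
theorem CommB.wadj {U : F →ₗ[ℂ] F} (hU : CommB M e U) (f : F₁) (w : F) :
    wadj h M e f (U w) = U (Prod494.wadj h M e f w) := by
  refine ext_inner_right ℂ fun g => ?_
  rw [inner_wadj_left, ← LinearMap.adjoint_inner_right, hU.adjoint.wop h f g,
    ← LinearMap.adjoint_inner_right U, inner_wadj_left]

end one

section fam

variable {V F : Type*} [NormedAddCommGroup V] [InnerProductSpace ℝ V]
  [NormedAddCommGroup F] [InnerProductSpace ℂ F]
  [FiniteDimensional ℂ F] {κ : Type*} {Vf Ff ιf : κ → Type*}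
  [∀ p, NormedAddCommGroup (Vf p)] [∀ p, InnerProductSpace ℝ (Vf p)]
  [∀ p, NormedAddCommGroup (Ff p)] [∀ p, InnerProductSpace ℂ (Ff p)]
  {M₁ : ∀ p, CRep (Vf p) (Ff p)} {u v : ∀ p, ιf p → Vf p} {s : ∀ p, Finset (ιf p)}
  {Ω : ∀ p, Ff p} (h : ∀ p, Pol (M₁ p) (u p) (v p) (s p) (Ω p)) (M : CRep V F)
  {e : ∀ p, Vf p →ₗᵢ[ℝ] V}

/-- the product as a linear map -/
def prL (l : List κ) (f : ∀ p, Ff p) : F →ₗ[ℂ] F where
  toFun w := pr h M e l f w
  map_add' w w' := pr_add h M l f w w'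
  map_smul' c w := pr_smul h M l f c w

theorem prL_apply (l : List κ) (f : ∀ p, Ff p) (w : F) :
    prL h M (e := e) l f w = pr h M e l f w := rfl

theorem prL_comm (ho : ∀ p q, p ≠ q → ∀ x y, ⟪e p x, e q y⟫_ℝ = 0) {l : List κ} {q : κ}
    (hq : q ∉ l) {f : ∀ p, Ff p} (hf : ∀ p ∈ l, par (h p) (f p) = f p) :
    CommB M (e q) (prL h M (e := e) l f) := by
  intro x w
  rw [prL_apply, prL_apply, th_perp_pr_even h M ho (fun p hp y => ho q p
    (fun hqp => hq (hqp ▸ hp)) x y) hf]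

/-- the product over the other (even) blocks commutes with `(wop f)^*` -/
theorem pr_comm_wadj (ho : ∀ p q, p ≠ q → ∀ x y, ⟪e p x, e q y⟫_ℝ = 0) {l : List κ} {q : κ}
    (hq : q ∉ l) {f : ∀ p, Ff p} (hf : ∀ p ∈ l, par (h p) (f p) = f p) (g : Ff q) (w : F) :
    wadj (h q) M (e q) g (pr h M e l f w) = pr h M e l f (wadj (h q) M (e q) g w) :=
  (prL_comm h M ho hq hf).wadj (h q) g w

end fam

end Crest.Agent.R330.Prod494

end
end

-- ▼ part R330/Prod8_494
section

/-!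
# Row 330 (helper494): the product projection is `Ψ Ψ^*`, part 2: the formula

* `pproj_eq` : `pproj T L ψ φ (y, x') = wop (ψ y) (∫ z, (wop (ψ z))^* φ(z, x'))` when `L` comes from
  161's factorisation (`L.J i f = wop f (W i)`).
* `bl l φ` : the iterated adjoint, `bl (p :: l) φ x = ∫ z, (wop (ψ_p z))^* (bl l φ) (x with y_p = z)`.
* `bl_reg`, `bl_upd`, `bl_mem`, `bl_mem_sub`.
* `lprod_eq` : `lprod (pproj ..) l φ x = pr l (ψ_p(y_p)) (bl l φ x)`.
-/

set_option autoImplicit false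
set_option linter.unusedSectionVars false

open MeasureTheory Filter Topology Crest.MathPhysics.MatrixQM
open scoped ContDiff InnerProductSpace ENNReal

noncomputable section

namespace Crest.Agent.R330.Prod494

open Crest.Agent.R330.Cliff442 Crest.Agent.R330.Cliff442.CRep Crest.Agent.R330.Fact161

/-- integrals stay in a subspace -/
theorem integral_mem_sub {X F : Type*} [MeasurableSpace X] {μ : Measure X} [NormedAddCommGroup F]
    [InnerProductSpace ℂ F] [FiniteDimensional ℂ F] (K : Submodule ℂ F) {f : X → F}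
    (hf : ∀ x, f x ∈ K) : ∫ x, f x ∂μ ∈ K := by
  by_cases hi : Integrable f μ
  · have h1 : K.starProjection (∫ x, f x ∂μ) = ∫ x, f x ∂μ := by
      rw [← ContinuousLinearMap.integral_comp_comm _ hi]
      refine integral_congr_ae (Eventually.of_forall fun x => ?_)
      exact Submodule.starProjection_eq_self_iff.2 (hf x)
    exact Submodule.starProjection_eq_self_iff.1 h1
  · rw [integral_undef hi]
    exact K.zero_mem

section upd

variable {N N' : ℕ} {E E' E'' : Type*} [NormedAddCommGroup E] [InnerProductSpace ℝ E]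
  [FiniteDimensional ℝ E] [MeasurableSpace E] [BorelSpace E]
  [NormedAddCommGroup E'] [InnerProductSpace ℝ E']
  [FiniteDimensional ℝ E'] [MeasurableSpace E'] [BorelSpace E']
  [NormedAddCommGroup E''] [InnerProductSpace ℝ E'']
  [FiniteDimensional ℝ E''] [MeasurableSpace E''] [BorelSpace E'']

/-- `x` with the block variable replaced by `z` -/
def upd (T : E ≃ₗᵢ[ℝ] WithLp 2 (Cfg N × E')) (x : E) (z : Cfg N) : E := pt T z (T x).snd

theorem upd_self (T : E ≃ₗᵢ[ℝ] WithLp 2 (Cfg N × E')) (x : E) : upd T x (T x).fst = x := pt_T T x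

theorem fst_upd (T : E ≃ₗᵢ[ℝ] WithLp 2 (Cfg N × E')) (x : E) (z : Cfg N) :
    (T (upd T x z)).fst = z := T_pt_fst T _ _


theorem upd_upd (T : E ≃ₗᵢ[ℝ] WithLp 2 (Cfg N × E')) (x : E) (z z' : Cfg N) :
    upd T (upd T x z) z' = upd T x z' := by
  unfold upd
  rw [T_pt_snd]

theorem upd_eq (T : E ≃ₗᵢ[ℝ] WithLp 2 (Cfg N × E')) (x : E) (z : Cfg N) :
    upd T x z = x + emb T (z - (T x).fst) := by
  conv_rhs => rw [← pt_T T x]
  rw [← pt_add_emb]
  unfold upd
  rw [T_pt_fst]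
  congr 1
  abel

theorem continuous_upd (T : E ≃ₗᵢ[ℝ] WithLp 2 (Cfg N × E')) :
    Continuous fun p : E × Cfg N => upd T p.1 p.2 := by
  unfold upd
  refine (continuous_pt T).comp (continuous_snd.prodMk ?_)
  exact (continuous_snd.comp (ptH T).symm.continuous).comp continuous_fst

theorem continuous_upd_right (T : E ≃ₗᵢ[ℝ] WithLp 2 (Cfg N × E')) (x : E) :
    Continuous fun z : Cfg N => upd T x z := by
  have h := continuous_upd T
  exact h.comp (Continuous.prodMk continuous_const continuous_id)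

theorem continuous_upd_left (T : E ≃ₗᵢ[ℝ] WithLp 2 (Cfg N × E')) (z : Cfg N) :
    Continuous fun x : E => upd T x z := by
  have h := continuous_upd T
  exact h.comp (Continuous.prodMk continuous_id continuous_const)

theorem Perp.fst_upd {T : E ≃ₗᵢ[ℝ] WithLp 2 (Cfg N × E')}
    {T' : E ≃ₗᵢ[ℝ] WithLp 2 (Cfg N' × E'')} (h : Perp T T') (x : E) (z : Cfg N) :
    (T' (upd T x z)).fst = (T' x).fst := by
  unfold upd
  rw [h.fst_pt z (T x).fst (T x).snd, pt_T]

theorem Perp.upd_comm {T : E ≃ₗᵢ[ℝ] WithLp 2 (Cfg N × E')}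
    {T' : E ≃ₗᵢ[ℝ] WithLp 2 (Cfg N' × E'')} (h : Perp T T') (x : E) (z : Cfg N) (z' : Cfg N') :
    upd T (upd T' x z') z = upd T' (upd T x z) z' := by
  rw [upd_eq T, upd_eq T' (upd T x z), h.fst_upd, h.symm.fst_upd, upd_eq T x, upd_eq T' x]
  abel

end upd

/-! ### One block -/

section meas

variable {X F₁ F V V₁ ι' : Type*} [MeasurableSpace X] {μ : Measure X}
  [NormedAddCommGroup F₁] [InnerProductSpace ℂ F₁]
  [NormedAddCommGroup F] [InnerProductSpace ℂ F] [FiniteDimensional ℂ F]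
  [NormedAddCommGroup V] [InnerProductSpace ℝ V]
  [NormedAddCommGroup V₁] [InnerProductSpace ℝ V₁]
  {M₁ : CRep V₁ F₁} {u v : ι' → V₁} {s : Finset ι'} {Ω : F₁} (h : Pol M₁ u v s Ω)
  (M : CRep V F) (e : V₁ →ₗᵢ[ℝ] V)

theorem aesm_wadj {f : X → F₁} {g : X → F} (hf : AEStronglyMeasurable f μ)
    (hg : AEStronglyMeasurable g μ) : AEStronglyMeasurable (fun z => wadj h M e (f z) (g z)) μ := by
  have h2 : AEStronglyMeasurable (fun z => (f z, g z)) μ := hf.prodMk hg
  have h3 := (continuous_wadj h M e).comp_aestronglyMeasurable h2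
  exact h3

theorem cont_wadj {Y : Type*} [TopologicalSpace Y] (a : F₁) {g : Y → F} (hg : Continuous g) :
    Continuous fun z => wadj h M e a (g z) := by
  have h2 : Continuous fun z => (a, g z) := continuous_const.prodMk hg
  have h3 := (continuous_wadj h M e).comp h2
  exact h3

end meas

section oneblock

variable {N : ℕ} {F₁ F : Type*} [NormedAddCommGroup F₁] [InnerProductSpace ℂ F₁]
  [FiniteDimensional ℂ F₁] [NormedAddCommGroup F] [InnerProductSpace ℂ F] [FiniteDimensional ℂ F]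
  {ι : Type*} [Fintype ι] [DecidableEq ι]
  {Mf : FermionRep N F₁} {θ : Fin 16 → Fin (N ^ 2 - 1) → (F →ₗ[ℂ] F)} (L : Mult Mf θ ι)
  {V V₁ ι' : Type*} [NormedAddCommGroup V] [InnerProductSpace ℝ V]
  [NormedAddCommGroup V₁] [InnerProductSpace ℝ V₁]
  {M₁ : CRep V₁ F₁} {u v : ι' → V₁} {s : Finset ι'} {Ω : F₁} (h : Pol M₁ u v s Ω)
  (M : CRep V F) (e : V₁ →ₗᵢ[ℝ] V) (W : OrthonormalBasis ι ℂ (vacE M e u v s))
  (hJ : ∀ i f, L.J i f = wop h M e f (W i))
include hJ

theorem inner_comp_eq (i : ι) (f : F₁) (w : F) :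
    ⟪f, L.comp i w⟫_ℂ = ⟪(W i : F), wadj h M e f w⟫_ℂ := by
  rw [← inner_conj_symm, L.inner_comp, inner_conj_symm, hJ, inner_wadj_right]

theorem sum_J_smul (a : F) (g : F₁) :
    ∑ i, L.J i (⟪(W i : F), a⟫_ℂ • g) = wop h M e g a := by
  have h1 : ∀ i, L.J i (⟪(W i : F), a⟫_ℂ • g) = wop h M e g (⟪(W i : F), a⟫_ℂ • (W i : F)) := by
    intro i
    rw [map_smul, hJ, map_smul]
  simp only [h1]
  rw [← map_sum, ← wop_PE h M e g a]
  congr 1
  have h2 := W.sum_repr' ⟨PE M e u v s a, PE_mem M e u v s a⟩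
  have h3 : ((∑ i, ⟪W i, (⟨PE M e u v s a, PE_mem M e u v s a⟩ : vacE M e u v s)⟫_ℂ • W i :
      vacE M e u v s) : F) = PE M e u v s a := by
    rw [h2]
  rw [← h3, Submodule.coe_sum]
  refine Finset.sum_congr rfl fun i _ => ?_
  rw [Submodule.coe_smul]
  congr 1
  change _ = ⟪(W i : F), PE M e u v s a⟫_ℂ
  rw [← inner_PE, PE_of_mem (W i).2]

variable {E E' : Type*} [NormedAddCommGroup E] [InnerProductSpace ℝ E] [FiniteDimensional ℝ E]
  [MeasurableSpace E] [BorelSpace E] [NormedAddCommGroup E'] [InnerProductSpace ℝ E']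
  [FiniteDimensional ℝ E'] [MeasurableSpace E'] [BorelSpace E']

/-- **The projection as `A A^*`.** -/
theorem pproj_eq (T : E ≃ₗᵢ[ℝ] WithLp 2 (Cfg N × E')) {ψ : Cfg N → F₁} {φ : E → F} {x : E}
    (hi : Integrable fun z => wadj h M e (ψ z) (φ (upd T x z))) :
    pproj T L ψ φ x = wop h M e (ψ (T x).fst) (∫ z, wadj h M e (ψ z) (φ (upd T x z))) := by
  unfold pproj proj1
  rw [← sum_J_smul L h M e W hJ]
  refine Finset.sum_congr rfl fun i _ => ?_
  congr 2
  have h1 : ∀ z, ⟪ψ z, L.comp i (fib T φ (T x).snd z)⟫_ℂ =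
      ⟪(W i : F), wadj h M e (ψ z) (φ (upd T x z))⟫_ℂ := fun z =>
    inner_comp_eq L h M e W hJ i (ψ z) _
  simp only [h1]
  rw [integral_inner hi]

end oneblock

/-! ### Several blocks -/

section fam

variable {κ : Type*} {k : κ → ℕ} {Ff : κ → Type*} [∀ p, NormedAddCommGroup (Ff p)]
  [∀ p, InnerProductSpace ℂ (Ff p)] [∀ p, FiniteDimensional ℂ (Ff p)]
  {F : Type*} [NormedAddCommGroup F] [InnerProductSpace ℂ F] [FiniteDimensional ℂ F]
  {ι : κ → Type*} [∀ p, Fintype (ι p)] [∀ p, DecidableEq (ι p)]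
  {E : Type*} [NormedAddCommGroup E] [InnerProductSpace ℝ E] [FiniteDimensional ℝ E]
  [MeasurableSpace E] [BorelSpace E] {E' : κ → Type*} [∀ p, NormedAddCommGroup (E' p)]
  [∀ p, InnerProductSpace ℝ (E' p)] [∀ p, FiniteDimensional ℝ (E' p)]
  [∀ p, MeasurableSpace (E' p)] [∀ p, BorelSpace (E' p)]
  {Mf : ∀ p, FermionRep (k p) (Ff p)}
  {θ : ∀ p, Fin 16 → Fin (k p ^ 2 - 1) → (F →ₗ[ℂ] F)}
  {V : Type*} {Vf ιf : κ → Type*} [NormedAddCommGroup V] [InnerProductSpace ℝ V]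
  [∀ p, NormedAddCommGroup (Vf p)] [∀ p, InnerProductSpace ℝ (Vf p)]
  {M₁ : ∀ p, CRep (Vf p) (Ff p)} {u v : ∀ p, ιf p → Vf p} {s : ∀ p, Finset (ιf p)}
  {Ω : ∀ p, Ff p} (h : ∀ p, Pol (M₁ p) (u p) (v p) (s p) (Ω p)) (M : CRep V F)
  (e : ∀ p, Vf p →ₗᵢ[ℝ] V) (T : ∀ p, E ≃ₗᵢ[ℝ] WithLp 2 (Cfg (k p) × E' p))
  (ψ : ∀ p, Cfg (k p) → Ff p)

/-- the iterated adjoint -/
def bl (l : List κ) (φ : E → F) : E → F :=
  l.foldr (fun p χ x => ∫ z, wadj (h p) M (e p) (ψ p z) (χ (upd (T p) x z))) φ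


theorem bl_cons (p : κ) (l : List κ) (φ : E → F) (x : E) :
    bl h M e T ψ (p :: l) φ x =
      ∫ z, wadj (h p) M (e p) (ψ p z) (bl h M e T ψ l φ (upd (T p) x z)) := rfl

/-- continuous, bounded, with bounded support in the variables of the blocks outside `l` -/
def RegOut (l : List κ) (χ : E → F) : Prop :=
  Continuous χ ∧ (∃ C, ∀ x, ‖χ x‖ ≤ C) ∧
    ∃ R, ∀ p, p ∉ l → ∀ x, R < ‖(T p x).fst‖ → χ x = 0

variable {T ψ}

theorem regOut_of_compact {φ : E → F} (hφ : Continuous φ) (hc : HasCompactSupport φ) :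
    RegOut T [] φ := by
  refine ⟨hφ, ?_, ?_⟩
  · obtain ⟨C, hC⟩ := hφ.bounded_above_of_compact_support hc
    exact ⟨C, hC⟩
  · obtain ⟨R, hR⟩ := hc.isBounded.subset_closedBall (0 : E)
    refine ⟨R, fun p _ x hx => ?_⟩
    by_contra h0
    have h1 : x ∈ Metric.closedBall (0 : E) R := hR (subset_tsupport _ h0)
    rw [mem_closedBall_zero_iff] at h1
    have h2 : ‖(T p x).fst‖ ≤ ‖x‖ := by
      have h3 := WithLp.prod_norm_sq_eq_of_L2 (T p x)
      rw [(T p).norm_map] at h3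
      have h4 : ‖(T p x).fst‖ ^ 2 ≤ ‖x‖ ^ 2 := by nlinarith [sq_nonneg ‖(T p x).snd‖]
      exact (sq_le_sq₀ (norm_nonneg _) (norm_nonneg _)).1 h4
    linarith

theorem integrable_ind {N : ℕ} {F₁ : Type*} [NormedAddCommGroup F₁] {ψ : Cfg N → F₁}
    (hψ : MemLp ψ 2 volume) (C R : ℝ) :
    Integrable ((Metric.closedBall (0 : Cfg N) R).indicator fun z => C * ‖ψ z‖) := by
  rw [integrable_indicator_iff Metric.isClosed_closedBall.measurableSet]
  have : IsFiniteMeasure (volume.restrict (Metric.closedBall (0 : Cfg N) R)) :=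
    ⟨by rw [Measure.restrict_apply_univ]; exact measure_closedBall_lt_top⟩
  have h1 : MemLp ψ 2 (volume.restrict (Metric.closedBall (0 : Cfg N) R)) := hψ.restrict _
  exact ((h1.integrable (by norm_num)).norm).const_mul C

/-- the integrand of one step -/
theorem step_bound {l : List κ} {p : κ} (hp : p ∉ l) {χ : E → F} (hχ : RegOut T l χ)
    (hψ : MemLp (ψ p) 2 volume) :
    ∃ b : Cfg (k p) → ℝ, Integrable b ∧
      (∀ x, AEStronglyMeasurable (fun z => wadj (h p) M (e p) (ψ p z) (χ (upd (T p) x z)))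
        volume) ∧
      ∀ x z, ‖wadj (h p) M (e p) (ψ p z) (χ (upd (T p) x z))‖ ≤ b z := by
  obtain ⟨hc, ⟨C, hC⟩, R, hR⟩ := hχ
  refine ⟨_, integrable_ind hψ C R, fun x => ?_, fun x z => ?_⟩
  · have h1 : Continuous fun z => χ (upd (T p) x z) := hc.comp (continuous_upd_right (T p) x)
    exact aesm_wadj (h p) M (e p) hψ.1 h1.aestronglyMeasurable
  · by_cases hz : z ∈ Metric.closedBall (0 : Cfg (k p)) R
    · rw [Set.indicator_of_mem hz]
      refine (norm_wadj_le (h p) M (e p) _ _).trans ?_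
      rw [mul_comm]
      exact mul_le_mul_of_nonneg_right (hC _) (norm_nonneg _)
    · rw [Set.indicator_of_notMem hz]
      have h1 : R < ‖z‖ := by
        rw [mem_closedBall_zero_iff, not_le] at hz
        exact hz
      rw [hR p hp _ (by rw [fst_upd]; exact h1), wadj_zero, norm_zero]

theorem step_integrable {l : List κ} {p : κ} (hp : p ∉ l) {χ : E → F} (hχ : RegOut T l χ)
    (hψ : MemLp (ψ p) 2 volume) (x : E) :
    Integrable fun z => wadj (h p) M (e p) (ψ p z) (χ (upd (T p) x z)) := by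
  obtain ⟨b, hb, hm, hle⟩ := step_bound h M e hp hχ hψ
  exact hb.mono' (hm x) (Eventually.of_forall (hle x))

variable (hT : ∀ p q, p ≠ q → Perp (T p) (T q))
include hT

theorem bl_reg (hψ : ∀ p, MemLp (ψ p) 2 volume) {φ : E → F} (hφ : RegOut T [] φ)
    (l : List κ) (hl : l.Nodup) : RegOut T l (bl h M e T ψ l φ) := by
  induction l with
  | nil => exact hφ
  | cons p l ih =>
    obtain ⟨hp, hl'⟩ := List.nodup_cons.1 hl
    have hχ := ih hl'
    obtain ⟨b, hb, hm, hle⟩ := step_bound h M e hp hχ (hψ p)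
    refine ⟨?_, ⟨∫ z, b z, fun x => ?_⟩, ?_⟩
    · refine continuous_of_dominated hm (fun x => Eventually.of_forall (hle x)) hb
        (Eventually.of_forall fun z => ?_)
      have h1 : Continuous fun x => bl h M e T ψ l φ (upd (T p) x z) :=
        hχ.1.comp (continuous_upd_left (T p) z)
      exact cont_wadj (h p) M (e p) (ψ p z) h1
    · exact norm_integral_le_of_norm_le hb (Eventually.of_forall (hle x))
    · obtain ⟨R, hR⟩ := hχ.2.2
      refine ⟨R, fun q hq x hx => ?_⟩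
      have hqp : q ≠ p := fun e => hq (e ▸ List.mem_cons_self)
      have hql : q ∉ l := fun h0 => hq (List.mem_cons_of_mem _ h0)
      rw [bl_cons]
      have h1 : ∀ z, wadj (h p) M (e p) (ψ p z) (bl h M e T ψ l φ (upd (T p) x z)) = 0 := by
        intro z
        rw [hR q hql _ (by rw [(hT p q (Ne.symm hqp)).fst_upd]; exact hx), wadj_zero]
      simp [h1]

theorem bl_upd {φ : E → F} (l : List κ) (hl : l.Nodup) {q : κ} (hq : q ∈ l) (x : E)
    (z : Cfg (k q)) : bl h M e T ψ l φ (upd (T q) x z) = bl h M e T ψ l φ x := by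
  induction l generalizing x with
  | nil => exact absurd hq List.not_mem_nil
  | cons p l ih =>
    obtain ⟨hp, hl'⟩ := List.nodup_cons.1 hl
    rw [bl_cons, bl_cons]
    by_cases hqp : q = p
    · subst hqp
      simp only [upd_upd]
    · have hq' : q ∈ l := (List.mem_cons.1 hq).resolve_left hqp
      refine integral_congr_ae (Eventually.of_forall fun y => ?_)
      simp only
      rw [(hT p q (Ne.symm hqp)).upd_comm, ih hl' hq']

omit hT in
theorem bl_mem_sub {φ : E → F} (K : Submodule ℂ F) (l : List κ)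
    (hK : ∀ p ∈ l, ∀ (f : Ff p) (w : F), w ∈ K → wadj (h p) M (e p) f w ∈ K)
    (hφ : ∀ x, φ x ∈ K) (x : E) : bl h M e T ψ l φ x ∈ K := by
  induction l generalizing x with
  | nil => exact hφ x
  | cons p l ih =>
    rw [bl_cons]
    refine integral_mem_sub K fun z => ?_
    exact hK p List.mem_cons_self _ _
      (ih (fun q hq => hK q (List.mem_cons_of_mem _ hq)) _)

variable (ho : ∀ p q, p ≠ q → ∀ x y, ⟪e p x, e q y⟫_ℝ = 0)
include ho

omit hT in
theorem wadj_mem_of_ne {p q : κ} (hpq : p ≠ q) (f : Ff p) {w : F}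
    (hw : w ∈ vacE M (e q) (u q) (v q) (s q)) :
    wadj (h p) M (e p) f w ∈ vacE M (e q) (u q) (v q) (s q) := by
  have h1 : ∀ x, M.θ (e q x) (wadj (h p) M (e p) f w) =
      wadj (h p) M (e p) (par (h p) f) (M.θ (e q x) w) := fun x =>
    adj_wop_th (h p) M (e p) (fun y => ho q p (Ne.symm hpq) x y) f w
  refine mem_vacE.2 fun j hj => ?_
  rw [ann_apply, h1, h1, ← wadj_smul, ← wadj_add, ← ann_apply, mem_vacE.1 hw j hj, wadj_zero]

omit hT in
theorem bl_mem {φ : E → F} (l : List κ) {q : κ} (hq : q ∈ l) (x : E) :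
    bl h M e T ψ l φ x ∈ vacE M (e q) (u q) (v q) (s q) := by
  induction l generalizing x with
  | nil => exact absurd hq List.not_mem_nil
  | cons p l ih =>
    rw [bl_cons]
    refine integral_mem_sub _ fun z => ?_
    by_cases hqp : q = p
    · subst hqp
      exact wadj_mem (h q) M (e q) _ _
    · have hq' : q ∈ l := (List.mem_cons.1 hq).resolve_left hqp
      exact wadj_mem_of_ne h M e ho (Ne.symm hqp) _ (ih hq' _)

/-- **The product projection is `Ψ Ψ^*`.** -/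
theorem lprod_eq (L : ∀ p, Mult (Mf p) (θ p) (ι p))
    (W : ∀ p, OrthonormalBasis (ι p) ℂ (vacE M (e p) (u p) (v p) (s p)))
    (hJ : ∀ p i f, (L p).J i f = wop (h p) M (e p) f (W p i))
    (hψ : ∀ p, MemLp (ψ p) 2 volume) (hev : ∀ p y, par (h p) (ψ p y) = ψ p y)
    {φ : E → F} (hφ : RegOut T [] φ) (l : List κ) (hl : l.Nodup) (x : E) :
    lprod (fun p => pproj (T p) (L p) (ψ p)) l φ x =
      pr h M e l (fun p => ψ p (T p x).fst) (bl h M e T ψ l φ x) := by
  induction l generalizing x with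
  | nil => rfl
  | cons p l ih =>
    obtain ⟨hp, hl'⟩ := List.nodup_cons.1 hl
    have ih' := ih hl'
    have hreg := bl_reg h M e hT hψ hφ l hl'
    have hint := step_integrable h M e hp hreg (hψ p) x
    have e1 : ∀ z, wadj (h p) M (e p) (ψ p z)
        (lprod (fun p => pproj (T p) (L p) (ψ p)) l φ (upd (T p) x z)) =
        prL h M (e := e) l (fun p => ψ p (T p x).fst)
          (wadj (h p) M (e p) (ψ p z) (bl h M e T ψ l φ (upd (T p) x z))) := by
      intro z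
      rw [ih', prL_apply, ← pr_comm_wadj h M ho hp (fun q _ => hev q _)]
      congr 1
      refine pr_congr h M (fun q hq => ?_) _
      have hqp : p ≠ q := fun e => hp (e ▸ hq)
      rw [(hT p q hqp).fst_upd]
    have e2 : Integrable fun z => wadj (h p) M (e p) (ψ p z)
        (lprod (fun p => pproj (T p) (L p) (ψ p)) l φ (upd (T p) x z)) := by
      simp only [e1]
      exact (LinearMap.toContinuousLinearMap
        (prL h M (e := e) l (fun p => ψ p (T p x).fst))).integrable_comp hint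
    rw [lprod_cons, pproj_eq (L p) (h p) M (e p) (W p) (hJ p) (T p) e2, pr_cons, bl_cons]
    congr 1
    simp only [e1]
    exact (LinearMap.toContinuousLinearMap
      (prL h M (e := e) l (fun p => ψ p (T p x).fst))).integral_comp_comm hint

end fam

end Crest.Agent.R330.Prod494

end
end

-- ▼ part R330/Prod9_494
section

/-!
# Row 330 (helper494): the amplitude of a function of the block coordinates

Over 477's block data `D : BD M G k Fb` and `EY k = PiLp 2 (fun p => Cfg (k p))`.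

* `sgI q : Cfg (k q) →ₗᵢ EY k`, `TY q = ofEmb (sgI q)` : splitting along the block `q`; `fst_TY`,
  `perp_TY`, `upd_TY`, `pcharge_TY` (= 477's `D.bch`).
* `LY D q` : 161's multiplicity structure of the block `q`.
* `pproj_pairing`, `pproj_symm` : the block projections are symmetric on `L²`.
* `amp D ψ φ` : the amplitude; `amp_mem`, `amp_mem_sub`, `lprod_amp` (the product projection is
  `D.psi ψ Y (amp D ψ φ)`), `inner_amp` (`⟪f, amp⟫ = ∫ ⟪D.psi ψ Y f, φ Y⟫`, `f ∈ D.W`).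
-/

set_option autoImplicit false
set_option linter.unusedSectionVars false

open MeasureTheory Filter Topology Crest.MathPhysics.MatrixQM
open scoped ContDiff InnerProductSpace ENNReal

noncomputable section

namespace Crest.Agent.R330.Prod494

open Crest.Agent.R330.Cliff442 Crest.Agent.R330.Cliff442.CRep Crest.Agent.R330.Fact161
  Crest.Agent.R330.FactI161 Crest.Agent.R330.Psi477 Crest.Agent.R330.Defs478
  Crest.Agent.R330.LS839 Crest.Agent.R330.Bind6839
open Crest.Agent.R330.Psi477.BD (sg)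

/-! ### The projections are symmetric -/

section symm

variable {N : ℕ} {F₁ F : Type*} [NormedAddCommGroup F₁] [InnerProductSpace ℂ F₁]
  [FiniteDimensional ℂ F₁] [NormedAddCommGroup F] [InnerProductSpace ℂ F] [FiniteDimensional ℂ F]
  {ι : Type*} [Fintype ι] [DecidableEq ι]
  {M : FermionRep N F₁} {θ : Fin 16 → Fin (N ^ 2 - 1) → (F →ₗ[ℂ] F)}
  {E E' : Type*} [NormedAddCommGroup E] [InnerProductSpace ℝ E] [FiniteDimensional ℝ E]
  [MeasurableSpace E] [BorelSpace E] [NormedAddCommGroup E'] [InnerProductSpace ℝ E']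
  [FiniteDimensional ℝ E'] [MeasurableSpace E'] [BorelSpace E']

theorem Mult.inner_J_left (L : Mult M θ ι) (w : ι) (u : F₁) (v : F) :
    ⟪L.J w u, v⟫_ℂ = ⟪u, L.comp w v⟫_ℂ := by
  rw [← inner_conj_symm, ← L.inner_comp, inner_conj_symm]

theorem pproj_pairing (T : E ≃ₗᵢ[ℝ] WithLp 2 (Cfg N × E')) (L : Mult M θ ι) {ψ : Cfg N → F₁}
    (hψ : MemLp ψ 2 volume) {a c : E → F} (ha : MemLp a 2 volume) (hc : MemLp c 2 volume) :
    ∫ x, ⟪pproj T L ψ a x, c x⟫_ℂ =
      ∫ x' : E', ∑ w, (starRingEnd ℂ) (cf T L ψ a w x') * cf T L ψ c w x' := by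
  have hI : Integrable (fun x => ⟪pproj T L ψ a x, c x⟫_ℂ) :=
    integrable_inner_of_memLp (memLp_pproj T L hψ ha) hc
  have h1 : ∫ p, ⟪pproj T L ψ a (pm T p), c (pm T p)⟫_ℂ
      ∂(volume.prod volume : Measure (E' × Cfg N)) = ∫ x, ⟪pproj T L ψ a x, c x⟫_ℂ :=
    (mp_pm T).integral_comp (me_pm T) (fun x => ⟪pproj T L ψ a x, c x⟫_ℂ)
  have hI2 : Integrable (fun p => ⟪pproj T L ψ a (pm T p), c (pm T p)⟫_ℂ)
      (volume.prod volume : Measure (E' × Cfg N)) :=
    (integrable_pm T (h := fun x => ‖⟪pproj T L ψ a x, c x⟫_ℂ‖)).2 hI.norm |>.mono'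
      ((hI.1.comp_measurePreserving (mp_pm T))) (Eventually.of_forall fun p => le_refl _)
  rw [← h1, integral_prod _ hI2]
  refine integral_congr_ae ?_
  filter_upwards [ae_fib_memLp T L hc] with x' hx
  have e1 : ∀ y, ⟪pproj T L ψ a (pm T (x', y)), c (pm T (x', y))⟫_ℂ =
      ∑ w, (starRingEnd ℂ) (cf T L ψ a w x') * ⟪ψ y, L.comp w (c (pm T (x', y)))⟫_ℂ := by
    intro y
    rw [pproj_pm, sum_inner]
    refine Finset.sum_congr rfl fun w _ => ?_
    rw [L.inner_J_left, inner_smul_left]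
  simp only [e1]
  rw [integral_finset_sum _ fun w _ => (integrable_inner_of_memLp hψ (hx w)).const_mul _]
  refine Finset.sum_congr rfl fun w _ => ?_
  rw [integral_const_mul]
  rfl

theorem pproj_symm (T : E ≃ₗᵢ[ℝ] WithLp 2 (Cfg N × E')) (L : Mult M θ ι) {ψ : Cfg N → F₁}
    (hψ : MemLp ψ 2 volume) {a c : E → F} (ha : MemLp a 2 volume) (hc : MemLp c 2 volume) :
    ∫ x, ⟪pproj T L ψ a x, c x⟫_ℂ = ∫ x, ⟪a x, pproj T L ψ c x⟫_ℂ := by
  have h1 : ∫ x, ⟪a x, pproj T L ψ c x⟫_ℂ =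
      (starRingEnd ℂ) (∫ x, ⟪pproj T L ψ c x, a x⟫_ℂ) := by
    rw [← integral_conj]
    refine integral_congr_ae (Eventually.of_forall fun x => ?_)
    simp only
    rw [inner_conj_symm]
  rw [h1, pproj_pairing T L hψ ha hc, pproj_pairing T L hψ hc ha, ← integral_conj]
  refine integral_congr_ae (Eventually.of_forall fun x' => ?_)
  simp only [map_sum, map_mul, Complex.conj_conj]
  exact Finset.sum_congr rfl fun w _ => mul_comm _ _

end symm

section fixd

variable {N : ℕ} {F₁ F : Type*} [NormedAddCommGroup F₁] [InnerProductSpace ℂ F₁]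
  [FiniteDimensional ℂ F₁] [NormedAddCommGroup F] [InnerProductSpace ℂ F] [FiniteDimensional ℂ F]
  {ι : Type*} [Fintype ι] [DecidableEq ι]
  {Mf : FermionRep N F₁} {θ : Fin 16 → Fin (N ^ 2 - 1) → (F →ₗ[ℂ] F)} (L : Mult Mf θ ι)
  {V V₁ ι' : Type*} [NormedAddCommGroup V] [InnerProductSpace ℝ V]
  [NormedAddCommGroup V₁] [InnerProductSpace ℝ V₁]
  {M₁ : CRep V₁ F₁} {u v : ι' → V₁} {s : Finset ι'} {Ω : F₁} (h : Pol M₁ u v s Ω)
  (M : CRep V F) (e : V₁ →ₗᵢ[ℝ] V) (W : OrthonormalBasis ι ℂ (vacE M e u v s))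
  (hJ : ∀ i f, L.J i f = wop h M e f (W i))
  {E E' : Type*} [NormedAddCommGroup E] [InnerProductSpace ℝ E] [FiniteDimensional ℝ E]
  [MeasurableSpace E] [BorelSpace E] [NormedAddCommGroup E'] [InnerProductSpace ℝ E']
  [FiniteDimensional ℝ E'] [MeasurableSpace E'] [BorelSpace E']
include hJ

/-- functions of the form `wop (ψ y) w` are fixed by the projection -/
theorem pproj_fix (T : E ≃ₗᵢ[ℝ] WithLp 2 (Cfg N × E')) {ψ : Cfg N → F₁}
    (hψ : MemLp ψ 2 volume) (h1 : ∫ y, ‖ψ y‖ ^ 2 = 1) {Φ : E → F} {x : E} {w : F}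
    (hw : w ∈ vacE M e u v s) (hΦ : ∀ z, Φ (upd T x z) = wop h M e (ψ z) w) :
    pproj T L ψ Φ x = Φ x := by
  have e2 : ∀ z, wadj h M e (ψ z) (Φ (upd T x z)) = ((‖ψ z‖ ^ 2 : ℝ) : ℂ) • w := by
    intro z
    rw [hΦ, wadj_wop, isc, PE_of_mem hw]
  have hI : Integrable fun z => ((‖ψ z‖ ^ 2 : ℝ) : ℂ) :=
    ((memLp_two_iff_integrable_sq_norm hψ.1).1 hψ).ofReal
  have hint : Integrable fun z => wadj h M e (ψ z) (Φ (upd T x z)) := by
    simp only [e2]
    exact hI.smul_const w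
  rw [pproj_eq L h M e W hJ T hint]
  simp only [e2]
  rw [integral_smul_const, integral_complex_ofReal, h1, Complex.ofReal_one, one_smul,
    ← hΦ, upd_self]

end fixd

/-! ### The block coordinates -/

section EYs

variable {κ : Type*} [Fintype κ] [DecidableEq κ] {k : κ → ℕ}

/-- the block `q` in the block coordinates -/
def sgI (q : κ) : Cfg (k q) →ₗᵢ[ℝ] EY k where
  toFun a := sg q a
  map_add' a c := by
    ext p : 1
    by_cases hp : p = q
    · subst hp; simp [sg]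
    · simp [sg, hp]
  map_smul' r a := by
    ext p : 1
    by_cases hp : p = q
    · subst hp; simp [sg]
    · simp [sg, hp]
  norm_map' a := by
    exact PiLp.norm_single (p := 2) (β := fun p => Cfg (k p)) q a

theorem sgI_apply (q : κ) (a : Cfg (k q)) : sgI q a = sg q a := rfl

theorem inner_sgI (q : κ) (Y : EY k) (a : Cfg (k q)) : ⟪Y, sgI q a⟫_ℝ = ⟪Y q, a⟫_ℝ := by
  rw [PiLp.inner_apply, Finset.sum_eq_single q]
  · simp [sgI_apply, sg]
  · intro p _ hp
    simp [sgI_apply, sg, hp]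
  · intro h
    exact absurd (Finset.mem_univ q) h

theorem inner_sgI_ne {p q : κ} (h : p ≠ q) (a : Cfg (k p)) (c : Cfg (k q)) :
    ⟪sgI p a, sgI q c⟫_ℝ = 0 := by
  rw [inner_sgI, sgI_apply]
  simp [sg, Ne.symm h]

/-- the splitting along the block `q` -/
def TY (q : κ) : EY k ≃ₗᵢ[ℝ] WithLp 2 (Cfg (k q) × (LinearMap.range (sgI (k := k) q).toLinearMap)ᗮ) :=
  ofEmb (sgI q)

theorem fst_TY (q : κ) (Y : EY k) : (TY q Y).fst = Y q :=
  fst_ofEmb_eq (sgI q) fun v => inner_sgI q Y v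

theorem perp_TY {p q : κ} (h : p ≠ q) : Perp (TY (k := k) p) (TY q) :=
  perp_ofEmb fun _ _ => inner_sgI_ne h _ _

theorem upd_TY_apply (q : κ) (Y : EY k) (z : Cfg (k q)) (p : κ) :
    upd (TY q) Y z p = Function.update Y.ofLp q z p := by
  rw [← fst_TY p]
  by_cases hp : p = q
  · subst hp
    rw [fst_upd, Function.update_self]
  · rw [(perp_TY (Ne.symm hp)).fst_upd, fst_TY, Function.update_of_ne hp]

theorem upd_TY (q : κ) (Y : EY k) (z : Cfg (k q)) :
    upd (TY q) Y z = WithLp.toLp 2 (Function.update Y.ofLp q z) := by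
  ext p : 1
  exact upd_TY_apply q Y z p

/-- a function which does not depend on any block coordinate is constant -/
theorem const_of_upd {F : Type*} {f : EY k → F} (h : ∀ q Y z, f (upd (TY q) Y z) = f Y)
    (Y : EY k) : f Y = f 0 := by
  have key : ∀ s : Finset κ, f (WithLp.toLp 2 fun p => if p ∈ s then 0 else Y p) = f Y := by
    intro s
    induction s using Finset.induction_on with
    | empty => simp
    | insert a s ha ih =>
      rw [← ih, ← h a (WithLp.toLp 2 fun p => if p ∈ s then 0 else Y p) 0, upd_TY]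
      congr 2
      funext p
      by_cases hp : p = a
      · subst hp
        rw [Function.update_self]
        simp
      · rw [Function.update_of_ne hp]
        simp [hp]
  have h1 := key Finset.univ
  rw [← h1]
  congr 1
  ext p : 1
  simp

theorem qmp_eval (q : κ) : Measure.QuasiMeasurePreserving (fun Y : EY k => Y q) volume volume := by
  have h1 := (PiVol269.volume_preserving_ofLp (E := fun p => Cfg (k p))).quasiMeasurePreserving
  have h2 : Measure.QuasiMeasurePreserving (Function.eval q : (∀ p, Cfg (k p)) → Cfg (k q))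
      volume volume := Measure.quasiMeasurePreserving_eval _ q
  exact h2.comp h1

end EYs

/-! ### The data of 477 -/

section data

variable {N : ℕ} {F : Type*} [NormedAddCommGroup F] [InnerProductSpace ℂ F]
  [FiniteDimensional ℂ F] {κ : Type*} [Fintype κ] [DecidableEq κ] {k : κ → ℕ}
  {Fb : κ → Type*} [∀ p, NormedAddCommGroup (Fb p)] [∀ p, InnerProductSpace ℂ (Fb p)]
  [∀ p, FiniteDimensional ℂ (Fb p)] {M : FermionRep N F} {G : GammaNine} (D : BD M G k Fb)

/-- 477's block charge is the charge of the splitting -/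
theorem pcharge_TY (b : ∀ p, ColorBasis (k p)) (p : κ) (α : Fin 16) (g m : ℝ) (Φ : EY k → F)
    (Y : EY k) :
    pcharge (TY p) (b p) (bth M (D.ε p)) G g m α Φ Y = D.bch b p α g m Φ Y := by
  unfold pcharge BD.bch
  rw [fst_TY]
  have h1 : ∀ v, emb (TY (k := k) p) v = sg p v := fun v => emb_ofEmb _ _
  simp only [h1]
  rfl

/-- an orthonormal basis of the vacuum space of the block `q` -/
def WY (q : κ) : OrthonormalBasis (Fin (Module.finrank ℂ (vacB M G (D.ε q)))) ℂ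
    (vacB M G (D.ε q)) := stdOrthonormalBasis ℂ _

/-- the multiplicity structure of the block `q` -/
def LY (q : κ) : Mult (D.Mb q) (bth M (D.ε q)) (Fin (Module.finrank ℂ (vacB M G (D.ε q)))) :=
  mult M (D.isv q) (D.nm q) (D.ε q) (WY D q)

theorem LY_J (q : κ) (i : Fin (Module.finrank ℂ (vacB M G (D.ε q)))) (f : Fb q) :
    (LY D q).J i f = wop (D.pol q) (cr M) (te (D.ε q)) f (WY D q i) := mult_J _ _ _ _ _ _ _

theorem antiT_bth {p q : κ} (h : p ≠ q) : AntiT (bth M (D.ε p)) (bth M (D.ε q)) := by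
  intro β A β' A' v
  have h1 := thv_anti M β β' (D.ε p (EuclideanSpace.single A 1))
    (D.ε q (EuclideanSpace.single A' 1)) v
  rw [D.ho p q h, Complex.ofReal_zero, ite_self, zero_smul] at h1
  exact eq_neg_of_add_eq_zero_left h1

variable (ψ : ∀ p, Cfg (k p) → Fb p)

/-- the amplitude -/
def amp (φ : EY k → F) : F :=
  bl D.pol (cr M) (fun p => te (D.ε p)) (fun p => TY p) ψ Finset.univ.toList φ 0

variable {ψ}

theorem bl_const {φ : EY k → F} (Y : EY k) :
    bl D.pol (cr M) (fun p => te (D.ε p)) (fun p => TY p) ψ Finset.univ.toList φ Y =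
      amp D ψ φ :=
  const_of_upd (fun q Y z => bl_upd D.pol (cr M) (fun p => te (D.ε p)) (fun _ _ h => perp_TY h)
    Finset.univ.toList (Finset.nodup_toList _) (Finset.mem_toList.2 (Finset.mem_univ q)) Y z) Y

theorem amp_mem (φ : EY k → F) : amp D ψ φ ∈ D.W :=
  (mem_vacA).2 fun q => bl_mem D.pol (cr M) (fun p => te (D.ε p)) D.orth Finset.univ.toList
    (Finset.mem_toList.2 (Finset.mem_univ q)) 0

theorem amp_mem_sub {φ : EY k → F} (K : Submodule ℂ F)
    (hK : ∀ p, ∀ (f : Fb p) (w : F), w ∈ K → wadj (D.pol p) (cr M) (te (D.ε p)) f w ∈ K)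
    (hφ : ∀ Y, φ Y ∈ K) : amp D ψ φ ∈ K :=
  bl_mem_sub D.pol (cr M) (fun p => te (D.ε p)) K Finset.univ.toList (fun p _ => hK p) hφ 0

/-- **The product projection is `Ψ(Y) a`.** -/
theorem lprod_amp (hψ : ∀ p, MemLp (ψ p) 2 volume) (hev : ∀ p y, D.Even p (ψ p y))
    {φ : EY k → F} (hφ : Continuous φ) (hc : HasCompactSupport φ) (Y : EY k) :
    lprod (fun p => pproj (TY p) (LY D p) (ψ p)) Finset.univ.toList φ Y =
      D.psi ψ Y (amp D ψ φ) := by
  rw [lprod_eq D.pol (cr M) (fun p => te (D.ε p)) (fun _ _ h => perp_TY h) D.orth (LY D) (WY D)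
    (LY_J D) hψ hev (regOut_of_compact hφ hc) Finset.univ.toList (Finset.nodup_toList _) Y,
    bl_const]
  simp only [fst_TY]
  rfl

theorem aesm_pr (hψ : ∀ p, AEStronglyMeasurable (ψ p) volume) (l : List κ) (f : F) :
    AEStronglyMeasurable (fun Y : EY k => pr D.pol (cr M) (fun p => te (D.ε p)) l
      (fun p => ψ p (Y p)) f) volume := by
  induction l with
  | nil => exact aestronglyMeasurable_const
  | cons p l ih =>
    have h1 : AEStronglyMeasurable (fun Y : EY k => ψ p (Y p)) volume :=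
      (hψ p).comp_quasiMeasurePreserving (qmp_eval p)
    have h3 := (continuous_wop2 (D.pol p) (cr M) (te (D.ε p))).comp_aestronglyMeasurable
      (h1.prodMk ih)
    exact h3

theorem memLp_psi (hψ : ∀ p, MemLp (ψ p) 2 volume) {f : F} (hf : f ∈ D.W) :
    MemLp (fun Y : EY k => D.psi ψ Y f) 2 volume := by
  have hm : AEStronglyMeasurable (fun Y : EY k => D.psi ψ Y f) volume :=
    aesm_pr D (fun p => (hψ p).1) _ f
  rw [memLp_two_iff_integrable_sq_norm hm]
  have h1 : ∀ Y : EY k, ‖D.psi ψ Y f‖ ^ 2 = (∏ p, ‖ψ p (Y p)‖ ^ 2) * ‖f‖ ^ 2 := fun Y => by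
    rw [D.norm_psi ψ Y hf, mul_pow, Finset.prod_pow]
  simp only [h1]
  refine Integrable.mul_const ?_ _
  exact PiVol269.integrable_prod (𝕜 := ℝ) (f := fun p y => ‖ψ p y‖ ^ 2)
    fun p => (memLp_two_iff_integrable_sq_norm (hψ p).1).1 (hψ p)

theorem integral_psi_psi {ψ' : ∀ p, Cfg (k p) → Fb p} {f : F} (hf : f ∈ D.W) (f' : F) :
    ∫ Y : EY k, ⟪D.psi ψ Y f, D.psi ψ' Y f'⟫_ℂ = (∏ p, ∫ y, ⟪ψ p y, ψ' p y⟫_ℂ) * ⟪f, f'⟫_ℂ := by
  have h1 : ∀ Y : EY k, ⟪D.psi ψ Y f, D.psi ψ' Y f'⟫_ℂ =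
      (∏ p, ⟪ψ p (Y p), ψ' p (Y p)⟫_ℂ) * ⟪f, f'⟫_ℂ := fun Y => D.inner_Pr _ _ hf f'
  simp only [h1]
  rw [integral_mul_const]
  congr 1
  exact PiVol269.integral_prod (𝕜 := ℂ) (fun p y => ⟪ψ p y, ψ' p y⟫_ℂ)

theorem integral_psi_self (h1 : ∀ p, ∫ y, ‖ψ p y‖ ^ 2 = 1) {f : F} (hf : f ∈ D.W) (f' : F) :
    ∫ Y : EY k, ⟪D.psi ψ Y f, D.psi ψ Y f'⟫_ℂ = ⟪f, f'⟫_ℂ := by
  rw [integral_psi_psi D hf]
  have h2 : ∀ p, ∫ y, ⟪ψ p y, ψ p y⟫_ℂ = 1 := fun p => by
    rw [integral_inner_self, h1 p, Complex.ofReal_one]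
  rw [Finset.prod_congr rfl fun p _ => h2 p, Finset.prod_const_one, one_mul]

/-- the block states are fixed by the block projections -/
theorem pproj_psi (hψ : ∀ p, MemLp (ψ p) 2 volume) (h1 : ∀ p, ∫ y, ‖ψ p y‖ ^ 2 = 1)
    (hev : ∀ p y, D.Even p (ψ p y)) {f : F} (hf : f ∈ D.W) (q : κ) (Y : EY k) :
    pproj (TY q) (LY D q) (ψ q) (fun Y => D.psi ψ Y f) Y = D.psi ψ Y f := by
  set l' := (Finset.univ : Finset κ).toList.erase q with hl'
  have hq : q ∈ (Finset.univ : Finset κ).toList := Finset.mem_toList.2 (Finset.mem_univ q)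
  have hnd : (Finset.univ : Finset κ).toList.Nodup := Finset.nodup_toList _
  have hql' : q ∉ l' := fun h => (List.Nodup.mem_erase_iff hnd).1 h |>.1 rfl
  have e0 : ∀ Y : EY k, D.psi ψ Y f = wop (D.pol q) (cr M) (te (D.ε q)) (ψ q (Y q))
      (pr D.pol (cr M) (fun p => te (D.ε p)) l' (fun p => ψ p (Y p)) f) := fun Y =>
    pr_perm D.pol (cr M) D.orth (List.perm_cons_erase hq) hnd (fun p => hev p _) hf
  set v := pr D.pol (cr M) (fun p => te (D.ε p)) l' (fun p => ψ p (Y p)) f with hv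
  have hvm : v ∈ vacB M G (D.ε q) := mem_pr D.pol (cr M) D.orth hql' _ (mem_vacA.1 hf q)
  have e1 : ∀ z, D.psi ψ (upd (TY q) Y z) f =
      wop (D.pol q) (cr M) (te (D.ε q)) (ψ q z) v := by
    intro z
    rw [e0, ← fst_TY q, fst_upd, hv]
    congr 1
    refine pr_congr D.pol (cr M) (fun p hp => ?_) f
    have hpq : q ≠ p := fun e => hql' (e ▸ hp)
    rw [← fst_TY p, (perp_TY hpq).fst_upd, fst_TY]
  exact pproj_fix (LY D q) (D.pol q) (cr M) (te (D.ε q)) (WY D q) (LY_J D q) (TY q) (hψ q) (h1 q)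
    hvm e1

/-- **The amplitude is the adjoint of the block state.** -/
theorem inner_amp (hψ : ∀ p, MemLp (ψ p) 2 volume) (h1 : ∀ p, ∫ y, ‖ψ p y‖ ^ 2 = 1)
    (hev : ∀ p y, D.Even p (ψ p y)) {φ : EY k → F} (hφ : Continuous φ)
    (hc : HasCompactSupport φ) {f : F} (hf : f ∈ D.W) :
    ⟪f, amp D ψ φ⟫_ℂ = ∫ Y : EY k, ⟪D.psi ψ Y f, φ Y⟫_ℂ := by
  have hφ2 : MemLp φ 2 volume := hφ.memLp_of_hasCompactSupport hc
  have hS := memLp_psi D hψ hf
  have hPJ : ∀ p, IsPJ (volume : Measure (EY k)) (pproj (TY p) (LY D p) (ψ p) :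
      (EY k → F) → EY k → F) := fun p => isPJ_pproj (TY p) (LY D p) (hψ p) (h1 p)
  have key : ∀ l : List κ, ∫ Y : EY k, ⟪D.psi ψ Y f,
      lprod (fun p => pproj (TY p) (LY D p) (ψ p)) l φ Y⟫_ℂ =
      ∫ Y : EY k, ⟪D.psi ψ Y f, φ Y⟫_ℂ := by
    intro l
    induction l with
    | nil => rfl
    | cons p l ih =>
      rw [← ih, lprod_cons, ← pproj_symm (TY p) (LY D p) (hψ p) hS
        (lprod_memLp l (fun p _ => hPJ p) hφ2)]
      refine integral_congr_ae (Eventually.of_forall fun Y => ?_)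
      simp only
      rw [pproj_psi D hψ h1 hev hf p Y]
  rw [← key Finset.univ.toList]
  simp only [lprod_amp D hψ hev hφ hc]
  rw [integral_psi_self D h1 hf]

end data

end Crest.Agent.R330.Prod494

end
end

-- ▼ part R330/Prod10_494
section

/-!
# Row 330 (helper494): block Hardy inequality on the block coordinates

* `psi_sub_le` : `∫ |Ψ f - Ψ' f|² ≤ 2 |κ| η |f|²` if `∫ |ψ_p - ψ'_p|² ≤ η²`.
* `amp_le`, `psi_amp_sub_le` : `∫ |Ψ a - Ψ' a'|² ≤ 8 |κ| η ∫ |φ|²` for the amplitudes.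
* `exists_even_rep` : everywhere even representatives of the scaled ground states.
* **`psi_hardy`** : for approximants `φ' p` of the scaled ground states,
  `∫_{‖Y p‖ ≤ δ} |w - Ψ' a'|² ≤ K (g^{-2/3} + δ²) Σ_α ∫ |Σ_p bch_p w|² + K η ∫ |w|²`.
-/

set_option autoImplicit false
set_option linter.unusedSectionVars false

open MeasureTheory Filter Topology Crest.MathPhysics.MatrixQM
open scoped ContDiff InnerProductSpace ENNReal

noncomputable section

namespace Crest.Agent.R330.Prod494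

open Crest.Agent.R330.Cliff442 Crest.Agent.R330.Cliff442.CRep Crest.Agent.R330.Fact161
  Crest.Agent.R330.FactI161 Crest.Agent.R330.Psi477 Crest.Agent.R330.Defs478
  Crest.Agent.R330.LS839 Crest.Agent.R330.Bind6839 Crest.Agent.R330.Scale423
  Crest.Agent.R330.ScaleD423 Crest.Agent.R330.SInd478
open Crest.Agent.R330.Psi477.BD (sg)

theorem norm_one_sub_prod_le {κ : Type*} (s : Finset κ) (c : κ → ℂ) (h : ∀ p ∈ s, ‖c p‖ ≤ 1) :
    ‖1 - ∏ p ∈ s, c p‖ ≤ ∑ p ∈ s, ‖1 - c p‖ := by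
  classical
  induction s using Finset.induction_on with
  | empty => simp
  | insert a s ha ih =>
    rw [Finset.prod_insert ha, Finset.sum_insert ha]
    have e : (1 : ℂ) - c a * ∏ p ∈ s, c p = (1 - c a) + c a * (1 - ∏ p ∈ s, c p) := by ring
    rw [e]
    refine (norm_add_le _ _).trans (add_le_add le_rfl ?_)
    rw [norm_mul]
    have h1 := ih fun p hp => h p (Finset.mem_insert_of_mem hp)
    have h2 := h a (Finset.mem_insert_self a s)
    calc ‖c a‖ * ‖1 - ∏ p ∈ s, c p‖ ≤ 1 * ‖1 - ∏ p ∈ s, c p‖ :=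
          mul_le_mul_of_nonneg_right h2 (norm_nonneg _)
      _ ≤ _ := by rw [one_mul]; exact h1

section cs

variable {X V : Type*} [MeasurableSpace X] {μ : Measure X} [NormedAddCommGroup V]
  [InnerProductSpace ℂ V] {f h : X → V}

theorem cs_sqrt (hf : MemLp f 2 μ) (hh : MemLp h 2 μ) :
    ‖∫ x, ⟪f x, h x⟫_ℂ ∂μ‖ ≤ √(∫ x, ‖f x‖ ^ 2 ∂μ) * √(∫ x, ‖h x‖ ^ 2 ∂μ) := by
  have h1 := cs_int hf hh
  have h0 : 0 ≤ ∫ x, ‖f x‖ ^ 2 ∂μ := integral_nonneg fun _ => sq_nonneg _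
  have h0' : 0 ≤ ∫ x, ‖h x‖ ^ 2 ∂μ := integral_nonneg fun _ => sq_nonneg _
  rw [← Real.sqrt_mul h0]
  exact Real.le_sqrt_of_sq_le h1

theorem norm_inner_le_one (hf : MemLp f 2 μ) (hh : MemLp h 2 μ) (hf1 : ∫ x, ‖f x‖ ^ 2 ∂μ = 1)
    (hh1 : ∫ x, ‖h x‖ ^ 2 ∂μ = 1) : ‖∫ x, ⟪f x, h x⟫_ℂ ∂μ‖ ≤ 1 := by
  have := cs_sqrt hf hh
  rwa [hf1, hh1, Real.sqrt_one, one_mul] at this

theorem norm_one_sub_inner (hf : MemLp f 2 μ) (hh : MemLp h 2 μ) (hf1 : ∫ x, ‖f x‖ ^ 2 ∂μ = 1) :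
    ‖1 - ∫ x, ⟪f x, h x⟫_ℂ ∂μ‖ ≤ √(∫ x, ‖f x - h x‖ ^ 2 ∂μ) := by
  have e : (1 : ℂ) - ∫ x, ⟪f x, h x⟫_ℂ ∂μ = ∫ x, ⟪f x, f x - h x⟫_ℂ ∂μ := by
    simp only [inner_sub_right]
    rw [integral_sub (integrable_inner_of_memLp hf hf) (integrable_inner_of_memLp hf hh),
      integral_inner_self, hf1, Complex.ofReal_one]
  rw [e]
  have := cs_sqrt hf (hf.sub hh)
  rw [hf1, Real.sqrt_one, one_mul] at this
  exact this

theorem norm_sq_sub_int (hf : MemLp f 2 μ) (hh : MemLp h 2 μ) :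
    ∫ x, ‖f x - h x‖ ^ 2 ∂μ = ∫ x, ‖f x‖ ^ 2 ∂μ + ∫ x, ‖h x‖ ^ 2 ∂μ -
      2 * (∫ x, ⟪f x, h x⟫_ℂ ∂μ).re := by
  have hf2 := (memLp_two_iff_integrable_sq_norm hf.1).1 hf
  have hh2 := (memLp_two_iff_integrable_sq_norm hh.1).1 hh
  have hi := integrable_inner_of_memLp hf hh
  have e : ∀ x, ‖f x - h x‖ ^ 2 = ‖f x‖ ^ 2 + ‖h x‖ ^ 2 - 2 * (⟪f x, h x⟫_ℂ).re := fun x => by
    rw [@norm_sub_sq ℂ]
    simp only [RCLike.re_to_complex]
    ring
  have hre : Integrable (fun x => (⟪f x, h x⟫_ℂ).re) μ := hi.re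
  have hs : Integrable (fun x => ‖f x‖ ^ 2 + ‖h x‖ ^ 2) μ := hf2.add hh2
  simp only [e]
  rw [integral_sub hs (hre.const_mul 2), integral_add hf2 hh2, integral_const_mul]
  have h3 : ∫ x, (⟪f x, h x⟫_ℂ).re ∂μ = (∫ x, ⟪f x, h x⟫_ℂ ∂μ).re := integral_re hi
  rw [h3]

end cs

section data

variable {N : ℕ} {F : Type*} [NormedAddCommGroup F] [InnerProductSpace ℂ F]
  [FiniteDimensional ℂ F] {κ : Type*} [Fintype κ] [DecidableEq κ] {k : κ → ℕ}
  {Fb : κ → Type*} [∀ p, NormedAddCommGroup (Fb p)] [∀ p, InnerProductSpace ℂ (Fb p)]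
  [∀ p, FiniteDimensional ℂ (Fb p)] {M : FermionRep N F} {G : GammaNine} (D : BD M G k Fb)
  {ψ ψ' : ∀ p, Cfg (k p) → Fb p}

theorem int_psi (h1 : ∀ p, ∫ y, ‖ψ p y‖ ^ 2 = 1) {f : F} (hf : f ∈ D.W) :
    ∫ Y : EY k, ‖D.psi ψ Y f‖ ^ 2 = ‖f‖ ^ 2 := by
  have h := integral_psi_self D h1 hf f
  rw [integral_inner_self, isc] at h
  exact_mod_cast h

theorem psi_sub_le (hψ : ∀ p, MemLp (ψ p) 2 volume) (h1 : ∀ p, ∫ y, ‖ψ p y‖ ^ 2 = 1)
    (hψ' : ∀ p, MemLp (ψ' p) 2 volume) (h1' : ∀ p, ∫ y, ‖ψ' p y‖ ^ 2 = 1) {η : ℝ} (hη : 0 ≤ η)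
    (hd : ∀ p, ∫ y, ‖ψ p y - ψ' p y‖ ^ 2 ≤ η ^ 2) {f : F} (hf : f ∈ D.W) :
    ∫ Y : EY k, ‖D.psi ψ Y f - D.psi ψ' Y f‖ ^ 2 ≤ 2 * (Fintype.card κ * η) * ‖f‖ ^ 2 := by
  rw [norm_sq_sub_int (memLp_psi D hψ hf) (memLp_psi D hψ' hf), int_psi D h1 hf,
    int_psi D h1' hf, integral_psi_psi D hf, isc]
  set c : κ → ℂ := fun p => ∫ y, ⟪ψ p y, ψ' p y⟫_ℂ with hc
  have e1 : ((∏ p, c p) * ((‖f‖ ^ 2 : ℝ) : ℂ)).re = (∏ p, c p).re * ‖f‖ ^ 2 := by
    rw [Complex.re_mul_ofReal]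
  rw [e1]
  have h2 : ‖1 - ∏ p, c p‖ ≤ Fintype.card κ * η := by
    refine (norm_one_sub_prod_le Finset.univ c fun p _ =>
      norm_inner_le_one (hψ p) (hψ' p) (h1 p) (h1' p)).trans ?_
    calc ∑ p, ‖1 - c p‖ ≤ ∑ _p : κ, η := by
          refine Finset.sum_le_sum fun p _ => (norm_one_sub_inner (hψ p) (hψ' p) (h1 p)).trans ?_
          exact (Real.sqrt_le_sqrt (hd p)).trans (by rw [Real.sqrt_sq hη])
      _ = _ := by rw [Finset.sum_const, Finset.card_univ, nsmul_eq_mul]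
  have h3 : 1 - (∏ p, c p).re ≤ Fintype.card κ * η := by
    have h4 : (1 - ∏ p, c p).re ≤ ‖1 - ∏ p, c p‖ := Complex.re_le_norm _
    rw [Complex.sub_re, Complex.one_re] at h4
    exact h4.trans h2
  nlinarith [mul_le_mul_of_nonneg_right h3 (sq_nonneg ‖f‖)]

theorem amp_le (hψ : ∀ p, MemLp (ψ p) 2 volume) (h1 : ∀ p, ∫ y, ‖ψ p y‖ ^ 2 = 1)
    (hev : ∀ p y, D.Even p (ψ p y)) {φ : EY k → F} (hφ : Continuous φ)
    (hc : HasCompactSupport φ) : ‖amp D ψ φ‖ ≤ √(∫ Y, ‖φ Y‖ ^ 2) := by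
  have hφ2 : MemLp φ 2 volume := hφ.memLp_of_hasCompactSupport hc
  have hm := amp_mem D (ψ := ψ) φ
  have h2 := inner_amp D hψ h1 hev hφ hc hm
  have h3 := cs_sqrt (memLp_psi D hψ hm) hφ2
  rw [← h2, isc, Complex.norm_real, Real.norm_of_nonneg (sq_nonneg _), int_psi D h1 hm,
    Real.sqrt_sq (norm_nonneg _)] at h3
  by_cases h0 : ‖amp D ψ φ‖ = 0
  · rw [h0]; exact Real.sqrt_nonneg _
  · have h4 : 0 < ‖amp D ψ φ‖ := lt_of_le_of_ne (norm_nonneg _) (Ne.symm h0)
    rw [pow_two] at h3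
    exact le_of_mul_le_mul_left h3 h4

theorem amp_sub_le (hψ : ∀ p, MemLp (ψ p) 2 volume) (h1 : ∀ p, ∫ y, ‖ψ p y‖ ^ 2 = 1)
    (hev : ∀ p y, D.Even p (ψ p y)) (hψ' : ∀ p, MemLp (ψ' p) 2 volume)
    (h1' : ∀ p, ∫ y, ‖ψ' p y‖ ^ 2 = 1) (hev' : ∀ p y, D.Even p (ψ' p y)) {η : ℝ} (hη : 0 ≤ η)
    (hd : ∀ p, ∫ y, ‖ψ p y - ψ' p y‖ ^ 2 ≤ η ^ 2) {φ : EY k → F} (hφ : Continuous φ)
    (hc : HasCompactSupport φ) : ‖amp D ψ φ - amp D ψ' φ‖ ≤
      √(2 * (Fintype.card κ * η)) * √(∫ Y, ‖φ Y‖ ^ 2) := by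
  have hφ2 : MemLp φ 2 volume := hφ.memLp_of_hasCompactSupport hc
  set f := amp D ψ φ - amp D ψ' φ with hf
  have hm : f ∈ D.W := D.W.sub_mem (amp_mem D φ) (amp_mem D φ)
  have hS := memLp_psi D hψ hm
  have hS' := memLp_psi D hψ' hm
  have h2 : ⟪f, f⟫_ℂ = ∫ Y : EY k, ⟪D.psi ψ Y f - D.psi ψ' Y f, φ Y⟫_ℂ := by
    conv_lhs => rw [hf]
    rw [← hf, inner_sub_right, inner_amp D hψ h1 hev hφ hc hm, inner_amp D hψ' h1' hev' hφ hc hm,
      ← integral_sub (integrable_inner_of_memLp hS hφ2) (integrable_inner_of_memLp hS' hφ2)]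
    simp only [inner_sub_left]
  have h3 := cs_sqrt (hS.sub hS') hφ2
  have h4 : ‖f‖ ^ 2 ≤ √(∫ Y : EY k, ‖D.psi ψ Y f - D.psi ψ' Y f‖ ^ 2) * √(∫ Y, ‖φ Y‖ ^ 2) := by
    have h5 : ‖f‖ ^ 2 = ‖∫ Y : EY k, ⟪D.psi ψ Y f - D.psi ψ' Y f, φ Y⟫_ℂ‖ := by
      rw [← h2, isc, Complex.norm_real, Real.norm_of_nonneg (sq_nonneg _)]
    rw [h5]
    exact h3
  have h6 : √(∫ Y : EY k, ‖D.psi ψ Y f - D.psi ψ' Y f‖ ^ 2) ≤
      √(2 * (Fintype.card κ * η)) * ‖f‖ := by
    refine (Real.sqrt_le_sqrt (psi_sub_le D hψ h1 hψ' h1' hη hd hm)).trans (le_of_eq ?_)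
    rw [Real.sqrt_mul (by positivity), Real.sqrt_sq (norm_nonneg _)]
  by_cases h0 : ‖f‖ = 0
  · rw [h0]; positivity
  · have h7 : 0 < ‖f‖ := lt_of_le_of_ne (norm_nonneg _) (Ne.symm h0)
    have h8 : ‖f‖ * ‖f‖ ≤ ‖f‖ * (√(2 * (Fintype.card κ * η)) * √(∫ Y, ‖φ Y‖ ^ 2)) := by
      calc ‖f‖ * ‖f‖ = ‖f‖ ^ 2 := by ring
        _ ≤ _ := h4
        _ ≤ (√(2 * (Fintype.card κ * η)) * ‖f‖) * √(∫ Y, ‖φ Y‖ ^ 2) :=
          mul_le_mul_of_nonneg_right h6 (Real.sqrt_nonneg _)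
        _ = _ := by ring
    exact le_of_mul_le_mul_left h8 h7

/-- **Perturbation of the block state.** -/
theorem psi_amp_sub_le (hψ : ∀ p, MemLp (ψ p) 2 volume) (h1 : ∀ p, ∫ y, ‖ψ p y‖ ^ 2 = 1)
    (hev : ∀ p y, D.Even p (ψ p y)) (hψ' : ∀ p, MemLp (ψ' p) 2 volume)
    (h1' : ∀ p, ∫ y, ‖ψ' p y‖ ^ 2 = 1) (hev' : ∀ p y, D.Even p (ψ' p y)) {η : ℝ} (hη : 0 ≤ η)
    (hd : ∀ p, ∫ y, ‖ψ p y - ψ' p y‖ ^ 2 ≤ η ^ 2) {φ : EY k → F} (hφ : Continuous φ)
    (hc : HasCompactSupport φ) :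
    ∫ Y : EY k, ‖D.psi ψ Y (amp D ψ φ) - D.psi ψ' Y (amp D ψ' φ)‖ ^ 2 ≤
      8 * (Fintype.card κ * η) * ∫ Y, ‖φ Y‖ ^ 2 := by
  set a := amp D ψ φ with ha
  set a' := amp D ψ' φ with ha'
  set ρ := √(2 * (Fintype.card κ * η)) with hρ
  set n := √(∫ Y, ‖φ Y‖ ^ 2) with hn
  have hma : a ∈ D.W := amp_mem D φ
  have hma' : a' ∈ D.W := amp_mem D φ
  have hS := memLp_psi D hψ hma
  have hS' := memLp_psi D hψ' hma
  have hS'' := memLp_psi D hψ' (D.W.sub_mem hma hma')
  have h2 : √(∫ Y : EY k, ‖D.psi ψ Y a - D.psi ψ' Y a'‖ ^ 2) ≤ ρ * n + ρ * n := by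
    have e : ∀ Y : EY k, D.psi ψ Y a - D.psi ψ' Y a' =
        (D.psi ψ Y a - D.psi ψ' Y a) + D.psi ψ' Y (a - a') := fun Y => by
      rw [map_sub]; abel
    simp only [e]
    refine (sqrt_int_add_le (hS.sub hS') hS'').trans (add_le_add ?_ ?_)
    · refine (Real.sqrt_le_sqrt (psi_sub_le D hψ h1 hψ' h1' hη hd hma)).trans ?_
      rw [Real.sqrt_mul (by positivity), Real.sqrt_sq (norm_nonneg _)]
      exact mul_le_mul_of_nonneg_left (amp_le D hψ h1 hev hφ hc) (Real.sqrt_nonneg _)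
    · rw [int_psi D h1' (D.W.sub_mem hma hma'), Real.sqrt_sq (norm_nonneg _)]
      exact amp_sub_le D hψ h1 hev hψ' h1' hev' hη hd hφ hc
  have h0 : 0 ≤ ∫ Y : EY k, ‖D.psi ψ Y a - D.psi ψ' Y a'‖ ^ 2 :=
    integral_nonneg fun _ => sq_nonneg _
  have h0' : 0 ≤ ∫ Y, ‖φ Y‖ ^ 2 := integral_nonneg fun _ => sq_nonneg _
  calc _ = √(∫ Y : EY k, ‖D.psi ψ Y a - D.psi ψ' Y a'‖ ^ 2) ^ 2 := (Real.sq_sqrt h0).symm
    _ ≤ (ρ * n + ρ * n) ^ 2 := pow_le_pow_left₀ (Real.sqrt_nonneg _) h2 2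
    _ = 4 * (ρ ^ 2 * n ^ 2) := by ring
    _ = _ := by
      rw [hρ, hn, Real.sq_sqrt (by positivity), Real.sq_sqrt h0']
      ring

/-! ### Exact ground states -/

variable {bn : ∀ p, ColorBasis (k p)} {Rn : ∀ p, GaugeAction (bn p) (D.Mb p)}

theorem Low.congr_ae {N : ℕ} {F₁ : Type*} [NormedAddCommGroup F₁] [InnerProductSpace ℂ F₁]
    [FiniteDimensional ℂ F₁] {b : ColorBasis N} {M : FermionRep N F₁} {R : GaugeAction b M}
    {g m c : ℝ} {wt : Cfg N → ℝ} {ψ ψ' : Cfg N → F₁} (h : Low b M R G g m c wt ψ)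
    (he : ψ' =ᵐ[volume] ψ) : Low b M R G g m c wt ψ' := by
  intro f hf
  have h1 : ∫ z, ⟪ψ' z, f z⟫_ℂ = ∫ z, ⟪ψ z, f z⟫_ℂ := by
    refine integral_congr_ae ?_
    filter_upwards [he] with z hz
    rw [hz]
  have h2 : ∫ y, wt y * ‖f y - (∫ z, ⟪ψ' z, f z⟫_ℂ) • ψ' y‖ ^ 2 =
      ∫ y, wt y * ‖f y - (∫ z, ⟪ψ z, f z⟫_ℂ) • ψ y‖ ^ 2 := by
    rw [h1]
    refine integral_congr_ae ?_
    filter_upwards [he] with z hz
    rw [hz]
  rw [h2]
  exact h f hf

theorem Low.mono {N : ℕ} {F₁ : Type*} [NormedAddCommGroup F₁] [InnerProductSpace ℂ F₁]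
    [FiniteDimensional ℂ F₁] {b : ColorBasis N} {M : FermionRep N F₁} {R : GaugeAction b M}
    {g m c c' : ℝ} {wt : Cfg N → ℝ} {ψ : Cfg N → F₁} (h : Low b M R G g m c wt ψ)
    (hc : c' ≤ c) (hw : ∀ y, 0 ≤ wt y) : Low b M R G g m c' wt ψ := by
  intro f hf
  exact (mul_le_mul_of_nonneg_right hc (integral_nonneg fun y =>
    mul_nonneg (hw y) (sq_nonneg _))).trans (h f hf)

/-- an everywhere even representative of the scaled ground state -/
theorem exists_even_rep (q : κ) {ψ₀ : Cfg (k q) → Fb q}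
    (hg : Ground (bn q) (D.Mb q) (Rn q) G ψ₀) {l : ℝ} (hl : 0 < l) :
    ∃ ψ₁ : Cfg (k q) → Fb q, ψ₁ =ᵐ[volume] Us l ψ₀ ∧ ∀ y, D.Even q (ψ₁ y) := by
  refine ⟨fun y => (1 / 2 : ℂ) • (Us l ψ₀ y + par (D.pol q) (Us l ψ₀ y)), ?_, fun y => ?_⟩
  · have h1 : ∀ᵐ x, par (D.pol q) (ψ₀ x) = ψ₀ x := hg.even _ (isParity (D.isv q) (D.nm q))
    filter_upwards [ae_comp_smul hl h1] with y hy
    have h2 : par (D.pol q) (Us l ψ₀ y) = Us l ψ₀ y := by
      rw [Us_apply, map_smul, hy]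
    rw [h2, ← two_smul ℂ, smul_smul]
    norm_num
  · unfold BD.Even
    rw [map_smul, map_add, par_par, add_comm]

theorem exists_lower {κ : Type*} [Fintype κ] (c : κ → ℝ) (hc : ∀ p, 0 < c p) :
    ∃ c₀ : ℝ, 0 < c₀ ∧ ∀ p, c₀ ≤ c p := by
  have hs : 0 ≤ ∑ p, (c p)⁻¹ := Finset.sum_nonneg fun p _ => (inv_pos.2 (hc p)).le
  refine ⟨(∑ p, (c p)⁻¹ + 1)⁻¹, by positivity, fun p => ?_⟩
  have h1 : (c p)⁻¹ ≤ ∑ p, (c p)⁻¹ := Finset.single_le_sum (f := fun p => (c p)⁻¹)
    (fun q _ => (inv_pos.2 (hc q)).le) (Finset.mem_univ p)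
  have h2 := inv_anti₀ (inv_pos.2 (hc p)) (h1.trans (le_add_of_nonneg_right zero_le_one))
  rwa [inv_inv] at h2

/-- **Block Hardy inequality.** -/
theorem psi_hardy {ψ₀ : ∀ p, Cfg (k p) → Fb p}
    (hg : ∀ p, Ground (bn p) (D.Mb p) (Rn p) G (ψ₀ p)) :
    ∃ K : ℝ, 0 ≤ K ∧ ∀ g : ℝ, 0 < g → ∀ φ' : ∀ p, Cfg (k p) → Fb p,
      (∀ p, MemLp (φ' p) 2 volume) → (∀ p, ∫ y, ‖φ' p y‖ ^ 2 = 1) →
      (∀ p y, D.Even p (φ' p y)) → ∀ η : ℝ, 0 ≤ η →
      (∀ p, ∫ y, ‖φ' p y - Us (g ^ ((1 : ℝ) / 3)) (ψ₀ p) y‖ ^ 2 ≤ η ^ 2) →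
      ∀ w : EY k → F, ContDiff ℝ 2 w → HasCompactSupport w →
      (∀ p i x', IsCoreVec (bn p) (Rn p) fun y => (LY D p).comp i (fib (TY p) w x' y)) →
      ∀ δ : ℝ, ∫ Y in {Y : EY k | ∀ p, ‖Y p‖ ≤ δ}, ‖w Y - D.psi φ' Y (amp D φ' w)‖ ^ 2 ≤
        K * (g ^ (-(2 : ℝ) / 3) + δ ^ 2) *
          (∑ α : Fin 16, ∫ Y : EY k, ‖∑ p, D.bch bn p α g 0 w Y‖ ^ 2) +
        K * η * ∫ Y, ‖w Y‖ ^ 2 := by
  choose c hc hlow using fun p => Ground.low_g (hg p)
  obtain ⟨c₀, hc₀, hle⟩ := exists_lower c hc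
  set n : ℝ := (Fintype.card κ : ℝ) with hn
  have hn0 : 0 ≤ n := Nat.cast_nonneg _
  refine ⟨2 * n / c₀ + 16 * n, by positivity, fun g hg0 φ' hφ' hφ1 hφe η hη hd w hw hwc hcore δ =>
    ?_⟩
  have hl : 0 < g ^ ((1 : ℝ) / 3) := Real.rpow_pos_of_pos hg0 _
  have hs : 0 < g ^ (-(2 : ℝ) / 3) := Real.rpow_pos_of_pos hg0 _
  choose ψ₁ he hev using fun p => exists_even_rep D p (hg p) hl
  have hψ₁ : ∀ p, MemLp (ψ₁ p) 2 volume := fun p =>
    (memLp_Us_ground (hg p) hl).ae_eq (he p).symm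
  have hψ1 : ∀ p, ∫ y, ‖ψ₁ p y‖ ^ 2 = 1 := fun p => by
    rw [← integral_norm_sq_Us_ground (hg p) hl]
    refine integral_congr_ae ?_
    filter_upwards [he p] with y hy
    rw [hy]
  have hd1 : ∀ p, ∫ y, ‖ψ₁ p y - φ' p y‖ ^ 2 ≤ η ^ 2 := fun p => by
    refine le_trans (le_of_eq ?_) (hd p)
    refine integral_congr_ae ?_
    filter_upwards [he p] with y hy
    rw [hy, norm_sub_rev]
  have hlow' : ∀ p, Low (bn p) (D.Mb p) (Rn p) G g 0 c₀ (hws (g ^ (-(2 : ℝ) / 3))) (ψ₁ p) :=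
    fun p => ((hlow p g hg0).congr_ae (he p)).mono (hle p) fun y => (hws_pos hs y).le
  have hw2 : MemLp w 2 volume := hw.continuous.memLp_of_hasCompactSupport hwc
  have h1 := blocks_capture_total (b := bn) (θ := fun p => bth M (D.ε p)) (D := fun _ _ => 0)
    (g := g) (m := 0) (fun p => TY p) (fun p q h => perp_TY h) (fun p q h => antiT_bth D h)
    (LY D) hψ₁ hψ1 hc₀ hs hlow' hw hwc hcore (fun α => MemLp.zero')
    (fun α p => by simp) δ
  simp only [fst_TY, pcharge_TY, add_zero, lprod_amp D hψ₁ hev hw.continuous hwc] at h1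
  have hS := memLp_psi D hψ₁ (amp_mem D (ψ := ψ₁) w)
  have hS' := memLp_psi D hφ' (amp_mem D (ψ := φ') w)
  have h2 := psi_amp_sub_le D hψ₁ hψ1 hev hφ' hφ1 hφe hη hd1 hw.continuous hwc
  set A : EY k → F := fun Y => w Y - D.psi ψ₁ Y (amp D ψ₁ w) with hA
  set B : EY k → F := fun Y => D.psi ψ₁ Y (amp D ψ₁ w) - D.psi φ' Y (amp D φ' w) with hB
  have hA2 : MemLp A 2 volume := hw2.sub hS
  have hB2 : MemLp B 2 volume := hS.sub hS'
  have hAi := (memLp_two_iff_integrable_sq_norm hA2.1).1 hA2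
  have hBi := (memLp_two_iff_integrable_sq_norm hB2.1).1 hB2
  have hCi : Integrable fun Y => ‖w Y - D.psi φ' Y (amp D φ' w)‖ ^ 2 :=
    (memLp_two_iff_integrable_sq_norm (hw2.sub hS').1).1 (hw2.sub hS')
  have h3 : ∫ Y in {Y : EY k | ∀ p, ‖Y p‖ ≤ δ}, ‖w Y - D.psi φ' Y (amp D φ' w)‖ ^ 2 ≤
      2 * (∫ Y in {Y : EY k | ∀ p, ‖Y p‖ ≤ δ}, ‖A Y‖ ^ 2) + 2 * ∫ Y, ‖B Y‖ ^ 2 := by
    calc ∫ Y in {Y : EY k | ∀ p, ‖Y p‖ ≤ δ}, ‖w Y - D.psi φ' Y (amp D φ' w)‖ ^ 2
        ≤ ∫ Y in {Y : EY k | ∀ p, ‖Y p‖ ≤ δ}, (2 * ‖A Y‖ ^ 2 + 2 * ‖B Y‖ ^ 2) := by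
          refine integral_mono hCi.integrableOn
            ((hAi.const_mul 2).add (hBi.const_mul 2)).integrableOn fun Y => ?_
          have e : w Y - D.psi φ' Y (amp D φ' w) = A Y + B Y := by
            rw [hA, hB]; simp
          change ‖w Y - D.psi φ' Y (amp D φ' w)‖ ^ 2 ≤ 2 * ‖A Y‖ ^ 2 + 2 * ‖B Y‖ ^ 2
          rw [e]
          have h4 := norm_add_le (A Y) (B Y)
          have h5 : ‖A Y + B Y‖ ^ 2 ≤ (‖A Y‖ + ‖B Y‖) ^ 2 :=
            pow_le_pow_left₀ (norm_nonneg _) h4 2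
          nlinarith [sq_nonneg (‖A Y‖ - ‖B Y‖)]
      _ = 2 * (∫ Y in {Y : EY k | ∀ p, ‖Y p‖ ≤ δ}, ‖A Y‖ ^ 2) +
          2 * ∫ Y in {Y : EY k | ∀ p, ‖Y p‖ ≤ δ}, ‖B Y‖ ^ 2 := by
          rw [integral_add (hAi.const_mul 2).integrableOn (hBi.const_mul 2).integrableOn,
            integral_const_mul, integral_const_mul]
      _ ≤ _ := by
          have h6 : ∫ Y in {Y : EY k | ∀ p, ‖Y p‖ ≤ δ}, ‖B Y‖ ^ 2 ≤ ∫ Y, ‖B Y‖ ^ 2 :=
            setIntegral_le_integral hBi (Eventually.of_forall fun Y => sq_nonneg _)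
          linarith
  set Q := ∑ α : Fin 16, ∫ Y : EY k, ‖∑ p, D.bch bn p α g 0 w Y‖ ^ 2 with hQ
  have hQ0 : 0 ≤ Q := Finset.sum_nonneg fun α _ => integral_nonneg fun _ => sq_nonneg _
  set I := ∫ Y, ‖w Y‖ ^ 2 with hI
  have hI0 : 0 ≤ I := integral_nonneg fun _ => sq_nonneg _
  set S := g ^ (-(2 : ℝ) / 3) + δ ^ 2 with hSS
  have hS0 : 0 ≤ S := by positivity
  have h1' : ∫ Y in {Y : EY k | ∀ p, ‖Y p‖ ≤ δ}, ‖A Y‖ ^ 2 ≤ n / c₀ * S * Q := by
    refine h1.trans ?_
    have e : n * (S / c₀ * (1 / 16 * Q)) = n / c₀ * S * Q * (1 / 16) := by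
      field_simp
    rw [e]
    have : 0 ≤ n / c₀ * S * Q := by positivity
    linarith
  have h2' : ∫ Y, ‖B Y‖ ^ 2 ≤ 8 * (n * η) * I := h2
  have h7 : 0 ≤ n / c₀ * η * I := by positivity
  have h8 : 0 ≤ n * S * Q := by positivity
  calc _ ≤ 2 * (n / c₀ * S * Q) + 2 * (8 * (n * η) * I) := by linarith
    _ ≤ (2 * n / c₀ + 16 * n) * S * Q + (2 * n / c₀ + 16 * n) * η * I := by
      have e1 : (2 * n / c₀ + 16 * n) * S * Q + (2 * n / c₀ + 16 * n) * η * I =
        2 * (n / c₀ * S * Q) + 16 * (n * S * Q) + (2 * (n / c₀ * η * I) + 16 * (n * η * I)) := by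
        ring
      rw [e1]
      linarith

end data

end Crest.Agent.R330.Prod494

end
end

-- ▼ part R330/Prod11_494
section

/-!
# Row 330 (helper494): the light Fock space is stable under the adjoints of the block operators

* `wadj_mem_vacOf` : `(wop f)^*` maps `vacOf M G Kᗮ` into itself if the block lies in `K`.
* `amp_mem_vacOf` : amplitudes of functions valued in `vacOf M G Kᗮ` lie there.
-/

set_option autoImplicit false
set_option linter.unusedSectionVars false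

open MeasureTheory Filter Topology Crest.MathPhysics.MatrixQM
open scoped ContDiff InnerProductSpace ENNReal

noncomputable section

namespace Crest.Agent.R330.Prod494

open Crest.Agent.R330.Cliff442 Crest.Agent.R330.Cliff442.CRep Crest.Agent.R330.Fact161
  Crest.Agent.R330.FactI161 Crest.Agent.R330.Psi477 Crest.Agent.R330.Defs478
  Crest.Agent.R330.LS839 Crest.Agent.R330.Bind6839 Crest.Agent.R330.TDef414

variable {N : ℕ} {F : Type*} [NormedAddCommGroup F] [InnerProductSpace ℂ F]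
  [FiniteDimensional ℂ F] {κ : Type*} [Fintype κ] [DecidableEq κ] {k : κ → ℕ}
  {Fb : κ → Type*} [∀ p, NormedAddCommGroup (Fb p)] [∀ p, InnerProductSpace ℂ (Fb p)]
  [∀ p, FiniteDimensional ℂ (Fb p)] {M : FermionRep N F} {G : GammaNine} (D : BD M G k Fb)

theorem thv_wadj (p : κ) (β : Fin 16) {u : Colg N} (hu : ∀ v, ⟪u, D.ε p v⟫_ℝ = 0) (f : Fb p)
    (w : F) : thv M β u (wadj (D.pol p) (cr M) (te (D.ε p)) f w) =
      wadj (D.pol p) (cr M) (te (D.ε p)) (par (D.pol p) f) (thv M β u w) := by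
  have h := adj_wop_th (D.pol p) (cr M) (te (D.ε p)) (x := ins β u)
    (fun y => ins_orth hu β y) f w
  rw [cr_ins] at h
  exact h

theorem wadj_mem_vacOf {K : Submodule ℝ (Colg N)} (hK : ∀ p v, D.ε p v ∈ K) (p : κ) (f : Fb p)
    (w : F) (hw : w ∈ vacOf M G Kᗮ) :
    wadj (D.pol p) (cr M) (te (D.ε p)) f w ∈ vacOf M G Kᗮ := by
  intro α u hu
  have hu' : ∀ v, ⟪u, D.ε p v⟫_ℝ = 0 := fun v => by
    rw [real_inner_comm]
    exact (Submodule.mem_orthogonal _ _).1 hu _ (hK p v)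
  have h1 : gan M G α u (wadj (D.pol p) (cr M) (te (D.ε p)) f w) =
      wadj (D.pol p) (cr M) (te (D.ε p)) (par (D.pol p) f) (gan M G α u w) := by
    unfold gan
    simp only [LinearMap.sub_apply, LinearMap.smul_apply, LinearMap.sum_apply, thv_wadj D p _ hu']
    unfold wadj
    rw [map_sub, map_smul, map_sum]
    simp only [map_smul]
  rw [h1, hw α u hu, wadj_zero]

/-- the amplitude of a function with values in the light Fock space -/
theorem amp_mem_vacOf {K : Submodule ℝ (Colg N)} (hK : ∀ p v, D.ε p v ∈ K)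
    {ψ : ∀ p, Cfg (k p) → Fb p} {φ : EY k → F} (hφ : ∀ Y, φ Y ∈ vacOf M G Kᗮ) :
    amp D ψ φ ∈ vacOf M G Kᗮ :=
  amp_mem_sub D (vacOf M G Kᗮ) (fun p f w hw => wadj_mem_vacOf D hK p f w hw) hφ

end Crest.Agent.R330.Prod494

end
end

-- ▼ part R330/HCoreY_735
section

/-!
# Row 330 (helper735): the core property in the block coordinates of a channel

* `Io C bb ε` : the block gauge elements of a channel.
* `Io.fix` : they fix the vectors of `C.kk` orthogonal to their block.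
* `hcore_Y` : the hypothesis `hcore` of 494's product Hardy inequality for a function on `C.Blk`
  with the properties required by 414's `PsiHardy`.
-/

set_option autoImplicit false
set_option linter.unusedSectionVars false

open MeasureTheory Crest.MathPhysics.MatrixQM
open scoped BigOperators InnerProductSpace ContDiff

noncomputable section

namespace Crest.Agent.R330.BlkNeut735

open Crest.Agent.R330.Cliff442 Crest.Agent.R330.Cliff442.CRep Crest.Agent.R330.Fact161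
open Crest.Agent.R330.LS839 Crest.Agent.R330.Bind6839 Crest.Agent.R330.Defs478
open Crest.Agent.R330.SInd478 Crest.Agent.R330.FactI161 Crest.Agent.R330.TCore944
open Crest.Agent.R330.TDef414 Crest.Agent.R330.Psi477

section link

variable {N p : ℕ} {b : ColorBasis N} {S : Type} [Group S] [Fintype S] {C : Chn b p S}
  {κ : Type*} [Fintype κ] [DecidableEq κ] {k : κ → ℕ} {bb : ∀ q, ColorBasis (k q)}
  {ε : ∀ q, Colg (k q) →ₗᵢ[ℝ] Colg N}

/-- The block gauge elements of a channel. -/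
def Io (C : Chn b p S) (bb : ∀ q, ColorBasis (k q)) (ε : ∀ q, Colg (k q) →ₗᵢ[ℝ] Colg N) : Prop :=
  ∀ q (a : Matrix.specialUnitaryGroup (Fin (k q)) ℂ), ∃ g : Matrix.specialUnitaryGroup (Fin N) ℂ,
    (∀ X, b.act g (C.cf X) = C.cf X) ∧ (∀ u, adC b g (ε q u) = ε q (adC (bb q) a u)) ∧
    ∀ q', q' ≠ q → ∀ u, adC b g (ε q' u) = ε q' u

theorem adC_cen_of {g : Matrix.specialUnitaryGroup (Fin N) ℂ}
    (h1 : ∀ X, b.act g (C.cf X) = C.cf X) (t : EuclideanSpace ℝ (Fin p)) :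
    adC b g (C.cen t) = C.cen t := by
  have h := congrArg (fun x => comp x 0) (h1 (mkp fun _ => t))
  simp only [comp_actg, C.comp_cf, pcomp_mkp] at h
  exact h

/-- Block gauge elements fix the light directions orthogonal to their block. -/
theorem fix_of (h : Link C k bb ε) {q : κ} {g : Matrix.specialUnitaryGroup (Fin N) ℂ}
    (h1 : ∀ X, b.act g (C.cf X) = C.cf X) (h3 : ∀ q', q' ≠ q → ∀ u, adC b g (ε q' u) = ε q' u)
    {u : Colg N} (hu : u ∈ C.kk) (huo : ∀ v, ⟪u, ε q v⟫_ℝ = 0) : adC b g u = u := by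
  obtain ⟨t, v, rfl⟩ := h.span u hu
  have hv : v q = 0 := by
    have h4 := huo (v q)
    rw [inner_add_left, h.cen0, zero_add, sum_inner, Finset.sum_eq_single q] at h4
    · rw [(ε q).inner_map_map] at h4
      exact inner_self_eq_zero.1 h4
    · intro q' _ hq'
      exact h.ho q' q hq' _ _
    · intro h0
      exact absurd (Finset.mem_univ _) h0
  rw [map_add, map_sum, adC_cen_of h1]
  congr 1
  refine Finset.sum_congr rfl fun q' _ => ?_
  by_cases hq : q' = q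
  · subst hq
    rw [hv, map_zero, map_zero]
  · exact h3 q' hq _

/-- A gauge element of the block `q` acts in the slot `q`. -/
theorem act_iB (h : Link C k bb ε) {q : κ} {a : Matrix.specialUnitaryGroup (Fin (k q)) ℂ}
    {g : Matrix.specialUnitaryGroup (Fin N) ℂ}
    (h2 : ∀ u, adC b g (ε q u) = ε q (adC (bb q) a u))
    (h3 : ∀ q', q' ≠ q → ∀ u, adC b g (ε q' u) = ε q' u) {Y Y' : EY k}
    (hq : Y' q = (bb q).act a (Y q)) (hq' : ∀ q', q' ≠ q → Y' q' = Y q') :
    iB ε h.ho Y' = b.act g (iB ε h.ho Y) := by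
  refine ext_comp fun i => ?_
  rw [comp_actg, comp_iB, comp_iB, map_sum]
  refine Finset.sum_congr rfl fun r _ => ?_
  by_cases hr : r = q
  · subst hr
    rw [hq, comp_actg, h2]
  · rw [hq' r hr, h3 r hr]

variable {F : Type*} [NormedAddCommGroup F] [InnerProductSpace ℂ F] [FiniteDimensional ℂ F]
  {M : FermionRep N F} {R : GaugeAction b M} {G : GammaNine} {Fb : κ → Type*}
  [∀ p, NormedAddCommGroup (Fb p)] [∀ p, InnerProductSpace ℂ (Fb p)]
  [∀ p, FiniteDimensional ℂ (Fb p)]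

/-- **The core property of the components**, in the block coordinates of a channel, for any
splitting `T` of `EY k` along the slot `q`. -/
theorem hcore_Y (h : Link C k bb ε) (hio : Io C bb ε) (D : BD M G k Fb) (hD : D.ε = ε)
    (Rb : ∀ q, GaugeAction (bb q) (D.Mb q)) {w : C.Blk → F} (hw : ContDiff ℝ ∞ w)
    (hcs : HasCompactSupport w) (hv : ∀ Y, w Y ∈ C.Fl M G)
    (heq : ∀ (g : Matrix.specialUnitaryGroup (Fin N) ℂ) (X : Pos p), C.Reg X →
      b.act g (C.cf X) = C.cf X → ∀ Y Y' : C.Blk, (Y' : Cfg N) = b.act g Y →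
        w Y' = R.ρ g (w Y)) (hX : ∃ X, C.Reg X) (q : κ)
    {E' : Type*} [NormedAddCommGroup E'] [InnerProductSpace ℝ E'] [FiniteDimensional ℝ E']
    (T : EY k ≃ₗᵢ[ℝ] WithLp 2 (Cfg (k q) × E')) (hT : ∀ y, Prod494.emb T y = BD.sg q y)
    {κ' : Type*} [Fintype κ'] [DecidableEq κ'] (W : OrthonormalBasis κ' ℂ (vacB M G (D.ε q)))
    (i : κ') (x' : E') :
    IsCoreVec (bb q) (Rb q) fun y => (mult M (D.isv q) (D.nm q) (D.ε q) W).comp i
      (Prod494.fib T (fun Y => w (h.iBe Y)) x' y) := by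
  subst hD
  let _ : MeasurableSpace E' := borel E'
  have _ : BorelSpace E' := ⟨rfl⟩
  obtain ⟨X, hX⟩ := hX
  choose io h1 h2 h3 using hio q
  refine core_comp R (Rb q) (D.isv q) (D.nm q) (D.ε q) (K := C.kk) W (h.mem q) (io := io)
    h2 (fun a u hu huo => fix_of h (h1 a) (h3 a) hu huo) T
    (hw.comp h.iBe.toContinuousLinearEquiv.contDiff)
    (hcs.comp_homeomorph h.iBe.toHomeomorph) (fun Y => hv _) (fun a y x' => ?_) i x'
  refine heq (io a) X hX (h1 a X) _ _ ?_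
  change iB D.ε h.ho (Prod494.pt T ((bb q).act a y) x') =
    b.act (io a) (iB D.ε h.ho (Prod494.pt T y x'))
  -- the points of the fibre
  have hpt : ∀ y : Cfg (k q), Prod494.pt T y x' = BD.sg q y + Prod494.pt T 0 x' := fun y => by
    rw [← hT, add_comm, ← Prod494.pt_add_emb, zero_add]
  have h0 : (Prod494.pt T 0 x' : EY k) q = 0 := by
    refine ext_inner_right ℝ fun v => ?_
    have e1 : ⟪(Prod494.pt T 0 x' : EY k), BD.sg q v⟫_ℝ = ⟪(Prod494.pt T 0 x' : EY k) q, v⟫_ℝ := by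
      rw [PiLp.inner_apply, Finset.sum_eq_single q]
      · simp [BD.sg]
      · intro r _ hr
        simp [BD.sg, hr]
      · intro h0
        exact absurd (Finset.mem_univ _) h0
    rw [← e1, ← hT, inner_zero_left]
    unfold Prod494.emb Prod494.pt
    rw [T.symm.inner_map_map, WithLp.prod_inner_apply]
    simp
  refine act_iB h (h2 a) (h3 a) ?_ fun r hr => ?_
  · rw [hpt ((bb q).act a y), hpt y, PiLp.add_apply, PiLp.add_apply, h0, add_zero, add_zero]
    simp [BD.sg]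
  · rw [hpt ((bb q).act a y), hpt y, PiLp.add_apply, PiLp.add_apply]
    simp [BD.sg, hr]

end link

end Crest.Agent.R330.BlkNeut735

end
end

-- ▼ part R330/HCoreZ_735
section

/-!
# Row 330 (helper735): the core hypothesis of the product Hardy inequality, final form

* `hcore_LY` : for 494's `LY D q`, `TY q` and a function on `C.Blk` as in 414's `PsiHardy`.
* `hcore_Fml` : for the small data `T : Fml ..` of 477 and `LinkCov`.
-/

set_option autoImplicit false
set_option linter.unusedSectionVars false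

open MeasureTheory Crest.MathPhysics.MatrixQM
open scoped BigOperators InnerProductSpace ContDiff

noncomputable section

namespace Crest.Agent.R330.BlkNeut735

open Crest.Agent.R330.Cliff442 Crest.Agent.R330.Cliff442.CRep Crest.Agent.R330.Fact161
open Crest.Agent.R330.LS839 Crest.Agent.R330.Bind6839 Crest.Agent.R330.Defs478
open Crest.Agent.R330.SInd478 Crest.Agent.R330.FactI161 Crest.Agent.R330.TCore944
open Crest.Agent.R330.TDef414 Crest.Agent.R330.Psi477 Crest.Agent.R330.Prod494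

section link

variable {N p : ℕ} {b : ColorBasis N} {S : Type} [Group S] [Fintype S] {C : Chn b p S}
  {κ : Type*} [Fintype κ] [DecidableEq κ] {k : κ → ℕ} {bb : ∀ q, ColorBasis (k q)}
  {ε : ∀ q, Colg (k q) →ₗᵢ[ℝ] Colg N}
  {F : Type*} [NormedAddCommGroup F] [InnerProductSpace ℂ F] [FiniteDimensional ℂ F]
  {M : FermionRep N F} {R : GaugeAction b M} {G : GammaNine} {Fb : κ → Type*}
  [∀ p, NormedAddCommGroup (Fb p)] [∀ p, InnerProductSpace ℂ (Fb p)]
  [∀ p, FiniteDimensional ℂ (Fb p)]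

/-- **The hypothesis `hcore`** of 494's product Hardy inequality. -/
theorem hcore_LY (h : Link C k bb ε) (hio : Io C bb ε) (D : BD M G k Fb) (hD : D.ε = ε)
    (Rb : ∀ q, GaugeAction (bb q) (D.Mb q)) {w : C.Blk → F} (hw : ContDiff ℝ ∞ w)
    (hcs : HasCompactSupport w) (hv : ∀ Y, w Y ∈ C.Fl M G)
    (heq : ∀ (g : Matrix.specialUnitaryGroup (Fin N) ℂ) (X : Pos p), C.Reg X →
      b.act g (C.cf X) = C.cf X → ∀ Y Y' : C.Blk, (Y' : Cfg N) = b.act g Y →
        w Y' = R.ρ g (w Y)) (q : κ) (i : Fin (Module.finrank ℂ (vacB M G (D.ε q))))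
    (x' : ↥(LinearMap.range (sgI (k := k) q).toLinearMap)ᗮ) :
    IsCoreVec (bb q) (Rb q) fun y => (LY D q).comp i (fib (TY q) (fun Y => w (h.iBe Y)) x' y) :=
  hcore_Y h hio D hD Rb hw hcs hv heq
    (by
      obtain ⟨X, hX⟩ := ChFlat718.exists_breg (C := C)
      exact ⟨X, hX.reg⟩) q (TY q) (fun y => emb_ofEmb (sgI q) y) (WY D q) i x'

/-- The block gauge elements from 477's `LinkCov`. -/
theorem io_of_linkCov {bn : ∀ n, ColorBasis n} (hc : LinkCov C k bn ε) :
    Io C (fun q => bn (k q)) ε := hc.iota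

end link

end Crest.Agent.R330.BlkNeut735

end
end

-- ▼ part R330/HBind_450

/-!
# Row 330 (helper450): the block Hardy property of the literal block state (C10)

* `psiHardy` : `PsiHardy P` for every `P` whose block state is 477's `T.Psi`.
-/

set_option autoImplicit false
set_option linter.unusedSectionVars false

open MeasureTheory Filter Topology Crest.MathPhysics.MatrixQM
open scoped ContDiff InnerProductSpace ENNReal

noncomputable section

namespace Crest.Agent.R330.HBind450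

open Crest.Agent.R330.Cliff442 Crest.Agent.R330.Cliff442.CRep Crest.Agent.R330.Fact161
  Crest.Agent.R330.FactI161 Crest.Agent.R330.Psi477 Crest.Agent.R330.Defs478
  Crest.Agent.R330.LS839 Crest.Agent.R330.Bind6839 Crest.Agent.R330.Prod494
  Crest.Agent.R330.TDef414 Crest.Agent.R330.SInd478 Crest.Agent.R330.Scale423
  Crest.Agent.R330.BlkNeut735 Crest.Agent.R330.Pkg915

variable {N p : ℕ} {b : ColorBasis N} {S : Type} [Group S] [Fintype S] {C : Chn b p S}
  {κ : Type*} [Fintype κ] [DecidableEq κ] {k : κ → ℕ} {ε : ∀ q, Colg (k q) →ₗᵢ[ℝ] Colg N}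
  {F : Type*} [NormedAddCommGroup F] [InnerProductSpace ℂ F] [FiniteDimensional ℂ F]
  {M : FermionRep N F} {R : GaugeAction b M} {G : GammaNine}
  {Fn : ℕ → Type} [∀ n, NormedAddCommGroup (Fn n)] [∀ n, InnerProductSpace ℂ (Fn n)]
  [∀ n, FiniteDimensional ℂ (Fn n)] {bn : ∀ n, ColorBasis n} {Mn : ∀ n, FermionRep n (Fn n)}
  {Rn : ∀ n, GaugeAction (bn n) (Mn n)}

/-- **The block Hardy property of the literal block state.** -/
theorem psiHardy (T : Fml bn Mn Rn G k) (h : Link C k (fun q => bn (k q)) ε)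
    (hc : LinkCov C k bn ε) (P : TPack C M R G) (hP : P.Psi = T.Psi M ε h.ho) : PsiHardy P := by
  obtain ⟨K, hK, h1⟩ := psi_hardy (D := T.D M ε h.ho) (bn := fun q => bn (k q))
    (Rn := fun q => Rn (k q)) (ψ₀ := fun q => T.ψ (k q)) T.ground
  refine ⟨K, hK, fun ε₀ hε₀ => ?_⟩
  -- the size of the perturbation
  have hlim : Tendsto (fun g : ℝ => K * √(T.K * g ^ (-(2 / 3) : ℝ))) atTop (𝓝 0) := by
    have h2 : Tendsto (fun g : ℝ => g ^ (-(2 / 3) : ℝ)) atTop (𝓝 0) :=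
      tendsto_rpow_neg_atTop (by norm_num)
    have h3 : Tendsto (fun g : ℝ => K * √(T.K * g ^ (-(2 / 3) : ℝ))) atTop
        (𝓝 (K * √(T.K * 0))) := ((h2.const_mul T.K).sqrt).const_mul K
    simpa using h3
  filter_upwards [hlim.eventually (gt_mem_nhds hε₀), eventually_ge_atTop T.g0,
    eventually_gt_atTop (0 : ℝ)] with g hg1 hg hg0 w hw hcs hv heq
  set D := T.D M ε h.ho with hD
  have hDe : D.ε = ε := rfl
  set φ : ∀ q, Cfg (k q) → Fn (k q) := T.fac g with hφ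
  set W : EY k → F := fun Y => w (h.iBe Y) with hW
  have hφ2 : ∀ q, MemLp (φ q) 2 volume := fun q =>
    (T.fac_smooth hg q).continuous.memLp_of_hasCompactSupport (T.fac_compact hg q)
  have hφ1 : ∀ q, ∫ y, ‖φ q y‖ ^ 2 = 1 := fun q => (T.fam g hg q).norm
  have hφe : ∀ q y, D.Even q (φ q y) := fun q y => T.fac_even hg q y
  have hWs : ContDiff ℝ ∞ W := hw.comp h.iBe.toContinuousLinearEquiv.contDiff
  have hWc : HasCompactSupport W := hcs.comp_homeomorph h.iBe.toHomeomorph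
  have hWv : ∀ Y, W Y ∈ C.Fl M G := fun Y => hv _
  set a := amp D φ W with ha
  have haF : a ∈ C.Fx M G := by
    rw [mem_Fx_iff M G ε C h.mem h.cen0 h.span]
    exact ⟨amp_mem_vacOf D h.mem hWv, amp_mem D W⟩
  have hPsi : ∀ (Y : EY k) (f : F), P.Psi g (h.iBe Y : C.Blk) f = D.psi φ Y f := fun Y f => by
    rw [hP]
    exact T.Psi_iBe h hg Y f
  refine ⟨a, ⟨haF, fun f hf => ?_⟩, fun δ hδ => ?_⟩
  · have hfW : f ∈ D.W := ((mem_Fx_iff M G ε C h.mem h.cen0 h.span).1 hf).2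
    rw [inner_amp D hφ2 hφ1 hφe hWs.continuous hWc hfW, h.integral_blk']
    simp only [hPsi]
    rfl
  · set η := √(T.K * g ^ (-(2 / 3) : ℝ)) with hη
    have hη0 : 0 ≤ η := Real.sqrt_nonneg _
    have hη2 : ∀ q, ∫ y, ‖φ q y - Us (g ^ ((1 : ℝ) / 3)) (T.ψ (k q)) y‖ ^ 2 ≤ η ^ 2 := fun q => by
      rw [hη, Real.sq_sqrt (mul_nonneg T.hK.le (Real.rpow_nonneg hg0.le _))]
      exact (T.fam g hg q).err
    have h2 := h1 g hg0 φ hφ2 hφ1 hφe η hη0 hη2 W (hWs.of_le (by norm_cast)) hWc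
      (fun q i x' => hcore_LY h (io_of_linkCov hc) D hDe (fun q => Rn (k q)) hw hcs hv heq q i x') δ
    -- transport
    have e1 : ∫ Y in Metric.closedBall (0 : C.Blk) δ, ‖w Y - P.Psi g Y a‖ ^ 2 =
        ∫ Y in h.iBe ⁻¹' Metric.closedBall (0 : C.Blk) δ, ‖W Y - D.psi φ Y a‖ ^ 2 := by
      have h3 := (h.iBe.measurePreserving).setIntegral_preimage_emb
        (h.iBe.toHomeomorph.measurableEmbedding) (fun Y : C.Blk => ‖w Y - P.Psi g Y a‖ ^ 2)
        (Metric.closedBall (0 : C.Blk) δ)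
      rw [← h3]
      simp only [hPsi]
      rfl
    have hsub : h.iBe ⁻¹' Metric.closedBall (0 : C.Blk) δ ⊆ {Y : EY k | ∀ q, ‖Y q‖ ≤ δ} := by
      intro Y hY q
      have h3 : ‖h.iBe Y‖ ≤ δ := mem_closedBall_zero_iff.1 hY
      rw [h.iBe.norm_map] at h3
      exact (PiLp.norm_apply_le Y q).trans h3
    have hI : Integrable fun Y : EY k => ‖W Y - D.psi φ Y a‖ ^ 2 := by
      have h3 : MemLp (fun Y : EY k => W Y - D.psi φ Y a) 2 volume :=
        (hWs.continuous.memLp_of_hasCompactSupport hWc).sub (memLp_psi D hφ2 (amp_mem D W))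
      exact (memLp_two_iff_integrable_sq_norm h3.1).1 h3
    have e2 : ∫ Y in h.iBe ⁻¹' Metric.closedBall (0 : C.Blk) δ, ‖W Y - D.psi φ Y a‖ ^ 2 ≤
        ∫ Y in {Y : EY k | ∀ q, ‖Y q‖ ≤ δ}, ‖W Y - D.psi φ Y a‖ ^ 2 :=
      setIntegral_mono_set hI.integrableOn (Eventually.of_forall fun Y => sq_nonneg _)
        (Eventually.of_forall hsub)
    have e3 : ∀ α, ∫ Y : C.Blk, ‖qblkB M G g α w Y‖ ^ 2 =
        ∫ Y : EY k, ‖∑ q, D.bch (fun q => bn (k q)) q α g 0 W Y‖ ^ 2 := fun α => by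
      rw [h.integral_blk']
      refine integral_congr_ae (Eventually.of_forall fun Y => ?_)
      simp only
      rw [h.qblkB_iBe D hDe g α ((hw.differentiable (by simp)) _)]
    have e4 : ∫ Y : C.Blk, ‖w Y‖ ^ 2 = ∫ Y : EY k, ‖W Y‖ ^ 2 := h.integral_blk' _
    have e5 : g ^ (-(2 : ℝ) / 3) = g ^ (-(2 / 3) : ℝ) := by
      congr 1
      norm_num
    rw [e5] at h2
    simp only [e3, e4]
    rw [e1]
    refine e2.trans (h2.trans ?_)
    have h5 : 0 ≤ ∫ Y : EY k, ‖W Y‖ ^ 2 := integral_nonneg fun Y => sq_nonneg _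
    have h6 : K * η * ∫ Y : EY k, ‖W Y‖ ^ 2 ≤ ε₀ * ∫ Y : EY k, ‖W Y‖ ^ 2 :=
      mul_le_mul_of_nonneg_right hg1.le h5
    linarith

end Crest.Agent.R330.HBind450

end
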