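import Crest.Agent.R330.PairC_424
import Crest.Agent.R330.SlInt_658
import Crest.Agent.R330.SlI_712
import Crest.Agent.R330.TCore_383
import Crest.Agent.R330.PairT_245
import Crest.Agent.R330.ALow_302
import Crest.Agent.R330.GPar_984
import Crest.Agent.R330.LocD_8
import Crest.Agent.R330.LemR_342
import Crest.Agent.R330.LocE_8
import Crest.Agent.R330.LemR2_302

-- ▼ part R330/PairC2_424
section

/-!
# Row 330, S9-PAIRING (helper424): a small multiplier gives a small pairing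

`pairing_small` : `‖∫ ⟪th gs om, Φ⟫‖ ≤ sqrt (2 C² (δ² + κ) K) * ‖Φ‖₂` when
`|th| ≤ C (δ + s z)`, `∫ gs² ≤ 1`, `∫ s² gs² ≤ κ`, `∫ ‖om‖² ≤ K`.
-/

set_option autoImplicit false
set_option linter.unusedSectionVars false

open MeasureTheory Filter Topology Set
open scoped ContDiff InnerProductSpace ENNReal NNReal

noncomputable section

namespace Crest.Agent.R330.PairC424

variable {U Z : Type*} [MeasurableSpace U] [MeasurableSpace Z] {ν : Measure U} {μ : Measure Z}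
  [SFinite ν] [SFinite μ]
  {F : Type*} [NormedAddCommGroup F] [InnerProductSpace ℂ F]

theorem lint_gs_le {gs : U × Z → ℝ} {om : U → F} {K : ℝ≥0∞}
    (Hm : AEStronglyMeasurable (fun q => gs q • om q.1) (ν.prod μ))
    (h1 : ∀ u, om u ≠ 0 → ∫⁻ z, ENNReal.ofReal (gs (u, z) ^ 2) ∂μ ≤ 1)
    (hK : ∫⁻ u, ‖om u‖ₑ ^ 2 ∂ν ≤ K) :
    ∫⁻ q, ‖gs q • om q.1‖ₑ ^ 2 ∂(ν.prod μ) ≤ K := by
  have e : ∀ q : U × Z, ‖gs q • om q.1‖ₑ ^ 2 = ‖om q.1‖ₑ ^ 2 * ENNReal.ofReal (gs q ^ 2) := by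
    intro q
    rw [enorm_eq_ofReal, enorm_eq_ofReal, ← ENNReal.ofReal_mul (by positivity), norm_smul,
      mul_pow, Real.norm_eq_abs, sq_abs, mul_comm]
  refine le_trans ?_ hK
  rw [lintegral_prod _ (Hm.enorm.pow_const 2)]
  refine lintegral_mono fun u => ?_
  simp only [e]
  rw [lintegral_const_mul' _ _ (ENNReal.pow_ne_top enorm_ne_top)]
  by_cases hu : om u = 0
  · simp [hu]
  · calc _ ≤ ‖om u‖ₑ ^ 2 * 1 := by gcongr; exact h1 u hu
      _ = _ := mul_one _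

theorem memLp_of_lint {S : Type*} [MeasurableSpace S] {σ : Measure S} {f : S → F}
    (hm : AEStronglyMeasurable f σ) (h : ∫⁻ x, ‖f x‖ₑ ^ 2 ∂σ < ⊤) : MemLp f 2 σ := by
  refine ⟨hm, ?_⟩
  rw [eLpNorm_lt_top_iff_lintegral_rpow_enorm_lt_top (by norm_num) (by norm_num)]
  simpa using h

/-- **A small multiplier gives a small pairing.** -/
theorem pairing_small {th gs : U × Z → ℝ} {om : U → F} {s : Z → ℝ} {C δ κ K : ℝ}
    {Φ : U × Z → F} (hκ : 0 ≤ κ) (hK0 : 0 ≤ K)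
    (hth : ∀ u z, om u ≠ 0 → |th (u, z)| ≤ C * (δ + s z))
    (Hm : AEStronglyMeasurable (fun q => gs q • om q.1) (ν.prod μ))
    (Tm : AEStronglyMeasurable (fun q => (th q * gs q) • om q.1) (ν.prod μ))
    (hsm : Measurable s)
    (h1 : ∀ u, om u ≠ 0 → ∫⁻ z, ENNReal.ofReal (gs (u, z) ^ 2) ∂μ ≤ 1)
    (h2 : ∀ u, om u ≠ 0 →
      ∫⁻ z, ENNReal.ofReal (s z ^ 2 * gs (u, z) ^ 2) ∂μ ≤ ENNReal.ofReal κ)
    (hK : ∫⁻ u, ‖om u‖ₑ ^ 2 ∂ν ≤ ENNReal.ofReal K) (hΦ : MemLp Φ 2 (ν.prod μ)) :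
    ‖∫ q, ⟪(th q * gs q) • om q.1, Φ q⟫_ℂ ∂(ν.prod μ)‖ ≤
      Real.sqrt (2 * C ^ 2 * (δ ^ 2 + κ) * K) * Real.sqrt (∫ q, ‖Φ q‖ ^ 2 ∂(ν.prod μ)) := by
  -- the second moment
  have e2 : ∀ u z, ENNReal.ofReal (s z ^ 2) * ‖gs (u, z) • om u‖ₑ ^ 2 =
      ‖om u‖ₑ ^ 2 * ENNReal.ofReal (s z ^ 2 * gs (u, z) ^ 2) := by
    intro u z
    rw [enorm_eq_ofReal, enorm_eq_ofReal, ← ENNReal.ofReal_mul (by positivity),
      ← ENNReal.ofReal_mul (by positivity), norm_smul, mul_pow, Real.norm_eq_abs, sq_abs]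
    congr 1
    ring
  have m2 : AEMeasurable (fun q : U × Z => ENNReal.ofReal (s q.2 ^ 2) * ‖gs q • om q.1‖ₑ ^ 2)
      (ν.prod μ) :=
    ((hsm.comp measurable_snd).pow_const 2).ennreal_ofReal.aemeasurable.mul
      (Hm.enorm.pow_const 2)
  have l2 : ∫⁻ q, ENNReal.ofReal (s q.2 ^ 2) * ‖gs q • om q.1‖ₑ ^ 2 ∂(ν.prod μ) ≤
      ENNReal.ofReal (κ * K) := by
    rw [lintegral_prod _ m2, ENNReal.ofReal_mul hκ]
    calc _ ≤ ∫⁻ u, ENNReal.ofReal κ * ‖om u‖ₑ ^ 2 ∂ν := by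
          refine lintegral_mono fun u => ?_
          simp only [e2]
          rw [lintegral_const_mul' _ _ (ENNReal.pow_ne_top enorm_ne_top)]
          by_cases hu : om u = 0
          · simp [hu]
          · rw [mul_comm (ENNReal.ofReal κ)]
            gcongr
            exact h2 u hu
      _ = ENNReal.ofReal κ * ∫⁻ u, ‖om u‖ₑ ^ 2 ∂ν :=
          lintegral_const_mul' _ _ ENNReal.ofReal_ne_top
      _ ≤ _ := by gcongr
  -- the product
  have hpt : ∀ q : U × Z, ‖(th q * gs q) • om q.1‖ₑ ^ 2 ≤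
      ENNReal.ofReal (2 * C ^ 2) * (ENNReal.ofReal (δ ^ 2) * ‖gs q • om q.1‖ₑ ^ 2 +
        ENNReal.ofReal (s q.2 ^ 2) * ‖gs q • om q.1‖ₑ ^ 2) := by
    intro q
    rw [mul_smul, ← add_mul, ← mul_assoc, ← ENNReal.ofReal_add (by positivity) (by positivity),
      ← ENNReal.ofReal_mul (by positivity), enorm_eq_ofReal, enorm_eq_ofReal,
      ← ENNReal.ofReal_mul (by positivity), norm_smul, mul_pow, Real.norm_eq_abs, sq_abs]
    refine ENNReal.ofReal_le_ofReal ?_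
    by_cases hu : om q.1 = 0
    · simp [hu]
    · refine mul_le_mul_of_nonneg_right ?_ (by positivity)
      have h3 := hth q.1 q.2 hu
      have h4 : th q ^ 2 ≤ C ^ 2 * (δ + s q.2) ^ 2 := by
        rw [← sq_abs (th q), ← mul_pow]
        exact pow_le_pow_left₀ (abs_nonneg _) h3 2
      have h5 : (δ + s q.2) ^ 2 ≤ 2 * (δ ^ 2 + s q.2 ^ 2) := by nlinarith [sq_nonneg (δ - s q.2)]
      calc _ ≤ C ^ 2 * (δ + s q.2) ^ 2 := h4
        _ ≤ C ^ 2 * (2 * (δ ^ 2 + s q.2 ^ 2)) := mul_le_mul_of_nonneg_left h5 (sq_nonneg C)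
        _ = _ := by ring
  have ld : ∫⁻ q, ‖(th q * gs q) • om q.1‖ₑ ^ 2 ∂(ν.prod μ) ≤
      ENNReal.ofReal (2 * C ^ 2 * (δ ^ 2 + κ) * K) := by
    have mg : AEMeasurable (fun q : U × Z => ‖gs q • om q.1‖ₑ ^ 2) (ν.prod μ) :=
      Hm.enorm.pow_const 2
    have l1 := lint_gs_le Hm h1 hK
    calc _ ≤ ∫⁻ q, ENNReal.ofReal (2 * C ^ 2) * (ENNReal.ofReal (δ ^ 2) * ‖gs q • om q.1‖ₑ ^ 2 +
          ENNReal.ofReal (s q.2 ^ 2) * ‖gs q • om q.1‖ₑ ^ 2) ∂(ν.prod μ) := lintegral_mono hpt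
      _ = ENNReal.ofReal (2 * C ^ 2) * (ENNReal.ofReal (δ ^ 2) *
            ∫⁻ q, ‖gs q • om q.1‖ₑ ^ 2 ∂(ν.prod μ) +
            ∫⁻ q, ENNReal.ofReal (s q.2 ^ 2) * ‖gs q • om q.1‖ₑ ^ 2 ∂(ν.prod μ)) := by
          rw [lintegral_const_mul' _ _ ENNReal.ofReal_ne_top,
            lintegral_add_left' (mg.const_mul _), lintegral_const_mul' _ _ ENNReal.ofReal_ne_top]
      _ ≤ ENNReal.ofReal (2 * C ^ 2) * (ENNReal.ofReal (δ ^ 2) * ENNReal.ofReal K +
            ENNReal.ofReal (κ * K)) := by gcongr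
      _ = _ := by
          rw [← ENNReal.ofReal_mul (by positivity), ← ENNReal.ofReal_add (by positivity)
            (by positivity), ← ENNReal.ofReal_mul (by positivity)]
          congr 1
          ring
  have hd : MemLp (fun q : U × Z => (th q * gs q) • om q.1) 2 (ν.prod μ) :=
    memLp_of_lint Tm (ld.trans_lt ENNReal.ofReal_lt_top)
  refine (norm_integral_inner_le hd hΦ).trans ?_
  refine mul_le_mul_of_nonneg_right (Real.sqrt_le_sqrt ?_) (Real.sqrt_nonneg _)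
  rw [lint_eq_ofReal hd] at ld
  exact (ENNReal.ofReal_le_ofReal_iff (by positivity)).1 ld

end Crest.Agent.R330.PairC424

end
end

-- ▼ part R330/PairD_424
section

/-!
# Row 330, S9-PAIRING (helper424): literal geometry of the slice and the light part

Coordinates `(u, z) ∈ Tup kk × Zt X0` on the slice `Nor b c`, `c = C.cf σ.X0`.

* `cfT_add`, `PY_add`, `PM_add`, `norm_sq_light`, `light_le_Nor`;
* `spl` : the measure preserving linear equivalence `Tup kk × Zt X0 ≃ Nor b c`;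
* `om` : the light part of the trial function, `gsn` : the normalised Gaussian, `tau_eq`;
* `continuous_om`, `continuous_gs_om`.
-/

set_option autoImplicit false
set_option linter.unusedSectionVars false

open MeasureTheory Filter Topology Crest.MathPhysics.MatrixQM
open scoped ContDiff InnerProductSpace ENNReal

noncomputable section

namespace Crest.Agent.R330.PairD424

open Crest.Agent.R330.Defs478 Crest.Agent.R330.LS839 Crest.Agent.R330.Frame839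
  Crest.Agent.R330.Bind6839 Crest.Agent.R330.SlG944 Crest.Agent.R330.SlF944
  Crest.Agent.R330.TDef414 Crest.Agent.R330.SlI712
open Crest.Agent.R330.SlB314 (Nor Tan br)
open Crest.Agent.R330.SlD314 (tube mem_tube_iff)

variable {N p : ℕ} {b : ColorBasis N} {S : Type} [Group S] [Fintype S]

/-! ## geometry -/

section geo

variable (C : Chn b p S)

theorem cf_mem (X : Pos p) : C.cf X ∈ Tup C.kk := by
  rw [mem_Tup]
  intro i
  rw [C.comp_cf]
  exact C.cen_mem _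

theorem PK_light {u : Cfg N} (hu : u ∈ Tup C.kk) : C.PK u = u :=
  Submodule.starProjection_eq_self_iff.2 hu

theorem PK_off {z : Cfg N} (hz : z ∈ Tup C.kkᗮ) : C.PK z = 0 := by
  rw [← Tup_orth] at hz
  exact (Submodule.starProjection_apply_eq_zero_iff _).2 hz

theorem inner_light_off {u z : Cfg N} (hu : u ∈ Tup C.kk) (hz : z ∈ Tup C.kkᗮ) :
    ⟪u, z⟫_ℝ = 0 := by
  rw [← Tup_orth] at hz
  exact (Submodule.mem_orthogonal _ _).1 hz u hu

theorem inner_cfT (u : Cfg N) (Z : Pos p) : ⟪C.cfT u, Z⟫_ℝ = ⟪u, C.cf Z⟫_ℝ := by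
  unfold Chn.cfT
  rw [ContinuousLinearMap.adjoint_inner_left]
  rfl

theorem cfT_off {z : Cfg N} (hz : z ∈ Tup C.kkᗮ) : C.cfT z = 0 := by
  refine ext_inner_right ℝ fun X => ?_
  rw [inner_cfT, inner_zero_left, real_inner_comm]
  exact inner_light_off C (cf_mem C X) hz

theorem cfT_add {u z : Cfg N} (hz : z ∈ Tup C.kkᗮ) : C.cfT (u + z) = C.cfT u := by
  rw [map_add, cfT_off C hz, add_zero]

theorem PK_add {u z : Cfg N} (hu : u ∈ Tup C.kk) (hz : z ∈ Tup C.kkᗮ) : C.PK (u + z) = u := by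
  rw [map_add, PK_off C hz, PK_light C hu, add_zero]

theorem PY_add {u z : Cfg N} (hu : u ∈ Tup C.kk) (hz : z ∈ Tup C.kkᗮ) :
    C.PY (u + z) = C.PY u := by
  unfold Chn.PY
  rw [PK_add C hu hz, cfT_add C hz, PK_light C hu]

theorem PM_add {u z : Cfg N} (hu : u ∈ Tup C.kk) (hz : z ∈ Tup C.kkᗮ) : C.PM (u + z) = z := by
  unfold Chn.PM
  rw [PK_add C hu hz, add_sub_cancel_left]

theorem PY_mem (u : Cfg N) : C.PY u ∈ C.Blk := by
  refine Submodule.mem_inf.2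
    ⟨Submodule.sub_mem _ (Submodule.starProjection_apply_mem _ _) (cf_mem C _), ?_⟩
  rw [Submodule.mem_orthogonal']
  rintro _ ⟨Z, rfl⟩
  have h1 : ⟪C.PK u, C.cf Z⟫_ℝ = ⟪u, C.cf Z⟫_ℝ := by
    have h : ⟪u - C.PK u, C.cf Z⟫_ℝ = 0 :=
      (Submodule.mem_orthogonal' _ _).1
        (Submodule.sub_starProjection_mem_orthogonal (K := Tup C.kk) u) _ (cf_mem C Z)
    rw [inner_sub_left] at h
    linarith
  have h2 : ⟪C.cf (C.cfT u), C.cf Z⟫_ℝ = ⟪u, C.cf Z⟫_ℝ := by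
    rw [LinearIsometry.inner_map_map, inner_cfT]
  change ⟪C.PK u - C.cf (C.cfT u), C.cf Z⟫_ℝ = 0
  rw [inner_sub_left, h1, h2, sub_self]

theorem norm_sq_light {u : Cfg N} (hu : u ∈ Tup C.kk) :
    ‖u‖ ^ 2 = ‖C.cfT u‖ ^ 2 + ‖C.PY u‖ ^ 2 := by
  have h0 : u = C.cf (C.cfT u) + C.PY u := by
    unfold Chn.PY
    rw [PK_light C hu, add_sub_cancel]
  have h2 : ⟪C.cf (C.cfT u), C.PY u⟫_ℝ = 0 := by
    have h := (PY_mem C u).2
    exact (Submodule.mem_orthogonal _ _).1 h _ (LinearMap.mem_range_self _ _)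
  conv_lhs => rw [h0]
  rw [norm_add_sq_real, h2, LinearIsometry.norm_map]
  ring

theorem norm_sq_add {u z : Cfg N} (hu : u ∈ Tup C.kk) (hz : z ∈ Tup C.kkᗮ) :
    ‖u + z‖ ^ 2 = ‖C.cfT u‖ ^ 2 + ‖C.PY u‖ ^ 2 + ‖z‖ ^ 2 := by
  rw [norm_add_sq_real, inner_light_off C hu hz, norm_sq_light C hu]
  ring

theorem continuous_PY : Continuous fun u : Cfg N => C.PY u := by
  unfold Chn.PY
  exact C.PK.continuous.sub (C.cf.continuous.comp C.cfT.continuous)

theorem light_le_Nor {X0 : Pos p} (h0 : C.Reg X0) : Tup C.kk ≤ Nor b (C.cf X0) := by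
  intro u hu
  have h1 : u ∈ Uk b (C.cf X0) := by
    unfold Uk
    rw [show kc (actB b) (C.cf X0) = C.kk from h0]
    exact hu
  have h2 := Uk_le_Nor h1
  rwa [Nor_eq] at h2

theorem Zt_le_Nor (X0 : Pos p) : C.Zt X0 ≤ Nor b (C.cf X0) := inf_le_right

theorem Zt_le_off (X0 : Pos p) : C.Zt X0 ≤ Tup C.kkᗮ := inf_le_left

/-- the inclusion of the light directions into the slice -/
def incL {X0 : Pos p} (h0 : C.Reg X0) : Tup C.kk →ₗᵢ[ℝ] Nor b (C.cf X0) where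
  toLinearMap := Submodule.inclusion (light_le_Nor C h0)
  norm_map' _ := rfl

/-- the inclusion of the heavy directions into the slice -/
def incZ (X0 : Pos p) : C.Zt X0 →ₗᵢ[ℝ] Nor b (C.cf X0) where
  toLinearMap := Submodule.inclusion (Zt_le_Nor C X0)
  norm_map' _ := rfl

theorem inc_orth {X0 : Pos p} (h0 : C.Reg X0) (u : Tup C.kk) (z : C.Zt X0) :
    ⟪incL C h0 u, incZ C X0 z⟫_ℝ = 0 :=
  inner_light_off C u.2 (Zt_le_off C X0 z.2)

theorem inc_span {X0 : Pos p} (h0 : C.Reg X0) (y : Nor b (C.cf X0)) :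
    ∃ u z, y = incL C h0 u + incZ C X0 z := by
  have h1 : C.PK y ∈ Tup C.kk := Submodule.starProjection_apply_mem _ _
  have h2 : (y : Cfg N) - C.PK y ∈ C.Zt X0 := by
    refine Submodule.mem_inf.2 ⟨?_, Submodule.sub_mem _ y.2 (light_le_Nor C h0 h1)⟩
    rw [← Tup_orth]
    exact Submodule.sub_starProjection_mem_orthogonal (K := Tup C.kk) (y : Cfg N)
  refine ⟨⟨_, h1⟩, ⟨_, h2⟩, Subtype.ext ?_⟩
  change (y : Cfg N) = C.PK y + ((y : Cfg N) - C.PK y)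
  abel

/-- **The coordinates of the slice.** -/
def spl {X0 : Pos p} (h0 : C.Reg X0) : (Tup C.kk × C.Zt X0) ≃L[ℝ] Nor b (C.cf X0) :=
  splitL (incL C h0) (incZ C X0) (inc_orth C h0) (inc_span C h0)

theorem spl_coe {X0 : Pos p} (h0 : C.Reg X0) (q : Tup C.kk × C.Zt X0) :
    ((spl C h0 q : Nor b (C.cf X0)) : Cfg N) = (q.1 : Cfg N) + (q.2 : Cfg N) := rfl

theorem spl_mp {X0 : Pos p} (h0 : C.Reg X0) :
    MeasurePreserving (spl C h0) (volume : Measure (Tup C.kk × C.Zt X0)) volume :=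
  splitL_mp _ _ _ _

theorem integral_spl {X0 : Pos p} (h0 : C.Reg X0) {E : Type*} [NormedAddCommGroup E]
    [NormedSpace ℝ E] (f : Nor b (C.cf X0) → E) :
    ∫ q : Tup C.kk × C.Zt X0, f (spl C h0 q) = ∫ y, f y :=
  (spl_mp C h0).integral_comp (spl C h0).toHomeomorph.measurableEmbedding f

end geo

/-! ## the light part and the Gaussian -/

section light

variable {C : Chn b p S} {F : Type*} [NormedAddCommGroup F] [InnerProductSpace ℂ F]
  [FiniteDimensional ℂ F] {M : FermionRep N F} {R : GaugeAction b M} {G : GammaNine}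

/-- The light part of the trial function. -/
def om (P : TPack C M R G) (σ : Sl C) (g : ℝ) (χ : Pos p → C.Fx M G) (u : Cfg N) : F :=
  P.U (σ.X0 + C.cfT u) (P.Psi g (C.PY u) (χ (σ.X0 + C.cfT u) : F))

/-- The normalised Gaussian on the slice. -/
def gsn (P : TPack C M R G) (σ : Sl C) (g : ℝ) (X : Pos p) (z : Cfg N) : ℝ :=
  Real.exp (-(g / 2 * ⟪P.A X z, z⟫_ℝ)) / Real.sqrt (nI P σ g X)


theorem nI_nonneg (P : TPack C M R G) (σ : Sl C) (g : ℝ) (X : Pos p) : 0 ≤ nI P σ g X :=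
  integral_nonneg fun _ => (Real.exp_pos _).le

/-- the trial function in the coordinates -/
theorem tau_eq (P : TPack C M R G) (σ : Sl C) (g : ℝ) (χ : Pos p → C.Fx M G) {u z : Cfg N}
    (hu : u ∈ Tup C.kk) (hz : z ∈ Tup C.kkᗮ) :
    tau P σ g χ (u + z) = (kap σ.r (‖z‖ ^ 2) * Real.sqrt (σ.j (C.cf (C.cfT u))) *
      gsn P σ g (σ.X0 + C.cfT u) z) • om P σ g χ u := by
  unfold tau nrm gsn om
  rw [cfT_add C hz, PY_add C hu hz, PM_add C hu hz, add_sub_cancel_left,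
    Real.sqrt_div' _ (nI_nonneg P σ g _), Complex.coe_smul]
  congr 1
  ring

theorem om_supp (P : TPack C M R G) (σ : Sl C) (g : ℝ) (χ : Amp M G σ) {u : Cfg N}
    (h : om P σ g χ.fn u ≠ 0) :
    σ.X0 + C.cfT u ∈ tsupport χ.fn ∧ ‖C.cfT u‖ < σ.r / 4 ∧ ‖C.PY u‖ < P.s g := by
  have h2 : σ.X0 + C.cfT u ∈ tsupport χ.fn := by
    by_contra hc
    apply h
    have h1 : χ.fn (σ.X0 + C.cfT u) = 0 := image_eq_zero_of_notMem_tsupport hc
    unfold om
    rw [h1, Submodule.coe_zero, map_zero, map_zero]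
  refine ⟨h2, ?_, ?_⟩
  · have h3 := χ.supp h2
    rwa [Metric.mem_ball, dist_eq_norm, add_sub_cancel_left] at h3
  · by_contra hc
    apply h
    unfold om
    rw [P.Psi_supp g _ (PY_mem C u) (not_lt.1 hc)]
    simp

theorem continuous_chi (σ : Sl C) (χ : Amp M G σ) :
    Continuous fun u : Cfg N => ((χ.fn (σ.X0 + C.cfT u) : C.Fx M G) : F) :=
  continuous_subtype_val.comp (χ.smooth.continuous.comp
    (continuous_const.add C.cfT.continuous))

theorem continuous_om (P : TPack C M R G) (σ : Sl C) {g : ℝ} (hg : ContDiff ℝ ∞ (P.Psi g))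
    (χ : Amp M G σ) : Continuous fun u : Cfg N => om P σ g χ.fn u := by
  rw [continuous_iff_continuousAt]
  intro u
  by_cases hu : σ.X0 + C.cfT u ∈ tsupport χ.fn
  · have h1 : ContinuousAt (fun u : Cfg N => P.U (σ.X0 + C.cfT u)) u :=
      ContinuousAt.comp (f := fun u : Cfg N => σ.X0 + C.cfT u) (g := P.U)
        (P.U_smooth _ (χ.off _ hu)).continuousAt
        (continuous_const.add C.cfT.continuous).continuousAt
    have h2 : Continuous fun u : Cfg N => P.Psi g (C.PY u) (χ.fn (σ.X0 + C.cfT u) : F) :=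
      (hg.continuous.comp (continuous_PY C)).clm_apply (continuous_chi σ χ)
    exact h1.clm_apply h2.continuousAt
  · have h1 : ∀ᶠ v in 𝓝 u, σ.X0 + C.cfT v ∉ tsupport χ.fn :=
      (continuous_const.add C.cfT.continuous).continuousAt.eventually
        ((isClosed_tsupport χ.fn).isOpen_compl.mem_nhds hu)
    have h2 : (fun u : Cfg N => om P σ g χ.fn u) =ᶠ[𝓝 u] fun _ => 0 := by
      filter_upwards [h1] with v hv
      by_contra h3
      exact hv (om_supp P σ g χ h3).1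
    exact continuousAt_const.congr h2.symm

theorem continuous_gs_om (P : TPack C M R G) (σ : Sl C) {g : ℝ} (hg : ContDiff ℝ ∞ (P.Psi g))
    (χ : Amp M G σ) (hpos : ∀ X, ‖X - σ.X0‖ < σ.r / 4 → 0 < nI P σ g X)
    (hc : ContinuousOn (nI P σ g) (Metric.ball σ.X0 (σ.r / 4))) :
    Continuous fun q : Tup C.kk × C.Zt σ.X0 =>
      gsn P σ g (σ.X0 + C.cfT q.1) q.2 • om P σ g χ.fn q.1 := by
  have ho : Continuous fun q : Tup C.kk × C.Zt σ.X0 => om P σ g χ.fn (q.1 : Cfg N) :=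
    (continuous_om P σ hg χ).comp (continuous_subtype_val.comp continuous_fst)
  have hX : Continuous fun q : Tup C.kk × C.Zt σ.X0 => σ.X0 + C.cfT (q.1 : Cfg N) :=
    continuous_const.add (C.cfT.continuous.comp (continuous_subtype_val.comp continuous_fst))
  rw [continuous_iff_continuousAt]
  intro q
  by_cases hu : σ.X0 + C.cfT (q.1 : Cfg N) ∈ tsupport χ.fn
  · have hB := χ.off _ hu
    have hball := χ.supp hu
    have hA : ContinuousAt (fun q : Tup C.kk × C.Zt σ.X0 =>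
        P.A (σ.X0 + C.cfT (q.1 : Cfg N))) q :=
      ContinuousAt.comp (f := fun q : Tup C.kk × C.Zt σ.X0 => σ.X0 + C.cfT (q.1 : Cfg N))
        (g := P.A) (P.A_smooth _ hB.reg).continuousAt hX.continuousAt
    have hz : Continuous fun q : Tup C.kk × C.Zt σ.X0 => (q.2 : Cfg N) :=
      continuous_subtype_val.comp continuous_snd
    have hI : ContinuousAt (fun q : Tup C.kk × C.Zt σ.X0 =>
        nI P σ g (σ.X0 + C.cfT (q.1 : Cfg N))) q :=
      ContinuousAt.comp (f := fun q : Tup C.kk × C.Zt σ.X0 => σ.X0 + C.cfT (q.1 : Cfg N))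
        (g := nI P σ g) (hc.continuousAt (Metric.isOpen_ball.mem_nhds hball)) hX.continuousAt
    have hgs : ContinuousAt (fun q : Tup C.kk × C.Zt σ.X0 =>
        gsn P σ g (σ.X0 + C.cfT (q.1 : Cfg N)) q.2) q := by
      unfold gsn
      refine ContinuousAt.div ?_ (Real.continuous_sqrt.continuousAt.comp hI) ?_
      · refine Real.continuous_exp.continuousAt.comp (ContinuousAt.neg ?_)
        exact continuousAt_const.mul
          (ContinuousAt.inner (𝕜 := ℝ) (hA.clm_apply hz.continuousAt) hz.continuousAt)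
      · have h1 : ‖σ.X0 + C.cfT (q.1 : Cfg N) - σ.X0‖ < σ.r / 4 := by
          rwa [Metric.mem_ball, dist_eq_norm] at hball
        exact (Real.sqrt_pos.2 (hpos _ h1)).ne'
    exact hgs.smul ho.continuousAt
  · have h1 : ∀ᶠ v in 𝓝 q, σ.X0 + C.cfT (v.1 : Cfg N) ∉ tsupport χ.fn :=
      hX.continuousAt.eventually ((isClosed_tsupport χ.fn).isOpen_compl.mem_nhds hu)
    have h2 : (fun q : Tup C.kk × C.Zt σ.X0 =>
        gsn P σ g (σ.X0 + C.cfT q.1) q.2 • om P σ g χ.fn q.1) =ᶠ[𝓝 q] fun _ => 0 := by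
      filter_upwards [h1] with v hv
      have h3 : om P σ g χ.fn (v.1 : Cfg N) = 0 := by
        by_contra h3
        exact hv (om_supp P σ g χ h3).1
      rw [h3, smul_zero]
    exact continuousAt_const.congr h2.symm

end light

end Crest.Agent.R330.PairD424

end
end

-- ▼ part R330/PairE_424
section

/-!
# Row 330, S9-PAIRING (helper424): pairing of a core vector with a trial state

* `slice_L2` : `∫_{‖y‖ ≤ ρ} ‖φ (c + y)‖² ≤ K ∫ ‖φ‖²` for equivariant `φ`.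
* `pair_coord` : `∫ ⟪Tgen, φ⟫` in the coordinates `(u, z) ∈ Tup kk × Zt X0`.
* `ampE` : the amplitude `X ↦ e (X - X0) / sqrt (j (X)) • χ X`.
* `pair_final` : `∫ ⟪T_{ampE χ}, φ⟫ = ∫ ⟪gs • om, η • φ (c + u + z)⟫ + O (ε_g) ‖φ‖`, for a Lipschitz
  cut-off `η` with `e X = η (X, 0)`.
-/

set_option autoImplicit false
set_option linter.unusedSectionVars false

open MeasureTheory Filter Topology Crest.MathPhysics.MatrixQM
open scoped ContDiff InnerProductSpace ENNReal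

noncomputable section

namespace Crest.Agent.R330.PairE424

open Crest.Agent.R330.Defs478 Crest.Agent.R330.LS839
  Crest.Agent.R330.Bind6839 Crest.Agent.R330.SlG944 Crest.Agent.R330.SlF944
  Crest.Agent.R330.TDef414 Crest.Agent.R330.PairD424 Crest.Agent.R330.PairC424
open Crest.Agent.R330.SlB314 (Nor Tan br)
open Crest.Agent.R330.SlD314 (tube mem_tube_iff)

variable {N p : ℕ} {b : ColorBasis N} {S : Type} [Group S] [Fintype S] {C : Chn b p S}
  {F : Type*} [NormedAddCommGroup F] [InnerProductSpace ℂ F]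
  [FiniteDimensional ℂ F] {M : FermionRep N F} {R : GaugeAction b M} {G : GammaNine}

/-! ## the slice bound -/

/-- The density is bounded below on smaller balls. -/
theorem exists_jlow (σ : Sl C) {ρ : ℝ} (hρ0 : 0 ≤ ρ) (hρ : ρ < σ.r) : ∃ j0 : ℝ, 0 < j0 ∧
    ∀ y ∈ Nor b (C.cf σ.X0), ‖y‖ ≤ ρ → j0 ≤ σ.j y := by
  set K : Set (Cfg N) := Metric.closedBall 0 ρ ∩ (Nor b (C.cf σ.X0) : Set (Cfg N)) with hK
  have hKc : IsCompact K := (isCompact_closedBall (0 : Cfg N) ρ).inter_right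
    (Submodule.closed_of_finiteDimensional _)
  have hcont : ContinuousOn σ.j K := fun y hy => by
    have h1 : ‖y‖ ≤ ρ := by simpa using hy.1
    exact (σ.smooth y hy.2 (by linarith)).continuousAt.continuousWithinAt
  have h0 : (0 : Cfg N) ∈ K := ⟨by simpa using hρ0, Submodule.zero_mem _⟩
  obtain ⟨y0, hy0, hmin⟩ := hKc.exists_isMinOn ⟨0, h0⟩ hcont
  have h1 : ‖y0‖ ≤ ρ := by simpa using hy0.1
  refine ⟨σ.j y0, σ.jpos y0 hy0.2 (by linarith), fun y hy hn => ?_⟩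
  exact hmin (⟨by simpa using hn, hy⟩ : y ∈ K)

/-- **The slice bound.** -/
theorem slice_L2 (R : GaugeAction b M) (σ : Sl C) {ρ : ℝ} (hρ0 : 0 ≤ ρ) (hρ : ρ < σ.r) :
    ∃ K : ℝ, 0 ≤ K ∧ ∀ φ : Cfg N → F, Continuous φ → (∀ h x, φ (b.act h x) = R.ρ h (φ x)) →
      ∫⁻ y in Metric.closedBall (0 : Nor b (C.cf σ.X0)) ρ, ‖φ (C.cf σ.X0 + y)‖ₑ ^ 2 ≤
        ENNReal.ofReal K * ∫⁻ x, ‖φ x‖ₑ ^ 2 := by
  obtain ⟨j0, hj0, hj⟩ := exists_jlow σ hρ0 hρ
  refine ⟨j0⁻¹, by positivity, fun φ hφ he => ?_⟩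
  have h1 : ∫⁻ x in tube b (C.cf σ.X0) σ.r, ‖φ x‖ₑ ^ 2 =
      ∫⁻ y in Metric.ball (0 : Nor b (C.cf σ.X0)) σ.r,
        ENNReal.ofReal (σ.j y) * ‖φ (C.cf σ.X0 + y)‖ₑ ^ 2 :=
    σ.int _ (hφ.enorm.measurable.pow_const 2) fun k x => by
      rw [he, enorm_eq_ofReal, enorm_eq_ofReal, Cov837.norm_rho]
  have hsub : Metric.closedBall (0 : Nor b (C.cf σ.X0)) ρ ⊆ Metric.ball 0 σ.r :=
    Metric.closedBall_subset_ball hρ
  calc ∫⁻ y in Metric.closedBall (0 : Nor b (C.cf σ.X0)) ρ, ‖φ (C.cf σ.X0 + y)‖ₑ ^ 2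
      ≤ ∫⁻ y in Metric.closedBall (0 : Nor b (C.cf σ.X0)) ρ,
        ENNReal.ofReal j0⁻¹ * (ENNReal.ofReal (σ.j y) * ‖φ (C.cf σ.X0 + y)‖ₑ ^ 2) := by
        refine setLIntegral_mono' Metric.isClosed_closedBall.measurableSet fun y hy => ?_
        have h2 : ‖(y : Cfg N)‖ ≤ ρ := by simpa using hy
        have h3 := hj y y.2 h2
        rw [← mul_assoc, ← ENNReal.ofReal_mul (by positivity)]
        have h4 : (1 : ℝ) ≤ j0⁻¹ * σ.j y := by
          rw [inv_mul_eq_div, le_div_iff₀ hj0]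
          linarith
        calc ‖φ (C.cf σ.X0 + y)‖ₑ ^ 2 = 1 * ‖φ (C.cf σ.X0 + y)‖ₑ ^ 2 := (one_mul _).symm
          _ ≤ ENNReal.ofReal (j0⁻¹ * σ.j y) * ‖φ (C.cf σ.X0 + y)‖ₑ ^ 2 := by
            gcongr
            rw [← ENNReal.ofReal_one]
            exact ENNReal.ofReal_le_ofReal h4
    _ ≤ ∫⁻ y in Metric.ball (0 : Nor b (C.cf σ.X0)) σ.r,
        ENNReal.ofReal j0⁻¹ * (ENNReal.ofReal (σ.j y) * ‖φ (C.cf σ.X0 + y)‖ₑ ^ 2) :=
        lintegral_mono_set hsub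
    _ = ENNReal.ofReal j0⁻¹ * ∫⁻ x in tube b (C.cf σ.X0) σ.r, ‖φ x‖ₑ ^ 2 := by
        rw [lintegral_const_mul' _ _ ENNReal.ofReal_ne_top, h1]
    _ ≤ _ := mul_le_mul_right (setLIntegral_le_lintegral _ _) _

/-! ## the pairing in coordinates -/

theorem tau_far (P : TPack C M R G) (σ : Sl C) {g : ℝ} (hg : P.s g < σ.r / 4) (χ : Amp M G σ)
    {y : Cfg N} (h : σ.r ≤ ‖y‖) : tau P σ g χ.fn y = 0 := by
  by_contra h3
  obtain ⟨-, h5, h6, h7⟩ := TCore383.tau_ne P σ g χ h3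
  have h8 := TCore383.norm_le_sum (C := C) y
  have := σ.pos
  linarith

theorem reg0 (σ : Sl C) : C.Reg σ.X0 := σ.reg σ.X0 (by simpa using σ.pos)

theorem pair_coord (P : TPack C M R G) (σ : Sl C) {g : ℝ} (hg : P.s g < σ.r / 4) (χ : Amp M G σ)
    (hT : Continuous (Tgen P σ g χ.fn)) {φ : Cfg N → F} (hφ : Continuous φ)
    (he : ∀ h x, φ (b.act h x) = R.ρ h (φ x)) :
    ∫ x, ⟪Tgen P σ g χ.fn x, φ x⟫_ℂ = ∫ q : Tup C.kk × C.Zt σ.X0,
      ⟪tau P σ g χ.fn ((q.1 : Cfg N) + q.2), φ (C.cf σ.X0 + ((q.1 : Cfg N) + q.2))⟫_ℂ := by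
  have hτ : IsSliceFun R (C.cf σ.X0) σ.r (tau P σ g χ.fn) := fun k y hk hy hr =>
    TCore383.tau_act P σ g χ hk (TCore383.cfT_ball σ hr)
  have h1 := SlInt658.integral_pair σ R he hφ.stronglyMeasurable hτ hT.stronglyMeasurable
  have h2 : ∫ x, ⟪Tgen P σ g χ.fn x, φ x⟫_ℂ =
      ∫ y in Metric.ball (0 : Nor b (C.cf σ.X0)) σ.r,
        ⟪tau P σ g χ.fn y, φ (C.cf σ.X0 + y)⟫_ℂ := by
    have h3 := congrArg (starRingEnd ℂ) h1
    rw [← integral_conj, ← integral_conj] at h3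
    simp only [inner_conj_symm] at h3
    exact h3
  rw [h2, setIntegral_eq_integral_of_forall_compl_eq_zero, ← integral_spl C (reg0 σ)]
  · rfl
  · intro y hy
    have h4 : σ.r ≤ ‖(y : Cfg N)‖ := by
      rw [Metric.mem_ball, dist_zero_right, not_lt] at hy
      exact hy
    rw [tau_far P σ hg χ h4, inner_zero_left]

/-! ## the amplitude -/

theorem contDiffAt_amp (σ : Sl C) {e : Pos p → ℝ} (he : ContDiff ℝ ∞ e) {X : Pos p}
    (hX : ‖X - σ.X0‖ < σ.r) :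
    ContDiffAt ℝ ∞ (fun X => e (X - σ.X0) / Real.sqrt (σ.j (C.cf (X - σ.X0)))) X := by
  obtain ⟨h1, h2⟩ := TCore383.cf_ball σ hX
  have h3 : ContDiffAt ℝ ∞ (fun X : Pos p => C.cf (X - σ.X0)) X :=
    C.cf.toContinuousLinearMap.contDiff.contDiffAt.comp X
      (contDiffAt_id.sub contDiffAt_const)
  have h4 : ContDiffAt ℝ ∞ (fun X : Pos p => σ.j (C.cf (X - σ.X0))) X :=
    (σ.smooth _ h1 h2).comp X h3
  have h5 := σ.jpos _ h1 h2
  refine ContDiffAt.div ?_ (h4.sqrt h5.ne') (Real.sqrt_pos.2 h5).ne'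
  exact he.contDiffAt.comp X (contDiffAt_id.sub contDiffAt_const)

/-- The amplitude `X ↦ e (X - X0) / sqrt (j (X)) • χ X`. -/
def ampE (σ : Sl C) {e : Pos p → ℝ} (he : ContDiff ℝ ∞ e) (χ : Amp M G σ) : Amp M G σ where
  fn X := (((e (X - σ.X0) / Real.sqrt (σ.j (C.cf (X - σ.X0))) : ℝ)) : ℂ) • χ.fn X
  smooth := by
    rw [contDiff_iff_contDiffAt]
    intro X
    by_cases hX : X ∈ tsupport χ.fn
    · have h1 : ‖X - σ.X0‖ < σ.r := by
        have h2 := χ.supp hX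
        rw [Metric.mem_ball, dist_eq_norm] at h2
        have := σ.pos
        linarith
      exact (Complex.ofRealCLM.contDiff.contDiffAt.comp X (contDiffAt_amp σ he h1)).smul
        χ.smooth.contDiffAt
    · have h1 : (fun X => (((e (X - σ.X0) / Real.sqrt (σ.j (C.cf (X - σ.X0))) : ℝ)) : ℂ) •
          χ.fn X) =ᶠ[𝓝 X] fun _ => 0 := by
        filter_upwards [(isClosed_tsupport χ.fn).isOpen_compl.mem_nhds hX] with v hv
        rw [image_eq_zero_of_notMem_tsupport hv, smul_zero]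
      exact contDiffAt_const.congr_of_eventuallyEq h1
  supp := (closure_mono (Function.support_subset_iff'.2 fun X hX => by
    rw [Function.notMem_support.1 hX, smul_zero])).trans χ.supp
  off X hX := χ.off X ((closure_mono (Function.support_subset_iff'.2 fun X hX => by
    rw [Function.notMem_support.1 hX, smul_zero])) hX)

theorem om_smul (P : TPack C M R G) (σ : Sl C) (g : ℝ) (a : Pos p → ℝ)
    (χ : Pos p → C.Fx M G) (u : Cfg N) :
    om P σ g (fun X => ((a X : ℝ) : ℂ) • χ X) u = a (σ.X0 + C.cfT u) • om P σ g χ u := by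
  unfold om
  rw [Submodule.coe_smul, map_smul, map_smul, Complex.coe_smul]

/-- the trial function of `ampE` in coordinates -/
theorem tau_ampE (P : TPack C M R G) (σ : Sl C) (g : ℝ) {e : Pos p → ℝ} (he : ContDiff ℝ ∞ e)
    (χ : Amp M G σ) {u z : Cfg N} (hu : u ∈ Tup C.kk) (hz : z ∈ Tup C.kkᗮ) :
    tau P σ g (ampE σ he χ).fn (u + z) = (kap σ.r (‖z‖ ^ 2) * e (C.cfT u) *
      gsn P σ g (σ.X0 + C.cfT u) z) • om P σ g χ.fn u := by
  by_cases h0 : om P σ g χ.fn u = 0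
  · rw [tau_eq P σ g _ hu hz]
    unfold ampE
    rw [om_smul, h0]
    simp
  · obtain ⟨-, h1, -⟩ := om_supp P σ g χ h0
    have h2 : ‖σ.X0 + C.cfT u - σ.X0‖ < σ.r := by
      rw [add_sub_cancel_left]
      have := σ.pos
      linarith
    obtain ⟨h3, h4⟩ := TCore383.cf_ball σ h2
    rw [add_sub_cancel_left] at h3 h4
    have h5 := Real.sqrt_pos.2 (σ.jpos _ h3 h4)
    rw [tau_eq P σ g _ hu hz]
    unfold ampE
    rw [om_smul, add_sub_cancel_left, smul_smul]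
    congr 1
    field_simp

/-! ## the final estimate -/

theorem inner_rs (r : ℝ) (x y : F) : ⟪r • x, y⟫_ℂ = ⟪x, r • y⟫_ℂ := by
  rw [← Complex.coe_smul, ← Complex.coe_smul, inner_smul_left, inner_smul_right,
    Complex.conj_ofReal]

theorem kap_close {r t : ℝ} (hr : 0 < r) (ht : 0 ≤ t) : |kap r (t ^ 2) - 1| ≤ 8 / r * t := by
  by_cases h : t ^ 2 ≤ r ^ 2 / 64
  · rw [kap_one hr h, sub_self, abs_zero]
    positivity
  · have h1 : r / 8 < t := by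
      by_contra h2
      apply h
      have h3 := not_lt.1 h2
      nlinarith
    have h4 : 1 ≤ 8 / r * t := by
      rw [div_mul_eq_mul_div, le_div_iff₀ hr]
      linarith
    have h5 := kap_nonneg r (t ^ 2)
    have h6 := kap_le_one r (t ^ 2)
    rw [abs_le]
    constructor <;> linarith

theorem gsn_sq (P : TPack C M R G) (σ : Sl C) (g : ℝ) (X : Pos p) (z : Cfg N) :
    gsn P σ g X z ^ 2 = Real.exp (-(g * ⟪P.A X z, z⟫_ℝ)) / nI P σ g X := by
  unfold gsn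
  rw [div_pow, Real.sq_sqrt (nI_nonneg P σ g X), ← Real.exp_nat_mul]
  congr 2
  push_cast
  ring

/-- the Gaussian is normalised -/
theorem lint_gsn (P : TPack C M R G) (σ : Sl C) {g : ℝ} (hg : 0 < g) {X : Pos p}
    (hX : ‖X - σ.X0‖ < σ.r) :
    ∫⁻ z : C.Zt σ.X0, ENNReal.ofReal (gsn P σ g X z ^ 2) ≤ 1 := by
  have h1 := TCore383.nI_pos P σ hg hX
  have h2 : Integrable fun z : C.Zt σ.X0 => Real.exp (-(g * ⟪P.A X z, z⟫_ℝ)) := by
    by_contra h3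
    unfold nI at h1
    rw [integral_undef h3] at h1
    exact lt_irrefl _ h1
  simp only [gsn_sq]
  rw [← ofReal_integral_eq_lintegral_ofReal (h2.div_const _)
    (Eventually.of_forall fun z => by positivity), integral_div]
  unfold nI at h1 ⊢
  rw [div_self h1.ne', ENNReal.ofReal_one]

theorem norm_light_le {u z : Cfg N} (hu : u ∈ Tup C.kk) (hz : z ∈ Tup C.kkᗮ) :
    ‖u‖ ≤ ‖u + z‖ ∧ ‖z‖ ≤ ‖u + z‖ := by
  have h1 : ‖u + z‖ ^ 2 = ‖u‖ ^ 2 + ‖z‖ ^ 2 := by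
    rw [norm_sq_add C hu hz, norm_sq_light C hu]
  constructor <;> refine le_of_sq_le_sq ?_ (norm_nonneg _) <;> nlinarith [sq_nonneg ‖u‖, sq_nonneg ‖z‖]

theorem hcs_ball {X0 : Pos p} {E : Type*} [Zero E] {f : Tup C.kk × C.Zt X0 → E} {ρ : ℝ}
    (h : ∀ q, ρ < ‖(q.1 : Cfg N) + q.2‖ → f q = 0) : HasCompactSupport f := by
  refine HasCompactSupport.of_support_subset_isCompact (isCompact_closedBall 0 ρ) fun q hq => ?_
  have h1 : ‖(q.1 : Cfg N) + q.2‖ ≤ ρ := by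
    by_contra h2
    exact hq (h q (not_le.1 h2))
  obtain ⟨h2, h3⟩ := norm_light_le (C := C) q.1.2 (Zt_le_off C X0 q.2.2)
  rw [mem_closedBall_zero_iff]
  exact max_le (h2.trans h1) (h3.trans h1)

/-- the multiplier is small -/
theorem th_le (P : TPack C M R G) (σ : Sl C) (χ : Amp M G σ) {η : Tup C.kk × C.Zt σ.X0 → ℝ}
    {e : Pos p → ℝ} {Lq B : ℝ} (hLq : 0 ≤ Lq)
    (hLip : ∀ q q', |η q - η q'| ≤ Lq * (‖q.1 - q'.1‖ + ‖q.2 - q'.2‖)) (hB : ∀ q, |η q| ≤ B)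
    (hηe : ∀ (X : Pos p) (h : C.cf X ∈ Tup C.kk), e X = η (⟨C.cf X, h⟩, 0)) (g : ℝ)
    (u : Tup C.kk) (z : C.Zt σ.X0) (hu : om P σ g χ.fn u ≠ 0) :
    |kap σ.r (‖(z : Cfg N)‖ ^ 2) * e (C.cfT (u : Cfg N)) - η (u, z)| ≤
      (8 / σ.r * B + Lq) * (P.s g + ‖z‖) := by
  have hr := σ.pos
  have hB0 : 0 ≤ B := (abs_nonneg _).trans (hB 0)
  obtain ⟨h1, h2, h3⟩ := om_supp P σ g χ hu
  have h4 := hηe (C.cfT (u : Cfg N)) (cf_mem C _)
  have h5 := hLip (⟨C.cf (C.cfT (u : Cfg N)), cf_mem C _⟩, 0) (u, z)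
  have h6 : ‖(⟨C.cf (C.cfT (u : Cfg N)), cf_mem C _⟩ : Tup C.kk) - u‖ = ‖C.PY u‖ := by
    rw [← norm_neg, neg_sub]
    change ‖(u : Cfg N) - C.cf (C.cfT (u : Cfg N))‖ = _
    unfold Chn.PY
    rw [PK_light C u.2]
  have h7 : ‖(0 : C.Zt σ.X0) - z‖ = ‖z‖ := by rw [zero_sub, norm_neg]
  simp only at h5
  rw [h6, h7, ← h4] at h5
  have h8 := kap_close hr (norm_nonneg (z : Cfg N))
  have h9 : |e (C.cfT (u : Cfg N))| ≤ B := by rw [h4]; exact hB _
  have h10 : kap σ.r (‖(z : Cfg N)‖ ^ 2) * e (C.cfT (u : Cfg N)) - η (u, z) =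
      (kap σ.r (‖(z : Cfg N)‖ ^ 2) - 1) * e (C.cfT (u : Cfg N)) +
      (e (C.cfT (u : Cfg N)) - η (u, z)) := by ring
  have h11 : ‖(z : Cfg N)‖ = ‖z‖ := rfl
  rw [h11] at h8 h10 ⊢
  rw [h10]
  calc _ ≤ |(kap σ.r (‖z‖ ^ 2) - 1) * e (C.cfT (u : Cfg N))| +
        |e (C.cfT (u : Cfg N)) - η (u, z)| := abs_add_le _ _
    _ ≤ 8 / σ.r * ‖z‖ * B + Lq * (‖C.PY u‖ + ‖z‖) := by
        rw [abs_mul]
        exact add_le_add (mul_le_mul h8 h9 (abs_nonneg _) (by positivity)) h5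
    _ ≤ 8 / σ.r * B * (P.s g + ‖z‖) + Lq * (P.s g + ‖z‖) := by
        have h12 := P.s_pos g
        have h13 : 0 ≤ 8 / σ.r * B := by positivity
        have h15 : 8 / σ.r * ‖z‖ * B ≤ 8 / σ.r * B * (P.s g + ‖z‖) := by nlinarith
        have h16 : Lq * (‖C.PY u‖ + ‖z‖) ≤ Lq * (P.s g + ‖z‖) :=
          mul_le_mul_of_nonneg_left (by linarith) hLq
        linarith
    _ = (8 / σ.r * B + Lq) * (P.s g + ‖z‖) := by ring

/-- the truncated slice restriction of a core vector -/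
def trn (σ : Sl C) (ρ : ℝ) (φ : Cfg N → F) : Tup C.kk × C.Zt σ.X0 → F :=
  {q : Tup C.kk × C.Zt σ.X0 | ‖(q.1 : Cfg N) + q.2‖ ≤ ρ}.indicator fun q =>
    φ (C.cf σ.X0 + ((q.1 : Cfg N) + q.2))

theorem continuous_sum (σ : Sl C) :
    Continuous fun q : Tup C.kk × C.Zt σ.X0 => (q.1 : Cfg N) + q.2 :=
  (continuous_subtype_val.comp continuous_fst).add (continuous_subtype_val.comp continuous_snd)

theorem lint_trn (σ : Sl C) (ρ : ℝ) (φ : Cfg N → F) :
    ∫⁻ q, ‖trn σ ρ φ q‖ₑ ^ 2 =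
      ∫⁻ y in Metric.closedBall (0 : Nor b (C.cf σ.X0)) ρ, ‖φ (C.cf σ.X0 + y)‖ₑ ^ 2 := by
  rw [← lintegral_indicator Metric.isClosed_closedBall.measurableSet,
    ← (spl_mp C (reg0 σ)).lintegral_comp_emb (spl C (reg0 σ)).toHomeomorph.measurableEmbedding]
  refine lintegral_congr fun q => ?_
  unfold trn
  by_cases hq : ‖(q.1 : Cfg N) + q.2‖ ≤ ρ
  · have h1 : spl C (reg0 σ) q ∈ Metric.closedBall (0 : Nor b (C.cf σ.X0)) ρ := by
      rw [mem_closedBall_zero_iff]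
      exact hq
    rw [Set.indicator_of_mem h1, Set.indicator_of_mem (by exact hq), spl_coe]
  · have h1 : spl C (reg0 σ) q ∉ Metric.closedBall (0 : Nor b (C.cf σ.X0)) ρ := by
      rw [mem_closedBall_zero_iff]
      exact hq
    rw [Set.indicator_of_notMem h1, Set.indicator_of_notMem (by exact hq)]
    simp

theorem memLp_trn (σ : Sl C) {ρ K : ℝ} (hK : 0 ≤ K) {φ : Cfg N → F} (hφ : Continuous φ)
    (hφ2 : MemLp φ 2 volume) (h : ∫⁻ y in Metric.closedBall (0 : Nor b (C.cf σ.X0)) ρ,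
      ‖φ (C.cf σ.X0 + y)‖ₑ ^ 2 ≤ ENNReal.ofReal K * ∫⁻ x, ‖φ x‖ₑ ^ 2) :
    MemLp (trn σ ρ φ) 2 volume ∧ ∫ q, ‖trn σ ρ φ q‖ ^ 2 ≤ K * ∫ x, ‖φ x‖ ^ 2 := by
  rw [← lint_trn] at h
  have l2 : ∫⁻ x, ‖φ x‖ₑ ^ 2 = ENNReal.ofReal (∫ x, ‖φ x‖ ^ 2) := lint_eq_ofReal hφ2
  have hm : AEStronglyMeasurable (trn σ ρ φ) volume :=
    ((hφ.comp (continuous_const.add (continuous_sum σ))).aestronglyMeasurable).indicator
      (isClosed_le (continuous_sum σ).norm continuous_const).measurableSet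
  have h2 : MemLp (trn σ ρ φ) 2 volume := by
    refine memLp_of_lint hm (h.trans_lt ?_)
    rw [l2]
    exact ENNReal.mul_lt_top ENNReal.ofReal_lt_top ENNReal.ofReal_lt_top
  refine ⟨h2, ?_⟩
  rw [lint_eq_ofReal h2, l2, ← ENNReal.ofReal_mul hK] at h
  exact (ENNReal.ofReal_le_ofReal_iff (mul_nonneg hK (integral_nonneg fun _ =>
    by positivity))).1 h

/-- the difference of the two pairings -/
theorem pair_diff (P : TPack C M R G) (σ : Sl C) (χ : Amp M G σ)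
    {η : Tup C.kk × C.Zt σ.X0 → ℝ} {e : Pos p → ℝ} (he : ContDiff ℝ ∞ e) (hη : Continuous η)
    {ρ : ℝ} (hρ : 3 * σ.r / 4 ≤ ρ)
    (hsupp : ∀ q : Tup C.kk × C.Zt σ.X0, ρ < ‖(q.1 : Cfg N) + q.2‖ → η q = 0)
    {g : ℝ} (hg : 0 < g) (hΨ : ContDiff ℝ ∞ (P.Psi g)) (hsg : P.s g < σ.r / 4)
    (hTc : Continuous (Tgen P σ g (ampE σ he χ).fn)) {φ : Cfg N → F} (hφ : Continuous φ)
    (heq : ∀ h x, φ (b.act h x) = R.ρ h (φ x)) :
    (Continuous fun q : Tup C.kk × C.Zt σ.X0 =>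
      gsn P σ g (σ.X0 + C.cfT q.1) q.2 • om P σ g χ.fn q.1) ∧
    (∫ x, ⟪Tgen P σ g (ampE σ he χ).fn x, φ x⟫_ℂ) -
      ∫ q : Tup C.kk × C.Zt σ.X0, ⟪gsn P σ g (σ.X0 + C.cfT q.1) q.2 • om P σ g χ.fn q.1,
        η q • φ (C.cf σ.X0 + ((q.1 : Cfg N) + q.2))⟫_ℂ =
    ∫ q : Tup C.kk × C.Zt σ.X0,
      ⟪((kap σ.r (‖(q.2 : Cfg N)‖ ^ 2) * e (C.cfT (q.1 : Cfg N)) - η q) *
        gsn P σ g (σ.X0 + C.cfT q.1) q.2) • om P σ g χ.fn q.1, trn σ ρ φ q⟫_ℂ := by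
  have hr := σ.pos
  have hball : ∀ X, ‖X - σ.X0‖ < σ.r / 4 → ‖X - σ.X0‖ < σ.r := fun X hX => by linarith
  have hgo : Continuous fun q : Tup C.kk × C.Zt σ.X0 =>
      gsn P σ g (σ.X0 + C.cfT q.1) q.2 • om P σ g χ.fn q.1 :=
    continuous_gs_om P σ hΨ χ (fun X hX => TCore383.nI_pos P σ hg (hball X hX)) fun X hX => by
      rw [Metric.mem_ball, dist_eq_norm] at hX
      exact (TCore383.contDiffAt_nI P σ hg (hball X hX)).continuousAt.continuousWithinAt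
  refine ⟨hgo, ?_⟩
  have hφq : Continuous fun q : Tup C.kk × C.Zt σ.X0 =>
      φ (C.cf σ.X0 + ((q.1 : Cfg N) + q.2)) := hφ.comp (continuous_const.add (continuous_sum σ))
  have hkap : Continuous fun q : Tup C.kk × C.Zt σ.X0 => kap σ.r (‖(q.2 : Cfg N)‖ ^ 2) :=
    (contDiff_kap σ.r).continuous.comp
      (((continuous_subtype_val.comp continuous_snd).norm).pow 2)
  have hex : Continuous fun q : Tup C.kk × C.Zt σ.X0 => e (C.cfT (q.1 : Cfg N)) :=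
    he.continuous.comp (C.cfT.continuous.comp (continuous_subtype_val.comp continuous_fst))
  -- far away
  have hfar1 : ∀ q : Tup C.kk × C.Zt σ.X0, ρ < ‖(q.1 : Cfg N) + q.2‖ →
      (kap σ.r (‖(q.2 : Cfg N)‖ ^ 2) * e (C.cfT (q.1 : Cfg N)) *
        gsn P σ g (σ.X0 + C.cfT q.1) q.2) • om P σ g χ.fn q.1 = 0 := by
    intro q hq
    by_contra h3
    have h4 : tau P σ g (ampE σ he χ).fn ((q.1 : Cfg N) + q.2) ≠ 0 := by
      rw [tau_ampE P σ g he χ q.1.2 (Zt_le_off C _ q.2.2)]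
      exact h3
    obtain ⟨-, h5, h6, h7⟩ := TCore383.tau_ne P σ g (ampE σ he χ) h4
    have h8 := TCore383.norm_le_sum (C := C) ((q.1 : Cfg N) + q.2)
    linarith
  -- the two integrals
  have e1 : ∫ x, ⟪Tgen P σ g (ampE σ he χ).fn x, φ x⟫_ℂ = ∫ q : Tup C.kk × C.Zt σ.X0,
      ⟪(kap σ.r (‖(q.2 : Cfg N)‖ ^ 2) * e (C.cfT (q.1 : Cfg N)) *
        gsn P σ g (σ.X0 + C.cfT q.1) q.2) • om P σ g χ.fn q.1,
        φ (C.cf σ.X0 + ((q.1 : Cfg N) + q.2))⟫_ℂ := by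
    rw [pair_coord P σ hsg (ampE σ he χ) hTc hφ heq]
    refine integral_congr_ae (Eventually.of_forall fun q => ?_)
    simp only
    rw [tau_ampE P σ g he χ q.1.2 (Zt_le_off C _ q.2.2)]
  have i1 : Integrable fun q : Tup C.kk × C.Zt σ.X0 =>
      ⟪(kap σ.r (‖(q.2 : Cfg N)‖ ^ 2) * e (C.cfT (q.1 : Cfg N)) *
        gsn P σ g (σ.X0 + C.cfT q.1) q.2) • om P σ g χ.fn q.1,
        φ (C.cf σ.X0 + ((q.1 : Cfg N) + q.2))⟫_ℂ := by
    have hc : Continuous fun q : Tup C.kk × C.Zt σ.X0 =>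
        ⟪(kap σ.r (‖(q.2 : Cfg N)‖ ^ 2) * e (C.cfT (q.1 : Cfg N)) *
          gsn P σ g (σ.X0 + C.cfT q.1) q.2) • om P σ g χ.fn q.1,
          φ (C.cf σ.X0 + ((q.1 : Cfg N) + q.2))⟫_ℂ := by
      simp only [mul_smul _ (gsn _ _ _ _ _)]
      exact ((hkap.mul hex).smul hgo).inner hφq
    exact hc.integrable_of_hasCompactSupport (hcs_ball (ρ := ρ) fun q hq => by
      rw [hfar1 q hq, inner_zero_left])
  have i2 : Integrable fun q : Tup C.kk × C.Zt σ.X0 =>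
      ⟪gsn P σ g (σ.X0 + C.cfT q.1) q.2 • om P σ g χ.fn q.1,
        η q • φ (C.cf σ.X0 + ((q.1 : Cfg N) + q.2))⟫_ℂ :=
    (hgo.inner (hη.smul hφq)).integrable_of_hasCompactSupport (hcs_ball (ρ := ρ) fun q hq => by
      rw [hsupp q hq, zero_smul, inner_zero_right])
  rw [e1, ← integral_sub i1 i2]
  refine integral_congr_ae (Eventually.of_forall fun q => ?_)
  simp only
  unfold trn
  by_cases hq : ‖(q.1 : Cfg N) + q.2‖ ≤ ρ
  · rw [Set.indicator_of_mem (by exact hq), sub_mul, sub_smul, inner_sub_left, mul_smul (η q),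
      inner_rs (η q)]
  · have h1 : ρ < ‖(q.1 : Cfg N) + q.2‖ := not_le.1 hq
    rw [hfar1 q h1, hsupp q h1, Set.indicator_of_notMem (by exact hq)]
    simp

/-- the small pairing at one coupling -/
theorem pair_small_g (P : TPack C M R G) (σ : Sl C) (χ : Amp M G σ)
    {η : Tup C.kk × C.Zt σ.X0 → ℝ} {e : Pos p → ℝ} (he : ContDiff ℝ ∞ e) (hη : Continuous η)
    {Lq B K1 K2 : ℝ} (hLq : 0 ≤ Lq) (hK1 : 0 ≤ K1) (hK2 : 0 ≤ K2)
    (hLip : ∀ q q', |η q - η q'| ≤ Lq * (‖q.1 - q'.1‖ + ‖q.2 - q'.2‖)) (hB : ∀ q, |η q| ≤ B)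
    (hηe : ∀ (X : Pos p) (h : C.cf X ∈ Tup C.kk), e X = η (⟨C.cf X, h⟩, 0))
    {g : ℝ} (hg : 0 < g)
    (hgo : Continuous fun q : Tup C.kk × C.Zt σ.X0 =>
      gsn P σ g (σ.X0 + C.cfT q.1) q.2 • om P σ g χ.fn q.1)
    (hm1 : ∀ X, ‖X - σ.X0‖ ≤ σ.r / 4 → ∫⁻ z : C.Zt σ.X0,
      ENNReal.ofReal (‖z‖ ^ 2 * gsn P σ g X z ^ 2) ≤ ENNReal.ofReal (K1 / g))
    (hm2 : ∫⁻ u : Tup C.kk, ‖om P σ g χ.fn u‖ₑ ^ 2 ≤ ENNReal.ofReal K2)
    {Φ : Tup C.kk × C.Zt σ.X0 → F} (hΦ : MemLp Φ 2 volume) :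
    ‖∫ q : Tup C.kk × C.Zt σ.X0,
      ⟪((kap σ.r (‖(q.2 : Cfg N)‖ ^ 2) * e (C.cfT (q.1 : Cfg N)) - η q) *
        gsn P σ g (σ.X0 + C.cfT q.1) q.2) • om P σ g χ.fn q.1, Φ q⟫_ℂ‖ ≤
      Real.sqrt (2 * (8 / σ.r * B + Lq) ^ 2 * (P.s g ^ 2 + K1 / g) * K2) *
        Real.sqrt (∫ q, ‖Φ q‖ ^ 2) := by
  have hr := σ.pos
  have hthc : Continuous fun q : Tup C.kk × C.Zt σ.X0 =>
      kap σ.r (‖(q.2 : Cfg N)‖ ^ 2) * e (C.cfT (q.1 : Cfg N)) - η q :=
    (((contDiff_kap σ.r).continuous.comp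
      (((continuous_subtype_val.comp continuous_snd).norm).pow 2)).mul
      (he.continuous.comp (C.cfT.continuous.comp
        (continuous_subtype_val.comp continuous_fst)))).sub hη
  refine pairing_small (ν := (volume : Measure (Tup C.kk)))
    (μ := (volume : Measure (C.Zt σ.X0)))
    (th := fun q => kap σ.r (‖(q.2 : Cfg N)‖ ^ 2) * e (C.cfT (q.1 : Cfg N)) - η q)
    (gs := fun q => gsn P σ g (σ.X0 + C.cfT q.1) q.2)
    (om := fun u : Tup C.kk => om P σ g χ.fn u)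
    (s := fun z => ‖z‖) (div_nonneg hK1 hg.le) hK2 ?_ hgo.aestronglyMeasurable ?_
    measurable_norm ?_ ?_ hm2 hΦ
  · intro u z hu
    exact th_le P σ χ hLq hLip hB hηe g u z hu
  · have h1 : Continuous fun q : Tup C.kk × C.Zt σ.X0 =>
        ((kap σ.r (‖(q.2 : Cfg N)‖ ^ 2) * e (C.cfT (q.1 : Cfg N)) - η q) *
        gsn P σ g (σ.X0 + C.cfT q.1) q.2) • om P σ g χ.fn q.1 := by
      simp only [mul_smul]
      exact hthc.smul hgo
    exact h1.aestronglyMeasurable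
  · intro u hu
    obtain ⟨-, h2, -⟩ := om_supp P σ g χ hu
    exact lint_gsn P σ (X := σ.X0 + C.cfT u) hg (by rw [add_sub_cancel_left]; linarith)
  · intro u hu
    obtain ⟨-, h2, -⟩ := om_supp P σ g χ hu
    exact hm1 (σ.X0 + C.cfT u) (by rw [add_sub_cancel_left]; exact h2.le)

/-- **Pairing of a core vector with a trial state.** -/
theorem pair_final {L Z : Submodule ℝ (Cfg N)} (P : TPack C M R G) (σ : Sl C)
    (hL : L = Tup C.kk) (hZ : Z = C.Zt σ.X0) (χ : Amp M G σ) {η : L × Z → ℝ} {e : Pos p → ℝ}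
    (he : ContDiff ℝ ∞ e) (hη : Continuous η) {Lp B ρ : ℝ}
    (hLip : ∀ q q', |η q - η q'| ≤ Lp * (‖q.1 - q'.1‖ + ‖q.2 - q'.2‖)) (hB : ∀ q, |η q| ≤ B)
    (hsupp : ∀ q : L × Z, ρ < ‖(q.1 : Cfg N) + q.2‖ → η q = 0) (hρ : ρ < σ.r)
    (hηe : ∀ (X : Pos p) (h : C.cf X ∈ L), e X = η (⟨C.cf X, h⟩, 0))
    (hcont : ∀ᶠ g in atTop, Continuous (Tgen P σ g (ampE σ he χ).fn))
    (hmom : ∃ K : ℝ, ∀ᶠ g in atTop, ∀ X, ‖X - σ.X0‖ ≤ σ.r / 4 →
      ∫⁻ z : C.Zt σ.X0, ENNReal.ofReal (‖z‖ ^ 2 * gsn P σ g X z ^ 2) ≤ ENNReal.ofReal (K / g))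
    (hom : ∃ K : ℝ, ∀ᶠ g in atTop,
      ∫⁻ u : Tup C.kk, ‖om P σ g χ.fn u‖ₑ ^ 2 ≤ ENNReal.ofReal K) :
    ∃ ε : ℝ → ℝ, Tendsto ε atTop (𝓝 0) ∧ ∀ᶠ g in atTop, ∀ φ : Cfg N → F, Continuous φ →
      (∀ h x, φ (b.act h x) = R.ρ h (φ x)) → MemLp φ 2 volume →
      ‖(∫ x, ⟪Tgen P σ g (ampE σ he χ).fn x, φ x⟫_ℂ) -
        ∫ q : L × Z, ⟪gsn P σ g (σ.X0 + C.cfT q.1) q.2 • om P σ g χ.fn q.1,
          η q • φ (C.cf σ.X0 + ((q.1 : Cfg N) + q.2))⟫_ℂ‖ ≤
        ε g * Real.sqrt (∫ x, ‖φ x‖ ^ 2) := by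
  subst hL hZ
  obtain ⟨K1, hK1⟩ := hmom
  obtain ⟨K2, hK2⟩ := hom
  have hr := σ.pos
  have hρ0 : 0 ≤ max (3 * σ.r / 4) ρ := le_max_of_le_left (by linarith)
  have hρr : max (3 * σ.r / 4) ρ < σ.r := max_lt (by linarith) hρ
  obtain ⟨K3, hK30, hK3⟩ := slice_L2 R σ hρ0 hρr
  have hLip' : ∀ q q', |η q - η q'| ≤ max Lp 0 * (‖q.1 - q'.1‖ + ‖q.2 - q'.2‖) := fun q q' =>
    (hLip q q').trans (mul_le_mul_of_nonneg_right (le_max_left _ _) (by positivity))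
  refine ⟨fun g => Real.sqrt (2 * (8 / σ.r * B + max Lp 0) ^ 2 *
    (P.s g ^ 2 + max K1 0 / g) * max K2 0) * Real.sqrt K3, ?_, ?_⟩
  · have h1 : Tendsto (fun g : ℝ => max K1 0 / g) atTop (𝓝 0) :=
      tendsto_const_nhds.div_atTop tendsto_id
    have h2 : Tendsto (fun g => P.s g ^ 2 + max K1 0 / g) atTop (𝓝 (0 ^ 2 + 0)) :=
      (P.s_lim.pow 2).add h1
    have h3 : Tendsto (fun g => Real.sqrt (2 * (8 / σ.r * B + max Lp 0) ^ 2 *
        (P.s g ^ 2 + max K1 0 / g) * max K2 0) * Real.sqrt K3) atTop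
        (𝓝 (Real.sqrt (2 * (8 / σ.r * B + max Lp 0) ^ 2 *
        (0 ^ 2 + 0) * max K2 0) * Real.sqrt K3)) :=
      (((h2.const_mul _).mul_const _).sqrt).mul_const _
    simpa using h3
  have hs : ∀ᶠ g in atTop, P.s g < σ.r / 4 :=
    P.s_lim.eventually (isOpen_Iio.mem_nhds (by simp only [Set.mem_Iio]; linarith))
  filter_upwards [P.Psi_smooth, hs, eventually_gt_atTop 0, hK1, hK2, hcont]
    with g hΨ hsg hg hm1 hm2 hTc φ hφ heq hφ2
  obtain ⟨hgo, e2⟩ := pair_diff P σ χ he hη (le_max_left _ ρ)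
    (fun q hq => hsupp q ((le_max_right _ _).trans_lt hq)) hg hΨ hsg hTc hφ heq
  obtain ⟨hΦ2, l3⟩ := memLp_trn σ hK30 hφ hφ2 (hK3 φ hφ heq)
  have key := pair_small_g P σ χ he hη (le_max_right Lp 0) (le_max_right K1 0)
    (le_max_right K2 0) hLip' hB hηe hg hgo
    (fun X hX => (hm1 X hX).trans
      (ENNReal.ofReal_le_ofReal (div_le_div_of_nonneg_right (le_max_left _ _) hg.le)))
    (hm2.trans (ENNReal.ofReal_le_ofReal (le_max_left _ _))) hΦ2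
  rw [e2]
  refine key.trans ?_
  rw [mul_assoc (Real.sqrt _) (Real.sqrt _)]
  refine mul_le_mul_of_nonneg_left ?_ (Real.sqrt_nonneg _)
  rw [← Real.sqrt_mul hK30]
  exact Real.sqrt_le_sqrt l3

end Crest.Agent.R330.PairE424

end
end

-- ▼ part R330/PairT2_245
section

/-!
# Row 330, S8/S9 pairing: the product state on the slice and its amplitude (helper245)

* `omq P g X0 χ (X', Y) = U_{X0+X'} (Psi g Y (χ (X0+X')))`, `omU` the same on `Cfg N` through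
  `cfT`, `PY`; `continuous_omq`, `compact_omq`, `memLp_omq`, `continuous_omU`, `compact_omU`,
  `memLp_omU`; `norm_omq`, `omq_eq_zero`.
* `psi_bound`, `omq_sq`, `omq_mom` : sizes uniform in `g` and `χ`.
* `amp_pair` : `∫_{Uk} ⟪U Psi χ, w⟫ = ∫ lam ⟪χ, a⟫`.
-/

set_option autoImplicit false
set_option linter.unusedSectionVars false

open MeasureTheory Filter Topology Crest.MathPhysics.MatrixQM
open scoped ContDiff InnerProductSpace ENNReal

noncomputable section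

namespace Crest.Agent.R330.PairT245

open Crest.Agent.R330.Defs478 Crest.Agent.R330.LS839 Crest.Agent.R330.Frame839
  Crest.Agent.R330.Bind6839 Crest.Agent.R330.IBP837 Crest.Agent.R330.TDef414
open Crest.Agent.R330.SlB314 (Nor Tan br)

variable {N p : ℕ} {b : ColorBasis N} {S : Type} [Group S] [Fintype S] {C : Chn b p S}
  {F : Type*} [NormedAddCommGroup F] [InnerProductSpace ℂ F] [FiniteDimensional ℂ F]
  {M : FermionRep N F} {R : GaugeAction b M} {G : GammaNine} {X0 : Pos p}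

/-! ## The product state -/

/-- The product state in the coordinates `(X', Y)`. -/
def omq (P : TPack C M R G) (g : ℝ) (X0 : Pos p) (χ : Pos p → C.Fx M G) (q : Pos p × C.Blk) : F :=
  P.U (X0 + q.1) (P.Psi g q.2 (χ (X0 + q.1) : F))

/-- The product state on configurations. -/
def omU (P : TPack C M R G) (g : ℝ) (X0 : Pos p) (χ : Pos p → C.Fx M G) (u : Cfg N) : F :=
  P.U (X0 + C.cfT u) (P.Psi g (C.PY u) (χ (X0 + C.cfT u) : F))

theorem omU_sum (P : TPack C M R G) (g : ℝ) (X0 : Pos p) (χ : Pos p → C.Fx M G) (X' : Pos p)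
    (Y : C.Blk) : omU P g X0 χ (C.cf X' + Y) = omq P g X0 χ (X', Y) := by
  unfold omU omq
  rw [cfT_sum' X' Y.2, PY_sum' X' Y.2]

theorem omU_uE (P : TPack C M R G) (g : ℝ) (h0 : C.Reg X0) (χ : Pos p → C.Fx M G)
    (q : Pos p × C.Blk) : omU P g X0 χ (uE h0 q) = omq P g X0 χ q := by
  rw [coe_uE, omU_sum]

theorem norm_U (P : TPack C M R G) {X : Pos p} (hX : C.BReg X) {f : F} (hf : f ∈ C.Fl M G) :
    ‖P.U X f‖ = ‖f‖ := by
  have h1 := P.U_inner X hX f hf f hf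
  rw [inner_self_eq_norm_sq_to_K, inner_self_eq_norm_sq_to_K] at h1
  have h2 : ‖P.U X f‖ ^ 2 = ‖f‖ ^ 2 := by exact_mod_cast h1
  exact (sq_eq_sq₀ (norm_nonneg _) (norm_nonneg _)).1 h2

/-- `χ` is supported in `BReg`. -/
def BSupp (χ : Pos p → C.Fx M G) : Prop := ∀ X ∈ tsupport χ, C.BReg X

theorem norm_omq (P : TPack C M R G) (g : ℝ) {χ : Pos p → C.Fx M G} (hχ : BSupp χ)
    (q : Pos p × C.Blk) :
    ‖omq P g X0 χ q‖ = ‖P.Psi g q.2 (χ (X0 + q.1) : F)‖ := by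
  unfold omq
  by_cases h : χ (X0 + q.1) = 0
  · simp [h]
  · exact norm_U P (hχ _ (subset_tsupport _ h))
      (P.Psi_mem g q.2 q.2.2 _ (χ (X0 + q.1)).2)

theorem omq_eq_zero (P : TPack C M R G) (g : ℝ) {χ : Pos p → C.Fx M G} {q : Pos p × C.Blk}
    (h : χ (X0 + q.1) = 0 ∨ P.s g ≤ ‖q.2‖) : omq P g X0 χ q = 0 := by
  unfold omq
  rcases h with h | h
  · rw [h, ZeroMemClass.coe_zero, map_zero, map_zero]
  · rw [P.Psi_supp g q.2 q.2.2 h, zero_apply, map_zero]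

theorem continuous_omq (P : TPack C M R G) {g : ℝ} (hg : Continuous (P.Psi g))
    {χ : Pos p → C.Fx M G} (hc : Continuous χ) (hχ : BSupp χ) :
    Continuous (omq P g X0 χ) := by
  rw [continuous_iff_continuousAt]
  intro q
  have hq : Continuous fun q : Pos p × C.Blk => X0 + q.1 := by fun_prop
  by_cases h : X0 + q.1 ∈ tsupport χ
  · unfold omq
    have h1 : ContinuousAt (fun q : Pos p × C.Blk => P.U (X0 + q.1)) q :=
      ContinuousAt.comp (f := fun q : Pos p × C.Blk => X0 + q.1) (g := P.U)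
        (P.U_smooth _ (hχ _ h)).continuousAt hq.continuousAt
    have h2 : Continuous fun q : Pos p × C.Blk => P.Psi g q.2 (χ (X0 + q.1) : F) := by
      have h3 : Continuous fun q : Pos p × C.Blk => P.Psi g (q.2 : Cfg N) :=
        hg.comp (continuous_subtype_val.comp continuous_snd)
      have h4 : Continuous fun q : Pos p × C.Blk => (χ (X0 + q.1) : F) :=
        continuous_subtype_val.comp (hc.comp hq)
      exact h3.clm_apply h4
    exact h1.clm_apply h2.continuousAt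
  · have h1 : ∀ᶠ q' in 𝓝 q, omq P g X0 χ q' = 0 := by
      have h2 : (tsupport χ)ᶜ ∈ 𝓝 (X0 + q.1) := (isClosed_tsupport _).isOpen_compl.mem_nhds h
      filter_upwards [hq.continuousAt h2] with q' hq'
      exact omq_eq_zero P g (Or.inl (image_eq_zero_of_notMem_tsupport hq'))
    exact (continuousAt_const.congr (h1.mono fun q' hq' => hq'.symm))

theorem compact_omq (P : TPack C M R G) (g : ℝ) {χ : Pos p → C.Fx M G}
    (hcs : HasCompactSupport χ) : HasCompactSupport (omq P g X0 χ) := by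
  refine HasCompactSupport.of_support_subset_isCompact
    (((hcs.image (f := fun X : Pos p => X - X0) (by fun_prop))).prod
      (isCompact_closedBall (0 : C.Blk) (P.s g))) fun q hq => ?_
  have h1 : ¬ (χ (X0 + q.1) = 0 ∨ P.s g ≤ ‖q.2‖) := fun h => hq (omq_eq_zero P g h)
  push Not at h1
  refine ⟨⟨X0 + q.1, subset_tsupport _ h1.1, by simp⟩, ?_⟩
  simpa using h1.2.le


theorem continuous_omU (P : TPack C M R G) {g : ℝ} (hg : Continuous (P.Psi g))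
    (h0 : C.Reg X0) {χ : Pos p → C.Fx M G} (hc : Continuous χ) (hχ : BSupp χ) :
    Continuous fun u : Uk b (C.cf X0) => omU P g X0 χ u := by
  have h1 : (fun u : Uk b (C.cf X0) => omU P g X0 χ u) = omq P g X0 χ ∘ (uE h0).symm := by
    funext u
    have h2 := omU_uE P g h0 χ ((uE h0).symm u)
    rw [(uE h0).apply_symm_apply] at h2
    exact h2
  rw [h1]
  exact (continuous_omq P hg hc hχ).comp (uE h0).symm.continuous

theorem compact_omU (P : TPack C M R G) (g : ℝ) (h0 : C.Reg X0) {χ : Pos p → C.Fx M G}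
    (hcs : HasCompactSupport χ) :
    HasCompactSupport fun u : Uk b (C.cf X0) => omU P g X0 χ u := by
  have h1 : (fun u : Uk b (C.cf X0) => omU P g X0 χ u) = omq P g X0 χ ∘ (uE h0).symm := by
    funext u
    have h2 := omU_uE P g h0 χ ((uE h0).symm u)
    rw [(uE h0).apply_symm_apply] at h2
    exact h2
  rw [h1]
  exact (compact_omq P g hcs).comp_homeomorph (uE h0).symm.toHomeomorph

theorem memLp_omU (P : TPack C M R G) {g : ℝ} (hg : Continuous (P.Psi g))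
    (h0 : C.Reg X0) {χ : Pos p → C.Fx M G} (hc : Continuous χ) (hcs : HasCompactSupport χ)
    (hχ : BSupp χ) (q : ℝ≥0∞) :
    MemLp (fun u : Uk b (C.cf X0) => omU P g X0 χ u) q volume :=
  (continuous_omU P hg h0 hc hχ).memLp_of_hasCompactSupport (compact_omU P g h0 hcs)

/-! ## Sizes -/

/-- The block state is bounded on `Fx`, pointwise Cauchy–Schwarz over a basis. -/
theorem norm_sq_psi_le (P : TPack C M R G) (g : ℝ) (Y : C.Blk) (f : C.Fx M G) :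
    ‖P.Psi g Y f‖ ^ 2 ≤ ‖f‖ ^ 2 *
      ∑ i, ‖P.Psi g Y ((stdOrthonormalBasis ℂ (C.Fx M G) i : C.Fx M G) : F)‖ ^ 2 := by
  set e := stdOrthonormalBasis ℂ (C.Fx M G) with he
  have h1 : (f : F) = ∑ i, (e.repr f i) • ((e i : C.Fx M G) : F) := by
    have := congrArg (fun v : C.Fx M G => (v : F)) (e.sum_repr f)
    simp only [Submodule.coe_sum, Submodule.coe_smul] at this
    exact this.symm
  have h2 : P.Psi g Y f = ∑ i, (e.repr f i) • P.Psi g Y ((e i : C.Fx M G) : F) := by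
    conv_lhs => rw [h1]
    rw [map_sum]
    exact Finset.sum_congr rfl fun i _ => map_smul _ _ _
  have h3 : ‖P.Psi g Y f‖ ≤ ∑ i, ‖e.repr f i‖ * ‖P.Psi g Y ((e i : C.Fx M G) : F)‖ := by
    rw [h2]
    refine (norm_sum_le _ _).trans (le_of_eq ?_)
    exact Finset.sum_congr rfl fun i _ => norm_smul _ _
  have h4 : ∑ i, ‖e.repr f i‖ ^ 2 = ‖f‖ ^ 2 := by
    rw [← EuclideanSpace.norm_sq_eq, e.repr.norm_map]
  calc ‖P.Psi g Y f‖ ^ 2 ≤ (∑ i, ‖e.repr f i‖ * ‖P.Psi g Y ((e i : C.Fx M G) : F)‖) ^ 2 :=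
        pow_le_pow_left₀ (norm_nonneg _) h3 2
    _ ≤ (∑ i, ‖e.repr f i‖ ^ 2) * ∑ i, ‖P.Psi g Y ((e i : C.Fx M G) : F)‖ ^ 2 :=
        Finset.sum_mul_sq_le_sq_mul_sq _ _ _
    _ = _ := by rw [h4]

theorem integrable_psi_sq (P : TPack C M R G) {g : ℝ} (hg : Continuous (P.Psi g)) (f : F) :
    Integrable fun Y : C.Blk => ‖P.Psi g Y f‖ ^ 2 := by
  have h1 : Continuous fun Y : C.Blk => ‖P.Psi g Y f‖ ^ 2 :=
    (((hg.comp continuous_subtype_val).clm_apply continuous_const).norm).pow 2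
  refine h1.integrable_of_hasCompactSupport ?_
  refine HasCompactSupport.of_support_subset_isCompact
    (isCompact_closedBall (0 : C.Blk) (P.s g)) fun Y hY => ?_
  by_contra h
  apply hY
  have h2 : P.s g ≤ ‖(Y : Cfg N)‖ := by
    have : ¬ ‖Y‖ ≤ P.s g := by simpa using h
    exact (not_le.1 this).le
  simp [P.Psi_supp g Y Y.2 h2]

/-- `∫_Y ‖Psi g Y f‖² ≤ K ‖f‖²`, uniformly in large `g`. -/
theorem psi_bound (P : TPack C M R G) : ∃ K : ℝ, 0 ≤ K ∧ ∀ᶠ g in atTop, ∀ f : C.Fx M G,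
    ∫ Y : C.Blk, ‖P.Psi g Y f‖ ^ 2 ≤ K * ‖f‖ ^ 2 := by
  set e := stdOrthonormalBasis ℂ (C.Fx M G) with he
  have h1 : ∀ i, Tendsto (fun g => ∫ Y : C.Blk, ‖P.Psi g Y ((e i : C.Fx M G) : F)‖ ^ 2) atTop
      (𝓝 1) := by
    intro i
    have h2 := P.Psi_iso (e i) (e i).2 (e i) (e i).2
    have h3 : ⟪((e i : C.Fx M G) : F), ((e i : C.Fx M G) : F)⟫_ℂ = ((1 : ℝ) : ℂ) := by
      rw [inner_self_eq_norm_sq_to_K]
      have : ‖((e i : C.Fx M G) : F)‖ = 1 := e.orthonormal.1 i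
      rw [this]
      simp
    rw [h3] at h2
    have h4 := (Complex.continuous_re.tendsto _).comp h2
    simp only [Complex.ofReal_re] at h4
    refine h4.congr' ?_
    filter_upwards [P.Psi_smooth] with g hg
    simp only [Function.comp]
    have h5 : (fun Y : C.Blk => ⟪P.Psi g Y ((e i : C.Fx M G) : F),
        P.Psi g Y ((e i : C.Fx M G) : F)⟫_ℂ) =
        fun Y : C.Blk => ((‖P.Psi g Y ((e i : C.Fx M G) : F)‖ ^ 2 : ℝ) : ℂ) := by
      funext Y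
      rw [inner_self_eq_norm_sq_to_K]
      simp
    rw [h5, integral_complex_ofReal, Complex.ofReal_re]
  have h2 : Tendsto (fun g => ∑ i, ∫ Y : C.Blk, ‖P.Psi g Y ((e i : C.Fx M G) : F)‖ ^ 2) atTop
      (𝓝 (∑ _i : Fin (Module.finrank ℂ (C.Fx M G)), (1 : ℝ))) :=
    tendsto_finsetSum _ fun i _ => h1 i
  refine ⟨(∑ _i : Fin (Module.finrank ℂ (C.Fx M G)), (1 : ℝ)) + 1,
    by positivity, ?_⟩
  filter_upwards [h2.eventually (gt_mem_nhds (lt_add_one _)), P.Psi_smooth] with g hg hs f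
  have hc := hs.continuous
  calc ∫ Y : C.Blk, ‖P.Psi g Y f‖ ^ 2 ≤
        ∫ Y : C.Blk, ‖f‖ ^ 2 * ∑ i, ‖P.Psi g Y ((e i : C.Fx M G) : F)‖ ^ 2 := by
        refine integral_mono (integrable_psi_sq P hc f) ?_ fun Y => norm_sq_psi_le P g Y f
        exact (integrable_finsetSum _ fun i _ => integrable_psi_sq P hc _).const_mul _
    _ = ‖f‖ ^ 2 * ∑ i, ∫ Y : C.Blk, ‖P.Psi g Y ((e i : C.Fx M G) : F)‖ ^ 2 := by
        rw [integral_const_mul, integral_finsetSum _ fun i _ => integrable_psi_sq P hc _]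
    _ ≤ ‖f‖ ^ 2 * ((∑ _i : Fin (Module.finrank ℂ (C.Fx M G)), (1 : ℝ)) + 1) :=
        mul_le_mul_of_nonneg_left hg.le (by positivity)
    _ = _ := mul_comm _ _

/-- `∫ W(Y) ‖omq‖²` as an iterated integral bounded fibrewise. -/
theorem omq_weight (P : TPack C M R G) {g : ℝ} (hg : Continuous (P.Psi g)) {W : C.Blk → ℝ}
    (hW : Continuous W) {K : ℝ}
    (hK : ∀ f : C.Fx M G, ∫ Y : C.Blk, W Y * ‖P.Psi g Y f‖ ^ 2 ≤ K * ‖f‖ ^ 2)
    {χ : Pos p → C.Fx M G} (hc : Continuous χ) (hcs : HasCompactSupport χ) (hχ : BSupp χ) :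
    ∫ q, W q.2 * ‖omq P g X0 χ q‖ ^ 2 ≤ K * ∫ X, ‖χ X‖ ^ 2 := by
  have hi : Integrable fun q : Pos p × C.Blk => W q.2 * ‖omq P g X0 χ q‖ ^ 2 := by
    have c1 : Continuous fun q : Pos p × C.Blk => W q.2 * ‖omq P g X0 χ q‖ ^ 2 :=
      (hW.comp continuous_snd).mul ((continuous_omq P hg hc hχ).norm.pow 2)
    refine c1.integrable_of_hasCompactSupport ?_
    have c2 := (compact_omq P g hcs (X0 := X0)).norm.comp_left (g := fun t : ℝ => t ^ 2)
      (by norm_num)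
    exact c2.mul_left
  have hχi : Integrable fun X' : Pos p => K * ‖χ (X0 + X')‖ ^ 2 := by
    have c1 : Continuous fun X : Pos p => ‖χ X‖ ^ 2 := hc.norm.pow 2
    have c2 : Integrable fun X : Pos p => ‖χ X‖ ^ 2 :=
      c1.integrable_of_hasCompactSupport (hcs.norm.comp_left (g := fun t : ℝ => t ^ 2)
        (by norm_num))
    exact ((c2.comp_add_left X0).const_mul K)
  rw [Measure.volume_eq_prod] at hi ⊢
  rw [integral_prod _ hi]
  calc ∫ X' : Pos p, ∫ Y : C.Blk, W Y * ‖omq P g X0 χ (X', Y)‖ ^ 2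
      ≤ ∫ X' : Pos p, K * ‖χ (X0 + X')‖ ^ 2 := by
        refine integral_mono hi.integral_prod_left hχi fun X' => ?_
        simp only [norm_omq P g hχ]
        exact hK (χ (X0 + X'))
    _ = K * ∫ X, ‖χ X‖ ^ 2 := by
        rw [integral_const_mul]
        congr 1
        exact integral_add_left_eq_self (fun X : Pos p => ‖χ X‖ ^ 2) X0

/-- Size of the product state. -/
theorem omq_sq (P : TPack C M R G) : ∃ K : ℝ, 0 ≤ K ∧ ∀ᶠ g in atTop, ∀ (X0 : Pos p)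
    (χ : Pos p → C.Fx M G), Continuous χ → HasCompactSupport χ → BSupp χ →
    ∫ q, ‖omq P g X0 χ q‖ ^ 2 ≤ K * ∫ X, ‖χ X‖ ^ 2 := by
  obtain ⟨K, hK, h⟩ := psi_bound P
  refine ⟨K, hK, ?_⟩
  filter_upwards [h, P.Psi_smooth] with g h1 h2 X0 χ hc hcs hχ
  have h3 := omq_weight P h2.continuous (W := fun _ => 1) continuous_const (K := K) (X0 := X0)
    (by simpa using h1) hc hcs hχ
  simpa using h3


/-- Size of the product state, on `Uk`. -/
theorem integral_omU_sq (P : TPack C M R G) (g : ℝ) (h0 : C.Reg X0) (χ : Pos p → C.Fx M G) :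
    ∫ u : Uk b (C.cf X0), ‖omU P g X0 χ u‖ ^ 2 = ∫ q, ‖omq P g X0 χ q‖ ^ 2 := by
  rw [integral_uk h0]
  simp only [omU_uE]


/-! ## The amplitude -/



end Crest.Agent.R330.PairT245

end
end

-- ▼ part R330/PairG_756
section

/-!
Row 330, (I4) pairing (helper756): the Gaussian of a chart.

Abstract part (`QB c K q`): `q` quadratic, `c ‖z‖² ≤ q z ≤ K ‖z‖²`; integrability, positivity and
scaling of `∫ exp (-(g q))`, moments `∫ ‖z‖^(2n) exp (-(g q)) ≤ M g^(-n) ∫ exp (-(g q))`.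

Literal part (over `TDef_414`): `low`, `up`, `qb` (G1), `nI_pos`, `integrable_exp`,
`continuousOn_nI` (G2), `moment` (G3), and the normalised Gaussian `gsn`.
-/

set_option autoImplicit false
set_option linter.unusedSectionVars false

open MeasureTheory Filter Topology Crest.MathPhysics.MatrixQM
open scoped ContDiff InnerProductSpace ENNReal

noncomputable section

namespace Crest.Agent.R330.PairG756

/-! ## abstract part -/

section abs

variable {Z : Type*} [NormedAddCommGroup Z] [InnerProductSpace ℝ Z] [FiniteDimensional ℝ Z]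
  [MeasurableSpace Z] [BorelSpace Z]

/-- A continuous quadratic function between `c ‖z‖²` and `K ‖z‖²`. -/
structure QB (c K : ℝ) (q : Z → ℝ) : Prop where
  cont : Continuous q
  hom : ∀ (t : ℝ) (z : Z), q (t • z) = t ^ 2 * q z
  low : ∀ z, c * ‖z‖ ^ 2 ≤ q z
  up : ∀ z, q z ≤ K * ‖z‖ ^ 2

variable {c K : ℝ} {q : Z → ℝ}

theorem QB.integrable (h : QB c K q) (hc : 0 < c) {g : ℝ} (hg : 0 < g) (n : ℕ) :
    Integrable (fun z => ‖z‖ ^ n * Real.exp (-(g * q z))) := by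
  refine (GPar984.integrable_poly_gauss (Z := Z) n (c := g * c) (by positivity)).mono'
    ?_ (ae_of_all _ fun z => ?_)
  · exact ((continuous_norm.pow n).mul
      (Real.continuous_exp.comp (continuous_const.mul h.cont).neg)).aestronglyMeasurable
  · rw [Real.norm_of_nonneg (by positivity)]
    refine mul_le_mul_of_nonneg_left (Real.exp_le_exp.2 ?_) (by positivity)
    have := mul_le_mul_of_nonneg_left (h.low z) hg.le
    linarith

theorem QB.integrable_exp (h : QB c K q) (hc : 0 < c) {g : ℝ} (hg : 0 < g) :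
    Integrable (fun z => Real.exp (-(g * q z))) := by
  have := h.integrable hc hg 0
  simpa using this

theorem QB.pos (h : QB c K q) (hc : 0 < c) {g : ℝ} (hg : 0 < g) :
    0 < ∫ z, Real.exp (-(g * q z)) :=
  integral_exp_pos (h.integrable_exp hc hg)

/-- Scaling. -/
theorem integral_sqrt_smul (f : Z → ℝ) {g : ℝ} (hg : 0 < g) :
    ∫ z, f (√g • z) = (√g ^ Module.finrank ℝ Z)⁻¹ * ∫ z, f z := by
  rw [Measure.integral_comp_smul, smul_eq_mul, abs_of_nonneg (by positivity)]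

theorem QB.scale (h : QB c K q) {g : ℝ} (hg : 0 < g) (n : ℕ) :
    ∫ z, ‖z‖ ^ (2 * n) * Real.exp (-(g * q z)) =
      (√g ^ Module.finrank ℝ Z)⁻¹ * (g ^ n)⁻¹ * ∫ z, ‖z‖ ^ (2 * n) * Real.exp (-(q z)) := by
  have h1 := integral_sqrt_smul (fun z : Z => ‖z‖ ^ (2 * n) * Real.exp (-(q z))) hg
  have h2 : ∀ z : Z, ‖√g • z‖ ^ (2 * n) * Real.exp (-(q (√g • z))) =
      g ^ n * (‖z‖ ^ (2 * n) * Real.exp (-(g * q z))) := by
    intro z
    rw [h.hom, Real.sq_sqrt hg.le, norm_smul, Real.norm_of_nonneg (Real.sqrt_nonneg g), mul_pow,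
      pow_mul, Real.sq_sqrt hg.le]
    ring
  simp only [h2, integral_const_mul] at h1
  have hgn : (g ^ n) ≠ 0 := by positivity
  calc ∫ z, ‖z‖ ^ (2 * n) * Real.exp (-(g * q z))
      = (g ^ n)⁻¹ * (g ^ n * ∫ z, ‖z‖ ^ (2 * n) * Real.exp (-(g * q z))) := by
        rw [← mul_assoc, inv_mul_cancel₀ hgn, one_mul]
    _ = _ := by rw [h1]; ring

theorem QB.scale_zero (h : QB c K q) {g : ℝ} (hg : 0 < g) :
    ∫ z, Real.exp (-(g * q z)) =
      (√g ^ Module.finrank ℝ Z)⁻¹ * ∫ z, Real.exp (-(q z)) := by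
  have := h.scale hg 0
  simpa using this

/-- **Moments.** -/
theorem moment_le (c K : ℝ) (hc : 0 < c) (n : ℕ) :
    ∃ M : ℝ, 0 ≤ M ∧ ∀ q : Z → ℝ, QB c K q → ∀ g : ℝ, 0 < g →
      ∫ z, ‖z‖ ^ (2 * n) * Real.exp (-(g * q z)) ≤ M / g ^ n * ∫ z, Real.exp (-(g * q z)) := by
  by_cases hK : 0 < K
  swap
  · -- then `Z` is trivial
    refine ⟨1, zero_le_one, fun q h g hg => ?_⟩
    have hz : ∀ z : Z, z = 0 := by
      intro z
      by_contra hz
      have h1 := (h.low z).trans (h.up z)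
      have h2 : 0 < ‖z‖ ^ 2 := by have := norm_pos_iff.2 hz; positivity
      nlinarith
    have hsub : Subsingleton Z := ⟨fun a b => by rw [hz a, hz b]⟩
    rcases n.eq_zero_or_pos with rfl | hn
    · simp
    · have h0 : ∀ z : Z, ‖z‖ ^ (2 * n) * Real.exp (-(g * q z)) = 0 := by
        intro z
        rw [hz z, norm_zero, zero_pow (by omega), zero_mul]
      simp only [h0, integral_zero]
      exact mul_nonneg (by positivity) (integral_nonneg fun z => (Real.exp_pos _).le)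
  · have hi : Integrable (fun z : Z => ‖z‖ ^ (2 * n) * Real.exp (-c * ‖z‖ ^ 2)) :=
      GPar984.integrable_poly_gauss (2 * n) hc
    have hK1 : 0 < ∫ z : Z, Real.exp (-K * ‖z‖ ^ 2) :=
      integral_exp_pos (GPar984.integrable_gauss hK)
    refine ⟨(∫ z : Z, ‖z‖ ^ (2 * n) * Real.exp (-c * ‖z‖ ^ 2)) / ∫ z : Z, Real.exp (-K * ‖z‖ ^ 2),
      div_nonneg (integral_nonneg fun z => by positivity) hK1.le, fun q h g hg => ?_⟩
    rw [h.scale hg n, h.scale_zero hg]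
    have e1 : ∫ z, ‖z‖ ^ (2 * n) * Real.exp (-(q z)) ≤
        ∫ z : Z, ‖z‖ ^ (2 * n) * Real.exp (-c * ‖z‖ ^ 2) := by
      refine integral_mono ?_ hi fun z => ?_
      · have := h.integrable hc one_pos (2 * n)
        simpa using this
      · refine mul_le_mul_of_nonneg_left (Real.exp_le_exp.2 ?_) (by positivity)
        have := h.low z
        linarith
    have e2 : ∫ z : Z, Real.exp (-K * ‖z‖ ^ 2) ≤ ∫ z, Real.exp (-(q z)) := by
      refine integral_mono (GPar984.integrable_gauss hK) ?_ fun z => ?_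
      · have := h.integrable_exp hc one_pos
        simpa using this
      · refine Real.exp_le_exp.2 ?_
        have := h.up z
        linarith
    have e3 : ∫ z, ‖z‖ ^ (2 * n) * Real.exp (-(q z)) ≤
        (∫ z : Z, ‖z‖ ^ (2 * n) * Real.exp (-c * ‖z‖ ^ 2)) / (∫ z : Z, Real.exp (-K * ‖z‖ ^ 2)) *
          ∫ z, Real.exp (-(q z)) := by
      rw [div_mul_eq_mul_div, le_div_iff₀ hK1]
      refine mul_le_mul e1 e2 hK1.le (integral_nonneg fun z => by positivity)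
    have hs : 0 ≤ (√g ^ Module.finrank ℝ Z)⁻¹ * (g ^ n)⁻¹ := by positivity
    calc (√g ^ Module.finrank ℝ Z)⁻¹ * (g ^ n)⁻¹ * ∫ z, ‖z‖ ^ (2 * n) * Real.exp (-(q z))
        ≤ (√g ^ Module.finrank ℝ Z)⁻¹ * (g ^ n)⁻¹ *
          ((∫ z : Z, ‖z‖ ^ (2 * n) * Real.exp (-c * ‖z‖ ^ 2)) /
            (∫ z : Z, Real.exp (-K * ‖z‖ ^ 2)) * ∫ z, Real.exp (-(q z))) :=
          mul_le_mul_of_nonneg_left e3 hs
      _ = _ := by ring

end abs

/-! ## literal part -/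

section literal

open Crest.Agent.R330.TDef414 Crest.Agent.R330.LS839 Crest.Agent.R330.Frame839
  Crest.Agent.R330.Bind6839

variable {N p : ℕ} {b : ColorBasis N} {S : Type} [Group S] [Fintype S] {C : Chn b p S}
  {F : Type*} [NormedAddCommGroup F] [InnerProductSpace ℂ F] [FiniteDimensional ℂ F]
  {M : FermionRep N F} {R : GaugeAction b M} {G : GammaNine}
  (P : TPack C M R G) (σ : Sl C)

/-- **(G1)** Uniform coercivity on the fixed fibre. -/
theorem low {r' : ℝ} (hr : r' < σ.r) : ∃ c : ℝ, 0 < c ∧ ∀ X : Pos p, ‖X - σ.X0‖ ≤ r' →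
    ∀ z : C.Zt σ.X0, c * ‖z‖ ^ 2 ≤ ⟪P.A X z, z⟫_ℝ := by
  obtain ⟨c, hc, h⟩ := ALow302.a_low_chart P σ hr
  exact ⟨c, hc, fun X hX z => h X hX z z.2⟩

theorem up {r' : ℝ} (hr : r' < σ.r) : ∃ K : ℝ, 0 < K ∧ ∀ X : Pos p, ‖X - σ.X0‖ ≤ r' →
    ∀ z : Cfg N, ⟪P.A X z, z⟫_ℝ ≤ K * ‖z‖ ^ 2 := by
  have hf : ContinuousOn P.A (Metric.closedBall σ.X0 r') := fun X hX =>
    (P.A_smooth X (σ.reg X (lt_of_le_of_lt
      (mem_closedBall_iff_norm.1 hX) hr))).continuousAt.continuousWithinAt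
  obtain ⟨K, hK⟩ := (isCompact_closedBall σ.X0 r').exists_bound_of_continuousOn hf
  refine ⟨max K 1, lt_max_of_lt_right one_pos, fun X hX z => ?_⟩
  calc ⟪P.A X z, z⟫_ℝ ≤ ‖P.A X z‖ * ‖z‖ := real_inner_le_norm _ _
    _ ≤ (‖P.A X‖ * ‖z‖) * ‖z‖ := by gcongr; exact ContinuousLinearMap.le_opNorm _ _
    _ ≤ (max K 1 * ‖z‖) * ‖z‖ := by
        gcongr
        exact (hK X (mem_closedBall_iff_norm.2 hX)).trans (le_max_left _ _)
    _ = max K 1 * ‖z‖ ^ 2 := by ring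

/-- The Gaussian exponent of the chart is uniformly a `QB`. -/
theorem qb {r' : ℝ} (hr : r' < σ.r) : ∃ c K : ℝ, 0 < c ∧ 0 < K ∧ ∀ X : Pos p, ‖X - σ.X0‖ ≤ r' →
    QB c K (fun z : C.Zt σ.X0 => ⟪P.A X z, z⟫_ℝ) := by
  obtain ⟨c, hc, h1⟩ := low P σ hr
  obtain ⟨K, hK, h2⟩ := up P σ hr
  refine ⟨c, K, hc, hK, fun X hX => ⟨?_, ?_, h1 X hX, fun z => ?_⟩⟩
  · exact Continuous.inner ((P.A X).continuous.comp continuous_subtype_val) continuous_subtype_val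
  · intro t z
    simp only [Submodule.coe_smul, map_smul, inner_smul_left, inner_smul_right, conj_trivial]
    ring
  · exact h2 X hX z

/-- **(G2)** integrability. -/
theorem integrable_pow_exp {X : Pos p} (hX : ‖X - σ.X0‖ < σ.r) {g : ℝ} (hg : 0 < g) (n : ℕ) :
    Integrable fun z : C.Zt σ.X0 => ‖z‖ ^ n * Real.exp (-(g * ⟪P.A X z, z⟫_ℝ)) := by
  obtain ⟨c, K, hc, -, h⟩ := qb P σ hX
  exact (h X le_rfl).integrable hc hg n

theorem integrable_exp {X : Pos p} (hX : ‖X - σ.X0‖ < σ.r) {g : ℝ} (hg : 0 < g) :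
    Integrable fun z : C.Zt σ.X0 => Real.exp (-(g * ⟪P.A X z, z⟫_ℝ)) := by
  obtain ⟨c, K, hc, -, h⟩ := qb P σ hX
  exact (h X le_rfl).integrable_exp hc hg

/-- **(G2)** positivity. -/
theorem nI_pos {X : Pos p} (hX : ‖X - σ.X0‖ < σ.r) {g : ℝ} (hg : 0 < g) : 0 < nI P σ g X :=
  integral_exp_pos (integrable_exp P σ hX hg)



/-- **(G3)** moments. -/
theorem moment {r' : ℝ} (hr : r' < σ.r) (n : ℕ) : ∃ K : ℝ, 0 ≤ K ∧ ∀ g : ℝ, 0 < g →
    ∀ X : Pos p, ‖X - σ.X0‖ ≤ r' →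
      ∫ z : C.Zt σ.X0, ‖z‖ ^ (2 * n) * Real.exp (-(g * ⟪P.A X z, z⟫_ℝ)) ≤
        K / g ^ n * nI P σ g X := by
  obtain ⟨c, K, hc, -, h⟩ := qb P σ hr
  obtain ⟨Q, hQ, h1⟩ := moment_le (Z := C.Zt σ.X0) c K hc n
  exact ⟨Q, hQ, fun g hg X hX => h1 _ (h X hX) g hg⟩


/-! ### the normalised Gaussian -/

/-- The normalised Gaussian of the chart. -/
def gsn (g : ℝ) (X : Pos p) (z : C.Zt σ.X0) : ℝ :=
  Real.exp (-(g / 2 * ⟪P.A X z, z⟫_ℝ)) / Real.sqrt (nI P σ g X)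


theorem gsn_sq {X : Pos p} (hX : ‖X - σ.X0‖ < σ.r) {g : ℝ} (hg : 0 < g) (z : C.Zt σ.X0) :
    gsn P σ g X z ^ 2 = Real.exp (-(g * ⟪P.A X z, z⟫_ℝ)) / nI P σ g X := by
  unfold gsn
  rw [div_pow, Real.sq_sqrt (nI_pos P σ hX hg).le, ← Real.exp_nat_mul]
  congr 2
  push_cast
  ring

theorem integral_pow_gsn_sq {X : Pos p} (hX : ‖X - σ.X0‖ < σ.r) {g : ℝ} (hg : 0 < g) (n : ℕ) :
    ∫ z : C.Zt σ.X0, ‖z‖ ^ n * gsn P σ g X z ^ 2 =
      (∫ z : C.Zt σ.X0, ‖z‖ ^ n * Real.exp (-(g * ⟪P.A X z, z⟫_ℝ))) / nI P σ g X := by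
  rw [← integral_div]
  refine integral_congr_ae (ae_of_all _ fun z => ?_)
  show ‖z‖ ^ n * gsn P σ g X z ^ 2 =
    ‖z‖ ^ n * Real.exp (-(g * ⟪P.A X z, z⟫_ℝ)) / nI P σ g X
  rw [gsn_sq P σ hX hg, mul_div_assoc]


theorem integrable_pow_gsn_sq {X : Pos p} (hX : ‖X - σ.X0‖ < σ.r) {g : ℝ} (hg : 0 < g) (n : ℕ) :
    Integrable fun z : C.Zt σ.X0 => ‖z‖ ^ n * gsn P σ g X z ^ 2 := by
  refine ((integrable_pow_exp P σ hX hg n).div_const (nI P σ g X)).congr (ae_of_all _ fun z => ?_)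
  show ‖z‖ ^ n * Real.exp (-(g * ⟪P.A X z, z⟫_ℝ)) / nI P σ g X = ‖z‖ ^ n * gsn P σ g X z ^ 2
  rw [gsn_sq P σ hX hg, mul_div_assoc]



/-- Moments of the normalised Gaussian. -/
theorem moment_gsn {r' : ℝ} (hr : r' < σ.r) (n : ℕ) : ∃ K : ℝ, 0 ≤ K ∧ ∀ g : ℝ, 0 < g →
    ∀ X : Pos p, ‖X - σ.X0‖ ≤ r' →
      ∫ z : C.Zt σ.X0, ‖z‖ ^ (2 * n) * gsn P σ g X z ^ 2 ≤ K / g ^ n := by
  obtain ⟨K, hK, h⟩ := moment P σ hr n
  refine ⟨K, hK, fun g hg X hX => ?_⟩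
  have hX' : ‖X - σ.X0‖ < σ.r := hX.trans_lt hr
  rw [integral_pow_gsn_sq P σ hX' hg, div_le_iff₀ (nI_pos P σ hX' hg)]
  exact h g hg X hX

theorem moment_two_gsn {r' : ℝ} (hr : r' < σ.r) : ∃ K : ℝ, 0 ≤ K ∧ ∀ g : ℝ, 0 < g →
    ∀ X : Pos p, ‖X - σ.X0‖ ≤ r' →
      ∫ z : C.Zt σ.X0, ‖z‖ ^ 2 * gsn P σ g X z ^ 2 ≤ K / g := by
  obtain ⟨K, hK, h⟩ := moment_gsn P σ hr 1
  refine ⟨K, hK, fun g hg X hX => ?_⟩
  have := h g hg X hX
  simpa using this



end literal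

end Crest.Agent.R330.PairG756

end
end

-- ▼ part R330/PairF_424
section

/-!
# Row 330, S9-PAIRING (helper424): the pairing estimate without hypotheses

`pair_all` = `PairE424.pair_final` with the three inputs (continuity of the trial states, second
moment of the Gaussian, size of the light part) discharged from `TCore_383`, `PairG_756`,
`PairT2_245`.
-/

set_option autoImplicit false
set_option linter.unusedSectionVars false

open MeasureTheory Filter Topology Crest.MathPhysics.MatrixQM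
open scoped ContDiff InnerProductSpace ENNReal

noncomputable section

namespace Crest.Agent.R330.PairF424

open Crest.Agent.R330.Defs478 Crest.Agent.R330.LS839
  Crest.Agent.R330.Bind6839 Crest.Agent.R330.SlG944 Crest.Agent.R330.SlF944
  Crest.Agent.R330.TDef414 Crest.Agent.R330.PairD424 Crest.Agent.R330.PairC424
  Crest.Agent.R330.PairE424
open Crest.Agent.R330.SlB314 (Nor Tan br)
open Crest.Agent.R330.SlD314 (tube mem_tube_iff)

variable {N p : ℕ} {b : ColorBasis N} {S : Type} [Group S] [Fintype S] {C : Chn b p S}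
  {F : Type*} [NormedAddCommGroup F] [InnerProductSpace ℂ F]
  [FiniteDimensional ℂ F] {M : FermionRep N F} {R : GaugeAction b M} {G : GammaNine}

theorem hcont (P : TPack C M R G) (σ : Sl C) (χ : Amp M G σ) :
    ∀ᶠ g in atTop, Continuous (Tgen P σ g χ.fn) := by
  rcases subsingleton_or_nontrivial F with h | h
  · exact Eventually.of_forall fun g => continuous_of_const fun _ _ => Subsingleton.elim _ _
  · filter_upwards [TCore383.core P σ χ] with g hg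
    exact hg.1.continuous

theorem hmom (P : TPack C M R G) (σ : Sl C) :
    ∃ K : ℝ, ∀ᶠ g in atTop, ∀ X, ‖X - σ.X0‖ ≤ σ.r / 4 →
      ∫⁻ z : C.Zt σ.X0, ENNReal.ofReal (‖z‖ ^ 2 * gsn P σ g X z ^ 2) ≤
        ENNReal.ofReal (K / g) := by
  have hr := σ.pos
  obtain ⟨K, hK, h⟩ := PairG756.moment_two_gsn P σ (r' := σ.r / 4) (by linarith)
  refine ⟨K, ?_⟩
  filter_upwards [eventually_gt_atTop 0] with g hg X hX
  have h1 : Integrable fun z : C.Zt σ.X0 => ‖z‖ ^ 2 * PairG756.gsn P σ g X z ^ 2 :=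
    PairG756.integrable_pow_gsn_sq P σ (by linarith) hg 2
  have h2 := ofReal_integral_eq_lintegral_ofReal h1
    (Eventually.of_forall fun z => by positivity)
  calc _ = ∫⁻ z : C.Zt σ.X0, ENNReal.ofReal (‖z‖ ^ 2 * PairG756.gsn P σ g X z ^ 2) := rfl
    _ = ENNReal.ofReal (∫ z : C.Zt σ.X0, ‖z‖ ^ 2 * PairG756.gsn P σ g X z ^ 2) := h2.symm
    _ ≤ _ := ENNReal.ofReal_le_ofReal (h g hg X hX)

theorem lint_sub {L L' : Submodule ℝ (Cfg N)} (h : L = L') (f : Cfg N → ℝ≥0∞) :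
    ∫⁻ u : L, f u = ∫⁻ u : L', f u := by
  subst h
  rfl

theorem hom (P : TPack C M R G) (σ : Sl C) (χ : Amp M G σ) :
    ∃ K : ℝ, ∀ᶠ g in atTop,
      ∫⁻ u : Tup C.kk, ‖om P σ g χ.fn u‖ₑ ^ 2 ≤ ENNReal.ofReal K := by
  obtain ⟨K, hK, h⟩ := PairT245.omq_sq P
  refine ⟨K * ∫ X, ‖χ.fn X‖ ^ 2, ?_⟩
  filter_upwards [h, P.Psi_smooth] with g hg hΨ
  have h0 := reg0 σ
  have h1 := hg σ.X0 χ.fn χ.smooth.continuous χ.compact χ.off
  rw [← PairT245.integral_omU_sq P g h0 χ.fn] at h1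
  have h2 := PairT245.memLp_omU P hΨ.continuous h0 χ.smooth.continuous χ.compact χ.off 2
  rw [← lint_sub (PairT245.Uk_eq h0) fun u => ‖om P σ g χ.fn u‖ₑ ^ 2]
  calc _ = ∫⁻ u : Uk b (C.cf σ.X0), ‖PairT245.omU P g σ.X0 χ.fn u‖ₑ ^ 2 := rfl
    _ = ENNReal.ofReal (∫ u : Uk b (C.cf σ.X0), ‖PairT245.omU P g σ.X0 χ.fn u‖ ^ 2) :=
        lint_eq_ofReal h2
    _ ≤ _ := ENNReal.ofReal_le_ofReal h1

/-- **Pairing of a core vector with a trial state.** -/
theorem pair_all {L Z : Submodule ℝ (Cfg N)} (P : TPack C M R G) (σ : Sl C)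
    (hL : L = Tup C.kk) (hZ : Z = C.Zt σ.X0) (χ : Amp M G σ) {η : L × Z → ℝ} {e : Pos p → ℝ}
    (he : ContDiff ℝ ∞ e) (hη : Continuous η) {Lp B ρ : ℝ}
    (hLip : ∀ q q', |η q - η q'| ≤ Lp * (‖q.1 - q'.1‖ + ‖q.2 - q'.2‖)) (hB : ∀ q, |η q| ≤ B)
    (hsupp : ∀ q : L × Z, ρ < ‖(q.1 : Cfg N) + q.2‖ → η q = 0) (hρ : ρ < σ.r)
    (hηe : ∀ (X : Pos p) (h : C.cf X ∈ L), e X = η (⟨C.cf X, h⟩, 0)) :
    ∃ ε : ℝ → ℝ, Tendsto ε atTop (𝓝 0) ∧ ∀ᶠ g in atTop, ∀ φ : Cfg N → F, Continuous φ →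
      (∀ h x, φ (b.act h x) = R.ρ h (φ x)) → MemLp φ 2 volume →
      ‖(∫ x, ⟪Tgen P σ g (ampE σ he χ).fn x, φ x⟫_ℂ) -
        ∫ q : L × Z, ⟪gsn P σ g (σ.X0 + C.cfT q.1) q.2 • om P σ g χ.fn q.1,
          η q • φ (C.cf σ.X0 + ((q.1 : Cfg N) + q.2))⟫_ℂ‖ ≤
        ε g * Real.sqrt (∫ x, ‖φ x‖ ^ 2) :=
  pair_final P σ hL hZ χ he hη hLip hB hsupp hρ hηe (hcont P σ _) (hmom P σ) (hom P σ χ)

/-- a `C¹` cut-off with compact support is bounded and Lipschitz in the form of `pair_all` -/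
theorem lip_of_smooth {L Z : Submodule ℝ (Cfg N)} {η : L × Z → ℝ} (h : ContDiff ℝ ∞ η)
    (hc : HasCompactSupport η) : ∃ Lp B : ℝ,
      (∀ q q', |η q - η q'| ≤ Lp * (‖q.1 - q'.1‖ + ‖q.2 - q'.2‖)) ∧ ∀ q, |η q| ≤ B := by
  obtain ⟨K, hK⟩ := h.lipschitzWith_of_hasCompactSupport hc (by simp)
  obtain ⟨B, hB⟩ := h.continuous.bounded_above_of_compact_support hc
  refine ⟨K, B, fun q q' => ?_, hB⟩
  have h1 := hK.dist_le_mul q q'
  rw [Real.dist_eq, dist_eq_norm] at h1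
  refine h1.trans (mul_le_mul_of_nonneg_left ?_ K.2)
  exact max_le (le_add_of_nonneg_right (norm_nonneg _)) (le_add_of_nonneg_left (norm_nonneg _))

/-- **Pairing with a smooth cut-off of compact support.** -/
theorem pair_cut {L Z : Submodule ℝ (Cfg N)} (P : TPack C M R G) (σ : Sl C)
    (hL : L = Tup C.kk) (hZ : Z = C.Zt σ.X0) (χ : Amp M G σ) {η : L × Z → ℝ}
    (hη : ContDiff ℝ ∞ η) (hc : HasCompactSupport η) {ρ : ℝ} (hρ : ρ < σ.r)
    (hsupp : ∀ q : L × Z, ρ < ‖(q.1 : Cfg N) + q.2‖ → η q = 0) :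
    ∃ χ' : Amp M G σ, ∃ ε : ℝ → ℝ, Tendsto ε atTop (𝓝 0) ∧ ∀ᶠ g in atTop, ∀ φ : Cfg N → F,
      Continuous φ → (∀ h x, φ (b.act h x) = R.ρ h (φ x)) → MemLp φ 2 volume →
      ‖(∫ x, ⟪Tgen P σ g χ'.fn x, φ x⟫_ℂ) -
        ∫ q : L × Z, ⟪gsn P σ g (σ.X0 + C.cfT q.1) q.2 • om P σ g χ.fn q.1,
          η q • φ (C.cf σ.X0 + ((q.1 : Cfg N) + q.2))⟫_ℂ‖ ≤
        ε g * Real.sqrt (∫ x, ‖φ x‖ ^ 2) := by
  subst hL hZ
  obtain ⟨Lp, B, h1, h2⟩ := lip_of_smooth hη hc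
  set emb : Pos p → Tup C.kk := fun X => ⟨C.cf X, cf_mem C X⟩ with hemb
  have hem : ContDiff ℝ ∞ emb :=
    (C.cf.toContinuousLinearMap.codRestrict (Tup C.kk) (cf_mem C)).contDiff
  have he : ContDiff ℝ ∞ fun X : Pos p => η (emb X, 0) := hη.comp (hem.prodMk contDiff_const)
  exact ⟨ampE σ he χ, pair_all P σ rfl rfl χ he hη.continuous h1 h2 hsupp hρ fun X h => rfl⟩

end Crest.Agent.R330.PairF424

end
end

-- ▼ part R330/I4_245
section

/-!
# Row 330, S9 capture, (I4): the amplitudes of a null sequence are weakly null (helper245)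

* `G_eq`, `gsl_eq` : 8's Gaussian `gsl` is 424's / 756's `gsn` where `ρ X = X`.
* `exists_theta` : smooth cut-offs between a compact and an open set.
* `slice_amp` : `∫ ⟪gsl • om χ, half κ φ⟫ = ∫ ⟪χ, ampX⟫`.
* `i4In` : 8's `I4In`.
-/

set_option autoImplicit false
set_option linter.unusedSectionVars false

open MeasureTheory Filter Topology Crest.MathPhysics.MatrixQM
open scoped ContDiff InnerProductSpace ENNReal

noncomputable section

namespace Crest.Agent.R330.I4245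

open Crest.Agent.R330.Defs478 Crest.Agent.R330.LS839 Crest.Agent.R330.Frame839
  Crest.Agent.R330.Bind6839 Crest.Agent.R330.IBP837 Crest.Agent.R330.TDef414
  Crest.Agent.R330.PairT245 Crest.Agent.R330.LocB8 Crest.Agent.R330.LocC8 Crest.Agent.R330.LocD8
  Crest.Agent.R330.LemA342 Crest.Agent.R330.FibProj837 Crest.Agent.R330.HBX450
  Crest.Agent.R330.CapBind737 Crest.Agent.R330.TrialSys796 Crest.Agent.R330.SlQE87

variable {N p : ℕ} {b : ColorBasis N} {S : Type} [Group S] [Fintype S] {C : Chn b p S}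
  {F : Type*} [NormedAddCommGroup F] [InnerProductSpace ℂ F] [FiniteDimensional ℂ F]
  {M : FermionRep N F} {R : GaugeAction b M} {G : GammaNine}

/-! ## The Gaussian -/

section gauss

variable {Z : Type*} [NormedAddCommGroup Z] [InnerProductSpace ℝ Z] [FiniteDimensional ℝ Z]
  [MeasurableSpace Z] [BorelSpace Z]

/-- The normalised Gaussian as a quotient. -/
theorem G_eq {g : ℝ} (hg : 0 < g) {A : Z →L[ℝ] Z} (hA : SqrtPD984.PD A) (z : Z) :
    GPar984.G g A z = Real.exp (-(g / 2 * ⟪A z, z⟫_ℝ)) /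
      Real.sqrt (∫ y : Z, Real.exp (-(g * ⟪A y, y⟫_ℝ))) := by
  set c : ℝ := GPar984.G g A 0 with hc
  have hc0 : 0 < c := GPar984.G_pos hg hA 0
  have e1 : ∀ z, GPar984.G g A z = c * Real.exp (-(g / 2 * ⟪A z, z⟫_ℝ)) := by
    intro z
    rw [hc]
    unfold GPar984.G
    rw [map_zero, inner_zero_left, mul_zero, Real.exp_zero, mul_one]
    congr 2
    ring
  have e2 : ∀ z, GPar984.G g A z ^ 2 = c ^ 2 * Real.exp (-(g * ⟪A z, z⟫_ℝ)) := by
    intro z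
    rw [e1, mul_pow, ← Real.exp_nat_mul]
    congr 2
    push_cast
    ring
  have e3 := GPar984.integral_G_sq hg hA
  simp only [e2] at e3
  rw [integral_const_mul] at e3
  have e4 : ∫ y : Z, Real.exp (-(g * ⟪A y, y⟫_ℝ)) = (c⁻¹) ^ 2 := by
    rw [inv_pow]
    exact eq_inv_of_mul_eq_one_right e3
  rw [e1, e4, Real.sqrt_sq (by positivity), div_inv_eq_mul, mul_comm]

end gauss

theorem reg0 (σ : Sl C) : C.Reg σ.X0 := σ.reg _ (by rw [sub_self, norm_zero]; exact σ.pos)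

theorem emb_zE {X0 : Pos p} (h0 : C.Reg X0) : MeasurableEmbedding (zE h0) :=
  (zE h0).toContinuousLinearEquiv.toHomeomorph.measurableEmbedding

/-- The Gaussian on `Zs` is the Gaussian `gsn` of the pairing estimate. -/
theorem gsl_eq (P : TPack C M R G) (σ : Sl C) {ρ : Pos p → Pos p} {g : ℝ} (hg : 0 < g)
    {u : Uk b (C.cf σ.X0)} (hr : ‖ρ (posu σ (u : Cfg N)) - σ.X0‖ < σ.r) (z : Zs b (C.cf σ.X0)) :
    gsl P σ ρ g (u, z) = PairD424.gsn P σ g (ρ (posu σ (u : Cfg N))) z := by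
  unfold gsl PairD424.gsn
  rw [G_eq hg (Az_pd P σ hr), inner_Az]
  have h1 : ∫ y : Zs b (C.cf σ.X0),
      Real.exp (-(g * ⟪Az P σ (ρ (posu σ (u : Cfg N))) y, y⟫_ℝ)) =
      nI P σ g (ρ (posu σ (u : Cfg N))) := by
    unfold nI
    rw [← (mp_zE (reg0 σ)).integral_comp (emb_zE (reg0 σ))]
    refine integral_congr_ae (Eventually.of_forall fun y => ?_)
    simp only
    rw [inner_Az]
    rfl
  rw [h1]

/-! ## A smooth cut-off -/

theorem exists_theta {E : Type*} [NormedAddCommGroup E] [InnerProductSpace ℝ E]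
    [FiniteDimensional ℝ E] {K O : Set E} (hK : IsCompact K) (hO : IsOpen O) (h : K ⊆ O) :
    ∃ θ : E → ℝ, ContDiff ℝ ∞ θ ∧ HasCompactSupport θ ∧ tsupport θ ⊆ O ∧ ∀ x ∈ K, θ x = 1 := by
  obtain ⟨K', hK', h1, h2⟩ := exists_compact_between hK hO h
  obtain ⟨f, h3, h4, -⟩ := exists_contMDiffMap_zero_one_of_isClosed (modelWithCornersSelf ℝ E)
    (n := ⊤) (isOpen_interior (s := K')).isClosed_compl hK.isClosed
    (Set.disjoint_left.2 fun x hx hxK => hx (h1 hxK))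
  have hsup : tsupport (f : E → ℝ) ⊆ K' := by
    refine closure_minimal (fun x hx => ?_) hK'.isClosed
    by_contra hn
    exact hx (h3 fun hi => hn (interior_subset hi))
  exact ⟨f, contMDiff_iff_contDiff.1 f.contMDiff, hK'.of_isClosed_subset (isClosed_tsupport _) hsup,
    hsup.trans h2, fun x hx => h4 hx⟩

/-! ## The slice pairing is the pairing of the amplitudes -/

section amp

variable {P : TPack C M R G} {σ : Sl C} {ρ : Pos p → Pos p} {κ : Sc b (C.cf σ.X0) → ℝ} {g : ℝ}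
  {φ : Cfg N → F} {χ : Pos p → C.Fx M G}

theorem pV_omU (hχ : BSupp χ) (u : Uk b (C.cf σ.X0)) :
    pV P (posu σ (u : Cfg N)) (omU P g σ.X0 χ u) = omU P g σ.X0 χ u := by
  by_cases h : χ (σ.X0 + C.cfT (u : Cfg N)) = 0
  · have h1 : omU P g σ.X0 χ (u : Cfg N) = 0 := by
      unfold omU
      rw [h, ZeroMemClass.coe_zero, map_zero, map_zero]
    rw [h1, map_zero]
  · refine pV_of_mem (U_mem_Vac P (hχ _ (subset_tsupport _ h)) ?_)
    exact P.Psi_mem g _ (PairD424.PY_mem C _) _ (χ (σ.X0 + C.cfT (u : Cfg N))).2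

/-- Fubini for the projection on the Gaussian. -/
theorem slice_fpr (hρ : ContDiff ℝ ∞ ρ) (hr : ∀ X, ‖ρ X - σ.X0‖ < σ.r)
    (hκ : ContDiff ℝ ∞ κ) (hκs : HasCompactSupport κ) (hg : 0 < g) (hΨ : Continuous (P.Psi g))
    (hφ : ContDiff ℝ ∞ φ) (hχ : Continuous χ) (hχs : HasCompactSupport χ) (hχB : BSupp χ) :
    ∫ q : Sc b (C.cf σ.X0), ⟪gsl P σ ρ g q • omU P g σ.X0 χ q.1,
        half b (C.cf σ.X0) κ φ q⟫_ℂ =
      ∫ u : Uk b (C.cf σ.X0), ⟪omU P g σ.X0 χ u, wf P σ ρ κ g φ u⟫_ℂ := by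
  have hgc : Continuous (gsl P σ ρ g) := (contDiff_gsl hρ hr g).continuous
  have hΦc : Continuous (half b (C.cf σ.X0) κ φ) := (contDiff_half hκ hφ).continuous
  have hΦs : HasCompactSupport (half b (C.cf σ.X0) κ φ) := hcs_half hκs
  have h1 : ∀ u : Uk b (C.cf σ.X0), ∫⁻ z, ENNReal.ofReal (gsl P σ ρ g (u, z) ^ 2) ≤ 1 := by
    intro u
    have i1 := (memLp_gsl (P := P) hr hg u).integrable_sq
    have i0 : ∀ z : Zs b (C.cf σ.X0), 0 ≤ gsl P σ ρ g (u, z) ^ 2 := fun z => sq_nonneg _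
    rw [← ofReal_integral_eq_lintegral_ofReal i1 (Eventually.of_forall i0),
      integral_gsl_sq hr hg u, ENNReal.ofReal_one]
  have hfib : ∀ u : Uk b (C.cf σ.X0),
      Integrable fun z => gsl P σ ρ g (u, z) • half b (C.cf σ.X0) κ φ (u, z) := by
    intro u
    have c1 : Continuous fun z : Zs b (C.cf σ.X0) =>
        gsl P σ ρ g (u, z) • half b (C.cf σ.X0) κ φ (u, z) :=
      (hgc.comp (by fun_prop)).smul (hΦc.comp (by fun_prop))
    refine c1.integrable_of_hasCompactSupport ?_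
    refine HasCompactSupport.of_support_subset_isCompact (hΦs.image continuous_snd) fun z hz => ?_
    refine ⟨(u, z), subset_tsupport _ fun h0 => hz ?_, rfl⟩
    simp only [h0, smul_zero]
  exact PairC424.integral_inner_fpr (ν := (volume : Measure (Uk b (C.cf σ.X0))))
    (μ := (volume : Measure (Zs b (C.cf σ.X0)))) (om' := fun u => omU P g σ.X0 χ u)
    hgc.measurable h1 (memLp_omU P hΨ (reg0 σ) hχ hχs hχB 2)
    (hΦc.memLp_of_hasCompactSupport hΦs) hfib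
    (fun u v w => pV_symm P _ v w) (Eventually.of_forall fun u => pV_omU hχB u)

/-- **The slice pairing is the pairing of the amplitudes.** -/
theorem slice_amp (hρ : ContDiff ℝ ∞ ρ) (hr : ∀ X, ‖ρ X - σ.X0‖ < σ.r) (hκ : Cut σ κ)
    (hg : 0 < g) (hΨ : Continuous (P.Psi g)) (hφ : IsCoreVec b R φ) (hχ : Continuous χ)
    (hχs : HasCompactSupport χ) (hχB : BSupp χ) :
    ∫ q : Sc b (C.cf σ.X0), ⟪gsl P σ ρ g q • omU P g σ.X0 χ q.1,
        half b (C.cf σ.X0) κ φ q⟫_ℂ =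
      ∫ X, ⟪(χ X : F), ampX P g (LocC8.wB P σ ρ κ g φ) X⟫_ℂ := by
  rw [slice_fpr hρ hr hκ.smooth hκ.supp hg hΨ hφ.1 hχ hχs hχB]
  have hw2 : MemLp (wf P σ ρ κ g φ) 2 volume :=
    (contDiff_wf hρ hr hκ hφ.1).continuous.memLp_of_hasCompactSupport (hcs_wf hκ.supp)
  have hint : Integrable fun u : Uk b (C.cf σ.X0) => ⟪omU P g σ.X0 χ u, wf P σ ρ κ g φ u⟫_ℂ :=
    PairC424.integrable_inner (memLp_omU P hΨ (reg0 σ) hχ hχs hχB 2) hw2
  rw [integral_uk (reg0 σ)]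
  rw [integrable_uk (reg0 σ)] at hint
  simp only [omU_uE] at hint ⊢
  rw [Measure.volume_eq_prod] at hint ⊢
  rw [integral_prod _ hint, ← integral_add_left_eq_self
    (fun X => ⟪(χ X : F), ampX P g (LocC8.wB P σ ρ κ g φ) X⟫_ℂ) σ.X0]
  refine integral_congr_ae (Eventually.of_forall fun X' => ?_)
  simp only
  rw [inner_ampX (wfam hρ hr hκ hφ) hΨ (χ (σ.X0 + X')).2]
  refine integral_congr_ae (Eventually.of_forall fun Y => ?_)
  simp only
  unfold LocC8.wB omq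
  rw [add_sub_cancel_left]

end amp

/-! ## (I4) -/

/-- **(I4)** The amplitudes of a null sequence are weakly null. -/
theorem i4In (P : TPack C M R G) (σ : Sl C) {ρ : Pos p → Pos p} (hρ : ContDiff ℝ ∞ ρ)
    (hr : ∀ X, ‖ρ X - σ.X0‖ < σ.r) {κ : Sc b (C.cf σ.X0) → ℝ} (hκ : Cut σ κ) {r₁ : ℝ}
    (hr₁ : r₁ < σ.r / 4) (hsupp : ∀ x, κ x ≠ 0 → ‖(x.1 : Cfg N) + x.2‖ ≤ r₁)
    (hρ1 : ∀ X, ‖X - σ.X0‖ ≤ r₁ → ρ X = X) (m : ℝ) : I4In P σ ρ κ m := by
  intro g φ hn χ hχ hχs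
  have hrpos := σ.pos
  -- positions over the support of `κ`
  have hpos : ∀ (u : Uk b (C.cf σ.X0)) (z : Zs b (C.cf σ.X0)), κ (u, z) ≠ 0 →
      ‖posu σ (u : Cfg N) - σ.X0‖ ≤ r₁ := by
    intro u z h
    have h1 := hsupp _ h
    have h2 : posu σ (u : Cfg N) - σ.X0 = C.cfT ((u : Cfg N) + z) := by
      unfold posu
      rw [PairD424.cfT_add C ((Zs_eq (reg0 σ)).le z.2).1, add_sub_cancel_left]
    rw [h2]
    exact (cfT_norm_le _).trans h1
  have hks : ks κ ⊆ Metric.closedBall σ.X0 r₁ := by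
    rintro _ ⟨_, ⟨x, hx, rfl⟩, rfl⟩
    have h1 : tsupport κ ⊆ (fun x : Sc b (C.cf σ.X0) => posu σ (x.1 : Cfg N)) ⁻¹'
        Metric.closedBall σ.X0 r₁ := by
      refine closure_minimal (fun x hx => ?_) (Metric.isClosed_closedBall.preimage
        ((contDiff_posu σ).continuous.comp continuous_fst))
      exact mem_closedBall_iff_norm.2 (hpos x.1 x.2 hx)
    exact h1 hx
  -- cut the test function off
  obtain ⟨θ, hθ, hθs, hθO, hθ1⟩ := exists_theta (isCompact_ks hκ.supp)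
    (O := {X | C.BReg X} ∩ Metric.ball σ.X0 (σ.r / 4)) (C.isOpen_breg.inter Metric.isOpen_ball)
    fun X hX => ⟨ks_breg hκ hX, Metric.closedBall_subset_ball hr₁ (hks hX)⟩
  have hsub : tsupport (fun X => ((θ X : ℝ) : ℂ) • χ X) ⊆ tsupport θ := by
    refine closure_minimal (fun X hX => subset_tsupport _ fun h0 => hX ?_) (isClosed_tsupport _)
    simp only [h0, Complex.ofReal_zero, zero_smul]
  let χθ : Amp M G σ :=
    { fn := fun X => ((θ X : ℝ) : ℂ) • χ X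
      smooth := (Complex.ofRealCLM.contDiff.comp hθ).smul hχ
      supp := fun X hX => (hθO (hsub hX)).2
      off := fun X hX => (hθO (hsub hX)).1 }
  obtain ⟨χ', ε, hε, hest⟩ := PairF424.pair_cut P σ (L := Uk b (C.cf σ.X0))
    (Z := Zs b (C.cf σ.X0)) (Uk_eq (reg0 σ)) (Zs_eq (reg0 σ)) χθ hκ.smooth hκ.supp
    (ρ := r₁) (by linarith) fun q hq => by
      by_contra h
      exact absurd (hsupp q h) (not_le.2 hq)
  obtain ⟨C0, hC0⟩ := hn.en
  have hφ2 : ∀ j, ∫ x, ‖φ j x‖ ^ 2 ≤ C0 := fun j => by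
    have h1 := hC0 j
    have h2 : 0 ≤ qf b M G (g j) m (φ j) := by
      unfold qf
      positivity
    unfold En at h1
    linarith
  have hA := hn.pair ⟨σ, χ'⟩
  have hlim : Tendsto (fun j => ε (g j) * Real.sqrt C0) atTop (𝓝 0) := by
    simpa using (hε.comp hn.g_top).mul_const (Real.sqrt C0)
  have hεp : ∀ᶠ j in atTop, ‖(∫ X, ⟪(χ X : F),
      ampX P (g j) (LocC8.wB P σ ρ κ (g j) (φ j)) X⟫_ℂ) -
      ∫ x, ⟪Tgen P σ (g j) χ'.fn x, φ j x⟫_ℂ‖ ≤ |ε (g j)| * Real.sqrt C0 := by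
    filter_upwards [hn.g_top.eventually hest, hn.g_top.eventually P.Psi_smooth,
      hn.g_top.eventually_gt_atTop 0] with j h1 h2 h3
    have hcore := hn.core j
    have h4 := h1 (φ j) hcore.1.continuous hcore.2.2
      (hcore.1.continuous.memLp_of_hasCompactSupport hcore.2.1)
    have h5 := slice_amp (P := P) hρ hr hκ h3 h2.continuous hcore χθ.smooth.continuous
      χθ.compact χθ.off
    have h6 : ∫ X, ⟪(χ X : F), ampX P (g j) (LocC8.wB P σ ρ κ (g j) (φ j)) X⟫_ℂ =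
        ∫ X, ⟪(χθ.fn X : F), ampX P (g j) (LocC8.wB P σ ρ κ (g j) (φ j)) X⟫_ℂ := by
      refine integral_congr_ae (Eventually.of_forall fun X => ?_)
      simp only
      by_cases hX : X ∈ ks κ
      · have h7 : χθ.fn X = χ X := by
          show ((θ X : ℝ) : ℂ) • χ X = χ X
          rw [hθ1 X hX, Complex.ofReal_one, one_smul]
        rw [h7]
      · rw [ampX_off (wfam hρ hr hκ hcore) h2.continuous hX, inner_zero_right, inner_zero_right]
    have h8 : ∫ q : Sc b (C.cf σ.X0), ⟪gsl P σ ρ (g j) q • omU P (g j) σ.X0 χθ.fn q.1,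
        half b (C.cf σ.X0) κ (φ j) q⟫_ℂ =
        ∫ q : Uk b (C.cf σ.X0) × Zs b (C.cf σ.X0),
          ⟪PairD424.gsn P σ (g j) (σ.X0 + C.cfT q.1) q.2 • PairD424.om P σ (g j) χθ.fn q.1,
          κ q • φ j (C.cf σ.X0 + ((q.1 : Cfg N) + q.2))⟫_ℂ := by
      refine integral_congr_ae (Eventually.of_forall fun q => ?_)
      simp only
      by_cases hq : κ q = 0
      · rw [half_eq_zero hq, hq, zero_smul, inner_zero_right, inner_zero_right]
      · have h9 : ‖posu σ (q.1 : Cfg N) - σ.X0‖ ≤ r₁ := hpos q.1 q.2 hq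
        have h10 : gsl P σ ρ (g j) q = PairD424.gsn P σ (g j) (σ.X0 + C.cfT q.1) q.2 := by
          have h11 := gsl_eq P σ (ρ := ρ) h3 (u := q.1) (hr _) q.2
          rw [hρ1 _ h9] at h11
          exact h11
        rw [h10]
        unfold half
        rw [add_assoc]
        rfl
    rw [h6, ← h5, h8, norm_sub_rev]
    refine h4.trans ?_
    exact mul_le_mul (le_abs_self _) (Real.sqrt_le_sqrt (hφ2 j)) (Real.sqrt_nonneg _)
      (abs_nonneg _)
  have hlim2 : Tendsto (fun j => |ε (g j)| * Real.sqrt C0) atTop (𝓝 0) := by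
    have := (hε.comp hn.g_top).abs.mul_const (Real.sqrt C0)
    simpa using this
  have hd := squeeze_zero_norm' hεp hlim2
  have := hd.add hA
  simpa using this

end Crest.Agent.R330.I4245

end
end

-- ▼ part R330/I1In_342
section

/-!
# Row 330, S9-LOC (helper342): the inputs of `LocE_8` which come from Lemma R

* `r2k` : all the energies of `half b c κ0 φ` are `≤ K En`.
* `i1In` : `LocD8.I1In`, for every small radial cut-off and every retraction.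
* `mass0` : `∫ ‖half b c κ0 φ‖² ≤ K En`.
-/

set_option autoImplicit false
set_option linter.unusedSectionVars false
set_option maxSynthPendingDepth 3

open MeasureTheory Filter Topology Crest.MathPhysics.MatrixQM Set
open Crest.Agent.R330.IBP837 Crest.Agent.R330.Defs478 Crest.Agent.R330.Frame839
open Crest.Agent.R330.LS839 Crest.Agent.R330.Clus839 Crest.Agent.R330.Bind6839
open Crest.Agent.R330.LemA342 Crest.Agent.R330.LemC342 Crest.Agent.R330.SlQE87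
open Crest.Agent.R330.LemR342 Crest.Agent.R330.TDef414 Crest.Agent.R330.FactI161
open Crest.Agent.R330.TrialSys796 (En)
open scoped ContDiff InnerProductSpace ENNReal

noncomputable section

namespace Crest.Agent.R330.I1In342

variable {N p : ℕ} {b : ColorBasis N} {S : Type} [Group S] [Fintype S] {C : Chn b p S}
  {F : Type*} [NormedAddCommGroup F] [InnerProductSpace ℂ F] [FiniteDimensional ℂ F]
  {M : FermionRep N F} {R : GaugeAction b M} {G : GammaNine}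


/-- **(I1) of the capture estimate.** -/
theorem i1In_of [Nontrivial F] (P : TPack C M R G) (σ : Sl C) {m : ℝ} (hm : 0 ≤ m)
    (hm1 : m ≤ 1) : ∃ s0 : ℝ, 0 < s0 ∧ ∀ s : ℝ, 0 < s → s ≤ s0 →
      ∀ κ0 : Sc b (C.cf σ.X0) → ℝ, ContDiff ℝ ∞ κ0 → HasCompactSupport κ0 →
      (∀ x, s ^ 2 ≤ ‖x.1‖ ^ 2 + ‖x.2‖ ^ 2 → κ0 x = 0) →
      ∀ rt : Pos p → Pos p, (∀ X, ‖rt X - σ.X0‖ < σ.r) → (∀ X, ‖X - σ.X0‖ ≤ s → rt X = X) →
        LocD8.I1In P σ rt κ0 m := by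
  have hc : Comc b (C.cf σ.X0) := AFld984.comc_cf C σ.X0
  obtain ⟨r, B, ρ0, s1, K, hr0, hr, hB, hB0, hs1, hs1ρ, hρB, hK, H⟩ := lemR b M R G hc
  obtain ⟨Γ, hΓ, hv⟩ := FibP581.exists_par (F := F) b G M hc
  obtain ⟨hF, hO⟩ := H Γ hΓ hv
  refine ⟨min s1 (σ.r / 2), lt_min hs1 (half_pos σ.pos), ?_⟩
  intro s hs hss κ0 hκ hκc hκs rt hrt hrt'
  have hs1' : s ≤ s1 := hss.trans (min_le_left _ _)
  have hsr : s < σ.r := (hss.trans (min_le_right _ _)).trans_lt (half_lt_self σ.pos)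
  set e := stdOrthonormalBasis ℝ (Uk b (C.cf σ.X0))
  set v := stdOrthonormalBasis ℝ (Zs b (C.cf σ.X0))
  set t := stdOrthonormalBasis ℝ (Tn (actB b) (C.cf σ.X0))
  obtain ⟨D, hD, HD⟩ := (hO.mono hs.le hs1') _ _ _ e v t κ0 hκ hκc hκs
  refine ⟨K * D, by positivity, 1, one_pos, ?_⟩
  filter_upwards [eventually_ge_atTop (1 : ℝ)] with g hg φ hφ δ hδ _
  have hO' := HD g m hg hm hm1 φ hφ
  have hg0 : 0 < g := lt_of_lt_of_le one_pos hg
  have hE0 : 0 ≤ qf b M G g m φ + ∫ x, ‖φ x‖ ^ 2 :=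
    add_nonneg (mul_nonneg (by norm_num)
      (Finset.sum_nonneg fun _ _ => integral_nonneg fun _ => sq_nonneg _))
      (integral_nonneg fun x => by positivity)
  have hφ2 : ContDiff ℝ 2 φ := hφ.1.of_le ENat.LEInfty.out
  have hκ2 : ContDiff ℝ 2 κ0 := hκ.of_le ENat.LEInfty.out
  have key := I1_loc P σ hr0 hr hB hB0.le
    ((mul_le_mul_of_nonneg_left (hs1'.trans hs1ρ) hB0.le).trans hρB) hK
    (hF.mono (hs1'.trans hs1ρ)) hsr hrt hrt' v t hg0 (cd_half hκ2 hφ2) (cs_half hκc)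
    (fun x hx => ?_) (LocD8.isOpen_Sb σ δ).measurableSet (δ := δ) (fun u hu => le_of_lt hu)
  · refine key.trans ?_
    have h1 : K * (∑ α, ∫ x, ‖Bop b (C.cf σ.X0) M G g α v t (half b (C.cf σ.X0) κ0 φ) x‖ ^ 2
        ∂(volume.prod volume) + δ ^ 2 * (g * ∫ x, ‖half b (C.cf σ.X0) κ0 φ x‖ ^ 2
          ∂(volume.prod volume))) ≤
        K * (D * (qf b M G g m φ + ∫ x, ‖φ x‖ ^ 2) +
          δ ^ 2 * (g * (D * (qf b M G g m φ + ∫ x, ‖φ x‖ ^ 2)))) := by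
      have := hO'.sB
      have := hO'.s0
      gcongr
    refine h1.trans (le_of_eq ?_)
    unfold En
    ring
  · have h3 : κ0 x = 0 := by
      refine hκs x ?_
      have h4 : s ^ 2 ≤ ‖x.1‖ ^ 2 := pow_le_pow_left₀ hs.le hx.le 2
      nlinarith [sq_nonneg ‖x.2‖]
    show κ0 x • φ _ = 0
    rw [h3, zero_smul]

/-- **`I1In` for the radial cut-off.** -/
theorem i1In [Nontrivial F] (P : TPack C M R G) (σ : Sl C) {m : ℝ} (hm : 0 ≤ m) (hm1 : m ≤ 1) :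
    ∃ s0 : ℝ, 0 < s0 ∧ ∀ s : ℝ, 0 < s → s ≤ s0 → ∀ rt : Pos p → Pos p,
      (∀ X, ‖rt X - σ.X0‖ < σ.r) → (∀ X, ‖X - σ.X0‖ ≤ s → rt X = X) →
        LocD8.I1In P σ rt (HQ998.rad s) m := by
  obtain ⟨s0, hs0, H⟩ := i1In_of P σ hm hm1
  refine ⟨s0, hs0, fun s hs hss rt h1 h2 => H s hs hss _ (HQ998.contDiff_rad s)
    (HQ998.hcs_rad hs) (fun x hx => HQ998.rad_zero hs ?_) rt h1 h2⟩
  have h3 := HQ998.norm_sq_pt x
  by_contra hcon
  rw [not_le] at hcon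
  have h4 : ‖(x.1 : Cfg N) + x.2‖ ^ 2 < s ^ 2 := pow_lt_pow_left₀ hcon (norm_nonneg _) two_ne_zero
  linarith

end Crest.Agent.R330.I1In342

end
end

-- ▼ part R330/MassIn_879

/-!
# Row 330, S9-LOC (helper879): the mass inputs of the local capture estimate

* `mass_wf` : the fibre projection does not increase the mass.
* `mass_wB_eq` : the mass in block coordinates.
* `mass_sl` : the mass of a cut-off slice function is bounded by the mass of the core vector.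
* `massIn`, `massIn2` : the literal inputs of `LocD8.hb_soft`.
-/

set_option autoImplicit false
set_option linter.unusedSectionVars false

open MeasureTheory Filter Topology Crest.MathPhysics.MatrixQM
open scoped ContDiff InnerProductSpace ENNReal

noncomputable section

namespace Crest.Agent.R330.MassIn879

open Crest.Agent.R330.Defs478 Crest.Agent.R330.LS839 Crest.Agent.R330.Frame839
  Crest.Agent.R330.Clus839
  Crest.Agent.R330.Bind6839 Crest.Agent.R330.SlG944 Crest.Agent.R330.SlF944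
  Crest.Agent.R330.IBP837 Crest.Agent.R330.TDef414
  Crest.Agent.R330.LemA342 Crest.Agent.R330.FibProj837 Crest.Agent.R330.LocB8
  Crest.Agent.R330.LocC8 Crest.Agent.R330.LocD8
  Crest.Agent.R330.SlQE87 Crest.Agent.R330.TrialSys796
open Crest.Agent.R330.SlB314 (Nor Tan br)
open Crest.Agent.R330.SlM712 (SRad exists_SRad)

section sl

variable {N : ℕ} {b : ColorBasis N} {c : Cfg N}
  {F : Type*} [NormedAddCommGroup F] [InnerProductSpace ℂ F] [FiniteDimensional ℂ F]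
  {M : FermionRep N F} {R : GaugeAction b M}

/-- the mass of a cut-off slice function -/
theorem mass_sl {r0 C0 : ℝ} (H : SRad b c r0 C0) {s : ℝ} (hs0 : 0 ≤ s) (hs : s ≤ r0)
    {η : Sc b c → ℝ} (hη : Continuous η) (hηc : HasCompactSupport η)
    (hηs : ∀ x, s ^ 2 ≤ ‖x.1‖ ^ 2 + ‖x.2‖ ^ 2 → η x = 0) :
    ∃ D : ℝ, 0 ≤ D ∧ ∀ φ : Cfg N → F, IsCoreVec b R φ →
      (∫ u, ∫ z, ‖half b c η φ (u, z)‖ ^ 2) ≤ D * ∫ x, ‖φ x‖ ^ 2 := by
  obtain ⟨E, hE⟩ := hηc.exists_bound_of_continuous hη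
  obtain ⟨C₀, hC₀, hSl⟩ := LemR2302.sliceLe_Tb (volume : Measure (Uk b c))
    (volume : Measure (Zs b c)) H hs0 hs
  refine ⟨E ^ 2 * C₀, by positivity, fun φ hφ => ?_⟩
  have h2 := LemR2302.slice_sq hC₀ hSl hφ
  have hcont : Continuous (half b c η φ) := (contDiff_half (n := 0) (contDiff_zero.2 hη)
    (contDiff_zero.2 hφ.1.continuous)).continuous
  have hcs : HasCompactSupport (half b c η φ) := hcs_half hηc
  have hi : Integrable (fun q => ‖half b c η φ q‖ ^ 2)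
      ((volume : Measure (Uk b c)).prod (volume : Measure (Zs b c))) :=
    Amp837.integrable_normSq hcont hcs
  have h4 : ∫ x, ‖half b c η φ x‖ ^ 2 ∂((volume : Measure (Uk b c)).prod
      (volume : Measure (Zs b c))) ≤ E ^ 2 * (C₀ * (∫ x, ‖φ x‖ ^ 2) + 0 + 0) := by
    refine LemR2302.R2_one (LemR2302.measurableSet_Tb s) (sq_nonneg E) (P := fun _ => 0)
      (S := fun _ => 0) (fun x hx => ?_) (fun x hx => ?_) h2 ⟨integrable_zero _ _ _, by simp⟩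
      ⟨integrable_zero _ _ _, by simp⟩
    · unfold half
      rw [norm_smul, mul_pow, add_zero, add_zero]
      exact mul_le_mul_of_nonneg_right (pow_le_pow_left₀ (norm_nonneg _) (hE x) 2)
        (sq_nonneg _)
    · unfold half
      rw [hηs x (not_lt.1 hx), zero_smul]
  rw [integral_prod _ hi] at h4
  refine h4.trans (le_of_eq ?_)
  ring

end sl

variable {N p : ℕ} {b : ColorBasis N} {S : Type} [Group S] [Fintype S] {C : Chn b p S}
  {F : Type*} [NormedAddCommGroup F] [InnerProductSpace ℂ F] [FiniteDimensional ℂ F]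
  {M : FermionRep N F} {R : GaugeAction b M} {G : GammaNine}

section wf

variable {P : TPack C M R G} {σ : Sl C} {ρ : Pos p → Pos p} {κ0 κ : Sc b (C.cf σ.X0) → ℝ}
  {ϑ : Pos p → ℝ} {g : ℝ} {φ : Cfg N → F}

/-- the fibre projection does not increase the mass -/
theorem mass_wf (hρ : ContDiff ℝ ∞ ρ) (hr : ∀ X, ‖ρ X - σ.X0‖ < σ.r) (hκ : ContDiff ℝ ∞ κ)
    (hs : HasCompactSupport κ) (hφ : ContDiff ℝ ∞ φ) (hg : 0 < g) :
    ∫ u, ‖wf P σ ρ κ g φ u‖ ^ 2 ≤ ∫ u, ∫ z, ‖half b (C.cf σ.X0) κ φ (u, z)‖ ^ 2 := by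
  have hc : Continuous (half b (C.cf σ.X0) κ φ) := (contDiff_half hκ hφ).continuous
  have h1 := integral_fpr_sq_le (ν := (volume : Measure (Uk b (C.cf σ.X0))))
    (μ := (volume : Measure (Zs b (C.cf σ.X0)))) (gs := gsl P σ ρ g)
    (p := fun u => pV P (posu σ (u : Cfg N))) (contDiff_gsl hρ hr g).continuous hc (hcs_half hs)
    zero_le_one (fun u _ => ⟨memLp_gsl hr hg u, (integral_gsl_sq hr hg u).le⟩)
    (fun u v => norm_pV_le P _ v)
  rw [one_mul, integral_prod _ (Amp837.integrable_normSq hc (hcs_half hs))] at h1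
  exact h1

/-- the mass in block coordinates -/
theorem mass_wB_eq (hρ : ContDiff ℝ ∞ ρ) (hr : ∀ X, ‖ρ X - σ.X0‖ < σ.r) (hκ : Cut σ κ)
    (hφ : ContDiff ℝ ∞ φ) :
    (∫ X, ∫ Y : C.Blk, ‖LocC8.wB P σ ρ κ g φ X Y‖ ^ 2) = ∫ u, ‖wf P σ ρ κ g φ u‖ ^ 2 := by
  have hc : Continuous fun u => ‖wf P σ ρ κ g φ u‖ ^ 2 :=
    (contDiff_wf hρ hr hκ hφ).continuous.norm.pow 2
  have hs : HasCompactSupport fun u => ‖wf P σ ρ κ g φ u‖ ^ 2 :=
    (hcs_wf (P := P) (ρ := ρ) (g := g) (φ := φ) hκ.supp).norm.comp_left (g := fun t : ℝ => t ^ 2)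
      (by norm_num)
  have hi : Integrable fun u => ‖wf P σ ρ κ g φ u‖ ^ 2 := hc.integrable_of_hasCompactSupport hs
  rw [PairT245.integral_uk (BrT5658.reg0 σ)]
  have hi2 := (PairT245.integrable_uk (BrT5658.reg0 σ) _).1 hi
  rw [Measure.volume_eq_prod, integral_prod _ hi2]
  rw [← integral_add_right_eq_self (fun X => ∫ Y : C.Blk, ‖LocC8.wB P σ ρ κ g φ X Y‖ ^ 2) σ.X0]
  refine integral_congr_ae (Eventually.of_forall fun X' => ?_)
  simp only
  refine integral_congr_ae (Eventually.of_forall fun Y => ?_)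
  simp only
  unfold LocC8.wB
  rw [add_sub_cancel_right]

theorem le_En (g m : ℝ) (φ : Cfg N → F) : ∫ x, ‖φ x‖ ^ 2 ≤ En b M G g m φ := by
  unfold En
  have : 0 ≤ qf b M G g m φ := by
    unfold qf
    positivity
  linarith

end wf

section main

variable {P : TPack C M R G} {σ : Sl C} {ρ : Pos p → Pos p} {κ0 κ : Sc b (C.cf σ.X0) → ℝ}
  {ϑ : Pos p → ℝ}

/-- the mass of the cut-off slice function -/
theorem massIn2 {r0 C0 : ℝ} (H : SRad b (C.cf σ.X0) r0 C0) {s : ℝ} (hs0 : 0 ≤ s) (hs : s ≤ r0)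
    (hη : Continuous κ0) (hηc : HasCompactSupport κ0)
    (hηs : ∀ x : Sc b (C.cf σ.X0), s ^ 2 ≤ ‖x.1‖ ^ 2 + ‖x.2‖ ^ 2 → κ0 x = 0) (m : ℝ) :
    ∃ D : ℝ, 0 ≤ D ∧ ∀ g : ℝ, ∀ φ : Cfg N → F, IsCoreVec b R φ →
      (∫ u, ∫ z, ‖half b (C.cf σ.X0) κ0 φ (u, z)‖ ^ 2) ≤ D * En b M G g m φ := by
  obtain ⟨D, hD, h⟩ := mass_sl (R := R) H hs0 hs hη hηc hηs
  exact ⟨D, hD, fun g φ hφ => (h φ hφ).trans (mul_le_mul_of_nonneg_left (le_En g m φ) hD)⟩

/-- the mass of the fibre projection -/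
theorem massIn {r0 C0 : ℝ} (H : SRad b (C.cf σ.X0) r0 C0) {s : ℝ} (hs0 : 0 ≤ s) (hs : s ≤ r0)
    (hρ : ContDiff ℝ ∞ ρ) (hr : ∀ X, ‖ρ X - σ.X0‖ < σ.r) (hκ : Cut σ κ)
    (hηs : ∀ x : Sc b (C.cf σ.X0), s ^ 2 ≤ ‖x.1‖ ^ 2 + ‖x.2‖ ^ 2 → κ x = 0) (m : ℝ) :
    ∃ D : ℝ, 0 ≤ D ∧ ∀ g : ℝ, 0 < g → ∀ φ : Cfg N → F, IsCoreVec b R φ →
      (∫ X, ∫ Y : C.Blk, ‖LocC8.wB P σ ρ κ g φ X Y‖ ^ 2) ≤ D * En b M G g m φ := by
  obtain ⟨D, hD, h⟩ := massIn2 (R := R) (M := M) (G := G) H hs0 hs hκ.smooth.continuous hκ.supp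
    hηs m
  refine ⟨D, hD, fun g hg φ hφ => ?_⟩
  rw [mass_wB_eq hρ hr hκ hφ.1]
  exact (mass_wf hρ hr hκ.smooth hκ.supp hφ.1 hg).trans (h g φ hφ)

/-- eventual form, as consumed by `LocD8.hb_soft` -/
theorem massIn_ev {r0 C0 : ℝ} (H : SRad b (C.cf σ.X0) r0 C0) {s : ℝ} (hs0 : 0 ≤ s)
    (hs : s ≤ r0) (hρ : ContDiff ℝ ∞ ρ) (hr : ∀ X, ‖ρ X - σ.X0‖ < σ.r) (hκ : Cut σ κ)
    (hηs : ∀ x : Sc b (C.cf σ.X0), s ^ 2 ≤ ‖x.1‖ ^ 2 + ‖x.2‖ ^ 2 → κ x = 0) (m : ℝ) :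
    ∃ D : ℝ, 0 ≤ D ∧ ∀ᶠ g in atTop, ∀ φ : Cfg N → F, IsCoreVec b R φ →
      (∫ X, ∫ Y : C.Blk, ‖LocC8.wB P σ ρ κ g φ X Y‖ ^ 2) ≤ D * En b M G g m φ := by
  obtain ⟨D, hD, h⟩ := massIn (P := P) H hs0 hs hρ hr hκ hηs m
  exact ⟨D, hD, (eventually_gt_atTop 0).mono h⟩

/-- **everything with one radius**: for `κ0` supported in the small ball of the slice, the mass of
`half κ0 φ` and the mass of the fibre projection of `half κ φ` for every regular cut-off `κ`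
supported in the same ball. -/
theorem exists_mass (C : Chn b p S) (M : FermionRep N F) (R : GaugeAction b M) (G : GammaNine)
    (X0 : Pos p) : ∃ s : ℝ, 0 < s ∧ ∀ (s' : ℝ), 0 < s' → s' ≤ s →
    ∀ σ : Sl C, σ.X0 = X0 → ∀ m : ℝ,
    (∀ κ0 : Sc b (C.cf σ.X0) → ℝ, Continuous κ0 → HasCompactSupport κ0 →
      (∀ x : Sc b (C.cf σ.X0), s' ^ 2 ≤ ‖x.1‖ ^ 2 + ‖x.2‖ ^ 2 → κ0 x = 0) →
      ∃ D : ℝ, 0 ≤ D ∧ ∀ g : ℝ, ∀ φ : Cfg N → F, IsCoreVec b R φ →
        (∫ u, ∫ z, ‖half b (C.cf σ.X0) κ0 φ (u, z)‖ ^ 2) ≤ D * En b M G g m φ) ∧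
    (∀ (P : TPack C M R G) (ρ : Pos p → Pos p) (κ : Sc b (C.cf σ.X0) → ℝ),
      ContDiff ℝ ∞ ρ → (∀ X, ‖ρ X - σ.X0‖ < σ.r) → Cut σ κ →
      (∀ x : Sc b (C.cf σ.X0), s' ^ 2 ≤ ‖x.1‖ ^ 2 + ‖x.2‖ ^ 2 → κ x = 0) →
      ∃ D : ℝ, 0 ≤ D ∧ ∀ᶠ g in atTop, ∀ φ : Cfg N → F, IsCoreVec b R φ →
        (∫ X, ∫ Y : C.Blk, ‖LocC8.wB P σ ρ κ g φ X Y‖ ^ 2) ≤ D * En b M G g m φ) := by
  obtain ⟨r0, C0, H⟩ := exists_SRad (b := b) (C.cf X0)
  refine ⟨r0, H.pos, fun s' hs0 hs σ hσ m => ?_⟩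
  subst hσ
  exact ⟨fun κ0 h1 h2 h3 => massIn2 H hs0.le hs h1 h2 h3 m,
    fun P ρ κ h1 h2 h3 h4 => massIn_ev H hs0.le hs h1 h2 h3 h4 m⟩


end main

end Crest.Agent.R330.MassIn879

end
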