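import Mathlib
import Crest.Prelude.Def_MatrixModel
import Crest.Agent.R330.SDefs_726
import Crest.Agent.R330.IBP_837
import Crest.Agent.R330.Col_962
import Crest.Agent.R330.Gam_962

-- ▼ part R330/Sym_613
section

/-!
# Row 330, S13.SYM (helper613): the one-parameter spin rotations `U_a(t)` — algebra
-/

set_option autoImplicit false

open MeasureTheory Filter Topology
open scoped ContDiff InnerProductSpace ENNReal
open Crest.MathPhysics.MatrixQM
open Crest.Agent.R330.SDefs726

noncomputable section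

namespace Crest.Agent.R330.Sym613

/-! ### 1. A conjugation lemma in Banach algebras -/

section General

variable {𝔸 : Type*} [NormedRing 𝔸] [NormedAlgebra ℝ 𝔸] [CompleteSpace 𝔸]

omit [CompleteSpace 𝔸] in
theorem exp_zero_smul (B : 𝔸) : NormedSpace.exp ((0 : ℝ) • B) = 1 := by
  rw [zero_smul, NormedSpace.exp_zero]

/-- one-parameter group law -/
theorem exp_add_smul (B : 𝔸) (s t : ℝ) :
    NormedSpace.exp ((s + t) • B) = NormedSpace.exp (s • B) * NormedSpace.exp (t • B) := by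
  let _ : NormedAlgebra ℚ 𝔸 := NormedAlgebra.restrictScalars ℚ ℝ 𝔸
  rw [add_smul]
  exact NormedSpace.exp_add_of_commute (((Commute.refl B).smul_left _).smul_right _)

theorem exp_mul_neg (B : 𝔸) (t : ℝ) :
    NormedSpace.exp (t • B) * NormedSpace.exp ((-t) • B) = 1 := by
  rw [← exp_add_smul, add_neg_cancel, exp_zero_smul]

/-- if `Θ' = B Θ - Θ B` then `e^{tB} Θ(0) = Θ(t) e^{tB}` -/
theorem conj_const (B : 𝔸) (Θ : ℝ → 𝔸) (h : ∀ t, HasDerivAt Θ (B * Θ t - Θ t * B) t) (t : ℝ) :
    NormedSpace.exp (t • B) * Θ 0 = Θ t * NormedSpace.exp (t • B) := by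
  have hneg : ∀ u : ℝ, HasDerivAt (fun u : ℝ => NormedSpace.exp ((-u) • B))
      (-(NormedSpace.exp ((-u) • B) * B)) u := by
    intro u
    have h1 := (hasDerivAt_exp_smul_const (𝕂 := ℝ) B (-u))
    have h2 := h1.scomp u (hasDerivAt_neg u)
    simpa [Function.comp_def] using h2
  have hpos : ∀ u : ℝ, HasDerivAt (fun u : ℝ => NormedSpace.exp (u • B))
      (B * NormedSpace.exp (u • B)) u := fun u => hasDerivAt_exp_smul_const' (𝕂 := ℝ) B u
  have hf : ∀ u : ℝ, HasDerivAt (fun u : ℝ => NormedSpace.exp ((-u) • B) * Θ u *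
      NormedSpace.exp (u • B)) 0 u := by
    intro u
    have h1 := ((hneg u).mul (h u)).mul (hpos u)
    refine h1.congr_deriv ?_
    simp only [Pi.mul_apply]
    noncomm_ring
  have hc := is_const_of_deriv_eq_zero (fun u => (hf u).differentiableAt)
    (fun u => (hf u).deriv) t 0
  simp only [neg_zero, zero_smul, NormedSpace.exp_zero, one_mul, mul_one] at hc
  calc NormedSpace.exp (t • B) * Θ 0
      = NormedSpace.exp (t • B) * (NormedSpace.exp ((-t) • B) * Θ t *
        NormedSpace.exp (t • B)) := by rw [hc]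
    _ = (NormedSpace.exp (t • B) * NormedSpace.exp ((-t) • B)) * Θ t *
        NormedSpace.exp (t • B) := by noncomm_ring
    _ = _ := by rw [exp_mul_neg, one_mul]

end General

/-! ### 2. Spinor generators -/

section Spinor

open scoped Matrix

/-- `σ_a = (1/4) ∑ a_{li} γ^i γ^l` -/
def sg (G : GammaNine) (a : Matrix (Fin 9) (Fin 9) ℝ) : Matrix (Fin 16) (Fin 16) ℝ :=
  (1 / 4 : ℝ) • ∑ i : Fin 9, ∑ l : Fin 9, a l i • (G.γ i * G.γ l)

variable {G : GammaNine} {a : Matrix (Fin 9) (Fin 9) ℝ}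

theorem sg_transpose (ha : a.transpose = -a) : (sg G a).transpose = - sg G a := by
  have hs : ∀ i l, a i l = - a l i := fun i l => by
    have := congrFun (congrFun ha l) i
    simpa [Matrix.transpose_apply] using this
  unfold sg
  rw [Matrix.transpose_smul, Matrix.transpose_sum, ← smul_neg]
  congr 1
  simp only [Matrix.transpose_sum, Matrix.transpose_smul, Matrix.transpose_mul, G.symm]
  rw [Finset.sum_comm, ← Finset.sum_neg_distrib]
  refine Finset.sum_congr rfl fun i _ => ?_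
  rw [← Finset.sum_neg_distrib]
  refine Finset.sum_congr rfl fun l _ => ?_
  rw [hs i l, neg_smul]

theorem gam_comm (i l k : Fin 9) : (G.γ i * G.γ l) * G.γ k - G.γ k * (G.γ i * G.γ l) =
    (if l = k then (2 : ℝ) • G.γ i else 0) - (if i = k then (2 : ℝ) • G.γ l else 0) := by
  have h1 := G.clifford l k
  have h2 := G.clifford i k
  have e : (G.γ i * G.γ l) * G.γ k - G.γ k * (G.γ i * G.γ l) =
      G.γ i * (G.γ l * G.γ k + G.γ k * G.γ l) - (G.γ i * G.γ k + G.γ k * G.γ i) * G.γ l := by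
    noncomm_ring
  rw [e, h1, h2]
  congr 1
  · split_ifs
    · rw [two_smul, mul_two]
    · rw [mul_zero]
  · split_ifs
    · rw [two_smul, two_mul]
    · rw [zero_mul]

theorem sg_comm (ha : a.transpose = -a) (k : Fin 9) :
    sg G a * G.γ k - G.γ k * sg G a = ∑ i, a k i • G.γ i := by
  have hs : ∀ i l, a i l = - a l i := fun i l => by
    have := congrFun (congrFun ha l) i
    simpa [Matrix.transpose_apply] using this
  have e : sg G a * G.γ k - G.γ k * sg G a = (1 / 4 : ℝ) • ∑ i, ∑ l, a l i •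
      ((G.γ i * G.γ l) * G.γ k - G.γ k * (G.γ i * G.γ l)) := by
    unfold sg
    simp only [smul_sub, Finset.sum_sub_distrib, Matrix.smul_mul, Matrix.mul_smul,
      Matrix.sum_mul, Matrix.mul_sum]
  rw [e]
  simp only [gam_comm, smul_sub, smul_ite, smul_zero, Finset.sum_sub_distrib,
    Finset.sum_ite_eq', Finset.mem_univ, if_true]
  have e2 : ∑ i : Fin 9, ∑ l : Fin 9, (if i = k then a l i • (2 : ℝ) • G.γ l else 0) =
      ∑ l, a l k • (2 : ℝ) • G.γ l := by
    rw [Finset.sum_comm]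
    refine Finset.sum_congr rfl fun l _ => ?_
    rw [Finset.sum_ite_eq' Finset.univ k]
    simp
  rw [e2, Finset.smul_sum, Finset.smul_sum, ← Finset.sum_sub_distrib]
  refine Finset.sum_congr rfl fun i _ => ?_
  rw [hs i k, smul_smul, smul_smul, smul_smul, smul_smul, ← sub_smul]
  congr 1
  ring

end Spinor

/-! ### 3. Exponentials of real antisymmetric matrices -/

/-- `exp (t a)` -/
def me {n : Type*} [Fintype n] [DecidableEq n] (a : Matrix n n ℝ) (t : ℝ) : Matrix n n ℝ :=
  NormedSpace.exp (t • a)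

section MatExp

open scoped Matrix Matrix.Norms.Operator

variable {n : Type*} [Fintype n] [DecidableEq n]

theorem me_zero (a : Matrix n n ℝ) : me a 0 = 1 := exp_zero_smul a

theorem me_add (a : Matrix n n ℝ) (s t : ℝ) : me a (s + t) = me a s * me a t :=
  exp_add_smul a s t

theorem me_mul_neg (a : Matrix n n ℝ) (t : ℝ) : me a t * me a (-t) = 1 := exp_mul_neg a t

theorem me_neg_mul (a : Matrix n n ℝ) (t : ℝ) : me a (-t) * me a t = 1 := by
  have := me_mul_neg a (-t)
  rwa [neg_neg] at this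

theorem me_transpose {a : Matrix n n ℝ} (ha : aᵀ = -a) (t : ℝ) : (me a t)ᵀ = me a (-t) := by
  unfold me
  rw [← Matrix.exp_transpose, Matrix.transpose_smul, ha, smul_neg, neg_smul]

theorem me_transpose_apply {a : Matrix n n ℝ} (ha : aᵀ = -a) (t : ℝ) (i j : n) :
    me a (-t) i j = me a t j i := by
  rw [← me_transpose ha]; rfl

theorem me_hasDerivAt (a : Matrix n n ℝ) (t : ℝ) (i j : n) :
    HasDerivAt (fun u => me a u i j) ((me a t * a) i j) t := by
  have h := hasDerivAt_exp_smul_const (𝕂 := ℝ) a t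
  have h2 := ((LinearMap.toContinuousLinearMap
    (Matrix.entryLinearMap ℝ ℝ i j)).hasFDerivAt.comp_hasDerivAt t h)
  exact h2

theorem me_hasDerivAt' (a : Matrix n n ℝ) (t : ℝ) (i j : n) :
    HasDerivAt (fun u => me a u i j) ((a * me a t) i j) t := by
  have h := hasDerivAt_exp_smul_const' (𝕂 := ℝ) a t
  have h2 := ((LinearMap.toContinuousLinearMap
    (Matrix.entryLinearMap ℝ ℝ i j)).hasFDerivAt.comp_hasDerivAt t h)
  exact h2

variable {G : GammaNine} {a : Matrix (Fin 9) (Fin 9) ℝ}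

/-- covariance of the gamma matrices under the spin rotation -/
theorem ss_gam (ha : a.transpose = -a) (t : ℝ) (k : Fin 9) :
    me (sg G a) t * G.γ k = (∑ i, me a t k i • G.γ i) * me (sg G a) t := by
  have h := conj_const (sg G a) (fun t => ∑ i, me a t k i • G.γ i) (fun u => ?_) t
  · have h0 : (∑ i, me a 0 k i • G.γ i) = G.γ k := by
      rw [me_zero]
      simp [Matrix.one_apply]
    simp only [h0] at h
    exact h
  · have h1 : HasDerivAt (fun t => ∑ i, me a t k i • G.γ i)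
        (∑ i, (me a u * a) k i • G.γ i) u :=
      HasDerivAt.fun_sum fun i _ => (me_hasDerivAt a u k i).smul_const _
    refine h1.congr_deriv ?_
    have e : sg G a * (∑ i, me a u k i • G.γ i) - (∑ i, me a u k i • G.γ i) * sg G a =
        ∑ i, me a u k i • (sg G a * G.γ i - G.γ i * sg G a) := by
      simp only [Matrix.mul_sum, Matrix.sum_mul, Matrix.mul_smul, Matrix.smul_mul, smul_sub,
        Finset.sum_sub_distrib]
    rw [e]
    simp only [sg_comm ha, Finset.smul_sum, smul_smul, Matrix.mul_apply, Finset.sum_smul]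
    rw [Finset.sum_comm]

end MatExp

/-! ### 4. The spin lift on `F` -/

section Lift

variable {N : ℕ} {F : Type*} [NormedAddCommGroup F] [InnerProductSpace ℂ F]
  {M : FermionRep N F} {G : GammaNine} {a : Matrix (Fin 9) (Fin 9) ℝ}

theorem sum5 {V ι : Type*} [AddCommMonoid V] [Fintype ι]
    (f : Fin 9 → Fin 9 → ι → Fin 16 → Fin 16 → V) :
    ∑ i, ∑ l, ∑ A, ∑ α, ∑ β, f i l A α β = ∑ A, ∑ α, ∑ β, ∑ i, ∑ l, f i l A α β := by
  have h : ∑ i, ∑ l, ∑ A, ∑ α, ∑ β, f i l A α β =
      ∑ p : Fin 9 × Fin 9, ∑ A, ∑ α, ∑ β, f p.1 p.2 A α β :=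
    (Fintype.sum_prod_type' (fun i l => ∑ A, ∑ α, ∑ β, f i l A α β)).symm
  rw [h, Finset.sum_comm]
  refine Finset.sum_congr rfl fun A _ => ?_
  rw [Finset.sum_comm]
  refine Finset.sum_congr rfl fun α _ => ?_
  rw [Finset.sum_comm]
  refine Finset.sum_congr rfl fun β _ => ?_
  exact Fintype.sum_prod_type' (fun i l => f i l A α β)

theorem Sp_eq (M : FermionRep N F) (G : GammaNine) (a : Matrix (Fin 9) (Fin 9) ℝ) :
    Sp M G a = (1 / 2 : ℂ) • ∑ A : Fin (N ^ 2 - 1), ∑ α : Fin 16, ∑ β : Fin 16,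
      ((sg G a α β : ℝ) : ℂ) • (M.θ α A ∘ₗ M.θ β A) := by
  unfold Sp
  have e : ∀ α β, ((sg G a α β : ℝ) : ℂ) = ∑ i : Fin 9, ∑ l : Fin 9,
      (1 / 4 : ℂ) * ((a l i : ℂ) * (((G.γ i * G.γ l) α β : ℝ) : ℂ)) := by
    intro α β
    unfold sg
    simp only [Matrix.smul_apply, Matrix.sum_apply, smul_eq_mul]
    push_cast
    simp only [Finset.mul_sum]
  simp only [e, Finset.smul_sum, Finset.sum_smul, smul_smul]
  rw [sum5]
  refine Finset.sum_congr rfl fun A _ => Finset.sum_congr rfl fun α _ =>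
    Finset.sum_congr rfl fun β _ => Finset.sum_congr rfl fun i _ =>
    Finset.sum_congr rfl fun l _ => ?_
  congr 1
  ring

/-- product of two generators against a third: `[θ_α^A θ_β^A, θ_γ^C]` -/
theorem th_comm (A C : Fin (N ^ 2 - 1)) (α β γ : Fin 16) :
    (M.θ α A ∘ₗ M.θ β A) ∘ₗ M.θ γ C - M.θ γ C ∘ₗ (M.θ α A ∘ₗ M.θ β A) =
      (if β = γ ∧ A = C then M.θ α A else 0) - (if α = γ ∧ A = C then M.θ β A else 0) := by
  have h1 := M.anticomm β A γ C
  have h2 := M.anticomm α A γ C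
  have e : (M.θ α A ∘ₗ M.θ β A) ∘ₗ M.θ γ C - M.θ γ C ∘ₗ (M.θ α A ∘ₗ M.θ β A) =
      M.θ α A ∘ₗ (M.θ β A ∘ₗ M.θ γ C + M.θ γ C ∘ₗ M.θ β A) -
      (M.θ α A ∘ₗ M.θ γ C + M.θ γ C ∘ₗ M.θ α A) ∘ₗ M.θ β A := by
    ext v
    simp only [LinearMap.sub_apply, LinearMap.add_apply, LinearMap.comp_apply, map_add]
    abel
  rw [e, h1, h2]
  congr 1
  · split_ifs
    · rw [LinearMap.comp_id]
    · rw [LinearMap.comp_zero]
  · split_ifs
    · rw [LinearMap.id_comp]
    · rw [LinearMap.zero_comp]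

theorem Sp_comm (ha : a.transpose = -a) (γ : Fin 16) (C : Fin (N ^ 2 - 1)) :
    Sp M G a ∘ₗ M.θ γ C - M.θ γ C ∘ₗ Sp M G a =
      ∑ α, ((sg G a α γ : ℝ) : ℂ) • M.θ α C := by
  have hs : ∀ α β, sg G a α β = - sg G a β α := fun α β => by
    have := congrFun (congrFun (sg_transpose (G := G) ha) β) α
    simpa [Matrix.transpose_apply] using this
  have e : Sp M G a ∘ₗ M.θ γ C - M.θ γ C ∘ₗ Sp M G a =
      (1 / 2 : ℂ) • ∑ A : Fin (N ^ 2 - 1), ∑ α : Fin 16, ∑ β : Fin 16,
        ((sg G a α β : ℝ) : ℂ) • ((M.θ α A ∘ₗ M.θ β A) ∘ₗ M.θ γ C -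
          M.θ γ C ∘ₗ (M.θ α A ∘ₗ M.θ β A)) := by
    rw [Sp_eq]
    ext v
    simp only [LinearMap.sub_apply, LinearMap.comp_apply, LinearMap.smul_apply,
      LinearMap.sum_apply, map_sum, map_smul, smul_sub, Finset.sum_sub_distrib]
  rw [e]
  simp only [th_comm, smul_sub, Finset.sum_sub_distrib, smul_ite, smul_zero]
  have e1 : ∑ A : Fin (N ^ 2 - 1), ∑ α : Fin 16, ∑ β : Fin 16,
      (if β = γ ∧ A = C then ((sg G a α β : ℝ) : ℂ) • M.θ α A else 0) =
      ∑ α, ((sg G a α γ : ℝ) : ℂ) • M.θ α C := by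
    rw [Finset.sum_eq_single C]
    · refine Finset.sum_congr rfl fun α _ => ?_
      rw [Finset.sum_eq_single γ]
      · simp
      · intro β _ hβ; rw [if_neg (fun h => hβ h.1)]
      · intro h; exact absurd (Finset.mem_univ _) h
    · intro A _ hA
      refine Finset.sum_eq_zero fun α _ => Finset.sum_eq_zero fun β _ => ?_
      rw [if_neg (fun h => hA h.2)]
    · intro h; exact absurd (Finset.mem_univ _) h
  have e2 : ∑ A : Fin (N ^ 2 - 1), ∑ α : Fin 16, ∑ β : Fin 16,
      (if α = γ ∧ A = C then ((sg G a α β : ℝ) : ℂ) • M.θ β A else 0) =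
      ∑ β, ((sg G a γ β : ℝ) : ℂ) • M.θ β C := by
    rw [Finset.sum_eq_single C]
    · rw [Finset.sum_eq_single γ]
      · simp
      · intro α _ hα
        refine Finset.sum_eq_zero fun β _ => ?_
        rw [if_neg (fun h => hα h.1)]
      · intro h; exact absurd (Finset.mem_univ _) h
    · intro A _ hA
      refine Finset.sum_eq_zero fun α _ => Finset.sum_eq_zero fun β _ => ?_
      rw [if_neg (fun h => hA h.2)]
    · intro h; exact absurd (Finset.mem_univ _) h
  rw [e1, e2, Finset.smul_sum, Finset.smul_sum, ← Finset.sum_sub_distrib]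
  refine Finset.sum_congr rfl fun α _ => ?_
  rw [hs γ α, smul_smul, smul_smul, ← sub_smul]
  congr 1
  push_cast
  ring

/-- the spin generator is skew-adjoint -/
theorem Sp_skew (ha : a.transpose = -a) (v w : F) :
    ⟪Sp M G a v, w⟫_ℂ = - ⟪v, Sp M G a w⟫_ℂ := by
  have hs : ∀ α β, sg G a α β = - sg G a β α := fun α β => by
    have := congrFun (congrFun (sg_transpose (G := G) ha) β) α
    simpa [Matrix.transpose_apply] using this
  rw [Sp_eq]
  simp only [LinearMap.smul_apply, LinearMap.sum_apply, LinearMap.comp_apply, inner_smul_left,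
    inner_smul_right, sum_inner, inner_sum, Complex.conj_ofReal]
  rw [← mul_neg, ← Finset.sum_neg_distrib]
  have h2 : (starRingEnd ℂ) (1 / 2 : ℂ) = 1 / 2 := by
    rw [map_div₀, map_one, Complex.conj_ofNat]
  rw [h2]
  congr 1
  refine Finset.sum_congr rfl fun A _ => ?_
  rw [Finset.sum_comm, ← Finset.sum_neg_distrib]
  refine Finset.sum_congr rfl fun α _ => ?_
  rw [← Finset.sum_neg_distrib]
  refine Finset.sum_congr rfl fun β _ => ?_
  rw [hs β α, M.selfAdjoint β A, M.selfAdjoint α A]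
  push_cast
  ring

end Lift

/-! ### 5. The group `exp (t S_a)` on `F` -/

section Grp

variable {N : ℕ} {F : Type*} [NormedAddCommGroup F] [InnerProductSpace ℂ F]
  [FiniteDimensional ℂ F]
  {M : FermionRep N F} {G : GammaNine} {a : Matrix (Fin 9) (Fin 9) ℝ}

theorem eS_zero : eS M G a 0 = 1 := by
  unfold eS
  rw [Complex.ofReal_zero, zero_smul, NormedSpace.exp_zero]

theorem eS_add (s t : ℝ) : eS M G a (s + t) = eS M G a s * eS M G a t := by
  unfold eS
  let _ : NormedAlgebra ℚ (F →L[ℂ] F) := NormedAlgebra.restrictScalars ℚ ℂ (F →L[ℂ] F)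
  rw [Complex.ofReal_add, add_smul]
  exact NormedSpace.exp_add_of_commute (((Commute.refl _).smul_left _).smul_right _)



theorem eS_apply_zero (v : F) : eS M G a 0 v = v := by
  rw [eS_zero]; rfl

theorem eS_apply_add (s t : ℝ) (v : F) : eS M G a (s + t) v = eS M G a s (eS M G a t v) := by
  rw [eS_add]; rfl

theorem eS_apply_neg (t : ℝ) (v : F) : eS M G a t (eS M G a (-t) v) = v := by
  rw [← eS_apply_add, add_neg_cancel, eS_apply_zero]

theorem eS_neg_apply (t : ℝ) (v : F) : eS M G a (-t) (eS M G a t v) = v := by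
  rw [← eS_apply_add, neg_add_cancel, eS_apply_zero]

theorem eS_hasDerivAt (t : ℝ) (v : F) :
    HasDerivAt (fun u : ℝ => eS M G a u v) (Sp M G a (eS M G a t v)) t := by
  have h1 := hasDerivAt_exp_smul_const' (𝕂 := ℂ) (𝔸 := F →L[ℂ] F)
    (LinearMap.toContinuousLinearMap (Sp M G a)) (t : ℂ)
  have h2 := (ContinuousLinearMap.apply ℂ F v).hasFDerivAt.comp_hasDerivAt (t : ℂ) h1
  have h3 : HasDerivAt (fun u : ℝ => eS M G a u v)
      (Complex.ofRealCLM 1 • (Sp M G a (eS M G a t v))) t :=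
    h2.scomp t (Complex.ofRealCLM.hasDerivAt (x := t))
  simpa using h3

theorem eS_continuous (v : F) : Continuous (fun u : ℝ => eS M G a u v) :=
  continuous_iff_continuousAt.2 fun t => (eS_hasDerivAt t v).continuousAt

/-- the spin lift is unitary -/
theorem eS_inner (ha : a.transpose = -a) (t : ℝ) (v w : F) :
    ⟪eS M G a t v, eS M G a t w⟫_ℂ = ⟪v, w⟫_ℂ := by
  have hd : ∀ u : ℝ, HasDerivAt (fun u => ⟪eS M G a u v, eS M G a u w⟫_ℂ) 0 u := by
    intro u
    refine ((eS_hasDerivAt u v).inner ℂ (eS_hasDerivAt u w)).congr_deriv ?_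
    rw [Sp_skew ha]
    ring
  have hc := is_const_of_deriv_eq_zero (fun u => (hd u).differentiableAt)
    (fun u => (hd u).deriv) t 0
  simp only [eS_apply_zero] at hc
  exact hc

theorem eS_norm (ha : a.transpose = -a) (t : ℝ) (v : F) : ‖eS M G a t v‖ = ‖v‖ := by
  have h := eS_inner (M := M) (G := G) ha t v v
  rw [inner_self_eq_norm_sq_to_K, inner_self_eq_norm_sq_to_K] at h
  have h2 : ‖eS M G a t v‖ ^ 2 = ‖v‖ ^ 2 := by exact_mod_cast h
  exact (sq_eq_sq₀ (norm_nonneg _) (norm_nonneg _)).1 h2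


/-- covariance of the Clifford generators under the spin lift -/
theorem eS_theta (ha : a.transpose = -a) (t : ℝ) (γ : Fin 16) (C : Fin (N ^ 2 - 1)) (v : F) :
    eS M G a t (M.θ γ C v) =
      ∑ α, ((me (sg G a) t α γ : ℝ) : ℂ) • M.θ α C (eS M G a t v) := by
  have key : ∀ w : F, ⟪eS M G a t w, ∑ α, ((me (sg G a) t α γ : ℝ) : ℂ) •
      M.θ α C (eS M G a t v)⟫_ℂ = ⟪w, M.θ γ C v⟫_ℂ := by
    intro w
    have hd : ∀ u : ℝ, HasDerivAt (fun u : ℝ => ⟪eS M G a u w,
        ∑ α, ((me (sg G a) u α γ : ℝ) : ℂ) • M.θ α C (eS M G a u v)⟫_ℂ) 0 u := by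
      intro u
      have hth : ∀ α, HasDerivAt (fun u : ℝ => M.θ α C (eS M G a u v))
          (M.θ α C (Sp M G a (eS M G a u v))) u := by
        intro α
        have h1 := ((LinearMap.toContinuousLinearMap (M.θ α C)).restrictScalars
          ℝ).hasFDerivAt.comp_hasDerivAt u (eS_hasDerivAt (M := M) (G := G) (a := a) u v)
        exact h1
      have hsum : HasDerivAt (fun u : ℝ => ∑ α, ((me (sg G a) u α γ : ℝ) : ℂ) •
          M.θ α C (eS M G a u v))
          (∑ α, (((me (sg G a) u α γ : ℝ) : ℂ) • M.θ α C (Sp M G a (eS M G a u v)) +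
            (((sg G a * me (sg G a) u) α γ : ℝ) : ℂ) • M.θ α C (eS M G a u v))) u := by
        refine HasDerivAt.fun_sum fun α _ => ?_
        exact ((me_hasDerivAt' (sg G a) u α γ).ofReal_comp).smul (hth α)
      refine ((eS_hasDerivAt u w).inner ℂ hsum).congr_deriv ?_
      rw [Sp_skew ha, ← sub_eq_add_neg, ← inner_sub_right]
      have e : (∑ α, (((me (sg G a) u α γ : ℝ) : ℂ) • M.θ α C (Sp M G a (eS M G a u v)) +
            (((sg G a * me (sg G a) u) α γ : ℝ) : ℂ) • M.θ α C (eS M G a u v))) -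
          Sp M G a (∑ α, ((me (sg G a) u α γ : ℝ) : ℂ) • M.θ α C (eS M G a u v)) = 0 := by
        set z := eS M G a u v with hz
        have h3 : ∀ δ, Sp M G a (M.θ δ C z) = M.θ δ C (Sp M G a z) +
            ∑ α, ((sg G a α δ : ℝ) : ℂ) • M.θ α C z := by
          intro δ
          have h4 := congrArg (fun L : F →ₗ[ℂ] F => L z) (Sp_comm (M := M) (G := G) ha δ C)
          simp only [LinearMap.sub_apply, LinearMap.comp_apply, LinearMap.sum_apply,
            LinearMap.smul_apply] at h4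
          rw [← h4]
          abel
        have h5 : ∑ α, (((sg G a * me (sg G a) u) α γ : ℝ) : ℂ) • M.θ α C z =
            ∑ δ, ((me (sg G a) u δ γ : ℝ) : ℂ) • ∑ α, ((sg G a α δ : ℝ) : ℂ) • M.θ α C z := by
          simp only [Finset.smul_sum, smul_smul]
          rw [Finset.sum_comm]
          refine Finset.sum_congr rfl fun α _ => ?_
          rw [← Finset.sum_smul]
          congr 1
          rw [Matrix.mul_apply]
          push_cast
          exact Finset.sum_congr rfl fun δ _ => mul_comm _ _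
        rw [map_sum]
        simp only [map_smul, h3, smul_add, Finset.sum_add_distrib]
        rw [h5]
        abel
      rw [e, inner_zero_right]
    have hc := is_const_of_deriv_eq_zero (fun u => (hd u).differentiableAt)
      (fun u => (hd u).deriv) t 0
    simp only [eS_apply_zero, me_zero] at hc
    rw [hc]
    simp [Matrix.one_apply]
  have h2 : ∀ z : F, ⟪z, eS M G a t (M.θ γ C v)⟫_ℂ =
      ⟪z, ∑ α, ((me (sg G a) t α γ : ℝ) : ℂ) • M.θ α C (eS M G a t v)⟫_ℂ := by
    intro z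
    have h3 := key (eS M G a (-t) z)
    rw [eS_apply_neg] at h3
    rw [h3, ← eS_inner (M := M) (G := G) ha t (eS M G a (-t) z) (M.θ γ C v), eS_apply_neg]
  exact ext_inner_left ℂ h2

end Grp

end Crest.Agent.R330.Sym613

end
end

-- ▼ part R330/Sym2_613
section

/-!
# Row 330, S13.SYM (helper613): the one-parameter spin rotations `U_a(t)` — geometry, core,
covariance of the supercharges
-/

set_option autoImplicit false

open MeasureTheory Filter Topology
open scoped ContDiff InnerProductSpace ENNReal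
open Crest.MathPhysics.MatrixQM
open Crest.Agent.R330.SDefs726

noncomputable section

namespace Crest.Agent.R330.Sym613

/-! ### 6. Rotations of configuration space -/

section Geo

variable {N : ℕ}

/-- `vf` as a linear map -/
def vfL (r : Matrix (Fin 9) (Fin 9) ℝ) : Cfg N →ₗ[ℝ] Cfg N where
  toFun := vf r
  map_add' x y := by
    ext ⟨i, A⟩
    simp [vf_apply, mul_add, Finset.sum_add_distrib]
  map_smul' c x := by
    ext ⟨i, A⟩
    simp only [vf_apply, PiLp.smul_apply, smul_eq_mul, RingHom.id_apply, Finset.mul_sum]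
    exact Finset.sum_congr rfl fun j _ => by ring

@[simp] theorem vfL_apply (r : Matrix (Fin 9) (Fin 9) ℝ) (x : Cfg N) : vfL r x = vf r x := rfl

theorem inner_vf (r : Matrix (Fin 9) (Fin 9) ℝ) (x y : Cfg N) :
    ⟪vf r x, y⟫_ℝ = ⟪x, vf r.transpose y⟫_ℝ := by
  simp only [PiLp.inner_apply, RCLike.inner_apply, conj_trivial, Fintype.sum_prod_type,
    vf_apply, Finset.sum_mul, Finset.mul_sum, Matrix.transpose_apply]
  rw [Finset.sum_comm]
  have h : ∀ A : Fin (N ^ 2 - 1), ∑ i, ∑ j, y (i, A) * (r i j * x (j, A)) =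
      ∑ j, ∑ i, y (i, A) * (r i j * x (j, A)) := fun A => Finset.sum_comm
  simp only [h]
  rw [Finset.sum_comm]
  refine Finset.sum_congr rfl fun j _ => Finset.sum_congr rfl fun A _ =>
    Finset.sum_congr rfl fun i _ => by ring

theorem norm_vf {r : Matrix (Fin 9) (Fin 9) ℝ} (hr : r.transpose * r = 1) (x : Cfg N) :
    ‖vf r x‖ = ‖x‖ := by
  have h : ⟪vf r x, vf r x⟫_ℝ = ⟪x, x⟫_ℝ := by
    rw [inner_vf, ← vf_mul, hr, vf_one]
  rw [real_inner_self_eq_norm_sq, real_inner_self_eq_norm_sq] at h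
  exact (sq_eq_sq₀ (norm_nonneg _) (norm_nonneg _)).1 h

variable {a : Matrix (Fin 9) (Fin 9) ℝ}

/-- the rotation `x ↦ exp (t a) x` as a linear isometry equivalence -/
def vfE (a : Matrix (Fin 9) (Fin 9) ℝ) (ha : a.transpose = -a) (t : ℝ) : Cfg N ≃ₗᵢ[ℝ] Cfg N where
  toFun := vf (me a t)
  invFun := vf (me a (-t))
  map_add' := (vfL (me a t)).map_add
  map_smul' := (vfL (me a t)).map_smul
  left_inv := fun x => by rw [← vf_mul, me_neg_mul, vf_one]
  right_inv := fun x => by rw [← vf_mul, me_mul_neg, vf_one]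
  norm_map' := norm_vf (by rw [me_transpose ha, me_neg_mul])

@[simp] theorem vfE_apply (ha : a.transpose = -a) (t : ℝ) (x : Cfg N) :
    vfE a ha t x = vf (me a t) x := rfl

theorem norm_vf_me (ha : a.transpose = -a) (t : ℝ) (x : Cfg N) : ‖vf (me a t) x‖ = ‖x‖ :=
  (vfE a ha t).norm_map x

theorem vf_mp (ha : a.transpose = -a) (t : ℝ) :
    MeasurePreserving (fun x : Cfg N => vf (me a t) x) volume volume :=
  (vfE a ha t).measurePreserving

theorem continuous_vf (r : Matrix (Fin 9) (Fin 9) ℝ) : Continuous (fun x : Cfg N => vf r x) :=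
  (vfL r).continuous_of_finiteDimensional

theorem contDiff_vf (r : Matrix (Fin 9) (Fin 9) ℝ) {n : WithTop ℕ∞} :
    ContDiff ℝ n (fun x : Cfg N => vf r x) :=
  (LinearMap.toContinuousLinearMap (vfL (N := N) r)).contDiff

theorem me_vf_zero (x : Cfg N) : vf (me a 0) x = x := by rw [me_zero, vf_one]

theorem me_vf_add (s t : ℝ) (x : Cfg N) : vf (me a (s + t)) x = vf (me a s) (vf (me a t) x) := by
  rw [me_add, vf_mul]

theorem vf_hasDerivAt (t : ℝ) (x : Cfg N) :
    HasDerivAt (fun u : ℝ => vf (me a u) x) (vf a (vf (me a t) x)) t := by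
  rw [← vf_mul]
  rw [hasDerivAt_iff_hasFDerivAt, ← hasFDerivWithinAt_univ, hasFDerivWithinAt_euclidean]
  rintro ⟨i, A⟩
  have h1 : HasDerivAt (fun u : ℝ => ∑ j, me a u i j * x (j, A))
      (∑ j, (a * me a t) i j * x (j, A)) t :=
    HasDerivAt.fun_sum fun j _ => (me_hasDerivAt' a t i j).mul_const _
  have h2 := h1.hasFDerivAt.hasFDerivWithinAt (s := Set.univ)
  refine h2.congr_fderiv ?_
  ext
  simp [vf_apply]

end Geo

/-! ### 7. `U_a(t)` preserves the core -/

section Core

variable {N : ℕ} {F : Type*} [NormedAddCommGroup F] [InnerProductSpace ℂ F]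
  [FiniteDimensional ℂ F]
  {b : ColorBasis N} {M : FermionRep N F} {R : GaugeAction b M} {G : GammaNine}
  {a : Matrix (Fin 9) (Fin 9) ℝ}

theorem U_apply (t : ℝ) (φ : Cfg N → F) (x : Cfg N) :
    U M G a t φ x = eS M G a t (φ (vf (me a t) x)) := rfl

theorem U_zero (φ : Cfg N → F) : U M G a 0 φ = φ := by
  funext x
  rw [U_apply, eS_apply_zero, me_vf_zero]

/-- (S5) group law -/
theorem U_add (s t : ℝ) (φ : Cfg N → F) : U M G a (s + t) φ = U M G a s (U M G a t φ) := by
  funext x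
  rw [U_apply, U_apply, U_apply, eS_apply_add, add_comm s t, me_vf_add]


theorem U_cancel_neg (t : ℝ) (φ : Cfg N → F) : U M G a t (U M G a (-t) φ) = φ := by
  rw [← U_add, add_neg_cancel, U_zero]

theorem act_vf (g : Matrix.specialUnitaryGroup (Fin N) ℂ) (r : Matrix (Fin 9) (Fin 9) ℝ)
    (x : Cfg N) : vf r (b.act g x) = b.act g (vf r x) := by
  ext ⟨i, A⟩
  simp only [vf_apply, Col962.act_apply, Finset.mul_sum]
  rw [Finset.sum_comm]
  exact Finset.sum_congr rfl fun j _ => Finset.sum_congr rfl fun l _ => by ring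

theorem rho_theta (g : Matrix.specialUnitaryGroup (Fin N) ℂ) (α : Fin 16)
    (A : Fin (N ^ 2 - 1)) (v : F) :
    R.ρ g (M.θ α A v) = ∑ B, (b.adjMat g B A : ℂ) • M.θ α B (R.ρ g v) := by
  have h := congrArg (fun L : F →ₗ[ℂ] F => L v) (R.intertwine g α A)
  simpa only [LinearMap.comp_apply, LinearMap.sum_apply, LinearMap.smul_apply] using h

/-- the spin generator commutes with the gauge action -/
theorem rho_Sp (g : Matrix.specialUnitaryGroup (Fin N) ℂ) (v : F) :
    R.ρ g (Sp M G a v) = Sp M G a (R.ρ g v) := by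
  rw [Sp_eq]
  simp only [LinearMap.smul_apply, LinearMap.sum_apply, LinearMap.comp_apply, map_smul, map_sum]
  congr 1
  have h1 : ∀ A α β, R.ρ g (M.θ α A (M.θ β A v)) = ∑ B, ∑ C,
      ((b.adjMat g B A * b.adjMat g C A : ℝ) : ℂ) • M.θ α B (M.θ β C (R.ρ g v)) := by
    intro A α β
    rw [rho_theta]
    refine Finset.sum_congr rfl fun B _ => ?_
    rw [rho_theta, map_sum, Finset.smul_sum]
    refine Finset.sum_congr rfl fun C _ => ?_
    rw [map_smul, smul_smul]
    push_cast
    rfl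
  simp only [h1]
  have h2 : ∀ α β : Fin 16, ∑ A, ∑ B, ∑ C,
      ((b.adjMat g B A * b.adjMat g C A : ℝ) : ℂ) • M.θ α B (M.θ β C (R.ρ g v)) =
      ∑ A, M.θ α A (M.θ β A (R.ρ g v)) := by
    intro α β
    rw [Finset.sum_comm]
    refine Finset.sum_congr rfl fun B _ => ?_
    rw [Finset.sum_comm]
    rw [Finset.sum_eq_single B]
    · rw [← Finset.sum_smul]
      have h3 := Col962.adjMat_orth' b g B B
      rw [if_pos rfl] at h3
      have h4 : ∑ A, ((b.adjMat g B A * b.adjMat g B A : ℝ) : ℂ) = 1 := by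
        rw [← Complex.ofReal_sum, h3, Complex.ofReal_one]
      rw [h4, one_smul]
    · intro C _ hC
      rw [← Finset.sum_smul]
      have h3 := Col962.adjMat_orth' b g B C
      rw [if_neg hC.symm] at h3
      have h4 : ∑ A, ((b.adjMat g B A * b.adjMat g C A : ℝ) : ℂ) = 0 := by
        rw [← Complex.ofReal_sum, h3, Complex.ofReal_zero]
      rw [h4, zero_smul]
    · intro h; exact absurd (Finset.mem_univ _) h
  have h5 : ∑ A, ∑ α, ∑ β, ((sg G a α β : ℝ) : ℂ) • ∑ B, ∑ C,
      ((b.adjMat g B A * b.adjMat g C A : ℝ) : ℂ) • M.θ α B (M.θ β C (R.ρ g v)) =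
      ∑ α, ∑ β, ((sg G a α β : ℝ) : ℂ) • ∑ A, ∑ B, ∑ C,
      ((b.adjMat g B A * b.adjMat g C A : ℝ) : ℂ) • M.θ α B (M.θ β C (R.ρ g v)) := by
    rw [Finset.sum_comm]
    refine Finset.sum_congr rfl fun α _ => ?_
    rw [Finset.sum_comm]
    refine Finset.sum_congr rfl fun β _ => ?_
    rw [Finset.smul_sum]
  rw [h5]
  simp only [h2, Finset.smul_sum]
  symm
  rw [Finset.sum_comm]
  refine Finset.sum_congr rfl fun α _ => ?_
  rw [Finset.sum_comm]

/-- the spin lift commutes with the gauge action -/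
theorem rho_eS (g : Matrix.specialUnitaryGroup (Fin N) ℂ) (t : ℝ) (v : F) :
    R.ρ g (eS M G a t v) = eS M G a t (R.ρ g v) := by
  have h1 : Commute (LinearMap.toContinuousLinearMap (R.ρ g))
      ((t : ℂ) • LinearMap.toContinuousLinearMap (Sp M G a)) := by
    refine Commute.smul_right ?_ _
    show _ * _ = _ * _
    ext w
    exact rho_Sp g w
  have h2 := Commute.exp_right h1
  have h3 := congrArg (fun L : F →L[ℂ] F => L v) h2.eq
  exact h3

theorem contDiff_U {n : WithTop ℕ∞} (t : ℝ) {φ : Cfg N → F} (h : ContDiff ℝ n φ) :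
    ContDiff ℝ n (U M G a t φ) :=
  ((eS M G a t).restrictScalars ℝ).contDiff.comp (h.comp (contDiff_vf _))

theorem hasCompactSupport_U (ha : a.transpose = -a) (t : ℝ) {φ : Cfg N → F}
    (h : HasCompactSupport φ) : HasCompactSupport (U M G a t φ) := by
  have h1 : HasCompactSupport (fun x : Cfg N => φ (vf (me a t) x)) :=
    h.comp_homeomorph (vfE a ha t).toHomeomorph
  exact h1.comp_left (g := fun v => eS M G a t v) (map_zero _)

/-- (S1) the core is preserved -/
theorem core_U (ha : a.transpose = -a) (t : ℝ) {φ : Cfg N → F} (h : IsCoreVec b R φ) :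
    IsCoreVec b R (U M G a t φ) := by
  refine ⟨contDiff_U t h.1, hasCompactSupport_U ha t h.2.1, fun g x => ?_⟩
  rw [U_apply, U_apply, act_vf, h.2.2, rho_eS]

end Core

/-! ### 8. Covariance of the charges -/

section Cov

variable {N : ℕ} {F : Type*} [NormedAddCommGroup F] [InnerProductSpace ℂ F]
  [FiniteDimensional ℂ F]
  {b : ColorBasis N} {M : FermionRep N F} {R : GaugeAction b M} {G : GammaNine}
  {a : Matrix (Fin 9) (Fin 9) ℝ}

/-- the orthogonal matrix acting on the index of the charges -/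
def ss (G : GammaNine) (a : Matrix (Fin 9) (Fin 9) ℝ) (t : ℝ) : Matrix (Fin 16) (Fin 16) ℝ :=
  me (sg G a) t

theorem ss_orth (ha : a.transpose = -a) (t : ℝ) : (ss G a t).transpose * ss G a t = 1 := by
  unfold ss
  rw [me_transpose (sg_transpose ha), me_neg_mul]


theorem theta_eS (ha : a.transpose = -a) (t : ℝ) (β : Fin 16) (A : Fin (N ^ 2 - 1)) (z : F) :
    M.θ β A (eS M G a t z) = ∑ δ, ((ss G a t β δ : ℝ) : ℂ) • eS M G a t (M.θ δ A z) := by
  have h1 := eS_theta (M := M) (G := G) ha (-t) β A (eS M G a t z)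
  rw [eS_neg_apply] at h1
  have h2 := congrArg (fun w => eS M G a t w) h1
  simp only [eS_apply_neg, map_sum, map_smul] at h2
  rw [h2]
  refine Finset.sum_congr rfl fun δ _ => ?_
  rw [me_transpose_apply (sg_transpose ha)]
  rfl

/-- Feynman slash -/
def slash (G : GammaNine) (p : Fin 9 → ℝ) : Matrix (Fin 16) (Fin 16) ℝ := ∑ i, p i • G.γ i

theorem ss_slash (ha : a.transpose = -a) (t : ℝ) (p : Fin 9 → ℝ) :
    ss G a t * slash G (fun i => ∑ j, me a t i j * p j) = slash G p * ss G a t := by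
  unfold slash ss
  rw [Matrix.mul_sum, Matrix.sum_mul]
  simp only [Matrix.mul_smul, ss_gam ha, Matrix.sum_mul, Matrix.smul_mul, Finset.smul_sum,
    smul_smul]
  rw [Finset.sum_comm]
  refine Finset.sum_congr rfl fun i _ => ?_
  rw [← Finset.sum_smul]
  congr 1
  have h1 : ∀ k, (∑ j, me a t k j * p j) * me a t k i = ∑ j, me a (-t) i k * me a t k j * p j := by
    intro k
    rw [Finset.sum_mul]
    refine Finset.sum_congr rfl fun j _ => ?_
    rw [me_transpose_apply ha]
    ring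
  simp only [h1]
  rw [Finset.sum_comm]
  have h2 : ∀ j, ∑ k, me a (-t) i k * me a t k j * p j = (if i = j then 1 else 0) * p j := by
    intro j
    rw [← Finset.sum_mul, ← Matrix.mul_apply, me_neg_mul, Matrix.one_apply]
  simp only [h2]
  simp

/-- `∑_{ij} p_i q_j γ^{ij}` -/
def slash2 (G : GammaNine) (p q : Fin 9 → ℝ) : Matrix (Fin 16) (Fin 16) ℝ :=
  ∑ i, ∑ j, (p i * q j) • G.γ2 i j

theorem slash2_eq (p q : Fin 9 → ℝ) :
    slash2 G p q = (1 / 2 : ℝ) • (slash G p * slash G q - slash G q * slash G p) := by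
  have h1 : slash G p * slash G q = ∑ i, ∑ j, (p i * q j) • (G.γ i * G.γ j) := by
    unfold slash
    rw [Matrix.sum_mul]
    refine Finset.sum_congr rfl fun i _ => ?_
    rw [Matrix.mul_sum]
    refine Finset.sum_congr rfl fun j _ => ?_
    rw [Matrix.smul_mul, Matrix.mul_smul, smul_smul]
  have h2 : slash G q * slash G p = ∑ i, ∑ j, (p i * q j) • (G.γ j * G.γ i) := by
    unfold slash
    rw [Matrix.mul_sum]
    refine Finset.sum_congr rfl fun i _ => ?_
    rw [Matrix.sum_mul]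
    refine Finset.sum_congr rfl fun j _ => ?_
    rw [Matrix.smul_mul, Matrix.mul_smul, smul_smul, mul_comm]
  rw [h1, h2, ← Finset.sum_sub_distrib, Finset.smul_sum]
  unfold slash2
  refine Finset.sum_congr rfl fun i _ => ?_
  rw [← Finset.sum_sub_distrib, Finset.smul_sum]
  refine Finset.sum_congr rfl fun j _ => ?_
  rw [← smul_sub, smul_comm]
  rfl

theorem ss_slash2 (ha : a.transpose = -a) (t : ℝ) (p q : Fin 9 → ℝ) :
    ss G a t * slash2 G (fun i => ∑ j, me a t i j * p j) (fun i => ∑ j, me a t i j * q j) =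
      slash2 G p q * ss G a t := by
  have hp := ss_slash (G := G) ha t p
  have hq := ss_slash (G := G) ha t q
  rw [slash2_eq, slash2_eq, Matrix.mul_smul, Matrix.smul_mul, mul_sub, sub_mul]
  congr 2
  · rw [← mul_assoc, hp, mul_assoc, hq, ← mul_assoc]
  · rw [← mul_assoc, hq, mul_assoc, hp, ← mul_assoc]

theorem wco_cov (ha : a.transpose = -a) (t : ℝ) (α δ : Fin 16) (A : Fin (N ^ 2 - 1))
    (x : Cfg N) : ∑ β, IBP837.wco b G α β A x * ss G a t β δ =
      ∑ β, ss G a t α β * IBP837.wco b G β δ A (vf (me a t) x) := by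
  have h0 : ∀ (y : Cfg N) (α β : Fin 16), IBP837.wco b G α β A y =
      ∑ B, ∑ C, 1 / 2 * b.structConst A B C *
        slash2 G (fun i => y (i, B)) (fun j => y (j, C)) α β := by
    intro y α β
    unfold IBP837.wco slash2
    refine Finset.sum_congr rfl fun B _ => Finset.sum_congr rfl fun C _ => ?_
    rw [Matrix.sum_apply, Finset.mul_sum]
    refine Finset.sum_congr rfl fun i _ => ?_
    rw [Matrix.sum_apply, Finset.mul_sum]
    refine Finset.sum_congr rfl fun j _ => ?_
    rw [Matrix.smul_apply, smul_eq_mul]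
    ring
  have hL : ∑ β, IBP837.wco b G α β A x * ss G a t β δ = ∑ B, ∑ C, 1 / 2 * b.structConst A B C *
      (slash2 G (fun i => x (i, B)) (fun j => x (j, C)) * ss G a t) α δ := by
    simp only [h0, Finset.sum_mul]
    rw [Finset.sum_comm]
    refine Finset.sum_congr rfl fun B _ => ?_
    rw [Finset.sum_comm]
    refine Finset.sum_congr rfl fun C _ => ?_
    rw [Matrix.mul_apply, Finset.mul_sum]
    exact Finset.sum_congr rfl fun β _ => by ring
  have hR : ∑ β, ss G a t α β * IBP837.wco b G β δ A (vf (me a t) x) =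
      ∑ B, ∑ C, 1 / 2 * b.structConst A B C *
      (ss G a t * slash2 G (fun i => vf (me a t) x (i, B)) (fun j => vf (me a t) x (j, C))) α δ := by
    simp only [h0, Finset.mul_sum]
    rw [Finset.sum_comm]
    refine Finset.sum_congr rfl fun B _ => ?_
    rw [Finset.sum_comm]
    refine Finset.sum_congr rfl fun C _ => ?_
    rw [Matrix.mul_apply, Finset.mul_sum]
    exact Finset.sum_congr rfl fun β _ => by ring
  rw [hL, hR]
  refine Finset.sum_congr rfl fun B _ => Finset.sum_congr rfl fun C _ => ?_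
  have h := ss_slash2 (G := G) ha t (fun i => x (i, B)) (fun j => x (j, C))
  simp only [vf_apply]
  rw [← h]

theorem fderiv_U (t : ℝ) {φ : Cfg N → F} {x : Cfg N}
    (hφ : DifferentiableAt ℝ φ (vf (me a t) x)) (e : Cfg N) :
    fderiv ℝ (U M G a t φ) x e = eS M G a t (fderiv ℝ φ (vf (me a t) x) (vf (me a t) e)) := by
  have h1 : HasFDerivAt (fun x : Cfg N => vf (me a t) x)
      (LinearMap.toContinuousLinearMap (vfL (N := N) (me a t))) x :=
    (LinearMap.toContinuousLinearMap (vfL (N := N) (me a t))).hasFDerivAt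
  have h2 := ((eS M G a t).restrictScalars ℝ).hasFDerivAt.comp x (hφ.hasFDerivAt.comp x h1)
  have h3 : HasFDerivAt (U M G a t φ) _ x := h2
  rw [h3.fderiv]
  rfl

theorem vf_single (r : Matrix (Fin 9) (Fin 9) ℝ) (i : Fin 9) (A : Fin (N ^ 2 - 1)) :
    vf r (EuclideanSpace.single (i, A) (1 : ℝ) : Cfg N) =
      ∑ j, r j i • (EuclideanSpace.single (j, A) (1 : ℝ) : Cfg N) := by
  ext ⟨k, B⟩
  rw [vf_apply]
  have h1 : (∑ j, r j i • (EuclideanSpace.single (j, A) (1 : ℝ) : Cfg N)) (k, B) =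
      ∑ j, r j i * (EuclideanSpace.single (j, A) (1 : ℝ) : Cfg N) (k, B) := by
    simp [Pi.single_apply]
  rw [h1]
  simp only [PiLp.single_apply, Prod.mk.injEq, mul_ite, mul_one, mul_zero]
  by_cases hB : B = A
  · subst hB
    simp
  · simp [hB]

/-- the kinetic part of a charge, in the direction variables -/
theorem dir_cov (ha : a.transpose = -a) (t : ℝ) (α : Fin 16) (A : Fin (N ^ 2 - 1))
    (D : Fin 9 → F) :
    ∑ i, ∑ β, ((G.γ i α β : ℝ) : ℂ) • M.θ β A (eS M G a t (∑ j, (me a t j i : ℝ) • D j)) =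
      ∑ β, ((ss G a t α β : ℝ) : ℂ) • eS M G a t (∑ j, ∑ δ, ((G.γ j β δ : ℝ) : ℂ) •
        M.θ δ A (D j)) := by
  have hs : ∀ (r : ℝ) (v : F), r • v = ((r : ℝ) : ℂ) • v := fun r v => (Complex.coe_smul r v).symm
  have hg : ∀ j δ, ∑ i, ∑ β, me a t j i * G.γ i α β * ss G a t β δ =
      ∑ β, ss G a t α β * G.γ j β δ := by
    intro j δ
    have h1 := ss_gam (G := G) ha t j
    have h2 := congrFun (congrFun h1 α) δ
    rw [Matrix.mul_apply] at h2
    unfold ss
    rw [h2, Matrix.sum_mul, Matrix.sum_apply]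
    refine Finset.sum_congr rfl fun i _ => ?_
    rw [Matrix.smul_mul, Matrix.smul_apply, Matrix.mul_apply, smul_eq_mul, Finset.mul_sum]
    exact Finset.sum_congr rfl fun β _ => by ring
  have hL : ∑ i, ∑ β, ((G.γ i α β : ℝ) : ℂ) •
      M.θ β A (eS M G a t (∑ j, (me a t j i : ℝ) • D j)) =
      ∑ j, ∑ δ, ((∑ i, ∑ β, me a t j i * G.γ i α β * ss G a t β δ : ℝ) : ℂ) •
        eS M G a t (M.θ δ A (D j)) := by
    simp only [hs, map_sum, map_smul, theta_eS ha, Finset.smul_sum, smul_smul]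
    have h3 : ∀ i : Fin 9, ∑ β : Fin 16, ∑ j : Fin 9, ∑ δ : Fin 16,
        (((G.γ i α β : ℝ) : ℂ) * (((me a t j i : ℝ) : ℂ) * ((ss G a t β δ : ℝ) : ℂ))) •
          eS M G a t (M.θ δ A (D j)) = ∑ j : Fin 9, ∑ δ : Fin 16, ∑ β : Fin 16,
        (((G.γ i α β : ℝ) : ℂ) * (((me a t j i : ℝ) : ℂ) * ((ss G a t β δ : ℝ) : ℂ))) •
          eS M G a t (M.θ δ A (D j)) := by
      intro i
      rw [Finset.sum_comm]
      refine Finset.sum_congr rfl fun j _ => ?_
      rw [Finset.sum_comm]
    simp only [h3]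
    rw [Finset.sum_comm]
    refine Finset.sum_congr rfl fun j _ => ?_
    rw [Finset.sum_comm]
    refine Finset.sum_congr rfl fun δ _ => ?_
    push_cast
    rw [Finset.sum_smul]
    refine Finset.sum_congr rfl fun i _ => ?_
    rw [Finset.sum_smul]
    refine Finset.sum_congr rfl fun β _ => ?_
    congr 1
    ring
  rw [hL]
  simp only [hg]
  simp only [map_sum, map_smul, Finset.smul_sum, smul_smul]
  symm
  rw [Finset.sum_comm]
  refine Finset.sum_congr rfl fun j _ => ?_
  rw [Finset.sum_comm]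
  refine Finset.sum_congr rfl fun δ _ => ?_
  push_cast
  rw [Finset.sum_smul]

/-- covariance of a general charge -/
theorem chargeW_U (ha : a.transpose = -a) (t : ℝ)
    {W : Fin 16 → Fin 16 → Fin (N ^ 2 - 1) → Cfg N → ℝ} (α : Fin 16) {φ : Cfg N → F} {x : Cfg N}
    (hW : ∀ δ A, ∑ β, W α β A x * ss G a t β δ = ∑ β, ss G a t α β * W β δ A (vf (me a t) x))
    (hφ : DifferentiableAt ℝ φ (vf (me a t) x)) :
    IBP837.chargeW M G W α (U M G a t φ) x =
      ∑ β, ((ss G a t α β : ℝ) : ℂ) • U M G a t (IBP837.chargeW M G W β φ) x := by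
  set y := vf (me a t) x with hy
  have hk : ∀ α, ∀ ψ : Cfg N → F, ∀ z : Cfg N, (∑ k : Fin 9 × Fin (N ^ 2 - 1),
      (-Complex.I) • IBP837.dco M G α k (fderiv ℝ ψ z (EuclideanSpace.single k 1))) =
      (-Complex.I) • ∑ A, ∑ i, ∑ β, ((G.γ i α β : ℝ) : ℂ) •
        M.θ β A (fderiv ℝ ψ z (EuclideanSpace.single (i, A) 1)) := by
    intro α ψ z
    rw [← Finset.smul_sum, Fintype.sum_prod_type, Finset.sum_comm]
    simp only [IBP837.dco_apply]
  simp only [U_apply, IBP837.chargeW_apply, hk, ← hy]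
  have h1 : ∀ (i : Fin 9) (A : Fin (N ^ 2 - 1)),
      fderiv ℝ (U M G a t φ) x (EuclideanSpace.single (i, A) 1) =
      eS M G a t (∑ j, (me a t j i : ℝ) • fderiv ℝ φ y (EuclideanSpace.single (j, A) 1)) := by
    intro i A
    rw [fderiv_U t hφ, vf_single, map_sum]
    simp only [map_smul, ← hy]
  simp only [h1]
  rw [Finset.sum_congr rfl fun A _ => dir_cov (M := M) (G := G) ha t α A
    (fun j => fderiv ℝ φ y (EuclideanSpace.single (j, A) 1))]
  have hv : IBP837.vco M (fun β A => W α β A x) (eS M G a t (φ y)) =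
      ∑ β, ((ss G a t α β : ℝ) : ℂ) • eS M G a t (IBP837.vco M (fun δ A => W β δ A y) (φ y)) := by
    simp only [IBP837.vco_apply, theta_eS ha, map_sum, map_smul, Finset.smul_sum, smul_smul]
    symm
    rw [Finset.sum_comm]
    refine Finset.sum_congr rfl fun A _ => ?_
    rw [Finset.sum_comm]
    symm
    rw [Finset.sum_comm]
    refine Finset.sum_congr rfl fun δ _ => ?_
    rw [← Finset.sum_smul, ← Finset.sum_smul]
    congr 1
    have h2 := hW δ A
    exact_mod_cast h2
  rw [hv]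
  simp only [map_add, map_smul, map_sum, smul_add, Finset.sum_add_distrib]
  congr 1
  rw [Finset.sum_comm, Finset.smul_sum]
  refine Finset.sum_congr rfl fun β _ => ?_
  rw [smul_comm, Finset.smul_sum, Finset.smul_sum, Finset.smul_sum]

/-- (S3) covariance of the supercharges -/
theorem supercharge_U (ha : a.transpose = -a) (t : ℝ) (α : Fin 16) {φ : Cfg N → F}
    (hφ : Differentiable ℝ φ) (x : Cfg N) :
    supercharge b M G α (U M G a t φ) x =
      ∑ β, ((ss G a t α β : ℝ) : ℂ) • U M G a t (supercharge b M G β φ) x := by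
  simp only [IBP837.supercharge_eq]
  exact chargeW_U ha t α (fun δ A => wco_cov ha t α δ A x) (hφ _)

end Cov

end Crest.Agent.R330.Sym613

end
end

-- ▼ part R330/Sym3_613

/-!
# Row 330, S13.SYM (helper613): the one-parameter spin rotations `U_a(t)` — `L²` statements,
derivatives, weak equations
-/

set_option autoImplicit false

open MeasureTheory Filter Topology
open scoped ContDiff InnerProductSpace ENNReal
open Crest.MathPhysics.MatrixQM
open Crest.Agent.R330.SDefs726

noncomputable section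

namespace Crest.Agent.R330.Sym613

variable {N : ℕ} {F : Type*} [NormedAddCommGroup F] [InnerProductSpace ℂ F]
  [FiniteDimensional ℂ F]
  {b : ColorBasis N} {M : FermionRep N F} {R : GaugeAction b M} {G : GammaNine}
  {a : Matrix (Fin 9) (Fin 9) ℝ}

/-! ### 9. Linearity and norms -/

theorem U_add_fun (t : ℝ) (φ ψ : Cfg N → F) :
    U M G a t (φ + ψ) = U M G a t φ + U M G a t ψ := by
  funext x; simp only [U_apply, Pi.add_apply, map_add]


theorem U_smul_fun (t : ℝ) (c : ℂ) (φ : Cfg N → F) :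
    U M G a t (c • φ) = c • U M G a t φ := by
  funext x; simp only [U_apply, Pi.smul_apply, map_smul]


theorem norm_U (ha : a.transpose = -a) (t : ℝ) (φ : Cfg N → F) (x : Cfg N) :
    ‖U M G a t φ x‖ = ‖φ (vf (me a t) x)‖ := by
  rw [U_apply, eS_norm ha]

theorem U_congr_ae (ha : a.transpose = -a) (t : ℝ) {φ ψ : Cfg N → F} (h : φ =ᵐ[volume] ψ) :
    U M G a t φ =ᵐ[volume] U M G a t ψ := by
  have h1 := (vf_mp (N := N) ha t).quasiMeasurePreserving.ae_eq_comp h
  filter_upwards [h1] with x hx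
  simp only [Function.comp_apply] at hx
  rw [U_apply, U_apply, hx]

theorem aesm_U (ha : a.transpose = -a) (t : ℝ) {φ : Cfg N → F}
    (h : AEStronglyMeasurable φ volume) : AEStronglyMeasurable (U M G a t φ) volume :=
  (eS M G a t).continuous.comp_aestronglyMeasurable
    (h.comp_measurePreserving (vf_mp ha t))

theorem eLpNorm_U (ha : a.transpose = -a) (t : ℝ) {p : ℝ≥0∞} {φ : Cfg N → F}
    (h : AEStronglyMeasurable φ volume) :
    eLpNorm (U M G a t φ) p volume = eLpNorm φ p volume := by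
  rw [← eLpNorm_comp_measurePreserving (p := p) h (vf_mp ha t)]
  exact eLpNorm_congr_norm_ae (Eventually.of_forall fun x => norm_U ha t φ x)

theorem memLp_U (ha : a.transpose = -a) (t : ℝ) {p : ℝ≥0∞} {φ : Cfg N → F}
    (h : MemLp φ p volume) : MemLp (U M G a t φ) p volume :=
  ⟨aesm_U ha t h.1, by rw [eLpNorm_U ha t h.1]; exact h.2⟩

/-- `U_a(t)` preserves the `L²` inner product (no hypotheses on the functions) -/
theorem integral_U (ha : a.transpose = -a) (t : ℝ) (φ ψ : Cfg N → F) :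
    ∫ x, ⟪U M G a t φ x, U M G a t ψ x⟫_ℂ = ∫ x, ⟪φ x, ψ x⟫_ℂ := by
  have h1 : ∀ x, ⟪U M G a t φ x, U M G a t ψ x⟫_ℂ =
      (fun y => ⟪φ y, ψ y⟫_ℂ) (vfE a ha t x) := by
    intro x
    rw [U_apply, U_apply, eS_inner ha]
    rfl
  simp only [h1]
  exact (vfE a ha t).measurePreserving.integral_comp
    (vfE a ha t).toHomeomorph.measurableEmbedding (fun y => ⟪φ y, ψ y⟫_ℂ)

theorem integral_U_left (ha : a.transpose = -a) (t : ℝ) (φ ψ : Cfg N → F) :
    ∫ x, ⟪U M G a t φ x, ψ x⟫_ℂ = ∫ x, ⟪φ x, U M G a (-t) ψ x⟫_ℂ := by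
  rw [← integral_U (M := M) (G := G) ha t φ (U M G a (-t) ψ), U_cancel_neg]

theorem integral_U_right (ha : a.transpose = -a) (t : ℝ) (φ ψ : Cfg N → F) :
    ∫ x, ⟪φ x, U M G a t ψ x⟫_ℂ = ∫ x, ⟪U M G a (-t) φ x, ψ x⟫_ℂ := by
  rw [integral_U_left ha, neg_neg]

/-! ### 10. Derivatives -/

theorem Sp_eS (t : ℝ) (v : F) : Sp M G a (eS M G a t v) = eS M G a t (Sp M G a v) := by
  have h1 : Commute (LinearMap.toContinuousLinearMap (Sp M G a))
      ((t : ℂ) • LinearMap.toContinuousLinearMap (Sp M G a)) :=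
    (Commute.refl _).smul_right _
  have h3 := congrArg (fun L : F →L[ℂ] F => L v) (Commute.exp_right h1).eq
  exact h3

theorem eS_comp_hasDerivAt {z : ℝ → F} {z' : F} {t : ℝ} (hz : HasDerivAt z z' t) :
    HasDerivAt (fun u : ℝ => eS M G a u (z u)) (eS M G a t z' + Sp M G a (eS M G a t (z t))) t := by
  set e := stdOrthonormalBasis ℂ F with he
  have hexp : ∀ (u : ℝ) (v : F), eS M G a u v = ∑ k, ⟪e k, v⟫_ℂ • eS M G a u (e k) := by
    intro u v
    conv_lhs => rw [← e.sum_repr' v]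
    simp only [map_sum, map_smul]
  have h1 : HasDerivAt (fun u : ℝ => ∑ k, ⟪e k, z u⟫_ℂ • eS M G a u (e k))
      (∑ k, (⟪e k, z t⟫_ℂ • Sp M G a (eS M G a t (e k)) + ⟪e k, z'⟫_ℂ • eS M G a t (e k))) t := by
    refine HasDerivAt.fun_sum fun k _ => ?_
    have h2 : HasDerivAt (fun u : ℝ => ⟪e k, z u⟫_ℂ) ⟪e k, z'⟫_ℂ t := by
      have h3 := (hasDerivAt_const t (e k)).inner ℂ hz
      simpa using h3
    exact h2.smul (eS_hasDerivAt t (e k))
  have h4 : (fun u : ℝ => eS M G a u (z u)) =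
      fun u : ℝ => ∑ k, ⟪e k, z u⟫_ℂ • eS M G a u (e k) := by
    funext u; exact hexp u (z u)
  rw [h4]
  refine h1.congr_deriv ?_
  rw [Finset.sum_add_distrib, ← hexp t z', add_comm]
  congr 1
  rw [hexp t (z t), map_sum]
  simp only [map_smul]

/-- (pointwise derivative) `d/dt U_a(t) ψ (x) = U_a(t) J_a ψ (x)` -/
theorem U_hasDerivAt {ψ : Cfg N → F} (hψ : Differentiable ℝ ψ) (t : ℝ) (x : Cfg N) :
    HasDerivAt (fun u : ℝ => U M G a u ψ x) (U M G a t (Jg M G a ψ) x) t := by
  have h1 : HasDerivAt (fun u : ℝ => ψ (vf (me a u) x))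
      (fderiv ℝ ψ (vf (me a t) x) (vf a (vf (me a t) x))) t :=
    (hψ (vf (me a t) x)).hasFDerivAt.comp_hasDerivAt t (vf_hasDerivAt t x)
  refine (eS_comp_hasDerivAt h1).congr_deriv ?_
  rw [U_apply, Jg, map_add, Sp_eS]

theorem continuous_Jg {ψ : Cfg N → F} (hψ : ContDiff ℝ 1 ψ) : Continuous (Jg M G a ψ) := by
  have h1 : Continuous (fun x => fderiv ℝ ψ x (vf a x)) :=
    (hψ.continuous_fderiv (by norm_num)).clm_apply (continuous_vf a)
  have h2 : Continuous (fun x => Sp M G a (ψ x)) :=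
    (LinearMap.continuous_of_finiteDimensional (Sp M G a)).comp hψ.continuous
  exact h1.add h2

omit [FiniteDimensional ℂ F] in
theorem tsupport_Jg_subset {ψ : Cfg N → F} : tsupport (Jg M G a ψ) ⊆ tsupport ψ := by
  refine closure_minimal (fun x hx => ?_) (isClosed_tsupport ψ)
  by_contra h
  apply hx
  have h1 : fderiv ℝ ψ x = 0 := by
    have := (tsupport_fderiv_subset ℝ (f := ψ)) 
    by_contra h2
    exact h (this (subset_tsupport _ h2))
  rw [Jg, h1, image_eq_zero_of_notMem_tsupport h]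
  simp

omit [FiniteDimensional ℂ F] in
theorem hasCompactSupport_Jg {ψ : Cfg N → F} (h : HasCompactSupport ψ) :
    HasCompactSupport (Jg M G a ψ) :=
  h.of_isClosed_subset (isClosed_tsupport _) tsupport_Jg_subset

/-- derivative of matrix elements, at any `t` -/
theorem hasDerivAt_integral_U (ha : a.transpose = -a) {f ψ : Cfg N → F}
    (hf : LocallyIntegrable f volume) (hψ : ContDiff ℝ 1 ψ) (hc : HasCompactSupport ψ) (t : ℝ) :
    HasDerivAt (fun u : ℝ => ∫ x, ⟪f x, U M G a u ψ x⟫_ℂ)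
      (∫ x, ⟪f x, U M G a t (Jg M G a ψ) x⟫_ℂ) t := by
  obtain ⟨ρ, hρ⟩ := hc.isCompact.isBounded.subset_closedBall (0 : Cfg N)
  have hg := continuous_Jg (M := M) (G := G) (a := a) hψ
  have hgc := hasCompactSupport_Jg (M := M) (G := G) (a := a) hc
  obtain ⟨C, hC⟩ := hg.bounded_above_of_compact_support hgc
  have hC0 : 0 ≤ C := (norm_nonneg _).trans (hC 0)
  have hK : IsCompact (Metric.closedBall (0 : Cfg N) ρ) := isCompact_closedBall _ _
  have hmem : ∀ (u : ℝ) (x : Cfg N), vf (me a u) x ∈ Metric.closedBall (0 : Cfg N) ρ ↔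
      x ∈ Metric.closedBall (0 : Cfg N) ρ := by
    intro u x
    simp only [mem_closedBall_zero_iff, norm_vf_me ha]
  have hz : ∀ (φ : Cfg N → F), tsupport φ ⊆ tsupport ψ → ∀ (u : ℝ) (x : Cfg N),
      x ∉ Metric.closedBall (0 : Cfg N) ρ → U M G a u φ x = 0 := by
    intro φ hφ u x hx
    have h1 : vf (me a u) x ∉ tsupport φ := fun h => hx ((hmem u x).1 (hρ (hφ h)))
    rw [U_apply, image_eq_zero_of_notMem_tsupport h1, map_zero]
  have hfK : IntegrableOn f (Metric.closedBall (0 : Cfg N) ρ) volume :=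
    hf.integrableOn_isCompact hK
  have hmeas : ∀ u, AEStronglyMeasurable (fun x => ⟪f x, U M G a u ψ x⟫_ℂ) volume := by
    intro u
    exact hf.aestronglyMeasurable.inner
      (contDiff_U (M := M) (G := G) (a := a) u hψ).continuous.aestronglyMeasurable
  have hbound : Integrable (fun x => (Metric.closedBall (0 : Cfg N) ρ).indicator
      (fun x => ‖f x‖ * C) x) volume :=
    IntegrableOn.integrable_indicator (hfK.norm.mul_const C) hK.measurableSet
  have hUint : Integrable (fun x => ⟪f x, U M G a t ψ x⟫_ℂ) volume := by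
    obtain ⟨C', hC'⟩ := hψ.continuous.bounded_above_of_compact_support hc
    refine Integrable.mono'
      (IntegrableOn.integrable_indicator (hfK.norm.mul_const C') hK.measurableSet) (hmeas t) (Eventually.of_forall fun x => ?_)
    by_cases hx : x ∈ Metric.closedBall (0 : Cfg N) ρ
    · rw [Set.indicator_of_mem hx]
      refine (norm_inner_le_norm _ _).trans ?_
      rw [norm_U ha]
      exact mul_le_mul_of_nonneg_left (hC' _) (norm_nonneg _)
    · rw [Set.indicator_of_notMem hx, hz ψ le_rfl t x hx]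
      simp
  refine (hasDerivAt_integral_of_dominated_loc_of_deriv_le
    (F' := fun u x => ⟪f x, U M G a u (Jg M G a ψ) x⟫_ℂ) (Metric.ball_mem_nhds t one_pos)
    (Eventually.of_forall hmeas) hUint ?_ ?_ hbound ?_).2
  · exact hf.aestronglyMeasurable.inner
      (((eS M G a t).continuous.comp (hg.comp (continuous_vf _))).aestronglyMeasurable)
  · refine Eventually.of_forall fun x u _ => ?_
    by_cases hx : x ∈ Metric.closedBall (0 : Cfg N) ρ
    · rw [Set.indicator_of_mem hx]
      refine (norm_inner_le_norm _ _).trans ?_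
      rw [norm_U ha]
      exact mul_le_mul_of_nonneg_left (hC _) (norm_nonneg _)
    · rw [Set.indicator_of_notMem hx, hz _ tsupport_Jg_subset u x hx]
      simp
  · refine Eventually.of_forall fun x u _ => ?_
    have h1 := (hasDerivAt_const u (f x)).inner ℂ
      (U_hasDerivAt (M := M) (G := G) (a := a) (hψ.differentiable (by norm_num)) u x)
    simpa using h1

/-- derivative at `0` -/
theorem hasDerivAt_integral_U_zero (ha : a.transpose = -a) {f ψ : Cfg N → F}
    (hf : LocallyIntegrable f volume) (hψ : ContDiff ℝ 1 ψ) (hc : HasCompactSupport ψ) :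
    HasDerivAt (fun u : ℝ => ∫ x, ⟪f x, U M G a u ψ x⟫_ℂ) (∫ x, ⟪f x, Jg M G a ψ x⟫_ℂ) 0 := by
  have h := hasDerivAt_integral_U (M := M) (G := G) ha hf hψ hc 0
  rwa [U_zero] at h

/-- `J_a` is skew -/
theorem Jg_skew (ha : a.transpose = -a) {φ ψ : Cfg N → F}
    (hφ : ContDiff ℝ 1 φ) (hφc : HasCompactSupport φ)
    (hψ : ContDiff ℝ 1 ψ) (hψc : HasCompactSupport ψ) :
    ∫ x, ⟪Jg M G a φ x, ψ x⟫_ℂ = - ∫ x, ⟪φ x, Jg M G a ψ x⟫_ℂ := by
  have h1 := hasDerivAt_integral_U_zero (M := M) (G := G) ha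
    (hφ.continuous.locallyIntegrable (μ := volume)) hψ hψc
  have h2 := hasDerivAt_integral_U_zero (M := M) (G := G) ha
    (hψ.continuous.locallyIntegrable (μ := volume)) hφ hφc
  have h3 : ∀ u : ℝ, ∫ x, ⟪φ x, U M G a u ψ x⟫_ℂ =
      starRingEnd ℂ (∫ x, ⟪ψ x, U M G a (-u) φ x⟫_ℂ) := by
    intro u
    rw [← integral_conj, integral_U_right ha]
    exact integral_congr_ae (Eventually.of_forall fun x => (inner_conj_symm _ _).symm)
  have h4 : HasDerivAt (fun u : ℝ => starRingEnd ℂ (∫ x, ⟪ψ x, U M G a (-u) φ x⟫_ℂ))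
      (starRingEnd ℂ (-∫ x, ⟪ψ x, Jg M G a φ x⟫_ℂ)) 0 := by
    have h5 : HasDerivAt (fun u : ℝ => ∫ x, ⟪ψ x, U M G a (-u) φ x⟫_ℂ)
        (-∫ x, ⟪ψ x, Jg M G a φ x⟫_ℂ) 0 := by
      have h6 := HasDerivAt.scomp (h := fun u : ℝ => -u) (0 : ℝ) (by simpa using h2)
        (hasDerivAt_neg (0 : ℝ))
      simpa [Function.comp_def] using h6
    exact (Complex.conjCLE.toContinuousLinearMap.hasFDerivAt.comp_hasDerivAt (0 : ℝ) h5)
  have h7 := h1.congr_of_eventuallyEq (f₁ := fun u : ℝ =>
    starRingEnd ℂ (∫ x, ⟪ψ x, U M G a (-u) φ x⟫_ℂ))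
    (Eventually.of_forall fun u => (h3 u).symm)
  have h8 := h7.unique h4
  rw [h8, map_neg, neg_neg, ← integral_conj]
  exact integral_congr_ae (Eventually.of_forall fun x => (inner_conj_symm _ _).symm)

/-- (S4) weak form of `U_a(t) f = e^{imt} f` -/
theorem weak_of_weight (ha : a.transpose = -a) {m : ℝ} {f ψ : Cfg N → F}
    (hf : LocallyIntegrable f volume)
    (hU : ∀ t : ℝ, U M G a t f =ᵐ[volume] Complex.exp ((m * t : ℝ) * Complex.I) • f)
    (hψ : ContDiff ℝ 1 ψ) (hc : HasCompactSupport ψ) :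
    ∫ x, ⟪f x, Jg M G a ψ x⟫_ℂ = (m * Complex.I) * ∫ x, ⟪f x, ψ x⟫_ℂ := by
  have h1 := hasDerivAt_integral_U_zero (M := M) (G := G) ha hf hψ hc
  have h2 : ∀ u : ℝ, ∫ x, ⟪f x, U M G a u ψ x⟫_ℂ =
      Complex.exp ((m * u : ℝ) * Complex.I) * ∫ x, ⟪f x, ψ x⟫_ℂ := by
    intro u
    rw [integral_U_right ha, ← integral_const_mul]
    refine integral_congr_ae ?_
    filter_upwards [hU (-u)] with x hx
    rw [hx, Pi.smul_apply, inner_smul_left, ← Complex.exp_conj]
    congr 2
    simp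
  have h3 : HasDerivAt (fun u : ℝ => Complex.exp ((m * u : ℝ) * Complex.I) *
      ∫ x, ⟪f x, ψ x⟫_ℂ) ((m * Complex.I) * ∫ x, ⟪f x, ψ x⟫_ℂ) 0 := by
    have h4 : HasDerivAt (fun u : ℝ => ((m * u : ℝ) : ℂ) * Complex.I) (m * Complex.I) 0 := by
      have h5 : HasDerivAt (fun u : ℝ => m * u) m 0 := by
        simpa using (hasDerivAt_id (0 : ℝ)).const_mul m
      exact (h5.ofReal_comp).mul_const _
    have h6 := h4.cexp
    simp only [mul_zero, Complex.ofReal_zero, zero_mul, Complex.exp_zero, one_mul] at h6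
    exact h6.mul_const _
  have h7 := h1.congr_of_eventuallyEq (f₁ := fun u : ℝ =>
    Complex.exp ((m * u : ℝ) * Complex.I) * ∫ x, ⟪f x, ψ x⟫_ℂ)
    (Eventually.of_forall fun u => (h2 u).symm)
  exact h7.unique h3


end Crest.Agent.R330.Sym613

end
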