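import Crest.Prelude.Def_MatrixModel

/-!
# Row 330 (helper973): Fock vacua and intertwiners of irreducible Clifford modules

* `Word`, `gen` : words in creation operators on a vector; `vac_unique`.
* `ann M j`, `cre M j` (`j : Fin 8 × Fin n`) : `θ_α^A ± i θ_{α+8}^A`.
* `exists_vac`, `gen_eq_top`, `vac_line` : the Fock vacuum is a line and generates `F`.
* `exists_intertwiner` : two irreducible modules are equivalent, vacuum to vacuum;
  `eq_of_intertwine`, `inner_intertwiner`.
-/

set_option autoImplicit false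
set_option linter.unusedSectionVars false

noncomputable section

open scoped InnerProductSpace

namespace Crest.Agent.R330.Vac973

open Crest.MathPhysics.MatrixQM

/-! ### Words in creation operators -/

section words

variable {V J : Type*} [AddCommGroup V] [Module ℂ V]

/-- Words in the operators `d j` applied to `Ω`. -/
inductive Word (d : J → V →ₗ[ℂ] V) (Ω : V) : V → Prop
  | base : Word d Ω Ω
  | step (j : J) (v : V) : Word d Ω v → Word d Ω (d j v)

/-- The span of the words. -/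
def gen (d : J → V →ₗ[ℂ] V) (Ω : V) : Submodule ℂ V := Submodule.span ℂ {v | Word d Ω v}

variable {d c : J → V →ₗ[ℂ] V} {Ω : V}

theorem base_mem : Ω ∈ gen d Ω := Submodule.subset_span Word.base

theorem gen_d (j : J) {v : V} (hv : v ∈ gen d Ω) : d j v ∈ gen d Ω := by
  induction hv using Submodule.span_induction with
  | mem x hx => exact Submodule.subset_span (Word.step j x hx)
  | zero => rw [map_zero]; exact Submodule.zero_mem _
  | add x y _ _ hx hy => rw [map_add]; exact Submodule.add_mem _ hx hy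
  | smul a x _ hx => rw [map_smul]; exact Submodule.smul_mem _ a hx

theorem gen_c (hΩ : ∀ j, c j Ω = 0)
    (hcd : ∀ j k v, ∃ a : ℂ, c j (d k v) = a • v - d k (c j v)) (j : J) {v : V}
    (hv : v ∈ gen d Ω) : c j v ∈ gen d Ω := by
  induction hv using Submodule.span_induction with
  | mem x hx =>
    induction hx with
    | base => rw [hΩ]; exact Submodule.zero_mem _
    | step k v hv ih =>
      obtain ⟨a, ha⟩ := hcd j k v
      rw [ha]
      exact Submodule.sub_mem _ (Submodule.smul_mem _ a (Submodule.subset_span hv)) (gen_d k ih)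
  | zero => rw [map_zero]; exact Submodule.zero_mem _
  | add x y _ _ hx hy => rw [map_add]; exact Submodule.add_mem _ hx hy
  | smul a x _ hx => rw [map_smul]; exact Submodule.smul_mem _ a hx

/-- An element of `gen` is a multiple of `Ω` up to images of the `d j`. -/
theorem gen_split {v : V} (hv : v ∈ gen d Ω) :
    ∃ a : ℂ, v - a • Ω ∈ Submodule.span ℂ {y | ∃ j w, y = d j w} := by
  induction hv using Submodule.span_induction with
  | mem x hx =>
    cases hx with
    | base => exact ⟨1, by rw [one_smul, sub_self]; exact Submodule.zero_mem _⟩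
    | step k v hv =>
      exact ⟨0, by rw [zero_smul, sub_zero]; exact Submodule.subset_span ⟨k, v, rfl⟩⟩
  | zero => exact ⟨0, by rw [zero_smul, sub_zero]; exact Submodule.zero_mem _⟩
  | add x y _ _ hx hy =>
    obtain ⟨a, ha⟩ := hx
    obtain ⟨b, hb⟩ := hy
    refine ⟨a + b, ?_⟩
    have h : x + y - (a + b) • Ω = (x - a • Ω) + (y - b • Ω) := by
      rw [add_smul]; abel
    rw [h]
    exact Submodule.add_mem _ ha hb
  | smul t x _ hx =>
    obtain ⟨a, ha⟩ := hx
    refine ⟨t * a, ?_⟩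
    have h : t • x - (t * a) • Ω = t • (x - a • Ω) := by
      rw [smul_sub, smul_smul]
    rw [h]
    exact Submodule.smul_mem _ t ha

/-- **Uniqueness of the vacuum** in `gen`. `B` : a definite pairing for which `d j` is adjoint to
`c j`. -/
theorem vac_unique (B : V → V →ₗ[ℂ] ℂ) (hB : ∀ u, B u u = 0 → u = 0)
    (hB0 : ∀ v, B 0 v = 0) (hadj : ∀ j u v, B u (d j v) = B (c j u) v)
    (hΩ : ∀ j, c j Ω = 0) {u : V} (hu : u ∈ gen d Ω) (hv : ∀ j, c j u = 0) :
    ∃ a : ℂ, u = a • Ω := by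
  obtain ⟨a, ha⟩ := gen_split hu
  refine ⟨a, sub_eq_zero.1 (hB _ ?_)⟩
  have h0 : ∀ j, c j (u - a • Ω) = 0 := fun j => by
    rw [map_sub, map_smul, hv, hΩ, smul_zero, sub_zero]
  have h1 : ∀ y ∈ Submodule.span ℂ {y | ∃ j w, y = d j w}, B (u - a • Ω) y = 0 := by
    intro y hy
    induction hy using Submodule.span_induction with
    | mem x hx =>
      obtain ⟨j, w, rfl⟩ := hx
      rw [hadj, h0, hB0]
    | zero => rw [map_zero]
    | add x y _ _ hx hy => rw [map_add, hx, hy, add_zero]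
    | smul t x _ hx => rw [map_smul, hx, smul_zero]
  exact h1 _ ha

end words

/-! ### The Fock vacuum of an irreducible Clifford module -/

section fock

variable {N : ℕ} {F : Type*} [NormedAddCommGroup F] [InnerProductSpace ℂ F]

/-- First half of the indices. -/
abbrev lo (α : Fin 8) : Fin 16 := (Fin.castAdd 8 α : Fin (8 + 8))

/-- Second half of the indices. -/
abbrev hi (α : Fin 8) : Fin 16 := (Fin.natAdd 8 α : Fin (8 + 8))

theorem lo_ne_hi (α β : Fin 8) : lo α ≠ hi β := by
  intro h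
  have := congrArg Fin.val h
  simp only [lo, hi, Fin.val_castAdd, Fin.val_natAdd] at this
  omega

theorem lo_inj {α β : Fin 8} : lo α = lo β ↔ α = β :=
  ⟨fun h => Fin.ext (by
    have := congrArg Fin.val h
    simpa only [lo, Fin.val_castAdd] using this), fun h => by rw [h]⟩

theorem hi_inj {α β : Fin 8} : hi α = hi β ↔ α = β :=
  ⟨fun h => Fin.ext (by
    have := congrArg Fin.val h
    simp only [hi, Fin.val_natAdd] at this
    omega), fun h => by rw [h]⟩

theorem lo_or_hi (α : Fin 16) : (∃ β, α = lo β) ∨ ∃ β, α = hi β := by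
  by_cases h : (α : ℕ) < 8
  · exact Or.inl ⟨⟨α, h⟩, Fin.ext rfl⟩
  · refine Or.inr ⟨⟨α - 8, by omega⟩, Fin.ext ?_⟩
    simp only [hi, Fin.val_natAdd]
    omega

/-- Annihilation operators. -/
def ann (M : FermionRep N F) (j : Fin 8 × Fin (N ^ 2 - 1)) : F →ₗ[ℂ] F :=
  M.θ (lo j.1) j.2 + Complex.I • M.θ (hi j.1) j.2

/-- Creation operators. -/
def cre (M : FermionRep N F) (j : Fin 8 × Fin (N ^ 2 - 1)) : F →ₗ[ℂ] F :=
  M.θ (lo j.1) j.2 - Complex.I • M.θ (hi j.1) j.2

variable (M : FermionRep N F)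

theorem theta_lo (α : Fin 8) (A : Fin (N ^ 2 - 1)) (v : F) :
    M.θ (lo α) A v = (1 / 2 : ℂ) • (ann M (α, A) v + cre M (α, A) v) := by
  simp only [ann, cre, LinearMap.add_apply, LinearMap.sub_apply, LinearMap.smul_apply]
  module

theorem theta_hi (α : Fin 8) (A : Fin (N ^ 2 - 1)) (v : F) :
    M.θ (hi α) A v = (-Complex.I / 2 : ℂ) • (ann M (α, A) v - cre M (α, A) v) := by
  simp only [ann, cre, LinearMap.add_apply, LinearMap.sub_apply, LinearMap.smul_apply]
  have h : (-Complex.I / 2 : ℂ) • (M.θ (lo α) A v + Complex.I • M.θ (hi α) A v -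
      (M.θ (lo α) A v - Complex.I • M.θ (hi α) A v)) =
      (-Complex.I * Complex.I) • M.θ (hi α) A v := by module
  rw [h, neg_mul, Complex.I_mul_I, neg_neg, one_smul]

theorem anti (α : Fin 16) (A : Fin (N ^ 2 - 1)) (β : Fin 16) (B : Fin (N ^ 2 - 1)) (v : F) :
    M.θ α A (M.θ β B v) = (if α = β ∧ A = B then v else 0) - M.θ β B (M.θ α A v) := by
  have h := congrArg (fun T : F →ₗ[ℂ] F => T v) (M.anticomm α A β B)
  simp only [LinearMap.add_apply, LinearMap.comp_apply] at h
  rw [eq_sub_iff_add_eq, h]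
  split_ifs <;> rfl

/-- The anticommutator of the annihilation operators. -/
theorem ann_ann (j k : Fin 8 × Fin (N ^ 2 - 1)) (v : F) :
    ann M j (ann M k v) = - ann M k (ann M j v) := by
  obtain ⟨α, A⟩ := j
  obtain ⟨β, B⟩ := k
  simp only [ann, LinearMap.add_apply, LinearMap.smul_apply, map_add, map_smul]
  rw [anti M (lo α) A (lo β) B, anti M (hi α) A (lo β) B, anti M (lo α) A (hi β) B,
    anti M (hi α) A (hi β) B]
  simp only [lo_inj, hi_inj, (lo_ne_hi α β), (lo_ne_hi β α).symm, false_and, if_false]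
  by_cases h : α = β ∧ A = B
  · simp only [h, and_self, if_true]
    simp only [smul_sub, smul_add, smul_smul, Complex.I_mul_I]
    module
  · simp only [h, if_false]
    module

/-- The anticommutator of annihilation and creation operators. -/
theorem ann_cre (j k : Fin 8 × Fin (N ^ 2 - 1)) (v : F) :
    ann M j (cre M k v) = (if j = k then (2 : ℂ) else 0) • v - cre M k (ann M j v) := by
  obtain ⟨α, A⟩ := j
  obtain ⟨β, B⟩ := k
  simp only [ann, cre, LinearMap.add_apply, LinearMap.sub_apply, LinearMap.smul_apply, map_add,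
    map_sub, map_smul, Prod.mk.injEq]
  rw [anti M (lo α) A (lo β) B, anti M (hi α) A (lo β) B, anti M (lo α) A (hi β) B,
    anti M (hi α) A (hi β) B]
  simp only [lo_inj, hi_inj, (lo_ne_hi α β), (lo_ne_hi β α).symm, false_and, if_false]
  by_cases h : α = β ∧ A = B
  · simp only [h, and_self, if_true]
    simp only [smul_sub, smul_add, smul_smul, Complex.I_mul_I]
    module
  · simp only [h, if_false]
    module

variable [FiniteDimensional ℂ F]

theorem inner_cre (j : Fin 8 × Fin (N ^ 2 - 1)) (u v : F) :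
    ⟪u, cre M j v⟫_ℂ = ⟪ann M j u, v⟫_ℂ := by
  simp only [ann, cre, LinearMap.add_apply, LinearMap.sub_apply, LinearMap.smul_apply,
    inner_add_left, inner_sub_right, inner_smul_left, inner_smul_right, Complex.conj_I]
  rw [M.selfAdjoint (lo j.1) j.2 u v, M.selfAdjoint (hi j.1) j.2 u v]
  ring


/-- A vacuum. -/
structure IsVac (Ω : F) : Prop where
  ne : Ω ≠ 0
  ann : ∀ j, ann M j Ω = 0

/-- **A vacuum exists.** -/
theorem exists_vac [Nontrivial F] : ∃ Ω : F, IsVac M Ω := by
  classical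
  have h : ∀ S : Finset (Fin 8 × Fin (N ^ 2 - 1)), ∃ v : F, v ≠ 0 ∧ ∀ j ∈ S, ann M j v = 0 := by
    intro S
    induction S using Finset.induction_on with
    | empty =>
      obtain ⟨v, hv⟩ := exists_ne (0 : F)
      exact ⟨v, hv, by simp⟩
    | insert k S _ ih =>
      obtain ⟨v, hv, h⟩ := ih
      by_cases h0 : ann M k v = 0
      · refine ⟨v, hv, fun j hj => ?_⟩
        rcases Finset.mem_insert.1 hj with rfl | hj
        · exact h0
        · exact h j hj
      · refine ⟨ann M k v, h0, fun j hj => ?_⟩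
        rcases Finset.mem_insert.1 hj with rfl | hj
        · have h1 := ann_ann M j j v
          have h2 : (2 : ℂ) • ann M j (ann M j v) = 0 := by
            rw [two_smul]
            nth_rewrite 1 [h1]
            exact neg_add_cancel _
          exact (smul_eq_zero.1 h2).resolve_left two_ne_zero
        · rw [ann_ann, h j hj, map_zero, neg_zero]
  obtain ⟨v, hv, h⟩ := h Finset.univ
  exact ⟨v, hv, fun j => h j (Finset.mem_univ j)⟩

/-- A subspace stable under creation and annihilation operators is trivial. -/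
theorem eq_bot_or_top {W : Submodule ℂ F} (hc : ∀ j, ∀ v ∈ W, cre M j v ∈ W)
    (ha : ∀ j, ∀ v ∈ W, ann M j v ∈ W) : W = ⊥ ∨ W = ⊤ := by
  refine M.irreducible W fun α A v hv => ?_
  rcases lo_or_hi α with ⟨β, rfl⟩ | ⟨β, rfl⟩
  · rw [theta_lo]
    exact W.smul_mem _ (W.add_mem (ha _ v hv) (hc _ v hv))
  · rw [theta_hi]
    exact W.smul_mem _ (W.sub_mem (ha _ v hv) (hc _ v hv))

variable {M}

/-- **The words on the vacuum span the module.** -/
theorem IsVac.gen_eq_top {Ω : F} (h : IsVac M Ω) : gen (cre M) Ω = ⊤ := by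
  rcases eq_bot_or_top M (W := gen (cre M) Ω) (fun j v hv => gen_d j hv)
    (fun j v hv => gen_c h.ann (fun j k v => ⟨_, ann_cre M j k v⟩) j hv) with h1 | h1
  · exact absurd ((Submodule.mem_bot ℂ).1 (h1 ▸ base_mem)) h.ne
  · exact h1

/-- **The vacuum is a line.** -/
theorem IsVac.line {Ω u : F} (h : IsVac M Ω) (hu : ∀ j, Vac973.ann M j u = 0) :
    ∃ a : ℂ, u = a • Ω := by
  refine vac_unique (d := cre M) (c := Vac973.ann M) (fun x => (innerₛₗ ℂ x : F →ₗ[ℂ] ℂ))
    (fun x hx => inner_self_eq_zero.1 hx) (fun v => ?_) (fun j x y => inner_cre M j x y) h.ann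
    (by rw [h.gen_eq_top]; trivial) hu
  exact inner_zero_left v

/-- Intertwiners are determined by the vacuum. -/
theorem eq_of_intertwine {F' : Type*} [AddCommGroup F'] [Module ℂ F']
    {θ' : Fin 16 → Fin (N ^ 2 - 1) → F' →ₗ[ℂ] F'} {Ω : F} (h : IsVac M Ω) {U T : F →ₗ[ℂ] F'}
    (hU : ∀ α A v, U (M.θ α A v) = θ' α A (U v)) (hT : ∀ α A v, T (M.θ α A v) = θ' α A (T v))
    (h0 : U Ω = T Ω) : U = T := by
  have h1 : (U - T).ker = ⊥ ∨ (U - T).ker = ⊤ := by
    refine M.irreducible _ fun α A v hv => ?_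
    rw [LinearMap.mem_ker, LinearMap.sub_apply] at hv ⊢
    rw [hU, hT, ← map_sub, hv, map_zero]
  rcases h1 with h1 | h1
  · refine absurd ((Submodule.mem_bot ℂ).1 (h1 ▸ ?_)) h.ne
    rw [LinearMap.mem_ker, LinearMap.sub_apply, h0, sub_self]
  · exact sub_eq_zero.1 (LinearMap.ker_eq_top.1 h1)

end fock

/-! ### Intertwiners -/

section inter

variable {N : ℕ} {F F' : Type*} [NormedAddCommGroup F] [InnerProductSpace ℂ F]
  [FiniteDimensional ℂ F] [NormedAddCommGroup F'] [InnerProductSpace ℂ F']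
  [FiniteDimensional ℂ F'] {M : FermionRep N F} {M' : FermionRep N F'} {Ω : F} {Ω' : F'}

/-- **Two irreducible modules are equivalent**, vacuum to vacuum. -/
theorem exists_intertwiner (h : IsVac M Ω) (h' : IsVac M' Ω') :
    ∃ U : F →ₗ[ℂ] F', U Ω = Ω' ∧ ∀ α A v, U (M.θ α A v) = M'.θ α A (U v) := by
  set d : Fin 8 × Fin (N ^ 2 - 1) → (F × F') →ₗ[ℂ] (F × F') :=
    fun j => (cre M j).prodMap (cre M' j) with hd
  set c : Fin 8 × Fin (N ^ 2 - 1) → (F × F') →ₗ[ℂ] (F × F') :=
    fun j => (ann M j).prodMap (ann M' j) with hc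
  set W : Submodule ℂ (F × F') := gen d (Ω, Ω') with hW
  have hcΩ : ∀ j, c j (Ω, Ω') = 0 := fun j => Prod.ext (h.ann j) (h'.ann j)
  have hcd : ∀ j k v, ∃ a : ℂ, c j (d k v) = a • v - d k (c j v) := fun j k v =>
    ⟨if j = k then 2 else 0, Prod.ext (ann_cre M j k v.1) (ann_cre M' j k v.2)⟩
  have hWd : ∀ j, ∀ v ∈ W, d j v ∈ W := fun j v hv => gen_d j hv
  have hWc : ∀ j, ∀ v ∈ W, c j v ∈ W := fun j v hv => gen_c hcΩ hcd j hv
  have hθ : ∀ α A, ∀ v ∈ W, ((M.θ α A v.1, M'.θ α A v.2) : F × F') ∈ W := by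
    intro α A v hv
    rcases lo_or_hi α with ⟨β, rfl⟩ | ⟨β, rfl⟩
    · have e : ((M.θ (lo β) A v.1, M'.θ (lo β) A v.2) : F × F') =
          (1 / 2 : ℂ) • (c (β, A) v + d (β, A) v) :=
        Prod.ext (theta_lo M β A v.1) (theta_lo M' β A v.2)
      rw [e]
      exact W.smul_mem _ (W.add_mem (hWc _ v hv) (hWd _ v hv))
    · have e : ((M.θ (hi β) A v.1, M'.θ (hi β) A v.2) : F × F') =
          (-Complex.I / 2 : ℂ) • (c (β, A) v - d (β, A) v) :=
        Prod.ext (theta_hi M β A v.1) (theta_hi M' β A v.2)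
      rw [e]
      exact W.smul_mem _ (W.sub_mem (hWc _ v hv) (hWd _ v hv))
  -- the second projection of the kernel
  have hK : ∀ y : F', ((0, y) : F × F') ∈ W → y = 0 := by
    have h1 : (W.comap (LinearMap.inr ℂ F F')) = ⊥ ∨ (W.comap (LinearMap.inr ℂ F F')) = ⊤ := by
      refine M'.irreducible _ fun α A v hv => ?_
      have h2 := hθ α A _ hv
      simp only [LinearMap.inr_apply, map_zero] at h2
      exact h2
    rcases h1 with h1 | h1
    · intro y hy
      have h2 : y ∈ W.comap (LinearMap.inr ℂ F F') := hy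
      rw [h1] at h2
      exact (Submodule.mem_bot ℂ).1 h2
    · exfalso
      have h2 : ((0, Ω') : F × F') ∈ W := by
        have h3 : Ω' ∈ W.comap (LinearMap.inr ℂ F F') := by rw [h1]; trivial
        exact h3
      obtain ⟨a, ha⟩ := vac_unique (d := d) (c := c)
        (fun x => ((innerₛₗ ℂ x.1 : F →ₗ[ℂ] ℂ).comp (LinearMap.fst ℂ F F') +
          (innerₛₗ ℂ x.2 : F' →ₗ[ℂ] ℂ).comp (LinearMap.snd ℂ F F')))
        (fun x hx => by
          have h3 : ⟪x.1, x.1⟫_ℂ + ⟪x.2, x.2⟫_ℂ = 0 := hx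
          have h4 := congrArg Complex.re h3
          rw [Complex.add_re, Complex.zero_re, ← RCLike.re_eq_complex_re,
            ← norm_sq_eq_re_inner, ← norm_sq_eq_re_inner] at h4
          have h5 : ‖x.1‖ = 0 := by nlinarith [sq_nonneg ‖x.1‖, sq_nonneg ‖x.2‖, norm_nonneg x.1]
          have h6 : ‖x.2‖ = 0 := by nlinarith [sq_nonneg ‖x.1‖, sq_nonneg ‖x.2‖, norm_nonneg x.2]
          exact Prod.ext (norm_eq_zero.1 h5) (norm_eq_zero.1 h6))
        (fun v => by
          show ⟪(0 : F), v.1⟫_ℂ + ⟪(0 : F'), v.2⟫_ℂ = 0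
          rw [inner_zero_left, inner_zero_left, add_zero])
        (fun j u v => by
          show ⟪u.1, cre M j v.1⟫_ℂ + ⟪u.2, cre M' j v.2⟫_ℂ =
            ⟪ann M j u.1, v.1⟫_ℂ + ⟪ann M' j u.2, v.2⟫_ℂ
          rw [inner_cre, inner_cre]) hcΩ h2
        (fun j => Prod.ext (by
          show ann M j 0 = 0
          rw [map_zero]) (h'.ann j))
      have h3 : (0 : F) = a • Ω := congrArg Prod.fst ha
      have h4 : Ω' = a • Ω' := congrArg Prod.snd ha
      have h5 : a = 0 := (smul_eq_zero.1 h3.symm).resolve_right h.ne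
      rw [h5, zero_smul] at h4
      exact h'.ne h4
  -- the first projection
  set p : W →ₗ[ℂ] F := (LinearMap.fst ℂ F F').comp W.subtype with hp
  have hinj : Function.Injective p := by
    rw [← LinearMap.ker_eq_bot, LinearMap.ker_eq_bot']
    rintro ⟨⟨x, y⟩, hm⟩ h0
    have h1 : x = 0 := h0
    subst h1
    have h2 := hK y hm
    subst h2
    rfl
  have hsurj : Function.Surjective p := by
    rw [← LinearMap.range_eq_top]
    have h1 : p.range = ⊥ ∨ p.range = ⊤ := by
      refine M.irreducible _ fun α A v hv => ?_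
      obtain ⟨w, rfl⟩ := hv
      exact ⟨⟨_, hθ α A w.1 w.2⟩, rfl⟩
    rcases h1 with h1 | h1
    · exfalso
      have h2 : Ω ∈ p.range := ⟨⟨(Ω, Ω'), base_mem⟩, rfl⟩
      rw [h1] at h2
      exact h.ne ((Submodule.mem_bot ℂ).1 h2)
    · exact h1
  set e : W ≃ₗ[ℂ] F := LinearEquiv.ofBijective p ⟨hinj, hsurj⟩ with he
  set U : F →ₗ[ℂ] F' := ((LinearMap.snd ℂ F F').comp W.subtype).comp e.symm.toLinearMap with hU
  have hg : ∀ x : F, ∀ y : F', ((x, y) : F × F') ∈ W → U x = y := by
    intro x y hm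
    have h1 : e.symm x = ⟨(x, y), hm⟩ := by
      rw [LinearEquiv.symm_apply_eq]
      rfl
    show ((e.symm x : W) : F × F').2 = y
    rw [h1]
  have hmem : ∀ x : F, ((x, U x) : F × F') ∈ W := by
    intro x
    have h1 : ((e.symm x : W) : F × F') = (x, U x) := by
      refine Prod.ext ?_ rfl
      show p (e.symm x) = x
      exact e.apply_symm_apply x
    rw [← h1]
    exact (e.symm x).2
  refine ⟨U, hg _ _ base_mem, fun α A v => hg _ _ (hθ α A _ (hmem v))⟩

/-- **The intertwiner is an isometry** if the vacua have the same norm. -/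
theorem inner_intertwiner (h : IsVac M Ω) {U : F →ₗ[ℂ] F'} (hn : ‖U Ω‖ = ‖Ω‖)
    (hU : ∀ α A v, U (M.θ α A v) = M'.θ α A (U v)) (x y : F) : ⟪U x, U y⟫_ℂ = ⟪x, y⟫_ℂ := by
  set S : F →ₗ[ℂ] F := (LinearMap.adjoint U).comp U with hS
  have hSθ : ∀ α A v, S (M.θ α A v) = M.θ α A (S v) := by
    intro α A v
    refine ext_inner_left ℂ fun w => ?_
    show ⟪w, (LinearMap.adjoint U) (U (M.θ α A v))⟫_ℂ = ⟪w, M.θ α A ((LinearMap.adjoint U) (U v))⟫_ℂ
    rw [LinearMap.adjoint_inner_right, hU, ← M'.selfAdjoint α A (U w), ← hU,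
      ← M.selfAdjoint α A w, LinearMap.adjoint_inner_right]
  have hSann : ∀ j, ann M j (S Ω) = 0 := by
    intro j
    have h1 : ann M j (S Ω) = S (ann M j Ω) := by
      simp only [ann, LinearMap.add_apply, LinearMap.smul_apply, map_add, map_smul, hSθ]
    rw [h1, h.ann, map_zero]
  obtain ⟨a, ha⟩ := h.line hSann
  have h1 : ⟪Ω, S Ω⟫_ℂ = ⟪Ω, Ω⟫_ℂ := by
    show ⟪Ω, (LinearMap.adjoint U) (U Ω)⟫_ℂ = _
    rw [LinearMap.adjoint_inner_right, inner_self_eq_norm_sq_to_K, inner_self_eq_norm_sq_to_K, hn]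
  have h2 : a = 1 := by
    rw [ha, inner_smul_right] at h1
    have h3 : ⟪Ω, Ω⟫_ℂ ≠ 0 := fun h0 => h.ne (inner_self_eq_zero.1 h0)
    exact mul_right_cancel₀ h3 (h1.trans (one_mul _).symm)
  have h3 : S = LinearMap.id := by
    refine eq_of_intertwine h (θ' := M.θ) hSθ (fun _ _ _ => rfl) ?_
    rw [ha, h2, one_smul]
    rfl
  have h4 : ⟪x, S y⟫_ℂ = ⟪U x, U y⟫_ℂ := by
    show ⟪x, (LinearMap.adjoint U) (U y)⟫_ℂ = _
    rw [LinearMap.adjoint_inner_right]
  rw [← h4, h3]
  rfl

end inter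

end Crest.Agent.R330.Vac973

end
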