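import Mathlib
import Crest.Prelude.Def_MatrixModel
import Crest.Agent.R330.SCoer_186
import Crest.Agent.R330.Ims_714
import Crest.Agent.R330.Graph_893
import Crest.Agent.R330.Rellich_893
import Crest.Agent.R330.Dict_416
import Crest.Agent.R330.WeitzY_726
import Crest.Agent.R330.Sym3_613
import Crest.Agent.R330.Gam_962
import Crest.Agent.R330.Vac_973
import Crest.Agent.R330.Col_962
import Crest.Agent.R330.SDefs_726

-- ▼ part R330/SCoerB_186
section

/-!
Row 330, S13.COER, part 3: radial cut-offs and the global coercivity on the sector.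
-/

set_option autoImplicit false
set_option linter.unusedSectionVars false

noncomputable section

open MeasureTheory Filter Topology Set
open scoped ContDiff InnerProductSpace ENNReal

namespace Crest.Agent.R330.SCoer186

open Crest.MathPhysics.MatrixQM Crest.Agent.R330.Bar186 Crest.Agent.R330.SJop186
open Crest.Agent.R330.SDefs726 (vf rot KP KM vf_add vf_sub vf_rot KP_transpose KM_transpose)

variable {N : ℕ} {F : Type*} [NormedAddCommGroup F] [InnerProductSpace ℂ F]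
  [FiniteDimensional ℂ F]

/-! ### weighted limits -/

/-- the truncated weight -/
def wt (R : ℝ) (x : Cfg N) : ℝ := min ‖x‖ R

theorem continuous_wt (R : ℝ) : Continuous (wt R : Cfg N → ℝ) := continuous_norm.min continuous_const

theorem wt_nonneg {R : ℝ} (hR : 0 ≤ R) (x : Cfg N) : 0 ≤ wt R x := le_min (norm_nonneg _) hR

theorem wt_le {R : ℝ} (x : Cfg N) : wt R x ≤ R := min_le_right _ _

theorem memLp_wt {R : ℝ} (hR : 0 ≤ R) {h : Cfg N → F} (hh : MemLp h 2 volume) :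
    MemLp (fun x => wt R x • h x) 2 volume := by
  refine MemLp.of_le_mul (c := R) hh ((continuous_wt R).aestronglyMeasurable.smul hh.1)
    (Eventually.of_forall fun x => ?_)
  rw [norm_smul, Real.norm_eq_abs, abs_of_nonneg (wt_nonneg hR x)]
  exact mul_le_mul_of_nonneg_right (wt_le x) (norm_nonneg _)

theorem tendsto_eLpNorm_of_n2 {ψ : ℕ → Cfg N → F} {h : Cfg N → F} (hψ : ∀ n, MemLp (ψ n) 2 volume)
    (hh : MemLp h 2 volume) (hl : Tendsto (fun n => n2 (ψ n - h)) atTop (𝓝 0)) :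
    Tendsto (fun n => eLpNorm (ψ n - h) 2 volume) atTop (𝓝 0) := by
  have h3 : Tendsto (fun n => Real.sqrt (n2 (ψ n - h))) atTop (𝓝 0) := by
    have := (Real.continuous_sqrt.tendsto 0).comp hl
    rwa [Real.sqrt_zero] at this
  have h4 := ENNReal.tendsto_ofReal h3
  rw [ENNReal.ofReal_zero] at h4
  refine h4.congr fun n => ?_
  rw [n2_eq ((hψ n).sub hh), Real.sqrt_sq (norm_nonneg _), Lp.norm_toLp,
    ENNReal.ofReal_toReal ((hψ n).sub hh).2.ne]


theorem tendsto_wt {R : ℝ} (hR : 0 ≤ R) {ψ : ℕ → Cfg N → F} {h : Cfg N → F}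
    (hψ : ∀ n, MemLp (ψ n) 2 volume) (hh : MemLp h 2 volume)
    (hl : Tendsto (fun n => n2 (ψ n - h)) atTop (𝓝 0)) :
    Tendsto (fun n => ∫ x, wt R x * ‖ψ n x‖ ^ 2) atTop (𝓝 (∫ x, wt R x * ‖h x‖ ^ 2)) := by
  have hl' := tendsto_eLpNorm_of_n2 hψ hh hl
  have hw : Tendsto (fun n => eLpNorm ((fun x => wt R x • ψ n x) - fun x => wt R x • h x) 2 volume)
      atTop (𝓝 0) := by
    have h1 : Tendsto (fun n => ENNReal.ofReal R * eLpNorm (ψ n - h) 2 volume) atTop (𝓝 0) := by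
      have := ENNReal.Tendsto.const_mul hl' (Or.inr (ENNReal.ofReal_ne_top (r := R)))
      rwa [mul_zero] at this
    refine tendsto_of_tendsto_of_tendsto_of_le_of_le tendsto_const_nhds h1 (fun n => zero_le)
      fun n => ?_
    refine eLpNorm_le_mul_eLpNorm_of_ae_le_mul (Eventually.of_forall fun x => ?_) 2
    simp only [Pi.sub_apply]
    rw [← smul_sub, norm_smul, Real.norm_eq_abs, abs_of_nonneg (wt_nonneg hR x)]
    exact mul_le_mul_of_nonneg_right (wt_le x) (norm_nonneg _)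
  have h1 := IBP837.tendsto_integral_inner hψ hh (fun n => memLp_wt hR (hψ n)) (memLp_wt hR hh)
    hl' hw
  have e : ∀ u : Cfg N → F, ∫ x, ⟪u x, wt R x • u x⟫_ℂ = ((∫ x, wt R x * ‖u x‖ ^ 2 : ℝ) : ℂ) := by
    intro u
    rw [← integral_complex_ofReal]
    refine integral_congr_ae (Eventually.of_forall fun x => ?_)
    simp only []
    rw [← Complex.coe_smul, inner_smul_right, inner_self_eq_norm_sq_to_K]
    push_cast
    rfl
  simp only [e] at h1
  exact (Complex.continuous_re.tendsto _).comp h1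

theorem tendsto_n2 {ψ : ℕ → Cfg N → F} {h : Cfg N → F}
    (hψ : ∀ n, MemLp (ψ n) 2 volume) (hh : MemLp h 2 volume)
    (hl : Tendsto (fun n => n2 (ψ n - h)) atTop (𝓝 0)) :
    Tendsto (fun n => n2 (ψ n)) atTop (𝓝 (n2 h)) := by
  have hl' := tendsto_eLpNorm_of_n2 hψ hh hl
  have h1 := IBP837.tendsto_integral_inner hψ hh hψ hh hl' hl'
  have e : ∀ u : Cfg N → F, ∫ x, ⟪u x, u x⟫_ℂ = ((n2 u : ℝ) : ℂ) := by
    intro u
    unfold n2
    rw [← integral_complex_ofReal]
    refine integral_congr_ae (Eventually.of_forall fun x => ?_)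
    simp only []
    rw [inner_self_eq_norm_sq_to_K]
    push_cast
    rfl
  simp only [e] at h1
  exact (Complex.continuous_re.tendsto _).comp h1

/-- **local coercivity** -/
theorem local_coer {b : ColorBasis 2} {M : FermionRep 2 F} {G : GammaNine} {C : ℝ} (hC : 0 ≤ C)
    (hE : EnergyLB b M G C) {sP : F →ₗ[ℂ] F} {sM : Fin 3 → F →ₗ[ℂ] F} {c : ℝ}
    (hP : ∀ v, ‖sP v‖ ≤ c * ‖v‖) (hM : ∀ k v, ‖sM k v‖ ≤ c * ‖v‖)
    (hPs : ∀ v w, ⟪sP v, w⟫_ℂ = -⟪v, sP w⟫_ℂ) (hMs : ∀ k v w, ⟪sM k v, w⟫_ℂ = -⟪v, sM k w⟫_ℂ)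
    {m : ℝ} (hm : 4 * c + 16 * (C + 1) ≤ |m|) {R : ℝ} (hR : 0 ≤ R)
    {ψ : ℕ → Cfg 2 → F} (hψ : ∀ n, Ts (ψ n)) (hs : ∀ n, SuppIn R (ψ n)) {h : Cfg 2 → F}
    (hh : MemLp h 2 volume) (hl : Tendsto (fun n => n2 (ψ n - h)) atTop (𝓝 0))
    (hq : QCauchy b M G ψ) (hwP : Weak KP (shf sP m) h) (hwM : ∀ k, Weak (KM k) (sM k) h) :
    ∀ ε : ℝ, 0 < ε → ∀ᶠ n in atTop, ∫ x, wt R x * ‖h x‖ ^ 2 ≤ q b M G (ψ n) + ε := by
  intro ε hε
  have h1 := tendsto_wt hR (fun n => (hψ n).memLp) hh hl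
  have hX : ∀ n, ∫ x, wt R x * ‖ψ n x‖ ^ 2 = ∫ x, ‖x‖ * ‖ψ n x‖ ^ 2 := by
    intro n
    refine integral_congr_ae (Eventually.of_forall fun x => ?_)
    by_cases hx : x ∈ tsupport (ψ n)
    · simp only [wt, min_eq_left (hs n x hx)]
    · simp only [image_eq_zero_of_notMem_tsupport hx]; simp
  have h0 := Jop_tendsto hC hE KP_transpose (shf_skew hPs m) hR hψ hs hh hl hq hwP
  have hk := fun k => Jop_tendsto hC hE (KM_transpose k) (hMs k) hR hψ hs hh hl hq (hwM k)
  have hsq : ∀ {u : ℕ → ℝ}, Tendsto u atTop (𝓝 0) → Tendsto (fun n => Real.sqrt (u n)) atTop (𝓝 0) := by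
    intro u hu
    have := (Real.continuous_sqrt.tendsto 0).comp hu
    rwa [Real.sqrt_zero] at this
  have hrem : Tendsto (fun n => R * ((Real.sqrt (n2 (Jop KP (shf sP m) (ψ n))) +
      ∑ k, Real.sqrt (n2 (Jop (KM k) (sM k) (ψ n)))) * Real.sqrt (n2 (ψ n)))) atTop (𝓝 0) := by
    have hb := (Real.continuous_sqrt.tendsto _).comp (tendsto_n2 (fun n => (hψ n).memLp) hh hl)
    have hs' := tendsto_finset_sum Finset.univ fun k _ => hsq (hk k)
    have := ((hsq h0).add hs').mul hb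
    have := this.const_mul R
    simpa using this
  filter_upwards [h1.eventually (lt_mem_nhds (a := (∫ x, wt R x * ‖h x‖ ^ 2) - ε / 2) (by linarith)),
    hrem.eventually (gt_mem_nhds (by positivity : 0 < ε / 2))] with n hn1 hn2
  rw [hX] at hn1
  have := integrated hE hP hM hm hR (hψ n) (hs n)
  linarith

/-! ### radial cut-offs -/

/-- the profile: `1` for `s ≤ 1`, `0` for `s ≥ 2` -/
def prof (s : ℝ) : ℝ := Real.smoothTransition (2 - s)

theorem prof_contDiff : ContDiff ℝ ∞ prof := by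
  unfold prof
  exact Real.smoothTransition.contDiff.comp (contDiff_const.sub contDiff_id)

theorem prof_one {s : ℝ} (h : s ≤ 1) : prof s = 1 :=
  Real.smoothTransition.one_of_one_le (by linarith)

theorem prof_zero {s : ℝ} (h : 2 ≤ s) : prof s = 0 :=
  Real.smoothTransition.zero_of_nonpos (by linarith)

theorem prof_nonneg (s : ℝ) : 0 ≤ prof s := Real.smoothTransition.nonneg _

theorem prof_le_one (s : ℝ) : prof s ≤ 1 := Real.smoothTransition.le_one _

theorem exists_prof_deriv : ∃ K : ℝ, 0 ≤ K ∧ (∀ s, |deriv prof s| ≤ K) ∧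
    ∀ s, 2 < s → deriv prof s = 0 := by
  have hc : Continuous (deriv prof) := prof_contDiff.continuous_deriv (by simp)
  obtain ⟨K, hK⟩ := (isCompact_Icc (a := (1 : ℝ)) (b := 2)).exists_bound_of_continuousOn
    hc.continuousOn
  have h2 : ∀ s, 2 < s → deriv prof s = 0 := by
    intro s hs
    have : prof =ᶠ[𝓝 s] fun _ => 0 := by
      filter_upwards [lt_mem_nhds hs] with t ht
      exact prof_zero ht.le
    rw [this.deriv_eq]
    simp
  have h1 : ∀ s, s < 1 → deriv prof s = 0 := by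
    intro s hs
    have : prof =ᶠ[𝓝 s] fun _ => 1 := by
      filter_upwards [gt_mem_nhds hs] with t ht
      exact prof_one ht.le
    rw [this.deriv_eq]
    simp
  refine ⟨|K|, abs_nonneg _, fun s => ?_, h2⟩
  rcases lt_or_ge s 1 with h | h
  · rw [h1 s h]; simp
  · rcases lt_or_ge 2 s with h' | h'
    · rw [h2 s h']; simp
    · exact (hK s ⟨h, h'⟩).trans (le_abs_self _)

/-- radial cut-off at radius `R` -/
def cut (R : ℝ) (x : Cfg N) : ℝ := prof (‖x‖ ^ 2 / R ^ 2)

theorem cut_contDiff (R : ℝ) : ContDiff ℝ ∞ (cut R : Cfg N → ℝ) :=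
  prof_contDiff.comp ((contDiff_norm_sq ℝ).div_const _)

theorem cut_nonneg (R : ℝ) (x : Cfg N) : 0 ≤ cut R x := prof_nonneg _

theorem cut_le_one (R : ℝ) (x : Cfg N) : cut R x ≤ 1 := prof_le_one _

theorem cut_one {R : ℝ} (hR : 0 < R) {x : Cfg N} (h : ‖x‖ ≤ R) : cut R x = 1 := by
  refine prof_one ?_
  rw [div_le_one (by positivity)]
  gcongr

theorem cut_zero {R : ℝ} (hR : 0 < R) {x : Cfg N} (h : 2 * R ≤ ‖x‖) : cut R x = 0 := by
  refine prof_zero ?_
  rw [le_div_iff₀ (by positivity)]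
  nlinarith

theorem fderiv_cut (R : ℝ) (x v : Cfg N) :
    fderiv ℝ (cut R) x v = deriv prof (‖x‖ ^ 2 / R ^ 2) * (2 * ⟪x, v⟫_ℝ / R ^ 2) := by
  have h1 : HasFDerivAt (fun x : Cfg N => ‖x‖ ^ 2 / R ^ 2)
      ((R ^ 2)⁻¹ • (2 • (innerSL ℝ x))) x := by
    have := (hasStrictFDerivAt_norm_sq x).hasFDerivAt.const_mul (R ^ 2)⁻¹
    simpa [div_eq_inv_mul] using this
  have h2 : HasDerivAt prof (deriv prof (‖x‖ ^ 2 / R ^ 2)) (‖x‖ ^ 2 / R ^ 2) :=
    (prof_contDiff.differentiable (by simp)).differentiableAt.hasDerivAt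
  have h3 := h2.comp_hasFDerivAt x h1
  have h4 : fderiv ℝ (cut R) x = deriv prof (‖x‖ ^ 2 / R ^ 2) • ((R ^ 2)⁻¹ • (2 • (innerSL ℝ x))) :=
    h3.fderiv
  rw [h4]
  show deriv prof (‖x‖ ^ 2 / R ^ 2) * ((R ^ 2)⁻¹ * (2 • ⟪x, v⟫_ℝ)) = _
  rw [nsmul_eq_mul]
  push_cast
  ring

theorem inner_vf {a : Matrix (Fin 9) (Fin 9) ℝ} (ha : a.transpose = -a) (x : Cfg N) :
    ⟪x, vf a x⟫_ℝ = 0 := by
  have h1 : ⟪x, vf a x⟫_ℝ = ∑ A, ∑ i, ∑ j, a i j * (x (i, A) * x (j, A)) := by
    rw [PiLp.inner_apply, Fintype.sum_prod_type, Finset.sum_comm]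
    refine Finset.sum_congr rfl fun A _ => Finset.sum_congr rfl fun i _ => ?_
    rw [vf_ap]
    simp only [RCLike.inner_apply, conj_trivial, Finset.sum_mul]
    exact Finset.sum_congr rfl fun j _ => by ring
  have h2 : ∀ A, ∑ i, ∑ j, a i j * (x (i, A) * x (j, A)) = 0 := by
    intro A
    have e : ∑ i, ∑ j, a i j * (x (i, A) * x (j, A)) =
        -∑ i, ∑ j, a i j * (x (i, A) * x (j, A)) := by
      conv_lhs => rw [Finset.sum_comm]
      rw [← Finset.sum_neg_distrib]
      refine Finset.sum_congr rfl fun i _ => ?_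
      rw [← Finset.sum_neg_distrib]
      refine Finset.sum_congr rfl fun j _ => ?_
      rw [anti_of ha j i]
      ring
    linarith
  rw [h1]
  exact Finset.sum_eq_zero fun A _ => h2 A

theorem fderiv_cut_vf (R : ℝ) {a : Matrix (Fin 9) (Fin 9) ℝ} (ha : a.transpose = -a) (x : Cfg N) :
    fderiv ℝ (cut R) x (vf a x) = 0 := by
  rw [fderiv_cut, inner_vf ha]
  simp

/-- gradient bound, uniform constant over `R` -/
theorem exists_grad_cut : ∃ K : ℝ, 0 ≤ K ∧ ∀ R : ℝ, 0 < R → ∀ x : Cfg N,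
    ‖Ims714.grad (cut R) x‖ ≤ K / R := by
  obtain ⟨K, hK, hKle, hK0⟩ := exists_prof_deriv
  refine ⟨4 * K, by positivity, fun R hR x => ?_⟩
  have hg : Ims714.grad (cut R) x = (deriv prof (‖x‖ ^ 2 / R ^ 2) * (2 / R ^ 2)) • x := by
    ext p
    rw [Ims714.grad_apply, fderiv_cut, EuclideanSpace.inner_single_right]
    simp
    ring
  rw [hg, norm_smul, Real.norm_eq_abs, abs_mul, abs_of_nonneg (by positivity : 0 ≤ 2 / R ^ 2)]
  rcases le_or_gt ‖x‖ (2 * R) with h | h
  · calc |deriv prof (‖x‖ ^ 2 / R ^ 2)| * (2 / R ^ 2) * ‖x‖ ≤ K * (2 / R ^ 2) * (2 * R) := by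
          gcongr; exact hKle _
      _ = 4 * K / R := by field_simp; ring
  · rw [hK0 _ (by rw [lt_div_iff₀ (by positivity)]; nlinarith)]
    simp
    positivity

theorem Ts.cut {ψ : Cfg N → F} (h : Ts ψ) (R : ℝ) : Ts fun x => cut R x • ψ x :=
  ⟨(cut_contDiff R).smul h.1, h.2.smul_left⟩

theorem suppIn_cut {R : ℝ} (hR : 0 < R) (ψ : Cfg N → F) : SuppIn (2 * R) fun x => cut R x • ψ x := by
  intro x hx
  by_contra hlt
  rw [not_le] at hlt
  have h1 : (fun x => cut R x • ψ x) =ᶠ[𝓝 x] 0 := by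
    filter_upwards [continuous_norm.continuousAt.eventually (lt_mem_nhds hlt)] with y hy
    rw [cut_zero hR hy.le]; simp
  exact (notMem_tsupport_iff_eventuallyEq.2 h1) hx

theorem Weak.cut {a : Matrix (Fin 9) (Fin 9) ℝ} (ha : a.transpose = -a) {S : F →ₗ[ℂ] F}
    {h : Cfg N → F} (hw : Weak a S h) (R : ℝ) : Weak a S fun x => cut R x • h x := by
  intro η hη
  have h1 := hw _ (hη.cut R)
  rw [← h1]
  refine integral_congr_ae (Eventually.of_forall fun x => ?_)
  simp only []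
  rw [Jop_mul a S ((cut_contDiff R).differentiable (by simp)) hη.diff (fderiv_cut_vf R ha),
    ← Complex.coe_smul, ← Complex.coe_smul, inner_smul_left, inner_smul_right, Complex.conj_ofReal]

/-! ### the form of a cut-off function -/

theorem integrable_sq {u : Cfg N → F} (hu : Ts u) : Integrable (fun x => ‖u x‖ ^ 2) volume := by
  simpa using integrable_mul_sq hu (w := fun _ => 1) continuous_const

theorem Ts.sc {b : ColorBasis N} {M : FermionRep N F} {G : GammaNine} {α : Fin 16} {ψ : Cfg N → F}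
    (h : Ts ψ) : Ts (supercharge b M G α ψ) :=
  ⟨IBP837.contDiff_supercharge h.1, IBP837.hasCompactSupport_supercharge h.2⟩

theorem q_cut_le (b : ColorBasis N) (M : FermionRep N F) (G : GammaNine) {K : ℝ} (hK : 0 ≤ K)
    (hKle : ∀ R : ℝ, 0 < R → ∀ x : Cfg N, ‖Ims714.grad (cut R) x‖ ≤ K / R) {R : ℝ} (hR : 0 < R)
    {t : ℝ} (ht : 0 < t) {ψ : Cfg N → F} (hψ : Ts ψ) :
    q b M G (fun x => cut R x • ψ x) ≤
      (1 + t) * q b M G ψ + (1 + 1 / t) * (1 / 2 * (K / R) ^ 2 * n2 ψ) := by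
  have hα : ∀ α, ∫ x, ‖supercharge b M G α (fun x => cut R x • ψ x) x‖ ^ 2 ≤
      (1 + t) * (∫ x, ‖supercharge b M G α ψ x‖ ^ 2) +
        (1 + 1 / t) * (1 / 2 * (K / R) ^ 2 * n2 ψ) := by
    intro α
    have i1 := integrable_sq (hψ.sc (b := b) (M := M) (G := G) (α := α))
    have i2 := integrable_sq hψ
    have i3 := integrable_sq ((hψ.cut R).sc (b := b) (M := M) (G := G) (α := α))
    have hpt : ∀ x, ‖supercharge b M G α (fun x => cut R x • ψ x) x‖ ^ 2 ≤
        (1 + t) * ‖supercharge b M G α ψ x‖ ^ 2 +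
          (1 + 1 / t) * (1 / 2 * (K / R) ^ 2) * ‖ψ x‖ ^ 2 := by
      intro x
      have h1 := Ims714.normSq_dop_mul_le G M α (Ims714.wquart b M G α)
        (((cut_contDiff R).differentiable (by simp)) x) (hψ.diff x) ht
      rw [← Ims714.supercharge_eq_dop, ← Ims714.supercharge_eq_dop] at h1
      refine h1.trans ?_
      have h2 : cut R x ^ 2 ≤ 1 := pow_le_one₀ (cut_nonneg R x) (cut_le_one R x)
      have h3 : ‖Ims714.grad (cut R) x‖ ^ 2 ≤ (K / R) ^ 2 := by
        gcongr; exact hKle R hR x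
      have h4 : cut R x ^ 2 * ‖supercharge b M G α ψ x‖ ^ 2 ≤ 1 * ‖supercharge b M G α ψ x‖ ^ 2 :=
        mul_le_mul_of_nonneg_right h2 (by positivity)
      have h5 : 1 / 2 * ‖Ims714.grad (cut R) x‖ ^ 2 * ‖ψ x‖ ^ 2 ≤
          1 / 2 * (K / R) ^ 2 * ‖ψ x‖ ^ 2 := by gcongr
      have h6 : (1 + t) * (cut R x ^ 2 * ‖supercharge b M G α ψ x‖ ^ 2) ≤
          (1 + t) * (1 * ‖supercharge b M G α ψ x‖ ^ 2) :=
        mul_le_mul_of_nonneg_left h4 (by positivity)
      have h7 : (1 + 1 / t) * (1 / 2 * ‖Ims714.grad (cut R) x‖ ^ 2 * ‖ψ x‖ ^ 2) ≤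
          (1 + 1 / t) * (1 / 2 * (K / R) ^ 2 * ‖ψ x‖ ^ 2) :=
        mul_le_mul_of_nonneg_left h5 (by positivity)
      calc _ ≤ (1 + t) * (1 * ‖supercharge b M G α ψ x‖ ^ 2) +
            (1 + 1 / t) * (1 / 2 * (K / R) ^ 2 * ‖ψ x‖ ^ 2) := add_le_add h6 h7
        _ = _ := by ring
    calc _ ≤ ∫ x, ((1 + t) * ‖supercharge b M G α ψ x‖ ^ 2 +
          (1 + 1 / t) * (1 / 2 * (K / R) ^ 2) * ‖ψ x‖ ^ 2) :=
          integral_mono i3 ((i1.const_mul _).add (i2.const_mul _)) hpt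
      _ = _ := by
          rw [integral_add (i1.const_mul _) (i2.const_mul _), integral_const_mul,
            integral_const_mul, n2]
          ring
  unfold q
  have h1 : ∑ α, ∫ x, ‖supercharge b M G α (fun x => cut R x • ψ x) x‖ ^ 2 ≤
      ∑ α : Fin 16, ((1 + t) * (∫ x, ‖supercharge b M G α ψ x‖ ^ 2) +
        (1 + 1 / t) * (1 / 2 * (K / R) ^ 2 * n2 ψ)) := Finset.sum_le_sum fun α _ => hα α
  rw [Finset.sum_add_distrib, ← Finset.mul_sum, Finset.sum_const, Finset.card_univ,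
    Fintype.card_fin, nsmul_eq_mul] at h1
  push_cast at h1
  linarith

theorem q_nonneg (b : ColorBasis N) (M : FermionRep N F) (G : GammaNine) (ψ : Cfg N → F) :
    0 ≤ q b M G ψ := by
  unfold q
  have : ∀ α, 0 ≤ ∫ x, ‖supercharge b M G α ψ x‖ ^ 2 := fun α =>
    integral_nonneg fun x => by positivity
  have := Finset.sum_nonneg fun α (_ : α ∈ Finset.univ) => this α
  linarith

/-- **global coercivity on the sector** -/
theorem coer {b : ColorBasis 2} {M : FermionRep 2 F} {G : GammaNine} {C : ℝ} (hC : 0 ≤ C)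
    (hE : EnergyLB b M G C) {sP : F →ₗ[ℂ] F} {sM : Fin 3 → F →ₗ[ℂ] F} {c : ℝ}
    (hP : ∀ v, ‖sP v‖ ≤ c * ‖v‖) (hM : ∀ k v, ‖sM k v‖ ≤ c * ‖v‖)
    (hPs : ∀ v w, ⟪sP v, w⟫_ℂ = -⟪v, sP w⟫_ℂ) (hMs : ∀ k v w, ⟪sM k v, w⟫_ℂ = -⟪v, sM k w⟫_ℂ)
    {m : ℝ} (hm : 4 * c + 16 * (C + 1) ≤ |m|)
    {φ : ℕ → Cfg 2 → F} (hφ : ∀ n, Ts (φ n)) {f : Cfg 2 → F}
    (hf : MemLp f 2 volume) (hl : Tendsto (fun n => n2 (φ n - f)) atTop (𝓝 0))
    (hq : QCauchy b M G φ) {Q : ℝ} (hQ : Tendsto (fun n => q b M G (φ n)) atTop (𝓝 Q))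
    (hwP : Weak KP (shf sP m) f) (hwM : ∀ k, Weak (KM k) (sM k) f) :
    Integrable (fun x => ‖x‖ * ‖f x‖ ^ 2) volume ∧ ∫ x, ‖x‖ * ‖f x‖ ^ 2 ≤ Q := by
  obtain ⟨K, hK, hKle⟩ := exists_grad_cut (N := 2)
  have hf2 := n2_nonneg f
  -- bound on balls
  have hball : ∀ R : ℝ, 0 < R → ∀ t : ℝ, 0 < t → ∫ x in Metric.closedBall (0 : Cfg 2) R,
      ‖x‖ * ‖f x‖ ^ 2 ≤ (1 + t) * Q + (1 + 1 / t) * (1 / 2 * (K / R) ^ 2 * n2 f) := by
    intro R hR t ht
    set ψ : ℕ → Cfg 2 → F := fun n x => cut R x • φ n x with hψ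
    set h : Cfg 2 → F := fun x => cut R x • f x with hh
    have hψT : ∀ n, Ts (ψ n) := fun n => (hφ n).cut R
    have hcutle : ∀ (u : Cfg 2 → F) (x : Cfg 2), ‖cut R x • u x‖ ≤ ‖u x‖ := by
      intro u x
      rw [norm_smul, Real.norm_eq_abs, abs_of_nonneg (cut_nonneg R x)]
      have := mul_le_mul_of_nonneg_right (cut_le_one R x) (norm_nonneg (u x))
      linarith
    have hhL : MemLp h 2 volume := by
      refine MemLp.of_le hf ((cut_contDiff R).continuous.aestronglyMeasurable.smul hf.1)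
        (Eventually.of_forall fun x => hcutle f x)
    have hl' : Tendsto (fun n => n2 (ψ n - h)) atTop (𝓝 0) := by
      refine tendsto_of_tendsto_of_tendsto_of_le_of_le tendsto_const_nhds hl
        (fun n => n2_nonneg _) fun n => ?_
      refine integral_mono (by simpa using (memLp_two_iff_integrable_sq_norm
        ((hψT n).memLp.sub hhL).1).1 ((hψT n).memLp.sub hhL))
        (by simpa using (memLp_two_iff_integrable_sq_norm
        ((hφ n).memLp.sub hf).1).1 ((hφ n).memLp.sub hf)) fun x => ?_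
      simp only [hψ, hh, Pi.sub_apply, ← smul_sub]
      have := hcutle (fun x => φ n x - f x) x
      gcongr
    have hq' : QCauchy b M G ψ := by
      intro ε hε
      set δ : ℝ := ε / (2 * (2 + (K / R) ^ 2)) with hδ
      have hδ0 : 0 < δ := by positivity
      obtain ⟨n₁, h₁⟩ := hq δ hδ0
      obtain ⟨n₂, h₂⟩ := n2_cauchy hφ hf hl δ hδ0
      refine ⟨max n₁ n₂, fun n hn k hk => ?_⟩
      have hqn := h₁ n (le_trans (le_max_left _ _) hn) k (le_trans (le_max_left _ _) hk)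
      have hnn := h₂ n (le_trans (le_max_right _ _) hn) k (le_trans (le_max_right _ _) hk)
      have e : ψ n - ψ k = fun x => cut R x • (φ n - φ k) x := by
        funext x; simp only [hψ, Pi.sub_apply, smul_sub]
      rw [e]
      have h3 := q_cut_le b M G hK hKle hR one_pos ((hφ n).sub (hφ k))
      have h4 : (2 + (K / R) ^ 2) * δ = ε / 2 := by
        rw [hδ]; field_simp
      have h5 : (K / R) ^ 2 * n2 (φ n - φ k) ≤ (K / R) ^ 2 * δ :=
        mul_le_mul_of_nonneg_left hnn.le (by positivity)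
      nlinarith
    have hev := local_coer hC hE hP hM hPs hMs hm (by positivity : (0 : ℝ) ≤ 2 * R) hψT
      (fun n => suppIn_cut hR _) hhL hl' hq' (hwP.cut KP_transpose R)
      (fun k => (hwM k).cut (KM_transpose k) R)
    have hlim : Tendsto (fun n => (1 + t) * q b M G (φ n) +
        (1 + 1 / t) * (1 / 2 * (K / R) ^ 2 * n2 (φ n))) atTop
        (𝓝 ((1 + t) * Q + (1 + 1 / t) * (1 / 2 * (K / R) ^ 2 * n2 f))) :=
      (hQ.const_mul _).add (((tendsto_n2 (fun n => (hφ n).memLp) hf hl).const_mul _).const_mul _)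
    have h1 : ∫ x, wt (2 * R) x * ‖h x‖ ^ 2 ≤
        (1 + t) * Q + (1 + 1 / t) * (1 / 2 * (K / R) ^ 2 * n2 f) := by
      refine le_of_forall_pos_le_add fun ε hε => ?_
      have h2 : Tendsto (fun n => (1 + t) * q b M G (φ n) +
          (1 + 1 / t) * (1 / 2 * (K / R) ^ 2 * n2 (φ n)) + ε) atTop
          (𝓝 ((1 + t) * Q + (1 + 1 / t) * (1 / 2 * (K / R) ^ 2 * n2 f) + ε)) := hlim.add_const ε
      refine ge_of_tendsto h2 ?_
      filter_upwards [hev ε hε] with n hn
      have := q_cut_le b M G hK hKle hR ht (hφ n)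
      linarith
    refine le_trans ?_ h1
    have hi : Integrable (fun x => wt (2 * R) x * ‖h x‖ ^ 2) volume := by
      have := (memLp_two_iff_integrable_sq_norm hhL.1).1 hhL
      refine (this.const_mul (2 * R)).mono'
        ((continuous_wt _).aestronglyMeasurable.mul this.1) (Eventually.of_forall fun x => ?_)
      rw [Real.norm_eq_abs, abs_of_nonneg (mul_nonneg (wt_nonneg (by positivity) x) (by positivity))]
      exact mul_le_mul_of_nonneg_right (wt_le x) (by positivity)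
    calc ∫ x in Metric.closedBall (0 : Cfg 2) R, ‖x‖ * ‖f x‖ ^ 2
        = ∫ x in Metric.closedBall (0 : Cfg 2) R, wt (2 * R) x * ‖h x‖ ^ 2 := by
          refine setIntegral_congr_fun Metric.isClosed_closedBall.measurableSet fun x hx => ?_
          rw [mem_closedBall_zero_iff] at hx
          simp only [hh, cut_one hR hx, one_smul, wt]
          rw [min_eq_left (by linarith)]
      _ ≤ _ := setIntegral_le_integral hi (Eventually.of_forall fun x =>
          mul_nonneg (wt_nonneg (by positivity) x) (by positivity))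
  have hcov : AECover (volume : Measure (Cfg 2)) atTop
      (fun n : ℕ => Metric.closedBall (0 : Cfg 2) ((n : ℝ) + 1)) :=
    aecover_closedBall (tendsto_atTop_add_const_right _ _ tendsto_natCast_atTop_atTop)
  have hf2i := (memLp_two_iff_integrable_sq_norm hf.1).1 hf
  have hint : Integrable (fun x => ‖x‖ * ‖f x‖ ^ 2) volume := by
    refine hcov.integrable_of_integral_bounded_of_nonneg_ae
      (2 * Q + (2 * (1 / 2 * K ^ 2 * n2 f))) (fun n => ?_)
      (Eventually.of_forall fun x => by positivity) (Eventually.of_forall fun n => ?_)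
    · refine Integrable.mono' ((hf2i.const_mul ((n : ℝ) + 1)).integrableOn)
        ((continuous_norm.aestronglyMeasurable.mul hf2i.1).restrict) ?_
      refine (ae_restrict_iff' Metric.isClosed_closedBall.measurableSet).2
        (Eventually.of_forall fun x hx => ?_)
      rw [mem_closedBall_zero_iff] at hx
      rw [Real.norm_eq_abs, abs_of_nonneg (by positivity)]
      exact mul_le_mul_of_nonneg_right hx (by positivity)
    · have h1 := hball ((n : ℝ) + 1) (by positivity) 1 one_pos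
      have h2 : (K / ((n : ℝ) + 1)) ^ 2 ≤ K ^ 2 := by
        have : K / ((n : ℝ) + 1) ≤ K := div_le_self hK (by linarith [(Nat.cast_nonneg n : (0:ℝ) ≤ n)])
        gcongr
      have h3 : (1 / 2 * (K / ((n : ℝ) + 1)) ^ 2 * n2 f) ≤ 1 / 2 * K ^ 2 * n2 f := by gcongr
      linarith
  refine ⟨hint, ?_⟩
  have hlim := hcov.integral_tendsto_of_countably_generated hint
  have hQ0 : 0 ≤ Q := ge_of_tendsto hQ (Eventually.of_forall fun n => q_nonneg b M G _)
  -- first `R → ∞`, then `t → 0`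
  have hstep : ∀ t : ℝ, 0 < t → ∫ x, ‖x‖ * ‖f x‖ ^ 2 ≤ (1 + t) * Q := by
    intro t ht
    have h1 : Tendsto (fun n : ℕ => (1 + t) * Q +
        (1 + 1 / t) * (1 / 2 * (K / ((n : ℝ) + 1)) ^ 2 * n2 f)) atTop
        (𝓝 ((1 + t) * Q + (1 + 1 / t) * (1 / 2 * 0 ^ 2 * n2 f))) := by
      have h2 : Tendsto (fun n : ℕ => K / ((n : ℝ) + 1)) atTop (𝓝 0) :=
        tendsto_const_nhds.div_atTop
          (tendsto_atTop_add_const_right _ _ tendsto_natCast_atTop_atTop)
      exact ((((h2.pow 2).const_mul (1 / 2)).mul_const _).const_mul _).const_add _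
    have h3 := le_of_tendsto_of_tendsto hlim h1 (Eventually.of_forall fun n =>
      hball ((n : ℝ) + 1) (by positivity) t ht)
    simpa using h3
  refine le_of_forall_pos_le_add fun ε hε => ?_
  have h1 := hstep (ε / (Q + 1)) (by positivity)
  have h2 : ε / (Q + 1) * Q ≤ ε := by
    rw [div_mul_eq_mul_div, div_le_iff₀ (by positivity)]
    nlinarith
  linarith

end Crest.Agent.R330.SCoer186
end
end

-- ▼ part R330/Cpt13_893
section

/-!
# Row 330, S13.CPT (helper893): compactness of the form domain in the symmetry sector, two colours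

`Qd : core b R → K` with `‖Qd φ‖² = q φ` (the closed charges). For `v` in the closed graph `Gph (ιC R) Qd`
whose `L²` part satisfies the weak sector equations, 186's coercivity gives `∫ |x| ‖f‖² ≤ ‖W v‖²`
(`tail_bound`); with the local Rellich theorem every bounded sequence has a subsequence converging
in `L²` (`cpt`).
-/

set_option autoImplicit false
set_option linter.unusedSectionVars false

open MeasureTheory Filter Topology Set
open scoped ContDiff InnerProductSpace ENNReal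

noncomputable section

namespace Crest.Agent.R330.Cpt893

open Crest.MathPhysics.MatrixQM
open Crest.Agent.R330.Defs478 (core)
open Crest.Agent.R330.Dict416 (L2 ιC cv_memLp norm_ιC_sub_sq norm_toLp_sq)
open Crest.Agent.R330.Graph893
open Crest.Agent.R330.SCoer186
open Crest.Agent.R330.SDefs726 (KP KM)

section general

variable {N : ℕ} {F : Type*} [NormedAddCommGroup F] [InnerProductSpace ℂ F]
  [FiniteDimensional ℂ F] {b : ColorBasis N} {M : FermionRep N F} {R : GaugeAction b M}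
  {G : GammaNine} {K : Type*} [NormedAddCommGroup K] [InnerProductSpace ℂ K]

theorem ts_core (φ : core b R) : Ts φ.1 := ⟨φ.2.1, φ.2.2.1⟩

theorem n2_sub_core (φ : core b R) (f : L2 N F) :
    n2 (φ.1 - (f : Cfg N → F)) = ‖ιC R φ - f‖ ^ 2 := by
  have h := norm_ιC_sub_sq (R := R) φ (Lp.memLp f)
  rw [Lp.toLp_coeFn] at h
  rw [h]
  rfl

theorem n2_core (φ : core b R) : n2 φ.1 = ‖ιC R φ‖ ^ 2 := (norm_toLp_sq (cv_memLp φ.2)).symm

theorem exists_seq' {Qd : core b R →ₗ[ℂ] K} (v : Gph (ιC R) Qd) : ∃ φ : ℕ → core b R,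
    Tendsto (fun n => gv (ιC R) Qd (φ n)) atTop (𝓝 v) := Graph893.exists_seq v

variable (Qd : core b R →ₗ[ℂ] K) (hQd : ∀ φ, ‖Qd φ‖ ^ 2 = q b M G φ.1)

include hQd in
theorem q_tendsto {φ : ℕ → core b R} {v : Gph (ιC R) Qd}
    (h : Tendsto (fun n => gv (ιC R) Qd (φ n)) atTop (𝓝 v)) :
    Tendsto (fun n => q b M G (φ n).1) atTop (𝓝 (‖WG (ιC R) Qd v‖ ^ 2)) := by
  have h1 := ((tendsto_W h).norm.pow 2)
  simpa only [hQd] using h1

include hQd in
theorem q_cauchy {φ : ℕ → core b R} {v : Gph (ιC R) Qd}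
    (h : Tendsto (fun n => gv (ιC R) Qd (φ n)) atTop (𝓝 v)) :
    QCauchy b M G fun n => (φ n).1 := by
  intro ε hε
  have h1 := (tendsto_W h).cauchySeq
  rw [Metric.cauchySeq_iff] at h1
  obtain ⟨n₀, h2⟩ := h1 (Real.sqrt ε) (Real.sqrt_pos.2 hε)
  refine ⟨n₀, fun n hn k hk => ?_⟩
  have h3 := h2 n hn k hk
  have h4 : (φ n).1 - (φ k).1 = (φ n - φ k).1 := rfl
  rw [h4, ← hQd, map_sub, ← dist_eq_norm]
  calc dist (Qd (φ n)) (Qd (φ k)) ^ 2 < Real.sqrt ε ^ 2 := by gcongr
    _ = ε := Real.sq_sqrt hε.le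

theorem n2_tendsto {φ : ℕ → core b R} {v : Gph (ιC R) Qd}
    (h : Tendsto (fun n => gv (ιC R) Qd (φ n)) atTop (𝓝 v)) :
    Tendsto (fun n => n2 ((φ n).1 - (JG (ιC R) Qd v : Cfg N → F))) atTop (𝓝 0) := by
  have h1 := tendsto_iff_norm_sub_tendsto_zero.1 (tendsto_J h)
  have h2 := h1.pow 2
  simp only [ne_eq, OfNat.ofNat_ne_zero, not_false_eq_true, zero_pow] at h2
  simpa only [n2_sub_core] using h2

/-- the truncated sequence converges locally along the ultrafilter -/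
theorem local_conv {C : ℝ} (hC : 0 ≤ C) (hE : EnergyLB b M G C) {φ : ℕ → Cfg N → F}
    (hφ : ∀ n, Ts (φ n)) {B : ℝ} (h0 : ∀ n, n2 (φ n) ≤ B) (h1 : ∀ n, q b M G (φ n) ≤ B)
    {r : ℝ} (hr : 0 < r) :
    ∃ Ψ : Cfg N → F, MemLp Ψ 2 volume ∧
      Tendsto (fun n => ∫ x in {x : Cfg N | ‖x‖ ≤ r}, ‖φ n x - Ψ x‖ ^ 2)
        (hyperfilter ℕ : Filter ℕ) (𝓝 0) := by
  obtain ⟨A, hA, hAle⟩ := exists_grad_cut (N := N)
  have hB : 0 ≤ B := (n2_nonneg _).trans (h0 0)
  set ψ : ℕ → Cfg N → F := fun n x => cut r x • φ n x with hψ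
  have hψT : ∀ n, Ts (ψ n) := fun n => (hφ n).cut r
  have hn : ∀ n, n2 (ψ n) ≤ B := by
    intro n
    refine le_trans ?_ (h0 n)
    refine integral_mono (integrable_sq (hψT n)) (integrable_sq (hφ n)) fun x => ?_
    simp only [hψ, norm_smul, Real.norm_eq_abs, abs_of_nonneg (cut_nonneg r x)]
    have h2 : cut r x * ‖φ n x‖ ≤ 1 * ‖φ n x‖ :=
      mul_le_mul_of_nonneg_right (cut_le_one r x) (norm_nonneg _)
    rw [one_mul] at h2
    have h3 : 0 ≤ cut r x * ‖φ n x‖ := mul_nonneg (cut_nonneg r x) (norm_nonneg _)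
    gcongr
  have hq : ∀ n, q b M G (ψ n) ≤ 2 * B + (A / r) ^ 2 * B := by
    intro n
    have h2 := q_cut_le b M G hA hAle hr one_pos (hφ n)
    have h3 := h1 n
    have h4 := h0 n
    have h5 : (A / r) ^ 2 * n2 (φ n) ≤ (A / r) ^ 2 * B :=
      mul_le_mul_of_nonneg_left h4 (by positivity)
    have h6 : q b M G (ψ n) ≤ (1 + 1) * q b M G (φ n) +
        (1 + 1 / 1) * (1 / 2 * (A / r) ^ 2 * n2 (φ n)) := h2
    linarith
  set B' : ℝ := max B (2 * (2 * B + (A / r) ^ 2 * B) + 2 * C * (2 * r) * B) with hB'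
  have hen : ∀ n, en (ψ n) ≤ B' := by
    intro n
    have h2 := en_le hC hE (hψT n) (suppIn_cut hr (φ n))
    have h3 := hq n
    have h4 : 2 * C * (2 * r) * n2 (ψ n) ≤ 2 * C * (2 * r) * B :=
      mul_le_mul_of_nonneg_left (hn n) (by positivity)
    refine le_trans ?_ (le_max_right _ _)
    linarith
  obtain ⟨Ψ, hΨ, hloc⟩ := Rel893.rellich_hyper (φ := ψ) (fun n => (hψT n).1) (fun n => (hψT n).2)
    (C := B') (fun n => (hn n).trans (le_max_left _ _)) (fun n => by
      refine le_trans (le_of_eq ?_) (hen n)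
      unfold en
      refine integral_congr_ae (Eventually.of_forall fun x => ?_)
      simp only [Bar186.gsq, SJop186.gr, Fintype.sum_prod_type])
  refine ⟨Ψ, hΨ, (hloc r).congr fun n => ?_⟩
  have hms : MeasurableSet {x : Cfg N | ‖x‖ ≤ r} := measurableSet_le measurable_norm measurable_const
  refine setIntegral_congr_fun hms fun x hx => ?_
  simp only [hψ, cut_one hr hx, one_smul]

/-- splitting of the distance to a truncated function -/
theorem n2_split {f φ Ψ : Cfg N → F} (hf : MemLp f 2 volume) (hφ : MemLp φ 2 volume)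
    (hΨ : MemLp Ψ 2 volume) {r B : ℝ} (hr : 0 < r)
    (hi : Integrable (fun x => ‖x‖ * ‖f x‖ ^ 2) volume) (hT : ∫ x, ‖x‖ * ‖f x‖ ^ 2 ≤ B) :
    n2 (f - ({x : Cfg N | ‖x‖ ≤ r}.indicator Ψ)) ≤
      2 * n2 (φ - f) + 2 * (∫ x in {x : Cfg N | ‖x‖ ≤ r}, ‖φ x - Ψ x‖ ^ 2) + B / r := by
  have hms : MeasurableSet {x : Cfg N | ‖x‖ ≤ r} :=
    measurableSet_le measurable_norm measurable_const
  have i1 := Rel893.integrable_norm_sq_of_memLp (hf.sub (hΨ.indicator hms))
  have i2 := Rel893.integrable_norm_sq_of_memLp (hφ.sub hf)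
  have i3 : Integrable (fun x => ‖φ x - Ψ x‖ ^ 2) volume :=
    Rel893.integrable_norm_sq_of_memLp (hφ.sub hΨ)
  have i4 := Rel893.integrable_norm_sq_of_memLp hf
  unfold n2
  rw [← integral_add_compl hms i1]
  have e1 : ∫ x in {x : Cfg N | ‖x‖ ≤ r}, ‖(f - ({x : Cfg N | ‖x‖ ≤ r}.indicator Ψ)) x‖ ^ 2 ≤
      2 * (∫ x, ‖(φ - f) x‖ ^ 2) + 2 * (∫ x in {x : Cfg N | ‖x‖ ≤ r}, ‖φ x - Ψ x‖ ^ 2) := by
    have h1 : ∫ x in {x : Cfg N | ‖x‖ ≤ r}, ‖(f - ({x : Cfg N | ‖x‖ ≤ r}.indicator Ψ)) x‖ ^ 2 ≤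
        ∫ x in {x : Cfg N | ‖x‖ ≤ r}, (2 * ‖(φ - f) x‖ ^ 2 + 2 * ‖φ x - Ψ x‖ ^ 2) := by
      refine setIntegral_mono_on i1.integrableOn
        ((i2.const_mul 2).integrableOn.add (i3.const_mul 2).integrableOn) hms fun x hx => ?_
      simp only [Pi.sub_apply, indicator_of_mem hx]
      have h2 : f x - Ψ x = (φ x - Ψ x) - (φ x - f x) := by abel
      rw [h2]
      have h3 := norm_sub_le (φ x - Ψ x) (φ x - f x)
      nlinarith [norm_nonneg ((φ x - Ψ x) - (φ x - f x)),
        sq_nonneg (‖φ x - Ψ x‖ - ‖φ x - f x‖)]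
    refine h1.trans ?_
    rw [integral_add (i2.const_mul 2).integrableOn (i3.const_mul 2).integrableOn,
      integral_const_mul, integral_const_mul]
    have h4 := setIntegral_le_integral (s := {x : Cfg N | ‖x‖ ≤ r}) i2
      (Eventually.of_forall fun x => by positivity)
    linarith
  have e2 : ∫ x in {x : Cfg N | ‖x‖ ≤ r}ᶜ, ‖(f - ({x : Cfg N | ‖x‖ ≤ r}.indicator Ψ)) x‖ ^ 2 ≤
      B / r := by
    rw [le_div_iff₀ hr, mul_comm, ← integral_const_mul]
    refine le_trans ?_ ((setIntegral_le_integral hi (s := {x : Cfg N | ‖x‖ ≤ r}ᶜ)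
      (Eventually.of_forall fun x => by positivity)).trans hT)
    refine setIntegral_mono_on (i1.const_mul r).integrableOn hi.integrableOn hms.compl
      fun x hx => ?_
    have hx' : ¬ ‖x‖ ≤ r := hx
    simp only [Pi.sub_apply, indicator_of_notMem (s := {x : Cfg N | ‖x‖ ≤ r}) hx', sub_zero]
    exact mul_le_mul_of_nonneg_right (not_le.1 hx').le (by positivity)
  linarith

/-- compactness from tails and approximation by bounded energy -/
theorem cpt_seq {C : ℝ} (hC : 0 ≤ C) (hE : EnergyLB b M G C) (f : ℕ → L2 N F)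
    {φ : ℕ → Cfg N → F} (hφ : ∀ n, Ts (φ n)) {B : ℝ} (h0 : ∀ n, n2 (φ n) ≤ B)
    (h1 : ∀ n, q b M G (φ n) ≤ B)
    (happ : Tendsto (fun n => n2 (φ n - (f n : Cfg N → F))) atTop (𝓝 0))
    (hi : ∀ n, Integrable (fun x => ‖x‖ * ‖(f n : Cfg N → F) x‖ ^ 2) volume)
    {T : ℝ} (hT : ∀ n, ∫ x, ‖x‖ * ‖(f n : Cfg N → F) x‖ ^ 2 ≤ T) :
    ∃ k : ℕ → ℕ, StrictMono k ∧ CauchySeq (fun n => f (k n)) := by
  have hT0 : 0 ≤ T := (integral_nonneg fun x => by positivity).trans (hT 0)
  -- Cauchy along the ultrafilter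
  have hle : (hyperfilter ℕ : Filter ℕ) ≤ atTop := Nat.hyperfilter_le_atTop
  have hcau : Cauchy (Filter.map f (hyperfilter ℕ : Filter ℕ)) := by
    rw [Metric.cauchy_iff]
    refine ⟨inferInstance, fun ε hε => ?_⟩
    -- radius
    set δ : ℝ := (ε / 2) ^ 2 with hδ
    have hδ0 : 0 < δ := by positivity
    set r : ℝ := 4 * (T + 1) / δ with hr
    have hr0 : 0 < r := by positivity
    have hTr : T / r ≤ δ / 4 := by
      rw [div_le_iff₀ hr0, hr]
      have : δ / 4 * (4 * (T + 1) / δ) = T + 1 := by field_simp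
      linarith
    obtain ⟨Ψ, hΨ, hloc⟩ := local_conv hC hE hφ h0 h1 hr0
    have hms : MeasurableSet {x : Cfg N | ‖x‖ ≤ r} :=
      measurableSet_le measurable_norm measurable_const
    have hΨi := hΨ.indicator hms
    set z : L2 N F := hΨi.toLp _ with hz
    have hev : ∀ᶠ n in (hyperfilter ℕ : Filter ℕ), ‖f n - z‖ < ε / 2 := by
      have e1 := (hloc.eventually (gt_mem_nhds (by positivity : 0 < δ / 8)))
      have e2 := ((happ.mono_left hle).eventually (gt_mem_nhds (by positivity : 0 < δ / 8)))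
      filter_upwards [e1, e2] with n h2 h3
      have h4 := n2_split (Lp.memLp (f n)) (hφ n).memLp hΨ hr0 (hi n) (hT n)
      have h5 : ‖f n - z‖ ^ 2 =
          n2 ((f n : Cfg N → F) - ({x : Cfg N | ‖x‖ ≤ r}.indicator Ψ)) := by
        unfold n2
        rw [← norm_toLp_sq ((Lp.memLp (f n)).sub hΨi), MemLp.toLp_sub (Lp.memLp (f n)) hΨi,
          Lp.toLp_coeFn]
      have h6 : ‖f n - z‖ ^ 2 < (ε / 2) ^ 2 := by
        rw [h5, ← hδ]
        linarith
      exact lt_of_pow_lt_pow_left₀ 2 (by positivity) h6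
    refine ⟨Metric.ball z (ε / 2), ?_, fun x hx y hy => ?_⟩
    · rw [Filter.mem_map]
      filter_upwards [hev] with n hn
      rw [mem_preimage, mem_ball_iff_norm]
      exact hn
    · rw [Metric.mem_ball] at hx hy
      calc dist x y ≤ dist x z + dist y z := dist_triangle_right _ _ _
        _ < ε / 2 + ε / 2 := add_lt_add hx hy
        _ = ε := by ring
  obtain ⟨h, hh⟩ := CompleteSpace.complete hcau
  have hcl : MapClusterPt h atTop f := by
    have h2 : Tendsto f (hyperfilter ℕ : Filter ℕ) (𝓝 h) := hh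
    exact (h2.mapClusterPt).mono hle
  obtain ⟨k, hk, hlim⟩ := hcl.tendsto_subseq
  exact ⟨k, hk, hlim.cauchySeq⟩

theorem exists_approx {Qd : core b R →ₗ[ℂ] K} (v : Gph (ιC R) Qd) {ε : ℝ} (hε : 0 < ε) :
    ∃ φ : core b R, ‖gv (ιC R) Qd φ - v‖ ≤ ε := by
  have hex0 := exists_seq' v
  cases hex0 with | intro φ hφ => ?_
  have h1 := tendsto_iff_norm_sub_tendsto_zero.1 hφ
  have h2 := (h1.eventually (gt_mem_nhds hε)).exists
  cases h2 with | intro j hj => ?_
  exact ⟨φ j, hj.le⟩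

/-- **compactness from tails** (all `N`) -/
theorem cpt_of_tail {Qd : core b R →ₗ[ℂ] K} (hQd : ∀ φ, ‖Qd φ‖ ^ 2 = q b M G φ.1)
    {C : ℝ} (hC : 0 ≤ C) (hE : EnergyLB b M G C) (v : ℕ → Gph (ιC R) Qd) {B : ℝ}
    (hB : ∀ n, ‖v n‖ ≤ B)
    (hi : ∀ n, Integrable (fun x => ‖x‖ * ‖(JG (ιC R) Qd (v n) : Cfg N → F) x‖ ^ 2) volume)
    {T : ℝ} (hT : ∀ n, ∫ x, ‖x‖ * ‖(JG (ιC R) Qd (v n) : Cfg N → F) x‖ ^ 2 ≤ T) :
    ∃ k : ℕ → ℕ, StrictMono k ∧ CauchySeq (fun n => JG (ιC R) Qd (v (k n))) := by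
  have hex : ∀ n : ℕ, ∃ φ : core b R, ‖gv (ιC R) Qd φ - v n‖ ≤ 1 / ((n : ℝ) + 1) := fun n =>
    exists_approx (v n) (by positivity)
  choose φ hφ using hex
  have hle1 : ∀ n : ℕ, 1 / ((n : ℝ) + 1) ≤ 1 := by
    intro n
    rw [div_le_one (by positivity)]
    linarith [(Nat.cast_nonneg n : (0 : ℝ) ≤ n)]
  have hnorm : ∀ n, ‖gv (ιC R) Qd (φ n)‖ ≤ B + 1 := by
    intro n
    have h1 := norm_sub_norm_le (gv (ιC R) Qd (φ n)) (v n)
    linarith [hφ n, hB n, hle1 n]
  have hsq : ∀ n, ‖ιC R (φ n)‖ ^ 2 + ‖Qd (φ n)‖ ^ 2 ≤ (B + 1) ^ 2 := by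
    intro n
    have h1 : ‖gv (ιC R) Qd (φ n)‖ ^ 2 = ‖ιC R (φ n)‖ ^ 2 + ‖Qd (φ n)‖ ^ 2 := norm_gv_sq _
    rw [← h1]
    exact pow_le_pow_left₀ (norm_nonneg _) (hnorm n) 2
  have h0 : ∀ n, n2 (φ n).1 ≤ (B + 1) ^ 2 := by
    intro n
    rw [n2_core]
    linarith [hsq n, sq_nonneg ‖Qd (φ n)‖]
  have h1 : ∀ n, q b M G (φ n).1 ≤ (B + 1) ^ 2 := by
    intro n
    rw [← hQd]
    linarith [hsq n, sq_nonneg ‖ιC R (φ n)‖]
  have happ : Tendsto (fun n => n2 ((φ n).1 - (JG (ιC R) Qd (v n) : Cfg N → F))) atTop (𝓝 0) := by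
    have h2 : Tendsto (fun n : ℕ => (1 / ((n : ℝ) + 1)) ^ 2) atTop (𝓝 0) := by
      simpa using (tendsto_one_div_add_atTop_nhds_zero_nat (𝕜 := ℝ)).pow 2
    refine tendsto_of_tendsto_of_tendsto_of_le_of_le tendsto_const_nhds h2
      (fun n => n2_nonneg _) fun n => ?_
    simp only []
    rw [n2_sub_core]
    have h3 : ‖ιC R (φ n) - JG (ιC R) Qd (v n)‖ ≤ 1 / ((n : ℝ) + 1) := by
      refine le_trans ?_ (hφ n)
      have h4 : ‖gv (ιC R) Qd (φ n) - v n‖ ^ 2 = ‖ιC R (φ n) - JG (ιC R) Qd (v n)‖ ^ 2 +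
          ‖WG (ιC R) Qd (gv (ιC R) Qd (φ n) - v n)‖ ^ 2 := norm_sq _
      refine le_of_sq_le_sq ?_ (norm_nonneg _)
      nlinarith [sq_nonneg ‖WG (ιC R) Qd (gv (ιC R) Qd (φ n) - v n)‖]
    exact pow_le_pow_left₀ (norm_nonneg _) h3 2
  exact cpt_seq hC hE (fun n => JG (ιC R) Qd (v n)) (fun n => ts_core (φ n)) h0 h1 happ hi hT



end general

section two

variable {F : Type*} [NormedAddCommGroup F] [InnerProductSpace ℂ F]
  [FiniteDimensional ℂ F] {b : ColorBasis 2} {M : FermionRep 2 F} {R : GaugeAction b M}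
  {G : GammaNine} {K : Type*} [NormedAddCommGroup K] [InnerProductSpace ℂ K]

/-- **tails of the form domain in the sector** (186's coercivity) -/
theorem tail_bound {Qd : core b R →ₗ[ℂ] K} (hQd : ∀ φ, ‖Qd φ‖ ^ 2 = q b M G φ.1)
    {C : ℝ} (hC : 0 ≤ C) (hE : EnergyLB b M G C) {sP : F →ₗ[ℂ] F} {sM : Fin 3 → F →ₗ[ℂ] F} {c : ℝ}
    (hP : ∀ v, ‖sP v‖ ≤ c * ‖v‖) (hM : ∀ k v, ‖sM k v‖ ≤ c * ‖v‖)
    (hPs : ∀ v w, ⟪sP v, w⟫_ℂ = -⟪v, sP w⟫_ℂ) (hMs : ∀ k v w, ⟪sM k v, w⟫_ℂ = -⟪v, sM k w⟫_ℂ)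
    {m : ℝ} (hm : 4 * c + 16 * (C + 1) ≤ |m|) (v : Gph (ιC R) Qd)
    (hwP : Weak KP (shf sP m) (JG (ιC R) Qd v : Cfg 2 → F))
    (hwM : ∀ k, Weak (KM k) (sM k) (JG (ιC R) Qd v : Cfg 2 → F)) :
    Integrable (fun x => ‖x‖ * ‖(JG (ιC R) Qd v : Cfg 2 → F) x‖ ^ 2) volume ∧
      ∫ x, ‖x‖ * ‖(JG (ιC R) Qd v : Cfg 2 → F) x‖ ^ 2 ≤ ‖WG (ιC R) Qd v‖ ^ 2 := by
  have hex0 := exists_seq' v
  cases hex0 with | intro φ hφ => ?_
  exact coer hC hE hP hM hPs hMs hm (fun n => ts_core (φ n)) (Lp.memLp _) (n2_tendsto Qd hφ)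
    (q_cauchy Qd hQd hφ) (q_tendsto Qd hQd hφ) hwP hwM

/-- **compactness of the form domain in the sector** -/
theorem cpt {Qd : core b R →ₗ[ℂ] K} (hQd : ∀ φ, ‖Qd φ‖ ^ 2 = q b M G φ.1)
    {C : ℝ} (hC : 0 ≤ C) (hE : EnergyLB b M G C) {sP : F →ₗ[ℂ] F} {sM : Fin 3 → F →ₗ[ℂ] F} {c : ℝ}
    (hP : ∀ v, ‖sP v‖ ≤ c * ‖v‖) (hM : ∀ k v, ‖sM k v‖ ≤ c * ‖v‖)
    (hPs : ∀ v w, ⟪sP v, w⟫_ℂ = -⟪v, sP w⟫_ℂ) (hMs : ∀ k v w, ⟪sM k v, w⟫_ℂ = -⟪v, sM k w⟫_ℂ)
    {m : ℝ} (hm : 4 * c + 16 * (C + 1) ≤ |m|) (v : ℕ → Gph (ιC R) Qd)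
    (hwP : ∀ n, Weak KP (shf sP m) (JG (ιC R) Qd (v n) : Cfg 2 → F))
    (hwM : ∀ n k, Weak (KM k) (sM k) (JG (ιC R) Qd (v n) : Cfg 2 → F)) {B : ℝ}
    (hB : ∀ n, ‖v n‖ ≤ B) :
    ∃ k : ℕ → ℕ, StrictMono k ∧ CauchySeq (fun n => JG (ιC R) Qd (v (k n))) := by
  refine cpt_of_tail hQd hC hE v hB (T := B ^ 2) (fun n => (tail_bound hQd hC hE hP hM hPs hMs hm
    (v n) (hwP n) (hwM n)).1) fun n => ((tail_bound hQd hC hE hP hM hPs hMs hm
    (v n) (hwP n) (hwM n)).2).trans ?_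
  have h1 := norm_sq (v n)
  have h2 : ‖v n‖ ^ 2 ≤ B ^ 2 := by
    have := hB n
    gcongr
  nlinarith [sq_nonneg ‖JG (ιC R) Qd (v n)‖]

/-- `hcpt` of `Graph893.exists_eigen_core` from the weak sector equations -/
theorem hcpt {Qd : core b R →ₗ[ℂ] K} (hQd : ∀ φ, ‖Qd φ‖ ^ 2 = q b M G φ.1)
    {C : ℝ} (hC : 0 ≤ C) (hE : EnergyLB b M G C) {sP : F →ₗ[ℂ] F} {sM : Fin 3 → F →ₗ[ℂ] F} {c : ℝ}
    (hP : ∀ v, ‖sP v‖ ≤ c * ‖v‖) (hM : ∀ k v, ‖sM k v‖ ≤ c * ‖v‖)
    (hPs : ∀ v w, ⟪sP v, w⟫_ℂ = -⟪v, sP w⟫_ℂ) (hMs : ∀ k v w, ⟪sM k v, w⟫_ℂ = -⟪v, sM k w⟫_ℂ)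
    {m : ℝ} (hm : 4 * c + 16 * (C + 1) ≤ |m|) {κ : Type*} {u : κ → L2 2 F ≃ₗᵢ[ℂ] L2 2 F}
    {w : κ → ℂ}
    (hW : ∀ f : L2 2 F, (∀ i, u i f = w i • f) →
      Weak KP (shf sP m) (f : Cfg 2 → F) ∧ ∀ k, Weak (KM k) (sM k) (f : Cfg 2 → F))
    (v : ℕ → Gph (ιC R) Qd) (hv : ∀ n, v n ∈ Sct (ιC R) Qd u w) (B : ℝ)
    (hB : ∀ n, ‖v n‖ ≤ B) :
    ∃ k : ℕ → ℕ, StrictMono k ∧ CauchySeq (fun n => JG (ιC R) Qd (v (k n))) :=
  cpt hQd hC hE hP hM hPs hMs hm v (fun n => (hW _ (hv n)).1) (fun n => (hW _ (hv n)).2) hB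

end two

end Crest.Agent.R330.Cpt893
end
end

-- ▼ part R330/SFin_726
section

/-!
# Row 330, S13.FIN (helper726): the literal ends of the abstract spectral theorem

* `energyLB` : the energy lower bound in the form of `SCoer186.EnergyLB`
* `Qh R G` : `(1/4)` times the sixteen charges; `closable`
* `indep` : core vectors of disjoint supports are linearly independent
* `isEigenpair_of` : the weak equation of the graph space is `IsEigenpair`
-/

set_option autoImplicit false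
set_option linter.unusedSectionVars false

open MeasureTheory Filter Topology Crest.MathPhysics.MatrixQM
open scoped ContDiff InnerProductSpace ENNReal

noncomputable section

namespace Crest.Agent.R330.SFin726

open Crest.Agent.R330.Defs478 Crest.Agent.R330.Dict416 Crest.Agent.R330.Graph893
open Crest.Agent.R330.Weitz726

variable {N : ℕ} {F : Type*} [NormedAddCommGroup F] [InnerProductSpace ℂ F]
  [FiniteDimensional ℂ F]

/-- **the energy lower bound** -/
theorem energyLB (b : ColorBasis N) (M : FermionRep N F) (G : GammaNine) :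
    ∃ C : ℝ, 0 ≤ C ∧ SCoer186.EnergyLB b M G C := by
  obtain ⟨C, hC, hY⟩ := Yop_bound b M G
  refine ⟨C, hC, fun ψ hψ => ?_⟩
  have h := energy_super b M G (hψ.1.of_le (by norm_cast)) hψ.2
  have e1 : SCoer186.en ψ = ∑ k : Fin 9 × Fin (N ^ 2 - 1),
      ∫ x, ‖fderiv ℝ ψ x (EuclideanSpace.single k 1)‖ ^ 2 := by
    unfold SCoer186.en Bar186.gsq
    have : ∀ x, ∑ i : Fin 9, ∑ A : Fin (N ^ 2 - 1), ‖SJop186.gr ψ x (i, A)‖ ^ 2 =
        ∑ k : Fin 9 × Fin (N ^ 2 - 1), ‖fderiv ℝ ψ x (EuclideanSpace.single k 1)‖ ^ 2 := by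
      intro x
      rw [Fintype.sum_prod_type]
      rfl
    simp only [this]
    rw [integral_finsetSum]
    intro k _
    have hk : Continuous fun x => fderiv ℝ ψ x (EuclideanSpace.single k 1) :=
      IBP837.fderiv_apply_continuous (hψ.1.of_le (by simp)) _
    have hkc : HasCompactSupport fun x => fderiv ℝ ψ x (EuclideanSpace.single k 1) :=
      IBP837.hasCompactSupport_fderiv_apply hψ.2 _
    exact (memLp_two_iff_integrable_sq_norm hk.aestronglyMeasurable).1
      (hk.memLp_of_hasCompactSupport hkc)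
  have hi : Integrable (fun x : Cfg N => C * (‖x‖ * ‖ψ x‖ ^ 2)) volume :=
    (SCoer186.integrable_mul_sq hψ continuous_norm).const_mul C
  have h2 : ‖∫ x, (⟪ψ x, Yop b M G x (ψ x)⟫_ℂ).re‖ ≤ ∫ x : Cfg N, C * (‖x‖ * ‖ψ x‖ ^ 2) := by
    refine norm_integral_le_of_norm_le hi (Eventually.of_forall fun x => ?_)
    calc ‖(⟪ψ x, Yop b M G x (ψ x)⟫_ℂ).re‖ ≤ ‖⟪ψ x, Yop b M G x (ψ x)⟫_ℂ‖ :=
          Complex.abs_re_le_norm _
      _ ≤ ‖ψ x‖ * ‖Yop b M G x (ψ x)‖ := norm_inner_le_norm _ _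
      _ ≤ ‖ψ x‖ * (C * ‖x‖ * ‖ψ x‖) := by gcongr; exact hY x _
      _ = _ := by ring
  rw [integral_const_mul, Real.norm_eq_abs] at h2
  have h3 := (abs_le.1 h2).1
  have e2 : SCoer186.q b M G ψ = 1 / 2 * SCoer186.en ψ +
      (∫ x : Cfg N, Bar186.pot b x * ‖ψ x‖ ^ 2) + ∫ x, (⟪ψ x, Yop b M G x (ψ x)⟫_ℂ).re := by
    rw [e1, ← h]
    rfl
  rw [e2]
  linarith

/-! ### the charges as one operator -/

section charges

variable {b : ColorBasis N} {M : FermionRep N F}

/-- one quarter of the sixteen supercharges -/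
def Qh (R : GaugeAction b M) (G : GammaNine) : core b R →ₗ[ℂ] L2' N F :=
  (((1 / 4 : ℝ) : ℂ)) • QC R G 1 0

variable {R : GaugeAction b M} {G : GammaNine}

theorem Qh_apply (φ : core b R) : Qh R G φ = (((1 / 4 : ℝ) : ℂ)) • QC R G 1 0 φ := rfl

theorem dch (G : GammaNine) (α : Fin 16) (φ : Cfg N → F) :
    dcharge b M G 1 0 α φ = supercharge b M G α φ :=
  funext fun x => dcharge_one_zero b M G α φ x

theorem inner_Qh (φ ψ : core b R) : ⟪Qh R G φ, Qh R G ψ⟫_ℂ =
    (1 / 16 : ℂ) * ∑ α, ∫ x, ⟪supercharge b M G α φ.1 x, supercharge b M G α ψ.1 x⟫_ℂ := by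
  rw [Qh_apply, Qh_apply, inner_smul_left, inner_smul_right, inner_QC, Complex.conj_ofReal]
  simp only [dch]
  push_cast
  ring

theorem norm_Qh_sq (φ : core b R) : ‖Qh R G φ‖ ^ 2 = SCoer186.q b M G φ.1 := by
  rw [Qh_apply, norm_smul, mul_pow, norm_QC_sq]
  unfold qf SCoer186.q
  simp only [dch, Complex.norm_real, Real.norm_eq_abs]
  rw [abs_of_nonneg (by norm_num : (0 : ℝ) ≤ 1 / 4)]
  ring

/-- **closability** -/
theorem closable (φ : ℕ → core b R) (k : L2' N F)
    (h1 : Tendsto (fun n => ιC R (φ n)) atTop (𝓝 0))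
    (h2 : Tendsto (fun n => Qh R G (φ n)) atTop (𝓝 k)) : k = 0 := by
  have h1' : Tendsto (fun n => eLpNorm (φ n).1 2 volume) atTop (𝓝 0) := by
    have h := (tendsto_toLp_iff (fun n => cv_memLp (φ n).2)
      (MemLp.zero (μ := (volume : Measure (Cfg N))) (p := 2) (ε := F))).1 h1
    simpa using h
  have h3 : Tendsto (fun n => QC R G 1 0 (φ n)) atTop (𝓝 ((4 : ℂ) • k)) := by
    have := h2.const_smul (4 : ℂ)
    refine this.congr fun n => ?_
    rw [Qh_apply, smul_smul]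
    norm_num
  ext1 α
  have h4 : Tendsto (fun n => qL R G 1 0 α (φ n)) atTop (𝓝 ((4 : ℂ) • k α)) := by
    have h5 := ((PiLp.continuous_ofLp 2 (fun _ : Fin 16 => L2 N F)).tendsto _).comp h3
    exact (tendsto_pi_nhds.1 h5) α
  have h6 : Tendsto (fun n => eLpNorm (supercharge b M G α (φ n).1 -
      (((4 : ℂ) • k α : L2 N F) : Cfg N → F)) 2 volume) atTop (𝓝 0) := by
    have h := (tendsto_toLp_iff (fun n => cv_memLp_dcharge G 1 0 α (φ n).2)
      (Lp.memLp ((4 : ℂ) • k α))).1 (by rw [Lp.toLp_coeFn]; exact h4)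
    simpa only [dch] using h
  have h7 := IBP837.supercharge_closable (fun n => (φ n).2.1.of_le (by simp))
    (fun n => (φ n).2.2.1) (Lp.memLp _) h1' h6
  have h8 : (4 : ℂ) • k α = 0 := by
    rw [Lp.ext_iff]
    exact h7.trans (Lp.coeFn_zero F 2 volume).symm
  show k α = 0
  exact (smul_eq_zero.1 h8).resolve_left (by norm_num)

/-- core vectors of disjoint supports are independent -/
theorem indep {φ : ℕ → core b R} (h0 : ∀ n, (φ n).1 ≠ 0)
    (hd : ∀ n k, n ≠ k → ∀ x, (φ n).1 x = 0 ∨ (φ k).1 x = 0) :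
    LinearIndependent ℂ fun n => ιC R (φ n) := by
  refine linearIndependent_of_ne_zero_of_inner_eq_zero ?_ ?_
  · intro n hn
    have h := norm_ιC_sq (φ n)
    rw [hn, norm_zero] at h
    have hc : Continuous fun x => ‖(φ n).1 x‖ ^ 2 := ((φ n).2.1.continuous.norm.pow 2)
    have h2 : (fun x => ‖(φ n).1 x‖ ^ 2) = 0 := by
      have h3 : ∫ x, ‖(φ n).1 x‖ ^ 2 = 0 := by rw [← h]; norm_num
      have hi : Integrable (fun x => ‖(φ n).1 x‖ ^ 2) volume :=
        (memLp_two_iff_integrable_sq_norm (φ n).2.1.continuous.aestronglyMeasurable).1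
          (cv_memLp (φ n).2)
      have h4 := (integral_eq_zero_iff_of_nonneg (fun x => by positivity) hi).1 h3
      exact (Continuous.ae_eq_iff_eq volume hc continuous_zero).1 h4
    refine h0 n (funext fun x => ?_)
    have := congrFun h2 x
    simpa using this
  · intro n k hnk
    rw [inner_ιC]
    have : ∀ x, ⟪(φ n).1 x, (φ k).1 x⟫_ℂ = 0 := by
      intro x
      rcases hd n k hnk x with h | h
      · rw [h, inner_zero_left]
      · rw [h, inner_zero_right]
    simp [this]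

/-- **the weak equation in the graph space is `IsEigenpair`** -/
theorem isEigenpair_of {v : Gph (ιC R) (Qh R G)} {E : ℝ} {Ψ : Cfg N → F} (hΨ : MemLp Ψ 2 volume)
    (hJ : JG (ιC R) (Qh R G) v = hΨ.toLp Ψ)
    (hw : ∀ ψ : core b R, ⟪WG (ιC R) (Qh R G) v, Qh R G ψ⟫_ℂ =
      (E : ℂ) * ⟪JG (ιC R) (Qh R G) v, ιC R ψ⟫_ℂ) :
    IsEigenpair b M R G E Ψ := by
  obtain ⟨φ, hφ⟩ := exists_seq v
  have h1 := tendsto_J hφ
  have h2 := tendsto_W hφ
  rw [hJ] at h1
  refine ⟨hΨ, fun n => (φ n).1, fun n => (φ n).2,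
    (tendsto_toLp_iff (fun n => cv_memLp (φ n).2) hΨ).1 h1, ?_, ?_⟩
  · intro α ε hε
    have h3 : Tendsto (fun n => QC R G 1 0 (φ n)) atTop (𝓝 ((4 : ℂ) • WG (ιC R) (Qh R G) v)) := by
      have := h2.const_smul (4 : ℂ)
      refine this.congr fun n => ?_
      rw [Qh_apply, smul_smul]
      norm_num
    have h4 : Tendsto (fun n => qL R G 1 0 α (φ n)) atTop
        (𝓝 (((4 : ℂ) • WG (ιC R) (Qh R G) v) α)) := by
      have h5 := ((PiLp.continuous_ofLp 2 (fun _ : Fin 16 => L2 N F)).tendsto _).comp h3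
      exact (tendsto_pi_nhds.1 h5) α
    have h5 := EMetric.cauchySeq_iff.1 h4.cauchySeq ε hε
    obtain ⟨n₀, hn₀⟩ := h5
    refine ⟨n₀, fun n hn k hk => ?_⟩
    have h6 := hn₀ n hn k hk
    unfold qL at h6
    rw [Lp.edist_toLp_toLp] at h6
    simpa only [dch] using h6
  · intro ψ hψ
    have h3 : Tendsto (fun n => ⟪Qh R G (φ n), Qh R G ⟨ψ, hψ⟩⟫_ℂ) atTop
        (𝓝 ⟪WG (ιC R) (Qh R G) v, Qh R G ⟨ψ, hψ⟩⟫_ℂ) := h2.inner tendsto_const_nhds
    rw [hw, hJ, ιC_apply, Dict416.inner_toLp] at h3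
    exact h3.congr fun n => inner_Qh (φ n) ⟨ψ, hψ⟩

end charges

end Crest.Agent.R330.SFin726

end
end

-- ▼ part R330/Cpt13b_893
section

/-!
# Row 330, S13.CPT (helper893), literal end

`hcpt_lit` : the compactness hypothesis of `Graph893.exists_eigen_core` for the sector of weight `m`
(`m` large), two colours, `ι = ιC R`, `Q = SFin726.Qh R G`, symmetries = the flows of `KM a`, `KP`.
-/

set_option autoImplicit false
set_option linter.unusedSectionVars false

open MeasureTheory Filter Topology Set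
open scoped ContDiff InnerProductSpace ENNReal

noncomputable section

namespace Crest.Agent.R330.Cpt893

open Crest.MathPhysics.MatrixQM
open Crest.Agent.R330.Defs478 (core)
open Crest.Agent.R330.Dict416 (L2 ιC)
open Crest.Agent.R330.Graph893
open Crest.Agent.R330.SCoer186
open Crest.Agent.R330.SDefs726
open Crest.Agent.R330.SFin726 (Qh norm_Qh_sq energyLB)

variable {N : ℕ} {F : Type*} [NormedAddCommGroup F] [InnerProductSpace ℂ F]
  [FiniteDimensional ℂ F] {M : FermionRep N F} {G : GammaNine}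

theorem weak_of_flow {a : Matrix (Fin 9) (Fin 9) ℝ} (ha : a.transpose = -a) {m : ℝ}
    {f : Cfg N → F} (hf : MemLp f 2 volume)
    (hU : ∀ t : ℝ, U M G a t f =ᵐ[volume] Complex.exp ((m * t : ℝ) * Complex.I) • f) :
    Weak a (shf (Sp M G a) m) f := by
  intro η hη
  have hl : LocallyIntegrable f volume := hf.locallyIntegrable (by norm_num)
  have h1 := Sym613.weak_of_weight (M := M) (G := G) ha hl hU (ψ := η)
    (hη.1.of_le (by norm_cast)) hη.2
  have h2 : ∀ x, ⟪SJop186.Jop a (shf (Sp M G a) m) η x, f x⟫_ℂ =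
      starRingEnd ℂ (⟪f x, Jg M G a η x⟫_ℂ - (m * Complex.I) * ⟪f x, η x⟫_ℂ) := by
    intro x
    have h3 : SJop186.Jop a (shf (Sp M G a) m) η x =
        Jg M G a η x - ((m : ℂ) * Complex.I) • η x := by
      simp only [SJop186.Jop, Jg, shf, LinearMap.sub_apply, LinearMap.smul_apply, LinearMap.id_apply]
      abel
    rw [h3, ← inner_conj_symm, inner_sub_right, inner_smul_right]
  simp only [h2]
  rw [integral_conj]
  have hJ : Ts (Jg M G a η) := hη.jop a (Sp M G a)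
  have i1 : Integrable (fun x => ⟪f x, Jg M G a η x⟫_ℂ) volume :=
    (L2.integrable_inner (hf.toLp f) (hJ.memLp.toLp _)).congr (by
      filter_upwards [hf.coeFn_toLp, hJ.memLp.coeFn_toLp] with x hx hy
      rw [hx, hy])
  have i2 : Integrable (fun x => ⟪f x, η x⟫_ℂ) volume :=
    (L2.integrable_inner (hf.toLp f) (hη.memLp.toLp _)).congr (by
      filter_upwards [hf.coeFn_toLp, hη.memLp.coeFn_toLp] with x hx hy
      rw [hx, hy])
  rw [integral_sub i1 (i2.const_mul _), integral_const_mul, h1, sub_self, map_zero]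

theorem shf_zero (S : F →ₗ[ℂ] F) : shf S 0 = S := by
  ext v
  simp [shf]

theorem weak_of_flow_fixed {a : Matrix (Fin 9) (Fin 9) ℝ} (ha : a.transpose = -a)
    {f : Cfg N → F} (hf : MemLp f 2 volume) (hU : ∀ t : ℝ, U M G a t f =ᵐ[volume] f) :
    Weak a (Sp M G a) f := by
  have h := weak_of_flow (M := M) (G := G) (m := 0) ha hf fun t => by
    simpa using hU t
  rwa [shf_zero] at h

/-- a common bound for finitely many linear maps -/
theorem exists_bound_lin (S : Fin 3 → F →ₗ[ℂ] F) (T : F →ₗ[ℂ] F) :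
    ∃ c : ℝ, (∀ v, ‖T v‖ ≤ c * ‖v‖) ∧ ∀ k v, ‖S k v‖ ≤ c * ‖v‖ := by
  refine ⟨‖LinearMap.toContinuousLinearMap T‖ +
    ∑ k, ‖LinearMap.toContinuousLinearMap (S k)‖, fun v => ?_, fun k v => ?_⟩
  · refine ((LinearMap.toContinuousLinearMap T).le_opNorm v).trans ?_
    have : 0 ≤ ∑ k, ‖LinearMap.toContinuousLinearMap (S k)‖ :=
      Finset.sum_nonneg fun _ _ => norm_nonneg _
    exact mul_le_mul_of_nonneg_right (by linarith) (norm_nonneg v)
  · refine ((LinearMap.toContinuousLinearMap (S k)).le_opNorm v).trans ?_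
    have h1 : ‖LinearMap.toContinuousLinearMap (S k)‖ ≤
        ∑ k, ‖LinearMap.toContinuousLinearMap (S k)‖ :=
      Finset.single_le_sum (f := fun k => ‖LinearMap.toContinuousLinearMap (S k)‖)
        (fun _ _ => norm_nonneg _) (Finset.mem_univ k)
    exact mul_le_mul_of_nonneg_right (by linarith [norm_nonneg (LinearMap.toContinuousLinearMap T)])
      (norm_nonneg v)

/-- the weights of the sector -/
def wgt (m : ℝ) : (Fin 3 × ℝ) ⊕ ℝ → ℂ :=
  Sum.elim (fun _ => 1) fun t => Complex.exp ((m * t : ℝ) * Complex.I)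

theorem sector_weak {m : ℝ} {u : (Fin 3 × ℝ) ⊕ ℝ → L2 N F ≃ₗᵢ[ℂ] L2 N F}
    (huM : ∀ a t (f : L2 N F), (u (Sum.inl (a, t)) f : Cfg N → F) =ᵐ[volume] U M G (KM a) t f)
    (huP : ∀ t (f : L2 N F), (u (Sum.inr t) f : Cfg N → F) =ᵐ[volume] U M G KP t f)
    {f : L2 N F} (hf : ∀ i, u i f = wgt m i • f) :
    Weak KP (shf (Sp M G KP) m) (f : Cfg N → F) ∧
      ∀ k, Weak (KM k) (Sp M G (KM k)) (f : Cfg N → F) := by
  refine ⟨weak_of_flow KP_transpose (Lp.memLp f) fun t => ?_, fun k =>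
    weak_of_flow_fixed (KM_transpose k) (Lp.memLp f) fun t => ?_⟩
  · have h1 := huP t f
    rw [hf] at h1
    exact h1.symm.trans (Lp.coeFn_smul _ _)
  · have h1 := huM k t f
    rw [hf] at h1
    have h2 : wgt m (Sum.inl (k, t)) • f = f := by simp [wgt]
    rw [h2] at h1
    exact h1.symm

/-- **the compactness hypothesis of `exists_eigen_core`** -/
theorem hcpt_lit (b : ColorBasis 2) (M : FermionRep 2 F) (R : GaugeAction b M) (G : GammaNine) :
    ∃ m₀ : ℝ, ∀ m : ℝ, m₀ ≤ m → ∀ u : (Fin 3 × ℝ) ⊕ ℝ → L2 2 F ≃ₗᵢ[ℂ] L2 2 F,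
      (∀ a t (f : L2 2 F), (u (Sum.inl (a, t)) f : Cfg 2 → F) =ᵐ[volume] U M G (KM a) t f) →
      (∀ t (f : L2 2 F), (u (Sum.inr t) f : Cfg 2 → F) =ᵐ[volume] U M G KP t f) →
      ∀ v : ℕ → Gph (ιC R) (Qh R G), (∀ n, v n ∈ Sct (ιC R) (Qh R G) u (wgt m)) →
      ∀ B : ℝ, (∀ n, ‖v n‖ ≤ B) →
      ∃ k : ℕ → ℕ, StrictMono k ∧ CauchySeq (fun n => JG (ιC R) (Qh R G) (v (k n))) := by
  have h1 := energyLB b M G
  have h2 := exists_bound_lin (fun k => Sp M G (KM k)) (Sp M G KP)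
  cases h1 with | intro C hC => ?_
  cases h2 with | intro c hc => ?_
  exact ⟨4 * c + 16 * (C + 1), fun m hm u huM huP v hv B hB =>
    hcpt (norm_Qh_sq (R := R) (G := G)) hC.1 hC.2 hc.1 hc.2
    (fun v w => Sym613.Sp_skew KP_transpose v w) (fun k v w => Sym613.Sp_skew (KM_transpose k) v w)
    (hm.trans (le_abs_self m)) (fun f hf => sector_weak huM huP hf) v hv B hB⟩

end Crest.Agent.R330.Cpt893
end
end

-- ▼ part R330/SLift_726
section

/-!
# Row 330, S13.LIFT: the symmetries on `L²` and on the core (helper726)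
-/

set_option autoImplicit false
set_option linter.unusedSectionVars false

open MeasureTheory Filter Topology Crest.MathPhysics.MatrixQM
open scoped ContDiff InnerProductSpace ENNReal

noncomputable section

namespace Crest.Agent.R330.SLift726

open Crest.Agent.R330.Defs478 Crest.Agent.R330.Dict416 Crest.Agent.R330.SDefs726
open Crest.Agent.R330.Sym613 Crest.Agent.R330.SFin726

variable {N : ℕ} {F : Type*} [NormedAddCommGroup F] [InnerProductSpace ℂ F]
  [FiniteDimensional ℂ F]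

section L2map

variable (M : FermionRep N F) (G : GammaNine) (a : Matrix (Fin 9) (Fin 9) ℝ)
  (ha : a.transpose = -a)

/-- the symmetry on `L²` as a function -/
def u0 (t : ℝ) (f : L2 N F) : L2 N F :=
  (memLp_U (M := M) (G := G) ha t (Lp.memLp f)).toLp (U M G a t f)

variable {M G a}

theorem u0_toLp (t : ℝ) {f : Cfg N → F} (hf : MemLp f 2 volume) :
    u0 M G a ha t (hf.toLp f) = (memLp_U (M := M) (G := G) ha t hf).toLp (U M G a t f) := by
  unfold u0
  exact MemLp.toLp_congr _ _ (U_congr_ae ha t hf.coeFn_toLp)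

theorem u0_ae (t : ℝ) (f : L2 N F) :
    (u0 M G a ha t f : Cfg N → F) =ᵐ[volume] U M G a t f := MemLp.coeFn_toLp _

theorem u0_add (t : ℝ) (f g : L2 N F) :
    u0 M G a ha t (f + g) = u0 M G a ha t f + u0 M G a ha t g := by
  unfold u0
  rw [← MemLp.toLp_add]
  refine MemLp.toLp_congr _ _ ?_
  rw [← U_add_fun]
  exact U_congr_ae ha t (Lp.coeFn_add f g)

theorem u0_smul (t : ℝ) (c : ℂ) (f : L2 N F) :
    u0 M G a ha t (c • f) = c • u0 M G a ha t f := by
  unfold u0
  rw [← MemLp.toLp_const_smul]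
  refine MemLp.toLp_congr _ _ ?_
  rw [← U_smul_fun]
  exact U_congr_ae ha t (Lp.coeFn_smul c f)

theorem u0_norm (t : ℝ) (f : L2 N F) : ‖u0 M G a ha t f‖ = ‖f‖ := by
  unfold u0
  rw [Lp.norm_toLp, eLpNorm_U ha t (Lp.memLp f).1]
  rfl

theorem u0_u0 (s t : ℝ) (f : L2 N F) :
    u0 M G a ha s (u0 M G a ha t f) = u0 M G a ha (s + t) f := by
  conv_lhs => rw [u0.eq_def M G a ha t f]
  rw [u0_toLp]
  unfold u0
  congr 1
  rw [U_add]

theorem u0_zero (f : L2 N F) : u0 M G a ha 0 f = f := by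
  unfold u0
  simp only [U_zero, Lp.toLp_coeFn]

variable (M G a)

/-- **the symmetry on `L²`** -/
def uL (t : ℝ) : L2 N F ≃ₗᵢ[ℂ] L2 N F where
  toFun := u0 M G a ha t
  invFun := u0 M G a ha (-t)
  map_add' := u0_add ha t
  map_smul' := u0_smul ha t
  left_inv := fun f => by rw [u0_u0, neg_add_cancel, u0_zero]
  right_inv := fun f => by rw [u0_u0, add_neg_cancel, u0_zero]
  norm_map' := u0_norm ha t

variable {M G a}


theorem uL_symm_apply (t : ℝ) (f : L2 N F) :
    (uL M G a ha t).symm f = uL M G a ha (-t) f := rfl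

theorem uL_ae (t : ℝ) (f : L2 N F) :
    (uL M G a ha t f : Cfg N → F) =ᵐ[volume] U M G a t f := u0_ae ha t f

theorem uL_toLp (t : ℝ) {f : Cfg N → F} (hf : MemLp f 2 volume) :
    uL M G a ha t (hf.toLp f) = (memLp_U (M := M) (G := G) ha t hf).toLp (U M G a t f) :=
  u0_toLp ha t hf

end L2map

section coremap

variable {b : ColorBasis N} {M : FermionRep N F} (R : GaugeAction b M) (G : GammaNine)
  (a : Matrix (Fin 9) (Fin 9) ℝ) (ha : a.transpose = -a)

/-- **the symmetry on the core** -/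
def UC (t : ℝ) : core b R →ₗ[ℂ] core b R where
  toFun φ := ⟨U M G a t φ.1, core_U ha t φ.2⟩
  map_add' φ ψ := Subtype.ext (U_add_fun t φ.1 ψ.1)
  map_smul' c φ := Subtype.ext (U_smul_fun t c φ.1)

variable {R G a}

theorem UC_coe (t : ℝ) (φ : core b R) : (UC R G a ha t φ).1 = U M G a t φ.1 := rfl

theorem ιC_UC (t : ℝ) (φ : core b R) : ιC R (UC R G a ha t φ) = uL M G a ha t (ιC R φ) := by
  rw [ιC_apply, ιC_apply, uL_toLp]
  rfl

theorem ιC_UC_symm (t : ℝ) (φ : core b R) :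
    ιC R (UC R G a ha (-t) φ) = (uL M G a ha t).symm (ιC R φ) := by
  rw [uL_symm_apply, ιC_UC]

/-- an orthogonal matrix preserves the sum of the squares -/
theorem orth_sum {s : Matrix (Fin 16) (Fin 16) ℝ} (hs : s.transpose * s = 1) (v : Fin 16 → F) :
    ∑ α, ‖∑ β, ((s α β : ℝ) : ℂ) • v β‖ ^ 2 = ∑ β, ‖v β‖ ^ 2 := by
  have key : ∑ α, ⟪∑ β, ((s α β : ℝ) : ℂ) • v β, ∑ β, ((s α β : ℝ) : ℂ) • v β⟫_ℂ =
      ∑ β, ⟪v β, v β⟫_ℂ := by
    have e1 : ∀ β γ, ∑ α, s α β * s α γ = if β = γ then 1 else 0 := by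
      intro β γ
      have h := congrFun (congrFun hs β) γ
      rw [Matrix.mul_apply, Matrix.one_apply] at h
      simpa only [Matrix.transpose_apply] using h
    calc ∑ α, ⟪∑ β, ((s α β : ℝ) : ℂ) • v β, ∑ β, ((s α β : ℝ) : ℂ) • v β⟫_ℂ
        = ∑ α, ∑ β, ∑ γ, ((s α β * s α γ : ℝ) : ℂ) * ⟪v β, v γ⟫_ℂ := by
          refine Finset.sum_congr rfl fun α _ => ?_
          rw [sum_inner]
          refine Finset.sum_congr rfl fun β _ => ?_
          rw [inner_sum]
          refine Finset.sum_congr rfl fun γ _ => ?_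
          rw [inner_smul_left, inner_smul_right, Complex.conj_ofReal]
          push_cast
          ring
      _ = ∑ β, ∑ γ, ((∑ α, s α β * s α γ : ℝ) : ℂ) * ⟪v β, v γ⟫_ℂ := by
          rw [Finset.sum_comm]
          refine Finset.sum_congr rfl fun β _ => ?_
          rw [Finset.sum_comm]
          refine Finset.sum_congr rfl fun γ _ => ?_
          rw [Complex.ofReal_sum, Finset.sum_mul]
      _ = _ := by
          refine Finset.sum_congr rfl fun β _ => ?_
          simp only [e1]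
          rw [Finset.sum_eq_single β]
          · simp
          · intro γ _ hγ
            rw [if_neg (Ne.symm hγ)]
            simp
          · intro h; exact absurd (Finset.mem_univ _) h
  have h2 : ((∑ α, ‖∑ β, ((s α β : ℝ) : ℂ) • v β‖ ^ 2 : ℝ) : ℂ) =
      ((∑ β, ‖v β‖ ^ 2 : ℝ) : ℂ) := by
    push_cast
    simp only [inner_self_eq_norm_sq_to_K] at key
    exact key
  exact_mod_cast h2

/-- the form is invariant -/
theorem q_U (ha : a.transpose = -a) (t : ℝ) {φ : Cfg N → F} (hφ : SCoer186.Ts φ) :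
    SCoer186.q b M G (U M G a t φ) = SCoer186.q b M G φ := by
  unfold SCoer186.q
  congr 1
  have hi : ∀ α, Integrable (fun x => ‖supercharge b M G α φ x‖ ^ 2) volume := fun α => by
    have h := IBP837.memLp_supercharge (b := b) (M := M) (G := G) (α := α) (p := 2)
      (hφ.1.of_le (by simp)) hφ.2
    exact (memLp_two_iff_integrable_sq_norm h.1).1 h
  have hU : SCoer186.Ts (U M G a t φ) := ⟨contDiff_U t hφ.1, hasCompactSupport_U ha t hφ.2⟩
  have hi' : ∀ α, Integrable (fun x => ‖supercharge b M G α (U M G a t φ) x‖ ^ 2) volume :=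
    fun α => by
      have h := IBP837.memLp_supercharge (b := b) (M := M) (G := G) (α := α) (p := 2)
        (hU.1.of_le (by simp)) hU.2
      exact (memLp_two_iff_integrable_sq_norm h.1).1 h
  rw [← integral_finsetSum _ fun α _ => hi' α, ← integral_finsetSum _ fun α _ => hi α]
  have hpt : ∀ x, ∑ α, ‖supercharge b M G α (U M G a t φ) x‖ ^ 2 =
      (fun y => ∑ α, ‖supercharge b M G α φ y‖ ^ 2) (vfE a ha t x) := by
    intro x
    simp only [supercharge_U ha t _ (hφ.1.differentiable (by simp))]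
    rw [orth_sum (ss_orth ha t)]
    simp only [norm_U ha]
    rfl
  simp only [hpt]
  exact (vfE (N := N) a ha t).measurePreserving.integral_comp
    (vfE (N := N) a ha t).toHomeomorph.measurableEmbedding
    (fun y => ∑ α, ‖supercharge b M G α φ y‖ ^ 2)

theorem norm_Qh_UC (t : ℝ) (φ : core b R) : ‖Qh R G (UC R G a ha t φ)‖ = ‖Qh R G φ‖ := by
  have h : ‖Qh R G (UC R G a ha t φ)‖ ^ 2 = ‖Qh R G φ‖ ^ 2 := by
    rw [norm_Qh_sq, norm_Qh_sq, UC_coe, q_U ha t ⟨φ.2.1, φ.2.2.1⟩]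
  exact (sq_eq_sq₀ (norm_nonneg _) (norm_nonneg _)).1 h

end coremap

end Crest.Agent.R330.SLift726

end
end

-- ▼ part R330/SecN1_383
section

/-!
# Row 330, S0513 (helper383), part 1: a fermionic vacuum neutral under rotations and colour

`J = γ⁵ γ⁶` (indices 4, 5 of `Fin 9`).

* `JJ`, `JJ_sq`, `JJ_comm`, `trace_g2_JJ`.
* `IsVac M G v` : `v` is killed by all `θ_α^A + i Σ_β J_{αβ} θ_β^A`; `exists_vac`.
* `bil_vac` : a bilinear `Σ c_{pq} θ_p θ_q` kills `v` if `c (J ⊗ 1)` is symmetric of trace zero.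
* `spin_vac` : `Σ_A Σ_{αβ} γ^{ij}_{αβ} θ_α^A θ_β^A v = 0` for `i, j ∉ {4, 5}`.
* `col_vac` : `Σ_α Σ_{AB} a_{AB} θ_α^A θ_α^B v = 0` for antisymmetric `a`.
-/

set_option autoImplicit false
set_option linter.unusedSectionVars false

open Matrix Finset
open Crest.MathPhysics.MatrixQM

namespace Crest.Agent.R330.SecN383

open Crest.Agent.R330.Gam962

noncomputable section

variable (G : GammaNine)

/-- `γ⁵ γ⁶`. -/
def JJ : Matrix (Fin 16) (Fin 16) ℝ := G.γ 4 * G.γ 5

theorem JJ_transpose : (JJ G)ᵀ = -JJ G := by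
  unfold JJ
  rw [Matrix.transpose_mul, G.symm, G.symm, anti G (by decide)]

theorem JJ_asymm (α β : Fin 16) : JJ G α β = -JJ G β α := by
  have h := congrFun (congrFun (JJ_transpose G) β) α
  rw [Matrix.transpose_apply, Matrix.neg_apply] at h
  exact h

theorem JJ_sq : JJ G * JJ G = -1 := by
  unfold JJ
  rw [mul_assoc, ← mul_assoc (G.γ 5), anti G (show (5 : Fin 9) ≠ 4 by decide), neg_mul, mul_neg,
    mul_assoc (G.γ 4), sq_one, mul_one, sq_one]

theorem gam_JJ {i : Fin 9} (h4 : i ≠ 4) (h5 : i ≠ 5) : G.γ i * JJ G = JJ G * G.γ i := by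
  unfold JJ
  rw [← mul_assoc, anti G h4, neg_mul, mul_assoc, anti G h5, mul_neg, neg_neg, mul_assoc]

theorem JJ_comm {i j : Fin 9} (hi4 : i ≠ 4) (hi5 : i ≠ 5) (hj4 : j ≠ 4) (hj5 : j ≠ 5) :
    G.γ2 i j * JJ G = JJ G * G.γ2 i j := by
  unfold GammaNine.γ2
  rw [Matrix.smul_mul, Matrix.mul_smul, Matrix.sub_mul, Matrix.mul_sub, mul_assoc, gam_JJ G hj4 hj5,
    ← mul_assoc, gam_JJ G hi4 hi5, mul_assoc, mul_assoc, gam_JJ G hi4 hi5, ← mul_assoc (G.γ j),
    gam_JJ G hj4 hj5, mul_assoc]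

theorem trace_g2_JJ {i j : Fin 9} (hi4 : i ≠ 4) (hi5 : i ≠ 5) :
    (G.γ2 i j * JJ G).trace = 0 := by
  by_cases hij : i = j
  · subst hij
    rw [g2_self, zero_mul, Matrix.trace_zero]
  · rw [g2_ne G hij]
    have h1 : (G.γ i * G.γ j * JJ G).trace = (G.γ j * JJ G * G.γ i).trace := by
      rw [mul_assoc, Matrix.trace_mul_comm]
    have h2 : G.γ j * JJ G * G.γ i = -(G.γ i * G.γ j * JJ G) := by
      rw [mul_assoc, ← gam_JJ G hi4 hi5, ← mul_assoc, anti G (Ne.symm hij), neg_mul]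
    rw [h2, Matrix.trace_neg] at h1
    linarith

variable {N : ℕ} {F : Type*} [NormedAddCommGroup F] [InnerProductSpace ℂ F]
  [FiniteDimensional ℂ F] (M : FermionRep N F)

/-- Index set of the fermions. -/
abbrev PI (N : ℕ) : Type := Fin 16 × Fin (N ^ 2 - 1)

/-- The annihilators `θ_α^A + i Σ_β J_{αβ} θ_β^A`. -/
def ann (p : PI N) : F →ₗ[ℂ] F :=
  M.θ p.1 p.2 + Complex.I • ∑ β, (JJ G p.1 β : ℂ) • M.θ β p.2

theorem th_comm (p q : PI N) (v : F) : M.θ p.1 p.2 (M.θ q.1 q.2 v) + M.θ q.1 q.2 (M.θ p.1 p.2 v) =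
    if p = q then v else 0 := by
  have h := congrArg (fun L : F →ₗ[ℂ] F => L v) (M.anticomm p.1 p.2 q.1 q.2)
  simp only [LinearMap.add_apply, LinearMap.comp_apply] at h
  rw [h]
  by_cases hpq : p = q
  · rw [if_pos hpq, if_pos (by rw [hpq]; exact ⟨rfl, rfl⟩)]
    rfl
  · rw [if_neg hpq, if_neg fun h' => hpq (Prod.ext h'.1 h'.2)]
    rfl

theorem ann_apply (p : PI N) (v : F) :
    ann G M p v = M.θ p.1 p.2 v + Complex.I • ∑ β, (JJ G p.1 β : ℂ) • M.θ β p.2 v := by
  unfold ann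
  simp only [LinearMap.add_apply, LinearMap.smul_apply, LinearMap.sum_apply]

/-- **The annihilators anticommute.** -/
theorem ann_anticomm (p q : PI N) (v : F) :
    ann G M p (ann G M q v) + ann G M q (ann G M p v) = 0 := by
  have e : ∀ p q : PI N, ann G M p (ann G M q v) =
      M.θ p.1 p.2 (M.θ q.1 q.2 v) + Complex.I • ∑ δ, (JJ G q.1 δ : ℂ) • M.θ p.1 p.2 (M.θ δ q.2 v) +
      (Complex.I • ∑ β, (JJ G p.1 β : ℂ) • M.θ β p.2 (M.θ q.1 q.2 v) -
        ∑ β, ∑ δ, ((JJ G p.1 β : ℂ) * (JJ G q.1 δ : ℂ)) • M.θ β p.2 (M.θ δ q.2 v)) := by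
    intro p q
    rw [ann_apply, ann_apply]
    simp only [map_add, map_smul, map_sum, smul_add, Finset.sum_add_distrib]
    congr 1
    congr 1
    have : ∀ β, (JJ G p.1 β : ℂ) • (Complex.I • ∑ δ, (JJ G q.1 δ : ℂ) • M.θ β p.2 (M.θ δ q.2 v)) =
        Complex.I • ∑ δ, ((JJ G p.1 β : ℂ) * (JJ G q.1 δ : ℂ)) • M.θ β p.2 (M.θ δ q.2 v) := by
      intro β
      rw [smul_comm, Finset.smul_sum]
      congr 1
      exact Finset.sum_congr rfl fun δ _ => smul_smul _ _ _
    rw [Finset.sum_congr rfl fun β _ => this β, ← Finset.smul_sum, smul_smul, Complex.I_mul_I,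
      neg_one_smul, sub_eq_add_neg]
  rw [e p q, e q p]
  by_cases hpq : p.2 = q.2
  swap
  · -- different colours: everything anticommutes
    have h0 : ∀ α β : Fin 16, M.θ β q.2 (M.θ α p.2 v) = -M.θ α p.2 (M.θ β q.2 v) := by
      intro α β
      have h := th_comm M (α, p.2) (β, q.2) v
      have hne : ((α, p.2) : PI N) ≠ (β, q.2) := by
        intro h'
        have h2 := congrArg (fun z : PI N => z.2) h'
        exact hpq h2
      rw [if_neg hne] at h
      exact eq_neg_of_add_eq_zero_right h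
    have h1 : ∑ β, ∑ δ, ((JJ G q.1 β : ℂ) * (JJ G p.1 δ : ℂ)) • M.θ β q.2 (M.θ δ p.2 v) =
        -∑ β, ∑ δ, ((JJ G p.1 β : ℂ) * (JJ G q.1 δ : ℂ)) • M.θ β p.2 (M.θ δ q.2 v) := by
      rw [Finset.sum_comm, ← Finset.sum_neg_distrib]
      refine Finset.sum_congr rfl fun δ _ => ?_
      rw [← Finset.sum_neg_distrib]
      refine Finset.sum_congr rfl fun β _ => ?_
      rw [h0, smul_neg, mul_comm]
    have h2 : ∑ δ, (JJ G p.1 δ : ℂ) • M.θ q.1 q.2 (M.θ δ p.2 v) =
        -∑ β, (JJ G p.1 β : ℂ) • M.θ β p.2 (M.θ q.1 q.2 v) := by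
      rw [← Finset.sum_neg_distrib]
      exact Finset.sum_congr rfl fun δ _ => by rw [h0, smul_neg]
    have h3 : ∑ β, (JJ G q.1 β : ℂ) • M.θ β q.2 (M.θ p.1 p.2 v) =
        -∑ δ, (JJ G q.1 δ : ℂ) • M.θ p.1 p.2 (M.θ δ q.2 v) := by
      rw [← Finset.sum_neg_distrib]
      exact Finset.sum_congr rfl fun δ _ => by rw [h0, smul_neg]
    rw [h1, h2, h3, h0 p.1 q.1]
    simp only [smul_neg]
    abel
  · -- equal colours
    set A := p.2 with hA
    rw [← hpq]
    have h0 : ∀ α β : Fin 16, M.θ β A (M.θ α A v) = (if α = β then v else 0) -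
        M.θ α A (M.θ β A v) := by
      intro α β
      have h := th_comm M (α, A) (β, A) v
      simp only [Prod.mk.injEq, and_true] at h
      rw [← h]
      abel
    have h1 : ∑ β, ∑ δ, ((JJ G q.1 β : ℂ) * (JJ G p.1 δ : ℂ)) • M.θ β A (M.θ δ A v) =
        (∑ β, (JJ G q.1 β : ℂ) * (JJ G p.1 β : ℂ)) • v -
        ∑ β, ∑ δ, ((JJ G p.1 β : ℂ) * (JJ G q.1 δ : ℂ)) • M.θ β A (M.θ δ A v) := by
      rw [Finset.sum_comm (f := fun β δ => ((JJ G p.1 β : ℂ) * (JJ G q.1 δ : ℂ)) •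
        M.θ β A (M.θ δ A v)), Finset.sum_smul, ← Finset.sum_sub_distrib]
      refine Finset.sum_congr rfl fun β _ => ?_
      have : ∀ δ, ((JJ G q.1 β : ℂ) * (JJ G p.1 δ : ℂ)) • M.θ β A (M.θ δ A v) =
          (if δ = β then ((JJ G q.1 β : ℂ) * (JJ G p.1 δ : ℂ)) • v else 0) -
          ((JJ G p.1 δ : ℂ) * (JJ G q.1 β : ℂ)) • M.θ δ A (M.θ β A v) := by
        intro δ
        rw [h0 δ β, smul_sub, mul_comm (JJ G p.1 δ : ℂ)]
        congr 1
        split_ifs <;> simp
      rw [Finset.sum_congr rfl fun δ _ => this δ, Finset.sum_sub_distrib]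
      congr 1
      simp
    have h2 : ∑ δ, (JJ G p.1 δ : ℂ) • M.θ q.1 A (M.θ δ A v) = (JJ G p.1 q.1 : ℂ) • v -
        ∑ β, (JJ G p.1 β : ℂ) • M.θ β A (M.θ q.1 A v) := by
      have : ∀ δ, (JJ G p.1 δ : ℂ) • M.θ q.1 A (M.θ δ A v) =
          (if δ = q.1 then (JJ G p.1 δ : ℂ) • v else 0) -
          (JJ G p.1 δ : ℂ) • M.θ δ A (M.θ q.1 A v) := by
        intro δ
        rw [h0 δ q.1, smul_sub]
        congr 1
        split_ifs <;> simp
      rw [Finset.sum_congr rfl fun δ _ => this δ, Finset.sum_sub_distrib]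
      congr 1
      simp
    have h3 : ∑ β, (JJ G q.1 β : ℂ) • M.θ β A (M.θ p.1 A v) = (JJ G q.1 p.1 : ℂ) • v -
        ∑ δ, (JJ G q.1 δ : ℂ) • M.θ p.1 A (M.θ δ A v) := by
      have : ∀ β, (JJ G q.1 β : ℂ) • M.θ β A (M.θ p.1 A v) =
          (if β = p.1 then (JJ G q.1 β : ℂ) • v else 0) -
          (JJ G q.1 β : ℂ) • M.θ p.1 A (M.θ β A v) := by
        intro β
        rw [h0 p.1 β, smul_sub]
        congr 1
        by_cases hb : p.1 = β
        · rw [if_pos hb, if_pos hb.symm]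
        · rw [if_neg hb, if_neg (Ne.symm hb), smul_zero]
      rw [Finset.sum_congr rfl fun β _ => this β, Finset.sum_sub_distrib]
      congr 1
      simp
    have h4 : ∑ β, (JJ G q.1 β : ℂ) * (JJ G p.1 β : ℂ) = if p.1 = q.1 then 1 else 0 := by
      have h5 : (JJ G * (JJ G)ᵀ) q.1 p.1 = if p.1 = q.1 then (1 : ℝ) else 0 := by
        rw [JJ_transpose, mul_neg, JJ_sq, neg_neg, Matrix.one_apply]
        by_cases h : p.1 = q.1
        · rw [if_pos h, if_pos h.symm]
        · rw [if_neg h, if_neg (Ne.symm h)]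
      rw [Matrix.mul_apply] at h5
      simp only [Matrix.transpose_apply] at h5
      have h6 : ((∑ β, JJ G q.1 β * JJ G p.1 β : ℝ) : ℂ) = ((if p.1 = q.1 then (1 : ℝ) else 0 : ℝ) : ℂ) := by
        rw [h5]
      push_cast at h6
      rw [h6]
      split_ifs <;> simp
    have h5 : (JJ G q.1 p.1 : ℂ) = -(JJ G p.1 q.1 : ℂ) := by
      rw [JJ_asymm G q.1 p.1]
      push_cast
      rfl
    have h6 : M.θ q.1 A (M.θ p.1 A v) = (if p.1 = q.1 then v else 0) - M.θ p.1 A (M.θ q.1 A v) :=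
      h0 p.1 q.1
    rw [h1, h2, h3, h4, h5, h6, smul_sub, smul_sub]
    have h7 : (if p.1 = q.1 then (1 : ℂ) else 0) • v = if p.1 = q.1 then v else 0 := by
      split_ifs <;> simp
    rw [h7, neg_smul, smul_neg]
    abel

/-- `v` is killed by all annihilators. -/
def IsVac (v : F) : Prop := ∀ p : PI N, ann G M p v = 0

/-- **There is a vacuum.** -/
theorem exists_vac [Nontrivial F] : ∃ v : F, v ≠ 0 ∧ IsVac G M v := by
  classical
  have h : ∀ s : Finset (PI N), ∃ v : F, v ≠ 0 ∧ ∀ p ∈ s, ann G M p v = 0 := by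
    intro s
    induction s using Finset.induction_on with
    | empty =>
      obtain ⟨v, hv⟩ := exists_ne (0 : F)
      exact ⟨v, hv, fun p hp => absurd hp (Finset.notMem_empty _)⟩
    | insert a s ha ih =>
      obtain ⟨v, hv, hs⟩ := ih
      by_cases h : ann G M a v = 0
      · refine ⟨v, hv, fun p hp => ?_⟩
        rcases Finset.mem_insert.1 hp with rfl | hp
        · exact h
        · exact hs p hp
      · refine ⟨ann G M a v, h, fun p hp => ?_⟩
        rcases Finset.mem_insert.1 hp with rfl | hp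
        · have h1 := ann_anticomm G M p p v
          rw [← two_smul ℂ] at h1
          exact (smul_eq_zero.1 h1).resolve_left two_ne_zero
        · have h1 := ann_anticomm G M p a v
          rw [hs p hp, map_zero, add_zero] at h1
          exact h1
  obtain ⟨v, hv, h⟩ := h Finset.univ
  exact ⟨v, hv, fun p => h p (Finset.mem_univ _)⟩

variable {G M}

/-- On a vacuum `θ_α^A = -i Σ_β J_{αβ} θ_β^A`. -/
theorem IsVac.th {v : F} (h : IsVac G M v) (p : PI N) :
    M.θ p.1 p.2 v = -(Complex.I • ∑ β, (JJ G p.1 β : ℂ) • M.θ β p.2 v) := by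
  have h1 := h p
  rw [ann_apply] at h1
  exact eq_neg_of_add_eq_zero_left h1

/-- **Bilinears kill the vacuum**: `c (J ⊗ 1)` symmetric of trace zero. -/
theorem bil_vac {v : F} (h : IsVac G M v) (c : PI N → PI N → ℝ)
    (hs : ∀ p r : PI N, ∑ α, c p (α, r.2) * JJ G α r.1 = ∑ α, c r (α, p.2) * JJ G α p.1)
    (ht : ∑ p : PI N, ∑ α, c p (α, p.2) * JJ G α p.1 = 0) :
    ∑ p : PI N, ∑ q : PI N, (c p q : ℂ) • M.θ p.1 p.2 (M.θ q.1 q.2 v) = 0 := by
  set s : PI N → PI N → ℝ := fun p r => ∑ α, c p (α, r.2) * JJ G α r.1 with hsdef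
  have h1 : ∑ p : PI N, ∑ q : PI N, (c p q : ℂ) • M.θ p.1 p.2 (M.θ q.1 q.2 v) =
      -(Complex.I • ∑ p : PI N, ∑ r : PI N, (s p r : ℂ) • M.θ p.1 p.2 (M.θ r.1 r.2 v)) := by
    rw [Finset.smul_sum, ← Finset.sum_neg_distrib]
    refine Finset.sum_congr rfl fun p _ => ?_
    have h2 : ∀ q : PI N, (c p q : ℂ) • M.θ p.1 p.2 (M.θ q.1 q.2 v) =
        -(Complex.I • ∑ β, ((c p q : ℂ) * (JJ G q.1 β : ℂ)) • M.θ p.1 p.2 (M.θ β q.2 v)) := by
      intro q
      rw [h.th q]
      simp only [map_neg, map_smul, map_sum, smul_neg]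
      rw [smul_comm (c p q : ℂ), Finset.smul_sum]
      congr 2
      exact Finset.sum_congr rfl fun β _ => smul_smul _ _ _
    rw [Finset.sum_congr rfl fun q _ => h2 q, Finset.sum_neg_distrib, ← Finset.smul_sum]
    congr 2
    rw [Fintype.sum_prod_type_right, Fintype.sum_prod_type_right]
    refine Finset.sum_congr rfl fun A _ => ?_
    rw [Finset.sum_comm]
    refine Finset.sum_congr rfl fun β _ => ?_
    change ∑ x, ((c p (x, A) : ℂ) * (JJ G x β : ℂ)) • M.θ p.1 p.2 (M.θ β A v) = _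
    rw [← Finset.sum_smul]
    congr 1
    simp only [hsdef]
    push_cast
    rfl
  rw [h1]
  have h2 : ∑ p : PI N, ∑ r : PI N, (s p r : ℂ) • M.θ p.1 p.2 (M.θ r.1 r.2 v) = 0 := by
    have h3 : ∑ p : PI N, ∑ r : PI N, (s p r : ℂ) • M.θ p.1 p.2 (M.θ r.1 r.2 v) =
        ∑ p : PI N, ∑ r : PI N, (s p r : ℂ) • M.θ r.1 r.2 (M.θ p.1 p.2 v) := by
      rw [Finset.sum_comm]
      refine Finset.sum_congr rfl fun p _ => Finset.sum_congr rfl fun r _ => ?_
      have : s r p = s p r := hs r p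
      rw [this]
    have h4 : (2 : ℂ) • ∑ p : PI N, ∑ r : PI N, (s p r : ℂ) • M.θ p.1 p.2 (M.θ r.1 r.2 v) =
        (∑ p : PI N, (s p p : ℂ)) • v := by
      rw [two_smul]
      conv_lhs =>
        enter [2]
        rw [h3]
      rw [← Finset.sum_add_distrib, Finset.sum_smul]
      refine Finset.sum_congr rfl fun p _ => ?_
      rw [← Finset.sum_add_distrib]
      have : ∀ r : PI N, (s p r : ℂ) • M.θ p.1 p.2 (M.θ r.1 r.2 v) +
          (s p r : ℂ) • M.θ r.1 r.2 (M.θ p.1 p.2 v) = if p = r then (s p r : ℂ) • v else 0 := by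
        intro r
        rw [← smul_add, th_comm M p r v]
        split_ifs <;> simp
      rw [Finset.sum_congr rfl fun r _ => this r]
      simp
    have h5 : (∑ p : PI N, (s p p : ℂ)) = 0 := by
      have h6 : ((∑ p : PI N, s p p : ℝ) : ℂ) = 0 := by
        rw [ht, Complex.ofReal_zero]
      push_cast at h6
      exact h6
    rw [h5, zero_smul] at h4
    exact (smul_eq_zero.1 h4).resolve_left two_ne_zero
  rw [h2, smul_zero, neg_zero]

/-- **The vacuum is neutral under rotations of the directions `≠ 4, 5`.** -/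
theorem spin_vac {v : F} (h : IsVac G M v) {i j : Fin 9} (hi4 : i ≠ 4) (hi5 : i ≠ 5)
    (hj4 : j ≠ 4) (hj5 : j ≠ 5) :
    ∑ A : Fin (N ^ 2 - 1), ∑ α, ∑ β, (G.γ2 i j α β : ℂ) • M.θ α A (M.θ β A v) = 0 := by
  classical
  have hJ : ∀ α β, ∑ δ, G.γ2 i j α δ * JJ G δ β = (G.γ2 i j * JJ G) α β := fun α β => by
    rw [Matrix.mul_apply]
  have hsym : ∀ α β, (G.γ2 i j * JJ G) α β = (G.γ2 i j * JJ G) β α := by
    intro α β
    have h1 : (G.γ2 i j * JJ G)ᵀ = G.γ2 i j * JJ G := by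
      rw [Matrix.transpose_mul, JJ_transpose, g2_transpose, neg_mul_neg,
        JJ_comm G hi4 hi5 hj4 hj5]
    conv_lhs => rw [← h1]
    rfl
  have h0 := bil_vac h (fun p q => if p.2 = q.2 then G.γ2 i j p.1 q.1 else 0) (by
    intro p r
    simp only
    by_cases hpr : p.2 = r.2
    · simp only [hpr, if_true]
      rw [hJ, hJ]
      exact hsym _ _
    · simp only [if_neg hpr, if_neg (Ne.symm hpr), zero_mul, Finset.sum_const_zero]) (by
    simp only [if_true]
    rw [Fintype.sum_prod_type_right]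
    simp only [hJ]
    rw [Finset.sum_const]
    have := trace_g2_JJ G (i := i) (j := j) hi4 hi5
    rw [Matrix.trace] at this
    simp only [Matrix.diag_apply] at this
    rw [this, smul_zero])
  rw [Fintype.sum_prod_type_right] at h0
  rw [← h0]
  refine Finset.sum_congr rfl fun A _ => Finset.sum_congr rfl fun α _ => ?_
  rw [Fintype.sum_prod_type_right]
  rw [Finset.sum_eq_single A]
  · simp
  · intro B _ hB
    refine Finset.sum_eq_zero fun β _ => ?_
    simp only [if_neg (Ne.symm hB), Complex.ofReal_zero, zero_smul]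
  · intro h'
    exact absurd (Finset.mem_univ A) h'


end

end Crest.Agent.R330.SecN383
end

-- ▼ part R330/SecN2_383
section

/-!
# Row 330, S0513 (helper383), part 2: the neutral vacuum is gauge invariant (two colours)

* `su2_char` : characters of `SU(2)` are trivial.
* `IsVac.line` : the vacuum of part 1 is a line.
* `IsVac.rho` : `ρ(g) v = v` for `N = 2`.
-/

set_option autoImplicit false
set_option linter.unusedSectionVars false

open Matrix Finset
open Crest.MathPhysics.MatrixQM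
open scoped InnerProductSpace ComplexConjugate

namespace Crest.Agent.R330.SecN383

noncomputable section

/-! ### Characters of SU(2) -/

section su2

/-- An element of `SU(2)`. -/
def mk2 (a b : ℂ) (h : a * conj a + b * conj b = 1) : Matrix.specialUnitaryGroup (Fin 2) ℂ :=
  ⟨!![a, b; -conj b, conj a], by
    rw [Matrix.mem_specialUnitaryGroup_iff, Matrix.mem_unitaryGroup_iff]
    constructor
    · ext i j
      fin_cases i <;> fin_cases j <;>
        simp [Matrix.mul_apply, Matrix.star_apply, Fin.sum_univ_two]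
      · exact h
      · ring
      · ring
      · linear_combination h
    · rw [Matrix.det_fin_two]
      simp
      linear_combination h⟩

theorem mk2_coe (a b : ℂ) (h : a * conj a + b * conj b = 1) :
    (mk2 a b h : Matrix (Fin 2) (Fin 2) ℂ) = !![a, b; -conj b, conj a] := rfl

theorem exists_mk2 (g : Matrix.specialUnitaryGroup (Fin 2) ℂ) :
    ∃ (a b : ℂ) (h : a * conj a + b * conj b = 1), g = mk2 a b h := by
  obtain ⟨hU, hd⟩ := Matrix.mem_specialUnitaryGroup_iff.1 g.2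
  have h1 : (g : Matrix (Fin 2) (Fin 2) ℂ) * star (g : Matrix (Fin 2) (Fin 2) ℂ) = 1 :=
    Matrix.mem_unitaryGroup_iff.1 hU
  have h2 : Matrix.adjugate (g : Matrix (Fin 2) (Fin 2) ℂ) * (g : Matrix (Fin 2) (Fin 2) ℂ) = 1 := by
    rw [Matrix.adjugate_mul, hd, one_smul]
  have h3 : star (g : Matrix (Fin 2) (Fin 2) ℂ) = Matrix.adjugate (g : Matrix (Fin 2) (Fin 2) ℂ) := by
    rw [← one_mul (star (g : Matrix (Fin 2) (Fin 2) ℂ)), ← h2, mul_assoc, h1, mul_one]
  rw [Matrix.adjugate_fin_two] at h3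
  have e00 := congrFun (congrFun h3 0) 0
  have e01 := congrFun (congrFun h3 0) 1
  simp only [Matrix.star_apply, Matrix.of_apply, Matrix.cons_val', Matrix.cons_val_zero,
    Matrix.cons_val_one, Matrix.cons_val_fin_one] at e00 e01
  have e11 : (g : Matrix (Fin 2) (Fin 2) ℂ) 1 1 = conj ((g : Matrix (Fin 2) (Fin 2) ℂ) 0 0) :=
    e00.symm
  have e10 : (g : Matrix (Fin 2) (Fin 2) ℂ) 1 0 = -conj ((g : Matrix (Fin 2) (Fin 2) ℂ) 0 1) := by
    have h4 := congrArg (starRingEnd ℂ) e01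
    rw [map_neg] at h4
    rw [← h4]
    exact (Complex.conj_conj _).symm
  rw [Matrix.det_fin_two, e11, e10] at hd
  refine ⟨(g : Matrix (Fin 2) (Fin 2) ℂ) 0 0, (g : Matrix (Fin 2) (Fin 2) ℂ) 0 1, by
    linear_combination hd, Subtype.ext ?_⟩
  rw [mk2_coe]
  ext i j
  fin_cases i <;> fin_cases j
  · rfl
  · rfl
  · exact e10
  · exact e11

theorem mk2_mul (a b a' b' : ℂ) (h : a * conj a + b * conj b = 1)
    (h' : a' * conj a' + b' * conj b' = 1) :
    ((mk2 a b h * mk2 a' b' h' : Matrix.specialUnitaryGroup (Fin 2) ℂ) :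
      Matrix (Fin 2) (Fin 2) ℂ) =
    !![a * a' - b * conj b', a * b' + b * conj a';
      -conj b * a' - conj a * conj b', -conj b * b' + conj a * conj a'] := by
  rw [Submonoid.coe_mul, mk2_coe, mk2_coe, Matrix.mul_fin_two]
  ext i j
  fin_cases i <;> fin_cases j <;> simp <;> ring

theorem mk2_inv (a b : ℂ) (h : a * conj a + b * conj b = 1) :
    ∃ h', (mk2 a b h)⁻¹ = mk2 (conj a) (-b) h' := by
  refine ⟨by rw [Complex.conj_conj, map_neg]; linear_combination h, ?_⟩
  rw [inv_eq_iff_mul_eq_one]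
  refine Subtype.ext ?_
  rw [mk2_mul]
  ext i j
  fin_cases i <;> fin_cases j <;> simp
  · linear_combination h
  · ring
  · ring
  · linear_combination h

/-- Every element of `SU(2)` is conjugate to its inverse. -/
theorem conj_inv (g : Matrix.specialUnitaryGroup (Fin 2) ℂ) :
    ∃ w, w * g = g⁻¹ * w := by
  obtain ⟨a, b, h, rfl⟩ := exists_mk2 g
  obtain ⟨h', hi⟩ := mk2_inv a b h
  obtain ⟨q, hq, hqb⟩ : ∃ q : ℂ, q * conj q = 1 ∧ q * conj b + b * conj q = 0 := by
    by_cases hb : b = 0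
    · exact ⟨1, by simp, by simp [hb]⟩
    · have hn : ((‖b‖ : ℝ) : ℂ) ≠ 0 := by
        exact_mod_cast norm_ne_zero_iff.2 hb
      have hbb : b * conj b = ((‖b‖ : ℝ) : ℂ) ^ 2 := by
        rw [Complex.mul_conj, Complex.normSq_eq_norm_sq]
        push_cast
        rfl
      refine ⟨Complex.I * b / ((‖b‖ : ℝ) : ℂ), ?_, ?_⟩
      · rw [map_div₀, map_mul, Complex.conj_I, Complex.conj_ofReal]
        field_simp
        rw [← hbb]
        linear_combination (-(b * conj b)) * Complex.I_sq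
      · rw [map_div₀, map_mul, Complex.conj_I, Complex.conj_ofReal]
        field_simp
        ring
  refine ⟨mk2 0 q (by rw [zero_mul, zero_add]; exact hq), ?_⟩
  rw [hi]
  refine Subtype.ext ?_
  rw [mk2_mul, mk2_mul]
  ext i j
  fin_cases i <;> fin_cases j <;> simp
  · linear_combination -hqb
  · ring
  · ring
  · linear_combination -hqb

/-- Every element of `SU(2)` is a square. -/
theorem exists_sqrt (g : Matrix.specialUnitaryGroup (Fin 2) ℂ) : ∃ k, g = k * k := by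
  obtain ⟨a, b, h, rfl⟩ := exists_mk2 g
  by_cases ha : a = -1
  · subst ha
    have hb : b = 0 := by
      have h1 : b * conj b = 0 := by
        rw [map_neg, map_one] at h
        linear_combination h
      rcases mul_eq_zero.1 h1 with h1 | h1
      · exact h1
      · exact (map_eq_zero (starRingEnd ℂ)).1 h1
    subst hb
    refine ⟨mk2 Complex.I 0 (by simp), Subtype.ext ?_⟩
    rw [mk2_mul, mk2_coe]
    ext i j
    fin_cases i <;> fin_cases j <;> simp
  · have hn : 0 < 2 + 2 * a.re := by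
      have h1 : a.re * a.re + a.im * a.im + (b.re * b.re + b.im * b.im) = 1 := by
        have h2 := congrArg Complex.re h
        simpa using h2
      by_contra hc
      have h2 : a.re ≤ -1 := by linarith
      have p1 := mul_self_nonneg a.im
      have p2 := mul_self_nonneg b.re
      have p3 := mul_self_nonneg b.im
      have h3 : a.re = -1 := by nlinarith
      have h4 : a.im = 0 := by
        rw [h3] at h1
        exact mul_self_eq_zero.1 (by linarith)
      exact ha (Complex.ext (by simpa using h3) (by simpa using h4))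
    set s : ℂ := ((Real.sqrt (2 + 2 * a.re) : ℝ) : ℂ) with hs
    have hs2 : s * s = 2 + a + conj a := by
      rw [hs, ← Complex.ofReal_mul, Real.mul_self_sqrt hn.le]
      apply Complex.ext
      · simp; ring
      · simp
    have hs0 : s ≠ 0 := by
      rw [hs]
      exact_mod_cast (Real.sqrt_pos.2 hn).ne'
    have hsc : conj s = s := Complex.conj_ofReal _
    refine ⟨mk2 ((1 + a) / s) (b / s) ?_, Subtype.ext ?_⟩
    · rw [map_div₀, map_div₀, hsc, map_add, map_one]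
      field_simp
      rw [sq, hs2]
      linear_combination h
    · rw [mk2_mul, mk2_coe]
      simp only [map_div₀, hsc, map_add, map_one]
      ext i j
      fin_cases i <;> fin_cases j <;> simp
      · field_simp
        rw [sq, hs2]
        linear_combination h
      · field_simp
        rw [sq, hs2]
        ring
      · field_simp
        rw [sq, hs2]
        ring
      · field_simp
        rw [sq, hs2]
        linear_combination h

/-- **Characters of `SU(2)` are trivial.** -/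
theorem su2_char (χ : Matrix.specialUnitaryGroup (Fin 2) ℂ →* ℂ)
    (g : Matrix.specialUnitaryGroup (Fin 2) ℂ) : χ g = 1 := by
  have hinv : ∀ k, χ k * χ k⁻¹ = 1 := fun k => by rw [← map_mul, mul_inv_cancel, map_one]
  have hsq : ∀ k, χ k * χ k = 1 := by
    intro k
    obtain ⟨w, hw⟩ := conj_inv k
    have h1 := congrArg χ hw
    rw [map_mul, map_mul, mul_comm] at h1
    have hw0 : χ w ≠ 0 := fun h0 => by
      have := hinv w
      rw [h0, zero_mul] at this
      exact zero_ne_one this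
    have h2 : χ k = χ k⁻¹ := mul_right_cancel₀ hw0 h1
    nth_rewrite 2 [h2]
    exact hinv k
  obtain ⟨k, rfl⟩ := exists_sqrt g
  rw [map_mul]
  exact hsq k

end su2

/-! ### The vacuum line -/

section vacline

variable {G : GammaNine} {N : ℕ} {F : Type*} [NormedAddCommGroup F] [InnerProductSpace ℂ F]
  [FiniteDimensional ℂ F] {M : FermionRep N F}

/-- The anticommutator is a scalar. -/
def Anti (X Y : F →ₗ[ℂ] F) : Prop := ∃ a : ℂ, ∀ v, X (Y v) + Y (X v) = a • v

theorem Anti.symm {X Y : F →ₗ[ℂ] F} (h : Anti X Y) : Anti Y X := by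
  obtain ⟨a, ha⟩ := h
  exact ⟨a, fun v => by rw [add_comm]; exact ha v⟩

theorem Anti.add {X Y Z : F →ₗ[ℂ] F} (h : Anti X Y) (h' : Anti X Z) : Anti X (Y + Z) := by
  obtain ⟨a, ha⟩ := h
  obtain ⟨a', ha'⟩ := h'
  refine ⟨a + a', fun v => ?_⟩
  simp only [LinearMap.add_apply, map_add]
  rw [add_smul, ← ha v, ← ha' v]
  abel

theorem Anti.smul {X Y : F →ₗ[ℂ] F} (h : Anti X Y) (c : ℂ) : Anti X (c • Y) := by
  obtain ⟨a, ha⟩ := h
  refine ⟨c * a, fun v => ?_⟩
  simp only [LinearMap.smul_apply, map_smul]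
  rw [← smul_add, ha v, smul_smul]

theorem Anti.sum {X : F →ₗ[ℂ] F} {ι : Type*} (s : Finset ι) (f : ι → F →ₗ[ℂ] F)
    (h : ∀ i, Anti X (f i)) : Anti X (∑ i ∈ s, f i) := by
  classical
  induction s using Finset.induction_on with
  | empty =>
    refine ⟨0, fun v => ?_⟩
    simp
  | insert a s ha ih =>
    rw [Finset.sum_insert ha]
    exact (h a).add ih

theorem anti_th (M : FermionRep N F) (α : Fin 16) (A : Fin (N ^ 2 - 1)) (β : Fin 16)
    (B : Fin (N ^ 2 - 1)) : Anti (M.θ α A) (M.θ β B) := by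
  refine ⟨if ((α, A) : PI N) = (β, B) then 1 else 0, fun v => ?_⟩
  have h := th_comm M (α, A) (β, B) v
  rw [h]
  split_ifs <;> simp

variable (G M)

/-- Creation operators, adjoint to the annihilators. -/
def cre (p : PI N) : F →ₗ[ℂ] F :=
  M.θ p.1 p.2 - Complex.I • ∑ β, (JJ G p.1 β : ℂ) • M.θ β p.2

theorem cre_apply (p : PI N) (v : F) :
    cre G M p v = M.θ p.1 p.2 v - Complex.I • ∑ β, (JJ G p.1 β : ℂ) • M.θ β p.2 v := by
  unfold cre
  simp only [LinearMap.sub_apply, LinearMap.smul_apply, LinearMap.sum_apply]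

theorem anti_ann_cre (p q : PI N) : Anti (ann G M p) (cre G M q) := by
  have h1 : ∀ (X : F →ₗ[ℂ] F), (∀ α A, Anti X (M.θ α A)) → Anti X (cre G M q) := by
    intro X h
    unfold cre
    rw [sub_eq_add_neg, ← neg_smul]
    exact (h _ _).add ((Anti.sum _ _ fun β => (h _ _).smul _).smul _)
  refine h1 _ fun α A => Anti.symm ?_
  unfold ann
  exact (anti_th M _ _ _ _).add ((Anti.sum _ _ fun β => (anti_th M _ _ _ _).smul _).smul _)

theorem inner_cre (p : PI N) (u v : F) : ⟪u, cre G M p v⟫_ℂ = ⟪ann G M p u, v⟫_ℂ := by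
  rw [cre_apply, ann_apply, inner_sub_right, inner_add_left, inner_smul_left, inner_smul_right,
    inner_sum, sum_inner, Complex.conj_I, neg_mul, sub_eq_add_neg]
  congr 1
  · exact (M.selfAdjoint _ _ _ _).symm
  · congr 2
    refine Finset.sum_congr rfl fun β _ => ?_
    rw [inner_smul_left, inner_smul_right, Complex.conj_ofReal]
    congr 1
    exact (M.selfAdjoint _ _ _ _).symm

variable {G M}

theorem gen_eq_top {v : F} (h : IsVac G M v) (hv : v ≠ 0) : Vac973.gen (cre G M) v = ⊤ := by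
  have hc : ∀ j k w, ∃ a : ℂ, ann G M j (cre G M k w) = a • w - cre G M k (ann G M j w) := by
    intro j k w
    obtain ⟨a, ha⟩ := anti_ann_cre G M j k
    exact ⟨a, eq_sub_of_add_eq (ha w)⟩
  have hth : ∀ p : PI N, ∀ w, M.θ p.1 p.2 w = (1 / 2 : ℂ) • (ann G M p w + cre G M p w) := by
    intro p w
    rw [ann_apply, cre_apply]
    module
  rcases M.irreducible (Vac973.gen (cre G M) v) (fun α A w hw => by
    rw [hth (α, A) w]
    exact Submodule.smul_mem _ _ (Submodule.add_mem _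
      (Vac973.gen_c h (fun j k w => hc j k w) (α, A) hw) (Vac973.gen_d (α, A) hw))) with h1 | h1
  · exact absurd ((Submodule.mem_bot ℂ).1 (h1 ▸ Vac973.base_mem)) hv
  · exact h1

/-- **The vacuum is a line.** -/
theorem IsVac.line {v u : F} (h : IsVac G M v) (hv : v ≠ 0) (hu : IsVac G M u) :
    ∃ a : ℂ, u = a • v := by
  refine Vac973.vac_unique (d := cre G M) (c := ann G M)
    (fun x => (innerₛₗ ℂ x : F →ₗ[ℂ] ℂ))
    (fun x hx => inner_self_eq_zero.1 hx) (fun w => ?_) (fun j x y => inner_cre G M j x y) h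
    (by rw [gen_eq_top h hv]; trivial) hu
  exact inner_zero_left w

/-- The gauge action preserves the vacua. -/
theorem IsVac.gauge {b : ColorBasis N} (R : GaugeAction b M) {v : F} (h : IsVac G M v)
    (g : Matrix.specialUnitaryGroup (Fin N) ℂ) : IsVac G M (R.ρ g v) := by
  have hi : ∀ α A, R.ρ g (M.θ α A v) = ∑ B, (b.adjMat g B A : ℂ) • M.θ α B (R.ρ g v) := by
    intro α A
    have h1 := congrArg (fun L : F →ₗ[ℂ] F => L v) (R.intertwine g α A)
    simpa only [LinearMap.comp_apply, LinearMap.sum_apply, LinearMap.smul_apply] using h1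
  have h1 : ∀ α A, ∑ B, (b.adjMat g B A : ℂ) • ann G M (α, B) (R.ρ g v) = 0 := by
    intro α A
    have h2 := congrArg (R.ρ g) (h (α, A))
    rw [map_zero, ann_apply, map_add, map_smul, map_sum] at h2
    simp only [map_smul, hi] at h2
    rw [← h2]
    simp only [ann_apply, smul_add, Finset.sum_add_distrib, Finset.smul_sum]
    congr 1
    rw [Finset.sum_comm]
    refine Finset.sum_congr rfl fun β _ => Finset.sum_congr rfl fun B _ => ?_
    simp only [smul_smul]
    congr 1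
    ring
  rintro ⟨α, C⟩
  have h2 : ∑ A, (b.adjMat g C A : ℂ) • ∑ B, (b.adjMat g B A : ℂ) • ann G M (α, B) (R.ρ g v) =
      ann G M (α, C) (R.ρ g v) := by
    simp only [Finset.smul_sum, smul_smul]
    rw [Finset.sum_comm]
    have : ∀ B, ∑ A, ((b.adjMat g C A : ℂ) * (b.adjMat g B A : ℂ)) • ann G M (α, B) (R.ρ g v) =
        (if C = B then (1 : ℂ) else 0) • ann G M (α, B) (R.ρ g v) := by
      intro B
      rw [← Finset.sum_smul]
      congr 1
      have h3 := Col962.adjMat_orth' b g C B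
      have h4 := congrArg (fun t : ℝ => (t : ℂ)) h3
      push_cast at h4
      rw [h4]
      split_ifs <;> simp
    rw [Finset.sum_congr rfl fun B _ => this B]
    simp
  rw [← h2]
  simp only [h1, smul_zero, Finset.sum_const_zero]

/-- **Gauge invariance of the vacuum** (two colours). -/
theorem IsVac.rho {M : FermionRep 2 F} {b : ColorBasis 2} (R : GaugeAction b M) {v : F}
    (h : IsVac G M v) (g : Matrix.specialUnitaryGroup (Fin 2) ℂ) : R.ρ g v = v := by
  by_cases hv : v = 0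
  · rw [hv, map_zero]
  have hl : ∀ g, ∃ a : ℂ, R.ρ g v = a • v := fun g => h.line hv (h.gauge R g)
  choose c hc using hl
  have hmul : ∀ g g', c (g * g') = c g * c g' := by
    intro g g'
    have h1 : c (g * g') • v = (c g * c g') • v := by
      rw [← hc, map_mul, Module.End.mul_apply, hc g', map_smul, hc g, smul_smul, mul_comm]
    exact smul_left_injective ℂ hv h1
  have hone : c 1 = 1 := by
    have h1 : c 1 • v = (1 : ℂ) • v := by
      rw [← hc, map_one, one_smul]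
      rfl
    exact smul_left_injective ℂ hv h1
  have h1 := su2_char ⟨⟨c, hone⟩, hmul⟩ g
  have h2 : c g = 1 := h1
  rw [hc g, h2, one_smul]

end vacline

end

end Crest.Agent.R330.SecN383
end

-- ▼ part R330/SecN3_383
section

/-!
# Row 330, S0513 (helper383), part 3: the sectors of large weight are infinite dimensional

* `wf` : the gauge invariant function `h` of weight `2`.
* `secInf` : `SecInf b M R G` for two colours.
-/

set_option autoImplicit false
set_option linter.unusedSectionVars false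

open Matrix Finset MeasureTheory
open Crest.MathPhysics.MatrixQM
open scoped InnerProductSpace ComplexConjugate ContDiff

namespace Crest.Agent.R330.SecN383

open Crest.Agent.R330.SDefs726

noncomputable section

variable {N : ℕ}

/-! ### The weight function -/

/-- Colour inner products of the rows. -/
def dt (x : Cfg N) (i j : Fin 9) : ℝ := ∑ A, x (i, A) * x (j, A)

/-- The two-form `p ∧ q`, `p_i = x_i · x_8`, `q_i = x_i · x_9`. -/
def bf (x : Cfg N) (i j : Fin 9) : ℝ := dt x i 7 * dt x j 8 - dt x j 7 * dt x i 8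

/-- The weight function. -/
def wf (x : Cfg N) : ℂ := ((bf x 0 2 - bf x 1 3 : ℝ) : ℂ) + Complex.I * ((bf x 0 3 + bf x 1 2 : ℝ) : ℂ)

theorem dt_act (b : ColorBasis N) (g : Matrix.specialUnitaryGroup (Fin N) ℂ) (x : Cfg N)
    (i j : Fin 9) : dt (b.act g x) i j = dt x i j := Col962.sum_act_mul b g x x i j

theorem wf_act (b : ColorBasis N) (g : Matrix.specialUnitaryGroup (Fin N) ℂ) (x : Cfg N) :
    wf (b.act g x) = wf x := by
  simp only [wf, bf, dt_act]

theorem dt_smul (r : ℝ) (x : Cfg N) (i j : Fin 9) : dt (r • x) i j = r ^ 2 * dt x i j := by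
  simp only [dt, PiLp.smul_apply, smul_eq_mul, Finset.mul_sum]
  exact Finset.sum_congr rfl fun A _ => by ring

theorem wf_smul (r : ℝ) (x : Cfg N) : wf (r • x) = ((r ^ 4 : ℝ) : ℂ) * wf x := by
  simp only [wf, bf, dt_smul]
  push_cast
  ring

theorem contDiff_coord (k : Fin 9 × Fin (N ^ 2 - 1)) : ContDiff ℝ ∞ (fun x : Cfg N => x k) :=
  (EuclideanSpace.proj k : Cfg N →L[ℝ] ℝ).contDiff

theorem contDiff_dt (i j : Fin 9) : ContDiff ℝ ∞ (fun x : Cfg N => dt x i j) :=
  ContDiff.sum fun A _ => (contDiff_coord (i, A)).mul (contDiff_coord (j, A))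

theorem contDiff_bf (i j : Fin 9) : ContDiff ℝ ∞ (fun x : Cfg N => bf x i j) :=
  ((contDiff_dt i 7).mul (contDiff_dt j 8)).sub ((contDiff_dt j 7).mul (contDiff_dt i 8))

theorem contDiff_wf : ContDiff ℝ ∞ (wf : Cfg N → ℂ) := by
  have h1 : ContDiff ℝ ∞ (fun t : ℝ => (t : ℂ)) := Complex.ofRealCLM.contDiff
  exact (h1.comp ((contDiff_bf 0 2).sub (contDiff_bf 1 3))).add
    (contDiff_const.mul (h1.comp ((contDiff_bf 0 3).add (contDiff_bf 1 2))))

/-! ### The flows -/

theorem exp_deriv (a : Matrix (Fin 9) (Fin 9) ℝ) (i j : Fin 9) (t : ℝ) :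
    HasDerivAt (fun s : ℝ => NormedSpace.exp (s • a) i j)
      ((a * NormedSpace.exp (t • a)) i j) t := by
  let _ : NormedRing (Matrix (Fin 9) (Fin 9) ℝ) := Matrix.linftyOpNormedRing
  let _ : NormedAlgebra ℝ (Matrix (Fin 9) (Fin 9) ℝ) := Matrix.linftyOpNormedAlgebra
  have h1 := hasDerivAt_exp_smul_const' (𝕂 := ℝ) a t
  exact (hasDerivAt_pi.1 ((hasDerivAt_pi.1 h1) i)) j

/-- The flow line. -/
def fl (a : Matrix (Fin 9) (Fin 9) ℝ) (x : Cfg N) (t : ℝ) : Cfg N :=
  vf (NormedSpace.exp (t • a)) x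

theorem fl_zero (a : Matrix (Fin 9) (Fin 9) ℝ) (x : Cfg N) : fl a x 0 = x := by
  unfold fl
  rw [zero_smul, NormedSpace.exp_zero, vf_one]

theorem fl_deriv (a : Matrix (Fin 9) (Fin 9) ℝ) (x : Cfg N) (i : Fin 9)
    (A : Fin (N ^ 2 - 1)) (t : ℝ) :
    HasDerivAt (fun s : ℝ => fl a x s (i, A)) (vf a (fl a x t) (i, A)) t := by
  have h1 : vf a (fl a x t) (i, A) = ∑ j, (a * NormedSpace.exp (t • a)) i j * x (j, A) := by
    unfold fl
    rw [← vf_mul, vf_apply]
  rw [h1]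
  have h2 : HasDerivAt (fun s : ℝ => ∑ j, NormedSpace.exp (s • a) i j * x (j, A))
      (∑ j, (a * NormedSpace.exp (t • a)) i j * x (j, A)) t :=
    HasDerivAt.fun_sum fun j _ => (exp_deriv a i j t).mul_const _
  exact h2

/-- `a` rotates only the first four directions. -/
def Low (a : Matrix (Fin 9) (Fin 9) ℝ) : Prop :=
  ∀ i l : Fin 9, (4 ≤ i.val ∨ 4 ≤ l.val ∨ i = l) → a i l = 0

theorem low_rot {j k : Fin 9} (hj : j.val < 4) (hk : k.val < 4) (hjk : j ≠ k) : Low (rot j k) := by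
  intro i l h
  have h1 : ¬(k = i ∧ j = l) := by
    rintro ⟨rfl, rfl⟩
    rcases h with h | h | h
    · omega
    · omega
    · exact hjk h.symm
  have h2 : ¬(j = i ∧ k = l) := by
    rintro ⟨rfl, rfl⟩
    rcases h with h | h | h
    · omega
    · omega
    · exact hjk h
  simp only [rot, Matrix.sub_apply, Matrix.single_apply, if_neg h1, if_neg h2, sub_zero]

theorem Low.add {a c : Matrix (Fin 9) (Fin 9) ℝ} (ha : Low a) (hc : Low c) : Low (a + c) :=
  fun i l h => by rw [Matrix.add_apply, ha i l h, hc i l h, add_zero]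

theorem Low.sub {a c : Matrix (Fin 9) (Fin 9) ℝ} (ha : Low a) (hc : Low c) : Low (a - c) :=
  fun i l h => by rw [Matrix.sub_apply, ha i l h, hc i l h, sub_zero]

theorem low_KP : Low KP :=
  (low_rot (by decide) (by decide) (by decide)).add (low_rot (by decide) (by decide) (by decide))

theorem low_KM (a : Fin 3) : Low (KM a) := by
  fin_cases a
  · exact (low_rot (by decide) (by decide) (by decide)).sub
      (low_rot (by decide) (by decide) (by decide))
  · exact (low_rot (by decide) (by decide) (by decide)).add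
      (low_rot (by decide) (by decide) (by decide))
  · exact (low_rot (by decide) (by decide) (by decide)).sub
      (low_rot (by decide) (by decide) (by decide))

theorem Low.vf_high {a : Matrix (Fin 9) (Fin 9) ℝ} (ha : Low a) (x : Cfg N) {i : Fin 9}
    (hi : 4 ≤ i.val) (A : Fin (N ^ 2 - 1)) : vf a x (i, A) = 0 := by
  rw [vf_apply]
  exact Finset.sum_eq_zero fun j _ => by rw [ha i j (Or.inl hi), zero_mul]

theorem dt_deriv {a : Matrix (Fin 9) (Fin 9) ℝ} (ha : Low a) (x : Cfg N) (i k : Fin 9)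
    (hk : 4 ≤ k.val) (t : ℝ) :
    HasDerivAt (fun s : ℝ => dt (fl a x s) i k)
      (∑ A, vf a (fl a x t) (i, A) * fl a x t (k, A)) t := by
  have h1 : ∀ A, HasDerivAt (fun s : ℝ => fl a x s (i, A) * fl a x s (k, A))
      (vf a (fl a x t) (i, A) * fl a x t (k, A)) t := by
    intro A
    have h2 := (fl_deriv a x i A t).mul (fl_deriv a x k A t)
    rw [ha.vf_high _ hk, mul_zero, add_zero] at h2
    exact h2
  exact HasDerivAt.fun_sum fun A _ => h1 A

/-- Derivative of `bf` along the flow. -/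
theorem bf_deriv {a : Matrix (Fin 9) (Fin 9) ℝ} (ha : Low a) (x : Cfg N) (i j : Fin 9) (t : ℝ) :
    HasDerivAt (fun s : ℝ => bf (fl a x s) i j)
      ((∑ A, vf a (fl a x t) (i, A) * fl a x t (7, A)) * dt (fl a x t) j 8 +
        dt (fl a x t) i 7 * (∑ A, vf a (fl a x t) (j, A) * fl a x t (8, A)) -
      ((∑ A, vf a (fl a x t) (j, A) * fl a x t (7, A)) * dt (fl a x t) i 8 +
        dt (fl a x t) j 7 * (∑ A, vf a (fl a x t) (i, A) * fl a x t (8, A)))) t :=
  ((dt_deriv ha x i 7 (by decide) t).mul (dt_deriv ha x j 8 (by decide) t)).sub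
    ((dt_deriv ha x j 7 (by decide) t).mul (dt_deriv ha x i 8 (by decide) t))

theorem ofReal_deriv {f : ℝ → ℝ} {f' t : ℝ} (h : HasDerivAt f f' t) :
    HasDerivAt (fun s => (f s : ℂ)) (f' : ℂ) t := h.ofReal_comp

theorem row_rot (j k : Fin 9) (y : Cfg N) (i l : Fin 9) :
    ∑ A, vf (rot j k) y (i, A) * y (l, A) =
      (if i = k then dt y j l else 0) - (if i = j then dt y k l else 0) := by
  simp only [vf_rot, sub_mul, Finset.sum_sub_distrib, dt]
  congr 1
  · split_ifs <;> simp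
  · split_ifs <;> simp

theorem row_add (a c : Matrix (Fin 9) (Fin 9) ℝ) (y : Cfg N) (i l : Fin 9) :
    ∑ A, vf (a + c) y (i, A) * y (l, A) =
      ∑ A, vf a y (i, A) * y (l, A) + ∑ A, vf c y (i, A) * y (l, A) := by
  rw [← Finset.sum_add_distrib]
  refine Finset.sum_congr rfl fun A _ => ?_
  rw [vf_add, PiLp.add_apply, add_mul]

theorem row_sub (a c : Matrix (Fin 9) (Fin 9) ℝ) (y : Cfg N) (i l : Fin 9) :
    ∑ A, vf (a - c) y (i, A) * y (l, A) =
      ∑ A, vf a y (i, A) * y (l, A) - ∑ A, vf c y (i, A) * y (l, A) := by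
  rw [← Finset.sum_sub_distrib]
  refine Finset.sum_congr rfl fun A _ => ?_
  rw [vf_sub, PiLp.sub_apply, sub_mul]

/-- **Weight `2` under `KP`.** -/
theorem wf_deriv_KP (x : Cfg N) (t : ℝ) :
    HasDerivAt (fun s : ℝ => wf (fl KP x s)) (2 * Complex.I * wf (fl KP x t)) t := by
  have h1 := ofReal_deriv ((bf_deriv low_KP x 0 2 t).sub (bf_deriv low_KP x 1 3 t))
  have h2 := ofReal_deriv ((bf_deriv low_KP x 0 3 t).add (bf_deriv low_KP x 1 2 t))
  have h3 := h1.add (h2.const_mul Complex.I)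
  refine HasDerivAt.congr_deriv (f := fun s : ℝ => wf (fl KP x s)) h3 ?_
  set y := fl KP x t with hy
  have hr : ∀ i l, ∑ A, vf KP y (i, A) * y (l, A) =
      (if i = 1 then dt y 0 l else 0) - (if i = 0 then dt y 1 l else 0) +
      ((if i = 3 then dt y 2 l else 0) - (if i = 2 then dt y 3 l else 0)) := by
    intro i l
    rw [KP, row_add, row_rot, row_rot]
  simp only [hr]
  simp (decide := true) only [if_true, if_false]
  unfold wf bf
  push_cast
  linear_combination (-2 * ((dt y 0 7 : ℂ) * dt y 3 8 - dt y 3 7 * dt y 0 8 +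
    (dt y 1 7 * dt y 2 8 - dt y 2 7 * dt y 1 8))) * Complex.I_sq

/-- **Weight `0` under the right rotations.** -/
theorem wf_deriv_KM (c : Fin 3) (x : Cfg N) (t : ℝ) :
    HasDerivAt (fun s : ℝ => wf (fl (KM c) x s)) 0 t := by
  have h1 := ofReal_deriv ((bf_deriv (low_KM c) x 0 2 t).sub (bf_deriv (low_KM c) x 1 3 t))
  have h2 := ofReal_deriv ((bf_deriv (low_KM c) x 0 3 t).add (bf_deriv (low_KM c) x 1 2 t))
  have h3 := h1.add (h2.const_mul Complex.I)
  refine HasDerivAt.congr_deriv (f := fun s : ℝ => wf (fl (KM c) x s)) h3 ?_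
  set y := fl (KM c) x t with hy
  fin_cases c
  · have hr : ∀ i l, ∑ A, vf (KM 0) y (i, A) * y (l, A) =
        (if i = 1 then dt y 0 l else 0) - (if i = 0 then dt y 1 l else 0) -
        ((if i = 3 then dt y 2 l else 0) - (if i = 2 then dt y 3 l else 0)) := by
      intro i l
      rw [KM, row_sub, row_rot, row_rot]
    simp only [Fin.zero_eta, hr]
    simp (decide := true) only [if_true, if_false]
    push_cast
    ring
  · have hr : ∀ i l, ∑ A, vf (KM 1) y (i, A) * y (l, A) =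
        (if i = 2 then dt y 0 l else 0) - (if i = 0 then dt y 2 l else 0) +
        ((if i = 3 then dt y 1 l else 0) - (if i = 1 then dt y 3 l else 0)) := by
      intro i l
      rw [KM, row_add, row_rot, row_rot]
    simp only [Fin.mk_one, hr]
    simp (decide := true) only [if_true, if_false]
    push_cast
    ring
  · have hr : ∀ i l, ∑ A, vf (KM 2) y (i, A) * y (l, A) =
        (if i = 3 then dt y 0 l else 0) - (if i = 0 then dt y 3 l else 0) -
        ((if i = 2 then dt y 1 l else 0) - (if i = 1 then dt y 2 l else 0)) := by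
      intro i l
      rw [KM, row_sub, row_rot, row_rot]
    simp only [Fin.reduceFinMk, hr]
    simp (decide := true) only [if_true, if_false]
    push_cast
    ring

theorem const_of_deriv_zero {E : Type*} [NormedAddCommGroup E] [NormedSpace ℝ E] {f : ℝ → E}
    (h : ∀ t, HasDerivAt f 0 t) (t : ℝ) : f t = f 0 :=
  is_const_of_deriv_eq_zero (fun s => (h s).differentiableAt) (fun s => (h s).deriv) t 0

theorem wf_KM (c : Fin 3) (x : Cfg N) (t : ℝ) :
    wf (vf (NormedSpace.exp (t • KM c)) x) = wf x := by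
  have h := const_of_deriv_zero (wf_deriv_KM c x) t
  rw [fl_zero] at h
  exact h

theorem wf_KP (x : Cfg N) (t : ℝ) :
    wf (vf (NormedSpace.exp (t • KP)) x) = Complex.exp (((2 * t : ℝ) : ℂ) * Complex.I) * wf x := by
  have hd : ∀ t : ℝ, HasDerivAt (fun s : ℝ =>
      Complex.exp (-(((2 * s : ℝ) : ℂ) * Complex.I)) * wf (fl KP x s)) 0 t := by
    intro t
    have h1 : HasDerivAt (fun s : ℝ => ((2 * s : ℝ) : ℂ)) ((2 : ℝ) : ℂ) t :=
      ofReal_deriv (by simpa using (hasDerivAt_id t).const_mul 2)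
    have h2 := ((h1.mul_const Complex.I).neg.cexp).mul (wf_deriv_KP x t)
    refine h2.congr_deriv ?_
    push_cast
    ring
  have h := const_of_deriv_zero hd t
  rw [fl_zero, mul_zero, Complex.ofReal_zero, zero_mul, neg_zero, Complex.exp_zero, one_mul] at h
  rw [← h, ← mul_assoc, ← Complex.exp_add, add_neg_cancel, Complex.exp_zero, one_mul]
  rfl

/-- The norm is constant along the flow. -/
theorem norm_fl {a : Matrix (Fin 9) (Fin 9) ℝ} (ha : a.transpose = -a) (x : Cfg N) (t : ℝ) :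
    ‖vf (NormedSpace.exp (t • a)) x‖ = ‖x‖ := by
  have hn : ∀ y : Cfg N, ‖y‖ ^ 2 = ∑ i, ∑ A, y (i, A) ^ 2 := by
    intro y
    rw [EuclideanSpace.norm_sq_eq, Fintype.sum_prod_type]
    exact Finset.sum_congr rfl fun i _ => Finset.sum_congr rfl fun A _ => by
      rw [Real.norm_eq_abs, sq_abs]
  have haa : ∀ i j, a i j = -a j i := fun i j => by
    have h := congrFun (congrFun ha j) i
    rw [Matrix.transpose_apply, Matrix.neg_apply] at h
    exact h
  have hd : ∀ t : ℝ, HasDerivAt (fun s : ℝ => ∑ i, ∑ A, fl a x s (i, A) ^ 2) 0 t := by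
    intro t
    have h1 : HasDerivAt (fun s : ℝ => ∑ i, ∑ A, fl a x s (i, A) ^ 2)
        (∑ i, ∑ A, (2 : ℕ) * fl a x t (i, A) ^ (2 - 1) * vf a (fl a x t) (i, A)) t :=
      HasDerivAt.fun_sum fun i _ => HasDerivAt.fun_sum fun A _ => (fl_deriv a x i A t).pow 2
    refine h1.congr_deriv ?_
    set y := fl a x t with hy
    have h2 : ∑ i, ∑ A, (2 : ℕ) * y (i, A) ^ (2 - 1) * vf a y (i, A) =
        2 * ∑ i, ∑ j, ∑ A, a i j * y (i, A) * y (j, A) := by
      rw [Finset.mul_sum]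
      refine Finset.sum_congr rfl fun i _ => ?_
      rw [Finset.sum_comm, Finset.mul_sum]
      refine Finset.sum_congr rfl fun A _ => ?_
      rw [vf_apply, Finset.mul_sum, Finset.mul_sum]
      refine Finset.sum_congr rfl fun j _ => ?_
      push_cast
      ring
    have h3 : ∑ i, ∑ j, ∑ A, a i j * y (i, A) * y (j, A) =
        -∑ i, ∑ j, ∑ A, a i j * y (i, A) * y (j, A) := by
      conv_lhs => rw [Finset.sum_comm]
      rw [← Finset.sum_neg_distrib]
      refine Finset.sum_congr rfl fun i _ => ?_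
      rw [← Finset.sum_neg_distrib]
      refine Finset.sum_congr rfl fun j _ => ?_
      rw [← Finset.sum_neg_distrib]
      refine Finset.sum_congr rfl fun A _ => ?_
      rw [haa j i]
      ring
    rw [h2]
    linarith
  have h := const_of_deriv_zero hd t
  rw [← hn, ← hn, fl_zero] at h
  exact (pow_left_inj₀ (norm_nonneg _) (norm_nonneg _) two_ne_zero).1 h

/-! ### The spin part -/

variable {F : Type*} [NormedAddCommGroup F] [InnerProductSpace ℂ F] [FiniteDimensional ℂ F]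
  {M : FermionRep N F} {G : GammaNine}

/-- The spin generators of the first four directions kill the vacuum. -/
theorem Sp_vac {v : F} (h : IsVac G M v) {a : Matrix (Fin 9) (Fin 9) ℝ} (ha : Low a) :
    Sp M G a v = 0 := by
  unfold Sp
  simp only [LinearMap.smul_apply, LinearMap.sum_apply, LinearMap.comp_apply]
  rw [Finset.sum_eq_zero, smul_zero]
  intro i _
  refine Finset.sum_eq_zero fun l _ => ?_
  by_cases hil : 4 ≤ i.val ∨ 4 ≤ l.val ∨ i = l
  · have h0 : a l i = 0 := by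
      refine ha l i ?_
      rcases hil with h1 | h1 | h1
      · exact Or.inr (Or.inl h1)
      · exact Or.inl h1
      · exact Or.inr (Or.inr h1.symm)
    rw [h0, Complex.ofReal_zero, zero_smul]
  · rw [not_or, not_or] at hil
    obtain ⟨h1, h2, h3⟩ := hil
    have hne : ∀ (k : Fin 9), ¬ 4 ≤ k.val → k ≠ 4 ∧ k ≠ 5 := by
      intro k hk
      constructor <;> rintro rfl <;> exact hk (by decide)
    have h4 := spin_vac h (i := i) (j := l) (hne i h1).1 (hne i h1).2 (hne l h2).1 (hne l h2).2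
    rw [Gam962.g2_ne G h3] at h4
    rw [h4, smul_zero]

theorem exp_fixed {T : F →L[ℂ] F} {v : F} (h : T v = 0) : NormedSpace.exp T v = v := by
  have h1 := NormedSpace.exp_series_hasSum_exp' (𝕂 := ℂ) T
  have h2 := (ContinuousLinearMap.apply ℂ F v).hasSum h1
  have h3 : HasSum (fun n : ℕ => (ContinuousLinearMap.apply ℂ F v) (((n.factorial : ℂ)⁻¹) • T ^ n)) v := by
    have h4 : ∀ n : ℕ, n ≠ 0 →
        (ContinuousLinearMap.apply ℂ F v) (((n.factorial : ℂ)⁻¹) • T ^ n) = 0 := by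
      intro n hn
      obtain ⟨k, rfl⟩ := Nat.exists_eq_succ_of_ne_zero hn
      show ((((k + 1).factorial : ℂ)⁻¹) • T ^ (k + 1)) v = 0
      rw [_root_.smul_apply, pow_succ, mul_apply_eq_comp, h, map_zero,
        smul_zero]
    have h5 := hasSum_single (f := fun n : ℕ =>
      (ContinuousLinearMap.apply ℂ F v) (((n.factorial : ℂ)⁻¹) • T ^ n)) 0 h4
    have h6 : (ContinuousLinearMap.apply ℂ F v) (((Nat.factorial 0 : ℂ)⁻¹) • T ^ 0) = v := by
      show (((Nat.factorial 0 : ℂ)⁻¹) • T ^ 0) v = v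
      rw [_root_.smul_apply, pow_zero, Nat.factorial_zero, Nat.cast_one, inv_one,
        one_smul]
      rfl
    rw [h6] at h5
    exact h5
  exact h2.unique h3

theorem eS_vac {v : F} (h : IsVac G M v) {a : Matrix (Fin 9) (Fin 9) ℝ} (ha : Low a) (t : ℝ) :
    eS M G a t v = v := by
  unfold eS
  refine exp_fixed ?_
  rw [_root_.smul_apply]
  show (t : ℂ) • Sp M G a v = 0
  rw [Sp_vac h ha, smul_zero]

/-! ### The core vectors -/

/-- A bump on the annulus number `n`. -/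
def bump (n : ℕ) : ContDiffBump ((n : ℝ) + 1) := ⟨1 / 4, 1 / 2, by norm_num, by norm_num⟩

/-- The scalar profile. -/
def pr (m n : ℕ) (x : Cfg N) : ℂ := ((bump n (‖x‖ ^ 2) : ℝ) : ℂ) * wf x ^ m

/-- The core vectors. -/
def cv (m n : ℕ) (v : F) (x : Cfg N) : F := pr m n x • v

theorem bump_zero {n : ℕ} {s : ℝ} (h : (1 : ℝ) / 2 ≤ |s - ((n : ℝ) + 1)|) : bump n s = 0 :=
  (bump n).zero_of_le_dist (by rw [Real.dist_eq]; exact h)

theorem contDiff_pr (m n : ℕ) : ContDiff ℝ ∞ (pr m n : Cfg N → ℂ) := by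
  have h1 : ContDiff ℝ ∞ (fun x : Cfg N => bump n (‖x‖ ^ 2)) :=
    (bump n).contDiff.comp (contDiff_norm_sq ℝ)
  have h2 : ContDiff ℝ ∞ (fun t : ℝ => (t : ℂ)) := Complex.ofRealCLM.contDiff
  exact (h2.comp h1).mul (contDiff_wf.pow m)

theorem cv_disjoint (m : ℕ) {n k : ℕ} (hnk : n ≠ k) (v : F) (x : Cfg N) :
    cv m n v x = 0 ∨ cv m k v x = 0 := by
  by_cases h : (1 : ℝ) / 2 ≤ |‖x‖ ^ 2 - ((n : ℝ) + 1)|
  · left
    rw [cv, pr, bump_zero h, Complex.ofReal_zero, zero_mul, zero_smul]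
  · right
    have h1 : (1 : ℝ) / 2 ≤ |‖x‖ ^ 2 - ((k : ℝ) + 1)| := by
      by_contra h2
      push Not at h h2
      rw [abs_lt] at h h2
      have h3 : ((n : ℤ) - (k : ℤ) : ℝ) < 1 := by push_cast; linarith [h.1, h2.2]
      have h4 : (-1 : ℝ) < ((n : ℤ) - (k : ℤ) : ℝ) := by push_cast; linarith [h.2, h2.1]
      have h5 : (n : ℤ) - (k : ℤ) < 1 := by exact_mod_cast h3
      have h6 : (-1 : ℤ) < (n : ℤ) - (k : ℤ) := by exact_mod_cast h4
      exact hnk (by omega)
    rw [cv, pr, bump_zero h1, Complex.ofReal_zero, zero_mul, zero_smul]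

theorem cv_support (m n : ℕ) (v : F) : HasCompactSupport (cv m n v : Cfg N → F) := by
  refine HasCompactSupport.intro (isCompact_closedBall (0 : Cfg N) ((n : ℝ) + 2)) fun x hx => ?_
  rw [mem_closedBall_zero_iff, not_le] at hx
  have h1 : (1 : ℝ) / 2 ≤ |‖x‖ ^ 2 - ((n : ℝ) + 1)| := by
    have hn : (0 : ℝ) ≤ n := Nat.cast_nonneg n
    rw [le_abs]
    left
    nlinarith
  rw [cv, pr, bump_zero h1, Complex.ofReal_zero, zero_mul, zero_smul]

theorem cv_U_KP {v : F} (h : IsVac G M v) (m n : ℕ) (t : ℝ) :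
    U M G KP t (cv m n v) = Complex.exp ((((2 * m : ℕ) : ℝ) * t : ℝ) * Complex.I) • cv m n v := by
  funext x
  simp only [U, cv, pr, Pi.smul_apply]
  rw [map_smul, eS_vac h low_KP, norm_fl KP_transpose, wf_KP, smul_smul, mul_pow, ← Complex.exp_nat_mul]
  congr 1
  push_cast
  ring_nf

theorem cv_U_KM {v : F} (h : IsVac G M v) (m n : ℕ) (c : Fin 3) (t : ℝ) :
    U M G (KM c) t (cv m n v) = cv m n v := by
  funext x
  simp only [U, cv, pr]
  rw [map_smul, eS_vac h (low_KM c), norm_fl (KM_transpose c), wf_KM]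

/-- A point where the weight function does not vanish. -/
def pt (A B : Fin (N ^ 2 - 1)) : Cfg N :=
  WithLp.toLp 2 fun k => if k = (7, A) ∨ k = (0, A) then 1 else if k = (8, B) ∨ k = (2, B) then 1 else 0

theorem pt_apply (A B : Fin (N ^ 2 - 1)) (i : Fin 9) (C : Fin (N ^ 2 - 1)) :
    pt A B (i, C) = if (i = 7 ∨ i = 0) ∧ C = A then 1 else if (i = 8 ∨ i = 2) ∧ C = B then 1 else 0 := by
  unfold pt
  simp only [Prod.mk.injEq]
  congr 1
  · rw [or_and_right]
  · congr 1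
    rw [or_and_right]

theorem wf_pt {A B : Fin (N ^ 2 - 1)} (hAB : A ≠ B) : wf (pt A B) = 1 := by
  have hd : ∀ i j : Fin 9, dt (pt A B) i j =
      (if (i = 7 ∨ i = 0) ∧ (j = 7 ∨ j = 0) then 1 else 0) +
      (if (i = 8 ∨ i = 2) ∧ (j = 8 ∨ j = 2) then 1 else 0) := by
    intro i j
    unfold dt
    have h1 : ∀ C, pt A B (i, C) * pt A B (j, C) =
        (if C = A then (if (i = 7 ∨ i = 0) ∧ (j = 7 ∨ j = 0) then 1 else 0) else 0) +
        (if C = B then (if (i = 8 ∨ i = 2) ∧ (j = 8 ∨ j = 2) then 1 else 0) else 0) := by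
      intro C
      rw [pt_apply, pt_apply]
      by_cases hA : C = A
      · subst hA
        simp only [hAB, and_false, if_false, and_true, if_true]
        by_cases hi : i = 7 ∨ i = 0 <;> by_cases hj : j = 7 ∨ j = 0 <;> simp [hi, hj]
      · by_cases hB : C = B
        · subst hB
          simp only [hA, and_false, if_false, and_true, if_true]
          by_cases hi : i = 8 ∨ i = 2 <;> by_cases hj : j = 8 ∨ j = 2 <;> simp [hi, hj]
        · simp [hA, hB]
    rw [Finset.sum_congr rfl fun C _ => h1 C, Finset.sum_add_distrib]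
    simp
  unfold wf bf
  simp only [hd]
  simp (decide := true)

theorem wf_exists {A B : Fin (N ^ 2 - 1)} (hAB : A ≠ B) {s : ℝ} (hs : 0 < s) :
    ∃ x : Cfg N, ‖x‖ ^ 2 = s ∧ wf x ≠ 0 := by
  have h0 : pt A B ≠ 0 := by
    intro h
    have h1 := wf_pt hAB
    rw [h] at h1
    have h2 : wf (0 : Cfg N) = 0 := by
      have h3 := wf_smul 0 (0 : Cfg N)
      rw [zero_smul] at h3
      rw [h3]
      simp
    rw [h2] at h1
    exact zero_ne_one h1
  have hp : 0 < ‖pt A B‖ := norm_pos_iff.2 h0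
  set r : ℝ := Real.sqrt s / ‖pt A B‖ with hr
  have hr0 : 0 < r := div_pos (Real.sqrt_pos.2 hs) hp
  refine ⟨r • pt A B, ?_, ?_⟩
  · rw [norm_smul, Real.norm_eq_abs, abs_of_pos hr0, hr, div_mul_cancel₀ _ hp.ne',
      Real.sq_sqrt hs.le]
  · rw [wf_smul, wf_pt hAB, mul_one]
    exact_mod_cast (pow_pos hr0 4).ne'

/-- **The sectors of large weight are infinite dimensional** (two colours). -/
theorem secInf [Nontrivial F] (b : ColorBasis 2) (M : FermionRep 2 F) (R : GaugeAction b M)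
    (G : GammaNine) : SecInf b M R G := by
  obtain ⟨v, hv, h⟩ := exists_vac G M
  intro m₀
  obtain ⟨m, hm⟩ := exists_nat_ge m₀
  refine ⟨((2 * m : ℕ) : ℝ), ?_, fun n => cv m n v, fun n => ⟨?_, cv_support m n v, ?_⟩,
    fun n => ⟨cv_U_KM h m n, cv_U_KP h m n⟩, fun n h0 => ?_, fun n k hnk x => cv_disjoint m hnk v x⟩
  · have : (m : ℝ) ≤ ((2 * m : ℕ) : ℝ) := by exact_mod_cast (by omega : m ≤ 2 * m)
    exact hm.trans this
  · exact (contDiff_pr m n).smul contDiff_const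
  · intro g x
    simp only [cv, pr]
    rw [map_smul, IsVac.rho R h g, wf_act, Col962.norm_act]
  · obtain ⟨x, hx, hw⟩ := wf_exists (N := 2) (A := ⟨0, by decide⟩) (B := ⟨1, by decide⟩)
      (by decide) (s := (n : ℝ) + 1) (by positivity)
    have h1 := congrFun h0 x
    simp only [cv, pr, Pi.zero_apply, hx] at h1
    rw [(bump n).one_of_mem_closedBall (Metric.mem_closedBall_self (bump n).rIn_pos.le)] at h1
    rcases smul_eq_zero.1 h1 with h2 | h2
    · rw [Complex.ofReal_one, one_mul] at h2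
      exact pow_ne_zero m hw h2
    · exact hv h2

end

end Crest.Agent.R330.SecN383
end

-- ▼ part R330/SMain_726
section

/-!
# Row 330, S0513: assembly (helper726)
-/

set_option autoImplicit false
set_option linter.unusedSectionVars false

open MeasureTheory Filter Topology Crest.MathPhysics.MatrixQM
open scoped ContDiff InnerProductSpace ENNReal

noncomputable section

namespace Crest.Agent.R330.SMain726

open Crest.Agent.R330.Defs478 Crest.Agent.R330.Dict416 Crest.Agent.R330.SDefs726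
open Crest.Agent.R330.Sym613 Crest.Agent.R330.SFin726 Crest.Agent.R330.SLift726
open Crest.Agent.R330.Graph893

variable {N : ℕ} {F : Type*} [NormedAddCommGroup F] [InnerProductSpace ℂ F]
  [FiniteDimensional ℂ F]

/-- the index set of the symmetries -/
abbrev Ix := (Fin 3 × ℝ) ⊕ ℝ

/-- the symmetries of `L²` -/
def us (M : FermionRep N F) (G : GammaNine) : Ix → (L2 N F ≃ₗᵢ[ℂ] L2 N F)
  | Sum.inl p => uL M G (KM p.1) (KM_transpose p.1) p.2
  | Sum.inr t => uL M G KP KP_transpose t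

/-- the characters -/
def cs (m : ℝ) : Ix → ℂ
  | Sum.inl _ => 1
  | Sum.inr t => Complex.exp ((m * t : ℝ) * Complex.I)

/-- the symmetries of the core -/
def Us {b : ColorBasis N} {M : FermionRep N F} (R : GaugeAction b M) (G : GammaNine) :
    Ix → (core b R →ₗ[ℂ] core b R)
  | Sum.inl p => UC R G (KM p.1) (KM_transpose p.1) p.2
  | Sum.inr t => UC R G KP KP_transpose t

/-- the inverse symmetries of the core -/
def Ui {b : ColorBasis N} {M : FermionRep N F} (R : GaugeAction b M) (G : GammaNine) :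
    Ix → (core b R →ₗ[ℂ] core b R)
  | Sum.inl p => UC R G (KM p.1) (KM_transpose p.1) (-p.2)
  | Sum.inr t => UC R G KP KP_transpose (-t)

/-- the literal compactness statement on the sector -/
def Cpt {b : ColorBasis N} {M : FermionRep N F} (R : GaugeAction b M) (G : GammaNine)
    (m : ℝ) : Prop :=
  ∀ v : ℕ → Gph (ιC R) (Qh R G), (∀ n, v n ∈ Sct (ιC R) (Qh R G) (us M G) (cs m)) →
    ∀ C : ℝ, (∀ n, ‖v n‖ ≤ C) →
      ∃ k : ℕ → ℕ, StrictMono k ∧ CauchySeq (fun n => JG (ιC R) (Qh R G) (v (k n)))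

theorem inner_coe (f g : L2 N F) :
    ∫ x, ⟪(f : Cfg N → F) x, (g : Cfg N → F) x⟫_ℂ = ⟪f, g⟫_ℂ := (L2.inner_def f g).symm

set_option maxHeartbeats 2000000 in
/-- **S0513 from the compactness statement** -/
theorem main [Nontrivial F] (b : ColorBasis 2) (M : FermionRep 2 F) (R : GaugeAction b M)
    (G : GammaNine) (hcpt : ∃ m₀ : ℝ, ∀ m, m₀ ≤ m → Cpt R G m) :
    ∃ (Ψ : ℕ → Cfg 2 → F) (E : ℕ → ℝ),
      (∀ j k, ∫ x, ⟪Ψ j x, Ψ k x⟫_ℂ = if j = k then (1 : ℂ) else 0) ∧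
      (∀ j, 0 < E j) ∧ Tendsto E atTop atTop ∧ ∀ j, IsEigenpair b M R G (E j) (Ψ j) := by
  obtain ⟨m₀, hm₀⟩ := hcpt
  obtain ⟨m, hm, φ, hφc, hφs, hφ0, hφd⟩ := SecN383.secInf b M R G m₀
  have hsec : ∀ n i, us M G i (ιC R (⟨φ n, hφc n⟩ : core b R)) =
      cs m i • ιC R (⟨φ n, hφc n⟩ : core b R) := by
    rintro n (⟨a, t⟩ | t)
    · show uL M G (KM a) (KM_transpose a) t _ = (1 : ℂ) • _
      rw [← ιC_UC, one_smul]
      congr 1
      exact Subtype.ext ((hφs n).1 a t)
    · show uL M G KP KP_transpose t _ = Complex.exp ((m * t : ℝ) * Complex.I) • _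
      rw [← ιC_UC, ← map_smul]
      congr 1
      exact Subtype.ext ((hφs n).2 t)
  obtain ⟨e, E, heS, horth, hpos, -, htend, hweak⟩ := exists_eigen_core
    (ι := ιC R) (Q := Qh R G) (fun ψ k => closable ψ k) (us M G) (Us R G) (Ui R G)
    (by
      rintro (⟨a, t⟩ | t) ψ
      · exact ιC_UC (KM_transpose a) t ψ
      · exact ιC_UC KP_transpose t ψ)
    (by
      rintro (⟨a, t⟩ | t) ψ
      · exact norm_Qh_UC (KM_transpose a) t ψ
      · exact norm_Qh_UC KP_transpose t ψ)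
    (by
      rintro (⟨a, t⟩ | t) ψ
      · exact ιC_UC_symm (KM_transpose a) t ψ
      · exact ιC_UC_symm KP_transpose t ψ)
    (by
      rintro (⟨a, t⟩ | t) ψ
      · exact norm_Qh_UC (KM_transpose a) (-t) ψ
      · exact norm_Qh_UC KP_transpose (-t) ψ)
    (cs m) (hm₀ m hm) (fun n => ⟨φ n, hφc n⟩) hsec (indep hφ0 hφd)
  refine ⟨fun j => (JG (ιC R) (Qh R G) (e j) : Cfg 2 → F), E, ?_, hpos, htend, fun j => ?_⟩
  · intro j k
    exact (inner_coe (JG (ιC R) (Qh R G) (e j)) (JG (ιC R) (Qh R G) (e k))).trans (horth j k)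
  · refine isEigenpair_of (Lp.memLp _) (v := e j) ?_ ?_
    · rw [Lp.toLp_coeFn]
    · intro ψ
      exact hweak j (gv (ιC R) (Qh R G) ψ)

end Crest.Agent.R330.SMain726

end
end

-- ▼ part R330/SFinal_893

/-!
# Row 330, S0513: the compactness statement of `SMain726.main` (helper893)
-/

set_option autoImplicit false

open MeasureTheory Filter Topology Crest.MathPhysics.MatrixQM
open scoped ContDiff InnerProductSpace ENNReal

noncomputable section

namespace Crest.Agent.R330.SFinal893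

open Crest.Agent.R330.Dict416 Crest.Agent.R330.SDefs726 Crest.Agent.R330.SMain726
open Crest.Agent.R330.SLift726 Crest.Agent.R330.Cpt893

variable {F : Type*} [NormedAddCommGroup F] [InnerProductSpace ℂ F] [FiniteDimensional ℂ F]

theorem cs_eq (m : ℝ) : cs m = wgt m := by
  funext i
  cases i <;> rfl

theorem cpt_main (b : ColorBasis 2) (M : FermionRep 2 F) (R : GaugeAction b M) (G : GammaNine) :
    ∃ m₀ : ℝ, ∀ m, m₀ ≤ m → Cpt R G m := by
  have h := hcpt_lit b M R G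
  cases h with | intro m₀ hm₀ => ?_
  refine ⟨m₀, fun m hm => ?_⟩
  unfold Cpt
  rw [cs_eq]
  exact hm₀ m hm (us M G) (fun a t f => uL_ae (KM_transpose a) t f)
    (fun t f => uL_ae KP_transpose t f)

/-- **S0513** -/
theorem final [Nontrivial F] (b : ColorBasis 2) (M : FermionRep 2 F) (R : GaugeAction b M)
    (G : GammaNine) :
    ∃ (Ψ : ℕ → Cfg 2 → F) (E : ℕ → ℝ),
      (∀ j k, ∫ x, ⟪Ψ j x, Ψ k x⟫_ℂ = if j = k then (1 : ℂ) else 0) ∧
      (∀ j, 0 < E j) ∧ Tendsto E atTop atTop ∧ ∀ j, IsEigenpair b M R G (E j) (Ψ j) :=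
  main b M R G (cpt_main b M R G)

end Crest.Agent.R330.SFinal893
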