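import Crest.Agent.R330.SlF_944

/-!
# Row 330, S5b (b5): extension of `K`-equivariant slice functions to core vectors

* `IsSliceFun R c r f` : `f (act k y) = ρ k (f y)` for `k ∈ Stab c`, `y ∈ Nor b c`, `‖y‖ < r`;
* `ext R c r f` : the extension; `ext_apply`, `ext_off`, `ext_equivariant`;
* `ext_core` : the extension is a core vector if `f` is smooth on the slice and vanishes for
  `r' ≤ ‖y‖`;
* `exists_ext` : all in one statement.
-/

set_option autoImplicit false
set_option linter.unusedSectionVars false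
set_option linter.style.haveILetI false

open MeasureTheory Filter Topology Crest.MathPhysics.MatrixQM
open NormedSpace (exp)
open scoped InnerProductSpace ContDiff

noncomputable section

namespace Crest.Agent.R330.SlG944

open Crest.Agent.R330.SlA314 Crest.Agent.R330.SlB314 Crest.Agent.R330.SlC314
open Crest.Agent.R330.SlD314 Crest.Agent.R330.SlE944 Crest.Agent.R330.SlF944

variable {N : ℕ} {F : Type*} [NormedAddCommGroup F] [InnerProductSpace ℂ F] [FiniteDimensional ℂ F]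
variable {b : ColorBasis N} {M : FermionRep N F}

/-- equivariance of a slice function under the stabiliser of `c` -/
def IsSliceFun (R : GaugeAction b M) (c : Cfg N) (r : ℝ) (f : Cfg N → F) : Prop :=
  ∀ (k : Matrix.specialUnitaryGroup (Fin N) ℂ) (y : Cfg N), b.act k c = c → y ∈ Nor b c →
    ‖y‖ < r → f (b.act k y) = R.ρ k (f y)

open Classical in
/-- the equivariant extension of a slice function by `0` off the tube -/
def ext (R : GaugeAction b M) (c : Cfg N) (r : ℝ) (f : Cfg N → F) (x : Cfg N) : F :=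
  if h : ∃ (g : Matrix.specialUnitaryGroup (Fin N) ℂ) (y : Cfg N),
      y ∈ Nor b c ∧ ‖y‖ < r ∧ b.act g (c + y) = x then
    R.ρ h.choose (f h.choose_spec.choose) else 0

theorem ext_off (R : GaugeAction b M) {c : Cfg N} {r : ℝ} (f : Cfg N → F) {x : Cfg N}
    (hx : x ∉ tube b c r) : ext R c r f x = 0 := by
  unfold ext
  rw [dif_neg]
  rwa [mem_tube_iff] at hx

theorem ext_apply (R : GaugeAction b M) {c : Cfg N} {r : ℝ} (hg : Good b c r) {f : Cfg N → F}
    (hf : IsSliceFun R c r f) (g : Matrix.specialUnitaryGroup (Fin N) ℂ) {y : Cfg N}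
    (hy : y ∈ Nor b c) (hr : ‖y‖ < r) : ext R c r f (b.act g (c + y)) = R.ρ g (f y) := by
  have h : ∃ (g' : Matrix.specialUnitaryGroup (Fin N) ℂ) (y' : Cfg N),
      y' ∈ Nor b c ∧ ‖y'‖ < r ∧ b.act g' (c + y') = b.act g (c + y) := ⟨g, y, hy, hr, rfl⟩
  unfold ext
  rw [dif_pos h]
  obtain ⟨h1, h2, h3⟩ := h.choose_spec.choose_spec
  set g' := h.choose
  set y' := h.choose_spec.choose
  have h4 : b.act (g'⁻¹ * g) (c + y) = c + y' := by
    rw [act_mul, ← h3, act_inv_act]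
  have h5 := hg.star _ y y' hy h1 hr h2 h4
  have h6 : b.act (g'⁻¹ * g) y = y' := by
    rw [act_add, h5] at h4
    exact add_left_cancel h4
  have h7 := hf _ y h5 hy hr
  rw [h6] at h7
  rw [h7, map_mul]
  change R.ρ g' (R.ρ g'⁻¹ (R.ρ g (f y))) = _
  have h8 : R.ρ g' (R.ρ g'⁻¹ (R.ρ g (f y))) = (R.ρ g' * R.ρ g'⁻¹) (R.ρ g (f y)) := rfl
  rw [h8, ← map_mul, mul_inv_cancel, map_one]
  rfl

theorem ext_slice (R : GaugeAction b M) {c : Cfg N} {r : ℝ} (hg : Good b c r) {f : Cfg N → F}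
    (hf : IsSliceFun R c r f) {y : Cfg N}
    (hy : y ∈ Nor b c) (hr : ‖y‖ < r) : ext R c r f (c + y) = f y := by
  have h := ext_apply R hg hf 1 hy hr
  rw [act_one, map_one] at h
  exact h

theorem ext_equivariant (R : GaugeAction b M) {c : Cfg N} {r : ℝ} (hg : Good b c r)
    {f : Cfg N → F} (hf : IsSliceFun R c r f) (g : Matrix.specialUnitaryGroup (Fin N) ℂ)
    (x : Cfg N) : ext R c r f (b.act g x) = R.ρ g (ext R c r f x) := by
  by_cases hx : x ∈ tube b c r
  · obtain ⟨g', y, hy, hr, rfl⟩ := (mem_tube_iff b c r x).1 hx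
    rw [← act_mul, ext_apply R hg hf _ hy hr, ext_apply R hg hf _ hy hr, map_mul]
    rfl
  · rw [ext_off R f hx, ext_off R f (by rwa [act_mem_tube]), map_zero]

/-- the closed core of the tube -/
def ctube (b : ColorBasis N) (c : Cfg N) (r : ℝ) : Set (Cfg N) :=
  {x | ∃ (g : Matrix.specialUnitaryGroup (Fin N) ℂ) (y : Cfg N),
    y ∈ Nor b c ∧ ‖y‖ ≤ r ∧ b.act g (c + y) = x}

theorem isCompact_ctube (c : Cfg N) (r : ℝ) : IsCompact (ctube b c r) := by
  have h1 : IsCompact ((Set.univ : Set (Matrix.specialUnitaryGroup (Fin N) ℂ)) ×ˢ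
      ((Nor b c : Set (Cfg N)) ∩ Metric.closedBall 0 r)) := by
    refine isCompact_univ.prod ?_
    rw [Set.inter_comm]
    exact (isCompact_closedBall (0 : Cfg N) r).inter_right
      (Submodule.closed_of_finiteDimensional (Nor b c))
  have h2 : Continuous fun p : Matrix.specialUnitaryGroup (Fin N) ℂ × Cfg N =>
      b.act p.1 (c + p.2) := by
    have h3 : Continuous fun p : Matrix.specialUnitaryGroup (Fin N) ℂ × Cfg N =>
        ((p.1, c + p.2) : Matrix.specialUnitaryGroup (Fin N) ℂ × Cfg N) :=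
      continuous_fst.prodMk (continuous_const.add continuous_snd)
    exact (continuous_act b).comp h3
  have h4 := h1.image h2
  convert h4 using 1
  ext x
  constructor
  · rintro ⟨g, y, hy, hn, rfl⟩
    exact ⟨(g, y), ⟨trivial, hy, by simpa using hn⟩, rfl⟩
  · rintro ⟨⟨g, y⟩, ⟨-, hy, hn⟩, rfl⟩
    exact ⟨g, y, hy, by simpa using hn, rfl⟩

theorem ctube_subset_tube {c : Cfg N} {r' r : ℝ} (h : r' < r) : ctube b c r' ⊆ tube b c r := by
  rintro x ⟨g, y, hy, hn, rfl⟩
  exact (mem_tube_iff b c r _).2 ⟨g, y, hy, hn.trans_lt h, rfl⟩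

theorem ext_zero_off_ctube (R : GaugeAction b M) {c : Cfg N} {r r' : ℝ} (hg : Good b c r)
    {f : Cfg N → F} (hf : IsSliceFun R c r f)
    (h0 : ∀ y ∈ Nor b c, r' < ‖y‖ → ‖y‖ < r → f y = 0) {x : Cfg N} (hx : x ∉ ctube b c r') :
    ext R c r f x = 0 := by
  by_cases hx' : x ∈ tube b c r
  · obtain ⟨g, y, hy, hr, rfl⟩ := (mem_tube_iff b c r x).1 hx'
    rw [ext_apply R hg hf _ hy hr]
    by_cases hn : ‖y‖ ≤ r'
    · exact absurd ⟨g, y, hy, hn, rfl⟩ hx
    · rw [h0 y hy (not_le.1 hn) hr, map_zero]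
  · exact ext_off R f hx'

/-- smoothness of an equivariant function near a point of the slice -/
theorem contDiffAt_slice [Nontrivial F] (R : GaugeAction b M) {c : Cfg N} {r : ℝ}
    (hg : Good b c r) {f φ : Cfg N → F}
    (hφ : ∀ (g : Matrix.specialUnitaryGroup (Fin N) ℂ) (y : Cfg N), y ∈ Nor b c → ‖y‖ < r →
      φ (b.act g (c + y)) = R.ρ g (f y)) {y₀ : Cfg N} (hy : y₀ ∈ Nor b c) (hr : ‖y₀‖ < r)
    (hf : ContDiffAt ℝ ∞ (fun y : Nor b c => f y) ⟨y₀, hy⟩) : ContDiffAt ℝ ∞ φ (c + y₀) := by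
  obtain ⟨om, y, hom, hys, hom0, hy0, hrep⟩ := local_rep b hg hy hr
  have h1 : ∀ᶠ x in 𝓝 (c + y₀), ‖(y x : Cfg N)‖ < r := by
    have hc : ContinuousAt (fun x => ‖(y x : Cfg N)‖) (c + y₀) :=
      (continuous_subtype_val.continuousAt.comp hys.continuousAt).norm
    have h2 : ‖(y (c + y₀) : Cfg N)‖ < r := by rw [hy0]; exact hr
    exact hc.eventually (isOpen_Iio.mem_nhds h2)
  have h2 : φ =ᶠ[𝓝 (c + y₀)] fun x => R.ρ (gexp b (om x)) (f (y x : Cfg N)) := by
    filter_upwards [hrep, h1] with x hx hn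
    conv_lhs => rw [← hx]
    exact hφ _ _ (y x).2 hn
  refine ContDiffAt.congr_of_eventuallyEq ?_ h2
  have h4 : ContDiffAt ℝ ∞ (fun z : Nor b c => f z) (y (c + y₀)) := by rw [hy0]; exact hf
  have h5 : ContDiffAt ℝ ∞ (fun x => f (y x : Cfg N)) (c + y₀) :=
    ContDiffAt.comp (g := fun z : Nor b c => f z) (f := y) (c + y₀) h4 hys
  have h3 : ContDiffAt ℝ ∞ (fun x => (om x, f (y x : Cfg N))) (c + y₀) := hom.prodMk h5
  exact ContDiffAt.comp (g := fun p : (Fin (N ^ 2 - 1) → ℝ) × F => R.ρ (gexp b p.1) p.2)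
    (f := fun x => (om x, f (y x : Cfg N))) (c + y₀) (contDiff_rho_gexp R).contDiffAt h3

theorem ext_contDiff [Nontrivial F] (R : GaugeAction b M) {c : Cfg N} {r r' : ℝ}
    (hg : Good b c r) {f : Cfg N → F} (hf : IsSliceFun R c r f)
    (hs : ∀ y₀ : Nor b c, ‖y₀‖ < r → ContDiffAt ℝ ∞ (fun y : Nor b c => f y) y₀)
    (hrr : r' < r) (h0 : ∀ y ∈ Nor b c, r' < ‖y‖ → ‖y‖ < r → f y = 0) :
    ContDiff ℝ ∞ (ext R c r f) := by
  rw [contDiff_iff_contDiffAt]
  intro x
  by_cases hx : x ∈ tube b c r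
  · obtain ⟨g, y, hy, hr, rfl⟩ := (mem_tube_iff b c r x).1 hx
    have h1 : ContDiffAt ℝ ∞ (ext R c r f) (c + y) :=
      contDiffAt_slice R hg (fun g y hy hr => ext_apply R hg hf g hy hr) hy hr
        (hs ⟨y, hy⟩ hr)
    have h2 : ext R c r f = fun x => R.ρ g (ext R c r f (b.act g⁻¹ x)) := by
      funext x
      rw [← ext_equivariant R hg hf, act_act_inv]
    rw [h2]
    have h3 : ContDiffAt ℝ ∞ (fun x => ext R c r f (b.act g⁻¹ x)) (b.act g (c + y)) := by
      refine ContDiffAt.comp (g := ext R c r f) (f := fun x => b.act g⁻¹ x)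
        (b.act g (c + y)) ?_ (Cov837.act_contDiff b g⁻¹).contDiffAt
      rw [act_inv_act]
      exact h1
    have h4 : ContDiff ℝ ∞ (fun v : F => R.ρ g v) := by
      have := (LinearMap.toContinuousLinearMap ((R.ρ g).restrictScalars ℝ)).contDiff (n := ∞)
      exact this
    exact h4.contDiffAt.comp _ h3
  · have h1 : x ∉ ctube b c r' := fun h => hx (ctube_subset_tube hrr h)
    have h2 : ∀ᶠ z in 𝓝 x, z ∉ ctube b c r' :=
      (isCompact_ctube c r').isClosed.isOpen_compl.mem_nhds h1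
    have h3 : ext R c r f =ᶠ[𝓝 x] fun _ => 0 := by
      filter_upwards [h2] with z hz
      exact ext_zero_off_ctube R hg hf h0 hz
    exact contDiffAt_const.congr_of_eventuallyEq h3

theorem ext_compact (R : GaugeAction b M) {c : Cfg N} {r r' : ℝ}
    (hg : Good b c r) {f : Cfg N → F} (hf : IsSliceFun R c r f)
    (h0 : ∀ y ∈ Nor b c, r' < ‖y‖ → ‖y‖ < r → f y = 0) :
    HasCompactSupport (ext R c r f) :=
  HasCompactSupport.intro (isCompact_ctube c r') fun _ hx => ext_zero_off_ctube R hg hf h0 hx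

/-- **(b5)** the extension is a core vector -/
theorem ext_core [Nontrivial F] (R : GaugeAction b M) {c : Cfg N} {r r' : ℝ}
    (hg : Good b c r) {f : Cfg N → F} (hf : IsSliceFun R c r f)
    (hs : ∀ y₀ : Nor b c, ‖y₀‖ < r → ContDiffAt ℝ ∞ (fun y : Nor b c => f y) y₀)
    (hrr : r' < r) (h0 : ∀ y ∈ Nor b c, r' < ‖y‖ → ‖y‖ < r → f y = 0) :
    IsCoreVec b R (ext R c r f) :=
  ⟨ext_contDiff R hg hf hs hrr h0, ext_compact R hg hf h0,
    fun g x => ext_equivariant R hg hf g x⟩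

/-- the same for a smooth `f` on the whole configuration space -/
theorem ext_core' [Nontrivial F] (R : GaugeAction b M) {c : Cfg N} {r r' : ℝ}
    (hg : Good b c r) {f : Cfg N → F} (hf : IsSliceFun R c r f)
    (hs : ∀ y₀ ∈ Nor b c, ‖y₀‖ < r → ContDiffAt ℝ ∞ f y₀)
    (hrr : r' < r) (h0 : ∀ y ∈ Nor b c, r' < ‖y‖ → ‖y‖ < r → f y = 0) :
    IsCoreVec b R (ext R c r f) :=
  ext_core R hg hf (fun y₀ hy₀ =>
    (hs y₀ y₀.2 hy₀).comp y₀ (Nor b c).subtypeL.contDiff.contDiffAt) hrr h0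

/-- an equivariant function is determined by its values on the slice and off the tube -/
theorem eq_ext (R : GaugeAction b M) {c : Cfg N} {r : ℝ} (hg : Good b c r) {f φ : Cfg N → F}
    (hf : IsSliceFun R c r f) (hφ : ∀ g x, φ (b.act g x) = R.ρ g (φ x))
    (h1 : ∀ y ∈ Nor b c, ‖y‖ < r → φ (c + y) = f y) (h2 : ∀ x ∉ tube b c r, φ x = 0) :
    φ = ext R c r f := by
  funext x
  by_cases hx : x ∈ tube b c r
  · obtain ⟨g, y, hy, hr, rfl⟩ := (mem_tube_iff b c r x).1 hx
    rw [hφ, h1 y hy hr, ext_apply R hg hf _ hy hr]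
  · rw [h2 x hx, ext_off R f hx]




end Crest.Agent.R330.SlG944

end
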