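import Crest.Agent.R330.Char_973
import Crest.Agent.R330.Blk_304
import Crest.Agent.R330.Blk2_317
import Crest.Agent.R330.Geo8_692

-- ▼ part R330/Stab_973
section

/-!
# Row 330 (helper973), leaf S8-STAB: stabilisers and block permutations

`e : (Σ p, Fin (k p)) ≃ Fin N` : the block decomposition.

* `bd e X` : block diagonal matrices.
* `exists_phase` : every unitary matrix is a phase times an element of `SU(n)`.
* `exists_stab` : a block diagonal `g ∈ SU(N)` acts on the blocks through `h_p ∈ SU(k_p)`.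
* `exists_perm` : the permutation of blocks of equal size is implemented by an element of `SU(N)`.
* `blk` : the embedding of block configurations; `act_blk`, `act_blk_perm`.
-/

set_option autoImplicit false
set_option linter.unusedSectionVars false

noncomputable section

open scoped Matrix ComplexConjugate

namespace Crest.Agent.R330.Stab973

open Matrix Crest.MathPhysics.MatrixQM Crest.Agent.R330.Char973 Crest.Agent.R330.Blk304

variable {P : Type*} [Fintype P] [DecidableEq P] {N : ℕ} {k : P → ℕ}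
  (e : (Σ p : P, Fin (k p)) ≃ Fin N)

/-- Families of square matrices. -/
abbrev Fam (k : P → ℕ) := ∀ p : P, Matrix (Fin (k p)) (Fin (k p)) ℂ

/-- Block diagonal matrices. -/
def bd (X : Fam k) : Matrix (Fin N) (Fin N) ℂ := (blockDiagonal' X).submatrix e.symm e.symm

theorem bd_apply (X : Fam k) (p q : P) (i : Fin (k p)) (j : Fin (k q)) :
    bd e X (e ⟨p, i⟩) (e ⟨q, j⟩) = blockDiagonal' X ⟨p, i⟩ ⟨q, j⟩ := by
  rw [bd, submatrix_apply, e.symm_apply_apply, e.symm_apply_apply]

theorem bd_apply_eq (X : Fam k) (p : P) (i j : Fin (k p)) :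
    bd e X (e ⟨p, i⟩) (e ⟨p, j⟩) = X p i j := by
  rw [bd_apply, blockDiagonal'_apply_eq]

theorem bd_apply_ne (X : Fam k) {p q : P} (h : p ≠ q) (i : Fin (k p)) (j : Fin (k q)) :
    bd e X (e ⟨p, i⟩) (e ⟨q, j⟩) = 0 := by
  rw [bd_apply, blockDiagonal'_apply_ne _ _ _ h]

theorem bd_inj {X Y : Fam k} (h : bd e X = bd e Y) : X = Y := by
  funext p
  ext i j
  rw [← bd_apply_eq e X, h, bd_apply_eq]

/-- Equality of matrices can be checked on the image of `e`. -/
theorem ext_e {A B : Matrix (Fin N) (Fin N) ℂ} (h : ∀ x y, A (e x) (e y) = B (e x) (e y)) :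
    A = B := by
  ext a c
  rw [← e.apply_symm_apply a, ← e.apply_symm_apply c]
  exact h _ _

theorem bd_mul (X Y : Fam k) : bd e X * bd e Y = bd e fun p => X p * Y p := by
  rw [bd, bd, bd, submatrix_mul_equiv, ← blockDiagonal'_mul]

theorem bd_star (X : Fam k) : star (bd e X) = bd e fun p => star (X p) := by
  rw [Matrix.star_eq_conjTranspose, bd, bd, conjTranspose_submatrix, blockDiagonal'_conjTranspose]
  rfl

theorem bd_one : bd e (fun _ => 1) = 1 := by
  rw [bd]
  have h : blockDiagonal' (fun p => (1 : Matrix (Fin (k p)) (Fin (k p)) ℂ)) = 1 :=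
    blockDiagonal'_one
  rw [h, submatrix_one_equiv]

theorem bd_add (X Y : Fam k) : bd e (fun p => X p + Y p) = bd e X + bd e Y := by
  have h : blockDiagonal' (fun p => X p + Y p) = blockDiagonal' X + blockDiagonal' Y :=
    blockDiagonal'_add X Y
  rw [bd, h]
  rfl

theorem bd_smul (c : ℂ) (X : Fam k) : bd e (fun p => c • X p) = c • bd e X := by
  have h : blockDiagonal' (fun p => c • X p) = c • blockDiagonal' X := blockDiagonal'_smul c X
  rw [bd, h]
  rfl



theorem bd_trace (X : Fam k) : (bd e X).trace = ∑ p, (X p).trace := by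
  rw [Matrix.trace, ← e.sum_comp, Fintype.sum_sigma]
  refine Finset.sum_congr rfl fun p _ => ?_
  rw [Matrix.trace]
  refine Finset.sum_congr rfl fun i _ => ?_
  rw [diag_apply, diag_apply, bd_apply_eq]

/-- The diagonal blocks of a matrix. -/
def blkOf (g : Matrix (Fin N) (Fin N) ℂ) : Fam k := fun p =>
  Matrix.of fun i j => g (e ⟨p, i⟩) (e ⟨p, j⟩)

theorem blkOf_apply (g : Matrix (Fin N) (Fin N) ℂ) (p : P) (i j : Fin (k p)) :
    blkOf e g p i j = g (e ⟨p, i⟩) (e ⟨p, j⟩) := rfl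

/-- A block diagonal matrix. -/
theorem eq_bd {g : Matrix (Fin N) (Fin N) ℂ}
    (hg : ∀ p q (i : Fin (k p)) (j : Fin (k q)), p ≠ q → g (e ⟨p, i⟩) (e ⟨q, j⟩) = 0) :
    g = bd e (blkOf e g) := by
  refine ext_e e ?_
  rintro ⟨p, i⟩ ⟨q, j⟩
  by_cases h : p = q
  · subst h
    rw [bd_apply_eq, blkOf_apply]
  · rw [bd_apply_ne e _ h, hg p q i j h]

/-! ### Phases -/

theorem exists_root {n : ℕ} (hn : n ≠ 0) (z : Circle) : ∃ ζ : Circle, ζ ^ n = z := by
  refine ⟨Circle.exp (Complex.arg z / n), ?_⟩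
  rw [← Circle.exp_natCast_mul, mul_div_cancel₀ _ (Nat.cast_ne_zero.2 hn), Circle.exp_arg]

/-- **Every unitary matrix is a phase times an element of `SU(n)`.** -/
theorem exists_phase {n : ℕ} {U : Matrix (Fin n) (Fin n) ℂ} (hU : U * star U = 1) :
    ∃ (ζ : Circle) (h : SU n), (h : Matrix (Fin n) (Fin n) ℂ) = (ζ : ℂ) • U := by
  rcases Nat.eq_zero_or_pos n with rfl | hn
  · exact ⟨1, 1, Subsingleton.elim _ _⟩
  have hd : ‖U.det‖ = 1 := by
    have h1 := congrArg Matrix.det hU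
    rw [det_mul, det_one, Matrix.star_eq_conjTranspose, det_conjTranspose] at h1
    have h2 : ((‖U.det‖ ^ 2 : ℝ) : ℂ) = ((1 : ℝ) : ℂ) := by
      have h3 : U.det * conj U.det = 1 := h1
      rw [Complex.mul_conj'] at h3
      push_cast
      exact h3
    have h4 : ‖U.det‖ ^ 2 = 1 := Complex.ofReal_injective h2
    have h5 := norm_nonneg U.det
    nlinarith
  set δ : Circle := ⟨U.det, mem_sphere_zero_iff_norm.2 hd⟩
  have hδ : (δ : ℂ) = U.det := rfl
  obtain ⟨ζ, hζ⟩ := exists_root hn.ne' δ⁻¹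
  refine ⟨ζ, ⟨(ζ : ℂ) • U, mem_SU ?_ ?_⟩, rfl⟩
  · rw [star_smul, smul_mul_smul_comm, hU, Complex.star_def, circle_mul_conj, one_smul]
  · rw [det_smul, Fintype.card_fin, ← hδ, ← Circle.coe_pow, hζ, ← Circle.coe_mul, inv_mul_cancel,
      Circle.coe_one]

/-- Conjugation by a phase multiple. -/
theorem conj_phase {n : ℕ} {U : Matrix (Fin n) (Fin n) ℂ} {ζ : Circle} {h : SU n}
    (hh : (h : Matrix (Fin n) (Fin n) ℂ) = (ζ : ℂ) • U) (X : Matrix (Fin n) (Fin n) ℂ) :
    (h : Matrix (Fin n) (Fin n) ℂ) * X * star (h : Matrix (Fin n) (Fin n) ℂ) =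
      U * X * star U := by
  rw [hh, star_smul, Matrix.smul_mul, Matrix.smul_mul, Matrix.mul_smul, smul_smul,
    Complex.star_def, circle_mul_conj, one_smul]

/-! ### The stabiliser -/

/-- **A block diagonal element of `SU(N)` acts on the blocks through elements of `SU(k_p)`.** -/
theorem exists_stab {g : SU N} (hg : ∀ p q (i : Fin (k p)) (j : Fin (k q)), p ≠ q →
    (g : Matrix (Fin N) (Fin N) ℂ) (e ⟨p, i⟩) (e ⟨q, j⟩) = 0) :
    ∃ h : ∀ p, SU (k p), ∀ X : Fam k,
      (g : Matrix (Fin N) (Fin N) ℂ) * bd e X * star (g : Matrix (Fin N) (Fin N) ℂ) =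
        bd e fun p => (h p : Matrix (Fin (k p)) (Fin (k p)) ℂ) * X p *
          star (h p : Matrix (Fin (k p)) (Fin (k p)) ℂ) := by
  set G : Fam k := blkOf e (g : Matrix (Fin N) (Fin N) ℂ) with hG
  have h1 : (g : Matrix (Fin N) (Fin N) ℂ) = bd e G := eq_bd e hg
  have h2 : ∀ p, G p * star (G p) = 1 := by
    have h3 := su_mul_star g
    rw [h1, bd_star, bd_mul, ← bd_one e] at h3
    exact fun p => congrFun (bd_inj e h3) p
  choose ζ h hh using fun p => exists_phase (h2 p)
  refine ⟨h, fun X => ?_⟩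
  rw [h1, bd_star, bd_mul, bd_mul]
  congr 1
  funext p
  exact (conj_phase (hh p) (X p)).symm

/-! ### Permutations of blocks -/

/-- Transport of a square matrix along an equality of sizes. -/
def castM {n n' : ℕ} (h : n = n') (X : Matrix (Fin n) (Fin n) ℂ) :
    Matrix (Fin n') (Fin n') ℂ := X.submatrix (finCongr h.symm) (finCongr h.symm)

theorem castM_rfl {n : ℕ} (X : Matrix (Fin n) (Fin n) ℂ) : castM rfl X = X := rfl


/-- The permutation of the indices which permutes the blocks. -/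
def tau {s : Equiv.Perm P} (hs : ∀ p, k (s p) = k p) : Equiv.Perm (Σ p : P, Fin (k p)) :=
  Equiv.sigmaCongr s fun p => finCongr (hs p).symm

theorem tau_apply {s : Equiv.Perm P} (hs : ∀ p, k (s p) = k p) (p : P) (i : Fin (k p)) :
    tau hs ⟨p, i⟩ = ⟨s p, finCongr (hs p).symm i⟩ := rfl

/-- **Permutations of blocks of equal size are implemented by elements of `SU(N)`.** -/
theorem exists_perm {s : Equiv.Perm P} (hs : ∀ p, k (s p) = k p) :
    ∃ w : SU N, ∀ X X' : Fam k, (∀ p, X' (s p) = castM (hs p).symm (X p)) →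
      (w : Matrix (Fin N) (Fin N) ℂ) * bd e X * star (w : Matrix (Fin N) (Fin N) ℂ) =
        bd e X' := by
  set σ : Equiv.Perm (Fin N) := (e.symm.trans (tau hs)).trans e with hσ
  -- `W a c = 1` iff `a = σ c`
  set W : Matrix (Fin N) (Fin N) ℂ := (σ⁻¹).permMatrix ℂ with hW
  have hWW : W * star W = 1 := by
    rw [hW, Matrix.star_eq_conjTranspose, conjTranspose_permMatrix, ← permMatrix_mul]
    simp
  obtain ⟨ζ, w, hw⟩ := exists_phase hWW
  refine ⟨w, fun X X' hX => ?_⟩
  rw [conj_phase hw]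
  have h1 : ∀ Y : Matrix (Fin N) (Fin N) ℂ, W * Y * star W = Y.submatrix σ.symm σ.symm := by
    intro Y
    rw [hW, Matrix.star_eq_conjTranspose, conjTranspose_permMatrix, inv_inv]
    rw [Equiv.Perm.permMatrix, Equiv.Perm.permMatrix, PEquiv.toMatrix_toPEquiv_mul,
      PEquiv.mul_toMatrix_toPEquiv, submatrix_submatrix]
    rfl
  rw [h1]
  refine ext_e e ?_
  intro x y
  obtain ⟨⟨p, i⟩, rfl⟩ := (tau hs).surjective x
  obtain ⟨⟨q, j⟩, rfl⟩ := (tau hs).surjective y
  have h2 : ∀ x : (Σ p : P, Fin (k p)), σ.symm (e (tau hs x)) = e x := by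
    intro x
    rw [hσ, Equiv.symm_apply_eq]
    simp
  rw [submatrix_apply, h2, h2, tau_apply, tau_apply]
  by_cases hpq : p = q
  · subst hpq
    rw [bd_apply_eq, bd_apply_eq, hX]
    simp [castM]
  · rw [bd_apply_ne e X hpq, bd_apply_ne e X' (fun h => hpq (s.injective h))]

/-! ### Colour vectors and configurations -/

section colour

variable (b : ColorBasis N) (bb : ∀ p, ColorBasis (k p))






/-- The block embedding of configurations. -/
def blk (Y : ∀ p, Cfg (k p)) : Cfg N := mk b fun i => bd e fun p => mat (bb p) (Y p) i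


/-- Configurations which are constant on the blocks. -/
def cen (r : P → EuclideanSpace ℝ (Fin 9)) : Cfg N :=
  mk b fun i => bd e fun p => ((r p i : ℝ) : ℂ) • (1 : Matrix (Fin (k p)) (Fin (k p)) ℂ)


/-- The data of a stabiliser element. -/
structure StabOf (g : SU N) (h : ∀ p, SU (k p)) : Prop where
  cj : ∀ X : Fam k, (g : Matrix (Fin N) (Fin N) ℂ) * bd e X *
    star (g : Matrix (Fin N) (Fin N) ℂ) =
      bd e fun p => (h p : Matrix (Fin (k p)) (Fin (k p)) ℂ) * X p *
        star (h p : Matrix (Fin (k p)) (Fin (k p)) ℂ)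

variable {e} {g : SU N} {h : ∀ p, SU (k p)}




/-- **The stabiliser** of block diagonal positions. -/
theorem exists_stabOf (hg : ∀ p q (i : Fin (k p)) (j : Fin (k q)), p ≠ q →
    (g : Matrix (Fin N) (Fin N) ℂ) (e ⟨p, i⟩) (e ⟨q, j⟩) = 0) :
    ∃ h : ∀ p, SU (k p), StabOf e g h := by
  obtain ⟨h, hh⟩ := exists_stab e hg
  exact ⟨h, ⟨hh⟩⟩



end colour

end Crest.Agent.R330.Stab973

end
end

-- ▼ part R330/Stab2_973

/-!
# Row 330 (helper973), leaf S8-STAB part 2: the block group and the block permutations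

For 317's `D : Dec N k` (`Dec.ofEquiv e`) and 692's channel `P : Lam N`:

* `embM_ofEquiv`, `cenM_ofEquiv` : 317's matrices are the block diagonal matrices `bd e`.
* `StK D g h` : `g ∈ SU(N)` acts on the blocks through `h p ∈ SU(k p)`; `StK.adV_emb`,
  `StK.adj_emb`, `StK.act_embCfg`, `StK.act_cenCfg`, `StK.adV_centre`; `exists_stK` (for
  `g ∈ Kst P`), `stK_iota`, `StK.mul`, `StK.inv`.
* `StW D w σ hσ` : `w` maps the block `p` to the block `σ p`; `StW.adV_emb`, `StW.act_embCfg`,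
  `StW.act_cenCfg`; `exists_stW`, `wS`.
-/

set_option autoImplicit false
set_option linter.unusedSectionVars false

noncomputable section

open Matrix
open Crest.MathPhysics.MatrixQM
open Crest.Agent.R330.SlA314 Crest.Agent.R330.SlB314 Crest.Agent.R330.Blk317
open scoped InnerProductSpace

namespace Crest.Agent.R330.Stab2973

open Crest.Agent.R330.Stab973 (Fam bd bd_apply_eq bd_apply_ne ext_e bd_smul castM castM_rfl
  StabOf exists_stabOf exists_perm)
open Crest.Agent.R330.Char973 (SU)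

/-! ### 1. The adjoint action on colour vectors -/

section ad

variable {N : ℕ} (b : ColorBasis N)

/-- The colour rotation by `g`. -/
def adV (g : SU N) : EuclideanSpace ℝ (Fin (N ^ 2 - 1)) →ₗᵢ[ℝ]
    EuclideanSpace ℝ (Fin (N ^ 2 - 1)) where
  toFun u := WithLp.toLp 2 fun A => ∑ B, b.adjMat g A B * u B
  map_add' u v := by
    ext A
    simp [mul_add, Finset.sum_add_distrib]
  map_smul' t u := by
    ext A
    simp only [PiLp.smul_apply, smul_eq_mul, RingHom.id_apply, Finset.mul_sum]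
    exact Finset.sum_congr rfl fun B _ => by ring
  norm_map' u := by
    have h : ((⟪(WithLp.toLp 2 fun A => ∑ B, b.adjMat g A B * u B :
        EuclideanSpace ℝ (Fin (N ^ 2 - 1))), WithLp.toLp 2 fun A => ∑ B, b.adjMat g A B * u B⟫_ℝ :
        ℝ) : ℂ) = ((⟪u, u⟫_ℝ : ℝ) : ℂ) := by
      rw [inner_eq_trace b, inner_eq_trace b]
      have h1 : cm b (WithLp.toLp 2 fun A => ∑ B, b.adjMat g A B * u B :
          EuclideanSpace ℝ (Fin (N ^ 2 - 1))) =
          (g : Matrix (Fin N) (Fin N) ℂ) * cm b u * star (g : Matrix (Fin N) (Fin N) ℂ) :=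
        cm_adjVec b g u
      rw [h1]
      have h2 : star (g : Matrix (Fin N) (Fin N) ℂ) * (g : Matrix (Fin N) (Fin N) ℂ) = 1 :=
        (Matrix.mem_unitaryGroup_iff'.1 (Matrix.mem_specialUnitaryGroup_iff.1 g.2).1)
      calc _ = ((g : Matrix (Fin N) (Fin N) ℂ) * (cm b u * (star (g : Matrix (Fin N) (Fin N) ℂ) *
              (g : Matrix (Fin N) (Fin N) ℂ)) * cm b u) *
              star (g : Matrix (Fin N) (Fin N) ℂ)).trace := by
            simp only [Matrix.mul_assoc]
        _ = _ := by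
            rw [h2, Matrix.mul_one, Matrix.trace_mul_comm, ← Matrix.mul_assoc, h2, Matrix.one_mul]
    have h' : ⟪(WithLp.toLp 2 fun A => ∑ B, b.adjMat g A B * u B :
        EuclideanSpace ℝ (Fin (N ^ 2 - 1))), WithLp.toLp 2 fun A => ∑ B, b.adjMat g A B * u B⟫_ℝ =
        ⟪u, u⟫_ℝ := by exact_mod_cast h
    rw [real_inner_self_eq_norm_sq, real_inner_self_eq_norm_sq] at h'
    exact (sq_eq_sq₀ (norm_nonneg _) (norm_nonneg _)).1 h'

theorem adV_apply (g : SU N) (u : EuclideanSpace ℝ (Fin (N ^ 2 - 1))) (A : Fin (N ^ 2 - 1)) :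
    adV b g u A = ∑ B, b.adjMat g A B * u B := rfl

theorem cm_adV (g : SU N) (u : EuclideanSpace ℝ (Fin (N ^ 2 - 1))) :
    cm b (adV b g u) =
      (g : Matrix (Fin N) (Fin N) ℂ) * cm b u * star (g : Matrix (Fin N) (Fin N) ℂ) :=
  cm_adjVec b g u

theorem adV_mul (g h : SU N) (u : EuclideanSpace ℝ (Fin (N ^ 2 - 1))) :
    adV b (g * h) u = adV b g (adV b h u) := by
  apply (cm_eq_iff b).1
  rw [cm_adV, cm_adV, cm_adV]
  have h1 : ((g * h : SU N) : Matrix (Fin N) (Fin N) ℂ) =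
    (g : Matrix (Fin N) (Fin N) ℂ) * (h : Matrix (Fin N) (Fin N) ℂ) := rfl
  rw [h1, star_mul]
  simp only [Matrix.mul_assoc]

theorem adV_one (u : EuclideanSpace ℝ (Fin (N ^ 2 - 1))) : adV b 1 u = u := by
  apply (cm_eq_iff b).1
  rw [cm_adV]
  have h1 : ((1 : SU N) : Matrix (Fin N) (Fin N) ℂ) = 1 := rfl
  rw [h1, star_one, Matrix.one_mul, Matrix.mul_one]


end ad

/-! ### 2. Block matrices -/

section blk

variable {ι : Type*} [Fintype ι] [DecidableEq ι] {N : ℕ} {k : ι → ℕ}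
  (e : (Σ p : ι, Fin (k p)) ≃ Fin N)

theorem V_apply (p q : ι) (i : Fin (k p)) (j : Fin (k q)) :
    (Dec.ofEquiv e).V p (e ⟨q, j⟩) i = if (⟨q, j⟩ : Σ p : ι, Fin (k p)) = ⟨p, i⟩ then 1 else 0 := by
  change (if e ⟨q, j⟩ = e ⟨p, i⟩ then (1 : ℂ) else 0) = _
  simp only [EmbeddingLike.apply_eq_iff_eq]

theorem V_same (p : ι) (i j : Fin (k p)) :
    (Dec.ofEquiv e).V p (e ⟨p, j⟩) i = if j = i then 1 else 0 := by
  rw [V_apply]
  simp

theorem V_ne {p q : ι} (h : q ≠ p) (i : Fin (k p)) (j : Fin (k q)) :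
    (Dec.ofEquiv e).V p (e ⟨q, j⟩) i = 0 := by
  rw [V_apply, if_neg]
  intro h1
  exact h (congrArg Sigma.fst h1)

/-- **317's block embedding is a block diagonal matrix.** -/
theorem embM_ofEquiv (p : ι) (X : Matrix (Fin (k p)) (Fin (k p)) ℂ) :
    (Dec.ofEquiv e).embM p X = bd e (Pi.single p X) := by
  have h1 : ∀ x y, (Dec.ofEquiv e).embM p X (e x) (e y) =
      ∑ j, (∑ i, (Dec.ofEquiv e).V p (e x) i * X i j) * star ((Dec.ofEquiv e).V p (e y) j) := by
    intro x y
    unfold Dec.embM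
    rw [Matrix.mul_apply]
    simp only [Matrix.mul_apply, Matrix.conjTranspose_apply]
  refine ext_e e ?_
  rintro ⟨q, i⟩ ⟨r, j⟩
  rw [h1]
  by_cases hq : q = p
  · subst hq
    by_cases hr : r = q
    · subst hr
      rw [bd_apply_eq, Pi.single_eq_same]
      simp only [V_same, ite_mul, one_mul, zero_mul, Finset.sum_ite_eq, Finset.mem_univ, if_true,
        apply_ite star, star_one, star_zero, mul_ite, mul_one, mul_zero]
    · rw [bd_apply_ne e _ (Ne.symm hr)]
      refine Finset.sum_eq_zero fun l _ => ?_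
      rw [V_ne e hr, star_zero, mul_zero]
  · have h2 : ∀ l, ∑ m, (Dec.ofEquiv e).V p (e ⟨q, i⟩) m * X m l = 0 := fun l =>
      Finset.sum_eq_zero fun m _ => by rw [V_ne e hq, zero_mul]
    have h3 : bd e (Pi.single p X) (e ⟨q, i⟩) (e ⟨r, j⟩) = 0 := by
      by_cases hr : q = r
      · subst hr
        rw [bd_apply_eq, Pi.single_eq_of_ne hq]
        rfl
      · rw [bd_apply_ne e _ hr]
    rw [h3]
    refine Finset.sum_eq_zero fun l _ => ?_
    rw [h2, zero_mul]

end blk

/-! ### 3. The block group -/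

section dec

variable {ι : Type*} [Fintype ι] {N : ℕ} {k : ι → ℕ}

/-- `g` acts on the blocks through `h p ∈ SU(k p)`. -/
structure StK (D : Dec N k) (g : SU N) (h : ∀ p, SU (k p)) : Prop where
  cj : ∀ p (X : Matrix (Fin (k p)) (Fin (k p)) ℂ),
    (g : Matrix (Fin N) (Fin N) ℂ) * D.embM p X * star (g : Matrix (Fin N) (Fin N) ℂ) =
      D.embM p ((h p : Matrix (Fin (k p)) (Fin (k p)) ℂ) * X *
        star (h p : Matrix (Fin (k p)) (Fin (k p)) ℂ))

theorem su_star {n : ℕ} (g : SU n) :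
    (g : Matrix (Fin n) (Fin n) ℂ) * star (g : Matrix (Fin n) (Fin n) ℂ) = 1 :=
  Matrix.mem_unitaryGroup_iff.1 (Matrix.mem_specialUnitaryGroup_iff.1 g.2).1

theorem star_su {n : ℕ} (g : SU n) :
    star (g : Matrix (Fin n) (Fin n) ℂ) * (g : Matrix (Fin n) (Fin n) ℂ) = 1 :=
  Matrix.mem_unitaryGroup_iff'.1 (Matrix.mem_specialUnitaryGroup_iff.1 g.2).1

namespace StK

variable {D : Dec N k} {g g' : SU N} {h h' : ∀ p, SU (k p)}

theorem one : StK D 1 (fun _ => 1) := ⟨fun p X => by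
  have h1 : ((1 : SU N) : Matrix (Fin N) (Fin N) ℂ) = 1 := rfl
  have h2 : ((1 : SU (k p)) : Matrix (Fin (k p)) (Fin (k p)) ℂ) = 1 := rfl
  rw [h1, h2, star_one, star_one, Matrix.one_mul, Matrix.mul_one, Matrix.one_mul, Matrix.mul_one]⟩

theorem mul (H : StK D g h) (H' : StK D g' h') : StK D (g * g') (fun p => h p * h' p) :=
  ⟨fun p X => by
    have h1 : ((g * g' : SU N) : Matrix (Fin N) (Fin N) ℂ) =
      (g : Matrix (Fin N) (Fin N) ℂ) * (g' : Matrix (Fin N) (Fin N) ℂ) := rfl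
    have h2 : ((h p * h' p : SU (k p)) : Matrix (Fin (k p)) (Fin (k p)) ℂ) =
      (h p : Matrix (Fin (k p)) (Fin (k p)) ℂ) * (h' p : Matrix (Fin (k p)) (Fin (k p)) ℂ) := rfl
    have h3 := H.cj p ((h' p : Matrix (Fin (k p)) (Fin (k p)) ℂ) * X *
        star (h' p : Matrix (Fin (k p)) (Fin (k p)) ℂ))
    rw [← H'.cj] at h3
    rw [h1, h2, star_mul, star_mul]
    simp only [Matrix.mul_assoc] at h3 ⊢
    exact h3⟩

theorem cj_proj (H : StK D g h) (p : ι) :
    (g : Matrix (Fin N) (Fin N) ℂ) * D.proj p * star (g : Matrix (Fin N) (Fin N) ℂ) =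
      D.proj p := by
  rw [← D.embM_one, H.cj, Matrix.mul_one, su_star]

theorem cj_cenM (H : StK D g h) (r : ι → ℝ) :
    (g : Matrix (Fin N) (Fin N) ℂ) * D.cenM r * star (g : Matrix (Fin N) (Fin N) ℂ) =
      D.cenM r := by
  unfold Dec.cenM
  rw [Finset.mul_sum, Finset.sum_mul]
  refine Finset.sum_congr rfl fun q _ => ?_
  rw [Matrix.mul_smul, Matrix.smul_mul, H.cj_proj]

variable (b : ColorBasis N) (bp : ∀ p, ColorBasis (k p))

/-- **Colour vectors of the blocks**: `Ad_N(g) eps_p = eps_p Ad(h_p)`. -/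
theorem adV_emb (H : StK D g h) (p : ι) (u : EuclideanSpace ℝ (Fin (k p ^ 2 - 1))) :
    adV b g (D.emb b bp p u) = D.emb b bp p (adV (bp p) (h p) u) := by
  apply (cm_eq_iff b).1
  rw [cm_adV, D.cm_emb, H.cj, D.cm_emb, cm_adV]



/-- **The positions are fixed.** -/
theorem act_cenCfg (H : StK D g h) {R : Fin 9 → ι → ℝ}
    (hR : ∀ i, ∑ p, (k p : ℝ) * R i p = 0) : b.act g (D.cenCfg b R) = D.cenCfg b R := by
  apply mat_inj b
  intro i
  rw [mat_act, D.mat_cenCfg b hR, H.cj_cenM]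


end StK

theorem stK_iota [DecidableEq ι] (D : Dec N k) (p : ι) (h : SU (k p)) :
    StK D (D.iota p h) (Function.update (fun _ => 1) p h) := ⟨fun q X => by
  by_cases hq : q = p
  · subst hq
    rw [D.iota_conj_embM, Function.update_self]
  · rw [D.iota_conj_embM_ne (Ne.symm hq), Function.update_of_ne hq]
    have h2 : ((1 : SU (k q)) : Matrix (Fin (k q)) (Fin (k q)) ℂ) = 1 := rfl
    rw [h2, star_one, Matrix.one_mul, Matrix.mul_one]⟩

/-- Block diagonal elements. -/
theorem stK_of_stabOf [DecidableEq ι] {e : (Σ p : ι, Fin (k p)) ≃ Fin N} {g : SU N}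
    {h : ∀ p, SU (k p)} (H : StabOf e g h) : StK (Dec.ofEquiv e) g h := ⟨fun p X => by
  rw [embM_ofEquiv, embM_ofEquiv, H.cj]
  congr 1
  funext q
  by_cases hq : q = p
  · subst hq
    rw [Pi.single_eq_same, Pi.single_eq_same]
  · rw [Pi.single_eq_of_ne hq, Pi.single_eq_of_ne hq, Matrix.mul_zero, Matrix.zero_mul]⟩

/-- **Block diagonal elements act on the blocks.** -/
theorem exists_stK_of [DecidableEq ι] (e : (Σ p : ι, Fin (k p)) ≃ Fin N) {g : SU N}
    (hg : ∀ p q (i : Fin (k p)) (j : Fin (k q)), p ≠ q →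
      (g : Matrix (Fin N) (Fin N) ℂ) (e ⟨p, i⟩) (e ⟨q, j⟩) = 0) :
    ∃ h : ∀ p, SU (k p), StK (Dec.ofEquiv e) g h := by
  obtain ⟨h, hh⟩ := exists_stabOf hg
  exact ⟨h, stK_of_stabOf hh⟩

/-! ### 4. Permutations -/

/-- `w` maps the block `p` to the block `σ p`. -/
structure StW (D : Dec N k) (w : SU N) (σ : Equiv.Perm ι) (hσ : ∀ p, k (σ p) = k p) : Prop where
  cj : ∀ p (X : Matrix (Fin (k p)) (Fin (k p)) ℂ),
    (w : Matrix (Fin N) (Fin N) ℂ) * D.embM p X * star (w : Matrix (Fin N) (Fin N) ℂ) =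
      D.embM (σ p) (castM (hσ p).symm X)

/-- **Permutations of equal blocks are implemented by `SU(N)`.** -/
theorem exists_stW [DecidableEq ι] (e : (Σ p : ι, Fin (k p)) ≃ Fin N) {σ : Equiv.Perm ι}
    (hσ : ∀ p, k (σ p) = k p) : ∃ w : SU N, StW (Dec.ofEquiv e) w σ hσ := by
  obtain ⟨w, hw⟩ := exists_perm e hσ
  refine ⟨w, ⟨fun p X => ?_⟩⟩
  rw [embM_ofEquiv, embM_ofEquiv]
  refine hw _ _ fun q => ?_
  by_cases hq : q = p
  · subst hq
    rw [Pi.single_eq_same, Pi.single_eq_same]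
  · rw [Pi.single_eq_of_ne hq, Pi.single_eq_of_ne fun h => hq (σ.injective h)]
    rfl

/-- The chosen element of `SU(N)` which permutes the blocks. -/
def wS [DecidableEq ι] (e : (Σ p : ι, Fin (k p)) ≃ Fin N) {σ : Equiv.Perm ι}
    (hσ : ∀ p, k (σ p) = k p) : SU N := Classical.choose (exists_stW e hσ)

theorem stW_wS [DecidableEq ι] (e : (Σ p : ι, Fin (k p)) ≃ Fin N) {σ : Equiv.Perm ι}
    (hσ : ∀ p, k (σ p) = k p) : StW (Dec.ofEquiv e) (wS e hσ) σ hσ :=
  Classical.choose_spec (exists_stW e hσ)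

/-- Transport of colour vectors along an equality of sizes. -/
def castV {n n' : ℕ} (h : n = n') (u : EuclideanSpace ℝ (Fin (n ^ 2 - 1))) :
    EuclideanSpace ℝ (Fin (n' ^ 2 - 1)) := h ▸ u

/-- Transport of configurations along an equality of sizes. -/
def castY {n n' : ℕ} (h : n = n') (y : Cfg n) : Cfg n' := h ▸ y





theorem castV_add {n n' : ℕ} (h : n = n') (u v : EuclideanSpace ℝ (Fin (n ^ 2 - 1))) :
    castV h (u + v) = castV h u + castV h v := by
  subst h
  rfl


theorem castV_smul {n n' : ℕ} (h : n = n') (t : ℝ) (u : EuclideanSpace ℝ (Fin (n ^ 2 - 1))) :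
    castV h (t • u) = t • castV h u := by
  subst h
  rfl




variable (bb : ∀ n, ColorBasis n)

theorem cm_castV {n n' : ℕ} (h : n = n') (u : EuclideanSpace ℝ (Fin (n ^ 2 - 1))) :
    cm (bb n') (castV h u) = castM h (cm (bb n) u) := by
  subst h
  rfl



theorem castM_one' {n n' : ℕ} (h : n = n') :
    castM h (1 : Matrix (Fin n) (Fin n) ℂ) = 1 := by
  subst h
  rfl

namespace StW

variable {D : Dec N k} {w : SU N} {σ : Equiv.Perm ι} {hσ : ∀ p, k (σ p) = k p}

theorem cj_proj (H : StW D w σ hσ) (p : ι) :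
    (w : Matrix (Fin N) (Fin N) ℂ) * D.proj p * star (w : Matrix (Fin N) (Fin N) ℂ) =
      D.proj (σ p) := by
  rw [← D.embM_one, H.cj, castM_one', D.embM_one]

theorem cj_cenM (H : StW D w σ hσ) (r : ι → ℝ) :
    (w : Matrix (Fin N) (Fin N) ℂ) * D.cenM r * star (w : Matrix (Fin N) (Fin N) ℂ) =
      D.cenM fun p => r (σ.symm p) := by
  unfold Dec.cenM
  rw [Finset.mul_sum, Finset.sum_mul,
    ← Equiv.sum_comp σ fun q => (((fun p => r (σ.symm p)) q : ℝ) : ℂ) • D.proj q]
  refine Finset.sum_congr rfl fun q _ => ?_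
  rw [Matrix.mul_smul, Matrix.smul_mul, H.cj_proj]
  simp only [Equiv.symm_apply_apply]

variable (b : ColorBasis N)

/-- **Colour vectors of the blocks**: `Ad_N(w) eps_p = eps_{σ p}`. -/
theorem adV_emb (H : StW D w σ hσ) (p : ι) (u : EuclideanSpace ℝ (Fin (k p ^ 2 - 1))) :
    adV b w (D.emb b (fun p => bb (k p)) p u) =
      D.emb b (fun p => bb (k p)) (σ p) (castV (hσ p).symm u) := by
  apply (cm_eq_iff b).1
  rw [cm_adV, D.cm_emb, H.cj, D.cm_emb, cm_castV]


theorem sum_perm (σ : Equiv.Perm ι) (hσ : ∀ p, k (σ p) = k p) (r : ι → ℝ) :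
    ∑ p, (k p : ℝ) * r (σ.symm p) = ∑ p, (k p : ℝ) * r p := by
  rw [← Equiv.sum_comp σ]
  refine Finset.sum_congr rfl fun q _ => ?_
  rw [Equiv.symm_apply_apply, hσ]

/-- **The positions are permuted.** -/
theorem act_cenCfg (H : StW D w σ hσ) {R : Fin 9 → ι → ℝ}
    (hR : ∀ i, ∑ p, (k p : ℝ) * R i p = 0) :
    b.act w (D.cenCfg b R) = D.cenCfg b fun i p => R i (σ.symm p) := by
  apply mat_inj b
  intro i
  rw [mat_act, D.mat_cenCfg b hR, H.cj_cenM,
    D.mat_cenCfg b (R := fun i p => R i (σ.symm p)) fun i => by rw [sum_perm σ hσ, hR i]]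


end StW

end dec

/-! ### 5. The channel of 692 -/

section lam

open Crest.Agent.R330.Parts879 Crest.Agent.R330.Geo692

variable {N : ℕ} (P : Lam N)

/-- The block decomposition of the channel. -/
abbrev dec : Dec N P.k := Dec.ofEquiv P.eqv

/-- **The block group of 692.** -/
theorem exists_stK {g : SU N} (hg : g ∈ Kst P) : ∃ h : ∀ p, SU (P.k p), StK (dec P) g h := by
  refine exists_stK_of P.eqv fun p q i j hpq => hg _ _ ?_
  rw [P.cl_eqv, P.cl_eqv]
  exact hpq


/-- 692's block scalar matrices are 317's. -/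
theorem bsc_eq (r : Fin P.m → ℝ) : bsc P r = (dec P).cenM r := by
  have h1 : (dec P).cenM r = ∑ p, (r p : ℂ) • bd P.eqv (Pi.single p 1) := by
    unfold Dec.cenM
    refine Finset.sum_congr rfl fun p _ => ?_
    rw [← (dec P).embM_one, embM_ofEquiv]
  rw [h1]
  refine ext_e P.eqv ?_
  rintro ⟨p, i⟩ ⟨q, j⟩
  rw [Matrix.sum_apply, Finset.sum_eq_single p]
  · by_cases hpq : p = q
    · subst hpq
      rw [Matrix.smul_apply, bd_apply_eq, Pi.single_eq_same, Matrix.one_apply]
      unfold bsc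
      rw [Matrix.diagonal_apply, P.cl_eqv]
      simp only [EmbeddingLike.apply_eq_iff_eq, Sigma.mk.injEq, heq_eq_eq, true_and]
      split_ifs <;> simp
    · rw [Matrix.smul_apply, bd_apply_ne _ _ hpq, smul_zero]
      unfold bsc
      rw [Matrix.diagonal_apply_ne]
      intro h
      exact hpq (congrArg Sigma.fst (P.eqv.injective h))
  · intro r' _ hr
    rw [Matrix.smul_apply]
    by_cases hpq : p = q
    · subst hpq
      rw [bd_apply_eq, Pi.single_eq_of_ne (Ne.symm hr)]
      simp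
    · rw [bd_apply_ne _ _ hpq, smul_zero]
  · intro h
    exact absurd (Finset.mem_univ _) h

variable (b : ColorBasis N)

/-- **692's configurations are 317's.** -/
theorem cfX_eq_cenCfg (X : XS P) :
    cfX b P X = (dec P).cenCfg b fun i p => pos b P X p i := by
  apply mat_inj b
  intro i
  rw [(dec P).mat_cenCfg b (R := fun i p => pos b P X p i) fun i => ?_]
  · rw [← bsc_eq]
    exact hm_cen b P (xrow P X i)
  · have h2 := congrArg (fun v : EuclideanSpace ℝ (Fin 9) => v i) (sum_k_pos b P X)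
    simpa using h2



end lam

end Crest.Agent.R330.Stab2973

end
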