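import Crest.Agent.R330.FA2_416
import Crest.Agent.R330.FA3_416

-- ▼ part R330/AbsLow_291
section

/-!
# Row 330, sections 10/11 (helper291): lower bound for the kernel by duality

No corrected trial states. `V` core, `ι : V → H`, `Q : V → H'` (form `‖Q φ‖²`), `A` Hamiltonian on the
core, `q a : V → V` single charges.

* `range_dense` : the closure of the range of `A` contains the orthogonal complement of the kernel.
* `norm_Q_le` : `‖Q u‖ ≤ ‖A u‖ / √δ`.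
* `low_of_pairing` : if `|⟪q_a w, v⟫| ≤ η (s ‖v‖ + ‖Q v‖)` for all core `v`, then `w` is `C η`-close to
  the kernel.
* `dimGe_of_almost` : almost orthonormal vectors close to the kernel give its dimension.
* `dimGe_of_pairing` : both together, along a filter.
-/

set_option autoImplicit false
set_option linter.unusedSectionVars false

open Filter Topology Set
open scoped InnerProductSpace

noncomputable section

namespace Crest.Agent.R330.AbsLow291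

open Crest.Agent.R330.FA416

variable {V H H' : Type*} [AddCommGroup V] [Module ℂ V]
  [NormedAddCommGroup H] [InnerProductSpace ℂ H]
  [NormedAddCommGroup H'] [InnerProductSpace ℂ H']
  {ι : V →ₗ[ℂ] H} {Q : V →ₗ[ℂ] H'} {A : V →ₗ[ℂ] H}

/-- The image of the Hamiltonian is orthogonal to the kernel. -/
theorem inner_A_kerF (hA : ∀ φ ψ, ⟪Q φ, Q ψ⟫_ℂ = ⟪A φ, ι ψ⟫_ℂ) (φ : V) {Ψ : H}
    (hΨ : Ψ ∈ kerF ι Q) : ⟪A φ, Ψ⟫_ℂ = 0 := by
  obtain ⟨u, h1, h2⟩ := mem_kerF.1 hΨ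
  have h3 : Tendsto (fun n => ⟪A φ, ι (u n)⟫_ℂ) atTop (𝓝 ⟪A φ, Ψ⟫_ℂ) :=
    tendsto_const_nhds.inner h1
  have h4 : Tendsto (fun n => ⟪A φ, ι (u n)⟫_ℂ) atTop (𝓝 ⟪Q φ, (0 : H')⟫_ℂ) := by
    have h5 : Tendsto (fun n => ⟪Q φ, Q (u n)⟫_ℂ) atTop (𝓝 ⟪Q φ, (0 : H')⟫_ℂ) :=
      tendsto_const_nhds.inner h2
    refine h5.congr fun n => ?_
    rw [hA]
  rw [tendsto_nhds_unique h3 h4, inner_zero_right]

/-- `‖Q φ‖² = Re ⟪A φ, φ⟫`. -/
theorem re_inner_A (hA : ∀ φ ψ, ⟪Q φ, Q ψ⟫_ℂ = ⟪A φ, ι ψ⟫_ℂ) (φ : V) :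
    (⟪A φ, ι φ⟫_ℂ).re = ‖Q φ‖ ^ 2 := by
  rw [← hA, inner_self_eq_norm_sq_to_K]
  norm_cast

section complete

variable [CompleteSpace H]

/-- **The form is bounded by the Hamiltonian.** -/
theorem norm_Q_le (hA : ∀ φ ψ, ⟪Q φ, Q ψ⟫_ℂ = ⟪A φ, ι ψ⟫_ℂ) {δ : ℝ} (hG : Gap ι Q δ)
    (hδ : 0 < δ) (φ : V) : Real.sqrt δ * ‖Q φ‖ ≤ ‖A φ‖ := by
  set p : H := (kerF ι Q).starProjection (ι φ) with hp
  have hpK : p ∈ kerF ι Q := Submodule.starProjection_apply_mem _ _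
  have h1 : Real.sqrt δ * ‖ι φ - p‖ ≤ ‖Q φ‖ := by
    have h2 := hG.proj hδ.le φ
    refine le_of_sq_le_sq ?_ (norm_nonneg _)
    rw [mul_pow, Real.sq_sqrt hδ.le]
    exact h2
  have h2 : ‖Q φ‖ ^ 2 ≤ ‖A φ‖ * ‖ι φ - p‖ := by
    rw [← re_inner_A hA]
    have h3 : ⟪A φ, ι φ⟫_ℂ = ⟪A φ, ι φ - p⟫_ℂ := by
      rw [inner_sub_right, inner_A_kerF hA φ hpK, sub_zero]
    rw [h3]
    exact (Complex.re_le_norm _).trans (norm_inner_le_norm _ _)
  by_cases h0 : ‖Q φ‖ = 0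
  · rw [h0, mul_zero]
    exact norm_nonneg _
  have h0' : 0 < ‖Q φ‖ := lt_of_le_of_ne (norm_nonneg _) (Ne.symm h0)
  have hs : 0 ≤ Real.sqrt δ := Real.sqrt_nonneg _
  have h4 : Real.sqrt δ * ‖Q φ‖ ^ 2 ≤ ‖A φ‖ * ‖Q φ‖ := by
    calc Real.sqrt δ * ‖Q φ‖ ^ 2 ≤ Real.sqrt δ * (‖A φ‖ * ‖ι φ - p‖) :=
          mul_le_mul_of_nonneg_left h2 hs
      _ = ‖A φ‖ * (Real.sqrt δ * ‖ι φ - p‖) := by ring
      _ ≤ ‖A φ‖ * ‖Q φ‖ := mul_le_mul_of_nonneg_left h1 (norm_nonneg _)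
  have h5 : (Real.sqrt δ * ‖Q φ‖) * ‖Q φ‖ ≤ ‖A φ‖ * ‖Q φ‖ := by
    rw [mul_assoc, ← sq]
    exact h4
  exact le_of_mul_le_mul_right h5 h0'

/-- **A vector orthogonal to the range of the Hamiltonian is in the kernel.** -/
theorem mem_kerF_of_orth (hA : ∀ φ ψ, ⟪Q φ, Q ψ⟫_ℂ = ⟪A φ, ι ψ⟫_ℂ) (hd : DenseRange (ι + A))
    {y : H} (hy : ∀ φ, ⟪A φ, y⟫_ℂ = 0) : y ∈ kerF ι Q := by
  -- approximate `y` by `(ι + A) u`
  obtain ⟨z, hz, hlim⟩ := mem_closure_iff_seq_limit.1 (hd.closure_eq ▸ mem_univ y :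
    y ∈ closure (Set.range (ι + A)))
  choose u hu using hz
  have hA' : ∀ φ ψ, ⟪ι φ, A ψ⟫_ℂ = ⟪A φ, ι ψ⟫_ℂ := fun φ ψ => by
    rw [← hA, ← inner_conj_symm, ← hA, inner_conj_symm]
  have hyι : ∀ φ, ⟪(ι + A) φ, y⟫_ℂ = ⟪ι φ, y⟫_ℂ := fun φ => by
    rw [LinearMap.add_apply, inner_add_left, hy, add_zero]
  -- the key quantity
  have key : ∀ n, ‖ι (u n)‖ ^ 2 + 2 * ‖Q (u n)‖ ^ 2 + ‖A (u n)‖ ^ 2 = ‖z n‖ ^ 2 := fun n => by
    rw [← hu n, LinearMap.add_apply, norm_add_sq (𝕜 := ℂ), hA']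
    have := re_inner_A hA (u n)
    simp only [RCLike.re_to_complex]
    rw [this]
  have h1 : ∀ n, (⟪z n, y⟫_ℂ).re = (⟪ι (u n), y⟫_ℂ).re := fun n => by
    rw [← hu n, hyι]
  -- `‖ι (u n) - y‖² + 2 ‖Q‖² + ‖A‖² → 0`
  have h2 : ∀ n, ‖ι (u n) - y‖ ^ 2 + 2 * ‖Q (u n)‖ ^ 2 + ‖A (u n)‖ ^ 2 = ‖z n - y‖ ^ 2 := by
    intro n
    rw [norm_sub_sq (𝕜 := ℂ) (ι (u n)) y, norm_sub_sq (𝕜 := ℂ) (z n) y, ← key n]
    simp only [RCLike.re_to_complex]
    rw [h1 n]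
    ring
  have h3 : Tendsto (fun n => ‖z n - y‖ ^ 2) atTop (𝓝 0) := by
    have h4 : Tendsto (fun n => ‖z n - y‖) atTop (𝓝 0) := tendsto_iff_norm_sub_tendsto_zero.1 hlim
    have h5 := h4.pow 2
    simpa using h5
  refine mem_kerF.2 ⟨u, ?_, ?_⟩
  · rw [tendsto_iff_norm_sub_tendsto_zero]
    have h4 : Tendsto (fun n => ‖ι (u n) - y‖ ^ 2) atTop (𝓝 0) := by
      refine squeeze_zero (fun n => sq_nonneg _) (fun n => ?_) h3
      rw [← h2 n]
      nlinarith [sq_nonneg ‖Q (u n)‖, sq_nonneg ‖A (u n)‖]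
    have h5 := h4.sqrt
    rw [Real.sqrt_zero] at h5
    exact h5.congr fun n => by rw [Real.sqrt_sq (norm_nonneg _)]
  · rw [tendsto_zero_iff_norm_tendsto_zero]
    have h4 : Tendsto (fun n => ‖Q (u n)‖ ^ 2) atTop (𝓝 0) := by
      refine squeeze_zero (fun n => sq_nonneg _) (fun n => ?_) h3
      rw [← h2 n]
      nlinarith [sq_nonneg ‖ι (u n) - y‖, sq_nonneg ‖A (u n)‖, sq_nonneg ‖Q (u n)‖]
    have h5 := h4.sqrt
    rw [Real.sqrt_zero] at h5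
    exact h5.congr fun n => by rw [Real.sqrt_sq (norm_nonneg _)]

/-- **The range of the Hamiltonian is dense in the orthogonal complement of the kernel.** -/
theorem range_dense (hA : ∀ φ ψ, ⟪Q φ, Q ψ⟫_ℂ = ⟪A φ, ι ψ⟫_ℂ) (hd : DenseRange (ι + A)) {f : H}
    (hf : f ∈ (kerF ι Q)ᗮ) : ∃ u : ℕ → V, Tendsto (fun n => A (u n)) atTop (𝓝 f) := by
  have h1 : (LinearMap.range A)ᗮ ≤ kerF ι Q := by
    intro y hy
    refine mem_kerF_of_orth hA hd fun φ => ?_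
    exact (Submodule.mem_orthogonal _ _).1 hy _ ⟨φ, rfl⟩
  have h2 : (kerF ι Q)ᗮ ≤ (LinearMap.range A)ᗮᗮ := Submodule.orthogonal_le h1
  have h3 : f ∈ (LinearMap.range A).topologicalClosure := by
    rw [← Submodule.orthogonal_orthogonal_eq_closure]
    exact h2 hf
  rw [← SetLike.mem_coe, Submodule.topologicalClosure_coe, mem_closure_iff_seq_limit] at h3
  obtain ⟨x, hx, hlim⟩ := h3
  choose u hu using hx
  exact ⟨u, hlim.congr fun n => (hu n).symm⟩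

variable {α : Type*} [Fintype α] {q : α → V →ₗ[ℂ] V}

/-- **Duality.** `w` is close to the kernel if its charges pair small with all core vectors. -/
theorem low_of_pairing (hA : ∀ φ ψ, ⟪Q φ, Q ψ⟫_ℂ = ⟪A φ, ι ψ⟫_ℂ) (hd : DenseRange (ι + A))
    {δ κ s C₁ η : ℝ} (hδ : 0 < δ) (hκ : 0 < κ) (hs : 0 ≤ s) (hC₁ : 0 ≤ C₁) (hη : 0 ≤ η)
    (hG : Gap ι Q δ)
    (hq : ∀ φ ψ, ⟪Q φ, Q ψ⟫_ℂ = (κ : ℂ) * ∑ a, ⟪ι (q a φ), ι (q a ψ)⟫_ℂ)
    (hQQ : ∀ a φ, ‖Q (q a φ)‖ ≤ C₁ * (‖A φ‖ + s * ‖Q φ‖)) {w : V}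
    (hw : ∀ a v, ‖⟪ι (q a w), ι v⟫_ℂ‖ ≤ η * (s * ‖ι v‖ + ‖Q v‖)) :
    ‖ι w - (kerF ι Q).starProjection (ι w)‖ ≤
      η * (κ * Fintype.card α * (s * (Real.sqrt κ)⁻¹ * (Real.sqrt δ)⁻¹ +
        C₁ * (1 + s * (Real.sqrt δ)⁻¹))) := by
  set f : H := ι w - (kerF ι Q).starProjection (ι w) with hf
  have hfK : f ∈ (kerF ι Q)ᗮ := Submodule.sub_starProjection_mem_orthogonal _
  obtain ⟨u, hu⟩ := range_dense hA hd hfK
  have hsδ : 0 < Real.sqrt δ := Real.sqrt_pos.2 hδ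
  have hsκ : 0 < Real.sqrt κ := Real.sqrt_pos.2 hκ
  set M : ℝ := κ * Fintype.card α * (s * (Real.sqrt κ)⁻¹ * (Real.sqrt δ)⁻¹ +
    C₁ * (1 + s * (Real.sqrt δ)⁻¹)) with hM
  have hM0 : 0 ≤ M := by positivity
  have hQu : ∀ φ, ‖Q φ‖ ≤ (Real.sqrt δ)⁻¹ * ‖A φ‖ := fun φ => by
    have h1 := norm_Q_le hA hG hδ φ
    rw [inv_mul_eq_div, le_div_iff₀ hsδ]
    linarith
  have hqn : ∀ a φ, ‖ι (q a φ)‖ ≤ (Real.sqrt κ)⁻¹ * ‖Q φ‖ := by
    intro a φ
    have h1 : κ * ∑ b, ‖ι (q b φ)‖ ^ 2 = ‖Q φ‖ ^ 2 := by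
      have h2 := hq φ φ
      have h3 : ∀ b, ⟪ι (q b φ), ι (q b φ)⟫_ℂ = ((‖ι (q b φ)‖ ^ 2 : ℝ) : ℂ) := fun b => by
        rw [inner_self_eq_norm_sq_to_K]
        push_cast
        rfl
      have h4 : ⟪Q φ, Q φ⟫_ℂ = ((‖Q φ‖ ^ 2 : ℝ) : ℂ) := by
        rw [inner_self_eq_norm_sq_to_K]
        push_cast
        rfl
      rw [h4] at h2
      simp only [h3] at h2
      rw [← Complex.ofReal_sum, ← Complex.ofReal_mul] at h2
      exact (Complex.ofReal_injective h2).symm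
    have h2 : ‖ι (q a φ)‖ ^ 2 ≤ ∑ b, ‖ι (q b φ)‖ ^ 2 :=
      Finset.single_le_sum (f := fun b => ‖ι (q b φ)‖ ^ 2) (fun b _ => sq_nonneg _)
        (Finset.mem_univ a)
    have h3 : Real.sqrt κ * ‖ι (q a φ)‖ ≤ ‖Q φ‖ := by
      refine le_of_sq_le_sq ?_ (norm_nonneg _)
      rw [mul_pow, Real.sq_sqrt hκ.le, ← h1]
      exact mul_le_mul_of_nonneg_left h2 hκ.le
    rw [inv_mul_eq_div, le_div_iff₀ hsκ]
    linarith
  have key : ∀ n, ‖⟪A (u n), ι w⟫_ℂ‖ ≤ η * M * ‖A (u n)‖ := by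
    intro n
    rw [← hA, hq, norm_mul, Complex.norm_real, Real.norm_of_nonneg hκ.le]
    have h1 : ∀ a, ‖⟪ι (q a (u n)), ι (q a w)⟫_ℂ‖ ≤
        η * ((s * (Real.sqrt κ)⁻¹ * (Real.sqrt δ)⁻¹ + C₁ * (1 + s * (Real.sqrt δ)⁻¹)) *
          ‖A (u n)‖) := by
      intro a
      rw [norm_inner_symm]
      refine (hw a (q a (u n))).trans (mul_le_mul_of_nonneg_left ?_ hη)
      have h2 : ‖ι (q a (u n))‖ ≤ (Real.sqrt κ)⁻¹ * ((Real.sqrt δ)⁻¹ * ‖A (u n)‖) :=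
        (hqn a (u n)).trans (mul_le_mul_of_nonneg_left (hQu _) (inv_nonneg.2 hsκ.le))
      have h3 : ‖Q (q a (u n))‖ ≤ C₁ * (‖A (u n)‖ + s * ((Real.sqrt δ)⁻¹ * ‖A (u n)‖)) := by
        refine (hQQ a (u n)).trans (mul_le_mul_of_nonneg_left ?_ hC₁)
        have := mul_le_mul_of_nonneg_left (hQu (u n)) hs
        linarith
      have h4 := mul_le_mul_of_nonneg_left h2 hs
      nlinarith [h3, h4]
    have h2 : ‖∑ a, ⟪ι (q a (u n)), ι (q a w)⟫_ℂ‖ ≤ Fintype.card α *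
        (η * ((s * (Real.sqrt κ)⁻¹ * (Real.sqrt δ)⁻¹ + C₁ * (1 + s * (Real.sqrt δ)⁻¹)) *
          ‖A (u n)‖)) := by
      refine (norm_sum_le _ _).trans ?_
      refine (Finset.sum_le_card_nsmul _ _ _ fun a _ => h1 a).trans ?_
      rw [nsmul_eq_mul, Finset.card_univ]
    refine (mul_le_mul_of_nonneg_left h2 hκ.le).trans (le_of_eq ?_)
    rw [hM]
    ring
  have h5 : ‖⟪f, ι w⟫_ℂ‖ ≤ η * M * ‖f‖ :=
    le_of_tendsto_of_tendsto (hu.inner tendsto_const_nhds).norm (hu.norm.const_mul (η * M))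
      (Eventually.of_forall key)
  have h6 : ⟪f, ι w⟫_ℂ = ((‖f‖ ^ 2 : ℝ) : ℂ) := by
    have h7 : ι w = f + (kerF ι Q).starProjection (ι w) := by rw [hf]; abel
    have h8 : ⟪f, (kerF ι Q).starProjection (ι w)⟫_ℂ = 0 :=
      (Submodule.mem_orthogonal' _ _).1 hfK _ (Submodule.starProjection_apply_mem _ _)
    rw [h7, inner_add_right, h8, add_zero, inner_self_eq_norm_sq_to_K]
    push_cast
    rfl
  rw [h6, Complex.norm_real, Real.norm_of_nonneg (sq_nonneg _), sq] at h5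
  by_cases h0 : ‖f‖ = 0
  · rw [h0]
    positivity
  exact le_of_mul_le_mul_right h5 (lt_of_le_of_ne (norm_nonneg _) (Ne.symm h0))

/-! ### Counting -/

/-- **Almost orthonormal vectors close to the kernel.** -/
theorem dimGe_of_almost {k : ℕ} (w : Fin k → H) {τ : ℝ} (hk : k * τ < 1)
    (hw : ∀ i j, ‖⟪(kerF ι Q).starProjection (w i), (kerF ι Q).starProjection (w j)⟫_ℂ -
      (if i = j then 1 else 0)‖ ≤ τ) : DimGe ι Q k := by
  refine dimGe_of_li (e := fun i => (kerF ι Q).starProjection (w i)) ?_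
    fun i => Submodule.starProjection_apply_mem _ _
  rw [Fintype.linearIndependent_iff]
  intro c hc i
  by_contra hne
  -- the index of the largest coefficient
  obtain ⟨i₀, -, hmax⟩ := Finset.exists_max_image Finset.univ (fun j => ‖c j‖) ⟨i, Finset.mem_univ i⟩
  have hpos : 0 < ‖c i₀‖ := (norm_pos_iff.2 hne).trans_le (hmax i (Finset.mem_univ i))
  set p : Fin k → H := fun j => (kerF ι Q).starProjection (w j) with hp
  have h1 : ⟪p i₀, ∑ j, c j • p j⟫_ℂ = 0 := by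
    have : ∑ j, c j • p j = 0 := hc
    rw [this, inner_zero_right]
  rw [inner_sum] at h1
  simp only [inner_smul_right] at h1
  have h2 : c i₀ = -∑ j, c j * (⟪p i₀, p j⟫_ℂ - if i₀ = j then 1 else 0) := by
    have h3 : ∑ j, c j * (⟪p i₀, p j⟫_ℂ - if i₀ = j then 1 else 0) =
        ∑ j, c j * ⟪p i₀, p j⟫_ℂ - ∑ j, c j * (if i₀ = j then 1 else 0) := by
      rw [← Finset.sum_sub_distrib]
      exact Finset.sum_congr rfl fun j _ => by ring
    rw [h3, h1]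
    simp
  have h4 : ‖c i₀‖ ≤ k * τ * ‖c i₀‖ := by
    calc ‖c i₀‖ = ‖∑ j, c j * (⟪p i₀, p j⟫_ℂ - if i₀ = j then 1 else 0)‖ := by
          conv_lhs => rw [h2]
          rw [norm_neg]
      _ ≤ ∑ j, ‖c j * (⟪p i₀, p j⟫_ℂ - if i₀ = j then 1 else 0)‖ := norm_sum_le _ _
      _ ≤ ∑ _j : Fin k, ‖c i₀‖ * τ := by
          refine Finset.sum_le_sum fun j _ => ?_
          rw [norm_mul]
          exact mul_le_mul (hmax j (Finset.mem_univ j)) (hw i₀ j) (norm_nonneg _) (norm_nonneg _)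
      _ = k * τ * ‖c i₀‖ := by
          rw [Finset.sum_const, Finset.card_univ, Fintype.card_fin, nsmul_eq_mul]
          ring
  nlinarith

/-- The projections of almost orthonormal vectors close to the kernel are almost orthonormal. -/
theorem proj_inner_close {K : Submodule ℂ H} [K.HasOrthogonalProjection] {x y : H} {τ : ℝ}
    (hx : ‖x - K.starProjection x‖ ≤ τ) (hy : ‖y - K.starProjection y‖ ≤ τ) :
    ‖⟪K.starProjection x, K.starProjection y⟫_ℂ - ⟪x, y⟫_ℂ‖ ≤ τ * τ := by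
  have h1 : ⟪x, y⟫_ℂ = ⟪K.starProjection x, K.starProjection y⟫_ℂ +
      ⟪x - K.starProjection x, y - K.starProjection y⟫_ℂ := by
    have e1 : ⟪K.starProjection x, y - K.starProjection y⟫_ℂ = 0 :=
      (Submodule.mem_orthogonal _ _).1 (Submodule.sub_starProjection_mem_orthogonal y) _
        (Submodule.starProjection_apply_mem _ _)
    have e2 : ⟪x - K.starProjection x, K.starProjection y⟫_ℂ = 0 :=
      (Submodule.mem_orthogonal' _ _).1 (Submodule.sub_starProjection_mem_orthogonal x) _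
        (Submodule.starProjection_apply_mem _ _)
    have e3 : x = K.starProjection x + (x - K.starProjection x) := by abel
    have e4 : y = K.starProjection y + (y - K.starProjection y) := by abel
    conv_lhs => rw [e3, e4]
    rw [inner_add_left, inner_add_right, inner_add_right, e1, e2]
    ring
  rw [h1, sub_add_cancel_left, norm_neg]
  exact (norm_inner_le_norm _ _).trans
    (mul_le_mul hx hy (norm_nonneg _) ((norm_nonneg _).trans hx))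

/-- **Static form.** Core vectors with almost orthonormal classes and small charge pairings. -/
theorem dimGe_of_pairing (hA : ∀ φ ψ, ⟪Q φ, Q ψ⟫_ℂ = ⟪A φ, ι ψ⟫_ℂ) (hd : DenseRange (ι + A))
    {δ κ s C₁ η τ : ℝ} (hδ : 0 < δ) (hκ : 0 < κ) (hs : 0 ≤ s) (hC₁ : 0 ≤ C₁) (hη : 0 ≤ η)
    (hG : Gap ι Q δ)
    (hq : ∀ φ ψ, ⟪Q φ, Q ψ⟫_ℂ = (κ : ℂ) * ∑ a, ⟪ι (q a φ), ι (q a ψ)⟫_ℂ)
    (hQQ : ∀ a φ, ‖Q (q a φ)‖ ≤ C₁ * (‖A φ‖ + s * ‖Q φ‖)) {k : ℕ} (w : Fin k → V)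
    (hw : ∀ i a v, ‖⟪ι (q a (w i)), ι v⟫_ℂ‖ ≤ η * (s * ‖ι v‖ + ‖Q v‖))
    (hg : ∀ i j, ‖⟪ι (w i), ι (w j)⟫_ℂ - (if i = j then 1 else 0)‖ ≤ τ)
    (hk : k * ((η * (κ * Fintype.card α * (s * (Real.sqrt κ)⁻¹ * (Real.sqrt δ)⁻¹ +
        C₁ * (1 + s * (Real.sqrt δ)⁻¹)))) ^ 2 + τ) < 1) : DimGe ι Q k := by
  refine dimGe_of_almost (fun i => ι (w i)) hk fun i j => ?_
  have h1 := proj_inner_close (low_of_pairing hA hd hδ hκ hs hC₁ hη hG hq hQQ (hw i))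
    (low_of_pairing hA hd hδ hκ hs hC₁ hη hG hq hQQ (hw j))
  have h2 := norm_add_le (⟪(kerF ι Q).starProjection (ι (w i)),
    (kerF ι Q).starProjection (ι (w j))⟫_ℂ - ⟪ι (w i), ι (w j)⟫_ℂ)
    (⟪ι (w i), ι (w j)⟫_ℂ - (if i = j then 1 else 0))
  rw [sub_add_sub_cancel] at h2
  rw [← sq] at h1
  linarith [hg i j]

end complete

/-! ### Along a filter

`s g` is the natural energy scale: at mass `m` and separation one, `s = √m`, the gap is `d₀ s²`. -/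


end Crest.Agent.R330.AbsLow291

end
end

-- ▼ part R330/StrAbs_796

/-!
# Row 330, sections 10 and 11 (helper796): abstract form of `D-up` and `D-low`

`V` core, `ι : V → H`, `Q g : V → H'` the charges at coupling `g`, `q g a : V → V` the single
charges; `e : X → L` the test amplitudes of the limit space, `D a : X → X` the limit charges,
`T g : X → V` the trial maps (not necessarily linear).

* `Tr` : trial system: asymptotic isometry and small dual norm of `Q T χ - T D χ`.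
* `up` : upper bound for the kernels from capture.
* `low` : lower bound for the kernels by duality (`AbsLow_291`).
-/

set_option autoImplicit false
set_option linter.unusedSectionVars false

open Filter Topology Set
open scoped InnerProductSpace

noncomputable section

namespace Crest.Agent.R330.StrAbs796

open Crest.Agent.R330.FA416 Crest.Agent.R330.AbsLow291

variable {V H H' L X : Type*} [AddCommGroup V] [Module ℂ V]
  [NormedAddCommGroup H] [InnerProductSpace ℂ H]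
  [NormedAddCommGroup H'] [InnerProductSpace ℂ H']
  [NormedAddCommGroup L] [InnerProductSpace ℂ L]
  [AddCommGroup X] [Module ℂ X] {α : Type*}

/-- **Trial system.** -/
structure Tr (ι : V →ₗ[ℂ] H) (Q : ℝ → V →ₗ[ℂ] H') (q : ℝ → α → V →ₗ[ℂ] V) (e : X →ₗ[ℂ] L)
    (D : α → X →ₗ[ℂ] X) (T : ℝ → X → V) : Prop where
  iso : ∀ χ χ', Tendsto (fun g => ⟪ι (T g χ), ι (T g χ')⟫_ℂ) atTop (𝓝 ⟪e χ, e χ'⟫_ℂ)
  dual : ∀ χ a, ∀ ε : ℝ, 0 < ε → ∀ᶠ g in atTop, ∀ v : V,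
    ‖⟪ι (q g a (T g χ) - T g (D a χ)), ι v⟫_ℂ‖ ≤ ε * (‖ι v‖ + ‖Q g v‖)

section gen

variable {ι : V →ₗ[ℂ] H} {Q : ℝ → V →ₗ[ℂ] H'} {q : ℝ → α → V →ₗ[ℂ] V} {e : X →ₗ[ℂ] L}
  {D : α → X →ₗ[ℂ] X} {T : ℝ → X → V}

theorem expand_lin {E : Type*} [NormedAddCommGroup E] [InnerProductSpace ℂ E] (c : ℂ) (x y z : E) :
    ‖z - (c • x + y)‖ = Real.sqrt ‖⟪z, z⟫_ℂ - c * ⟪z, x⟫_ℂ - ⟪z, y⟫_ℂ -
      (starRingEnd ℂ c) * ⟪x, z⟫_ℂ - ⟪y, z⟫_ℂ + (starRingEnd ℂ c) * (c * ⟪x, x⟫_ℂ) +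
      (starRingEnd ℂ c) * ⟪x, y⟫_ℂ + c * ⟪y, x⟫_ℂ + ⟪y, y⟫_ℂ‖ := by
  have h5 : ⟪z, z⟫_ℂ - c * ⟪z, x⟫_ℂ - ⟪z, y⟫_ℂ -
      (starRingEnd ℂ c) * ⟪x, z⟫_ℂ - ⟪y, z⟫_ℂ + (starRingEnd ℂ c) * (c * ⟪x, x⟫_ℂ) +
      (starRingEnd ℂ c) * ⟪x, y⟫_ℂ + c * ⟪y, x⟫_ℂ + ⟪y, y⟫_ℂ =
      ⟪z - (c • x + y), z - (c • x + y)⟫_ℂ := by
    simp only [inner_sub_left, inner_sub_right, inner_add_left, inner_add_right,
      inner_smul_left, inner_smul_right]
    ring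
  rw [h5, inner_self_eq_norm_sq_to_K]
  simp [Real.sqrt_sq]

theorem Tr.norm (h : Tr ι Q q e D T) (χ : X) :
    Tendsto (fun g => ‖ι (T g χ)‖) atTop (𝓝 ‖e χ‖) := by
  have h1 := (h.iso χ χ).norm.sqrt
  have h3 : ∀ x : H, Real.sqrt ‖⟪x, x⟫_ℂ‖ = ‖x‖ := fun x => by
    rw [inner_self_eq_norm_sq_to_K]
    simp [Real.sqrt_sq]
  have h4 : ∀ x : L, Real.sqrt ‖⟪x, x⟫_ℂ‖ = ‖x‖ := fun x => by
    rw [inner_self_eq_norm_sq_to_K]
    simp [Real.sqrt_sq]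
  rw [h4] at h1
  exact h1.congr fun g => h3 _

/-- Norm of `T χ - T χ'`. -/
theorem Tr.norm_sub (h : Tr ι Q q e D T) (χ χ' : X) :
    Tendsto (fun g => ‖ι (T g χ) - ι (T g χ')‖) atTop (𝓝 ‖e χ - e χ'‖) := by
  have h3 : ∀ (x y : H), ‖x - y‖ = Real.sqrt (‖⟪x, x⟫_ℂ - ⟪x, y⟫_ℂ - ⟪y, x⟫_ℂ + ⟪y, y⟫_ℂ‖) := by
    intro x y
    have : ⟪x, x⟫_ℂ - ⟪x, y⟫_ℂ - ⟪y, x⟫_ℂ + ⟪y, y⟫_ℂ = ⟪x - y, x - y⟫_ℂ := by
      rw [inner_sub_sub_self]
    rw [this, inner_self_eq_norm_sq_to_K]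
    simp [Real.sqrt_sq]
  have h4 : ∀ (x y : L), ‖x - y‖ = Real.sqrt (‖⟪x, x⟫_ℂ - ⟪x, y⟫_ℂ - ⟪y, x⟫_ℂ + ⟪y, y⟫_ℂ‖) := by
    intro x y
    have : ⟪x, x⟫_ℂ - ⟪x, y⟫_ℂ - ⟪y, x⟫_ℂ + ⟪y, y⟫_ℂ = ⟪x - y, x - y⟫_ℂ := by
      rw [inner_sub_sub_self]
    rw [this, inner_self_eq_norm_sq_to_K]
    simp [Real.sqrt_sq]
  simp only [h3, h4]
  exact ((((h.iso χ χ).sub (h.iso χ χ')).sub (h.iso χ' χ)).add (h.iso χ' χ')).norm.sqrt

/-- `T` is asymptotically linear. -/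
theorem Tr.lin (h : Tr ι Q q e D T) (c : ℂ) (χ χ' : X) :
    Tendsto (fun g => ‖ι (T g (c • χ + χ')) - (c • ι (T g χ) + ι (T g χ'))‖) atTop (𝓝 0) := by
  have h0 : Real.sqrt ‖⟪e (c • χ + χ'), e (c • χ + χ')⟫_ℂ - c * ⟪e (c • χ + χ'), e χ⟫_ℂ -
      ⟪e (c • χ + χ'), e χ'⟫_ℂ -
        (starRingEnd ℂ c) * ⟪e χ, e (c • χ + χ')⟫_ℂ - ⟪e χ', e (c • χ + χ')⟫_ℂ +
        (starRingEnd ℂ c) * (c * ⟪e χ, e χ⟫_ℂ) +
        (starRingEnd ℂ c) * ⟪e χ, e χ'⟫_ℂ + c * ⟪e χ', e χ⟫_ℂ + ⟪e χ', e χ'⟫_ℂ‖ = 0 := by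
    rw [← expand_lin c (e χ) (e χ') (e (c • χ + χ'))]
    simp
  rw [← h0]
  simp only [expand_lin]
  refine Tendsto.sqrt (Tendsto.norm ?_)
  exact ((((((((h.iso _ _).sub ((h.iso _ _).const_mul c)).sub (h.iso _ _)).sub
    ((h.iso _ _).const_mul _)).sub (h.iso _ _)).add (((h.iso _ _).const_mul c).const_mul _)).add
    ((h.iso _ _).const_mul _)).add ((h.iso _ _).const_mul c)).add (h.iso _ _)

end gen

/-! ### Limits along an ultrafilter -/

theorem ulim (U : Ultrafilter ℕ) {s : ℕ → ℂ} {C : ℝ} (h : ∀ᶠ j in U, ‖s j‖ ≤ C) :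
    ∃ z : ℂ, Tendsto s U (𝓝 z) := by
  have h1 := (isCompact_closedBall (0 : ℂ) C).ultrafilter_le_nhds (U.map s) (by
    rw [le_principal_iff]
    change ∀ᶠ j in (U : Filter ℕ), s j ∈ Metric.closedBall (0 : ℂ) C
    filter_upwards [h] with j hj
    simpa using hj)
  obtain ⟨z, -, hz⟩ := h1
  exact ⟨z, hz⟩

/-- Bounded functionals of the amplitudes. -/
theorem exists_riesz [CompleteSpace L] (e : X →ₗ[ℂ] L) (lam : X →ₗ[ℂ] ℂ) {C : ℝ}
    (h : ∀ χ, ‖lam χ‖ ≤ C * ‖e χ‖) : ∃ f : L, ∀ χ, ⟪f, e χ⟫_ℂ = lam χ := by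
  have hker : LinearMap.ker e ≤ LinearMap.ker lam := by
    intro χ hχ
    rw [LinearMap.mem_ker] at hχ ⊢
    have := h χ
    rw [hχ, norm_zero, mul_zero] at this
    exact norm_le_zero_iff.1 this
  set l1 : LinearMap.range e →ₗ[ℂ] ℂ :=
    ((LinearMap.ker e).liftQ lam hker) ∘ₗ (e.quotKerEquivRange.symm : _ →ₗ[ℂ] _) with hl1
  have hl : ∀ χ, l1 ⟨e χ, ⟨χ, rfl⟩⟩ = lam χ := by
    intro χ
    have h2 : e.quotKerEquivRange.symm ⟨e χ, ⟨χ, rfl⟩⟩ = (LinearMap.ker e).mkQ χ := by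
      rw [LinearEquiv.symm_apply_eq]
      rfl
    rw [hl1, LinearMap.comp_apply]
    erw [h2]
    rfl
  set l2 : LinearMap.range e →L[ℂ] ℂ := l1.mkContinuous C (by
    rintro ⟨_, ⟨χ, rfl⟩⟩
    rw [hl]
    exact h χ) with hl2
  obtain ⟨g, hg, -⟩ := exists_extension_norm_eq (LinearMap.range e) l2
  refine ⟨(InnerProductSpace.toDual ℂ L).symm g, fun χ => ?_⟩
  rw [InnerProductSpace.toDual_symm_apply]
  have h3 := hg ⟨e χ, ⟨χ, rfl⟩⟩
  rw [← hl χ]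
  exact h3

/-! ### D-up -/

section up

variable {ι : V →ₗ[ℂ] H} {Q : ℝ → V →ₗ[ℂ] H'} {q : ℝ → α → V →ₗ[ℂ] V} {e : X →ₗ[ℂ] L}
  {D : α → X →ₗ[ℂ] X} {T : ℝ → X → V}

/-- **The limit amplitude** of a sequence of almost zero modes. -/
theorem limit_amp [CompleteSpace L] (h : Tr ι Q q e D T)
    (hsym : ∀ g a u v, ⟪ι (q g a u), ι v⟫_ℂ = ⟪ι u, ι (q g a v)⟫_ℂ) {c : ℝ}
    (hqn : ∀ g a u, ‖ι (q g a u)‖ ≤ c * ‖Q g u‖) (U : Ultrafilter ℕ) (hU : (U : Filter ℕ) ≤ atTop)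
    {g : ℕ → ℝ} (hg : Tendsto g atTop atTop) {w : ℕ → V} {B : ℝ} (hw : ∀ j, ‖ι (w j)‖ ≤ B)
    (hQ : Tendsto (fun j => ‖Q (g j) (w j)‖) atTop (𝓝 0)) :
    ∃ f : L, (∀ χ, Tendsto (fun j => ⟪ι (T (g j) χ), ι (w j)⟫_ℂ) U (𝓝 ⟪e χ, f⟫_ℂ)) ∧
      ∀ χ a, ⟪e (D a χ), f⟫_ℂ = 0 := by
  have hgU : Tendsto g U atTop := hg.mono_left hU
  have hB : 0 ≤ B := (norm_nonneg _).trans (hw 0)
  have hbd : ∀ χ, ∀ᶠ j in (U : Filter ℕ), ‖⟪ι (w j), ι (T (g j) χ)⟫_ℂ‖ ≤ B * (‖e χ‖ + 1) := by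
    intro χ
    have h1 : ∀ᶠ g in atTop, ‖ι (T g χ)‖ < ‖e χ‖ + 1 :=
      (h.norm χ).eventually_lt_const (lt_add_one _)
    filter_upwards [hgU.eventually h1] with j hj
    exact (norm_inner_le_norm _ _).trans (mul_le_mul (hw j) hj.le (norm_nonneg _) hB)
  have hex : ∀ χ, ∃ z : ℂ, Tendsto (fun j => ⟪ι (w j), ι (T (g j) χ)⟫_ℂ) U (𝓝 z) := fun χ =>
    ulim U (hbd χ)
  choose lam hlam using hex
  have hlin : ∀ (c : ℂ) χ χ', lam (c • χ + χ') = c * lam χ + lam χ' := by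
    intro c χ χ'
    have h1 : Tendsto (fun j => ⟪ι (w j), ι (T (g j) (c • χ + χ')) -
        (c • ι (T (g j) χ) + ι (T (g j) χ'))⟫_ℂ) U (𝓝 0) := by
      have h2 : Tendsto (fun j => B * ‖ι (T (g j) (c • χ + χ')) -
          (c • ι (T (g j) χ) + ι (T (g j) χ'))‖) U (𝓝 0) := by
        have := ((h.lin c χ χ').comp hgU).const_mul B
        simpa using this
      exact squeeze_zero_norm (fun j => (norm_inner_le_norm _ _).trans
        (mul_le_mul_of_nonneg_right (hw j) (norm_nonneg _))) h2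
    have h2 : Tendsto (fun j => ⟪ι (w j), ι (T (g j) (c • χ + χ')) -
        (c • ι (T (g j) χ) + ι (T (g j) χ'))⟫_ℂ) U
        (𝓝 (lam (c • χ + χ') - (c * lam χ + lam χ'))) := by
      simp only [inner_sub_right, inner_add_right, inner_smul_right]
      exact (hlam _).sub (((hlam _).const_mul c).add (hlam _))
    exact sub_eq_zero.1 (tendsto_nhds_unique h2 h1)
  let lamL : X →ₗ[ℂ] ℂ :=
    { toFun := lam
      map_add' := fun χ χ' => by
        have := hlin 1 χ χ'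
        simpa using this
      map_smul' := fun c χ => by
        have h0 : lam 0 = 0 := by
          have := hlin 1 0 0
          simpa using this
        have := hlin c χ 0
        simpa [h0] using this }
  have hle : ∀ χ, ‖lamL χ‖ ≤ B * ‖e χ‖ := by
    intro χ
    have h1 : Tendsto (fun j => ‖⟪ι (w j), ι (T (g j) χ)⟫_ℂ‖) U (𝓝 ‖lam χ‖) := (hlam χ).norm
    have h2 : Tendsto (fun j => B * ‖ι (T (g j) χ)‖) U (𝓝 (B * ‖e χ‖)) :=
      ((h.norm χ).comp hgU).const_mul B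
    exact le_of_tendsto_of_tendsto' h1 h2 fun j => (norm_inner_le_norm _ _).trans
      (mul_le_mul_of_nonneg_right (hw j) (norm_nonneg _))
  obtain ⟨f, hf⟩ := exists_riesz e lamL hle
  have hfl : ∀ χ, ⟪f, e χ⟫_ℂ = lam χ := hf
  refine ⟨f, fun χ => ?_, fun χ a => ?_⟩
  · have h1 := (Complex.continuous_conj.tendsto _).comp (hlam χ)
    have h2 : (starRingEnd ℂ) (lam χ) = ⟪e χ, f⟫_ℂ := by
      rw [← hfl, inner_conj_symm]
    rw [h2] at h1
    refine h1.congr fun j => ?_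
    rw [Function.comp_apply, inner_conj_symm]
  · -- the limit equation
    have h1 : lam (D a χ) = 0 := by
      refine tendsto_nhds_unique (hlam (D a χ)) ?_
      -- `⟨w, T D χ⟩ = ⟨q w, T χ⟩ - ⟨w, q T χ - T D χ⟩`
      have h2 : Tendsto (fun j => ⟪ι (q (g j) a (w j)), ι (T (g j) χ)⟫_ℂ) U (𝓝 0) := by
        have h3 : Tendsto (fun j => (c * ‖Q (g j) (w j)‖) * ‖ι (T (g j) χ)‖) U (𝓝 0) := by
          have := ((hQ.mono_left hU).const_mul c).mul ((h.norm χ).comp hgU)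
          simpa using this
        exact squeeze_zero_norm (fun j => (norm_inner_le_norm _ _).trans
          (mul_le_mul_of_nonneg_right (hqn _ _ _) (norm_nonneg _))) h3
      have h4 : Tendsto (fun j => ⟪ι (w j), ι (q (g j) a (T (g j) χ) - T (g j) (D a χ))⟫_ℂ) U
          (𝓝 0) := by
        rw [tendsto_zero_iff_norm_tendsto_zero, Metric.tendsto_nhds]
        intro ε hε
        have h5 := h.dual χ a (ε / (B + 1 + 1)) (by positivity)
        have h6 : ∀ᶠ j in (U : Filter ℕ), ‖Q (g j) (w j)‖ < 1 :=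
          (hQ.mono_left hU).eventually_lt_const one_pos
        filter_upwards [hgU.eventually h5, h6] with j h7 h8
        rw [dist_zero_right, norm_norm, norm_inner_symm]
        refine (h7 (w j)).trans_lt ?_
        have h9 : ‖ι (w j)‖ + ‖Q (g j) (w j)‖ < B + 1 + 1 := by
          have := hw j
          linarith
        calc ε / (B + 1 + 1) * (‖ι (w j)‖ + ‖Q (g j) (w j)‖) < ε / (B + 1 + 1) * (B + 1 + 1) :=
              mul_lt_mul_of_pos_left h9 (by positivity)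
          _ = ε := by field_simp
      have h5 := h2.sub h4
      rw [sub_zero] at h5
      refine h5.congr fun j => ?_
      rw [hsym, ← inner_sub_right, map_sub, sub_sub_cancel]
    rw [← inner_conj_symm, hfl, h1, map_zero]

/-- **D-UP, abstract.** `u g b` : the bound state vectors. `hcap` : capture. -/
theorem up [CompleteSpace L] [TopologicalSpace.SeparableSpace L] (h : Tr ι Q q e D T)
    (hsym : ∀ g a u v, ⟪ι (q g a u), ι v⟫_ℂ = ⟪ι u, ι (q g a v)⟫_ℂ) {c : ℝ}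
    (hqn : ∀ g a u, ‖ι (q g a u)‖ ≤ c * ‖Q g u‖) (K0 : Submodule ℂ L) [FiniteDimensional ℂ K0]
    (huniq : ∀ f : L, (∀ χ a, ⟪e (D a χ), f⟫_ℂ = 0) → f ∈ K0) {β : Type*} [Fintype β]
    (u : ℝ → β → H) {Bu : ℝ} (hu : ∀ g b, ‖u g b‖ ≤ Bu)
    (hcap : ∀ (g : ℕ → ℝ) (v : ℕ → V), Tendsto g atTop atTop → (∀ j, ‖ι (v j)‖ ≤ 2) →
      Tendsto (fun j => ‖Q (g j) (v j)‖) atTop (𝓝 0) →
      (∀ χ, Tendsto (fun j => ⟪ι (T (g j) χ), ι (v j)⟫_ℂ) atTop (𝓝 0)) →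
      (∀ b, Tendsto (fun j => ⟪u (g j) b, ι (v j)⟫_ℂ) atTop (𝓝 0)) →
      Tendsto (fun j => ‖ι (v j)‖) atTop (𝓝 0))
    {m : ℕ} (hm : Module.finrank ℂ K0 + Fintype.card β < m) :
    ∀ᶠ g in atTop, ¬ DimGe ι (Q g) m := by
  by_contra hcon
  rw [not_eventually] at hcon
  simp only [not_not] at hcon
  have hex : ∀ j : ℕ, ∃ g : ℝ, (j : ℝ) ≤ g ∧ DimGe ι (Q g) m := fun j => by
    obtain ⟨g, hg1, hg2⟩ := hcon.forall_exists_of_atTop j
    exact ⟨g, hg1, hg2⟩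
  choose g hgj hD using hex
  have hg : Tendsto g atTop atTop := tendsto_atTop_mono hgj tendsto_natCast_atTop_atTop
  choose ee hee hek using hD
  have hex2 : ∀ j i, ∃ w : V, ‖ι w - ee j i‖ ≤ 1 / ((j : ℝ) + 1) ∧
      ‖Q (g j) w‖ ≤ 1 / ((j : ℝ) + 1) := by
    intro j i
    obtain ⟨φ, h1, h2⟩ := mem_kerF.1 (hek j i)
    have hp : (0 : ℝ) < 1 / ((j : ℝ) + 1) := by positivity
    have h3 : ∀ᶠ n in atTop, ‖ι (φ n) - ee j i‖ < 1 / ((j : ℝ) + 1) :=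
      (tendsto_iff_norm_sub_tendsto_zero.1 h1).eventually_lt_const hp
    have h4 : ∀ᶠ n in atTop, ‖Q (g j) (φ n)‖ < 1 / ((j : ℝ) + 1) := by
      have := h2.norm
      rw [norm_zero] at this
      exact this.eventually_lt_const hp
    obtain ⟨n, h5, h6⟩ := (h3.and h4).exists
    exact ⟨φ n, h5.le, h6.le⟩
  choose w hw1 hw2 using hex2
  have hle1 : ∀ j : ℕ, 1 / ((j : ℝ) + 1) ≤ 1 := fun j => by
    rw [div_le_one (by positivity)]
    have : (0 : ℝ) ≤ j := Nat.cast_nonneg j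
    linarith
  have hlim0 : Tendsto (fun j : ℕ => 1 / ((j : ℝ) + 1)) atTop (𝓝 0) :=
    tendsto_one_div_add_atTop_nhds_zero_nat
  have hwn : ∀ j i, ‖ι (w j i)‖ ≤ 2 := fun j i => by
    have h1 : ‖ι (w j i)‖ ≤ ‖ι (w j i) - ee j i‖ + ‖ee j i‖ := by
      simpa using norm_add_le (ι (w j i) - ee j i) (ee j i)
    have h2 : ‖ee j i‖ = 1 := (hee j).1 i
    have := hw1 j i
    have := hle1 j
    linarith
  have hwQ : ∀ i, Tendsto (fun j => ‖Q (g j) (w j i)‖) atTop (𝓝 0) := fun i =>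
    squeeze_zero (fun _ => norm_nonneg _) (fun j => hw2 j i) hlim0
  set U : Ultrafilter ℕ := Filter.hyperfilter ℕ with hUdef
  have hU : (U : Filter ℕ) ≤ atTop := by
    rw [hUdef, ← Nat.cofinite_eq_atTop]
    exact Filter.hyperfilter_le_cofinite
  have hamp := fun i => limit_amp h hsym hqn U hU hg (fun j => hwn j i) (hwQ i)
  choose f hf hfD using hamp
  have hfK : ∀ i, f i ∈ K0 := fun i => huniq (f i) (hfD i)
  -- limits of the bound state amplitudes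
  have hbs : ∀ i b, ∃ z : ℂ, Tendsto (fun j => ⟪u (g j) b, ι (w j i)⟫_ℂ) U (𝓝 z) := by
    intro i b
    refine ulim U (C := Bu * 2) (Eventually.of_forall fun j => ?_)
    exact (norm_inner_le_norm _ _).trans (mul_le_mul (hu _ _) (hwn j i) (norm_nonneg _)
      ((norm_nonneg _).trans (hu 0 b)))
  choose z hz using hbs
  -- a combination without limit amplitudes
  let Λ : (Fin m → ℂ) →ₗ[ℂ] (K0 × (β → ℂ)) :=
    LinearMap.prod (Fintype.linearCombination ℂ fun i => (⟨f i, hfK i⟩ : K0))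
      (Fintype.linearCombination ℂ fun i => z i)
  have hninj : ¬ Function.Injective Λ := by
    intro hinj
    have h3 := LinearMap.finrank_le_finrank_of_injective hinj
    simp only [Module.finrank_fintype_fun_eq_card, Fintype.card_fin, Module.finrank_prod] at h3
    omega
  rw [injective_iff_map_eq_zero] at hninj
  push Not at hninj
  obtain ⟨a, ha, hne⟩ := hninj
  have ha1 : ∑ i, a i • f i = 0 := by
    have h1 : (Λ a).1 = 0 := by rw [ha]; rfl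
    have h2 : ((∑ i, a i • (⟨f i, hfK i⟩ : K0) : K0) : L) = 0 := by
      have : (Λ a).1 = ∑ i, a i • (⟨f i, hfK i⟩ : K0) := by
        exact Fintype.linearCombination_apply ℂ (fun i => (⟨f i, hfK i⟩ : K0)) a
      rw [← this, h1]
      rfl
    simpa using h2
  have ha2 : ∀ b, ∑ i, a i * z i b = 0 := by
    intro b
    have h1 : (Λ a).2 = 0 := by rw [ha]; rfl
    have h2 : (Λ a).2 = ∑ i, a i • z i := by
      exact Fintype.linearCombination_apply ℂ (fun i => z i) a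
    rw [h2] at h1
    have h3 := congrFun h1 b
    simpa using h3
  -- normalisation
  set S : ℝ := Real.sqrt (∑ i, ‖a i‖ ^ 2) with hS
  have hS0 : 0 < S := by
    refine Real.sqrt_pos.2 ?_
    obtain ⟨i, hi⟩ := Function.ne_iff.1 hne
    refine Finset.sum_pos' (fun i _ => sq_nonneg _) ⟨i, Finset.mem_univ i, ?_⟩
    have : 0 < ‖a i‖ := norm_pos_iff.2 hi
    positivity
  set a' : Fin m → ℂ := fun i => ((S⁻¹ : ℝ) : ℂ) * a i with ha'
  have ha'1 : ∑ i, a' i • f i = 0 := by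
    simp only [ha', mul_smul, ← Finset.smul_sum, ha1, smul_zero]
  have ha'2 : ∀ b, ∑ i, a' i * z i b = 0 := by
    intro b
    simp only [ha', mul_assoc, ← Finset.mul_sum, ha2, mul_zero]
  have ha'n : ∑ i, ‖a' i‖ ^ 2 = 1 := by
    have h1 : ∀ i, ‖a' i‖ ^ 2 = (S⁻¹) ^ 2 * ‖a i‖ ^ 2 := fun i => by
      rw [ha']
      simp only [norm_mul, Complex.norm_real, Real.norm_eq_abs, mul_pow, sq_abs]
    simp only [h1, ← Finset.mul_sum]
    have h2 : S ^ 2 = ∑ i, ‖a i‖ ^ 2 := by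
      rw [hS, Real.sq_sqrt (Finset.sum_nonneg fun i _ => sq_nonneg _)]
    rw [← h2, ← mul_pow, inv_mul_cancel₀ hS0.ne', one_pow]
  have ha'le : ∀ i, ‖a' i‖ ≤ 1 := fun i => by
    have h1 : ‖a' i‖ ^ 2 ≤ 1 := by
      rw [← ha'n]
      exact Finset.single_le_sum (f := fun i => ‖a' i‖ ^ 2) (fun b _ => sq_nonneg _)
        (Finset.mem_univ i)
    have := norm_nonneg (a' i)
    nlinarith
  -- the combination
  set v : ℕ → V := fun j => ∑ i, a' i • w j i with hv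
  have hιv : ∀ j, ι (v j) = ∑ i, a' i • ι (w j i) := fun j => by
    rw [hv]
    simp
  have hvn : Tendsto (fun j => ‖ι (v j)‖) atTop (𝓝 1) := by
    have h1 : ∀ j, ‖∑ i, a' i • ee j i‖ = 1 := by
      intro j
      have h2 := (hee j).inner_sum a' a' Finset.univ
      rw [inner_self_eq_norm_sq_to_K] at h2
      have h4 : ∀ i, (starRingEnd ℂ) (a' i) * a' i = ((‖a' i‖ ^ 2 : ℝ) : ℂ) := fun i => by
        rw [Complex.conj_mul']
        norm_cast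
      simp only [h4] at h2
      rw [← Complex.ofReal_sum, ha'n] at h2
      have h5 : ‖∑ i, a' i • ee j i‖ ^ 2 = 1 := by
        refine Complex.ofReal_injective ?_
        rw [Complex.ofReal_pow]
        exact h2
      have := norm_nonneg (∑ i, a' i • ee j i)
      nlinarith
    have h2 : ∀ j, ‖ι (v j) - ∑ i, a' i • ee j i‖ ≤ m * (1 / ((j : ℝ) + 1)) := by
      intro j
      rw [hιv, ← Finset.sum_sub_distrib]
      refine (norm_sum_le _ _).trans ?_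
      have : ∀ i ∈ (Finset.univ : Finset (Fin m)), ‖a' i • ι (w j i) - a' i • ee j i‖ ≤
          1 / ((j : ℝ) + 1) := by
        intro i _
        rw [← smul_sub, norm_smul]
        calc ‖a' i‖ * ‖ι (w j i) - ee j i‖ ≤ 1 * (1 / ((j : ℝ) + 1)) :=
              mul_le_mul (ha'le i) (hw1 j i) (norm_nonneg _) zero_le_one
          _ = _ := one_mul _
      refine (Finset.sum_le_card_nsmul _ _ _ this).trans ?_
      rw [Finset.card_univ, Fintype.card_fin, nsmul_eq_mul]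
    have h3 : Tendsto (fun j => ‖ι (v j) - ∑ i, a' i • ee j i‖) atTop (𝓝 0) := by
      refine squeeze_zero (fun _ => norm_nonneg _) h2 ?_
      have := hlim0.const_mul (m : ℝ)
      simpa using this
    rw [Metric.tendsto_nhds]
    intro ε hε
    filter_upwards [h3.eventually_lt_const hε] with j hj
    rw [Real.dist_eq, ← h1 j]
    exact (abs_norm_sub_norm_le _ _).trans_lt hj
  have hv2 : ∀ᶠ j in atTop, ‖ι (v j)‖ ≤ 2 :=
    (hvn.eventually_lt_const (by norm_num : (1 : ℝ) < 2)).mono fun j hj => hj.le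
  have hvQ : Tendsto (fun j => ‖Q (g j) (v j)‖) atTop (𝓝 0) := by
    have h1 : ∀ j, ‖Q (g j) (v j)‖ ≤ ∑ i, ‖Q (g j) (w j i)‖ := by
      intro j
      rw [hv]
      simp only [map_sum, map_smul]
      refine (norm_sum_le _ _).trans (Finset.sum_le_sum fun i _ => ?_)
      rw [norm_smul]
      exact mul_le_of_le_one_left (norm_nonneg _) (ha'le i)
    refine squeeze_zero (fun _ => norm_nonneg _) h1 ?_
    have := tendsto_finsetSum Finset.univ fun i (_ : i ∈ Finset.univ) => hwQ i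
    simpa using this
  have hvT : ∀ χ, Tendsto (fun j => ⟪ι (T (g j) χ), ι (v j)⟫_ℂ) U (𝓝 0) := by
    intro χ
    have h1 := tendsto_finsetSum Finset.univ fun i (_ : i ∈ Finset.univ) =>
      (hf i χ).const_mul (a' i)
    have h2 : ∑ i, a' i * ⟪e χ, f i⟫_ℂ = 0 := by
      have h3 : ⟪e χ, ∑ i, a' i • f i⟫_ℂ = 0 := by rw [ha'1, inner_zero_right]
      rw [inner_sum] at h3
      simpa only [inner_smul_right] using h3
    rw [h2] at h1
    refine h1.congr fun j => ?_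
    rw [hιv, inner_sum]
    simp only [inner_smul_right]
  have hvu : ∀ b, Tendsto (fun j => ⟪u (g j) b, ι (v j)⟫_ℂ) U (𝓝 0) := by
    intro b
    have h1 := tendsto_finsetSum Finset.univ fun i (_ : i ∈ Finset.univ) =>
      (hz i b).const_mul (a' i)
    rw [ha'2 b] at h1
    refine h1.congr fun j => ?_
    rw [hιv, inner_sum]
    simp only [inner_smul_right]
  -- a countable dense set of amplitudes
  obtain ⟨X₀, hX₀⟩ : ∃ x : ℕ → X, ∀ χ, ∀ ε : ℝ, 0 < ε → ∃ n, ‖e χ - e (x n)‖ < ε := by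
    have hsep : TopologicalSpace.IsSeparable (Set.range e) :=
      TopologicalSpace.IsSeparable.of_separableSpace _
    have : TopologicalSpace.SeparableSpace (Set.range e) := hsep.separableSpace
    have : Nonempty (Set.range e) := ⟨⟨e 0, ⟨0, rfl⟩⟩⟩
    obtain ⟨s, hs⟩ := TopologicalSpace.exists_dense_seq (Set.range e)
    have hx : ∀ n, ∃ χ, e χ = s n := fun n => (s n).2
    choose x hx using hx
    refine ⟨x, fun χ ε hε => ?_⟩
    obtain ⟨n, hn⟩ := Metric.denseRange_iff.1 hs ⟨e χ, ⟨χ, rfl⟩⟩ ε hε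
    refine ⟨n, ?_⟩
    rw [← dist_eq_norm, hx]
    exact hn
  -- extraction
  have hext : ∀ k : ℕ, ∃ j : ℕ, k ≤ j ∧ ‖ι (v j)‖ ≤ 2 ∧
      (∀ n < k, ‖⟪ι (T (g j) (X₀ n)), ι (v j)⟫_ℂ‖ < 1 / ((k : ℝ) + 1)) ∧
      ∀ b, ‖⟪u (g j) b, ι (v j)⟫_ℂ‖ < 1 / ((k : ℝ) + 1) := by
    intro k
    have hp : (0 : ℝ) < 1 / ((k : ℝ) + 1) := by positivity
    have h1 : ∀ᶠ j in (U : Filter ℕ), k ≤ j := hU (eventually_ge_atTop k)
    have h2 : ∀ᶠ j in (U : Filter ℕ), ∀ n < k,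
        ‖⟪ι (T (g j) (X₀ n)), ι (v j)⟫_ℂ‖ < 1 / ((k : ℝ) + 1) := by
      refine (eventually_all_finite (Set.finite_lt_nat k)).2 ?_
      intro n _
      have := (hvT (X₀ n)).norm
      rw [norm_zero] at this
      exact this.eventually_lt_const hp
    have h3 : ∀ᶠ j in (U : Filter ℕ), ∀ b, ‖⟪u (g j) b, ι (v j)⟫_ℂ‖ < 1 / ((k : ℝ) + 1) := by
      rw [eventually_all]
      intro b
      have := (hvu b).norm
      rw [norm_zero] at this
      exact this.eventually_lt_const hp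
    obtain ⟨j, hj1, hj2, hj3, hj4⟩ := (h1.and (h2.and (h3.and (hU hv2)))).exists
    exact ⟨j, hj1, hj4, hj2, hj3⟩
  choose J hJ1 hJ2 hJ3 hJ4 using hext
  have hJ : Tendsto J atTop atTop := tendsto_atTop_mono hJ1 tendsto_id
  have hfin := hcap (fun k => g (J k)) (fun k => v (J k)) (hg.comp hJ) hJ2 (hvQ.comp hJ) ?_ ?_
  · have h1 := hvn.comp hJ
    exact zero_ne_one (tendsto_nhds_unique hfin h1)
  · intro χ
    rw [tendsto_zero_iff_norm_tendsto_zero, Metric.tendsto_nhds]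
    intro ε hε
    obtain ⟨n, hn⟩ := hX₀ χ (ε / 4) (by positivity)
    have h1 : ∀ᶠ k in atTop, ‖ι (T (g (J k)) χ) - ι (T (g (J k)) (X₀ n))‖ < ε / 4 :=
      (hg.comp hJ).eventually ((h.norm_sub χ (X₀ n)).eventually_lt_const hn)
    have h2 : ∀ᶠ k : ℕ in atTop, 1 / ((k : ℝ) + 1) < ε / 4 :=
      hlim0.eventually_lt_const (by positivity)
    filter_upwards [h1, h2, eventually_gt_atTop n] with k h3 h4 h5
    rw [dist_zero_right, norm_norm]
    have h6 : ⟪ι (T (g (J k)) χ), ι (v (J k))⟫_ℂ =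
        ⟪ι (T (g (J k)) χ) - ι (T (g (J k)) (X₀ n)), ι (v (J k))⟫_ℂ +
        ⟪ι (T (g (J k)) (X₀ n)), ι (v (J k))⟫_ℂ := by
      rw [inner_sub_left, sub_add_cancel]
    rw [h6]
    refine (norm_add_le _ _).trans_lt ?_
    have h7 : ‖⟪ι (T (g (J k)) χ) - ι (T (g (J k)) (X₀ n)), ι (v (J k))⟫_ℂ‖ ≤ ε / 4 * 2 :=
      (norm_inner_le_norm _ _).trans (mul_le_mul h3.le (hJ2 k) (norm_nonneg _) (by positivity))
    have h8 := hJ3 k n h5
    linarith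
  · intro b
    rw [tendsto_zero_iff_norm_tendsto_zero]
    exact squeeze_zero (fun _ => norm_nonneg _) (fun k => (hJ4 k b).le) hlim0

end up

end Crest.Agent.R330.StrAbs796

end
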