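import Crest.Agent.R330.PairU_714
import Crest.Agent.R330.PairI2_658
import Crest.Agent.R330.PairE5_547
import Crest.Agent.R330.T5Gb_151
import Crest.Agent.R330.PairC_714
import Crest.Agent.R330.LightC_916
import Crest.Agent.R330.PairL_862
import Crest.Agent.R330.LemP_342
import Crest.Agent.R330.FibP_581_Mg
import Crest.Agent.R330.SlEx_814

-- ▼ part R330/T5Err_714
section

/-!
# R330/T5Err_714 : the expansion of (T5) in one chart (helper714)

`ErrAt` from: moments (916), bounds of the error list (547), vacuum component (776),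
measurability (658), Gaussian (151).
-/

set_option autoImplicit false
set_option linter.unusedSectionVars false

open MeasureTheory Filter Topology Crest.MathPhysics.MatrixQM
open scoped ContDiff InnerProductSpace ENNReal

noncomputable section

namespace Crest.Agent.R330.T5Err714

open Crest.Agent.R330.Defs478 Crest.Agent.R330.LS839 Crest.Agent.R330.Frame839
  Crest.Agent.R330.Bind6839 Crest.Agent.R330.TDef414 Crest.Agent.R330.PairB547
  Crest.Agent.R330.PairE547 Crest.Agent.R330.PairL_862 Crest.Agent.R330.PairC714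
  Crest.Agent.R330.PairD714 Crest.Agent.R330.TrialSys796 Crest.Agent.R330.PairT714
  Crest.Agent.R330.PairU714 Crest.Agent.R330.PairI658 Crest.Agent.R330.LightC916
  Crest.Agent.R330.T5G151

variable {N p : ℕ} {b : ColorBasis N} {S : Type} [Group S] [Fintype S] {C : Chn b p S}
variable {F : Type*} [NormedAddCommGroup F] [InnerProductSpace ℂ F] [FiniteDimensional ℂ F]
variable {M : FermionRep N F} {R : GaugeAction b M} {G : GammaNine}

/-- the light function on `L` -/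
def psT (P : TPack C M R G) (σ : Sl C) (χ : Amp M G σ) (g : ℝ) (q : LL σ) : F :=
  om P σ.X0 g χ.fn (q : Cfg N)

/-- its first error -/
def reT (P : TPack C M R G) (σ : Sl C) (α : Fin 16) (χ : Amp M G σ) (g : ℝ) (q : LL σ) : F :=
  rhoE P σ.X0 g α χ.fn (q : Cfg N)

/-- its second error -/
def rsT (P : TPack C M R G) (σ : Sl C) (m : ℝ) (α : Fin 16) (χ : Amp M G σ) (g : ℝ) (q : LL σ) :
    F := rhoS P σ.X0 g m α χ.fn (q : Cfg N)

/-- the sizes of the light function -/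
def szT (P : TPack C M R G) (σ : Sl C) (m : ℝ) (α : Fin 16) (χ : Amp M G σ) : Sizes (LL σ) where
  y q := ‖C.PY q‖
  n0 g q := ‖psT P σ χ g q‖
  n1 g q := ‖fderiv ℝ (psT P σ χ g) q‖
  nE g q := ‖reT P σ α χ g q‖
  nS g q := ‖rsT P σ m α χ g q‖

/-- orthonormal basis of the orbit directions -/
abbrev bT (σ : Sl C) := stdOrthonormalBasis ℝ (Tn (actB b) (C.cf σ.X0))

/-- orthonormal basis of `L` -/
abbrev bU (σ : Sl C) := stdOrthonormalBasis ℝ (LL σ)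

/-- orthonormal basis of `Z` -/
abbrev bV (σ : Sl C) := stdOrthonormalBasis ℝ (ZZ σ)

/-- amplitude without cut-off -/
def a0 (P : TPack C M R G) (σ : Sl C) (g : ℝ) : LL σ × ZZ σ → ℝ :=
  aL P σ (Tup C.kk) (C.Zt σ.X0) g

/-- amplitude with cut-off -/
def a1 (P : TPack C M R G) (σ : Sl C) (g : ℝ) (x : LL σ × ZZ σ) : ℝ :=
  kap σ.r (‖x.2‖ ^ 2) * a0 P σ g x

/-- odd errors -/
def E1 (P : TPack C M R G) (σ : Sl C) (Γ : F →ₗ[ℂ] F) (m : ℝ) (α : Fin 16) (χ : Amp M G σ)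
    (g : ℝ) (x : LL σ × ZZ σ) : F :=
  err1 (ThL M G α) (WqL b M G α) (WlL M G α) (BfL b M) Γ (PXI C (Tup C.kk)) (bT σ) (bU σ) (bV σ)
    g m (BrT5658.dec_sl σ) (a1 P σ g) (psT P σ χ g) (rsT P σ m α χ g) x

/-- even errors of order one -/
def E2 (P : TPack C M R G) (σ : Sl C) (Γ : F →ₗ[ℂ] F) (α : Fin 16) (χ : Amp M G σ)
    (g : ℝ) (x : LL σ × ZZ σ) : F :=
  err2 (ThL M G α) (WqL b M G α) (BfL b M) Γ (PXI C (Tup C.kk)) (bT σ) (bU σ) g (a0 P σ g)
    (psT P σ χ g) (reT P σ α χ g) x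

/-- small errors -/
def E3 (P : TPack C M R G) (σ : Sl C) (Γ : F →ₗ[ℂ] F) (m : ℝ) (α : Fin 16) (χ : Amp M G σ)
    (g : ℝ) (x : LL σ × ZZ σ) : F :=
  err3 (ThL M G α) (WqL b M G α) (BfL b M) Γ (PXI C (Tup C.kk)) (bT σ) (bU σ) g (a0 P σ g)
    (a1 P σ g) (psT P σ χ g) (reT P σ α χ g) (rsT P σ m α χ g) x

theorem a0_eq (P : TPack C M R G) (σ : Sl C) (g : ℝ) (x : LL σ × ZZ σ)
    (h : ‖C.cfT (x.1 : Cfg N)‖ < σ.r / 4) :
    a0 P σ g x = nrm P σ g (σ.X0 + C.cfT x.1) *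
        Real.exp (-(g / 2 * ⟪P.A (σ.X0 + C.cfT x.1) x.2, x.2⟫_ℝ)) := by
  unfold a0
  rw [aL_eq P σ _ _ g (by have := σ.pos; linarith)]
  rfl

/-- **The sum of the errors.** -/
theorem sum_eq (P : TPack C M R G) (σ : Sl C) (Γ : F →ₗ[ℂ] F) (m : ℝ) (α : Fin 16)
    (χ : Amp M G σ) : ∀ᶠ g in atTop, ∀ x : LL σ × ZZ σ,
      QT M G σ g m α (tauT P σ g χ.fn) x - tauT P σ g (C.Dx M G m α χ.fn) x =
        E1 P σ Γ m α χ g x + E2 P σ Γ α χ g x + E3 P σ Γ m α χ g x := by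
  filter_upwards [P.Psi_smooth, eventually_gt_atTop 0] with g hΨ hg x
  exact err_lit P σ m α (hΨ.of_le (by norm_num)) χ rfl rfl (BrT5658.dec_sl σ) (bT σ) (bU σ)
    (bV σ) Γ (a₀ := a0 P σ g) (a0_eq P σ g)
    ((contDiff_aL P σ rfl hg).differentiable (by simp)) x

/-- **The odd errors are odd.** -/
theorem odd (P : TPack C M R G) (σ : Sl C) {Γ : F →ₗ[ℂ] F} (hΓ : ParT M G σ Γ) (m : ℝ)
    (α : Fin 16) (χ : Amp M G σ) : ∀ᶠ g in atTop, ∀ x : LL σ × ZZ σ,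
      Γ (E1 P σ Γ m α χ g x) = -E1 P σ Γ m α χ g x := by
  filter_upwards [P.Psi_smooth] with g hΨ x
  refine err1_odd (BfL b M) (fun q => ?_) (parI rfl rfl hΓ.par α) (bT σ) (bU σ) (bV σ) g m
    (BrT5658.dec_sl σ) (a1 P σ g) ((contDiff_omL P σ hΨ χ _).differentiable (by simp))
    (fun q => ?_) (rsT P σ m α χ g) x
  · exact BrT5658.cf_mem _
  · by_cases h1 : om P σ.X0 g χ.fn (q : Cfg N) = 0
    · change Γ (om P σ.X0 g χ.fn (q : Cfg N)) = om P σ.X0 g χ.fn (q : Cfg N)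
      rw [h1, map_zero]
    · have h2 := (om_supp P σ g χ h1).1
      exact ParT.vac hΓ P (χ.off _ h2) (P.Psi_mem g _ (LitA974.PY_mem C q) _ (χ.fn _).2)

/-- The integrand vanishes off the support. -/
theorem off_supp (P : TPack C M R G) (σ : Sl C) (m : ℝ) (α : Fin 16) (χ : Amp M G σ) :
    ∀ᶠ g in atTop, ∀ x : LL σ × ZZ σ, ¬ (‖x.1‖ ≤ σ.r / 3 ∧ ‖x.2‖ ≤ σ.r / 4) →
      QT M G σ g m α (tauT P σ g χ.fn) x - tauT P σ g (C.Dx M G m α χ.fn) x = 0 := by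
  filter_upwards [eventually_s P σ] with g hs x hx
  have hr := σ.pos
  have key : ∀ (χ : Amp M G σ) (y : LL σ × ZZ σ), ¬ (‖y.1‖ ≤ σ.r / 3 ∧ ‖y.2‖ ≤ σ.r / 4) →
      tauT P σ g χ.fn y = 0 := by
    intro χ y hy
    rw [tauT_smul P σ g χ y]
    by_cases h1 : ‖y.1‖ ≤ σ.r / 3
    · have h2 : σ.r / 4 < ‖y.2‖ := by
        by_contra h3
        exact hy ⟨h1, not_lt.1 h3⟩
      have h3 : kapZ σ (C.Zt σ.X0) y.2 = 0 := by
        unfold kapZ
        refine kap_zero hr ?_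
        nlinarith
      rw [h3, zero_mul, zero_smul]
    · have h2 : BrT5658.omT P σ g χ.fn y.1 = 0 := (om_far P σ hs χ rfl (not_le.1 h1)).1
      rw [h2, smul_zero]
  have hopen : IsOpen {y : LL σ × ZZ σ | ¬ (‖y.1‖ ≤ σ.r / 3 ∧ ‖y.2‖ ≤ σ.r / 4)} := by
    have h1 : IsClosed {y : LL σ × ZZ σ | ‖y.1‖ ≤ σ.r / 3 ∧ ‖y.2‖ ≤ σ.r / 4} :=
      (isClosed_le continuous_fst.norm continuous_const).inter
        (isClosed_le continuous_snd.norm continuous_const)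
    exact isOpen_compl_iff.2 h1
  have h1 : tauT P σ g χ.fn =ᶠ[𝓝 x] 0 := by
    filter_upwards [hopen.mem_nhds hx] with y hy
    exact key χ y hy
  have h2 : QT M G σ g m α (tauT P σ g χ.fn) x = 0 := BrT5b658.QdP_zero _ _ _ _ _ _ _ h1
  have h3 : tauT P σ g (C.Dx M G m α χ.fn) x = 0 := key (χ.D m α) x hx
  rw [h2, h3, sub_zero]

/-- continuity of the trial function -/
theorem contDiff_tauT (P : TPack C M R G) (σ : Sl C) {g : ℝ} (hg : 0 < g)
    (hΨ : ContDiff ℝ ∞ (P.Psi g)) (χ : Amp M G σ) : ContDiff ℝ ∞ (tauT P σ g χ.fn) := by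
  have hadd : ContDiff ℝ ∞ fun x : LL σ × ZZ σ => (x.1 : Cfg N) + x.2 :=
    ((Tup C.kk).subtypeL.contDiff.comp contDiff_fst).add
      ((C.Zt σ.X0).subtypeL.contDiff.comp contDiff_snd)
  exact (BrT5c658.contDiff_tau P σ hg hΨ χ).comp hadd

/-- continuity of the integrand -/
theorem continuous_diff (P : TPack C M R G) (σ : Sl C) (m : ℝ) (α : Fin 16) (χ : Amp M G σ) :
    ∀ᶠ g in atTop, Continuous fun x : LL σ × ZZ σ =>
      QT M G σ g m α (tauT P σ g χ.fn) x - tauT P σ g (C.Dx M G m α χ.fn) x := by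
  obtain ⟨r₀, B, hr0, hB0, hB, hgap, hBr⟩ := σ.gap
  filter_upwards [P.Psi_smooth, eventually_gt_atTop 0, eventually_s P σ] with g hΨ hg hs
  have hr := σ.pos
  refine Continuous.sub ?_ (contDiff_tauT P σ hg hΨ (χ.D m α)).continuous
  refine BrT5b658.continuous_QdP (BrT5658.dec_sl σ) hr0 hgap hB (ThL M G α)
    (fun v => continuous_Wp b M G g m α v) (BfL b M) (bT σ) (bU σ) (bV σ)
    ((contDiff_tauT P σ hg hΨ χ).of_le (by norm_num)) fun x hx => ?_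
  have h1 : ‖(x.1 : Cfg N) + x.2‖ ≤ 3 * σ.r / 4 :=
    BrT5c658.tsupport_tau P σ (by linarith) χ hx
  exact le_trans (mul_le_mul_of_nonneg_left (by linarith) hB0) hBr

/-- measurability of the odd errors by difference -/
theorem meas1 (P : TPack C M R G) (σ : Sl C) (Γ : F →ₗ[ℂ] F) (m : ℝ) (α : Fin 16)
    (χ : Amp M G σ)
    (h2 : ∀ᶠ g in atTop, AEStronglyMeasurable (E2 P σ Γ α χ g) (volume.prod volume))
    (h3 : ∀ᶠ g in atTop, AEStronglyMeasurable (E3 P σ Γ m α χ g) (volume.prod volume)) :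
    ∀ᶠ g in atTop, AEStronglyMeasurable (E1 P σ Γ m α χ g) (volume.prod volume) := by
  filter_upwards [h2, h3, continuous_diff P σ m α χ, sum_eq P σ Γ m α χ] with g g2 g3 gc gs
  have h4 : E1 P σ Γ m α χ g = fun x => (QT M G σ g m α (tauT P σ g χ.fn) x -
      tauT P σ g (C.Dx M G m α χ.fn) x) - E2 P σ Γ α χ g x - E3 P σ Γ m α χ g x := by
    funext x
    rw [gs x]
    abel
  rw [h4]
  exact (gc.aestronglyMeasurable.sub g2).sub g3

/-! ## the classes -/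

section cls

variable {Z : Type*} [MeasurableSpace Z] [NormedAddCommGroup Z]

theorem ineq1 {y n0 n1 nE nS g : ℝ} {z : Z} (hg : 1 ≤ g) (hy : 0 ≤ y) (h0 : 0 ≤ n0)
    (h1 : 0 ≤ n1) (hE : 0 ≤ nE) (hS : 0 ≤ nS) :
    (1 + g * ‖z‖ ^ 2 + g * y * ‖z‖) * n0 + ‖z‖ * n1 + nS ≤
      wt g z * (√g * y * n0 + n0 + (√g)⁻¹ * n1 + nE + nS) := by
  have hg0 : 0 ≤ g := zero_le_one.trans hg
  have hsg : 1 ≤ √g := Real.one_le_sqrt.2 hg
  have hsg0 : 0 < √g := lt_of_lt_of_le one_pos hsg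
  set t := √g * ‖z‖ with ht
  have ht0 : 0 ≤ t := mul_nonneg hsg0.le (norm_nonneg _)
  have e1 : g * ‖z‖ ^ 2 = t ^ 2 := by rw [ht, mul_pow, Real.sq_sqrt hg0]
  have e2 : g * y * ‖z‖ = √g * y * t := by
    rw [ht]
    nth_rewrite 1 [← Real.mul_self_sqrt hg0]
    ring
  have e3 : ‖z‖ = (√g)⁻¹ * t := by rw [ht]; field_simp
  have w0 : 1 + t ^ 2 ≤ wt g z := by
    unfold wt
    rw [← ht]
    nlinarith [pow_nonneg ht0 2, pow_nonneg ht0 3, pow_nonneg ht0 4]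
  have w1 : t ≤ wt g z := by nlinarith [sq_nonneg (t - 1)]
  have w2 : 1 ≤ wt g z := one_le_wt g z
  rw [e1, e2, e3]
  have a1 : 0 ≤ √g * y * n0 := by positivity
  have a2 : 0 ≤ (√g)⁻¹ * n1 := by positivity
  have b1 := mul_le_mul_of_nonneg_right w0 h0
  have b2 := mul_le_mul_of_nonneg_right w1 a1
  have b3 := mul_le_mul_of_nonneg_right w1 a2
  have b4 := mul_le_mul_of_nonneg_right w2 hS
  have b5 := mul_nonneg (zero_le_one.trans w2) hE
  nlinarith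

theorem ineq2 {n0 nE g : ℝ} {z : Z} (hg : 1 ≤ g) (h0 : 0 ≤ n0) (hE : 0 ≤ nE) :
    (1 + g * ‖z‖ ^ 2) * n0 + nE ≤ wt g z * (n0 + nE) := by
  have hg0 : 0 ≤ g := zero_le_one.trans hg
  set t := √g * ‖z‖ with ht
  have ht0 : 0 ≤ t := mul_nonneg (Real.sqrt_nonneg _) (norm_nonneg _)
  have e1 : g * ‖z‖ ^ 2 = t ^ 2 := by rw [ht, mul_pow, Real.sq_sqrt hg0]
  have w0 : 1 + t ^ 2 ≤ wt g z := by
    unfold wt
    rw [← ht]
    nlinarith [pow_nonneg ht0 2, pow_nonneg ht0 3, pow_nonneg ht0 4]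
  have w2 : 1 ≤ wt g z := one_le_wt g z
  rw [e1]
  have b1 := mul_le_mul_of_nonneg_right w0 h0
  have b4 := mul_le_mul_of_nonneg_right w2 hE
  nlinarith

theorem ineq3 {y n0 n1 nE nS g : ℝ} {z : Z} (hg : 1 ≤ g) (hy : 0 ≤ y) (h0 : 0 ≤ n0)
    (h1 : 0 ≤ n1) (hE : 0 ≤ nE) (hS : 0 ≤ nS) :
    (‖z‖ ^ 2 * (1 + g * ‖z‖ ^ 2) + y + ‖z‖) * n0 + ‖z‖ ^ 2 * nE + nS ≤
      2 * wt g z * ((y + (√g)⁻¹) * n0 + nS + (√g)⁻¹ * n1 + (√g)⁻¹ * nE) := by
  have hg0 : 0 ≤ g := zero_le_one.trans hg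
  have hsg : 1 ≤ √g := Real.one_le_sqrt.2 hg
  have hsg0 : 0 < √g := lt_of_lt_of_le one_pos hsg
  set i := (√g)⁻¹ with hi
  have hi0 : 0 < i := inv_pos.2 hsg0
  have hi1 : i ≤ 1 := inv_le_one_of_one_le₀ hsg
  set t := √g * ‖z‖ with ht
  have ht0 : 0 ≤ t := mul_nonneg hsg0.le (norm_nonneg _)
  have e1 : g * ‖z‖ ^ 2 = t ^ 2 := by rw [ht, mul_pow, Real.sq_sqrt hg0]
  have e3 : ‖z‖ = i * t := by rw [ht, hi]; field_simp
  have e4 : ‖z‖ ^ 2 ≤ i * t ^ 2 := by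
    rw [e3, mul_pow]
    have : i ^ 2 ≤ i := by nlinarith
    exact mul_le_mul_of_nonneg_right this (sq_nonneg _)
  have w0 : t ^ 2 * (1 + t ^ 2) + t ≤ 2 * wt g z := by
    unfold wt
    rw [← ht]
    nlinarith [pow_nonneg ht0 2, pow_nonneg ht0 3, pow_nonneg ht0 4]
  have w1 : t ^ 2 ≤ 2 * wt g z := by nlinarith [pow_nonneg ht0 4]
  have w2 : 1 ≤ 2 * wt g z := by
    have := one_le_wt g z
    linarith
  have c1 : ‖z‖ ^ 2 * (1 + g * ‖z‖ ^ 2) + y + ‖z‖ ≤ 2 * wt g z * (y + i) := by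
    rw [e1]
    have d1 : ‖z‖ ^ 2 * (1 + t ^ 2) ≤ i * t ^ 2 * (1 + t ^ 2) :=
      mul_le_mul_of_nonneg_right e4 (by positivity)
    have d2 := mul_le_mul_of_nonneg_left w0 hi0.le
    have d3 := mul_le_mul_of_nonneg_right w2 hy
    rw [e3] at d1 ⊢
    nlinarith
  have c2 := mul_le_mul_of_nonneg_right c1 h0
  have c3 : ‖z‖ ^ 2 * nE ≤ 2 * wt g z * (i * nE) := by
    have d1 := mul_le_mul_of_nonneg_right e4 hE
    have d2 := mul_le_mul_of_nonneg_left w1 (mul_nonneg hi0.le hE)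
    nlinarith
  have c4 := mul_le_mul_of_nonneg_right w2 hS
  have c5 : 0 ≤ 2 * wt g z * (i * n1) := by
    have := one_le_wt g z
    positivity
  nlinarith

end cls

theorem norm_PXI (σ : Sl C) (q : LL σ) : ‖(q : Cfg N) - PXI C (Tup C.kk) q‖ = ‖C.PY q‖ := by
  congr 1
  unfold Chn.PY
  rw [BrT5658.PK_of_mem q.2]
  rfl

theorem AmpOk.mono' {E : Type*} [NormedAddCommGroup E] [InnerProductSpace ℝ E]
    {L Z : Submodule ℝ E} {g K K' ρ : ℝ} {a₀ : L × Z → ℝ} (h : AmpOk g K ρ a₀) (hK : K ≤ K')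
    (hg : 0 ≤ g) : AmpOk g K' ρ a₀ where
  diff := h.diff
  nonneg := h.nonneg
  dL x hx w := (h.dL x hx w).trans (by
    have := h.nonneg x
    gcongr)
  dZ x hx w := (h.dZ x hx w).trans (by
    have := h.nonneg x
    gcongr)

theorem CutOk.mono' {E : Type*} [NormedAddCommGroup E] [InnerProductSpace ℝ E]
    {Z : Submodule ℝ E} {K K' ρ : ℝ} {ϰ : Z → ℝ} (h : CutOk K ρ ϰ) (hK : K ≤ K') :
    CutOk K' ρ ϰ where
  diff := h.diff
  nonneg := h.nonneg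
  le_one := h.le_one
  near z := (h.near z).trans (by gcongr)
  der z w := (h.der z w).trans (by gcongr)
  supp := h.supp
  dsupp := h.dsupp

/-- **The three classes.** -/
theorem classes (P : TPack C M R G) (σ : Sl C) (hr1 : σ.r ≤ 1)
    (hBR : ∀ X : Pos p, ‖X - σ.X0‖ < σ.r → C.BReg X) {Γ : F →ₗ[ℂ] F} (hΓ : ParT M G σ Γ)
    (m : ℝ) (α : Fin 16) (χ : Amp M G σ) :
    Cls (aT5 P σ) (szT P σ m α χ).h1 (E1 P σ Γ m α χ) ∧
    Cls (aT5 P σ) (szT P σ m α χ).h2 (E2 P σ Γ α χ) ∧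
    Cls (aT5 P σ) (szT P σ m α χ).h3 (E3 P σ Γ m α χ) := by
  have hr := σ.pos
  obtain ⟨r₀, B, hG⟩ := geoI σ (L := Tup C.kk) (Z := C.Zt σ.X0) rfl rfl (ρ := σ.r / 3)
    (by positivity) (by linarith) (by linarith)
  obtain ⟨K, hK, hC⟩ := cstI b M G
  obtain ⟨K1, hK1, hA⟩ := ampOk P σ (L := Tup C.kk) (Z := C.Zt σ.X0) rfl (ρ := σ.r / 3)
    (by linarith)
  obtain ⟨K2, hK2, hcut⟩ := cutOk σ (C.Zt σ.X0) (ρ := σ.r / 3) (by linarith)
  obtain ⟨D, hD, hb⟩ := exists_bounds hG (hC α) (fun f => (hΓ.par.norm f).le) (bT σ) (bU σ) (bV σ)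
    (K' := max K1 K2) (m₀ := |m|) (le_max_of_le_left hK1) (abs_nonneg m)
  have key : ∀ᶠ g in atTop, ∀ x : LL σ × ZZ σ,
      ‖E1 P σ Γ m α χ g x‖ ≤
        D * a0 P σ g x * ((1 + g * ‖x.2‖ ^ 2 + g * ‖C.PY (x.1 : Cfg N)‖ * ‖x.2‖) *
          ‖psT P σ χ g x.1‖ + ‖x.2‖ * ‖fderiv ℝ (psT P σ χ g) x.1‖ + ‖rsT P σ m α χ g x.1‖) ∧
      ‖E2 P σ Γ α χ g x‖ ≤
        D * a0 P σ g x * ((1 + g * ‖x.2‖ ^ 2) * ‖psT P σ χ g x.1‖ + ‖reT P σ α χ g x.1‖) ∧
      ‖E3 P σ Γ m α χ g x‖ ≤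
        D * a0 P σ g x * ((‖x.2‖ ^ 2 * (1 + g * ‖x.2‖ ^ 2) + ‖C.PY (x.1 : Cfg N)‖ + ‖x.2‖) *
          ‖psT P σ χ g x.1‖ + ‖x.2‖ ^ 2 * ‖reT P σ α χ g x.1‖ + ‖rsT P σ m α χ g x.1‖) := by
    filter_upwards [eventually_gt_atTop 0, P.Psi_smooth, eventually_s P σ] with g hg hΨ hs x
    have h1 := hb g m hg.le le_rfl (a0 P σ g) (kapZ σ (C.Zt σ.X0))
      (AmpOk.mono' (hA g hg) (le_max_left _ _) hg.le) (CutOk.mono' hcut (le_max_right _ _))
      (psT P σ χ g) (reT P σ α χ g) (rsT P σ m α χ g)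
      (fun q hq => (om_far P σ hs χ rfl hq).1) (fun q hq => (om_far P σ hs χ rfl hq).2)
      (fun y hy => ?_) x
    · rw [norm_PXI σ x.1] at h1
      exact h1
    · have h2 : ‖C.cfT (y.1 : Cfg N)‖ ≤ σ.r / 3 := (LitA974.norm_cfT_le C _).trans hy
      obtain ⟨f, hf, hom⟩ := om_vac P σ.X0 g χ.fn (y.1 : Cfg N)
      refine HM_lit P σ rfl hG (bT σ) (bV σ) g α hy (hBR _ ?_) (fun w => ?_) hf hom
      · rw [add_sub_cancel_left]
        linarith
      · exact fderiv_aL_z P σ hg (by linarith) w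
  have hy : ∀ q : LL σ, 0 ≤ ‖C.PY (q : Cfg N)‖ := fun q => norm_nonneg _
  have ha : ∀ (g : ℝ) (x : LL σ × ZZ σ), 0 ≤ a0 P σ g x := fun g x => aL_nonneg P σ _ _ g x
  refine ⟨⟨D, hD, ?_⟩, ⟨D, hD, ?_⟩, ⟨2 * D, by positivity, ?_⟩⟩
  · filter_upwards [key, eventually_ge_atTop 1] with g h hg q z
    refine (h (q, z)).1.trans ?_
    have h2 := ineq1 (z := z) hg (hy q) (norm_nonneg (psT P σ χ g q))
      (norm_nonneg (fderiv ℝ (psT P σ χ g) q)) (norm_nonneg (reT P σ α χ g q))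
      (norm_nonneg (rsT P σ m α χ g q))
    calc _ ≤ D * a0 P σ g (q, z) * _ :=
          mul_le_mul_of_nonneg_left h2 (mul_nonneg hD (ha g (q, z)))
      _ = _ := by
        unfold Sizes.h1 szT aT5 a0
        ring
  · filter_upwards [key, eventually_ge_atTop 1] with g h hg q z
    refine (h (q, z)).2.1.trans ?_
    have h2 := ineq2 (z := z) hg (norm_nonneg (psT P σ χ g q)) (norm_nonneg (reT P σ α χ g q))
    calc _ ≤ D * a0 P σ g (q, z) * _ :=
          mul_le_mul_of_nonneg_left h2 (mul_nonneg hD (ha g (q, z)))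
      _ = _ := by
        unfold Sizes.h2 szT aT5 a0
        ring
  · filter_upwards [key, eventually_ge_atTop 1] with g h hg q z
    refine (h (q, z)).2.2.trans ?_
    have h2 := ineq3 (z := z) hg (hy q) (norm_nonneg (psT P σ χ g q))
      (norm_nonneg (fderiv ℝ (psT P σ χ g) q)) (norm_nonneg (reT P σ α χ g q))
      (norm_nonneg (rsT P σ m α χ g q))
    calc _ ≤ D * a0 P σ g (q, z) * _ :=
          mul_le_mul_of_nonneg_left h2 (mul_nonneg hD (ha g (q, z)))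
      _ = _ := by
        unfold Sizes.h3 szT aT5 a0
        ring

end Crest.Agent.R330.T5Err714

end
end

-- ▼ part R330/PairW_547
section

/-!
# Row 330, S8-PAIR: the three classes and the measurability of the errors (helper547)

* `classes` : `err1, err2, err3` of `PairE2_547` are in 714's classes.
* `sm_err1, sm_err2, sm_err3` : strong measurability on `L × Z` (no support condition).
-/

set_option autoImplicit false
set_option linter.unusedSectionVars false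

open MeasureTheory Filter Topology
open scoped ContDiff InnerProductSpace

noncomputable section

namespace Crest.Agent.R330.PairE547

open Crest.Agent.R330.Frame839 Crest.Agent.R330.IBP837 Crest.Agent.R330.PairA547
  Crest.Agent.R330.PairB547 Crest.Agent.R330.PairC714

variable {V E : Type*} [NormedAddCommGroup V] [InnerProductSpace ℝ V] [FiniteDimensional ℝ V]
  [NormedAddCommGroup E] [InnerProductSpace ℝ E] [FiniteDimensional ℝ E]
  {F : Type*} [NormedAddCommGroup F] [InnerProductSpace ℂ F] [FiniteDimensional ℂ F]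
  {ι κ η : Type*} [Fintype ι] [Fintype κ] [Fintype η]

variable {A : V →L[ℝ] E →L[ℝ] E} {c : E} {L Z : Submodule ℝ E} {r B ρ K : ℝ}
  {Θ : E →ₗ[ℝ] (F →ₗ[ℂ] F)} {Wq : E →ₗ[ℝ] E →ₗ[ℝ] (F →ₗ[ℂ] F)}
  {Wl : E →ₗ[ℝ] (F →ₗ[ℂ] F)} {Bf : V →ₗ[ℝ] (F →ₗ[ℝ] F)} {Γ : F →ₗ[ℂ] F} {PX : L →ₗ[ℝ] E}

/-! ## The weights -/

section weights

variable {g z : ℝ}

theorem wt_aux (hg : 1 ≤ g) (hz : 0 ≤ z) :
    1 + g * z ^ 2 ≤ (1 + Real.sqrt g * z) ^ 4 ∧
      g * z ≤ Real.sqrt g * (1 + Real.sqrt g * z) ^ 4 ∧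
      z ≤ (Real.sqrt g)⁻¹ * (1 + Real.sqrt g * z) ^ 4 ∧
      z ^ 2 * (1 + g * z ^ 2) + z ≤ (Real.sqrt g)⁻¹ * (1 + Real.sqrt g * z) ^ 4 ∧
      z ^ 2 ≤ (Real.sqrt g)⁻¹ * (1 + Real.sqrt g * z) ^ 4 := by
  have hs1 : 1 ≤ Real.sqrt g := Real.one_le_sqrt.2 hg
  set s := Real.sqrt g with hs
  have hs0 : 0 < s := by linarith
  have hgs : g = s ^ 2 := (Real.sq_sqrt (by linarith)).symm
  set t := s * z with ht
  have ht0 : 0 ≤ t := by positivity
  have hz' : z = s⁻¹ * t := by rw [ht, ← mul_assoc, inv_mul_cancel₀ hs0.ne', one_mul]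
  have hi1 : s⁻¹ ≤ 1 := inv_le_one_of_one_le₀ hs1
  have hi0 : 0 ≤ s⁻¹ := inv_nonneg.2 hs0.le
  have e : (1 + t) ^ 4 = 1 + 4 * t + 6 * t ^ 2 + 4 * t ^ 3 + t ^ 4 := by ring
  have p2 : 0 ≤ t ^ 2 := by positivity
  have p3 : 0 ≤ t ^ 3 := by positivity
  have p4 : 0 ≤ t ^ 4 := by positivity
  have hgz : g * z ^ 2 = t ^ 2 := by rw [hgs, ht]; ring
  have hzz : z ^ 2 ≤ s⁻¹ * t ^ 2 := by
    rw [hz', mul_pow]
    refine mul_le_mul_of_nonneg_right ?_ p2
    calc s⁻¹ ^ 2 = s⁻¹ * s⁻¹ := by ring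
      _ ≤ s⁻¹ * 1 := mul_le_mul_of_nonneg_left hi1 hi0
      _ = s⁻¹ := mul_one _
  refine ⟨by rw [hgz, e]; linarith, ?_, ?_, ?_, ?_⟩
  · have : g * z = s * t := by rw [hgs, ht]; ring
    rw [this, e]
    exact mul_le_mul_of_nonneg_left (by linarith) hs0.le
  · calc z = s⁻¹ * t := hz'
      _ ≤ s⁻¹ * (1 + t) ^ 4 := mul_le_mul_of_nonneg_left (by rw [e]; linarith) hi0
  · calc z ^ 2 * (1 + g * z ^ 2) + z ≤ (s⁻¹ * t ^ 2) * (1 + t ^ 2) + s⁻¹ * t := by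
          rw [hgz]
          refine add_le_add (mul_le_mul_of_nonneg_right hzz (by positivity)) (le_of_eq hz')
      _ = s⁻¹ * (t ^ 2 + t ^ 4 + t) := by ring
      _ ≤ s⁻¹ * (1 + t) ^ 4 := mul_le_mul_of_nonneg_left (by rw [e]; linarith) hi0
  · calc z ^ 2 ≤ s⁻¹ * t ^ 2 := hzz
      _ ≤ s⁻¹ * (1 + t) ^ 4 := mul_le_mul_of_nonneg_left (by rw [e]; linarith) hi0

theorem wt_one (hz : 0 ≤ z) : 1 ≤ (1 + Real.sqrt g * z) ^ 4 :=
  one_le_pow₀ (by have := mul_nonneg (Real.sqrt_nonneg g) hz; linarith)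

end weights

/-- **The errors are in 714's classes.** -/
theorem classes (hG : Geo A c L Z PX r B ρ) (hC : Cst Θ Wq Wl Bf K)
    (hΓ : ∀ f, ‖Γ f‖ ≤ ‖f‖) (eT : OrthonormalBasis η ℝ (Tn A c)) (u : OrthonormalBasis ι ℝ L)
    (v : OrthonormalBasis κ ℝ Z) {K' m : ℝ} (hK' : 0 ≤ K') {a₀ : ℝ → L × Z → ℝ} {ϰ : Z → ℝ}
    (hA : ∀ᶠ g in atTop, AmpOk g K' ρ (a₀ g)) (hϰ : CutOk K' ρ ϰ) {ψ ρe ρs : ℝ → L → F}
    {s : Sizes L} (hy : ∀ p : L, ‖(p : E) - PX p‖ ≤ s.y p) (h0 : ∀ g p, ‖ψ g p‖ ≤ s.n0 g p)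
    (h1 : ∀ g p, ‖fderiv ℝ (ψ g) p‖ ≤ s.n1 g p) (hE : ∀ g p, ‖ρe g p‖ ≤ s.nE g p)
    (hS : ∀ g p, ‖ρs g p‖ ≤ s.nS g p)
    (hψ : ∀ᶠ g in atTop, ∀ p, ρ < ‖p‖ → ψ g p = 0)
    (hHM : ∀ᶠ g in atTop, ∀ x : L × Z, ‖x.1‖ ≤ ρ → HM A c Z Θ Wq PX eT v g (a₀ g) (ψ g) x = 0) :
    Cls (fun g p z => a₀ g (p, z)) s.h1 (fun g =>
        err1 Θ Wq Wl Bf Γ PX eT u v g m hG.dec (fun x : L × Z => ϰ x.2 * a₀ g x) (ψ g) (ρs g)) ∧
      Cls (fun g p z => a₀ g (p, z)) s.h2 (fun g =>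
        err2 Θ Wq Bf Γ PX eT u g (a₀ g) (ψ g) (ρe g)) ∧
      Cls (fun g p z => a₀ g (p, z)) s.h3 (fun g =>
        err3 Θ Wq Bf Γ PX eT u g (a₀ g) (fun x : L × Z => ϰ x.2 * a₀ g x) (ψ g) (ρe g)
          (ρs g)) := by
  obtain ⟨C, hC0, hb⟩ := exists_bounds (Γ := Γ) hG hC hΓ eT u v hK' (abs_nonneg m)
  have key : ∀ᶠ g in atTop, 1 ≤ g ∧ ∀ x : L × Z, 0 ≤ a₀ g x ∧
      ‖err1 Θ Wq Wl Bf Γ PX eT u v g m hG.dec (fun x : L × Z => ϰ x.2 * a₀ g x) (ψ g) (ρs g) x‖ ≤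
        C * a₀ g x * ((1 + g * ‖x.2‖ ^ 2 + g * ‖(x.1 : E) - PX x.1‖ * ‖x.2‖) * ‖ψ g x.1‖ +
          ‖x.2‖ * ‖fderiv ℝ (ψ g) x.1‖ + ‖ρs g x.1‖) ∧
      ‖err2 Θ Wq Bf Γ PX eT u g (a₀ g) (ψ g) (ρe g) x‖ ≤
        C * a₀ g x * ((1 + g * ‖x.2‖ ^ 2) * ‖ψ g x.1‖ + ‖ρe g x.1‖) ∧
      ‖err3 Θ Wq Bf Γ PX eT u g (a₀ g) (fun x : L × Z => ϰ x.2 * a₀ g x) (ψ g) (ρe g)
          (ρs g) x‖ ≤
        C * a₀ g x * ((‖x.2‖ ^ 2 * (1 + g * ‖x.2‖ ^ 2) + ‖(x.1 : E) - PX x.1‖ + ‖x.2‖) *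
          ‖ψ g x.1‖ + ‖x.2‖ ^ 2 * ‖ρe g x.1‖ + ‖ρs g x.1‖) := by
    filter_upwards [hA, hψ, hHM, eventually_ge_atTop 1] with g g1 g2 g3 g4
    refine ⟨g4, fun x => ⟨g1.nonneg x, ?_⟩⟩
    refine hb g m (by linarith) le_rfl (a₀ g) ϰ g1 hϰ (ψ g) (ρe g) (ρs g) g2 ?_ g3 x
    intro p hp
    have h2 : ψ g =ᶠ[𝓝 p] fun _ => 0 := by
      have h3 : ∀ᶠ q in 𝓝 p, ρ < ‖q‖ := continuous_norm.continuousAt.eventually_const_lt hp
      filter_upwards [h3] with q hq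
      exact g2 q hq
    rw [h2.fderiv_eq]
    simp
  refine ⟨⟨C, hC0, ?_⟩, ⟨C, hC0, ?_⟩, ⟨C, hC0, ?_⟩⟩
  · filter_upwards [key] with g g1 p z
    obtain ⟨g1, g2⟩ := g1
    obtain ⟨ha, hb1, -, -⟩ := g2 (p, z)
    refine hb1.trans ?_
    have hq : 0 ≤ C * a₀ g (p, z) := mul_nonneg hC0 ha
    have hzn : 0 ≤ ‖z‖ := norm_nonneg _
    obtain ⟨w1, w2, w3, w4, w5⟩ := wt_aux g1 hzn
    have w0 : 1 ≤ (1 + Real.sqrt g * ‖z‖) ^ 4 := wt_one hzn
    have n0 : 0 ≤ s.n0 g p := (norm_nonneg _).trans (h0 g p)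
    have n1 : 0 ≤ s.n1 g p := le_trans (by positivity) (h1 g p)
    have nE : 0 ≤ s.nE g p := (norm_nonneg _).trans (hE g p)
    have nS : 0 ≤ s.nS g p := (norm_nonneg _).trans (hS g p)
    have ny : 0 ≤ s.y p := (norm_nonneg _).trans (hy p)
    have hg0 : 0 ≤ g := by linarith
    set w := (1 + Real.sqrt g * ‖z‖) ^ 4 with hw
    have hw0 : 0 ≤ w := by linarith
    have k1 : (1 + g * ‖z‖ ^ 2) * ‖ψ g p‖ ≤ w * s.n0 g p :=
      mul_le_mul w1 (h0 g p) (norm_nonneg _) hw0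
    have k2 : g * ‖(p : E) - PX p‖ * ‖z‖ * ‖ψ g p‖ ≤ w * (Real.sqrt g * s.y p * s.n0 g p) := by
      calc g * ‖(p : E) - PX p‖ * ‖z‖ * ‖ψ g p‖ = (g * ‖z‖) * (‖(p : E) - PX p‖ * ‖ψ g p‖) := by
            ring
        _ ≤ (Real.sqrt g * w) * (s.y p * s.n0 g p) := by
            refine mul_le_mul w2 (mul_le_mul (hy p) (h0 g p) (norm_nonneg _) ny) (by positivity)
              (mul_nonneg (Real.sqrt_nonneg _) hw0)
        _ = _ := by ring
    have k3 : ‖z‖ * ‖fderiv ℝ (ψ g) p‖ ≤ w * ((Real.sqrt g)⁻¹ * s.n1 g p) := by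
      calc ‖z‖ * ‖fderiv ℝ (ψ g) p‖ ≤ ((Real.sqrt g)⁻¹ * w) * s.n1 g p :=
            mul_le_mul w3 (h1 g p) (by positivity) (mul_nonneg (inv_nonneg.2 (Real.sqrt_nonneg _))
              hw0)
        _ = _ := by ring
    have k4 : ‖ρs g p‖ ≤ w * s.nS g p := by
      calc ‖ρs g p‖ ≤ 1 * s.nS g p := by rw [one_mul]; exact hS g p
        _ ≤ w * s.nS g p := mul_le_mul_of_nonneg_right w0 nS
    have k5 : 0 ≤ w * s.nE g p := mul_nonneg hw0 nE
    have hK : (1 + g * ‖z‖ ^ 2 + g * ‖(p : E) - PX p‖ * ‖z‖) * ‖ψ g p‖ +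
        ‖z‖ * ‖fderiv ℝ (ψ g) p‖ + ‖ρs g p‖ ≤ w * s.h1 g p := by
      have e1 : w * s.h1 g p = w * (Real.sqrt g * s.y p * s.n0 g p) + w * s.n0 g p +
          w * ((Real.sqrt g)⁻¹ * s.n1 g p) + w * s.nE g p + w * s.nS g p := by
        unfold Sizes.h1
        ring
      have e2 : (1 + g * ‖z‖ ^ 2 + g * ‖(p : E) - PX p‖ * ‖z‖) * ‖ψ g p‖ =
          (1 + g * ‖z‖ ^ 2) * ‖ψ g p‖ + g * ‖(p : E) - PX p‖ * ‖z‖ * ‖ψ g p‖ := by ring
      rw [e1, e2]
      linarith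
    calc C * a₀ g (p, z) * ((1 + g * ‖z‖ ^ 2 + g * ‖(p : E) - PX p‖ * ‖z‖) * ‖ψ g p‖ +
          ‖z‖ * ‖fderiv ℝ (ψ g) p‖ + ‖ρs g p‖) ≤ C * a₀ g (p, z) * (w * s.h1 g p) :=
          mul_le_mul_of_nonneg_left hK hq
      _ = C * (a₀ g (p, z) * wt g z) * s.h1 g p := by rw [hw]; unfold wt; ring
  · filter_upwards [key] with g g1 p z
    obtain ⟨g1, g2⟩ := g1
    obtain ⟨ha, -, hb1, -⟩ := g2 (p, z)
    refine hb1.trans ?_
    have hq : 0 ≤ C * a₀ g (p, z) := mul_nonneg hC0 ha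
    have hzn : 0 ≤ ‖z‖ := norm_nonneg _
    obtain ⟨w1, w2, w3, w4, w5⟩ := wt_aux g1 hzn
    have w0 : 1 ≤ (1 + Real.sqrt g * ‖z‖) ^ 4 := wt_one hzn
    have nE : 0 ≤ s.nE g p := (norm_nonneg _).trans (hE g p)
    set w := (1 + Real.sqrt g * ‖z‖) ^ 4 with hw
    have hw0 : 0 ≤ w := by linarith
    have k1 : (1 + g * ‖z‖ ^ 2) * ‖ψ g p‖ ≤ w * s.n0 g p :=
      mul_le_mul w1 (h0 g p) (norm_nonneg _) hw0
    have k4 : ‖ρe g p‖ ≤ w * s.nE g p := by
      calc ‖ρe g p‖ ≤ 1 * s.nE g p := by rw [one_mul]; exact hE g p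
        _ ≤ w * s.nE g p := mul_le_mul_of_nonneg_right w0 nE
    have hK : (1 + g * ‖z‖ ^ 2) * ‖ψ g p‖ + ‖ρe g p‖ ≤ w * s.h2 g p := by
      have e1 : w * s.h2 g p = w * s.n0 g p + w * s.nE g p := by
        unfold Sizes.h2
        ring
      rw [e1]
      linarith
    calc C * a₀ g (p, z) * ((1 + g * ‖z‖ ^ 2) * ‖ψ g p‖ + ‖ρe g p‖) ≤
          C * a₀ g (p, z) * (w * s.h2 g p) := mul_le_mul_of_nonneg_left hK hq
      _ = C * (a₀ g (p, z) * wt g z) * s.h2 g p := by rw [hw]; unfold wt; ring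
  · filter_upwards [key] with g g1 p z
    obtain ⟨g1, g2⟩ := g1
    obtain ⟨ha, -, -, hb1⟩ := g2 (p, z)
    refine hb1.trans ?_
    have hq : 0 ≤ C * a₀ g (p, z) := mul_nonneg hC0 ha
    have hzn : 0 ≤ ‖z‖ := norm_nonneg _
    obtain ⟨w1, w2, w3, w4, w5⟩ := wt_aux g1 hzn
    have w0 : 1 ≤ (1 + Real.sqrt g * ‖z‖) ^ 4 := wt_one hzn
    have n0 : 0 ≤ s.n0 g p := (norm_nonneg _).trans (h0 g p)
    have n1 : 0 ≤ s.n1 g p := le_trans (by positivity) (h1 g p)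
    have nE : 0 ≤ s.nE g p := (norm_nonneg _).trans (hE g p)
    have nS : 0 ≤ s.nS g p := (norm_nonneg _).trans (hS g p)
    have ny : 0 ≤ s.y p := (norm_nonneg _).trans (hy p)
    have hi : 0 ≤ (Real.sqrt g)⁻¹ := inv_nonneg.2 (Real.sqrt_nonneg _)
    set w := (1 + Real.sqrt g * ‖z‖) ^ 4 with hw
    have hw0 : 0 ≤ w := by linarith
    have k1 : (‖z‖ ^ 2 * (1 + g * ‖z‖ ^ 2) + ‖z‖) * ‖ψ g p‖ ≤
        w * ((Real.sqrt g)⁻¹ * s.n0 g p) := by
      calc (‖z‖ ^ 2 * (1 + g * ‖z‖ ^ 2) + ‖z‖) * ‖ψ g p‖ ≤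
            ((Real.sqrt g)⁻¹ * w) * s.n0 g p :=
            mul_le_mul w4 (h0 g p) (norm_nonneg _) (mul_nonneg hi hw0)
        _ = _ := by ring
    have k2 : ‖(p : E) - PX p‖ * ‖ψ g p‖ ≤ w * (s.y p * s.n0 g p) := by
      calc ‖(p : E) - PX p‖ * ‖ψ g p‖ ≤ s.y p * s.n0 g p :=
            mul_le_mul (hy p) (h0 g p) (norm_nonneg _) ny
        _ = 1 * (s.y p * s.n0 g p) := (one_mul _).symm
        _ ≤ w * (s.y p * s.n0 g p) := mul_le_mul_of_nonneg_right w0 (mul_nonneg ny n0)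
    have k3 : ‖z‖ ^ 2 * ‖ρe g p‖ ≤ w * ((Real.sqrt g)⁻¹ * s.nE g p) := by
      calc ‖z‖ ^ 2 * ‖ρe g p‖ ≤ ((Real.sqrt g)⁻¹ * w) * s.nE g p :=
            mul_le_mul w5 (hE g p) (norm_nonneg _) (mul_nonneg hi hw0)
        _ = _ := by ring
    have k4 : ‖ρs g p‖ ≤ w * s.nS g p := by
      calc ‖ρs g p‖ ≤ 1 * s.nS g p := by rw [one_mul]; exact hS g p
        _ ≤ w * s.nS g p := mul_le_mul_of_nonneg_right w0 nS
    have k5 : 0 ≤ w * ((Real.sqrt g)⁻¹ * s.n1 g p) := mul_nonneg hw0 (mul_nonneg hi n1)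
    have hK : (‖z‖ ^ 2 * (1 + g * ‖z‖ ^ 2) + ‖(p : E) - PX p‖ + ‖z‖) * ‖ψ g p‖ +
        ‖z‖ ^ 2 * ‖ρe g p‖ + ‖ρs g p‖ ≤ w * s.h3 g p := by
      have e1 : w * s.h3 g p = w * (s.y p * s.n0 g p) + w * ((Real.sqrt g)⁻¹ * s.n0 g p) +
          w * s.nS g p + w * ((Real.sqrt g)⁻¹ * s.n1 g p) +
          w * ((Real.sqrt g)⁻¹ * s.nE g p) := by
        unfold Sizes.h3
        ring
      have e2 : (‖z‖ ^ 2 * (1 + g * ‖z‖ ^ 2) + ‖(p : E) - PX p‖ + ‖z‖) * ‖ψ g p‖ =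
          (‖z‖ ^ 2 * (1 + g * ‖z‖ ^ 2) + ‖z‖) * ‖ψ g p‖ + ‖(p : E) - PX p‖ * ‖ψ g p‖ := by ring
      rw [e1, e2]
      linarith
    calc C * a₀ g (p, z) * ((‖z‖ ^ 2 * (1 + g * ‖z‖ ^ 2) + ‖(p : E) - PX p‖ + ‖z‖) *
          ‖ψ g p‖ + ‖z‖ ^ 2 * ‖ρe g p‖ + ‖ρs g p‖) ≤ C * a₀ g (p, z) * (w * s.h3 g p) :=
          mul_le_mul_of_nonneg_left hK hq
      _ = C * (a₀ g (p, z) * wt g z) * s.h3 g p := by rw [hw]; unfold wt; ring

/-! ## Measurability -/

section meas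

theorem measurable_inverse {X Y : Type*} [NormedAddCommGroup X] [NormedSpace ℝ X]
    [NormedAddCommGroup Y] [NormedSpace ℝ Y] [CompleteSpace X] :
    Measurable (ContinuousLinearMap.inverse : (X →L[ℝ] Y) → Y →L[ℝ] X) := by
  classical
  set S : Set (X →L[ℝ] Y) := Set.range (fun e : X ≃L[ℝ] Y => (e : X →L[ℝ] Y)) with hS
  have hop : IsOpen S := ContinuousLinearEquiv.isOpen
  have h1 : ContinuousOn (ContinuousLinearMap.inverse : (X →L[ℝ] Y) → Y →L[ℝ] X) S := by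
    rintro _ ⟨e, rfl⟩
    exact (contDiffAt_map_inverse (𝕜 := ℝ) (n := 0) e).continuousAt.continuousWithinAt
  have h2 : ContinuousOn (ContinuousLinearMap.inverse : (X →L[ℝ] Y) → Y →L[ℝ] X) Sᶜ := by
    refine continuousOn_const (c := (0 : Y →L[ℝ] X)) |>.congr ?_
    intro f hf
    refine ContinuousLinearMap.inverse_of_not_isInvertible ?_
    rintro ⟨e, he⟩
    exact hf ⟨e, he⟩
  have h3 := h1.measurable_piecewise h2 hop.measurableSet
  have h4 : S.piecewise (ContinuousLinearMap.inverse : (X →L[ℝ] Y) → Y →L[ℝ] X)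
      ContinuousLinearMap.inverse = ContinuousLinearMap.inverse := by
    funext x
    by_cases hx : x ∈ S <;> simp [Set.piecewise, hx]
  rwa [h4] at h3

variable [MeasurableSpace E] [BorelSpace E]

theorem sm_omL {X : Type*} [MeasurableSpace X] {y : X → E} (hy : Measurable y) :
    StronglyMeasurable (fun x => om A c (y x)) := by
  have hsc : SecondCountableTopology (Tn A c →L[ℝ] (kc A c)ᗮ) := by
    have := FiniteDimensional.proper_real (Tn A c →L[ℝ] (kc A c)ᗮ)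
    infer_instance
  have h1 : Measurable (fun x => om A c x) := by
    unfold om
    exact measurable_inverse.comp (contDiff_S (A := A) (c := c)).continuous.measurable
  exact (h1.comp hy).stronglyMeasurable

theorem sm_om {X : Type*} [MeasurableSpace X] {y : X → E} (hy : Measurable y) (t : Tn A c) :
    StronglyMeasurable (fun x => ((om A c (y x) t : (kc A c)ᗮ) : V)) :=
  ((kc A c)ᗮ.subtypeL.continuous.comp
    (ContinuousLinearMap.apply ℝ (kc A c)ᗮ t).continuous).comp_stronglyMeasurable (sm_omL hy)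


theorem sm_lin {X : Type*} [MeasurableSpace X] {f : X → F} (hf : StronglyMeasurable f)
    (T : F →ₗ[ℂ] F) : StronglyMeasurable (fun x => T (f x)) := by
  have : FiniteDimensional ℝ F := FiniteDimensional.complexToReal F
  exact (LinearMap.toContinuousLinearMap (T.restrictScalars ℝ)).continuous.comp_stronglyMeasurable
    hf

theorem sm_Bf {X : Type*} [MeasurableSpace X] {w : X → V} {f : X → F}
    (hw : StronglyMeasurable w) (hf : StronglyMeasurable f) :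
    StronglyMeasurable (fun x => Bf (w x) (f x)) := by
  have h3 : Continuous (fun q : V × F => BfC Bf q.1 q.2) :=
    (BfC Bf).isBoundedBilinearMap.continuous
  exact h3.comp_stronglyMeasurable (hw.prodMk hf)

/-- a bilinear map into the operators on `F` -/
theorem sm_bil {X : Type*} [MeasurableSpace X] {y z : X → E} {f : X → F}
    (hy : StronglyMeasurable y) (hz : StronglyMeasurable z) (hf : StronglyMeasurable f) :
    StronglyMeasurable (fun x => Wq (y x) (z x) (f x)) := by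
  have : FiniteDimensional ℝ F := FiniteDimensional.complexToReal F
  set T1 : (F →ₗ[ℂ] F) →ₗ[ℝ] (F →L[ℝ] F) :=
    { toFun := fun T => LinearMap.toContinuousLinearMap (T.restrictScalars ℝ)
      map_add' := fun _ _ => by ext; rfl
      map_smul' := fun _ _ => by ext; rfl } with hT1
  set T2 : E →L[ℝ] E →L[ℝ] F →L[ℝ] F :=
    LinearMap.toContinuousLinearMap
      ((LinearMap.toContinuousLinearMap (𝕜 := ℝ) (E := E) (F' := F →L[ℝ] F)).toLinearMap ∘ₗ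
        (LinearMap.llcomp ℝ E (F →ₗ[ℂ] F) (F →L[ℝ] F) T1) ∘ₗ Wq) with hT2
  have h2 : ∀ a b f, T2 a b f = Wq a b f := fun _ _ _ => rfl
  have h3 : Continuous (fun q : (E × E) × F => T2 q.1.1 q.1.2 q.2) := by fun_prop
  have h4 := h3.comp_stronglyMeasurable ((hy.prodMk hz).prodMk hf)
  exact h4


/-- derivatives are strongly measurable -/
theorem sm_fderiv {X G : Type*} [NormedAddCommGroup X] [NormedSpace ℝ X] [FiniteDimensional ℝ X]
    [MeasurableSpace X] [OpensMeasurableSpace X] [NormedAddCommGroup G] [NormedSpace ℝ G]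
    [FiniteDimensional ℝ G] {f : X → G} {w : X → X} (hw : StronglyMeasurable w) :
    StronglyMeasurable (fun x => fderiv ℝ f x (w x)) := by
  have : CompleteSpace G := FiniteDimensional.complete ℝ G
  have hsc : SecondCountableTopology (X →L[ℝ] G) := by
    have := FiniteDimensional.proper_real (X →L[ℝ] G)
    infer_instance
  have h1 : StronglyMeasurable (fderiv ℝ f) := (measurable_fderiv ℝ f).stronglyMeasurable
  exact isBoundedBilinearMap_apply.continuous.comp_stronglyMeasurable (h1.prodMk hw)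

section errs

variable (eT : OrthonormalBasis η ℝ (Tn A c)) (u : OrthonormalBasis ι ℝ L)
  (v : OrthonormalBasis κ ℝ Z) (g m : ℝ) {a a₀ : L × Z → ℝ} {ψ ρe ρs : L → F}


theorem meas_PX : Measurable (fun x : L × Z => c + PX x.1) :=
  ((LinearMap.continuous_of_finiteDimensional PX).measurable.comp measurable_fst).const_add c

theorem meas_sum : Measurable (fun x : L × Z => c + ((x.1 : E) + (x.2 : E))) :=
  ((measurable_subtype_coe.comp measurable_fst).add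
    (measurable_subtype_coe.comp measurable_snd)).const_add c


theorem sm_snd : StronglyMeasurable (fun x : L × Z => (x.2 : E)) := by
  have : ProperSpace E := FiniteDimensional.proper_real _
  exact (measurable_subtype_coe.comp measurable_snd).stronglyMeasurable



theorem sm_fst {G : Type*} [TopologicalSpace G] {ψ : L → G} (hψ : StronglyMeasurable ψ) :
    StronglyMeasurable (fun x : L × Z => ψ x.1) := hψ.comp_measurable measurable_fst


theorem sm_EV (hψ : StronglyMeasurable ψ) : StronglyMeasurable (EV (Z := Z) Θ u a ψ) := by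
  have hψ1 : StronglyMeasurable (fun x : L × Z => ψ x.1) := sm_fst hψ
  refine Finset.stronglyMeasurable_fun_sum _ fun s _ => ?_
  exact (sm_lin ((sm_fderiv (f := a) stronglyMeasurable_const).smul hψ1) (Θ (u s))).const_smul _

theorem sm_MX {y : L × Z → E} (hy : Measurable (fun x => c + y x)) (hψ : StronglyMeasurable ψ) :
    StronglyMeasurable (fun x : L × Z => MX A c Z Θ Wq Bf eT g (y x) x.2 (ψ x.1)) := by
  have hψ1 : StronglyMeasurable (fun x : L × Z => ψ x.1) := sm_fst hψ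
  refine StronglyMeasurable.add ?_ ?_
  · refine Finset.stronglyMeasurable_fun_sum _ fun t _ => ?_
    exact (sm_Bf (sm_om hy (eT t)) (sm_lin hψ1 (Θ (eT t)))).const_smul _
  · exact (sm_bil sm_snd sm_snd hψ1).const_smul g



theorem sm_evp {X : Type*} [MeasurableSpace X] {f : X → F} (hf : StronglyMeasurable f) :
    StronglyMeasurable (fun x => evp Γ (f x)) := by
  unfold evp
  exact (hf.add (sm_lin hf Γ)).const_smul _



theorem sm_err2 (ha : StronglyMeasurable a₀) (hψ : StronglyMeasurable ψ)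
    (he : StronglyMeasurable ρe) :
    StronglyMeasurable (err2 Θ Wq Bf Γ PX eT u g a₀ ψ ρe) := by
  refine StronglyMeasurable.add (StronglyMeasurable.add ?_ ?_) ?_
  · exact sm_EV u hψ
  · exact ha.smul (sm_fst he)
  · exact ha.smul (sm_evp (sm_MX eT g meas_PX hψ))

theorem sm_err3 (ha₀ : StronglyMeasurable a₀) (ha : StronglyMeasurable a)
    (hψ : StronglyMeasurable ψ) (he : StronglyMeasurable ρe) (hs : StronglyMeasurable ρs) :
    StronglyMeasurable (err3 Θ Wq Bf Γ PX eT u g a₀ a ψ ρe ρs) := by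
  refine StronglyMeasurable.add (StronglyMeasurable.add (StronglyMeasurable.add ?_ ?_) ?_) ?_
  · exact (sm_EV u hψ).sub (sm_EV u hψ)
  · exact (ha.sub ha₀).smul (sm_fst he)
  · exact ha.smul (sm_evp (sm_fst hs))
  · exact (ha.smul (sm_evp (sm_MX eT g meas_sum hψ))).sub
      (ha₀.smul (sm_evp (sm_MX eT g meas_PX hψ)))

end errs

end meas

end Crest.Agent.R330.PairE547

end
end

-- ▼ part R330/RhoM_151
section

/-!
# Row 330, S8-T5: continuity of the light function and of the errors of the light charge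

`continuous_om`, `continuous_rhoE`, `continuous_rhoS` on all of `Cfg N`, for amplitudes with
`tsupport` in `BReg` (helper151).
-/

set_option autoImplicit false
set_option linter.unusedSectionVars false

open MeasureTheory Filter Topology Crest.MathPhysics.MatrixQM
open scoped ContDiff InnerProductSpace ENNReal

noncomputable section

namespace Crest.Agent.R330.RhoM151

open Crest.Agent.R330.Defs478 Crest.Agent.R330.LS839 Crest.Agent.R330.Frame839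
  Crest.Agent.R330.Clus839 Crest.Agent.R330.Bind6839 Crest.Agent.R330.TDef414
  Crest.Agent.R330.IBP837 Crest.Agent.R330.LightC916

variable {N p : ℕ} {b : ColorBasis N} {S : Type} [Group S] [Fintype S] {C : Chn b p S}
  {F : Type*} [NormedAddCommGroup F] [InnerProductSpace ℂ F] [FiniteDimensional ℂ F]
  {M : FermionRep N F} {R : GaugeAction b M} {G : GammaNine}

theorem cont_lin {X : Type*} [TopologicalSpace X] {f : X → F} {x : X} (hf : ContinuousAt f x)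
    (T : F →ₗ[ℂ] F) : ContinuousAt (fun x => T (f x)) x :=
  (LinearMap.continuous_of_finiteDimensional T).continuousAt.comp hf

theorem cont_X (X0 : Pos p) : Continuous fun u : Cfg N => X0 + C.cfT u :=
  continuous_const.add C.cfT.continuous

theorem cont_PY : Continuous fun u : Cfg N => C.PY u := (PYL C).continuous

/-- Continuity from continuity over `BReg` and vanishing off the support. -/
theorem cont_of {X0 : Pos p} {χ : Pos p → C.Fx M G} (hoff : ∀ X ∈ tsupport χ, C.BReg X)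
    {f : Cfg N → F} (h1 : ∀ u, C.BReg (X0 + C.cfT u) → ContinuousAt f u)
    (h0 : ∀ u, χ (X0 + C.cfT u) = 0 → f u = 0) : Continuous f := by
  rw [continuous_iff_continuousAt]
  intro u
  by_cases hu : X0 + C.cfT u ∈ tsupport χ
  · exact h1 u (hoff _ hu)
  · have h2 : ∀ᶠ v in 𝓝 u, X0 + C.cfT v ∉ tsupport χ :=
      (cont_X X0).continuousAt.eventually ((isClosed_tsupport χ).isOpen_compl.mem_nhds hu)
    have h3 : f =ᶠ[𝓝 u] fun _ => 0 := by
      filter_upwards [h2] with v hv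
      exact h0 v (image_eq_zero_of_notMem_tsupport hv)
    exact continuousAt_const.congr h3.symm

theorem cont_chi {X0 : Pos p} {χ : Pos p → C.Fx M G} (hχ : Continuous χ) :
    Continuous fun u : Cfg N => ((χ (X0 + C.cfT u) : C.Fx M G) : F) :=
  continuous_subtype_val.comp (hχ.comp (cont_X X0))

theorem cont_psi {P : TPack C M R G} {g : ℝ} (hP : Continuous (P.Psi g)) {X0 : Pos p}
    {χ : Pos p → C.Fx M G} (hχ : Continuous χ) :
    Continuous fun u : Cfg N => P.Psi g (C.PY u) ((χ (X0 + C.cfT u) : C.Fx M G) : F) :=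
  (hP.comp cont_PY).clm_apply (cont_chi hχ)

theorem contAt_U (P : TPack C M R G) {X0 : Pos p} {u : Cfg N} (hX : C.BReg (X0 + C.cfT u)) :
    ContinuousAt (fun u : Cfg N => P.U (X0 + C.cfT u)) u :=
  ContinuousAt.comp (g := P.U) (f := fun u : Cfg N => X0 + C.cfT u) (x := u)
    (P.U_smooth _ hX).continuousAt (cont_X X0).continuousAt

theorem continuous_om (P : TPack C M R G) (X0 : Pos p) {g : ℝ} (hP : Continuous (P.Psi g))
    {χ : Pos p → C.Fx M G} (hχ : Continuous χ) (hoff : ∀ X ∈ tsupport χ, C.BReg X) :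
    Continuous (om P X0 g χ) := by
  refine cont_of (X0 := X0) hoff (fun u hu => ?_) fun u hu => ?_
  · exact (contAt_U P hu).clm_apply (cont_psi hP hχ).continuousAt
  · unfold LightC916.om
    rw [hu]
    simp

theorem continuous_rhoE (P : TPack C M R G) (X0 : Pos p) {g : ℝ} (hP : Continuous (P.Psi g))
    (α : Fin 16) {χ : Pos p → C.Fx M G} (hχ : Continuous χ) (hoff : ∀ X ∈ tsupport χ, C.BReg X) :
    Continuous (rhoE P X0 g α χ) := by
  refine cont_of (X0 := X0) hoff (fun u hu => ?_) fun u hu => ?_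
  · unfold rhoE
    refine tendsto_finsetSum _ fun q _ => ?_
    refine cont_lin ?_ _
    have h1 : ContinuousAt (fun u : Cfg N => fderiv ℝ P.U (X0 + C.cfT u)) u :=
      ContinuousAt.comp (g := fderiv ℝ P.U) (f := fun u : Cfg N => X0 + C.cfT u) (x := u)
        (((P.U_smooth _ hu).fderiv_right (m := 0) (by simp)).continuousAt)
        (cont_X X0).continuousAt
    have h2 : ContinuousAt (fun u : Cfg N => (fderiv ℝ P.U (X0 + C.cfT u))
        (EuclideanSpace.single q 1)) u := h1.clm_apply continuousAt_const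
    exact h2.clm_apply (cont_psi hP hχ).continuousAt
  · unfold rhoE
    rw [hu]
    simp

theorem cont_vco {X : Type*} [TopologicalSpace X] {c : X → Fin 16 → Fin (N ^ 2 - 1) → ℝ}
    {f : X → F} {x : X} (hc : ∀ β A, ContinuousAt (fun x => c x β A) x)
    (hf : ContinuousAt f x) : ContinuousAt (fun x => vco M (c x) (f x)) x := by
  unfold vco
  simp only [LinearMap.sum_apply, LinearMap.smul_apply]
  refine tendsto_finsetSum _ fun A _ => tendsto_finsetSum _ fun β _ => ?_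
  exact (Complex.continuous_ofReal.continuousAt.comp (hc β A)).smul (cont_lin hf _)

theorem cont_wA {X : Type*} [TopologicalSpace X] (g m : ℝ) (α : Fin 16) {y : X → Cfg N}
    {f : X → F} {x : X} (hy : ContinuousAt y x) (hf : ContinuousAt f x) :
    ContinuousAt (fun x => wA b M G g m α (y x) (f x)) x := by
  refine cont_vco (fun β A => ?_) hf
  exact (continuous_wpot b G g m α β A).continuousAt.comp hy

theorem continuous_qblk (P : TPack C M R G) (X0 : Pos p) {g : ℝ} (hP : ContDiff ℝ 1 (P.Psi g))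
    (α : Fin 16) {χ : Pos p → C.Fx M G} (hχ : Continuous χ) :
    Continuous fun u : Cfg N => qblk C M G g α
      (fun Y => P.Psi g Y ((χ (X0 + C.cfT u) : C.Fx M G) : F)) (C.PY u) := by
  rw [continuous_iff_continuousAt]
  intro u
  unfold qblk
  have e1 : ∀ (f : F) (Y e : Cfg N), fderiv ℝ (fun Y => P.Psi g Y f) Y e =
      (fderiv ℝ (P.Psi g) Y e) f := by
    intro f Y e
    have h1 : HasFDerivAt (fun Y => P.Psi g Y f) _ Y :=
      hasFDerivAt_ev (v := fun _ => f) ((hP.differentiable (by simp) Y).hasFDerivAt)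
        (hasFDerivAt_const f Y)
    rw [h1.fderiv]
    simp only [_root_.add_apply, ContinuousLinearMap.comp_apply, _root_.zero_apply, map_zero,
      zero_add]
    rfl
  simp only [e1]
  refine ContinuousAt.add ?_ ?_
  · refine tendsto_finsetSum _ fun n _ => cont_lin ?_ _
    have h1 : Continuous fun u : Cfg N => fderiv ℝ (P.Psi g) (C.PY u) :=
      (hP.continuous_fderiv (by simp)).comp cont_PY
    exact ((h1.clm_apply continuous_const).clm_apply (cont_chi hχ)).continuousAt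
  · exact cont_wA g 0 α cont_PY.continuousAt (cont_psi hP.continuous hχ).continuousAt

theorem continuous_rhoS (P : TPack C M R G) (X0 : Pos p) {g : ℝ} (hP : ContDiff ℝ 1 (P.Psi g))
    (m : ℝ) (α : Fin 16) {χ : Pos p → C.Fx M G} (hχ : Continuous χ)
    (hoff : ∀ X ∈ tsupport χ, C.BReg X) : Continuous (rhoS P X0 g m α χ) := by
  refine cont_of (X0 := X0) hoff (fun u hu => ?_) fun u hu => ?_
  · unfold rhoS
    exact ((contAt_U P hu).clm_apply (continuous_qblk P X0 hP α hχ).continuousAt).add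
      (cont_wA 0 m α cont_PY.continuousAt
        (continuous_om P X0 hP.continuous hχ hoff).continuousAt)
  · have h1 : om P X0 g χ u = 0 := by
      unfold LightC916.om
      rw [hu]
      simp
    unfold rhoS
    rw [h1, hu, map_zero, add_zero]
    have h2 : (fun Y => P.Psi g Y (((0 : C.Fx M G)) : F)) = fun _ => 0 := by
      funext Y
      simp
    rw [h2]
    unfold qblk
    simp

/-! ## for amplitudes of a chart, on `L` -/

theorem sm_omL (P : TPack C M R G) (σ : Sl C) {g : ℝ} (hP : Continuous (P.Psi g))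
    (χ : Amp M G σ) (L : Submodule ℝ (Cfg N)) :
    StronglyMeasurable fun q : L => om P σ.X0 g χ.fn q :=
  ((continuous_om P σ.X0 hP χ.smooth.continuous χ.off).comp
    continuous_subtype_val).stronglyMeasurable

theorem sm_rhoE (P : TPack C M R G) (σ : Sl C) {g : ℝ} (hP : Continuous (P.Psi g)) (α : Fin 16)
    (χ : Amp M G σ) (L : Submodule ℝ (Cfg N)) :
    StronglyMeasurable fun q : L => rhoE P σ.X0 g α χ.fn q :=
  ((continuous_rhoE P σ.X0 hP α χ.smooth.continuous χ.off).comp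
    continuous_subtype_val).stronglyMeasurable

theorem sm_rhoS (P : TPack C M R G) (σ : Sl C) {g : ℝ} (hP : ContDiff ℝ 1 (P.Psi g)) (m : ℝ)
    (α : Fin 16) (χ : Amp M G σ) (L : Submodule ℝ (Cfg N)) :
    StronglyMeasurable fun q : L => rhoS P σ.X0 g m α χ.fn q :=
  ((continuous_rhoS P σ.X0 hP m α χ.smooth.continuous χ.off).comp
    continuous_subtype_val).stronglyMeasurable

end Crest.Agent.R330.RhoM151

end
end

-- ▼ part R330/LightM_916
section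

/-!
# Row 330, T5 (helper916): sizes of the light line

The moments `PairC714.Moms` of the light function `om` over 414's `TPack`, on `L = R⁹ ⊗ kk`.
-/

set_option autoImplicit false
set_option linter.unusedSectionVars false

open MeasureTheory Filter Topology Crest.MathPhysics.MatrixQM
open scoped ContDiff InnerProductSpace ENNReal

noncomputable section

namespace Crest.Agent.R330.LightM916

open Crest.Agent.R330.Frame839 hiding om
open Crest.Agent.R330.Defs478 Crest.Agent.R330.LS839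
  Crest.Agent.R330.Bind6839 Crest.Agent.R330.TDef414 Crest.Agent.R330.Split149
  Crest.Agent.R330.LitA974 Crest.Agent.R330.IBP837 Crest.Agent.R330.FreeC122
  Crest.Agent.R330.Clus839 Crest.Agent.R330.LightC916 Crest.Agent.R330.PairC714

/-! ### 1. Expansion in a basis -/

theorem norm_sq_le_basis {V W κ : Type*} [NormedAddCommGroup V] [InnerProductSpace ℂ V]
    [Fintype κ] [NormedAddCommGroup W] [NormedSpace ℂ W] (f : OrthonormalBasis κ ℂ V)
    (T : V →ₗ[ℂ] W) (v : V) : ‖T v‖ ^ 2 ≤ ‖v‖ ^ 2 * ∑ k, ‖T (f k)‖ ^ 2 := by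
  have h1 : T v = ∑ k, ⟪f k, v⟫_ℂ • T (f k) := by
    conv_lhs => rw [← f.sum_repr' v]
    simp only [map_sum, map_smul]
  have h2 : ‖T v‖ ≤ ∑ k, ‖⟪f k, v⟫_ℂ‖ * ‖T (f k)‖ := by
    rw [h1]
    exact (norm_sum_le _ _).trans (Finset.sum_le_sum fun k _ => (norm_smul _ _).le)
  have h3 : (∑ k, ‖⟪f k, v⟫_ℂ‖ * ‖T (f k)‖) ^ 2 ≤
      (∑ k, ‖⟪f k, v⟫_ℂ‖ ^ 2) * ∑ k, ‖T (f k)‖ ^ 2 := Finset.sum_mul_sq_le_sq_mul_sq _ _ _
  rw [f.sum_sq_norm_inner_right] at h3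
  exact (pow_le_pow_left₀ (norm_nonneg _) h2 2).trans h3

variable {N p : ℕ} {b : ColorBasis N} {S : Type} [Group S] [Fintype S] {C : Chn b p S}
  {F : Type*} [NormedAddCommGroup F] [InnerProductSpace ℂ F] [FiniteDimensional ℂ F]
  {M : FermionRep N F} {R : GaugeAction b M} {G : GammaNine}

/-- a basis of the amplitude space -/
def fB (C : Chn b p S) (M : FermionRep N F) (G : GammaNine) :
    OrthonormalBasis (Fin (Module.finrank ℂ (C.Fx M G))) ℂ (C.Fx M G) :=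
  stdOrthonormalBasis ℂ _

/-! ### 2. The state of the blocks on `Blk` -/

/-- `Y ↦ Psi_g(Y) f` on the blocks -/
def psB (P : TPack C M R G) (g : ℝ) (f : F) (Y : C.Blk) : F := P.Psi g (Y : Cfg N) f

section psB

variable {P : TPack C M R G} {g : ℝ}

theorem contDiff_psB {n : WithTop ℕ∞} (hP : ContDiff ℝ n (P.Psi g)) (f : F) :
    ContDiff ℝ n (psB P g f) := by
  rw [contDiff_iff_contDiffAt]
  intro Y
  exact contDiffAt_ev (c := fun Y : C.Blk => P.Psi g (Y : Cfg N))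
    (hP.contDiffAt.comp Y C.Blk.subtypeL.contDiff.contDiffAt) contDiffAt_const

theorem fderiv_psB (hP : ContDiff ℝ 1 (P.Psi g)) (f : F) (Y e : C.Blk) :
    fderiv ℝ (psB P g f) Y e = (fderiv ℝ (P.Psi g) (Y : Cfg N) (e : Cfg N)) f := by
  have h1 : HasFDerivAt (fun Y : C.Blk => P.Psi g (Y : Cfg N))
      ((fderiv ℝ (P.Psi g) (Y : Cfg N)).comp C.Blk.subtypeL) Y :=
    ((hP.differentiable (by simp) _).hasFDerivAt).comp Y C.Blk.subtypeL.hasFDerivAt
  have h2 := fderiv_ev (c := fun Y : C.Blk => P.Psi g (Y : Cfg N)) (v := fun _ => f)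
    h1.differentiableAt (differentiableAt_const _) e
  have h3 : fderiv ℝ (psB P g f) Y e = fderiv ℝ (fun Y : C.Blk => P.Psi g (Y : Cfg N) f) Y e := rfl
  rw [h3, h2, h1.fderiv]
  simp

theorem hcs_psB (f : F) : HasCompactSupport (psB P g f) := by
  refine HasCompactSupport.of_support_subset_isCompact
    (isCompact_closedBall (0 : C.Blk) (P.s g)) fun Y hY => ?_
  rw [Metric.mem_closedBall, dist_zero_right]
  by_contra h
  apply hY
  have h1 := P.Psi_supp g Y Y.2 (by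
    have : ‖(Y : Cfg N)‖ = ‖Y‖ := rfl
    rw [this]
    exact (not_le.1 h).le)
  unfold psB
  rw [h1]
  rfl

/-- the block charge, linear in the amplitude -/
def QL (P : TPack C M R G) (g : ℝ) (α : Fin 16) (Y : Cfg N) : F →ₗ[ℂ] F :=
  (∑ n, (aA M G α ((stdOrthonormalBasis ℝ C.Blk n : C.Blk) : Cfg N)).comp
    ((fderiv ℝ (P.Psi g) Y ((stdOrthonormalBasis ℝ C.Blk n : C.Blk) : Cfg N) : F →L[ℂ] F) :
      F →ₗ[ℂ] F)) + (wA b M G g 0 α Y).comp ((P.Psi g Y : F →L[ℂ] F) : F →ₗ[ℂ] F)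

theorem QL_apply (hP : ContDiff ℝ 1 (P.Psi g)) (α : Fin 16) (f : F) (Y : Cfg N) :
    QL P g α Y f = qblk C M G g α (fun Y => P.Psi g Y f) Y := by
  unfold QL qblk
  have hfd : ∀ n, fderiv ℝ (fun Y => P.Psi g Y f) Y
      ((stdOrthonormalBasis ℝ C.Blk n : C.Blk) : Cfg N) =
      (fderiv ℝ (P.Psi g) Y ((stdOrthonormalBasis ℝ C.Blk n : C.Blk) : Cfg N)) f := by
    intro n
    rw [fderiv_ev (hP.differentiable (by simp) _) (differentiableAt_const _)]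
    simp
  simp only [LinearMap.add_apply, LinearMap.sum_apply, LinearMap.comp_apply,
    ContinuousLinearMap.coe_coe, hfd]

theorem QL_blk (hP : ContDiff ℝ 1 (P.Psi g)) (α : Fin 16) (f : F) (Y : C.Blk) :
    QL P g α (Y : Cfg N) f =
      (∑ n, aA M G α ((stdOrthonormalBasis ℝ C.Blk n : C.Blk) : Cfg N)
        (fderiv ℝ (psB P g f) Y (stdOrthonormalBasis ℝ C.Blk n))) +
      wA b M G g 0 α (Y : Cfg N) (psB P g f Y) := by
  unfold QL
  simp only [LinearMap.add_apply, LinearMap.sum_apply, LinearMap.comp_apply,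
    ContinuousLinearMap.coe_coe, fderiv_psB hP]
  rfl

theorem continuous_wA {X : Type*} [TopologicalSpace X] (g m : ℝ) (α : Fin 16) {x : X → Cfg N}
    {f : X → F} (hx : Continuous x) (hf : Continuous f) :
    Continuous fun s => wA b M G g m α (x s) (f s) := by
  unfold wA
  refine PairL_862.continuous_vco M (fun β A => ?_) hf
  simp only [wpot_wb]
  exact (((PairL_862.continuous_wb b G α β A).comp (hx.prodMk hx)).const_mul g).sub
    (((PairL_862.continuous_wl G α β A).comp hx).const_mul m)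

theorem continuous_QL (hP : ContDiff ℝ 1 (P.Psi g)) (α : Fin 16) (f : F) :
    Continuous fun Y : C.Blk => QL P g α (Y : Cfg N) f := by
  simp only [QL_blk hP]
  refine Continuous.add (continuous_finsetSum _ fun n _ => ?_) ?_
  · refine (aA M G α _).continuous_of_finiteDimensional.comp ?_
    exact ((contDiff_psB hP f).continuous_fderiv (by simp)).clm_apply continuous_const
  · exact continuous_wA g 0 α continuous_subtype_val (contDiff_psB hP f).continuous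

theorem hcs_QL (hP : ContDiff ℝ 1 (P.Psi g)) (α : Fin 16) (f : F) :
    HasCompactSupport fun Y : C.Blk => QL P g α (Y : Cfg N) f := by
  refine HasCompactSupport.of_support_subset_isCompact (hcs_psB (P := P) (g := g) f)
    fun Y hY => ?_
  by_contra h
  apply hY
  show QL P g α (Y : Cfg N) f = 0
  have h1 : psB P g f Y = 0 := image_eq_zero_of_notMem_tsupport h
  have h2 : fderiv ℝ (psB P g f) Y = 0 := by
    by_contra h3
    exact h (support_fderiv_subset ℝ h3)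
  rw [QL_blk hP, h1, h2]
  simp

end psB

/-! ### 3. Integrals over `L` of products -/

theorem int_prod (X0 : Pos p) {a : Pos p → ℝ} {c : C.Blk → ℝ} (ha : Continuous a)
    (hac : HasCompactSupport a) (hc : Continuous c) (hcc : HasCompactSupport c) :
    Integrable (fun q : Tup C.kk => a (X0 + C.cfT q) * c ⟨C.PY q, PY_mem C q⟩) ∧
      ∫ q : Tup C.kk, a (X0 + C.cfT q) * c ⟨C.PY q, PY_mem C q⟩ =
        (∫ X, a X) * ∫ Y, c Y := by
  have e1 : ∀ q : Pos p × C.Blk, C.cfT ((iP C q.1 + iB C q.2 : Tup C.kk) : Cfg N) = q.1 := by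
    intro q
    show C.cfT (C.cf q.1 + (q.2 : Cfg N)) = q.1
    rw [map_add, C.cfT_cf, cfT_Blk C q.2.2, add_zero]
  have e2 : ∀ q : Pos p × C.Blk, (⟨C.PY ((iP C q.1 + iB C q.2 : Tup C.kk) : Cfg N),
      PY_mem C _⟩ : C.Blk) = q.2 := by
    intro q
    apply Subtype.ext
    show C.PY (C.cf q.1 + (q.2 : Cfg N)) = q.2
    have := PY_coord C (X := q.1) (Y := q.2) (z := 0) q.2.2 (Submodule.zero_mem _)
    rwa [add_zero] at this
  have i1 : Integrable a := ha.integrable_of_hasCompactSupport hac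
  have i1' : Integrable (fun X => a (X0 + X)) := i1.comp_add_left X0
  have i2 : Integrable c := hc.integrable_of_hasCompactSupport hcc
  have i3 : Integrable (fun q : Pos p × C.Blk => a (X0 + q.1) * c q.2) := i1'.mul_prod i2
  have h1 : (fun q : Pos p × C.Blk => a (X0 + C.cfT ((iP C q.1 + iB C q.2 : Tup C.kk) : Cfg N)) *
      c ⟨C.PY ((iP C q.1 + iB C q.2 : Tup C.kk) : Cfg N), PY_mem C _⟩) =
      fun q => a (X0 + q.1) * c q.2 := by
    funext q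
    rw [e1, e2]
  constructor
  · refine ((split_kk C).mp.integrable_comp_emb (split_kk C).me).1 ?_
    show Integrable (fun q : Pos p × C.Blk => a (X0 + C.cfT ((iP C q.1 + iB C q.2 : Tup C.kk) :
      Cfg N)) * c ⟨C.PY ((iP C q.1 + iB C q.2 : Tup C.kk) : Cfg N), PY_mem C _⟩)
    rw [h1]
    exact i3
  · rw [← (split_kk C).mp.integral_comp (split_kk C).me]
    have h2 : ∫ q : Pos p × C.Blk, a (X0 + q.1) * c q.2 = (∫ X, a (X0 + X)) * ∫ Y, c Y :=
      integral_prod_mul (fun X => a (X0 + X)) c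
    rw [h1, h2, integral_add_left_eq_self (fun X => a X) X0]

/-! ### 4. The base functions on the blocks -/

/-- `Σ_k ‖Psi_g(Y) f_k‖²` -/
def S0 (P : TPack C M R G) (g : ℝ) (Y : C.Blk) : ℝ :=
  ∑ k, ‖psB P g ((fB C M G k : C.Fx M G) : F) Y‖ ^ 2

/-- `Σ_k ‖D Psi_g(Y) f_k‖²` -/
def S1 (P : TPack C M R G) (g : ℝ) (Y : C.Blk) : ℝ :=
  ∑ k, ‖fderiv ℝ (psB P g ((fB C M G k : C.Fx M G) : F)) Y‖ ^ 2

/-- `Σ_k ‖Q Psi_g(Y) f_k‖²` -/
def SQ (P : TPack C M R G) (g : ℝ) (α : Fin 16) (Y : C.Blk) : ℝ :=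
  ∑ k, ‖QL P g α (Y : Cfg N) ((fB C M G k : C.Fx M G) : F)‖ ^ 2

theorem S0_nonneg (P : TPack C M R G) (g : ℝ) (Y : C.Blk) : 0 ≤ S0 P g Y :=
  Finset.sum_nonneg fun _ _ => sq_nonneg _

theorem S1_nonneg (P : TPack C M R G) (g : ℝ) (Y : C.Blk) : 0 ≤ S1 P g Y :=
  Finset.sum_nonneg fun _ _ => sq_nonneg _


theorem hcs_nsq {X : Type*} [TopologicalSpace X] {W : Type*} [NormedAddCommGroup W] {f : X → W}
    (h : HasCompactSupport f) : HasCompactSupport fun x => ‖f x‖ ^ 2 :=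
  h.comp_left (g := fun w : W => ‖w‖ ^ 2) (by simp)

theorem cont_nsq {X : Type*} [TopologicalSpace X] {W : Type*} [NormedAddCommGroup W] {f : X → W}
    (h : Continuous f) : Continuous fun x => ‖f x‖ ^ 2 := h.norm.pow 2

theorem cont_sum {X κ : Type*} [TopologicalSpace X] [Fintype κ] {W : Type*}
    [NormedAddCommGroup W] {f : κ → X → W} (h : ∀ k, Continuous (f k)) :
    Continuous fun x => ∑ k, ‖f k x‖ ^ 2 := continuous_finsetSum _ fun k _ => cont_nsq (h k)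

theorem hcs_sum {X κ : Type*} [TopologicalSpace X] [Fintype κ] {W : Type*}
    [NormedAddCommGroup W] {f : κ → X → W} (h : ∀ k, HasCompactSupport (f k)) :
    HasCompactSupport fun x => ∑ k, ‖f k x‖ ^ 2 := by
  classical
  have h1 : ∀ s : Finset κ, HasCompactSupport fun x => ∑ k ∈ s, ‖f k x‖ ^ 2 := by
    intro s
    induction s using Finset.induction_on with
    | empty =>
      simp only [Finset.sum_empty]
      exact HasCompactSupport.zero
    | insert a s ha ih =>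
      simp only [Finset.sum_insert ha]
      exact HasCompactSupport.add (hcs_nsq (h a)) ih
  exact h1 _

section S

variable {P : TPack C M R G} {g : ℝ}

theorem continuous_S0 (hP : ContDiff ℝ 1 (P.Psi g)) : Continuous (S0 P g) :=
  cont_sum (f := fun k => psB P g ((fB C M G k : C.Fx M G) : F))
    fun _ => (contDiff_psB hP _).continuous

theorem continuous_S1 (hP : ContDiff ℝ 1 (P.Psi g)) : Continuous (S1 P g) :=
  cont_sum (f := fun k => fderiv ℝ (psB P g ((fB C M G k : C.Fx M G) : F)))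
    fun _ => (contDiff_psB hP _).continuous_fderiv (by simp)

theorem continuous_SQ (hP : ContDiff ℝ 1 (P.Psi g)) (α : Fin 16) : Continuous (SQ P g α) :=
  cont_sum (f := fun k (Y : C.Blk) => QL P g α (Y : Cfg N) ((fB C M G k : C.Fx M G) : F))
    fun _ => continuous_QL hP α _

theorem hcs_S0 : HasCompactSupport (S0 P g) :=
  hcs_sum (f := fun k => psB P g ((fB C M G k : C.Fx M G) : F)) fun _ => hcs_psB _

theorem hcs_S1 : HasCompactSupport (S1 P g) :=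
  hcs_sum (f := fun k => fderiv ℝ (psB P g ((fB C M G k : C.Fx M G) : F)))
    fun _ => (hcs_psB _).fderiv ℝ

theorem hcs_SQ (hP : ContDiff ℝ 1 (P.Psi g)) (α : Fin 16) : HasCompactSupport (SQ P g α) :=
  hcs_sum (f := fun k (Y : C.Blk) => QL P g α (Y : Cfg N) ((fB C M G k : C.Fx M G) : F))
    fun _ => hcs_QL hP α _

theorem psi_le (v : C.Fx M G) (Y : C.Blk) :
    ‖P.Psi g (Y : Cfg N) (v : F)‖ ^ 2 ≤ ‖v‖ ^ 2 * S0 P g Y :=
  norm_sq_le_basis (fB C M G) (((P.Psi g (Y : Cfg N) : F →L[ℂ] F) : F →ₗ[ℂ] F).comp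
    (C.Fx M G).subtype) v

theorem QL_le (α : Fin 16) (v : C.Fx M G) (Y : C.Blk) :
    ‖QL P g α (Y : Cfg N) (v : F)‖ ^ 2 ≤ ‖v‖ ^ 2 * SQ P g α Y :=
  norm_sq_le_basis (fB C M G) ((QL P g α (Y : Cfg N)).comp (C.Fx M G).subtype) v

theorem der_le (hP : ContDiff ℝ 1 (P.Psi g)) (v : C.Fx M G) (Y e : C.Blk) :
    ‖(fderiv ℝ (P.Psi g) (Y : Cfg N) (e : Cfg N)) (v : F)‖ ^ 2 ≤
      ‖v‖ ^ 2 * (‖e‖ ^ 2 * S1 P g Y) := by
  have h := norm_sq_le_basis (fB C M G)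
    (((fderiv ℝ (P.Psi g) (Y : Cfg N) (e : Cfg N) : F →L[ℂ] F) : F →ₗ[ℂ] F).comp
      (C.Fx M G).subtype) v
  refine h.trans (mul_le_mul_of_nonneg_left ?_ (sq_nonneg _))
  unfold S1
  rw [Finset.mul_sum]
  refine Finset.sum_le_sum fun k _ => ?_
  have h1 : (((fderiv ℝ (P.Psi g) (Y : Cfg N) (e : Cfg N) : F →L[ℂ] F) : F →ₗ[ℂ] F).comp
      (C.Fx M G).subtype) (fB C M G k) =
      fderiv ℝ (psB P g ((fB C M G k : C.Fx M G) : F)) Y e := (fderiv_psB hP _ Y e).symm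
  rw [h1, mul_comm (‖e‖ ^ 2), ← mul_pow]
  exact pow_le_pow_left₀ (norm_nonneg _) (ContinuousLinearMap.le_opNorm _ _) 2

end S

/-! ### 5. The asymptotics of the block integrals -/

theorem fB_norm (k : Fin (Module.finrank ℂ (C.Fx M G))) :
    ‖((fB C M G k : C.Fx M G) : F)‖ = 1 := (fB C M G).orthonormal.1 k

theorem ev_C1 (P : TPack C M R G) : ∀ᶠ g in atTop, ContDiff ℝ 1 (P.Psi g) := by
  filter_upwards [P.Psi_smooth] with g hg
  exact hg.of_le (by exact_mod_cast le_top)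

theorem int_S0 (P : TPack C M R G) : ∃ K : ℝ, ∀ᶠ g in atTop, ∫ Y, S0 P g Y ≤ K := by
  have h1 : ∀ k, ∀ᶠ g in atTop,
      ∫ Y, ‖psB P g ((fB C M G k : C.Fx M G) : F) Y‖ ^ 2 ≤ 2 := by
    intro k
    have h2 := P.Psi_iso _ (fB C M G k).2 _ (fB C M G k).2
    have h3 : ⟪((fB C M G k : C.Fx M G) : F), ((fB C M G k : C.Fx M G) : F)⟫_ℂ = 1 := by
      rw [inner_self_eq_norm_sq_to_K, fB_norm]
      simp
    rw [h3] at h2
    have h4 := (Complex.continuous_re.tendsto _).comp h2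
    have h5 := (tendsto_order.1 h4).2 2 (by simp)
    filter_upwards [h5] with g hg
    have h6 : ∫ Y : C.Blk, ⟪P.Psi g Y ((fB C M G k : C.Fx M G) : F),
        P.Psi g Y ((fB C M G k : C.Fx M G) : F)⟫_ℂ =
        ((∫ Y, ‖psB P g ((fB C M G k : C.Fx M G) : F) Y‖ ^ 2 : ℝ) : ℂ) :=
      (BlkSplit837.integral_norm_sq_eq _).symm
    have h7 : (Complex.re ∘ fun g => ∫ Y : C.Blk, ⟪P.Psi g Y ((fB C M G k : C.Fx M G) : F),
        P.Psi g Y ((fB C M G k : C.Fx M G) : F)⟫_ℂ) g =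
        ∫ Y, ‖psB P g ((fB C M G k : C.Fx M G) : F) Y‖ ^ 2 := by
      show Complex.re (∫ Y : C.Blk, ⟪P.Psi g Y ((fB C M G k : C.Fx M G) : F),
        P.Psi g Y ((fB C M G k : C.Fx M G) : F)⟫_ℂ) = _
      rw [h6, Complex.ofReal_re]
    rw [h7] at hg
    exact hg.le
  refine ⟨∑ _k : Fin (Module.finrank ℂ (C.Fx M G)), (2 : ℝ), ?_⟩
  filter_upwards [eventually_all.2 h1, ev_C1 P] with g hg hP
  unfold S0
  rw [integral_finsetSum _ fun k _ => (cont_nsq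
    (contDiff_psB hP _).continuous).integrable_of_hasCompactSupport (hcs_nsq (hcs_psB _))]
  exact Finset.sum_le_sum fun k _ => hg k

theorem int_yS0 (P : TPack C M R G) :
    Tendsto (fun g => ∫ Y : C.Blk, ‖Y‖ ^ 2 * S0 P g Y) atTop (𝓝 0) := by
  obtain ⟨K, hK⟩ := P.Psi_mom
  have h0 : Tendsto (fun g : ℝ => (∑ _k : Fin (Module.finrank ℂ (C.Fx M G)), K) *
      (g ^ ((2 : ℝ) / 3))⁻¹) atTop (𝓝 0) := by
    have h1 : Tendsto (fun g : ℝ => (g ^ ((2 : ℝ) / 3))⁻¹) atTop (𝓝 0) :=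
      (tendsto_rpow_atTop (by norm_num)).inv_tendsto_atTop
    simpa using h1.const_mul (∑ _k : Fin (Module.finrank ℂ (C.Fx M G)), K)
  refine squeeze_zero' (Eventually.of_forall fun g => integral_nonneg fun Y =>
    mul_nonneg (sq_nonneg _) (S0_nonneg P g Y)) ?_ h0
  filter_upwards [hK, ev_C1 P, eventually_gt_atTop 0] with g hg hP hgp
  have hgr : 0 < g ^ ((2 : ℝ) / 3) := Real.rpow_pos_of_pos hgp _
  have h2 : ∀ Y : C.Blk, ‖Y‖ ^ 2 * S0 P g Y =
      ∑ k, ‖Y‖ ^ 2 * ‖psB P g ((fB C M G k : C.Fx M G) : F) Y‖ ^ 2 := fun Y => by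
    unfold S0
    rw [Finset.mul_sum]
  simp only [h2]
  have hint : ∀ k, Integrable fun Y : C.Blk =>
      ‖Y‖ ^ 2 * ‖psB P g ((fB C M G k : C.Fx M G) : F) Y‖ ^ 2 := fun k =>
    ((cont_nsq continuous_id).mul (cont_nsq
      (contDiff_psB hP _).continuous)).integrable_of_hasCompactSupport
        ((hcs_nsq (hcs_psB _)).mul_left)
  rw [integral_finsetSum _ fun k _ => hint k, Finset.sum_mul]
  refine Finset.sum_le_sum fun k _ => ?_
  have h3 := hg _ (fB C M G k).2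
  rw [fB_norm, one_pow, mul_one] at h3
  have h4 : ∫ Y : C.Blk, ‖Y‖ ^ 2 * ‖psB P g ((fB C M G k : C.Fx M G) : F) Y‖ ^ 2 =
      ∫ Y : C.Blk, ‖(Y : Cfg N)‖ ^ 2 * ‖P.Psi g Y ((fB C M G k : C.Fx M G) : F)‖ ^ 2 := rfl
  rw [h4, ← div_eq_mul_inv, le_div_iff₀ hgr, mul_comm]
  exact h3

theorem hint_S1 (P : TPack C M R G) {g : ℝ} (hP : ContDiff ℝ 1 (P.Psi g)) (f : F) :
    Integrable fun Y : C.Blk => ‖fderiv ℝ (psB P g f) Y‖ ^ 2 :=
  (cont_nsq (f := fderiv ℝ (psB P g f)) ((contDiff_psB hP f).continuous_fderiv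
    (by simp))).integrable_of_hasCompactSupport (hcs_nsq ((hcs_psB f).fderiv ℝ))

theorem int_S1 (P : TPack C M R G) :
    Tendsto (fun g => g⁻¹ * ∫ Y : C.Blk, S1 P g Y) atTop (𝓝 0) := by
  obtain ⟨K, hK⟩ := P.Psi_grad
  have h0 : Tendsto (fun g : ℝ => (∑ _k : Fin (Module.finrank ℂ (C.Fx M G)), K) *
      g ^ (-((1 : ℝ) / 3))) atTop (𝓝 0) := by
    have h1 : Tendsto (fun g : ℝ => g ^ (-((1 : ℝ) / 3))) atTop (𝓝 0) :=
      tendsto_rpow_neg_atTop (by norm_num)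
    simpa using h1.const_mul (∑ _k : Fin (Module.finrank ℂ (C.Fx M G)), K)
  refine squeeze_zero' ?_ ?_ h0
  · filter_upwards [eventually_gt_atTop 0] with g hg
    exact mul_nonneg (inv_nonneg.2 hg.le) (integral_nonneg fun Y => S1_nonneg P g Y)
  filter_upwards [hK, ev_C1 P, eventually_gt_atTop 0] with g hg hP hgp
  unfold S1
  rw [integral_finsetSum _ fun k _ => hint_S1 P hP _, Finset.mul_sum, Finset.sum_mul]
  refine Finset.sum_le_sum fun k _ => ?_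
  have h3 := hg _ (fB C M G k).2
  rw [fB_norm, one_pow, mul_one] at h3
  have h4 : ∫ Y : C.Blk, ‖fderiv ℝ (psB P g ((fB C M G k : C.Fx M G) : F)) Y‖ ^ 2 ≤
      K * g ^ ((2 : ℝ) / 3) := h3
  have h5 : g⁻¹ * (K * g ^ ((2 : ℝ) / 3)) = K * g ^ (-((1 : ℝ) / 3)) := by
    have h6 : g⁻¹ = g ^ (-1 : ℝ) := by rw [Real.rpow_neg_one]
    rw [h6, mul_left_comm, ← Real.rpow_add hgp]
    norm_num
  calc _ ≤ g⁻¹ * (K * g ^ ((2 : ℝ) / 3)) :=
        mul_le_mul_of_nonneg_left h4 (inv_nonneg.2 hgp.le)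
    _ = _ := h5

theorem int_SQ (P : TPack C M R G) (α : Fin 16) :
    Tendsto (fun g => ∫ Y : C.Blk, SQ P g α Y) atTop (𝓝 0) := by
  have h1 : Tendsto (fun g => ∑ k, ∫ Y : C.Blk, ‖qblk C M G g α
      (fun Y => P.Psi g Y ((fB C M G k : C.Fx M G) : F)) Y‖ ^ 2) atTop (𝓝 0) := by
    have h2 := tendsto_finsetSum (Finset.univ : Finset (Fin (Module.finrank ℂ (C.Fx M G))))
      fun k _ => P.Psi_charge _ (fB C M G k).2 α
    simpa using h2
  refine h1.congr' ?_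
  filter_upwards [ev_C1 P] with g hP
  unfold SQ
  rw [integral_finsetSum _ fun k _ => (cont_nsq
    (continuous_QL hP α _)).integrable_of_hasCompactSupport (hcs_nsq (hcs_QL hP α _))]
  refine Finset.sum_congr rfl fun k _ => ?_
  simp only [QL_apply hP]

/-! ### 6. Smoothness and supports -/

section reg

variable {P : TPack C M R G} {X0 : Pos p} {g : ℝ} {χ : Pos p → C.Fx M G}

theorem cont_X (X0 : Pos p) : Continuous fun u : Cfg N => X0 + C.cfT u :=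
  continuous_const.add C.cfT.continuous

theorem ev_chi_zero {u : Cfg N} (h : X0 + C.cfT u ∉ tsupport χ) :
    ∀ᶠ v in 𝓝 u, χ (X0 + C.cfT v) = 0 := by
  have h1 : ∀ᶠ v in 𝓝 u, X0 + C.cfT v ∈ (tsupport χ)ᶜ :=
    (cont_X X0).continuousAt.eventually_mem ((isClosed_tsupport χ).isOpen_compl.mem_nhds h)
  filter_upwards [h1] with v hv
  exact image_eq_zero_of_notMem_tsupport hv

theorem om_zero {u : Cfg N} (h : χ (X0 + C.cfT u) = 0) : om P X0 g χ u = 0 := by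
  unfold om
  rw [h]
  simp

theorem rhoE_zero {α : Fin 16} {u : Cfg N} (h : χ (X0 + C.cfT u) = 0) :
    rhoE P X0 g α χ u = 0 := by
  unfold rhoE
  rw [h]
  simp

theorem rhoS_eq (hP : ContDiff ℝ 1 (P.Psi g)) (m : ℝ) (α : Fin 16) (u : Cfg N) :
    rhoS P X0 g m α χ u =
      P.U (X0 + C.cfT u) (QL P g α (C.PY u) ((χ (X0 + C.cfT u) : C.Fx M G) : F)) +
        wA b M G 0 m α (C.PY u) (om P X0 g χ u) := by
  unfold rhoS
  rw [QL_apply hP]

theorem rhoS_zero (hP : ContDiff ℝ 1 (P.Psi g)) {m : ℝ} {α : Fin 16} {u : Cfg N}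
    (h : χ (X0 + C.cfT u) = 0) : rhoS P X0 g m α χ u = 0 := by
  rw [rhoS_eq hP, om_zero h, h]
  simp

theorem contDiff_om {n : WithTop ℕ∞} (hn : n ≤ ((⊤ : ℕ∞) : WithTop ℕ∞)) (hP : ContDiff ℝ ∞ (P.Psi g))
    (hχ : ContDiff ℝ ∞ χ) (hs : ∀ X ∈ tsupport χ, C.BReg X) : ContDiff ℝ n (om P X0 g χ) := by
  rw [contDiff_iff_contDiffAt]
  intro u
  by_cases h : X0 + C.cfT u ∈ tsupport χ
  · have hX : ContDiffAt ℝ ∞ (fun u : Cfg N => X0 + C.cfT u) u :=
      (contDiff_const.add C.cfT.contDiff).contDiffAt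
    have h1 : ContDiffAt ℝ ∞ (fun u => P.U (X0 + C.cfT u)) u :=
      (P.U_smooth _ (hs _ h)).comp u hX
    have h2 : ContDiffAt ℝ ∞ (fun u => P.Psi g (C.PY u)) u :=
      hP.contDiffAt.comp u (PYL C).contDiff.contDiffAt
    have h3 : ContDiffAt ℝ ∞ (fun u => ((χ (X0 + C.cfT u) : C.Fx M G) : F)) u :=
      (((C.Fx M G).subtypeL.restrictScalars ℝ).contDiff.contDiffAt).comp u
        (hχ.contDiffAt.comp u hX)
    exact (contDiffAt_ev h1 (contDiffAt_ev h2 h3)).of_le hn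
  · have h1 : om P X0 g χ =ᶠ[𝓝 u] fun _ => 0 := by
      filter_upwards [ev_chi_zero h] with v hv
      exact om_zero hv
    exact contDiffAt_const.congr_of_eventuallyEq h1

theorem continuous_om (hP : ContDiff ℝ ∞ (P.Psi g)) (hχ : ContDiff ℝ ∞ χ)
    (hs : ∀ X ∈ tsupport χ, C.BReg X) : Continuous (om P X0 g χ) :=
  (contDiff_om (n := 0) (by simp) hP hχ hs).continuous

theorem continuous_rhoE (hP : ContDiff ℝ ∞ (P.Psi g)) (hχ : ContDiff ℝ ∞ χ)
    (hs : ∀ X ∈ tsupport χ, C.BReg X) (α : Fin 16) : Continuous (rhoE P X0 g α χ) := by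
  rw [continuous_iff_continuousAt]
  intro u
  by_cases h : X0 + C.cfT u ∈ tsupport χ
  · have h1 : ContinuousAt (fun u => fderiv ℝ P.U (X0 + C.cfT u)) u :=
      ContinuousAt.comp (g := fderiv ℝ P.U)
        (((P.U_smooth _ (hs _ h)).fderiv_right (m := 0) (by simp)).continuousAt)
        (cont_X X0).continuousAt
    have h2 : Continuous (fun u : Cfg N => P.Psi g (C.PY u)
        ((χ (X0 + C.cfT u) : C.Fx M G) : F)) :=
      (hP.continuous.comp (continuous_PY C)).clm_apply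
        (continuous_subtype_val.comp (hχ.continuous.comp (cont_X X0)))
    unfold rhoE
    refine tendsto_finsetSum _ fun q _ => ?_
    exact (aA M G α _).continuous_of_finiteDimensional.continuousAt.comp
      ((h1.clm_apply continuousAt_const).clm_apply h2.continuousAt)
  · have h1 : rhoE P X0 g α χ =ᶠ[𝓝 u] fun _ => 0 := by
      filter_upwards [ev_chi_zero h] with v hv
      exact rhoE_zero hv
    exact continuousAt_const.congr h1.symm

/-- `QL` as a function of `Y ∈ Cfg N`, `f` -/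
theorem continuous_QL' (hP : ContDiff ℝ ∞ (P.Psi g)) (α : Fin 16) {X : Type*}
    [TopologicalSpace X] {y : X → Cfg N} {f : X → F} (hy : Continuous y) (hf : Continuous f) :
    Continuous fun s => QL P g α (y s) (f s) := by
  unfold QL
  simp only [LinearMap.add_apply, LinearMap.sum_apply, LinearMap.comp_apply,
    ContinuousLinearMap.coe_coe]
  refine Continuous.add (continuous_finsetSum _ fun n _ => ?_) ?_
  · refine (aA M G α _).continuous_of_finiteDimensional.comp ?_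
    exact ((((hP.continuous_fderiv (by simp)).comp hy).clm_apply
      continuous_const).clm_apply hf)
  · exact continuous_wA g 0 α hy ((hP.continuous.comp hy).clm_apply hf)

theorem continuous_rhoS (hP : ContDiff ℝ ∞ (P.Psi g)) (hχ : ContDiff ℝ ∞ χ)
    (hs : ∀ X ∈ tsupport χ, C.BReg X) (m : ℝ) (α : Fin 16) :
    Continuous (rhoS P X0 g m α χ) := by
  have hP1 : ContDiff ℝ 1 (P.Psi g) := hP.of_le (by exact_mod_cast le_top)
  rw [continuous_iff_continuousAt]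
  intro u
  by_cases h : X0 + C.cfT u ∈ tsupport χ
  · have h1 : ContinuousAt (fun u => P.U (X0 + C.cfT u)) u :=
      ContinuousAt.comp (g := P.U) (P.U_smooth _ (hs _ h)).continuousAt (cont_X X0).continuousAt
    have h2 : Continuous fun u : Cfg N => QL P g α (C.PY u)
        ((χ (X0 + C.cfT u) : C.Fx M G) : F) :=
      continuous_QL' hP α (continuous_PY C)
        (continuous_subtype_val.comp (hχ.continuous.comp (cont_X X0)))
    have h3 : Continuous fun u => wA b M G 0 m α (C.PY u) (om P X0 g χ u) :=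
      continuous_wA 0 m α (continuous_PY C) (continuous_om hP hχ hs)
    have h4 : rhoS P X0 g m α χ = fun u =>
        P.U (X0 + C.cfT u) (QL P g α (C.PY u) ((χ (X0 + C.cfT u) : C.Fx M G) : F)) +
        wA b M G 0 m α (C.PY u) (om P X0 g χ u) := funext fun u => rhoS_eq hP1 m α u
    rw [h4]
    exact (h1.clm_apply h2.continuousAt).add h3.continuousAt
  · have h1 : rhoS P X0 g m α χ =ᶠ[𝓝 u] fun _ => 0 := by
      filter_upwards [ev_chi_zero h] with v hv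
      exact rhoS_zero hP1 hv
    exact continuousAt_const.congr h1.symm

end reg

/-! ### 7. Pointwise bounds -/

theorem exists_KU (P : TPack C M R G) {χ : Pos p → C.Fx M G} (hc : HasCompactSupport χ)
    (hs : ∀ X ∈ tsupport χ, C.BReg X) :
    ∃ K : ℝ, 0 ≤ K ∧ ∀ X ∈ tsupport χ, ‖P.U X‖ ≤ K ∧ ‖fderiv ℝ P.U X‖ ≤ K := by
  obtain ⟨K1, h1⟩ := IsCompact.exists_bound_of_continuousOn (f := P.U) (s := tsupport χ) hc
    fun X hX => (P.U_smooth X (hs X hX)).continuousAt.continuousWithinAt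
  obtain ⟨K2, h2⟩ := IsCompact.exists_bound_of_continuousOn (f := fderiv ℝ P.U)
    (s := tsupport χ) hc fun X hX => (((P.U_smooth X (hs X hX)).fderiv_right (m := 0)
      (by simp)).continuousAt).continuousWithinAt
  refine ⟨max (max K1 K2) 0, le_max_right _ _, fun X hX => ⟨?_, ?_⟩⟩
  · exact (h1 X hX).trans ((le_max_left _ _).trans (le_max_left _ _))
  · exact (h2 X hX).trans ((le_max_right _ _).trans (le_max_left _ _))

section bd

variable {P : TPack C M R G} {X0 : Pos p} {g : ℝ} {χ : Pos p → C.Fx M G} {K : ℝ}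

/-- the point of the blocks -/
def bY (C : Chn b p S) (u : Cfg N) : C.Blk := ⟨C.PY u, PY_mem C u⟩

theorem om_le (hK : ∀ X ∈ tsupport χ, ‖P.U X‖ ≤ K ∧ ‖fderiv ℝ P.U X‖ ≤ K)
    (u : Cfg N) : ‖om P X0 g χ u‖ ^ 2 ≤
      K ^ 2 * (‖χ (X0 + C.cfT u)‖ ^ 2 * S0 P g (bY C u)) := by
  by_cases h : χ (X0 + C.cfT u) = 0
  · rw [om_zero h, h]
    simp
  · have h1 : X0 + C.cfT u ∈ tsupport χ := subset_tsupport _ h
    have h2 : ‖om P X0 g χ u‖ ≤ K * ‖P.Psi g (C.PY u) ((χ (X0 + C.cfT u) : C.Fx M G) : F)‖ :=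
      (ContinuousLinearMap.le_opNorm _ _).trans
        (mul_le_mul_of_nonneg_right (hK _ h1).1 (norm_nonneg _))
    calc ‖om P X0 g χ u‖ ^ 2
        ≤ (K * ‖P.Psi g (C.PY u) ((χ (X0 + C.cfT u) : C.Fx M G) : F)‖) ^ 2 :=
          pow_le_pow_left₀ (norm_nonneg _) h2 2
      _ = K ^ 2 * ‖P.Psi g (C.PY u) ((χ (X0 + C.cfT u) : C.Fx M G) : F)‖ ^ 2 := mul_pow _ _ _
      _ ≤ _ := mul_le_mul_of_nonneg_left (psi_le (χ (X0 + C.cfT u)) (bY C u)) (sq_nonneg K)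

/-- a bound for the coefficients `aA` -/
theorem exists_aA (M : FermionRep N F) (G : GammaNine) :
    ∃ K : ℝ, 0 ≤ K ∧ ∀ (α : Fin 16) (e : Cfg N) (f : F), ‖aA M G α e f‖ ≤ K * ‖e‖ * ‖f‖ := by
  obtain ⟨K, hK, h⟩ := LS839.exists_Theta_bound M G
  refine ⟨K, hK, fun α e f => ?_⟩
  unfold aA
  rw [LinearMap.smul_apply, norm_smul, norm_neg, Complex.norm_I, one_mul]
  exact h α e f

theorem rhoE_le (α : Fin 16) {KT : ℝ} (hKT : 0 ≤ KT)
    (hT : ∀ (α : Fin 16) (e : Cfg N) (f : F), ‖aA M G α e f‖ ≤ KT * ‖e‖ * ‖f‖)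
    (hK : ∀ X ∈ tsupport χ, ‖P.U X‖ ≤ K ∧ ‖fderiv ℝ P.U X‖ ≤ K)
    (u : Cfg N) : ‖rhoE P X0 g α χ u‖ ^ 2 ≤ (Fintype.card (Fin 9 × Fin p) * (KT * K)) ^ 2 *
      (‖χ (X0 + C.cfT u)‖ ^ 2 * S0 P g (bY C u)) := by
  by_cases h : χ (X0 + C.cfT u) = 0
  · rw [rhoE_zero h, h]
    simp
  · have h1 : X0 + C.cfT u ∈ tsupport χ := subset_tsupport _ h
    set v := P.Psi g (C.PY u) ((χ (X0 + C.cfT u) : C.Fx M G) : F) with hv
    have h2 : ‖rhoE P X0 g α χ u‖ ≤ Fintype.card (Fin 9 × Fin p) * (KT * K) * ‖v‖ := by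
      unfold rhoE
      refine (norm_sum_le _ _).trans ?_
      have h3 : ∀ q ∈ (Finset.univ : Finset (Fin 9 × Fin p)),
          ‖aA M G α (C.cf (EuclideanSpace.single q 1))
            ((fderiv ℝ P.U (X0 + C.cfT u) (EuclideanSpace.single q 1)) v)‖ ≤
              KT * K * ‖v‖ := by
        intro q _
        refine (hT α _ _).trans ?_
        rw [C.cf.norm_map]
        have h4 : ‖(EuclideanSpace.single q (1 : ℝ) : Pos p)‖ = 1 := by simp
        rw [h4, mul_one, mul_assoc]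
        refine mul_le_mul_of_nonneg_left ?_ hKT
        refine (ContinuousLinearMap.le_opNorm _ _).trans
          (mul_le_mul_of_nonneg_right ?_ (norm_nonneg _))
        refine (ContinuousLinearMap.le_opNorm _ _).trans ?_
        rw [h4, mul_one]
        exact (hK _ h1).2
      refine (Finset.sum_le_sum h3).trans (le_of_eq ?_)
      rw [Finset.sum_const, Finset.card_univ, nsmul_eq_mul]
      ring
    calc ‖rhoE P X0 g α χ u‖ ^ 2
        ≤ (Fintype.card (Fin 9 × Fin p) * (KT * K) * ‖v‖) ^ 2 :=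
          pow_le_pow_left₀ (norm_nonneg _) h2 2
      _ = (Fintype.card (Fin 9 × Fin p) * (KT * K)) ^ 2 * ‖v‖ ^ 2 := mul_pow _ _ _
      _ ≤ _ := mul_le_mul_of_nonneg_left (psi_le (χ (X0 + C.cfT u)) (bY C u)) (sq_nonneg _)

/-- a bound for the mass term -/
theorem exists_wl (b : ColorBasis N) (M : FermionRep N F) (G : GammaNine) (m : ℝ) :
    ∃ K : ℝ, 0 ≤ K ∧ ∀ (α : Fin 16) (x : Cfg N) (f : F),
      ‖wA b M G 0 m α x f‖ ≤ K * ‖x‖ * ‖f‖ := by
  obtain ⟨K, hK, -, -, h, -⟩ := PairL_862.exists_bounds b M G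
  refine ⟨|m| * K, by positivity, fun α x f => ?_⟩
  have h1 : wA b M G 0 m α x f = (-m : ℝ) • PairL_862.WlL M G α x f := by
    have h2 : wA b M G 0 m α x = vco M (fun β A => (-m) * wl G α β A x) := by
      unfold wA
      congr 1
      funext β A
      rw [wpot_wb]
      ring
    rw [h2, PairL_862.vco_rsmul, LinearMap.smul_apply]
    rfl
  rw [h1, norm_smul, Real.norm_eq_abs, abs_neg, mul_assoc, mul_assoc]
  refine mul_le_mul_of_nonneg_left ?_ (abs_nonneg m)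
  rw [← mul_assoc]
  exact h α x f

theorem rhoS_le (hP : ContDiff ℝ 1 (P.Psi g)) (m : ℝ) (α : Fin 16) {KW : ℝ}
    (hW : ∀ (α : Fin 16) (x : Cfg N) (f : F), ‖wA b M G 0 m α x f‖ ≤ KW * ‖x‖ * ‖f‖)
    (hK : ∀ X ∈ tsupport χ, ‖P.U X‖ ≤ K ∧ ‖fderiv ℝ P.U X‖ ≤ K)
    (u : Cfg N) : ‖rhoS P X0 g m α χ u‖ ^ 2 ≤
      2 * K ^ 2 * (‖χ (X0 + C.cfT u)‖ ^ 2 * SQ P g α (bY C u)) +
      2 * (KW * K) ^ 2 * (‖χ (X0 + C.cfT u)‖ ^ 2 * (‖bY C u‖ ^ 2 * S0 P g (bY C u))) := by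
  by_cases h : χ (X0 + C.cfT u) = 0
  · rw [rhoS_zero hP h, h]
    simp
  · have h1 : X0 + C.cfT u ∈ tsupport χ := subset_tsupport _ h
    rw [rhoS_eq hP]
    set w1 := P.U (X0 + C.cfT u) (QL P g α (C.PY u) ((χ (X0 + C.cfT u) : C.Fx M G) : F))
    set w2 := wA b M G 0 m α (C.PY u) (om P X0 g χ u)
    have e1 : ‖w1‖ ^ 2 ≤ K ^ 2 * (‖χ (X0 + C.cfT u)‖ ^ 2 * SQ P g α (bY C u)) := by
      have h2 : ‖w1‖ ≤ K * ‖QL P g α (C.PY u) ((χ (X0 + C.cfT u) : C.Fx M G) : F)‖ :=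
        (ContinuousLinearMap.le_opNorm _ _).trans
          (mul_le_mul_of_nonneg_right (hK _ h1).1 (norm_nonneg _))
      calc ‖w1‖ ^ 2 ≤ (K * ‖QL P g α (C.PY u) ((χ (X0 + C.cfT u) : C.Fx M G) : F)‖) ^ 2 :=
            pow_le_pow_left₀ (norm_nonneg _) h2 2
        _ = K ^ 2 * ‖QL P g α (C.PY u) ((χ (X0 + C.cfT u) : C.Fx M G) : F)‖ ^ 2 := mul_pow _ _ _
        _ ≤ _ := mul_le_mul_of_nonneg_left (QL_le α (χ (X0 + C.cfT u)) (bY C u)) (sq_nonneg K)
    have e2 : ‖w2‖ ^ 2 ≤ (KW * K) ^ 2 *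
        (‖χ (X0 + C.cfT u)‖ ^ 2 * (‖bY C u‖ ^ 2 * S0 P g (bY C u))) := by
      have h2 : ‖w2‖ ≤ KW * ‖C.PY u‖ * ‖om P X0 g χ u‖ := hW α _ _
      calc ‖w2‖ ^ 2 ≤ (KW * ‖C.PY u‖ * ‖om P X0 g χ u‖) ^ 2 :=
            pow_le_pow_left₀ (norm_nonneg _) h2 2
        _ = (KW * ‖C.PY u‖) ^ 2 * ‖om P X0 g χ u‖ ^ 2 := mul_pow _ _ _
        _ ≤ (KW * ‖C.PY u‖) ^ 2 * (K ^ 2 * (‖χ (X0 + C.cfT u)‖ ^ 2 * S0 P g (bY C u))) :=
            mul_le_mul_of_nonneg_left (om_le hK u) (sq_nonneg _)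
        _ = (KW * K) ^ 2 *
            (‖χ (X0 + C.cfT u)‖ ^ 2 * (‖bY C u‖ ^ 2 * S0 P g (bY C u))) := by
            have : ‖bY C u‖ = ‖C.PY u‖ := rfl
            rw [this]
            ring
    have h3 : ‖w1 + w2‖ ^ 2 ≤ 2 * ‖w1‖ ^ 2 + 2 * ‖w2‖ ^ 2 := by
      have h4 : ‖w1 + w2‖ ^ 2 ≤ (‖w1‖ + ‖w2‖) ^ 2 :=
        pow_le_pow_left₀ (norm_nonneg _) (norm_add_le _ _) 2
      nlinarith [sq_nonneg (‖w1‖ - ‖w2‖)]
    linarith

/-- the light function on `L` -/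
def omL (P : TPack C M R G) (X0 : Pos p) (g : ℝ) (χ : Pos p → C.Fx M G) (q : Tup C.kk) : F :=
  om P X0 g χ q

theorem omL_zero_near {q : Tup C.kk} (h : X0 + C.cfT q ∉ tsupport χ) :
    omL P X0 g χ =ᶠ[𝓝 q] fun _ => 0 := by
  have h1 := (continuous_subtype_val (p := fun x => x ∈ Tup C.kk)).continuousAt.eventually
    (ev_chi_zero (X0 := X0) (u := (q : Cfg N)) h)
  filter_upwards [h1] with v hv
  exact om_zero hv

theorem fderiv_omL_le (hP : ContDiff ℝ 1 (P.Psi g)) (hχ : ContDiff ℝ 1 χ)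
    (hs : ∀ X ∈ tsupport χ, C.BReg X) (hK0 : 0 ≤ K)
    (hK : ∀ X ∈ tsupport χ, ‖P.U X‖ ≤ K ∧ ‖fderiv ℝ P.U X‖ ≤ K) (q : Tup C.kk) :
    ‖fderiv ℝ (omL P X0 g χ) q‖ ^ 2 ≤
      3 * K ^ 2 * (‖χ (X0 + C.cfT q)‖ ^ 2 * S0 P g (bY C q)) +
      3 * K ^ 2 * (‖χ (X0 + C.cfT q)‖ ^ 2 * S1 P g (bY C q)) +
      3 * K ^ 2 * (‖fderiv ℝ χ (X0 + C.cfT q)‖ ^ 2 * S0 P g (bY C q)) := by
  set RHS := 3 * K ^ 2 * (‖χ (X0 + C.cfT q)‖ ^ 2 * S0 P g (bY C q)) +
      3 * K ^ 2 * (‖χ (X0 + C.cfT q)‖ ^ 2 * S1 P g (bY C q)) +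
      3 * K ^ 2 * (‖fderiv ℝ χ (X0 + C.cfT q)‖ ^ 2 * S0 P g (bY C q)) with hR
  have hS0 := S0_nonneg P g (bY C q)
  have hS1 := S1_nonneg P g (bY C q)
  have hR0 : 0 ≤ RHS := by positivity
  by_cases h : X0 + C.cfT q ∈ tsupport χ
  swap
  · rw [(omL_zero_near h).fderiv_eq, fderiv_fun_const]
    show ‖(0 : Tup C.kk →L[ℝ] F)‖ ^ 2 ≤ RHS
    rw [ContinuousLinearMap.opNorm_zero]
    simpa using hR0
  obtain ⟨hd, -⟩ := fderiv_om (P := P) (g := g) (X0 := X0) hP hχ (u := (q : Cfg N)) (hs _ h) 0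
  have hdL : HasFDerivAt (omL P X0 g χ)
      ((fderiv ℝ (om P X0 g χ) (q : Cfg N)).comp (Tup C.kk).subtypeL) q :=
    hd.comp q (Tup C.kk).subtypeL.hasFDerivAt
  rw [hdL.fderiv]
  have hb : ‖(fderiv ℝ (om P X0 g χ) (q : Cfg N)).comp (Tup C.kk).subtypeL‖ ≤ Real.sqrt RHS := by
    refine ContinuousLinearMap.opNorm_le_bound _ (Real.sqrt_nonneg _) fun e => ?_
    have he : ((fderiv ℝ (om P X0 g χ) (q : Cfg N)).comp (Tup C.kk).subtypeL) e =
        fderiv ℝ (om P X0 g χ) (q : Cfg N) (e : Cfg N) := rfl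
    rw [he, (fderiv_om (P := P) (g := g) (X0 := X0) hP hχ (u := (q : Cfg N)) (hs _ h) _).2]
    set a1 := (fderiv ℝ P.U (X0 + C.cfT q) (C.cfT (e : Cfg N)))
        (P.Psi g (C.PY q) ((χ (X0 + C.cfT q) : C.Fx M G) : F)) with ha1
    set a2 := P.U (X0 + C.cfT q) ((fderiv ℝ (P.Psi g) (C.PY q) (C.PY (e : Cfg N)))
        ((χ (X0 + C.cfT q) : C.Fx M G) : F)) with ha2
    set a3 := P.U (X0 + C.cfT q) (P.Psi g (C.PY q)
        ((fderiv ℝ χ (X0 + C.cfT q) (C.cfT (e : Cfg N)) : C.Fx M G) : F)) with ha3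
    have en : ‖C.cfT (e : Cfg N)‖ ≤ ‖e‖ := norm_cfT_le C _
    have eY : ‖bY C (e : Cfg N)‖ ≤ ‖e‖ := norm_PY_le C _
    have e1 : ‖a1‖ ^ 2 ≤ K ^ 2 * (‖χ (X0 + C.cfT q)‖ ^ 2 * S0 P g (bY C q)) * ‖e‖ ^ 2 := by
      have h2 : ‖a1‖ ≤ K * ‖e‖ * ‖P.Psi g (C.PY q) ((χ (X0 + C.cfT q) : C.Fx M G) : F)‖ := by
        refine (ContinuousLinearMap.le_opNorm _ _).trans
          (mul_le_mul_of_nonneg_right ?_ (norm_nonneg _))
        exact (ContinuousLinearMap.le_opNorm _ _).trans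
          (mul_le_mul (hK _ h).2 en (norm_nonneg _) hK0)
      calc ‖a1‖ ^ 2 ≤ (K * ‖e‖ *
            ‖P.Psi g (C.PY q) ((χ (X0 + C.cfT q) : C.Fx M G) : F)‖) ^ 2 :=
            pow_le_pow_left₀ (norm_nonneg _) h2 2
        _ = (K * ‖e‖) ^ 2 * ‖P.Psi g (C.PY q) ((χ (X0 + C.cfT q) : C.Fx M G) : F)‖ ^ 2 :=
            mul_pow _ _ _
        _ ≤ (K * ‖e‖) ^ 2 * (‖χ (X0 + C.cfT q)‖ ^ 2 * S0 P g (bY C q)) :=
            mul_le_mul_of_nonneg_left (psi_le (χ (X0 + C.cfT q)) (bY C q)) (sq_nonneg _)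
        _ = _ := by ring
    have e2 : ‖a2‖ ^ 2 ≤ K ^ 2 * (‖χ (X0 + C.cfT q)‖ ^ 2 * S1 P g (bY C q)) * ‖e‖ ^ 2 := by
      have h2 : ‖a2‖ ≤ K * ‖(fderiv ℝ (P.Psi g) (C.PY q) (C.PY (e : Cfg N)))
          ((χ (X0 + C.cfT q) : C.Fx M G) : F)‖ :=
        (ContinuousLinearMap.le_opNorm _ _).trans
          (mul_le_mul_of_nonneg_right (hK _ h).1 (norm_nonneg _))
      have h3 := der_le hP (χ (X0 + C.cfT q)) (bY C q) (bY C (e : Cfg N))
      have h4 : ‖bY C (e : Cfg N)‖ ^ 2 ≤ ‖e‖ ^ 2 := pow_le_pow_left₀ (norm_nonneg _) eY 2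
      calc ‖a2‖ ^ 2 ≤ (K * ‖(fderiv ℝ (P.Psi g) (C.PY q) (C.PY (e : Cfg N)))
            ((χ (X0 + C.cfT q) : C.Fx M G) : F)‖) ^ 2 := pow_le_pow_left₀ (norm_nonneg _) h2 2
        _ = K ^ 2 * ‖(fderiv ℝ (P.Psi g) (C.PY q) (C.PY (e : Cfg N)))
            ((χ (X0 + C.cfT q) : C.Fx M G) : F)‖ ^ 2 := mul_pow _ _ _
        _ ≤ K ^ 2 * (‖χ (X0 + C.cfT q)‖ ^ 2 * (‖bY C (e : Cfg N)‖ ^ 2 * S1 P g (bY C q))) :=
            mul_le_mul_of_nonneg_left h3 (sq_nonneg _)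
        _ ≤ K ^ 2 * (‖χ (X0 + C.cfT q)‖ ^ 2 * (‖e‖ ^ 2 * S1 P g (bY C q))) := by gcongr
        _ = _ := by ring
    have e3 : ‖a3‖ ^ 2 ≤
        K ^ 2 * (‖fderiv ℝ χ (X0 + C.cfT q)‖ ^ 2 * S0 P g (bY C q)) * ‖e‖ ^ 2 := by
      have h2 : ‖a3‖ ≤ K * ‖P.Psi g (C.PY q)
          ((fderiv ℝ χ (X0 + C.cfT q) (C.cfT (e : Cfg N)) : C.Fx M G) : F)‖ :=
        (ContinuousLinearMap.le_opNorm _ _).trans
          (mul_le_mul_of_nonneg_right (hK _ h).1 (norm_nonneg _))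
      have h3 := psi_le (P := P) (g := g) (fderiv ℝ χ (X0 + C.cfT q) (C.cfT (e : Cfg N)))
        (bY C q)
      have h4 : ‖fderiv ℝ χ (X0 + C.cfT q) (C.cfT (e : Cfg N))‖ ^ 2 ≤
          ‖fderiv ℝ χ (X0 + C.cfT q)‖ ^ 2 * ‖e‖ ^ 2 := by
        rw [← mul_pow]
        refine pow_le_pow_left₀ (norm_nonneg _) ?_ 2
        exact (ContinuousLinearMap.le_opNorm _ _).trans
          (mul_le_mul_of_nonneg_left en (norm_nonneg _))
      calc ‖a3‖ ^ 2 ≤ (K * ‖P.Psi g (C.PY q)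
            ((fderiv ℝ χ (X0 + C.cfT q) (C.cfT (e : Cfg N)) : C.Fx M G) : F)‖) ^ 2 :=
            pow_le_pow_left₀ (norm_nonneg _) h2 2
        _ = K ^ 2 * ‖P.Psi g (C.PY q)
            ((fderiv ℝ χ (X0 + C.cfT q) (C.cfT (e : Cfg N)) : C.Fx M G) : F)‖ ^ 2 :=
            mul_pow _ _ _
        _ ≤ K ^ 2 * (‖fderiv ℝ χ (X0 + C.cfT q) (C.cfT (e : Cfg N))‖ ^ 2 *
            S0 P g (bY C q)) := mul_le_mul_of_nonneg_left h3 (sq_nonneg _)
        _ ≤ K ^ 2 * (‖fderiv ℝ χ (X0 + C.cfT q)‖ ^ 2 * ‖e‖ ^ 2 * S0 P g (bY C q)) := by gcongr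
        _ = _ := by ring
    have h5 : ‖a1 + a2 + a3‖ ^ 2 ≤ RHS * ‖e‖ ^ 2 := by
      have h6 : ‖a1 + a2 + a3‖ ≤ ‖a1‖ + ‖a2‖ + ‖a3‖ := norm_add₃_le
      have h7 : ‖a1 + a2 + a3‖ ^ 2 ≤ (‖a1‖ + ‖a2‖ + ‖a3‖) ^ 2 :=
        pow_le_pow_left₀ (norm_nonneg _) h6 2
      have h8 : (‖a1‖ + ‖a2‖ + ‖a3‖) ^ 2 ≤ 3 * (‖a1‖ ^ 2 + ‖a2‖ ^ 2 + ‖a3‖ ^ 2) := by
        nlinarith [sq_nonneg (‖a1‖ - ‖a2‖), sq_nonneg (‖a1‖ - ‖a3‖), sq_nonneg (‖a2‖ - ‖a3‖)]
      have h9 : RHS * ‖e‖ ^ 2 =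
          3 * (K ^ 2 * (‖χ (X0 + C.cfT q)‖ ^ 2 * S0 P g (bY C q)) * ‖e‖ ^ 2 +
            K ^ 2 * (‖χ (X0 + C.cfT q)‖ ^ 2 * S1 P g (bY C q)) * ‖e‖ ^ 2 +
            K ^ 2 * (‖fderiv ℝ χ (X0 + C.cfT q)‖ ^ 2 * S0 P g (bY C q)) * ‖e‖ ^ 2) := by
        rw [hR]
        ring
      rw [h9]
      linarith
    have h10 : ‖a1 + a2 + a3‖ ≤ Real.sqrt (RHS * ‖e‖ ^ 2) := Real.le_sqrt_of_sq_le h5
    rwa [Real.sqrt_mul hR0, Real.sqrt_sq (norm_nonneg _)] at h10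
  exact le_trans (pow_le_pow_left₀ (ContinuousLinearMap.opNorm_nonneg _) hb 2)
    (Real.sq_sqrt hR0).le

end bd

/-! ### 8. The moments -/

/-- a square bounded by an integrable function -/
theorem sq_int {E : Type*} [NormedAddCommGroup E] [InnerProductSpace ℝ E]
    [FiniteDimensional ℝ E] [MeasurableSpace E] [BorelSpace E] {h f : E → ℝ}
    (hc : Continuous h) (hf : Integrable f) (hb : ∀ x, h x ^ 2 ≤ f x) :
    Integrable (fun x => h x ^ 2) ∧ ∫ x, h x ^ 2 ≤ ∫ x, f x := by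
  have h1 : Integrable (fun x => h x ^ 2) := by
    refine hf.mono' (hc.pow 2).aestronglyMeasurable (Eventually.of_forall fun x => ?_)
    rw [Real.norm_eq_abs, abs_of_nonneg (sq_nonneg _)]
    exact hb x
  exact ⟨h1, integral_mono h1 hf hb⟩

section fd

variable {E W : Type*} [NormedAddCommGroup E] [NormedSpace ℝ E] [NormedAddCommGroup W]
  [NormedSpace ℝ W] {f : E → W}

theorem cont_fd (h : ContDiff ℝ 1 f) : Continuous fun x => ‖fderiv ℝ f x‖ :=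
  (h.continuous_fderiv (by simp)).norm

theorem cont_fdsq (h : ContDiff ℝ 1 f) : Continuous fun x => ‖fderiv ℝ f x‖ ^ 2 :=
  (cont_fd h).pow 2

theorem hcs_fdsq (h : HasCompactSupport f) : HasCompactSupport fun x => ‖fderiv ℝ f x‖ ^ 2 :=
  hcs_nsq (h.fderiv ℝ)

theorem fd_nonneg (x : E) : 0 ≤ ‖fderiv ℝ f x‖ := norm_nonneg _

end fd

section main

variable (P : TPack C M R G) (X0 : Pos p) (m : ℝ) (α : Fin 16) (χ : Pos p → C.Fx M G)

/-- the sizes of the light line on `L = R⁹ ⊗ kk` -/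
def sizes : Sizes (Tup C.kk) where
  y q := ‖C.PY q‖
  n0 g q := ‖omL P X0 g χ q‖
  n1 g q := ‖fderiv ℝ (omL P X0 g χ) q‖
  nE g q := ‖rhoE P X0 g α χ q‖
  nS g q := ‖rhoS P X0 g m α χ q‖

variable {χ}

/-- `∫ ‖χ‖²` -/
def Ic (χ : Pos p → C.Fx M G) : ℝ := ∫ X, ‖χ X‖ ^ 2

/-- `∫ ‖Dχ‖²` -/
def Id (χ : Pos p → C.Fx M G) : ℝ := ∫ X, ‖fderiv ℝ χ X‖ ^ 2

section fixg

variable {P X0} {g : ℝ} (hP : ContDiff ℝ 1 (P.Psi g)) (hχ : ContDiff ℝ 1 χ)
  (hc : HasCompactSupport χ)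

include hP hχ hc

theorem iS0 : Integrable (fun q : Tup C.kk => ‖χ (X0 + C.cfT q)‖ ^ 2 * S0 P g (bY C q)) ∧
    ∫ q : Tup C.kk, ‖χ (X0 + C.cfT q)‖ ^ 2 * S0 P g (bY C q) = Ic χ * ∫ Y, S0 P g Y :=
  int_prod X0 (a := fun X => ‖χ X‖ ^ 2) (cont_nsq hχ.continuous) (hcs_nsq hc)
    (continuous_S0 hP) hcs_S0

theorem iS1 : Integrable (fun q : Tup C.kk => ‖χ (X0 + C.cfT q)‖ ^ 2 * S1 P g (bY C q)) ∧
    ∫ q : Tup C.kk, ‖χ (X0 + C.cfT q)‖ ^ 2 * S1 P g (bY C q) = Ic χ * ∫ Y, S1 P g Y :=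
  int_prod X0 (a := fun X => ‖χ X‖ ^ 2) (cont_nsq hχ.continuous) (hcs_nsq hc)
    (continuous_S1 hP) hcs_S1

theorem iSQ (α : Fin 16) :
    Integrable (fun q : Tup C.kk => ‖χ (X0 + C.cfT q)‖ ^ 2 * SQ P g α (bY C q)) ∧
    ∫ q : Tup C.kk, ‖χ (X0 + C.cfT q)‖ ^ 2 * SQ P g α (bY C q) = Ic χ * ∫ Y, SQ P g α Y :=
  int_prod X0 (a := fun X => ‖χ X‖ ^ 2) (cont_nsq hχ.continuous) (hcs_nsq hc)
    (continuous_SQ hP α) (hcs_SQ hP α)

theorem iyS0 : Integrable (fun q : Tup C.kk =>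
      ‖χ (X0 + C.cfT q)‖ ^ 2 * (‖bY C q‖ ^ 2 * S0 P g (bY C q))) ∧
    ∫ q : Tup C.kk, ‖χ (X0 + C.cfT q)‖ ^ 2 * (‖bY C q‖ ^ 2 * S0 P g (bY C q)) =
      Ic χ * ∫ Y : C.Blk, ‖Y‖ ^ 2 * S0 P g Y :=
  int_prod X0 (a := fun X => ‖χ X‖ ^ 2) (c := fun Y => ‖Y‖ ^ 2 * S0 P g Y)
    (cont_nsq hχ.continuous) (hcs_nsq hc) ((cont_nsq continuous_id).mul (continuous_S0 hP))
    hcs_S0.mul_left

theorem iD0 : Integrable (fun q : Tup C.kk =>
      ‖fderiv ℝ χ (X0 + C.cfT q)‖ ^ 2 * S0 P g (bY C q)) ∧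
    ∫ q : Tup C.kk, ‖fderiv ℝ χ (X0 + C.cfT q)‖ ^ 2 * S0 P g (bY C q) =
      Id χ * ∫ Y, S0 P g Y :=
  int_prod X0 (a := fun X => ‖fderiv ℝ χ X‖ ^ 2) (cont_fdsq hχ) (hcs_fdsq hc)
    (continuous_S0 hP) hcs_S0

end fixg

theorem Ic_nonneg (χ : Pos p → C.Fx M G) : 0 ≤ Ic χ := integral_nonneg fun _ => sq_nonneg _

theorem Id_nonneg (χ : Pos p → C.Fx M G) : 0 ≤ Id χ := integral_nonneg fun _ => sq_nonneg _

/-- **The moments of the light line.** -/
theorem moms (hχ : ContDiff ℝ ∞ χ) (hc : HasCompactSupport χ)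
    (hs : ∀ X ∈ tsupport χ, C.BReg X) :
    Moms (volume : Measure (Tup C.kk)) (sizes P X0 m α χ) := by
  obtain ⟨K, hK0, hK⟩ := exists_KU P hc hs
  obtain ⟨KT, hKT, hT⟩ := exists_aA M G
  obtain ⟨KW, -, hW⟩ := exists_wl b M G m
  obtain ⟨B, hB⟩ := int_S0 P
  have hχ1 : ContDiff ℝ 1 χ := hχ.of_le (by exact_mod_cast le_top)
  have hIc := Ic_nonneg χ
  have hId := Id_nonneg χ
  set KE := Fintype.card (Fin 9 × Fin p) * (KT * K) with hKE
  -- continuity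
  have cY : Continuous fun q : Tup C.kk => ‖C.PY q‖ :=
    ((continuous_PY C).comp continuous_subtype_val).norm
  have c0 : ∀ᶠ g in atTop, Continuous fun q : Tup C.kk => ‖omL P X0 g χ q‖ := by
    filter_upwards [P.Psi_smooth] with g hg
    exact ((continuous_om hg hχ hs).comp continuous_subtype_val).norm
  have c1 : ∀ᶠ g in atTop, Continuous fun q : Tup C.kk => ‖fderiv ℝ (omL P X0 g χ) q‖ := by
    filter_upwards [P.Psi_smooth] with g hg
    have h1 : ContDiff ℝ 1 (omL P X0 g χ) :=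
      (contDiff_om (n := 1) (by exact_mod_cast le_top) hg hχ hs).comp
        (Tup C.kk).subtypeL.contDiff
    exact cont_fd h1
  have cE : ∀ᶠ g in atTop, Continuous fun q : Tup C.kk => ‖rhoE P X0 g α χ q‖ := by
    filter_upwards [P.Psi_smooth] with g hg
    exact ((continuous_rhoE hg hχ hs α).comp continuous_subtype_val).norm
  have cS : ∀ᶠ g in atTop, Continuous fun q : Tup C.kk => ‖rhoS P X0 g m α χ q‖ := by
    filter_upwards [P.Psi_smooth] with g hg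
    exact ((continuous_rhoS hg hχ hs m α).comp continuous_subtype_val).norm
  -- the six estimates
  have f0 : ∀ᶠ g in atTop, Integrable (fun q : Tup C.kk => ‖omL P X0 g χ q‖ ^ 2) ∧
      ∫ q : Tup C.kk, ‖omL P X0 g χ q‖ ^ 2 ≤ K ^ 2 * (Ic χ * ∫ Y, S0 P g Y) := by
    filter_upwards [c0, ev_C1 P] with g h1 hP
    obtain ⟨i1, i2⟩ := iS0 (X0 := X0) hP hχ1 hc
    obtain ⟨j1, j2⟩ := sq_int h1 (i1.const_mul (K ^ 2)) fun q => om_le hK (q : Cfg N)
    rw [integral_const_mul, i2] at j2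
    exact ⟨j1, j2⟩
  have fy : ∀ᶠ g in atTop, Integrable (fun q : Tup C.kk => (‖C.PY q‖ * ‖omL P X0 g χ q‖) ^ 2) ∧
      ∫ q : Tup C.kk, (‖C.PY q‖ * ‖omL P X0 g χ q‖) ^ 2 ≤
        K ^ 2 * (Ic χ * ∫ Y : C.Blk, ‖Y‖ ^ 2 * S0 P g Y) := by
    filter_upwards [c0, ev_C1 P] with g h1 hP
    obtain ⟨i1, i2⟩ := iyS0 (X0 := X0) hP hχ1 hc
    obtain ⟨j1, j2⟩ := sq_int (cY.mul h1) (i1.const_mul (K ^ 2)) fun q => by
      have h2 := om_le (X0 := X0) (g := g) hK (q : Cfg N)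
      have h3 : ‖bY C (q : Cfg N)‖ = ‖C.PY q‖ := rfl
      show (‖C.PY q‖ * ‖omL P X0 g χ q‖) ^ 2 ≤ _
      rw [mul_pow, h3]
      calc ‖C.PY q‖ ^ 2 * ‖omL P X0 g χ q‖ ^ 2 ≤
            ‖C.PY q‖ ^ 2 * (K ^ 2 * (‖χ (X0 + C.cfT q)‖ ^ 2 * S0 P g (bY C q))) :=
            mul_le_mul_of_nonneg_left h2 (sq_nonneg _)
        _ = _ := by ring
    rw [integral_const_mul, i2] at j2
    exact ⟨j1, j2⟩
  have fE : ∀ᶠ g in atTop, Integrable (fun q : Tup C.kk => ‖rhoE P X0 g α χ q‖ ^ 2) ∧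
      ∫ q : Tup C.kk, ‖rhoE P X0 g α χ q‖ ^ 2 ≤ KE ^ 2 * (Ic χ * ∫ Y, S0 P g Y) := by
    filter_upwards [cE, ev_C1 P] with g h1 hP
    obtain ⟨i1, i2⟩ := iS0 (X0 := X0) hP hχ1 hc
    obtain ⟨j1, j2⟩ := sq_int h1 (i1.const_mul (KE ^ 2)) fun q =>
      rhoE_le α hKT hT hK (q : Cfg N)
    rw [integral_const_mul, i2] at j2
    exact ⟨j1, j2⟩
  have fyE : ∀ᶠ g in atTop,
      Integrable (fun q : Tup C.kk => (‖C.PY q‖ * ‖rhoE P X0 g α χ q‖) ^ 2) ∧
      ∫ q : Tup C.kk, (‖C.PY q‖ * ‖rhoE P X0 g α χ q‖) ^ 2 ≤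
        KE ^ 2 * (Ic χ * ∫ Y : C.Blk, ‖Y‖ ^ 2 * S0 P g Y) := by
    filter_upwards [cE, ev_C1 P] with g h1 hP
    obtain ⟨i1, i2⟩ := iyS0 (X0 := X0) hP hχ1 hc
    obtain ⟨j1, j2⟩ := sq_int (cY.mul h1) (i1.const_mul (KE ^ 2)) fun q => by
      have h2 := rhoE_le (X0 := X0) (g := g) α hKT hT hK (q : Cfg N)
      have h3 : ‖bY C (q : Cfg N)‖ = ‖C.PY q‖ := rfl
      show (‖C.PY q‖ * ‖rhoE P X0 g α χ q‖) ^ 2 ≤ _
      rw [mul_pow, h3]
      calc ‖C.PY q‖ ^ 2 * ‖rhoE P X0 g α χ q‖ ^ 2 ≤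
            ‖C.PY q‖ ^ 2 * (KE ^ 2 * (‖χ (X0 + C.cfT q)‖ ^ 2 * S0 P g (bY C q))) :=
            mul_le_mul_of_nonneg_left h2 (sq_nonneg _)
        _ = _ := by ring
    rw [integral_const_mul, i2] at j2
    exact ⟨j1, j2⟩
  have fS : ∀ᶠ g in atTop, Integrable (fun q : Tup C.kk => ‖rhoS P X0 g m α χ q‖ ^ 2) ∧
      ∫ q : Tup C.kk, ‖rhoS P X0 g m α χ q‖ ^ 2 ≤
        2 * K ^ 2 * (Ic χ * ∫ Y, SQ P g α Y) +
          2 * (KW * K) ^ 2 * (Ic χ * ∫ Y : C.Blk, ‖Y‖ ^ 2 * S0 P g Y) := by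
    filter_upwards [cS, ev_C1 P] with g h1 hP
    obtain ⟨i1, i2⟩ := iyS0 (X0 := X0) hP hχ1 hc
    obtain ⟨i3, i4⟩ := iSQ (X0 := X0) hP hχ1 hc α
    obtain ⟨j1, j2⟩ := sq_int h1 ((i3.const_mul (2 * K ^ 2)).add
      (i1.const_mul (2 * (KW * K) ^ 2))) fun q => rhoS_le hP m α hW hK (q : Cfg N)
    rw [integral_add' (i3.const_mul _) (i1.const_mul _), integral_const_mul,
      integral_const_mul, i2, i4] at j2
    exact ⟨j1, j2⟩
  have f1 : ∀ᶠ g in atTop, Integrable (fun q : Tup C.kk => ‖fderiv ℝ (omL P X0 g χ) q‖ ^ 2) ∧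
      ∫ q : Tup C.kk, ‖fderiv ℝ (omL P X0 g χ) q‖ ^ 2 ≤
        3 * K ^ 2 * (Ic χ * ∫ Y, S0 P g Y) + 3 * K ^ 2 * (Ic χ * ∫ Y, S1 P g Y) +
          3 * K ^ 2 * (Id χ * ∫ Y, S0 P g Y) := by
    filter_upwards [c1, ev_C1 P] with g h1 hP
    obtain ⟨i1, i2⟩ := iS0 (X0 := X0) hP hχ1 hc
    obtain ⟨i3, i4⟩ := iS1 (X0 := X0) hP hχ1 hc
    obtain ⟨i5, i6⟩ := iD0 (X0 := X0) hP hχ1 hc
    obtain ⟨j1, j2⟩ := sq_int h1 (((i1.const_mul (3 * K ^ 2)).add
      (i3.const_mul (3 * K ^ 2))).add (i5.const_mul (3 * K ^ 2)))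
      fun q => fderiv_omL_le hP hχ1 hs hK0 hK q
    rw [integral_add' ((i1.const_mul _).add (i3.const_mul _)) (i5.const_mul _),
      integral_add' (i1.const_mul _) (i3.const_mul _), integral_const_mul,
      integral_const_mul, integral_const_mul, i2, i4, i6] at j2
    exact ⟨j1, j2⟩
  have hS0p : ∀ g, 0 ≤ ∫ Y, S0 P g Y := fun g => integral_nonneg fun Y => S0_nonneg P g Y
  have ty := (int_yS0 P).const_mul (Ic χ)
  have tQ := (int_SQ P α).const_mul (Ic χ)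
  have t1 := int_S1 P
  simp only [mul_zero] at ty tQ
  refine
    { y0 := fun q => norm_nonneg _
      n00 := fun g q => norm_nonneg _
      n10 := fun g q => fd_nonneg q
      nE0 := fun g q => norm_nonneg _
      nS0 := fun g q => norm_nonneg _
      i0 := f0.mono fun g h => h.1
      iy := fy.mono fun g h => h.1
      i1 := f1.mono fun g h => h.1
      iE := fE.mono fun g h => h.1
      iyE := fyE.mono fun g h => h.1
      iS := fS.mono fun g h => h.1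
      b0 := ⟨K ^ 2 * (Ic χ * B), ?_⟩
      by0 := ?_
      b1 := ?_
      bE := ⟨KE ^ 2 * (Ic χ * B), ?_⟩
      byE := ?_
      bS := ?_ }
  · filter_upwards [f0, hB] with g h1 h2
    exact h1.2.trans (by gcongr)
  · refine squeeze_zero' (Eventually.of_forall fun g => integral_nonneg fun q => sq_nonneg _)
      (fy.mono fun g h => h.2) ?_
    simpa using ty.const_mul (K ^ 2)
  · have h3 : Tendsto (fun g : ℝ => 3 * K ^ 2 * (Ic χ * B * g⁻¹) +
        3 * K ^ 2 * (Ic χ * (g⁻¹ * ∫ Y, S1 P g Y)) + 3 * K ^ 2 * (Id χ * B * g⁻¹))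
        atTop (𝓝 0) := by
      have h4 : Tendsto (fun g : ℝ => g⁻¹) atTop (𝓝 0) := tendsto_inv_atTop_zero
      have h5 := ((h4.const_mul (Ic χ * B)).const_mul (3 * K ^ 2)).add
        ((t1.const_mul (Ic χ)).const_mul (3 * K ^ 2))
      have h6 := h5.add ((h4.const_mul (Id χ * B)).const_mul (3 * K ^ 2))
      simpa using h6
    refine squeeze_zero' ?_ ?_ h3
    · filter_upwards [eventually_gt_atTop 0] with g hg
      exact mul_nonneg (inv_nonneg.2 hg.le) (integral_nonneg fun q => sq_nonneg _)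
    · filter_upwards [f1, hB, eventually_gt_atTop 0] with g h1 h2 hg
      have hgi : 0 ≤ g⁻¹ := inv_nonneg.2 hg.le
      have hS1p : 0 ≤ ∫ Y, S1 P g Y := integral_nonneg fun Y => S1_nonneg P g Y
      calc g⁻¹ * ∫ q : Tup C.kk, ‖fderiv ℝ (omL P X0 g χ) q‖ ^ 2
          ≤ g⁻¹ * (3 * K ^ 2 * (Ic χ * ∫ Y, S0 P g Y) + 3 * K ^ 2 * (Ic χ * ∫ Y, S1 P g Y) +
            3 * K ^ 2 * (Id χ * ∫ Y, S0 P g Y)) := mul_le_mul_of_nonneg_left h1.2 hgi
        _ ≤ g⁻¹ * (3 * K ^ 2 * (Ic χ * B) + 3 * K ^ 2 * (Ic χ * ∫ Y, S1 P g Y) +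
            3 * K ^ 2 * (Id χ * B)) := by gcongr
        _ = _ := by ring
  · filter_upwards [fE, hB] with g h1 h2
    exact h1.2.trans (by gcongr)
  · refine squeeze_zero' (Eventually.of_forall fun g => integral_nonneg fun q => sq_nonneg _)
      (fyE.mono fun g h => h.2) ?_
    simpa using ty.const_mul (KE ^ 2)
  · refine squeeze_zero' (Eventually.of_forall fun g => integral_nonneg fun q => sq_nonneg _)
      (fS.mono fun g h => h.2) ?_
    simpa using (tQ.const_mul (2 * K ^ 2)).add (ty.const_mul (2 * (KW * K) ^ 2))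

end main

/-! ### 9. Supports -/

section supp

variable {P : TPack C M R G} {X0 : Pos p} {g : ℝ} {χ : Pos p → C.Fx M G}

/-- near a point whose block part is outside the radius `Psi` vanishes -/
theorem ev_psi_zero {q : Tup C.kk} (h : P.s g < ‖C.PY q‖) :
    ∀ᶠ v : Tup C.kk in 𝓝 q, P.Psi g (C.PY v) = 0 := by
  have h1 : Continuous fun v : Tup C.kk => ‖C.PY v‖ :=
    ((continuous_PY C).comp continuous_subtype_val).norm
  filter_upwards [h1.continuousAt.eventually (lt_mem_nhds h)] with v hv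
  exact P.Psi_supp g _ (PY_mem C v) hv.le

theorem QL_zero (hP : ContDiff ℝ 1 (P.Psi g)) (α : Fin 16) {Y : C.Blk} (h : P.s g < ‖Y‖)
    (f : F) : QL P g α (Y : Cfg N) f = 0 := by
  have h1 : psB P g f =ᶠ[𝓝 Y] fun _ => 0 := by
    filter_upwards [continuous_norm.continuousAt.eventually (lt_mem_nhds h)] with Z hZ
    unfold psB
    rw [P.Psi_supp g Z Z.2 hZ.le]
    rfl
  rw [QL_blk hP, h1.eq_of_nhds, h1.fderiv_eq]
  simp

/-- **Supports.** -/
theorem out_zero {r : ℝ} (hr : 0 < r) (hχ : tsupport χ ⊆ Metric.closedBall X0 (r / 4))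
    (hP : ContDiff ℝ 1 (P.Psi g)) (hg : P.s g ≤ r / 6) {q : Tup C.kk} (hq : r / 3 < ‖q‖) :
    omL P X0 g χ =ᶠ[𝓝 q] (fun _ => 0) ∧ (∀ α, rhoE P X0 g α χ q = 0) ∧
      ∀ m α, rhoS P X0 g m α χ q = 0 := by
  by_cases h : X0 + C.cfT q ∈ tsupport χ
  · have h1 : ‖C.cfT q‖ ≤ r / 4 := by
      have h2 := hχ h
      rw [Metric.mem_closedBall, dist_eq_norm, add_sub_cancel_left] at h2
      exact h2
    have h3 : P.s g < ‖C.PY q‖ := by
      by_contra h4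
      have h5 : ‖C.PY q‖ ≤ r / 6 := (not_lt.1 h4).trans hg
      have h6 := norm_sq_eq C (q : Cfg N)
      have h7 : C.PM (q : Cfg N) = 0 := by
        unfold Chn.PM
        rw [PK_of_mem C q.2, sub_self]
      rw [h7, norm_zero] at h6
      have h8 : ‖(q : Cfg N)‖ = ‖q‖ := rfl
      rw [h8] at h6
      nlinarith [norm_nonneg (C.cfT (q : Cfg N)), norm_nonneg (C.PY (q : Cfg N)),
        norm_nonneg q]
    have h4 := ev_psi_zero h3
    have h5 : P.Psi g (C.PY q) = 0 := h4.self_of_nhds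
    have h6 : omL P X0 g χ =ᶠ[𝓝 q] (fun _ => 0) := by
      filter_upwards [h4] with v hv
      unfold omL om
      rw [hv]
      simp
    refine ⟨h6, fun α => ?_, fun m α => ?_⟩
    · unfold rhoE
      rw [h5]
      simp
    · have h7 : om P X0 g χ q = 0 := h6.eq_of_nhds
      have h8 : QL P g α (C.PY q) ((χ (X0 + C.cfT q) : C.Fx M G) : F) = 0 :=
        QL_zero hP α (Y := bY C q) h3 _
      rw [rhoS_eq hP, h7, h8]
      simp
  · have h1 : χ (X0 + C.cfT q) = 0 := image_eq_zero_of_notMem_tsupport h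
    exact ⟨omL_zero_near h, fun α => rhoE_zero h1, fun m α => rhoS_zero hP h1⟩




variable (P X0) (m : ℝ) (α : Fin 16) {r : ℝ}



end supp

end Crest.Agent.R330.LightM916

end
end

-- ▼ part R330/T5Fin_714

/-!
# R330/T5Fin_714 : (T5) for small charts (helper714)

* `errAt` : the expansion, from the vacuum component (776).
* `exists_parT` : the parity of a chart centred in `BReg`.
* `dualAt_of_test` : (T5) for a small chart from the vacuum component and (T5-TEST).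
-/

set_option autoImplicit false
set_option linter.unusedSectionVars false

open MeasureTheory Filter Topology Crest.MathPhysics.MatrixQM
open scoped ContDiff InnerProductSpace ENNReal

noncomputable section

namespace Crest.Agent.R330.T5Fin714

open Crest.Agent.R330.Defs478 Crest.Agent.R330.LS839 Crest.Agent.R330.Frame839
  Crest.Agent.R330.Bind6839 Crest.Agent.R330.TDef414 Crest.Agent.R330.PairB547
  Crest.Agent.R330.PairE547 Crest.Agent.R330.PairL_862 Crest.Agent.R330.PairC714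
  Crest.Agent.R330.PairD714 Crest.Agent.R330.TrialSys796 Crest.Agent.R330.PairT714
  Crest.Agent.R330.PairU714 Crest.Agent.R330.PairI658 Crest.Agent.R330.LightC916
  Crest.Agent.R330.T5G151 Crest.Agent.R330.T5Err714

variable {N p : ℕ} {b : ColorBasis N} {S : Type} [Group S] [Fintype S] {C : Chn b p S}
variable {F : Type*} [NormedAddCommGroup F] [InnerProductSpace ℂ F] [FiniteDimensional ℂ F]
variable {M : FermionRep N F} {R : GaugeAction b M} {G : GammaNine}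

/-- (776) the vacuum component of the even errors. -/
def VacAt (P : TPack C M R G) (σ : Sl C) (Γ : F →ₗ[ℂ] F) : Prop :=
  ∀ (g : ℝ), 0 < g → ∀ (α : Fin 16) (χ : Amp M G σ), ∀ q ∈ Sb σ (Tup C.kk),
    PT P (Xq σ q) (∫ z : ZZ σ, PairT714.gsT P σ g q z • E2 P σ Γ α χ g (q, z)) = 0

/-- measurability of the even and of the small errors -/
theorem meas23 (P : TPack C M R G) (σ : Sl C) (Γ : F →ₗ[ℂ] F) (m : ℝ) (α : Fin 16)
    (χ : Amp M G σ) : ∀ᶠ g in atTop,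
    AEStronglyMeasurable (E2 P σ Γ α χ g) (volume.prod volume) ∧
    AEStronglyMeasurable (E3 P σ Γ m α χ g) (volume.prod volume) := by
  filter_upwards [P.Psi_smooth, eventually_gt_atTop 0] with g hΨ hg
  have h1 : StronglyMeasurable (a0 P σ g) := (contDiff_aL P σ rfl hg).continuous.stronglyMeasurable
  have h2 : StronglyMeasurable (a1 P σ g) := by
    have hc : Continuous (a1 P σ g) := by
      unfold a1
      exact (((contDiff_kap σ.r).continuous).comp (continuous_snd.norm.pow 2)).mul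
        (contDiff_aL P σ rfl hg).continuous
    exact hc.stronglyMeasurable
  have h3 : StronglyMeasurable (psT P σ χ g) := RhoM151.sm_omL P σ hΨ.continuous χ _
  have h4 : StronglyMeasurable (reT P σ α χ g) := RhoM151.sm_rhoE P σ hΨ.continuous α χ _
  have h5 : StronglyMeasurable (rsT P σ m α χ g) :=
    RhoM151.sm_rhoS P σ (hΨ.of_le (by norm_num)) m α χ _
  exact ⟨(sm_err2 (bT σ) (bU σ) g h1 h3 h4).aestronglyMeasurable,
    (sm_err3 (bT σ) (bU σ) g h1 h2 h3 h4 h5).aestronglyMeasurable⟩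

/-- the support of the sizes -/
theorem supp (P : TPack C M R G) (σ : Sl C) (m : ℝ) (α : Fin 16) (χ : Amp M G σ) :
    (szT P σ m α χ).Supp (Sb σ (Tup C.kk)) := by
  have hr := σ.pos
  filter_upwards [P.Psi_smooth, P.s_lim.eventually (gt_mem_nhds (show (0 : ℝ) < σ.r / 6 by
    positivity))] with g hΨ hs q hq
  have hq' : σ.r / 3 < ‖q‖ := not_le.1 hq
  obtain ⟨h1, h2, h3⟩ := LightM916.out_zero (P := P) (X0 := σ.X0) (g := g) (χ := χ.fn) hr
    (χ.supp.trans Metric.ball_subset_closedBall) (hΨ.of_le (by norm_num)) hs.le hq'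
  refine ⟨?_, ?_, ?_, ?_⟩
  · change ‖psT P σ χ g q‖ = 0
    rw [show psT P σ χ g q = 0 from h1.eq_of_nhds, norm_zero]
  · change ‖fderiv ℝ (psT P σ χ g) q‖ = 0
    have h4 : fderiv ℝ (psT P σ χ g) q = 0 := by
      have h5 : psT P σ χ g =ᶠ[𝓝 q] fun _ => 0 := h1
      rw [h5.fderiv_eq]
      simp
    rw [h4]
    exact ContinuousLinearMap.opNorm_zero
  · change ‖reT P σ α χ g q‖ = 0
    rw [show reT P σ α χ g q = 0 from h2 α, norm_zero]
  · change ‖rsT P σ m α χ g q‖ = 0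
    rw [show rsT P σ m α χ g q = 0 from h3 m α, norm_zero]

/-- **The expansion.** -/
theorem errAt (P : TPack C M R G) (σ : Sl C) (hr1 : σ.r ≤ 1)
    (hBR : ∀ X : Pos p, ‖X - σ.X0‖ < σ.r → C.BReg X) {Γ : F →ₗ[ℂ] F} (hΓ : ParT M G σ Γ)
    (hv : VacAt P σ Γ) (m : ℝ) (α : Fin 16) (χ : Amp M G σ) :
    ErrAt P σ (aT5 P σ) Γ m α χ := by
  obtain ⟨c1, c2, c3⟩ := classes P σ hr1 hBR hΓ m α χ
  have h23 := meas23 P σ Γ m α χ
  refine ⟨szT P σ m α χ, E1 P σ Γ m α χ, E2 P σ Γ α χ, E3 P σ Γ m α χ, fun _ => rfl,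
    LightM916.moms P σ.X0 m α χ.smooth χ.compact χ.off, supp P σ m α χ, c1, c2, c3, ?_⟩
  filter_upwards [meas1 P σ Γ m α χ (h23.mono fun g h => h.1) (h23.mono fun g h => h.2), h23,
    odd P σ hΓ m α χ, sum_eq P σ Γ m α χ, off_supp P σ m α χ, eventually_gt_atTop 0]
    with g g1 g2 g3 g4 g5 g6
  exact ⟨g1, g2.1, g2.2, g3, fun q hq => hv g g6 α χ q hq, g4, g5⟩

/-- **The parity of a chart.** -/
theorem exists_parT [Nontrivial F] (P : TPack C M R G) (σ : Sl C) (hX : C.BReg σ.X0) :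
    ∃ Γ : F →ₗ[ℂ] F, ParT M G σ Γ := by
  obtain ⟨Γ, hΓ, hv⟩ := FibP581.exists_par b G M (AFld984.comc_cf C σ.X0)
  refine ⟨Γ, parT_of P hX (par_of_isPar hΓ) fun f hf => hv _ ?_⟩
  have h1 := (LemP342.isVac_iff P hX.reg (P.U σ.X0 f)).1
    fun z hz α => P.U_kill σ.X0 hX f hf z hz α
  have h2 : kc (actB b) (C.cf σ.X0) = C.kk := hX.reg
  have e : FibP581.JX b G (C.cf σ.X0) (C.cf σ.X0) = Fib892.Jl b G C.kk (C.cf σ.X0) := by
    unfold FibP581.JX
    rw [h2]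
  rw [e]
  exact h1

/-- **(T5) for a small chart.** -/
theorem dualAt_of_test [Nontrivial F] (P : TPack C M R G) (σ : Sl C) (hr1 : σ.r ≤ 1)
    (hBR : ∀ X : Pos p, ‖X - σ.X0‖ < σ.r → C.BReg X)
    (hv : ∀ Γ : F →ₗ[ℂ] F, ParT M G σ Γ → VacAt P σ Γ) (hT : TestAt P σ) : DualAt P σ := by
  obtain ⟨Γ, hΓ⟩ := exists_parT P σ (hBR σ.X0 (by simpa using σ.pos))
  exact dualAt_of P σ hΓ hT (fibMomT P σ) (memLpT P σ)
    fun m _ α χ => errAt P σ hr1 hBR hΓ (hv Γ hΓ) m α χ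

/-- **Small charts.** -/
theorem exists_small (X0 : Pos p) (h0 : C.BReg X0) {δ : ℝ} (hδ : 0 < δ) :
    ∃ σ : Sl C, σ.X0 = X0 ∧ σ.r ≤ δ ∧ σ.r ≤ 1 ∧ ∀ X : Pos p, ‖X - σ.X0‖ < σ.r → C.BReg X := by
  obtain ⟨ε, hε, hball⟩ := Metric.isOpen_iff.1 C.isOpen_breg X0 h0
  obtain ⟨σ, hσ, hr⟩ := SlEx814.exists_Sl C h0.reg (lt_min (lt_min hδ one_pos) hε)
  refine ⟨σ, hσ, (hr.trans_le ((min_le_left _ _).trans (min_le_left _ _))).le,
    (hr.trans_le ((min_le_left _ _).trans (min_le_right _ _))).le, fun X hX => hball ?_⟩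
  rw [Metric.mem_ball, dist_eq_norm, ← hσ]
  exact hX.trans (hr.trans_le (min_le_right _ _))

end Crest.Agent.R330.T5Fin714

end
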