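import Crest.Agent.R330.Defs_478

/-!
# Row 330: master derivation of S0512 (helper478, after r330_doc 0)

For `N ≥ 2`, over all data `(F, b, M, R, G)`:

* `Weak N` : `dim ker Q^{g,1} = p(N)` for all small `g > 0`.
* `ConstZ N` : `dim ker Q^{g,1}` does not depend on `g > 0`.
* `Strong N` : `dim ker Q^{g,1} = dim ker Q^{1,0} + (p(N) - 1)` for all large `g`.
* `Dim1 N` : `dim ker Q^{1,0} = 1`.
* `dim1_of` : `Dim1 N` from `Weak`, `ConstZ`, and `Strong` given the induction hypotheses `S k`,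
  `k < N`; `s0512_of` : the statement of S0512.
-/

set_option autoImplicit false

open MeasureTheory Filter Topology Crest.MathPhysics.MatrixQM
open scoped ContDiff InnerProductSpace ENNReal Cardinal

noncomputable section

namespace Crest.Agent.R330.Top478

open Crest.Agent.R330.Defs478

/-- The number of partitions of `N`. -/
def pN (N : ℕ) : ℕ := Fintype.card (Nat.Partition N)

theorem one_le_pN (N : ℕ) : 1 ≤ pN N := by
  unfold pN
  exact Fintype.card_pos

/-- (WEAK) -/
def Weak (N : ℕ) : Prop :=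
  ∀ (F : Type) [NormedAddCommGroup F] [InnerProductSpace ℂ F] [FiniteDimensional ℂ F]
    [Nontrivial F] (b : ColorBasis N) (M : FermionRep N F) (R : GaugeAction b M) (G : GammaNine),
    ∃ g₀ : ℝ, 0 < g₀ ∧ ∀ g : ℝ, 0 < g → g < g₀ → HasDim b M R G g 1 (pN N)

/-- (CONST) -/
def ConstZ (N : ℕ) : Prop :=
  ∀ (F : Type) [NormedAddCommGroup F] [InnerProductSpace ℂ F] [FiniteDimensional ℂ F]
    [Nontrivial F] (b : ColorBasis N) (M : FermionRep N F) (R : GaugeAction b M) (G : GammaNine)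
    (g g' : ℝ), 0 < g → 0 < g' →
    Module.rank ℂ (zker b M R G g 1) = Module.rank ℂ (zker b M R G g' 1)


/-- `dim ker Q^{1,0} = 1`. -/
def Dim1 (N : ℕ) : Prop :=
  ∀ (F : Type) [NormedAddCommGroup F] [InnerProductSpace ℂ F] [FiniteDimensional ℂ F]
    [Nontrivial F] (b : ColorBasis N) (M : FermionRep N F) (R : GaugeAction b M) (G : GammaNine),
    HasDim b M R G 1 0 1




/-- **The statement of S0512** from `Dim1`. -/
theorem s0512_of_dim1 {N : ℕ} (h : Dim1 N) (F : Type) [NormedAddCommGroup F]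
    [InnerProductSpace ℂ F] [FiniteDimensional ℂ F] [Nontrivial F] (b : ColorBasis N)
    (M : FermionRep N F) (R : GaugeAction b M) (G : GammaNine) :
    ∃ Ψ₀ ∈ zeroEnergyStates b M R G, ¬ (Ψ₀ =ᵐ[volume] 0) ∧
      ∀ Ψ ∈ zeroEnergyStates b M R G, ∃ c : ℂ, Ψ =ᵐ[volume] c • Ψ₀ :=
  line_of_hasDim (h F b M R G)

end Crest.Agent.R330.Top478

end
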