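import Mathlib
import Crest.Agent.R330.Col_962
import Crest.Agent.R330.Gam_962
import Crest.Agent.R330.Defs_478

-- ▼ part R330/VacSec1_255
section

/-!
# Row 330 (helper255): spin lifts of rotations on a Clifford family, polarised vacua

`θ : I → (F →L[ℂ] F)` with `{θ_p, θ_q} = δ_pq`, `θ_p` symmetric.

* `lc θ A q = Σ_p A_pq θ_p`, `spin θ a = (1/2) Σ a_pq θ_p θ_q`.
* `spin_lc` : `[spin a, lc A q] = lc (a A) q` (`a` antisymmetric).
* `rotE_lc` : `exp (t spin Q) θ_q = lc (1 + (1 - cos t) Q² + sin t Q) q exp (t spin Q)` if `Q³ = -Q`.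
* `W θ Q = exp ((π/2) spin Q)`, `W_lc` with `rt Q = 1 + Q² + Q`.
* `Vac θ J Ω` : `Σ_p J_pq θ_p Ω = i θ_q Ω`; transport `Vac.map`, two point function, energy.
* `conj_spin`, `conj_W` : covariance under symmetries of the family.
* `hasDerivAt_exp_comm`, `hasDerivAt_W` : derivative of `W` along a family with constant `Q²`.
-/

set_option autoImplicit false
set_option linter.unusedSectionVars false

noncomputable section

open scoped InnerProductSpace Matrix

namespace Crest.Agent.R330.VacSec255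

variable {I : Type*} [Fintype I] [DecidableEq I] {F : Type*} [NormedAddCommGroup F]
  [InnerProductSpace ℂ F] [CompleteSpace F]

/-- A Clifford family. -/
structure CF (θ : I → (F →L[ℂ] F)) : Prop where
  anti : ∀ p q, θ p * θ q + θ q * θ p = if p = q then 1 else 0
  symm : ∀ p (v w : F), ⟪θ p v, w⟫_ℂ = ⟪v, θ p w⟫_ℂ

variable (θ : I → (F →L[ℂ] F))

/-- `Σ_p A_pq θ_p`. -/
def lc (A : Matrix I I ℂ) (q : I) : F →L[ℂ] F := ∑ p, A p q • θ p

/-- `(1/2) Σ a_pq θ_p θ_q`. -/
def spin (a : Matrix I I ℂ) : F →L[ℂ] F := (1 / 2 : ℂ) • ∑ p, ∑ q, a p q • (θ p * θ q)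

theorem lc_one (q : I) : lc θ 1 q = θ q := by
  unfold lc
  rw [Finset.sum_eq_single q (fun p _ hp => by rw [Matrix.one_apply_ne hp, zero_smul])
    (fun h => absurd (Finset.mem_univ q) h), Matrix.one_apply_eq, one_smul]

theorem lc_add (A B : Matrix I I ℂ) (q : I) : lc θ (A + B) q = lc θ A q + lc θ B q := by
  simp only [lc, Matrix.add_apply, add_smul, Finset.sum_add_distrib]



theorem lc_smul (c : ℂ) (A : Matrix I I ℂ) (q : I) : lc θ (c • A) q = c • lc θ A q := by
  simp only [lc, Matrix.smul_apply, smul_eq_mul, mul_smul, Finset.smul_sum]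


/-- `lc (A B) q = Σ_r B_rq lc A r`. -/
theorem lc_mul (A B : Matrix I I ℂ) (q : I) : lc θ (A * B) q = ∑ r, B r q • lc θ A r := by
  simp only [lc, Matrix.mul_apply, Finset.sum_smul, Finset.smul_sum]
  rw [Finset.sum_comm]
  refine Finset.sum_congr rfl fun r _ => Finset.sum_congr rfl fun p _ => ?_
  rw [smul_smul, mul_comm]


theorem spin_sub (a b : Matrix I I ℂ) : spin θ (a - b) = spin θ a - spin θ b := by
  simp only [spin, Matrix.sub_apply, sub_smul, Finset.sum_sub_distrib, smul_sub]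

theorem spin_smul (c : ℂ) (a : Matrix I I ℂ) : spin θ (c • a) = c • spin θ a := by
  simp only [spin, Matrix.smul_apply, smul_eq_mul, mul_smul, Finset.smul_sum]
  refine Finset.sum_congr rfl fun p _ => Finset.sum_congr rfl fun q _ => ?_
  rw [smul_comm]

theorem spin_neg (a : Matrix I I ℂ) : spin θ (-a) = -spin θ a := by
  rw [← neg_one_smul ℂ a, spin_smul, neg_one_smul]



variable {θ}

theorem CF.mul_swap (h : CF θ) (p q : I) :
    θ p * θ q = (if p = q then (1 : F →L[ℂ] F) else 0) - θ q * θ p :=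
  eq_sub_of_add_eq (h.anti p q)

theorem CF.triple (h : CF θ) (p r q : I) :
    θ p * θ r * θ q - θ q * (θ p * θ r) =
      (if r = q then θ p else 0) - (if q = p then θ r else 0) := by
  have h1 : θ p * θ r * θ q = θ p * (if r = q then (1 : F →L[ℂ] F) else 0) - θ p * θ q * θ r := by
    rw [mul_assoc, h.mul_swap r q, mul_sub, mul_assoc]
  have h2 : θ q * (θ p * θ r) = (if q = p then (1 : F →L[ℂ] F) else 0) * θ r - θ p * θ q * θ r := by
    rw [← mul_assoc, h.mul_swap q p, sub_mul]
  rw [h1, h2]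
  split_ifs
  all_goals simp
  all_goals abel

/-- `[spin a, θ_q] = Σ_p a_pq θ_p`. -/
theorem CF.spin_theta (h : CF θ) {a : Matrix I I ℂ} (ha : aᵀ = -a) (q : I) :
    spin θ a * θ q - θ q * spin θ a = lc θ a q := by
  have hs : ∀ p r, a p r = -a r p := fun p r => by
    have := congrFun (congrFun ha r) p
    rw [Matrix.transpose_apply, Matrix.neg_apply] at this
    exact this
  have h1 : spin θ a * θ q - θ q * spin θ a =
      (1 / 2 : ℂ) • ∑ p, ∑ r, a p r • (θ p * θ r * θ q - θ q * (θ p * θ r)) := by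
    unfold spin
    simp only [smul_mul_assoc, mul_smul_comm, Finset.sum_mul, Finset.mul_sum, smul_sub,
      Finset.sum_sub_distrib]
  rw [h1]
  simp only [h.triple, smul_sub, Finset.sum_sub_distrib, smul_ite, smul_zero,
    Finset.sum_ite_eq', Finset.mem_univ, if_true]
  have h2 : ∑ p, ∑ r, (if q = p then a p r • θ r else 0) = ∑ r, a q r • θ r := by
    rw [Finset.sum_comm]
    refine Finset.sum_congr rfl fun r _ => ?_
    rw [Finset.sum_ite_eq]
    simp
  rw [h2]
  have h3 : ∑ r, a q r • θ r = -∑ p, a p q • θ p := by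
    rw [← Finset.sum_neg_distrib]
    refine Finset.sum_congr rfl fun r _ => ?_
    rw [hs q r, neg_smul]
  rw [h3]
  change (1 / 2 : ℂ) • lc θ a q - (1 / 2 : ℂ) • -lc θ a q = lc θ a q
  module

/-- `[spin a, lc A q] = lc (a A) q`. -/
theorem CF.spin_lc (h : CF θ) {a : Matrix I I ℂ} (ha : aᵀ = -a) (A : Matrix I I ℂ) (q : I) :
    spin θ a * lc θ A q - lc θ A q * spin θ a = lc θ (a * A) q := by
  rw [lc_mul]
  unfold lc
  rw [Finset.mul_sum, Finset.sum_mul, ← Finset.sum_sub_distrib]
  refine Finset.sum_congr rfl fun p _ => ?_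
  rw [mul_smul_comm, smul_mul_assoc, ← smul_sub, h.spin_theta ha p]
  rfl

/-! ### The rotation lifted -/

/-- `1 + (1 - cos t) Q² + sin t Q`. -/
def rot (Q : Matrix I I ℂ) (t : ℂ) : Matrix I I ℂ :=
  1 + (1 - Complex.cos t) • (Q * Q) + Complex.sin t • Q

theorem rot_zero (Q : Matrix I I ℂ) : rot Q 0 = 1 := by
  simp [rot]

/-- **The lift of a rotation.** -/
theorem CF.exp_lc (h : CF θ) {Q : Matrix I I ℂ} (hQ : Qᵀ = -Q) (hQ3 : Q * Q * Q = -Q) (q : I)
    (t : ℂ) :
    lc θ (rot Q t) q * NormedSpace.exp (t • spin θ Q) =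
      NormedSpace.exp (t • spin θ Q) * θ q := by
  set B := spin θ Q with hB
  set f : ℂ → (F →L[ℂ] F) := fun t =>
    NormedSpace.exp ((-t) • B) * lc θ (rot Q t) q * NormedSpace.exp (t • B) with hf
  have hL : ∀ t : ℂ, HasDerivAt (fun t => lc θ (rot Q t) q) (lc θ (Q * rot Q t) q) t := by
    intro t
    have e1 : (fun t => lc θ (rot Q t) q) = fun t : ℂ =>
        θ q + (1 - Complex.cos t) • lc θ (Q * Q) q + Complex.sin t • lc θ Q q := by
      funext s
      rw [rot, lc_add, lc_add, lc_one, lc_smul, lc_smul]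
    have e2 : lc θ (Q * rot Q t) q =
        Complex.sin t • lc θ (Q * Q) q + Complex.cos t • lc θ Q q := by
      have : Q * rot Q t = Complex.sin t • (Q * Q) + Complex.cos t • Q := by
        rw [rot, mul_add, mul_add, mul_one, mul_smul_comm, mul_smul_comm, ← mul_assoc, hQ3]
        module
      rw [this, lc_add, lc_smul, lc_smul]
    rw [e1, e2]
    have h1 : HasDerivAt (fun t : ℂ => (1 - Complex.cos t) • lc θ (Q * Q) q)
        ((-(-Complex.sin t)) • lc θ (Q * Q) q) t :=
      ((Complex.hasDerivAt_cos t).const_sub 1).smul_const _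
    have h2 : HasDerivAt (fun t : ℂ => Complex.sin t • lc θ Q q)
        (Complex.cos t • lc θ Q q) t := (Complex.hasDerivAt_sin t).smul_const _
    have h3 := ((h1.const_add (θ q)).add h2)
    rw [neg_neg] at h3
    exact h3
  have hE1 : ∀ t : ℂ, HasDerivAt (fun t : ℂ => NormedSpace.exp (t • B))
      (B * NormedSpace.exp (t • B)) t := fun t => hasDerivAt_exp_smul_const' B t
  have hE2 : ∀ t : ℂ, HasDerivAt (fun t : ℂ => NormedSpace.exp ((-t) • B))
      (-(NormedSpace.exp ((-t) • B) * B)) t := by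
    intro t
    have h1 := (hasDerivAt_exp_smul_const B (-t)).scomp t (hasDerivAt_neg t)
    rw [neg_one_smul] at h1
    exact h1
  have hd : ∀ t : ℂ, HasDerivAt f 0 t := by
    intro t
    have h1 := ((hE2 t).mul (hL t)).mul (hE1 t)
    have h2 : (-(NormedSpace.exp ((-t) • B) * B) * lc θ (rot Q t) q +
        NormedSpace.exp ((-t) • B) * lc θ (Q * rot Q t) q) * NormedSpace.exp (t • B) +
        NormedSpace.exp ((-t) • B) * lc θ (rot Q t) q * (B * NormedSpace.exp (t • B)) = 0 := by
      rw [← h.spin_lc hQ (rot Q t) q]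
      simp only [← hB]
      noncomm_ring
    exact h1.congr_deriv h2
  have hc : ∀ t : ℂ, f t = f 0 := fun t =>
    is_const_of_deriv_eq_zero (fun s => (hd s).differentiableAt) (fun s => (hd s).deriv) t 0
  have h0 : f 0 = θ q := by
    simp only [hf, neg_zero, zero_smul, NormedSpace.exp_zero, rot_zero, lc_one, one_mul, mul_one]
  have h1 := hc t
  rw [h0] at h1
  have h2 : NormedSpace.exp (t • B) * NormedSpace.exp ((-t) • B) = (1 : F →L[ℂ] F) := by
    let _ : NormedAlgebra ℚ (F →L[ℂ] F) := NormedAlgebra.restrictScalars ℚ ℂ (F →L[ℂ] F)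
    rw [← NormedSpace.exp_add_of_commute, ← add_smul, add_neg_cancel, zero_smul,
      NormedSpace.exp_zero]
    exact ((Commute.refl B).smul_left t).smul_right (-t)
  calc lc θ (rot Q t) q * NormedSpace.exp (t • B)
      = (NormedSpace.exp (t • B) * NormedSpace.exp ((-t) • B)) * lc θ (rot Q t) q *
        NormedSpace.exp (t • B) := by rw [h2, one_mul]
    _ = NormedSpace.exp (t • B) * f t := by simp only [hf]; noncomm_ring
    _ = NormedSpace.exp (t • B) * θ q := by rw [h1]

/-! ### The quarter turn -/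

/-- `W = exp ((π/2) spin Q)`. -/
def W (θ : I → (F →L[ℂ] F)) (Q : Matrix I I ℂ) : F →L[ℂ] F :=
  NormedSpace.exp (((Real.pi / 2 : ℝ) : ℂ) • spin θ Q)

/-- The quarter turn `1 + Q² + Q`. -/
def rt (Q : Matrix I I ℂ) : Matrix I I ℂ := 1 + Q * Q + Q

theorem rot_pi (Q : Matrix I I ℂ) : rot Q ((Real.pi / 2 : ℝ) : ℂ) = rt Q := by
  rw [rot, rt, ← Complex.ofReal_cos, ← Complex.ofReal_sin, Real.cos_pi_div_two,
    Real.sin_pi_div_two]
  simp

theorem rt_mul_rt_neg {Q : Matrix I I ℂ} (hQ3 : Q * Q * Q = -Q) : rt Q * rt (-Q) = 1 := by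
  have h4 : Q * Q * (Q * Q) = -(Q * Q) := by
    rw [← mul_assoc, hQ3, neg_mul]
  have h5 : Q * (Q * Q) = -Q := by rw [← mul_assoc, hQ3]
  unfold rt
  have : (1 + Q * Q + Q) * (1 + -Q * -Q + -Q) =
      1 + Q * Q + Q * Q + Q * Q * (Q * Q) - Q * Q + (Q * (Q * Q) - Q * Q * Q) := by
    noncomm_ring
  rw [this, h4, h5, hQ3]
  abel

theorem neg_cube {Q : Matrix I I ℂ} (hQ3 : Q * Q * Q = -Q) : -Q * -Q * -Q = -(-Q) := by
  rw [neg_mul_neg, mul_neg, hQ3]

theorem rt_neg_mul_rt {Q : Matrix I I ℂ} (hQ3 : Q * Q * Q = -Q) : rt (-Q) * rt Q = 1 := by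
  have := rt_mul_rt_neg (neg_cube hQ3)
  rwa [neg_neg] at this

/-- **`θ_q` through the lift.** -/
theorem CF.W_theta (h : CF θ) {Q : Matrix I I ℂ} (hQ : Qᵀ = -Q) (hQ3 : Q * Q * Q = -Q) (q : I) :
    W θ Q * θ q = lc θ (rt Q) q * W θ Q := by
  have := h.exp_lc hQ hQ3 q ((Real.pi / 2 : ℝ) : ℂ)
  rw [rot_pi] at this
  exact this.symm

/-- General transport of `lc`. -/
theorem lc_through {E : F →L[ℂ] F} {R : Matrix I I ℂ} (hE : ∀ q, E * θ q = lc θ R q * E)
    (A : Matrix I I ℂ) (q : I) : E * lc θ A q = lc θ (R * A) q * E := by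
  rw [lc_mul]
  unfold lc
  rw [Finset.mul_sum, Finset.sum_mul]
  refine Finset.sum_congr rfl fun p _ => ?_
  rw [mul_smul_comm, hE p, smul_mul_assoc]
  rfl

/-- `spin` through a symmetry. -/
theorem spin_through {E : F →L[ℂ] F} {R : Matrix I I ℂ} (hE : ∀ q, E * θ q = lc θ R q * E)
    (a : Matrix I I ℂ) : E * spin θ a = spin θ (R * a * Rᵀ) * E := by
  have h1 : ∀ p q, E * (θ p * θ q) = lc θ R p * lc θ R q * E := fun p q => by
    rw [← mul_assoc, hE p, mul_assoc, hE q, mul_assoc]
  have h2 : ∑ p, ∑ q, a p q • (lc θ R p * lc θ R q) =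
      ∑ r, ∑ s, (R * a * Rᵀ) r s • (θ r * θ s) := by
    have e1 : ∀ p q, a p q • (lc θ R p * lc θ R q) =
        ∑ r, ∑ s, (R r p * a p q * R s q) • (θ r * θ s) := fun p q => by
      unfold lc
      rw [Finset.sum_mul, Finset.smul_sum]
      refine Finset.sum_congr rfl fun r _ => ?_
      rw [Finset.mul_sum, Finset.smul_sum]
      refine Finset.sum_congr rfl fun s _ => ?_
      rw [smul_mul_smul_comm, smul_smul]
      congr 1
      ring
    have e2 : ∀ r s, (R * a * Rᵀ) r s = ∑ p, ∑ q, R r p * a p q * R s q := fun r s => by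
      rw [Matrix.mul_apply, Finset.sum_comm]
      refine Finset.sum_congr rfl fun q _ => ?_
      rw [Matrix.mul_apply, Finset.sum_mul]
      rfl
    simp only [e1, e2, Finset.sum_smul]
    calc ∑ p, ∑ q, ∑ r, ∑ s, (R r p * a p q * R s q) • (θ r * θ s)
        = ∑ p, ∑ r, ∑ q, ∑ s, (R r p * a p q * R s q) • (θ r * θ s) := by
          refine Finset.sum_congr rfl fun p _ => Finset.sum_comm
      _ = ∑ r, ∑ p, ∑ q, ∑ s, (R r p * a p q * R s q) • (θ r * θ s) := Finset.sum_comm
      _ = ∑ r, ∑ p, ∑ s, ∑ q, (R r p * a p q * R s q) • (θ r * θ s) := by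
          refine Finset.sum_congr rfl fun r _ => Finset.sum_congr rfl fun p _ => Finset.sum_comm
      _ = ∑ r, ∑ s, ∑ p, ∑ q, (R r p * a p q * R s q) • (θ r * θ s) := by
          refine Finset.sum_congr rfl fun r _ => Finset.sum_comm
  unfold spin
  rw [mul_smul_comm, smul_mul_assoc, ← h2]
  congr 1
  rw [Finset.mul_sum, Finset.sum_mul]
  refine Finset.sum_congr rfl fun p _ => ?_
  rw [Finset.mul_sum, Finset.sum_mul]
  refine Finset.sum_congr rfl fun q _ => ?_
  rw [mul_smul_comm, h1, smul_mul_assoc]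

/-- `W` through a symmetry. -/
theorem W_through {E : F →L[ℂ] F} {R : Matrix I I ℂ} (hE : ∀ q, E * θ q = lc θ R q * E)
    (Q : Matrix I I ℂ) : E * W θ Q = W θ (R * Q * Rᵀ) * E := by
  have h1 : SemiconjBy E (((Real.pi / 2 : ℝ) : ℂ) • spin θ Q)
      (((Real.pi / 2 : ℝ) : ℂ) • spin θ (R * Q * Rᵀ)) := by
    unfold SemiconjBy
    rw [mul_smul_comm, spin_through hE, smul_mul_assoc]
  let _ : NormedAlgebra ℚ (F →L[ℂ] F) := NormedAlgebra.restrictScalars ℚ ℂ (F →L[ℂ] F)
  exact h1.exp_right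

/-! ### Polarised vacua -/

/-- `Ω` is a vacuum for `J` : `Σ_p J_pq θ_p Ω = i θ_q Ω`. -/
def Vac (θ : I → (F →L[ℂ] F)) (J : Matrix I I ℂ) (Ω : F) : Prop :=
  ∀ q, lc θ J q Ω = Complex.I • θ q Ω

theorem Vac.lc {J : Matrix I I ℂ} {Ω : F} (hv : Vac θ J Ω) (A : Matrix I I ℂ) (q : I) :
    VacSec255.lc θ (J * A) q Ω = Complex.I • VacSec255.lc θ A q Ω := by
  rw [lc_mul]
  have : VacSec255.lc θ A q Ω = ∑ p, A p q • θ p Ω := by
    unfold VacSec255.lc
    rw [_root_.sum_apply]
    rfl
  rw [this, _root_.sum_apply, Finset.smul_sum]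
  refine Finset.sum_congr rfl fun p _ => ?_
  rw [_root_.smul_apply, hv p, smul_comm]

/-- Transport of vacua. -/
theorem Vac.map {J : Matrix I I ℂ} {Ω : F} (hv : Vac θ J Ω) {E : F →L[ℂ] F}
    {R R' : Matrix I I ℂ} (hE : ∀ q, E * θ q = VacSec255.lc θ R q * E) (hR : R * R' = 1) :
    Vac θ (R * J * R') (E Ω) := by
  intro q
  have h1 : VacSec255.lc θ (R * J * R') q (E Ω) = E (VacSec255.lc θ (J * R') q Ω) := by
    have := lc_through hE (J * R') q
    rw [mul_assoc]
    exact (congrArg (fun T : F →L[ℂ] F => T Ω) this).symm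
  have h2 : E (VacSec255.lc θ R' q Ω) = θ q (E Ω) := by
    have := lc_through hE R' q
    rw [hR, lc_one] at this
    exact congrArg (fun T : F →L[ℂ] F => T Ω) this
  rw [h1, hv.lc, map_smul, h2]

theorem Vac.smul {J : Matrix I I ℂ} {Ω : F} (hv : Vac θ J Ω) (c : ℂ) : Vac θ J (c • Ω) := by
  intro q
  rw [map_smul, map_smul, hv q, smul_comm]


/-! ### Derivatives -/

/-- If `X' = [Z, X]` then `(exp X)' = [Z, exp X]`. -/
theorem hasDerivAt_exp_comm {X : ℝ → (F →L[ℂ] F)} {Z : F →L[ℂ] F} {t : ℝ}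
    (hX : HasDerivAt X (Z * X t - X t * Z) t) :
    HasDerivAt (fun s => NormedSpace.exp (X s))
      (Z * NormedSpace.exp (X t) - NormedSpace.exp (X t) * Z) t := by
  let _ : NormedAlgebra ℝ (F →L[ℂ] F) := NormedAlgebra.restrictScalars ℝ ℂ (F →L[ℂ] F)
  let _ : NormedAlgebra ℚ (F →L[ℂ] F) := NormedAlgebra.restrictScalars ℚ ℂ (F →L[ℂ] F)
  have hd : DifferentiableAt ℝ (NormedSpace.exp : (F →L[ℂ] F) → (F →L[ℂ] F)) (X t) :=
    (NormedSpace.exp_analytic (𝕂 := ℝ) (X t)).differentiableAt
  have h1 := hd.hasFDerivAt.comp_hasDerivAt t hX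
  -- the conjugated curve
  set Y : ℝ → (F →L[ℂ] F) := fun s =>
    NormedSpace.exp (s • Z) * X t * NormedSpace.exp ((-s) • Z) with hY
  have hE1 : ∀ A : F →L[ℂ] F, ∀ s : ℝ, HasDerivAt (fun s : ℝ => NormedSpace.exp (s • A))
      (A * NormedSpace.exp (s • A)) s := fun A s => hasDerivAt_exp_smul_const' A s
  have hE2 : HasDerivAt (fun s : ℝ => NormedSpace.exp ((-s) • Z)) (-Z) 0 := by
    have h2 := (hE1 Z (-0)).scomp (0 : ℝ) (hasDerivAt_neg (0 : ℝ))
    have h3 : HasDerivAt (fun s : ℝ => NormedSpace.exp ((-s) • Z))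
        ((-1 : ℝ) • (Z * NormedSpace.exp ((-0 : ℝ) • Z))) 0 := h2
    refine h3.congr_deriv ?_
    simp
  have hE3 : HasDerivAt (fun s : ℝ => NormedSpace.exp (s • Z)) Z 0 := by
    simpa using hE1 Z 0
  have hYd : HasDerivAt Y (Z * X t - X t * Z) 0 := by
    have h2 := (hE3.mul_const (X t)).mul hE2
    refine h2.congr_deriv ?_
    simp [sub_eq_add_neg]
  have hY0 : Y 0 = X t := by simp [hY]
  have hcomp : HasDerivAt (fun s => NormedSpace.exp (Y s))
      (fderiv ℝ NormedSpace.exp (X t) (Z * X t - X t * Z)) 0 := by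
    have h2 : HasFDerivAt (NormedSpace.exp : (F →L[ℂ] F) → (F →L[ℂ] F))
        (fderiv ℝ NormedSpace.exp (X t)) (Y 0) := by
      rw [hY0]
      exact hd.hasFDerivAt
    exact h2.comp_hasDerivAt 0 hYd
  have hinv : ∀ s : ℝ, NormedSpace.exp (s • Z) * NormedSpace.exp ((-s) • Z) =
      (1 : F →L[ℂ] F) := fun s => by
    rw [← NormedSpace.exp_add_of_commute, ← add_smul, add_neg_cancel, zero_smul,
      NormedSpace.exp_zero]
    exact ((Commute.refl Z).smul_left s).smul_right (-s)
  have hinv' : ∀ s : ℝ, NormedSpace.exp ((-s) • Z) * NormedSpace.exp (s • Z) =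
      (1 : F →L[ℂ] F) := fun s => by
    have := hinv (-s)
    rwa [neg_neg] at this
  have hexpY : ∀ s, NormedSpace.exp (Y s) =
      NormedSpace.exp (s • Z) * NormedSpace.exp (X t) * NormedSpace.exp ((-s) • Z) := by
    intro s
    have hs : SemiconjBy (NormedSpace.exp (s • Z)) (X t) (Y s) := by
      unfold SemiconjBy
      simp only [hY]
      rw [mul_assoc, mul_assoc, hinv', mul_one]
    have h3 := hs.exp_right
    unfold SemiconjBy at h3
    rw [h3, mul_assoc, hinv, mul_one]
  have h4 : HasDerivAt (fun s => NormedSpace.exp (Y s))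
      (Z * NormedSpace.exp (X t) - NormedSpace.exp (X t) * Z) 0 := by
    have h5 := (hE3.mul_const (NormedSpace.exp (X t))).mul hE2
    have h6 : (fun s => NormedSpace.exp (Y s)) = (fun s : ℝ =>
        NormedSpace.exp (s • Z) * NormedSpace.exp (X t)) * fun s : ℝ =>
        NormedSpace.exp ((-s) • Z) := by
      funext s
      rw [hexpY s]
      rfl
    rw [h6]
    refine h5.congr_deriv ?_
    simp [sub_eq_add_neg]
  have h7 := hcomp.unique h4
  rw [h7] at h1
  exact h1

/-- `[spin a, spin b] = spin [a, b]` for antisymmetric `a`. -/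
theorem CF.spin_spin (h : CF θ) {a : Matrix I I ℂ} (ha : aᵀ = -a) (b : Matrix I I ℂ) :
    spin θ a * spin θ b - spin θ b * spin θ a = spin θ (a * b - b * a) := by
  have h1 : ∀ p r, spin θ a * (θ p * θ r) - θ p * θ r * spin θ a =
      lc θ a p * θ r + θ p * lc θ a r := fun p r => by
    have e1 : spin θ a * θ p = lc θ a p + θ p * spin θ a :=
      sub_eq_iff_eq_add.1 (h.spin_theta ha p)
    have e2 : spin θ a * θ r = lc θ a r + θ r * spin θ a :=
      sub_eq_iff_eq_add.1 (h.spin_theta ha r)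
    rw [← mul_assoc, e1, add_mul, mul_assoc (θ p), e2]
    noncomm_ring
  have h2 : spin θ a * spin θ b - spin θ b * spin θ a =
      (1 / 2 : ℂ) • ∑ p, ∑ r, b p r • (lc θ a p * θ r + θ p * lc θ a r) := by
    simp only [← h1]
    generalize spin θ a = S
    unfold spin
    simp only [smul_mul_assoc, mul_smul_comm, Finset.sum_mul, Finset.mul_sum, smul_sub,
      Finset.sum_sub_distrib]
  have h3 : ∑ p, ∑ r, b p r • (lc θ a p * θ r) = ∑ s, ∑ r, (a * b) s r • (θ s * θ r) := by
    have e : ∀ p r, b p r • (lc θ a p * θ r) = ∑ s, (a s p * b p r) • (θ s * θ r) :=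
      fun p r => by
        unfold lc
        rw [Finset.sum_mul, Finset.smul_sum]
        refine Finset.sum_congr rfl fun s _ => ?_
        rw [smul_mul_assoc, smul_smul, mul_comm]
    simp only [e, Matrix.mul_apply, Finset.sum_smul]
    calc ∑ p, ∑ r, ∑ s, (a s p * b p r) • (θ s * θ r)
        = ∑ p, ∑ s, ∑ r, (a s p * b p r) • (θ s * θ r) := by
          refine Finset.sum_congr rfl fun p _ => Finset.sum_comm
      _ = ∑ s, ∑ p, ∑ r, (a s p * b p r) • (θ s * θ r) := Finset.sum_comm
      _ = ∑ s, ∑ r, ∑ p, (a s p * b p r) • (θ s * θ r) := by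
          refine Finset.sum_congr rfl fun p _ => Finset.sum_comm
  have hs : ∀ p r, a p r = -a r p := fun p r => by
    have := congrFun (congrFun ha r) p
    rw [Matrix.transpose_apply, Matrix.neg_apply] at this
    exact this
  have h4 : ∑ p, ∑ r, b p r • (θ p * lc θ a r) = -∑ s, ∑ r, (b * a) s r • (θ s * θ r) := by
    have e : ∀ p r, b p r • (θ p * lc θ a r) = ∑ s, (-(b p r * a r s)) • (θ p * θ s) :=
      fun p r => by
        unfold lc
        rw [Finset.mul_sum, Finset.smul_sum]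
        refine Finset.sum_congr rfl fun s _ => ?_
        rw [mul_smul_comm, smul_smul, hs s r, mul_neg]
    simp only [e, Matrix.mul_apply, Finset.sum_smul, neg_smul, Finset.sum_neg_distrib]
    congr 1
    refine Finset.sum_congr rfl fun p _ => Finset.sum_comm
  rw [h2]
  simp only [smul_add, Finset.sum_add_distrib]
  rw [h3, h4, spin_sub]
  unfold spin
  module

/-- **Derivative of the quarter turn** along a path of skew `Q` with constant `Q²`. -/
theorem CF.hasDerivAt_W (h : CF θ) {Q : ℝ → Matrix I I ℂ} {P : Matrix I I ℂ} {t : ℝ}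
    (hd : ∀ p q, HasDerivAt (fun s => Q s p q) (P p q) t) (hQ : (Q t)ᵀ = -Q t) (hP : Pᵀ = -P)
    (hQ3 : Q t * Q t * Q t = -Q t) (hPQ : P * Q t = -(Q t * P)) (hQQP : Q t * Q t * P = -P) :
    HasDerivAt (fun s => W θ (Q s)) (W θ (Q t) * spin θ (P * Q t)) t := by
  set z : Matrix I I ℂ := (1 / 2 : ℂ) • (Q t * P) with hz
  have hzT : zᵀ = -z := by
    rw [hz, Matrix.transpose_smul, Matrix.transpose_mul, hP, hQ, neg_mul_neg, hPQ, smul_neg]
  have hzQ : z * Q t - Q t * z = P := by
    have h1 : Q t * P * Q t = P := by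
      rw [mul_assoc, hPQ, mul_neg, ← mul_assoc, hQQP, neg_neg]
    have h2 : Q t * (Q t * P) = -P := by rw [← mul_assoc, hQQP]
    rw [hz, smul_mul_assoc, mul_smul_comm, h1, h2]
    module
  have hX : HasDerivAt (fun s => ((Real.pi / 2 : ℝ) : ℂ) • spin θ (Q s))
      (spin θ z * (((Real.pi / 2 : ℝ) : ℂ) • spin θ (Q t)) -
        (((Real.pi / 2 : ℝ) : ℂ) • spin θ (Q t)) * spin θ z) t := by
    have e1 : spin θ z * (((Real.pi / 2 : ℝ) : ℂ) • spin θ (Q t)) -
        (((Real.pi / 2 : ℝ) : ℂ) • spin θ (Q t)) * spin θ z =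
        ((Real.pi / 2 : ℝ) : ℂ) • spin θ P := by
      rw [mul_smul_comm, smul_mul_assoc, ← smul_sub, h.spin_spin hzT, hzQ]
    rw [e1]
    have e3 : HasDerivAt (fun s => ∑ p, ∑ q, Q s p q • (θ p * θ q))
        (∑ p, ∑ q, P p q • (θ p * θ q)) t :=
      HasDerivAt.fun_sum fun p _ => HasDerivAt.fun_sum fun q _ => (hd p q).smul_const _
    have e2 : HasDerivAt (fun s => spin θ (Q s)) (spin θ P) t := e3.const_smul (1 / 2 : ℂ)
    exact e2.const_smul ((Real.pi / 2 : ℝ) : ℂ)
  have h1 := hasDerivAt_exp_comm hX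
  have hR : rt (-Q t) * rt (Q t) = 1 := rt_neg_mul_rt hQ3
  have hR' : rt (Q t) * rt (-Q t) = 1 := rt_mul_rt_neg hQ3
  have hRT : (rt (Q t))ᵀ = rt (-Q t) := by
    unfold rt
    rw [Matrix.transpose_add, Matrix.transpose_add, Matrix.transpose_one, Matrix.transpose_mul,
      hQ]
  have h2 : spin θ z * W θ (Q t) = W θ (Q t) * spin θ (rt (-Q t) * z * rt (Q t)) := by
    have h3 := spin_through (h.W_theta hQ hQ3) (rt (-Q t) * z * rt (Q t))
    rw [hRT] at h3
    rw [h3]
    congr 2
    calc z = (rt (Q t) * rt (-Q t)) * z * (rt (Q t) * rt (-Q t)) := by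
          rw [hR', one_mul, mul_one]
      _ = _ := by noncomm_ring
  have h4 : rt (-Q t) * z * rt (Q t) - z = P * Q t := by
    have e1 : Q t * Q t * z = -z := by
      rw [hz, mul_smul_comm, ← mul_assoc, hQ3, neg_mul, smul_neg]
    have e2 : z * (Q t * Q t) = -z := by
      have : Q t * P * (Q t * Q t) = -(Q t * P) := by
        calc Q t * P * (Q t * Q t) = Q t * (P * Q t) * Q t := by noncomm_ring
          _ = Q t * (-(Q t * P)) * Q t := by rw [hPQ]
          _ = -(Q t * Q t * (P * Q t)) := by noncomm_ring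
          _ = -(Q t * Q t * (-(Q t * P))) := by rw [hPQ]
          _ = Q t * Q t * Q t * P := by noncomm_ring
          _ = -(Q t * P) := by rw [hQ3, neg_mul]
      rw [hz, smul_mul_assoc, this, smul_neg]
    have e3 : rt (-Q t) * z = -(Q t * z) := by
      unfold rt
      rw [neg_mul_neg, add_mul, add_mul, one_mul, e1, add_neg_cancel, zero_add, neg_mul]
    have e4 : z * rt (Q t) = z * Q t := by
      unfold rt
      rw [mul_add, mul_add, mul_one, e2, add_neg_cancel, zero_add]
    rw [e3, neg_mul, mul_assoc, e4]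
    have e5 : Q t * (z * Q t) = (1 / 2 : ℂ) • (-(P * Q t)) := by
      rw [hz, smul_mul_assoc, mul_smul_comm]
      congr 1
      calc Q t * (Q t * P * Q t) = Q t * Q t * P * Q t := by noncomm_ring
        _ = -(P * Q t) := by rw [hQQP, neg_mul]
    rw [e5, hz]
    have e6 : Q t * P = -(P * Q t) := by rw [hPQ, neg_neg]
    rw [e6]
    module
  have h5 : spin θ z * W θ (Q t) - W θ (Q t) * spin θ z = W θ (Q t) * spin θ (P * Q t) := by
    rw [h2, ← mul_sub, ← spin_sub, h4]
  exact h1.congr_deriv h5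

/-! ### Unitarity -/

/-- A matrix with real entries. -/
def IsReal (a : Matrix I I ℂ) : Prop := ∀ p q, (starRingEnd ℂ) (a p q) = a p q

theorem IsReal.mul {a b : Matrix I I ℂ} (ha : IsReal a) (hb : IsReal b) : IsReal (a * b) := by
  intro p q
  rw [Matrix.mul_apply, map_sum]
  refine Finset.sum_congr rfl fun r _ => ?_
  rw [map_mul, ha, hb]

theorem IsReal.add {a b : Matrix I I ℂ} (ha : IsReal a) (hb : IsReal b) : IsReal (a + b) := by
  intro p q
  rw [Matrix.add_apply, map_add, ha, hb]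

theorem IsReal.neg {a : Matrix I I ℂ} (ha : IsReal a) : IsReal (-a) := by
  intro p q
  rw [Matrix.neg_apply, map_neg, ha]

theorem isReal_one : IsReal (1 : Matrix I I ℂ) := by
  intro p q
  rw [Matrix.one_apply]
  split_ifs <;> simp

theorem IsReal.rt {Q : Matrix I I ℂ} (hQ : IsReal Q) : IsReal (VacSec255.rt Q) :=
  (isReal_one.add (hQ.mul hQ)).add hQ

theorem CF.star_theta (h : CF θ) (p : I) : star (θ p) = θ p := by
  rw [ContinuousLinearMap.star_eq_adjoint]
  refine (ContinuousLinearMap.eq_adjoint_iff (θ p) (θ p)).2 ?_ |>.symm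
  intro x y
  exact h.symm p x y

theorem CF.star_spin (h : CF θ) {a : Matrix I I ℂ} (ha : aᵀ = -a) (hr : IsReal a) :
    star (spin θ a) = -spin θ a := by
  have hs : ∀ p r, a p r = -a r p := fun p r => by
    have := congrFun (congrFun ha r) p
    rw [Matrix.transpose_apply, Matrix.neg_apply] at this
    exact this
  unfold spin
  rw [star_smul, star_sum]
  have h1 : ∑ p, star (∑ q, a p q • (θ p * θ q)) = -∑ p, ∑ q, a p q • (θ p * θ q) := by
    calc ∑ p, star (∑ q, a p q • (θ p * θ q)) = ∑ p, ∑ q, a p q • (θ q * θ p) := by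
          refine Finset.sum_congr rfl fun p _ => ?_
          rw [star_sum]
          refine Finset.sum_congr rfl fun q _ => ?_
          rw [star_smul, star_mul, h.star_theta, h.star_theta, ← starRingEnd_apply, hr p q]
      _ = ∑ q, ∑ p, a p q • (θ q * θ p) := Finset.sum_comm
      _ = -∑ p, ∑ q, a p q • (θ p * θ q) := by
          rw [← Finset.sum_neg_distrib]
          refine Finset.sum_congr rfl fun p _ => ?_
          rw [← Finset.sum_neg_distrib]
          refine Finset.sum_congr rfl fun q _ => ?_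
          rw [hs q p, neg_smul]
  rw [h1, smul_neg]
  congr 2
  rw [← starRingEnd_apply, map_div₀, map_one, map_ofNat]

theorem CF.W_unitary (h : CF θ) {Q : Matrix I I ℂ} (hQ : Qᵀ = -Q) (hr : IsReal Q) :
    W θ Q ∈ unitary (F →L[ℂ] F) := by
  let _ : NormedAlgebra ℚ (F →L[ℂ] F) := NormedAlgebra.restrictScalars ℚ ℂ (F →L[ℂ] F)
  refine NormedSpace.exp_mem_unitary_of_mem_skewAdjoint ?_
  rw [skewAdjoint.mem_iff, star_smul, h.star_spin hQ hr, smul_neg, ← starRingEnd_apply,
    Complex.conj_ofReal]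

/-! ### Partial vacua -/

/-- `f` is a vacuum for `J` on the range of `J` : `θ(J² u) f = i θ(J u) f`. -/
def PVac (θ : I → (F →L[ℂ] F)) (J : Matrix I I ℂ) (f : F) : Prop :=
  ∀ q, lc θ (J * J) q f = Complex.I • lc θ J q f

theorem lc_apply (A : Matrix I I ℂ) (q : I) (f : F) : lc θ A q f = ∑ p, A p q • θ p f := by
  unfold lc
  rw [_root_.sum_apply]
  rfl

theorem lc_mul_apply (A B : Matrix I I ℂ) (q : I) (f : F) :
    lc θ (A * B) q f = ∑ r, B r q • lc θ A r f := by
  rw [lc_mul, _root_.sum_apply]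
  rfl

theorem PVac.lc {J : Matrix I I ℂ} {f : F} (hv : PVac θ J f) (A : Matrix I I ℂ) (q : I) :
    VacSec255.lc θ (J * J * A) q f = Complex.I • VacSec255.lc θ (J * A) q f := by
  rw [lc_mul_apply, lc_mul_apply, Finset.smul_sum]
  refine Finset.sum_congr rfl fun r _ => ?_
  rw [hv r, smul_comm]


theorem PVac.map {J : Matrix I I ℂ} {f : F} (hv : PVac θ J f) {E : F →L[ℂ] F}
    {R R' : Matrix I I ℂ} (hE : ∀ q, E * θ q = VacSec255.lc θ R q * E) (hR : R' * R = 1) :
    PVac θ (R * J * R') (E f) := by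
  intro q
  have e1 : R * J * R' * (R * J * R') = R * (J * J * R') := by
    calc R * J * R' * (R * J * R') = R * J * (R' * R) * J * R' := by noncomm_ring
      _ = R * (J * J * R') := by rw [hR]; noncomm_ring
  have h1 : ∀ A, VacSec255.lc θ (R * A) q (E f) = E (VacSec255.lc θ A q f) := fun A =>
    (congrArg (fun T : F →L[ℂ] F => T f) (lc_through hE A q)).symm
  rw [e1, h1, hv.lc, map_smul, ← h1, mul_assoc]

theorem PVac.smul {J : Matrix I I ℂ} {f : F} (hv : PVac θ J f) (c : ℂ) : PVac θ J (c • f) := by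
  intro q
  rw [map_smul, map_smul, hv q, smul_comm]

theorem PVac.add {J : Matrix I I ℂ} {f g : F} (hf : PVac θ J f) (hg : PVac θ J g) :
    PVac θ J (f + g) := by
  intro q
  rw [map_add, map_add, hf q, hg q, smul_add]

/-- **Expectation of a bilinear in partial vacua.** -/
theorem PVac.inner_spin (h : CF θ) {J y : Matrix I I ℂ} {f f' : F} (hf : PVac θ J f)
    (hf' : PVac θ J f') (hJ : Jᵀ = -J) (hJr : IsReal J) (hy : yᵀ = -y)
    (hJy : J * J * y = -y) (hyJ : y * (J * J) = -y) :
    ⟪f', spin θ y f⟫_ℂ = (Complex.I / 4) * (y * J).trace * ⟪f', f⟫_ℂ := by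
  set c := ⟪f', f⟫_ℂ with hc
  set G : Matrix I I ℂ := Matrix.of fun p q => ⟪f', θ p (θ q f)⟫_ℂ with hG
  have hGa : ∀ p q, G p q = ⟪f', θ p (θ q f)⟫_ℂ := fun p q => rfl
  -- symmetric part
  have g1 : G + Gᵀ = c • (1 : Matrix I I ℂ) := by
    ext p q
    rw [Matrix.add_apply, Matrix.transpose_apply, hGa, hGa, Matrix.smul_apply,
      Matrix.one_apply, ← inner_add_right]
    have := congrArg (fun T : F →L[ℂ] F => T f) (h.anti p q)
    change θ p (θ q f) + θ q (θ p f) = _ at this
    rw [this]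
    split_ifs with hpq
    · change ⟪f', f⟫_ℂ = c • (1 : ℂ)
      rw [smul_eq_mul, mul_one]
    · change ⟪f', (0 : F)⟫_ℂ = c • (0 : ℂ)
      rw [inner_zero_right, smul_zero]
  -- right action
  have g2 : ∀ B : Matrix I I ℂ, ∀ p q, (G * B) p q = ⟪f', θ p (VacSec255.lc θ B q f)⟫_ℂ := by
    intro B p q
    rw [Matrix.mul_apply, lc_apply, map_sum, inner_sum]
    refine Finset.sum_congr rfl fun r _ => ?_
    rw [map_smul, inner_smul_right, hGa, mul_comm]
  have g3 : G * (J * J) = Complex.I • (G * J) := by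
    ext p q
    rw [g2, hf q, map_smul, inner_smul_right, Matrix.smul_apply, g2, smul_eq_mul]
  -- left action
  have g4 : ∀ B : Matrix I I ℂ, IsReal B → ∀ p q,
      (Bᵀ * G) p q = ⟪VacSec255.lc θ B p f', θ q f⟫_ℂ := by
    intro B hB p q
    rw [Matrix.mul_apply, lc_apply, sum_inner]
    refine Finset.sum_congr rfl fun r _ => ?_
    rw [inner_smul_left, hB r p, Matrix.transpose_apply, hGa, h.symm]
  have g5 : J * J * G = Complex.I • (J * G) := by
    have e1 : (J * J)ᵀ = J * J := by rw [Matrix.transpose_mul, hJ, neg_mul_neg]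
    have e2 : (J * J)ᵀ * G = -(Complex.I • (Jᵀ * G)) := by
      ext p q
      rw [g4 _ (hJr.mul hJr), hf' p, inner_smul_left, Matrix.neg_apply, Matrix.smul_apply,
        g4 _ hJr, Complex.conj_I, smul_eq_mul, neg_mul]
    rw [e1, hJ, neg_mul, smul_neg, neg_neg] at e2
    exact e2
  set t := (y * G).trace with ht
  have t1 : t = -(Complex.I * (y * J * G).trace) := by
    have e : y * G = -(Complex.I • (y * J * G)) := by
      calc y * G = -(y * (J * J)) * G := by rw [hyJ, neg_neg]
        _ = -(y * (J * J * G)) := by noncomm_ring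
        _ = -(Complex.I • (y * J * G)) := by rw [g5, mul_smul_comm, mul_assoc]
    rw [ht, e, Matrix.trace_neg, Matrix.trace_smul, smul_eq_mul]
  have t2 : t = -(Complex.I * (G * J * y).trace) := by
    have e : G * y = -(Complex.I • (G * J * y)) := by
      calc G * y = -(G * (J * J * y)) := by rw [hJy, mul_neg, neg_neg]
        _ = -((G * (J * J)) * y) := by noncomm_ring
        _ = -(Complex.I • (G * J * y)) := by rw [g3, smul_mul_assoc]
    rw [ht, Matrix.trace_mul_comm, e, Matrix.trace_neg, Matrix.trace_smul, smul_eq_mul]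
  have t3 : (y * J * G).trace + (G * J * y).trace = c * (y * J).trace := by
    have e1 : (G * J * y).trace = (y * J * Gᵀ).trace := by
      rw [← Matrix.trace_transpose (G * J * y), Matrix.transpose_mul, Matrix.transpose_mul, hJ,
        hy]
      congr 1
      noncomm_ring
    rw [e1, ← Matrix.trace_add, ← mul_add, g1, mul_smul_comm, mul_one, Matrix.trace_smul,
      smul_eq_mul]
  have t4 : t = -(Complex.I / 2) * c * (y * J).trace := by
    have : 2 * t = -(Complex.I * (c * (y * J).trace)) := by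
      rw [← t3, mul_add]
      linear_combination t1 + t2
    linear_combination this / 2
  -- the expectation
  have hfin : ⟪f', spin θ y f⟫_ℂ = -(1 / 2) * t := by
    have e1 : ⟪f', spin θ y f⟫_ℂ = (1 / 2) * ∑ p, ∑ q, y p q * G p q := by
      unfold spin
      rw [_root_.smul_apply, inner_smul_right, _root_.sum_apply, inner_sum]
      congr 1
      refine Finset.sum_congr rfl fun p _ => ?_
      rw [_root_.sum_apply, inner_sum]
      refine Finset.sum_congr rfl fun q _ => ?_
      rw [_root_.smul_apply, inner_smul_right, hGa]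
      rfl
    have e2 : ∑ p, ∑ q, y p q * G p q = -t := by
      have e3 : (yᵀ * G).trace = ∑ p, ∑ q, y p q * G p q := by
        rw [Matrix.trace, Finset.sum_comm]
        refine Finset.sum_congr rfl fun q _ => ?_
        rw [Matrix.diag_apply, Matrix.mul_apply]
        rfl
      rw [← e3, hy, neg_mul, Matrix.trace_neg, ht]
    rw [e1, e2]
    ring
  rw [hfin, t4]
  ring

end Crest.Agent.R330.VacSec255
end
end

-- ▼ part R330/VacSec2_255

/-!
# Row 330 (helper255): pair operators on spinor ⊗ colour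

For an array `c : Fin N → Fin N → Matrix (Fin 16) (Fin 16) ℂ` (`c a d` acts on the `(a,d)` matrix
entry) `Op b c` is the matrix of `X ↦ (c a d X_ad)` in the basis `T_A`.

* `Op_mul` (if the right factor has a constant diagonal), `Op_add`, `Op_smul`, `Op_one`,
  `Op_transpose`, `Op_isReal`, `Op_trace`.
* `adI b g` : the adjoint action on the colour index, `adI_Op : adI g * Op c = Op c' * adI g`,
  `adI_mul_transpose`.
* `th θ u = Σ_p u_p θ_p`, `lc_eq_th`, `lightVec`, `Op_mulVec_light`.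
* `thC M` : the Clifford family of a `FermionRep`, `cf_thC : CF (thC M)`, `rho_thC`.
-/

set_option autoImplicit false
set_option linter.unusedSectionVars false

noncomputable section

open scoped InnerProductSpace Matrix
open Crest.MathPhysics.MatrixQM

namespace Crest.Agent.R330.VacSec255

variable {N : ℕ}

/-- Index set: spinor index, colour index. -/
abbrev IX (N : ℕ) := Fin 16 × Fin (N ^ 2 - 1)

/-- Arrays of spinor matrices, one for every pair. -/
abbrev PA (N : ℕ) := Fin N → Fin N → Matrix (Fin 16) (Fin 16) ℂ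

/-- The pair operator of an array. -/
def Op (b : ColorBasis N) (c : PA N) : Matrix (IX N) (IX N) ℂ :=
  Matrix.of fun p q => ∑ a, ∑ d, b.T p.2 d a * c a d p.1 q.1 * b.T q.2 a d

theorem Op_apply (b : ColorBasis N) (c : PA N) (p q : IX N) :
    Op b c p q = ∑ a, ∑ d, b.T p.2 d a * c a d p.1 q.1 * b.T q.2 a d := rfl

/-- Constant diagonal. -/
def DC (c : PA N) : Prop := ∀ a d, c a a = c d d

theorem DC.add {c c' : PA N} (h : DC c) (h' : DC c') : DC (c + c') := fun a d => by
  simp only [Pi.add_apply, h a d, h' a d]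

theorem DC.mul {c c' : PA N} (h : DC c) (h' : DC c') : DC (c * c') := fun a d => by
  simp only [Pi.mul_apply, h a d, h' a d]

theorem DC.neg {c : PA N} (h : DC c) : DC (-c) := fun a d => by
  simp only [Pi.neg_apply, h a d]

theorem DC.smul {c : PA N} (h : DC c) (z : ℂ) : DC (z • c) := fun a d => by
  simp only [Pi.smul_apply, h a d]

theorem DC.one : DC (1 : PA N) := fun _ _ => rfl

variable (b : ColorBasis N)

theorem Op_add (c c' : PA N) : Op b (c + c') = Op b c + Op b c' := by
  ext p q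
  simp only [Op_apply, Pi.add_apply, Matrix.add_apply, mul_add, add_mul, Finset.sum_add_distrib]

theorem Op_smul (z : ℂ) (c : PA N) : Op b (z • c) = z • Op b c := by
  ext p q
  simp only [Op_apply, Pi.smul_apply, Matrix.smul_apply, smul_eq_mul, Finset.mul_sum]
  refine Finset.sum_congr rfl fun a _ => Finset.sum_congr rfl fun d _ => ?_
  ring

theorem Op_neg (c : PA N) : Op b (-c) = -Op b c := by
  rw [← neg_one_smul ℂ c, Op_smul, neg_one_smul]



theorem Op_one : Op b (1 : PA N) = 1 := by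
  ext ⟨α, A⟩ ⟨β, B⟩
  have h1 : Op b (1 : PA N) (α, A) (β, B) =
      (1 : Matrix (Fin 16) (Fin 16) ℂ) α β * (b.T A * b.T B).trace := by
    rw [Op_apply, Matrix.trace, Finset.mul_sum]
    rw [Finset.sum_comm]
    refine Finset.sum_congr rfl fun d _ => ?_
    rw [Matrix.diag_apply, Matrix.mul_apply, Finset.mul_sum]
    refine Finset.sum_congr rfl fun a _ => ?_
    simp only [Pi.one_apply]
    ring
  rw [h1, b.orthonormal, Matrix.one_apply, Matrix.one_apply]
  by_cases h : α = β
  · by_cases h' : A = B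
    · simp [h, h']
    · simp [h, h']
  · simp [h]

/-- completeness, entrywise -/
theorem sum_T {Y : Matrix (Fin N) (Fin N) ℂ} (hY : Y.trace = 0) (a d : Fin N) :
    ∑ B, b.T B a d * ∑ e, ∑ f, b.T B f e * Y e f = Y a d := by
  have h := congrFun (congrFun (Col962.expand b hY) a) d
  rw [Matrix.sum_apply] at h
  rw [h]
  refine Finset.sum_congr rfl fun B _ => ?_
  rw [Matrix.smul_apply, smul_eq_mul, mul_comm]
  congr 1
  rw [Matrix.trace, Finset.sum_comm]
  refine Finset.sum_congr rfl fun f _ => ?_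
  rw [Matrix.diag_apply, Matrix.mul_apply]

/-- **Products of pair operators.** -/
theorem Op_mul (c c' : PA N) (h : DC c') : Op b (c * c') = Op b c * Op b c' := by
  ext ⟨α, A⟩ ⟨γ, C⟩
  rw [Matrix.mul_apply, Fintype.sum_prod_type]
  -- Y_β
  set Y : Fin 16 → Matrix (Fin N) (Fin N) ℂ := fun β =>
    Matrix.of fun e f => c' e f β γ * b.T C e f with hY
  have hYt : ∀ β, (Y β).trace = 0 := by
    intro β
    rcases isEmpty_or_nonempty (Fin N) with h0 | ⟨⟨e0⟩⟩
    · simp [Matrix.trace]
    · have h1 : (Y β).trace = c' e0 e0 β γ * (b.T C).trace := by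
        rw [Matrix.trace, Matrix.trace, Finset.mul_sum]
        refine Finset.sum_congr rfl fun e _ => ?_
        rw [Matrix.diag_apply, Matrix.diag_apply, hY]
        simp only [Matrix.of_apply]
        rw [h e e0]
      rw [h1, b.traceless, mul_zero]
  have h2 : ∀ β, ∑ B, Op b c (α, A) (β, B) * Op b c' (β, B) (γ, C) =
      ∑ a, ∑ d, b.T A d a * c a d α β * (c' a d β γ * b.T C a d) := by
    intro β
    have e1 : ∀ B, Op b c' (β, B) (γ, C) = ∑ e, ∑ f, b.T B f e * Y β e f := by
      intro B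
      rw [Op_apply]
      refine Finset.sum_congr rfl fun e _ => Finset.sum_congr rfl fun f _ => ?_
      rw [mul_assoc]
      rfl
    calc ∑ B, Op b c (α, A) (β, B) * Op b c' (β, B) (γ, C)
        = ∑ B, ∑ a, ∑ d, b.T A d a * c a d α β * (b.T B a d * ∑ e, ∑ f, b.T B f e * Y β e f) := by
          refine Finset.sum_congr rfl fun B _ => ?_
          rw [Op_apply, e1, Finset.sum_mul]
          refine Finset.sum_congr rfl fun a _ => ?_
          rw [Finset.sum_mul]
          refine Finset.sum_congr rfl fun d _ => ?_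
          rw [mul_assoc]
      _ = ∑ a, ∑ d, b.T A d a * c a d α β * ∑ B, (b.T B a d * ∑ e, ∑ f, b.T B f e * Y β e f) := by
          rw [Finset.sum_comm]
          refine Finset.sum_congr rfl fun a _ => ?_
          rw [Finset.sum_comm]
          refine Finset.sum_congr rfl fun d _ => ?_
          rw [Finset.mul_sum]
      _ = _ := by
          refine Finset.sum_congr rfl fun a _ => Finset.sum_congr rfl fun d _ => ?_
          rw [sum_T b (hYt β)]
          rfl
  rw [Op_apply]
  have h3 : ∑ β, ∑ B, Op b c (α, A) (β, B) * Op b c' (β, B) (γ, C) =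
      ∑ a, ∑ d, ∑ β, b.T A d a * c a d α β * (c' a d β γ * b.T C a d) := by
    rw [Finset.sum_congr rfl fun β (_ : β ∈ Finset.univ) => h2 β, Finset.sum_comm]
    refine Finset.sum_congr rfl fun a _ => ?_
    rw [Finset.sum_comm]
  rw [h3]
  refine Finset.sum_congr rfl fun a _ => ?_
  refine Finset.sum_congr rfl fun d _ => ?_
  simp only [Pi.mul_apply, Matrix.mul_apply, Finset.mul_sum, Finset.sum_mul]
  refine Finset.sum_congr rfl fun β _ => ?_
  ring

theorem Op_transpose (c : PA N) : (Op b c)ᵀ = Op b fun a d => (c d a)ᵀ := by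
  ext p q
  rw [Matrix.transpose_apply, Op_apply, Op_apply, Finset.sum_comm]
  refine Finset.sum_congr rfl fun a _ => Finset.sum_congr rfl fun d _ => ?_
  rw [Matrix.transpose_apply]
  ring

theorem T_conj (A : Fin (N ^ 2 - 1)) (a d : Fin N) :
    (starRingEnd ℂ) (b.T A a d) = b.T A d a := by
  have h := congrFun (congrFun (b.herm A) d) a
  rw [Matrix.conjTranspose_apply] at h
  rw [starRingEnd_apply]
  exact h

/-- antisymmetric operators -/
theorem Op_skew {c : PA N} (h : ∀ a d, (c d a)ᵀ = -c a d) : (Op b c)ᵀ = -Op b c := by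
  rw [Op_transpose, ← Op_neg]
  congr 1
  funext a d
  exact h a d

theorem Op_isReal {c : PA N} (h : ∀ a d α β, (starRingEnd ℂ) (c a d α β) = c d a α β) :
    IsReal (Op b c) := by
  intro p q
  rw [Op_apply, map_sum, Finset.sum_comm]
  simp only [map_sum, map_mul, T_conj, h]

theorem Op_trace {c : PA N} (h : ∀ a d, (c a d).trace = 0) : (Op b c).trace = 0 := by
  rw [Matrix.trace, Fintype.sum_prod_type, Finset.sum_comm]
  refine Finset.sum_eq_zero fun A _ => ?_
  have h1 : ∑ α, Matrix.diag (Op b c) (α, A) =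
      ∑ a, ∑ d, b.T A d a * (c a d).trace * b.T A a d := by
    simp only [Matrix.diag_apply, Op_apply, Matrix.trace, Finset.mul_sum, Finset.sum_mul]
    rw [Finset.sum_comm]
    refine Finset.sum_congr rfl fun a _ => ?_
    rw [Finset.sum_comm]
  rw [h1]
  refine Finset.sum_eq_zero fun a _ => Finset.sum_eq_zero fun d _ => ?_
  rw [h, mul_zero, zero_mul]

/-! ### The adjoint action -/

local notation "SU" => Matrix.specialUnitaryGroup (Fin N) ℂ

/-- The adjoint action on the colour index. -/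
def adI (g : SU) : Matrix (IX N) (IX N) ℂ :=
  Matrix.of fun p q => if p.1 = q.1 then (b.adjMat g p.2 q.2 : ℂ) else 0

theorem adI_apply (g : SU) (p q : IX N) :
    adI b g p q = if p.1 = q.1 then (b.adjMat g p.2 q.2 : ℂ) else 0 := rfl

theorem adI_mul_transpose (g : SU) : adI b g * (adI b g)ᵀ = 1 := by
  ext ⟨α, A⟩ ⟨β, B⟩
  rw [Matrix.mul_apply, Fintype.sum_prod_type]
  simp only [Matrix.transpose_apply, adI_apply]
  have h1 : ∀ γ, ∑ C, (if α = γ then (b.adjMat g A C : ℂ) else 0) *
      (if β = γ then (b.adjMat g B C : ℂ) else 0) =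
      if α = γ then (if β = γ then (if A = B then (1 : ℂ) else 0) else 0) else 0 := by
    intro γ
    by_cases h : α = γ
    · by_cases h' : β = γ
      · simp only [if_pos h, if_pos h']
        have := Col962.adjMat_orth' b g A B
        rw [← Complex.ofReal_one, ← Complex.ofReal_zero, ← apply_ite Complex.ofReal, ← this]
        push_cast
        rfl
      · simp [h']
    · simp [h]
  rw [Finset.sum_congr rfl fun γ _ => h1 γ, Finset.sum_ite_eq, Matrix.one_apply]
  simp only [Finset.mem_univ, if_true, Prod.mk.injEq]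
  by_cases h : β = α
  · by_cases h' : A = B
    · simp [h, h']
    · simp [h, h']
  · simp [h, Ne.symm h]

theorem adI_transpose_mul (g : SU) : (adI b g)ᵀ * adI b g = 1 :=
  mul_eq_one_comm.1 (adI_mul_transpose b g)

/-- `g* T_A g`, entrywise. -/
theorem conj_T' (g : SU) (A : Fin (N ^ 2 - 1)) (d a : Fin N) :
    ∑ B, (b.adjMat g A B : ℂ) * b.T B d a =
      ∑ f, ∑ e, (starRingEnd ℂ) ((g : Matrix (Fin N) (Fin N) ℂ) f d) * b.T A f e *
        (g : Matrix (Fin N) (Fin N) ℂ) e a := by
  have h := congrFun (congrFun (Col962.conj_T b g⁻¹ A) d) a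
  have hinv : ((g⁻¹ : SU) : Matrix (Fin N) (Fin N) ℂ) = star (g : Matrix (Fin N) (Fin N) ℂ) := rfl
  rw [hinv, star_star, Matrix.sum_apply] at h
  simp only [Matrix.smul_apply, smul_eq_mul, Col962.adjMat_inv] at h
  rw [← h, Matrix.mul_apply]
  simp only [Matrix.mul_apply, Finset.sum_mul]
  rw [Finset.sum_comm]
  refine Finset.sum_congr rfl fun f _ => Finset.sum_congr rfl fun e _ => ?_
  rw [Matrix.star_apply]
  rfl

/-- `g T_B g*`, entrywise. -/
theorem conj_T'' (g : SU) (B : Fin (N ^ 2 - 1)) (e f : Fin N) :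
    ∑ A, b.T A e f * (b.adjMat g A B : ℂ) =
      ∑ a, ∑ d, (g : Matrix (Fin N) (Fin N) ℂ) e a * b.T B a d *
        (starRingEnd ℂ) ((g : Matrix (Fin N) (Fin N) ℂ) f d) := by
  have h := congrFun (congrFun (Col962.conj_T b g B) e) f
  rw [Matrix.sum_apply] at h
  simp only [Matrix.smul_apply, smul_eq_mul] at h
  have e1 : ∑ A, b.T A e f * (b.adjMat g A B : ℂ) = ∑ A, (b.adjMat g A B : ℂ) * b.T A e f :=
    Finset.sum_congr rfl fun A _ => mul_comm _ _
  rw [e1, ← h, Matrix.mul_apply]
  simp only [Matrix.mul_apply, Finset.sum_mul]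
  rw [Finset.sum_comm]
  refine Finset.sum_congr rfl fun a _ => Finset.sum_congr rfl fun d _ => ?_
  rw [Matrix.star_apply]
  rfl

/-- **Covariance of pair operators.** -/
theorem adI_Op (g : SU) {c c' : PA N}
    (h : ∀ a d e f, (g : Matrix (Fin N) (Fin N) ℂ) e a ≠ 0 →
      (g : Matrix (Fin N) (Fin N) ℂ) f d ≠ 0 → c a d = c' e f) :
    adI b g * Op b c = Op b c' * adI b g := by
  ext ⟨α, A⟩ ⟨β, B⟩
  rw [Matrix.mul_apply, Matrix.mul_apply, Fintype.sum_prod_type, Fintype.sum_prod_type]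
  -- left side
  have hl : ∑ γ, ∑ C, adI b g (α, A) (γ, C) * Op b c (γ, C) (β, B) =
      ∑ a, ∑ d, (∑ C, (b.adjMat g A C : ℂ) * b.T C d a) * c a d α β * b.T B a d := by
    rw [Finset.sum_eq_single α]
    · simp only [adI_apply, if_true, Op_apply, Finset.mul_sum]
      rw [Finset.sum_comm]
      refine Finset.sum_congr rfl fun a _ => ?_
      rw [Finset.sum_comm]
      refine Finset.sum_congr rfl fun d _ => ?_
      rw [Finset.sum_mul, Finset.sum_mul]
      refine Finset.sum_congr rfl fun C _ => ?_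
      ring
    · intro γ _ hγ
      refine Finset.sum_eq_zero fun C _ => ?_
      rw [adI_apply, if_neg (Ne.symm hγ), zero_mul]
    · intro h; exact absurd (Finset.mem_univ _) h
  have hr : ∑ γ, ∑ C, Op b c' (α, A) (γ, C) * adI b g (γ, C) (β, B) =
      ∑ e, ∑ f, b.T A f e * c' e f α β * (∑ C, b.T C e f * (b.adjMat g C B : ℂ)) := by
    rw [Finset.sum_eq_single β]
    · simp only [adI_apply, if_true, Op_apply, Finset.sum_mul]
      rw [Finset.sum_comm]
      refine Finset.sum_congr rfl fun a _ => ?_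
      rw [Finset.sum_comm]
      refine Finset.sum_congr rfl fun d _ => ?_
      rw [Finset.mul_sum]
      refine Finset.sum_congr rfl fun C _ => ?_
      ring
    · intro γ _ hγ
      refine Finset.sum_eq_zero fun C _ => ?_
      rw [adI_apply, if_neg hγ, mul_zero]
    · intro h; exact absurd (Finset.mem_univ _) h
  rw [hl, hr]
  simp only [conj_T', conj_T'', Finset.sum_mul, Finset.mul_sum]
  -- sums over a d f e  versus  e f a d
  calc ∑ a, ∑ d, ∑ f, ∑ e, (starRingEnd ℂ) ((g : Matrix (Fin N) (Fin N) ℂ) f d) * b.T A f e *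
        (g : Matrix (Fin N) (Fin N) ℂ) e a * c a d α β * b.T B a d
      = ∑ a, ∑ d, ∑ f, ∑ e, b.T A f e * c' e f α β * ((g : Matrix (Fin N) (Fin N) ℂ) e a *
        b.T B a d * (starRingEnd ℂ) ((g : Matrix (Fin N) (Fin N) ℂ) f d)) := by
        refine Finset.sum_congr rfl fun a _ => Finset.sum_congr rfl fun d _ =>
          Finset.sum_congr rfl fun f _ => Finset.sum_congr rfl fun e _ => ?_
        by_cases h1 : (g : Matrix (Fin N) (Fin N) ℂ) e a = 0
        · simp [h1]
        · by_cases h2 : (g : Matrix (Fin N) (Fin N) ℂ) f d = 0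
          · simp [h2]
          · rw [h a d e f h1 h2]
            ring
    _ = ∑ a, ∑ f, ∑ d, ∑ e, b.T A f e * c' e f α β * ((g : Matrix (Fin N) (Fin N) ℂ) e a *
        b.T B a d * (starRingEnd ℂ) ((g : Matrix (Fin N) (Fin N) ℂ) f d)) := by
        refine Finset.sum_congr rfl fun a _ => Finset.sum_comm
    _ = ∑ f, ∑ a, ∑ d, ∑ e, b.T A f e * c' e f α β * ((g : Matrix (Fin N) (Fin N) ℂ) e a *
        b.T B a d * (starRingEnd ℂ) ((g : Matrix (Fin N) (Fin N) ℂ) f d)) := Finset.sum_comm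
    _ = ∑ f, ∑ a, ∑ e, ∑ d, b.T A f e * c' e f α β * ((g : Matrix (Fin N) (Fin N) ℂ) e a *
        b.T B a d * (starRingEnd ℂ) ((g : Matrix (Fin N) (Fin N) ℂ) f d)) := by
        refine Finset.sum_congr rfl fun f _ => Finset.sum_congr rfl fun a _ => Finset.sum_comm
    _ = ∑ f, ∑ e, ∑ a, ∑ d, b.T A f e * c' e f α β * ((g : Matrix (Fin N) (Fin N) ℂ) e a *
        b.T B a d * (starRingEnd ℂ) ((g : Matrix (Fin N) (Fin N) ℂ) f d)) := by
        refine Finset.sum_congr rfl fun f _ => Finset.sum_comm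
    _ = _ := Finset.sum_comm

/-- The conjugated pair operator. -/
theorem adI_Op_conj (g : SU) {c c' : PA N}
    (h : ∀ a d e f, (g : Matrix (Fin N) (Fin N) ℂ) e a ≠ 0 →
      (g : Matrix (Fin N) (Fin N) ℂ) f d ≠ 0 → c a d = c' e f) :
    adI b g * Op b c * (adI b g)ᵀ = Op b c' := by
  rw [adI_Op b g h, mul_assoc, adI_mul_transpose, mul_one]

/-! ### Light vectors -/

/-- The colour matrix of a vector with a fixed spinor index. -/
def cm (u : IX N → ℂ) (β : Fin 16) : Matrix (Fin N) (Fin N) ℂ := ∑ B, u (β, B) • b.T B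

/-- A vector whose colour matrices vanish at the entries where the array does not. -/
theorem Op_mulVec_light {c : PA N} {u : IX N → ℂ}
    (h : ∀ a d, c a d = 0 ∨ ∀ β, cm b u β a d = 0) : Op b c *ᵥ u = 0 := by
  funext ⟨α, A⟩
  rw [Matrix.mulVec, dotProduct, Fintype.sum_prod_type]
  have h1 : ∑ β, ∑ B, Op b c (α, A) (β, B) * u (β, B) =
      ∑ β, ∑ a, ∑ d, b.T A d a * c a d α β * cm b u β a d := by
    refine Finset.sum_congr rfl fun β _ => ?_
    simp only [Op_apply, Finset.sum_mul, cm, Matrix.sum_apply, Matrix.smul_apply, smul_eq_mul,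
      Finset.mul_sum]
    rw [Finset.sum_comm]
    refine Finset.sum_congr rfl fun a _ => ?_
    rw [Finset.sum_comm]
    refine Finset.sum_congr rfl fun d _ => Finset.sum_congr rfl fun B _ => ?_
    ring
  rw [h1, Pi.zero_apply]
  refine Finset.sum_eq_zero fun β _ => Finset.sum_eq_zero fun a _ =>
    Finset.sum_eq_zero fun d _ => ?_
  rcases h a d with h2 | h2
  · rw [h2]; simp
  · rw [h2, mul_zero]

/-! ### `θ(u)` -/

section th

variable {I : Type*} [Fintype I] [DecidableEq I] {F : Type*} [NormedAddCommGroup F]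
  [InnerProductSpace ℂ F]

/-- `Σ_p u_p θ_p`. -/
def th (θ : I → (F →L[ℂ] F)) (u : I → ℂ) : F →L[ℂ] F := ∑ p, u p • θ p

theorem th_mulVec (θ : I → (F →L[ℂ] F)) (A : Matrix I I ℂ) (u : I → ℂ) :
    th θ (A *ᵥ u) = ∑ q, u q • lc θ A q := by
  simp only [th, lc, Matrix.mulVec, dotProduct, Finset.sum_smul, Finset.smul_sum]
  rw [Finset.sum_comm]
  refine Finset.sum_congr rfl fun q _ => Finset.sum_congr rfl fun p _ => ?_
  rw [smul_smul, mul_comm]

theorem th_through {θ : I → (F →L[ℂ] F)} {E : F →L[ℂ] F} {R : Matrix I I ℂ}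
    (hE : ∀ q, E * θ q = lc θ R q * E) (u : I → ℂ) : E * th θ u = th θ (R *ᵥ u) * E := by
  rw [th_mulVec]
  unfold th
  rw [Finset.mul_sum, Finset.sum_mul]
  refine Finset.sum_congr rfl fun q _ => ?_
  rw [mul_smul_comm, hE, smul_mul_assoc]

theorem rt_mulVec {Q : Matrix I I ℂ} {u : I → ℂ} (h : Q *ᵥ u = 0) : rt Q *ᵥ u = u := by
  rw [rt, Matrix.add_mulVec, Matrix.add_mulVec, Matrix.one_mulVec, ← Matrix.mulVec_mulVec, h,
    Matrix.mulVec_zero, add_zero, add_zero]

end th

/-! ### The Clifford family of a `FermionRep` -/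

section rep

variable {F : Type*} [NormedAddCommGroup F] [InnerProductSpace ℂ F] [FiniteDimensional ℂ F]

/-- The generators as continuous maps. -/
def thC (M : FermionRep N F) (p : IX N) : F →L[ℂ] F :=
  LinearMap.toContinuousLinearMap (M.θ p.1 p.2)


theorem cf_thC (M : FermionRep N F) : CF (thC M) where
  anti := fun p q => by
    have h := M.anticomm p.1 p.2 q.1 q.2
    ext v
    have h1 := LinearMap.congr_fun h v
    change M.θ p.1 p.2 (M.θ q.1 q.2 v) + M.θ q.1 q.2 (M.θ p.1 p.2 v) = _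
    rw [LinearMap.add_apply, LinearMap.comp_apply, LinearMap.comp_apply] at h1
    rw [h1]
    by_cases hpq : p = q
    · rw [if_pos hpq, if_pos ⟨congrArg Prod.fst hpq, congrArg Prod.snd hpq⟩]
      rfl
    · rw [if_neg hpq, if_neg fun h' => hpq (Prod.ext h'.1 h'.2)]
      rfl
  symm := fun p v w => M.selfAdjoint p.1 p.2 v w

variable {b} {M : FermionRep N F}

/-- `ρ(g)` as a continuous map. -/
def rhoC (R : GaugeAction b M) (g : SU) : F →L[ℂ] F := LinearMap.toContinuousLinearMap (R.ρ g)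


theorem rhoC_thC (R : GaugeAction b M) (g : SU) (q : IX N) :
    rhoC R g * thC M q = lc (thC M) (adI b g) q * rhoC R g := by
  ext v
  have h := LinearMap.congr_fun (R.intertwine g q.1 q.2) v
  rw [LinearMap.comp_apply, LinearMap.comp_apply, LinearMap.sum_apply] at h
  change R.ρ g (M.θ q.1 q.2 v) = lc (thC M) (adI b g) q (R.ρ g v)
  rw [h, lc_apply, Fintype.sum_prod_type, Finset.sum_eq_single q.1]
  · refine Finset.sum_congr rfl fun B _ => ?_
    rw [adI_apply, if_pos rfl]
    rfl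
  · intro γ _ hγ
    refine Finset.sum_eq_zero fun B _ => ?_
    rw [adI_apply, if_neg hγ, zero_smul]
  · intro h; exact absurd (Finset.mem_univ _) h

end rep

end Crest.Agent.R330.VacSec255
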