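import Mathlib
import Crest.Prelude.Def_MatrixModel
import Crest.Agent.R330.IBP_837

-- ▼ part R330/Weitz_726
section

/-!
# Row 330, (1.1): the energy identity of a general Dirac-type family (helper726)

`Th M u = ∑ u β A θ_β^A` is the Clifford map, `dchg M G w α φ` the charge
`-i ∑ γ^i_{αβ} θ_β^A ∂_{iA} φ + ∑ w_{αβ}^A(x) θ_β^A φ`.
-/

set_option autoImplicit false

open MeasureTheory Filter Topology
open scoped ContDiff InnerProductSpace ENNReal
open Crest.MathPhysics.MatrixQM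

noncomputable section

namespace Crest.Agent.R330.Weitz726

variable {N : ℕ} {F : Type*} [NormedAddCommGroup F] [InnerProductSpace ℂ F]

/-! ## The Clifford map -/

/-- `Θ(u) = ∑ u_{βA} θ_β^A`. -/
def Th (M : FermionRep N F) (u : Fin 16 → Fin (N ^ 2 - 1) → ℝ) : F →ₗ[ℂ] F :=
  ∑ β, ∑ A, ((u β A : ℝ) : ℂ) • M.θ β A

theorem Th_apply (M : FermionRep N F) (u : Fin 16 → Fin (N ^ 2 - 1) → ℝ) (v : F) :
    Th M u v = ∑ β, ∑ A, ((u β A : ℝ) : ℂ) • M.θ β A v := by
  simp [Th, LinearMap.sum_apply, LinearMap.smul_apply]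

theorem Th_add (M : FermionRep N F) (u u' : Fin 16 → Fin (N ^ 2 - 1) → ℝ) :
    Th M (u + u') = Th M u + Th M u' := by
  simp [Th, add_smul, Finset.sum_add_distrib]

theorem Th_smul (M : FermionRep N F) (c : ℝ) (u : Fin 16 → Fin (N ^ 2 - 1) → ℝ) :
    Th M (c • u) = (c : ℂ) • Th M u := by
  simp [Th, Finset.smul_sum, mul_smul]

theorem Th_zero (M : FermionRep N F) : Th M 0 = 0 := by
  simp [Th]


/-- `Θ(u)` is self-adjoint. -/
theorem Th_symm (M : FermionRep N F) (u : Fin 16 → Fin (N ^ 2 - 1) → ℝ) (v w : F) :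
    ⟪Th M u v, w⟫_ℂ = ⟪v, Th M u w⟫_ℂ := by
  simp only [Th_apply, sum_inner, inner_sum, inner_smul_left, inner_smul_right,
    Complex.conj_ofReal]
  exact Finset.sum_congr rfl fun β _ => Finset.sum_congr rfl fun A _ => by
    rw [M.selfAdjoint β A v w]

/-- The scalar product of two coefficient vectors. -/
def dp (u v : Fin 16 → Fin (N ^ 2 - 1) → ℝ) : ℝ := ∑ β, ∑ A, u β A * v β A

theorem dp_comm (u v : Fin 16 → Fin (N ^ 2 - 1) → ℝ) : dp u v = dp v u := by
  simp only [dp, mul_comm]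

theorem Th_apply' (M : FermionRep N F) (u : Fin 16 → Fin (N ^ 2 - 1) → ℝ) (v : F) :
    Th M u v = ∑ p : Fin 16 × Fin (N ^ 2 - 1), ((u p.1 p.2 : ℝ) : ℂ) • M.θ p.1 p.2 v := by
  rw [Th_apply, Fintype.sum_prod_type]

theorem dp_eq (u v : Fin 16 → Fin (N ^ 2 - 1) → ℝ) :
    dp u v = ∑ p : Fin 16 × Fin (N ^ 2 - 1), u p.1 p.2 * v p.1 p.2 := by
  rw [dp, Fintype.sum_prod_type]

theorem anti_apply (M : FermionRep N F) (p q : Fin 16 × Fin (N ^ 2 - 1)) (a : F) :
    M.θ p.1 p.2 (M.θ q.1 q.2 a) + M.θ q.1 q.2 (M.θ p.1 p.2 a) = if p = q then a else 0 := by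
  have h := congrArg (fun T : F →ₗ[ℂ] F => T a) (M.anticomm p.1 p.2 q.1 q.2)
  simp only [LinearMap.add_apply, LinearMap.comp_apply] at h
  rw [h]
  by_cases hpq : p = q
  · subst hpq; simp
  · rw [if_neg hpq, if_neg]
    · rfl
    · rintro ⟨h1, h2⟩; exact hpq (Prod.ext h1 h2)

/-- `{Θ(u), Θ(v)} = ⟨u, v⟩`. -/
theorem Th_anti (M : FermionRep N F) (u v : Fin 16 → Fin (N ^ 2 - 1) → ℝ) (a : F) :
    Th M u (Th M v a) + Th M v (Th M u a) = ((dp u v : ℝ) : ℂ) • a := by
  have h1 : Th M u (Th M v a) = ∑ p : Fin 16 × Fin (N ^ 2 - 1), ∑ q : Fin 16 × Fin (N ^ 2 - 1),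
      (((u p.1 p.2 : ℝ) : ℂ) * ((v q.1 q.2 : ℝ) : ℂ)) • M.θ p.1 p.2 (M.θ q.1 q.2 a) := by
    simp only [Th_apply', map_sum, map_smul, Finset.smul_sum, smul_smul]
    rw [Finset.sum_comm]
    exact Finset.sum_congr rfl fun p _ => Finset.sum_congr rfl fun q _ => by rw [mul_comm]
  have h2 : Th M v (Th M u a) = ∑ p : Fin 16 × Fin (N ^ 2 - 1), ∑ q : Fin 16 × Fin (N ^ 2 - 1),
      (((u p.1 p.2 : ℝ) : ℂ) * ((v q.1 q.2 : ℝ) : ℂ)) • M.θ q.1 q.2 (M.θ p.1 p.2 a) := by
    simp only [Th_apply', map_sum, map_smul, Finset.smul_sum, smul_smul]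
  rw [h1, h2, ← Finset.sum_add_distrib, dp_eq, Complex.ofReal_sum, Finset.sum_smul]
  refine Finset.sum_congr rfl fun p _ => ?_
  rw [← Finset.sum_add_distrib, Finset.sum_eq_single p]
  · rw [← smul_add, anti_apply, if_pos rfl, Complex.ofReal_mul]
  · intro q _ hq
    rw [← smul_add, anti_apply, if_neg (Ne.symm hq), smul_zero]
  · intro h; exact absurd (Finset.mem_univ _) h

/-- `Θ(u)² = ½ ⟨u, u⟩`. -/
theorem Th_sq (M : FermionRep N F) (u : Fin 16 → Fin (N ^ 2 - 1) → ℝ) (a : F) :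
    Th M u (Th M u a) = ((dp u u / 2 : ℝ) : ℂ) • a := by
  have h := Th_anti M u u a
  rw [← two_smul ℂ] at h
  have h2 : Th M u (Th M u a) = (1 / 2 : ℂ) • ((2 : ℂ) • Th M u (Th M u a)) := by
    rw [smul_smul]; norm_num
  rw [h2, h, smul_smul]
  congr 1
  push_cast; ring

/-! ## The charges -/

/-- The coefficient vector of `∂_{jA}` in `Q_α`: `u_{βB} = γ^j_{αβ} δ_{AB}`. -/
def ug (G : GammaNine) (α : Fin 16) (j : Fin 9) (A : Fin (N ^ 2 - 1)) :
    Fin 16 → Fin (N ^ 2 - 1) → ℝ := fun β B => if B = A then G.γ j α β else 0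


/-- `∂_{jA} φ`. -/
abbrev pd (φ : Cfg N → F) (j : Fin 9) (A : Fin (N ^ 2 - 1)) (x : Cfg N) : F :=
  fderiv ℝ φ x (EuclideanSpace.single (j, A) 1)


theorem Th_ug (M : FermionRep N F) (G : GammaNine) (α : Fin 16) (j : Fin 9)
    (A : Fin (N ^ 2 - 1)) (v : F) :
    Th M (ug G α j A) v = ∑ β, ((G.γ j α β : ℝ) : ℂ) • M.θ β A v := by
  rw [Th_apply]
  refine Finset.sum_congr rfl fun β _ => ?_
  rw [Finset.sum_eq_single A]
  · simp [ug]
  · intro B _ hB; simp [ug, hB]
  · intro h; exact absurd (Finset.mem_univ _) h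


/-- `⟨u_{α,j,A}, u_{α,k,B}⟩`. -/
theorem dp_ug_ug (G : GammaNine) (α : Fin 16) (j k : Fin 9) (A B : Fin (N ^ 2 - 1)) :
    dp (ug G α j A) (ug G α k B) = if A = B then (G.γ j * G.γ k) α α else 0 := by
  have hs : ∀ β, G.γ k α β = G.γ k β α := fun β => by
    conv_lhs => rw [← G.symm k]
    rfl
  unfold dp
  by_cases hAB : A = B
  · subst hAB
    rw [if_pos rfl, Matrix.mul_apply]
    refine Finset.sum_congr rfl fun β _ => ?_
    rw [Finset.sum_eq_single A]
    · simp [ug, hs β]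
    · intro C _ hC; simp [ug, hC]
    · intro h; exact absurd (Finset.mem_univ _) h
  · rw [if_neg hAB]
    refine Finset.sum_eq_zero fun β _ => Finset.sum_eq_zero fun C _ => ?_
    by_cases hC : C = A
    · subst hC; simp [ug, hAB]
    · simp [ug, hC]

/-- `⟨u_{α,j,A}, v⟩`. -/
theorem dp_ug (G : GammaNine) (α : Fin 16) (j : Fin 9) (A : Fin (N ^ 2 - 1))
    (v : Fin 16 → Fin (N ^ 2 - 1) → ℝ) :
    dp (ug G α j A) v = ∑ β, G.γ j α β * v β A := by
  unfold dp
  refine Finset.sum_congr rfl fun β _ => ?_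
  rw [Finset.sum_eq_single A]
  · simp [ug]
  · intro C _ hC; simp [ug, hC]
  · intro h; exact absurd (Finset.mem_univ _) h

theorem gamma_sq (G : GammaNine) (j : Fin 9) : G.γ j * G.γ j = 1 := by
  have h := G.clifford j j
  rw [if_pos rfl, ← two_smul ℝ] at h
  have h1 : (2 : Matrix (Fin 16) (Fin 16) ℝ) = (2 : ℝ) • 1 := by
    rw [two_smul, one_add_one_eq_two]
  rw [h1] at h
  exact smul_right_injective _ (two_ne_zero : (2 : ℝ) ≠ 0) h

theorem gamma_anti (G : GammaNine) {j k : Fin 9} (h : j ≠ k) :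
    G.γ j * G.γ k = -(G.γ k * G.γ j) := by
  have h1 := G.clifford j k
  rw [if_neg h] at h1
  exact eq_neg_of_add_eq_zero_left h1

/-- `tr (γ^j γ^k) = 16 δ_{jk}`. -/
theorem trace_two (G : GammaNine) (j k : Fin 9) :
    (G.γ j * G.γ k).trace = if j = k then 16 else 0 := by
  by_cases h : j = k
  · subst h
    rw [if_pos rfl, gamma_sq, Matrix.trace_one]
    simp
  · rw [if_neg h]
    have h1 : (G.γ j * G.γ k).trace = -(G.γ j * G.γ k).trace := by
      conv_lhs => rw [gamma_anti G h, Matrix.trace_neg, Matrix.trace_mul_comm]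
    linarith

end Crest.Agent.R330.Weitz726

end
end

-- ▼ part R330/WeitzI_726
section

/-!
# Row 330, (1.1): integrated energy identity of a general charge (helper726)

`weitz` : for every `W : Fin 16 → Fin 16 → Fin (N²-1) → Cfg N → ℝ` of class `C¹` with
`∑_{α,β} γ^i_{αβ} W_{αβA} = 0` and every `φ ∈ C_c²`,
`∑_α ∫ ‖Q_α^W φ‖² = 8 ∑_k ∫ ‖∂_k φ‖² + ½ ∫ (∑ W²) ‖φ‖² + ∫ ⟪φ, Z φ⟫`,
`Z(x) = -i ∑_{α,k} Θ(u_{α,k}) Θ(∂_k W_α(x))`.
-/

set_option autoImplicit false
set_option linter.unusedSectionVars false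

open MeasureTheory Filter Topology
open scoped ContDiff InnerProductSpace ENNReal
open Crest.MathPhysics.MatrixQM
open Crest.Agent.R330.IBP837

noncomputable section

namespace Crest.Agent.R330.Weitz726

variable {N : ℕ} {F : Type*} [NormedAddCommGroup F] [InnerProductSpace ℂ F]
  [FiniteDimensional ℂ F]

theorem vco_eq (M : FermionRep N F) (c : Fin 16 → Fin (N ^ 2 - 1) → ℝ) : vco M c = Th M c := by
  unfold vco Th
  rw [Finset.sum_comm]

theorem dco_eq (M : FermionRep N F) (G : GammaNine) (α : Fin 16)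
    (k : Fin 9 × Fin (N ^ 2 - 1)) : dco M G α k = Th M (ug G α k.1 k.2) := by
  ext v
  rw [dco_apply, Th_ug]

/-- the first order part of the charge -/
def kp (M : FermionRep N F) (G : GammaNine) (α : Fin 16) (φ : Cfg N → F) (x : Cfg N) : F :=
  ∑ k : Fin 9 × Fin (N ^ 2 - 1),
    (-Complex.I) • dco M G α k (fderiv ℝ φ x (EuclideanSpace.single k 1))

/-- the zero order part of the charge -/
def wp (M : FermionRep N F) (W : Fin 16 → Fin 16 → Fin (N ^ 2 - 1) → Cfg N → ℝ) (α : Fin 16)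
    (φ : Cfg N → F) (x : Cfg N) : F := vco M (fun β A => W α β A x) (φ x)

theorem chargeW_eq (M : FermionRep N F) (G : GammaNine)
    (W : Fin 16 → Fin 16 → Fin (N ^ 2 - 1) → Cfg N → ℝ) (α : Fin 16) (φ : Cfg N → F)
    (x : Cfg N) : chargeW M G W α φ x = kp M G α φ x + wp M W α φ x := rfl

section

variable {M : FermionRep N F} {G : GammaNine}
  {W : Fin 16 → Fin 16 → Fin (N ^ 2 - 1) → Cfg N → ℝ} {φ : Cfg N → F}

theorem cont_lin (L : F →ₗ[ℂ] F) : Continuous L := LinearMap.continuous_of_finiteDimensional _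


/-- derivatives commute with a constant linear map -/
theorem fderiv_lin (L : F →ₗ[ℂ] F) {f : Cfg N → F} (hf : Differentiable ℝ f) (x v : Cfg N) :
    fderiv ℝ (fun y => L (f y)) x v = L (fderiv ℝ f x v) := by
  have h : HasFDerivAt (fun y => L (f y))
      (((LinearMap.toContinuousLinearMap L).restrictScalars ℝ).comp (fderiv ℝ f x)) x :=
    ((LinearMap.toContinuousLinearMap L).restrictScalars ℝ).hasFDerivAt.comp x (hf x).hasFDerivAt
  rw [h.fderiv]
  rfl

theorem contDiff_lin (L : F →ₗ[ℂ] F) {n : WithTop ℕ∞} {f : Cfg N → F} (hf : ContDiff ℝ n f) :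
    ContDiff ℝ n fun y => L (f y) :=
  (((LinearMap.toContinuousLinearMap L).restrictScalars ℝ).contDiff).comp hf

theorem contDiff_pd (hφ : ContDiff ℝ 2 φ) (v : Cfg N) :
    ContDiff ℝ 1 fun x => fderiv ℝ φ x v :=
  (hφ.fderiv_right (m := 1) (by norm_num)).clm_apply contDiff_const

/-- the swap `∫ ⟪∂_v φ, L ∂_w φ⟫ = ∫ ⟪∂_w φ, L ∂_v φ⟫`. -/
theorem swap (L : F →ₗ[ℂ] F) (hφ : ContDiff ℝ 2 φ) (hc : HasCompactSupport φ) (v w : Cfg N) :
    ∫ x, ⟪fderiv ℝ φ x v, L (fderiv ℝ φ x w)⟫_ℂ =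
      ∫ x, ⟪fderiv ℝ φ x w, L (fderiv ℝ φ x v)⟫_ℂ := by
  have h1 : ContDiff ℝ 1 φ := hφ.of_le (by norm_num)
  have hd : ∀ u : Cfg N, ContDiff ℝ 1 fun x => fderiv ℝ φ x u := contDiff_pd hφ
  rw [ibp h1 (contDiff_lin L (hd w)) (Or.inl hc) v, ibp h1 (contDiff_lin L (hd v)) (Or.inl hc) w]
  congr 1
  refine integral_congr_ae (Eventually.of_forall fun x => ?_)
  have hs : fderiv ℝ (fun y => fderiv ℝ φ y w) x v = fderiv ℝ (fun y => fderiv ℝ φ y v) x w := by
    have hsym : IsSymmSndFDerivAt ℝ φ x := hφ.contDiffAt.isSymmSndFDerivAt (by simp)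
    have hdd : DifferentiableAt ℝ (fderiv ℝ φ) x :=
      (hφ.fderiv_right (m := 1) (by norm_num)).differentiable (by norm_num) x
    have e : ∀ a c : Cfg N, fderiv ℝ (fun y => fderiv ℝ φ y a) x c =
        fderiv ℝ (fderiv ℝ φ) x c a := fun a c => by
      rw [fderiv_clm_apply hdd (differentiableAt_const a)]
      simp
    rw [e, e]
    exact hsym v w
  simp only
  rw [fderiv_lin L ((hd w).differentiable (by norm_num)),
    fderiv_lin L ((hd v).differentiable (by norm_num)), hs]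

/-- `∑_α ⟨u_{α,k}, u_{α,l}⟩ = 16 δ_{kl}`. -/
theorem sum_dp_ug (G : GammaNine) (k l : Fin 9 × Fin (N ^ 2 - 1)) :
    ∑ α, dp (ug G α k.1 k.2) (ug G α l.1 l.2) = if k = l then (16 : ℝ) else 0 := by
  simp only [dp_ug_ug]
  have h := trace_two G k.1 l.1
  rw [Matrix.trace] at h
  simp only [Matrix.diag_apply] at h
  by_cases h2 : k.2 = l.2
  · simp only [h2, if_true, h]
    by_cases h1 : k.1 = l.1
    · rw [if_pos h1, if_pos (Prod.ext h1 h2)]
    · rw [if_neg h1, if_neg fun h => h1 (congrArg Prod.fst h)]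
  · simp only [h2, if_false, Finset.sum_const_zero]
    rw [if_neg fun h => h2 (congrArg Prod.snd h)]

/-- the kinetic term -/
theorem kin_int (hφ : ContDiff ℝ 2 φ) (hc : HasCompactSupport φ) :
    ∑ α, ∫ x, ⟪kp M G α φ x, kp M G α φ x⟫_ℂ =
      8 * ∑ k : Fin 9 × Fin (N ^ 2 - 1), ∫ x, ⟪fderiv ℝ φ x (EuclideanSpace.single k 1),
        fderiv ℝ φ x (EuclideanSpace.single k 1)⟫_ℂ := by
  set P : Fin 9 × Fin (N ^ 2 - 1) → Cfg N → F := fun k x =>
    fderiv ℝ φ x (EuclideanSpace.single k 1) with hP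
  have h1 : ContDiff ℝ 1 φ := hφ.of_le (by norm_num)
  have hPc : ∀ k, Continuous (P k) := fun k => fderiv_apply_continuous h1 _
  have hPs : ∀ k, HasCompactSupport (P k) := fun k => hasCompactSupport_fderiv_apply hc _
  have hint : ∀ (L : F →ₗ[ℂ] F) (k l), Integrable fun x => ⟪P k x, L (P l x)⟫_ℂ := fun L k l =>
    integrable_inner_of_cont (hPc k) ((cont_lin L).comp (hPc l)) (Or.inl (hPs k))
  have e1 : ∀ α, ∫ x, ⟪kp M G α φ x, kp M G α φ x⟫_ℂ =
      ∑ k, ∑ l, ∫ x, ⟪P k x, dco M G α k (dco M G α l (P l x))⟫_ℂ := by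
    intro α
    have e : ∀ x, ⟪kp M G α φ x, kp M G α φ x⟫_ℂ =
        ∑ k, ∑ l, ⟪P k x, dco M G α k (dco M G α l (P l x))⟫_ℂ := by
      intro x
      have e0 : kp M G α φ x = (-Complex.I) • ∑ k, dco M G α k (P k x) := by
        simp only [kp, Finset.smul_sum, hP]
      rw [e0, inner_smul_left, inner_smul_right, ← mul_assoc]
      have e00 : (starRingEnd ℂ) (-Complex.I) * (-Complex.I) = 1 := by
        simp
      rw [e00, one_mul, sum_inner]
      refine Finset.sum_congr rfl fun k _ => ?_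
      rw [inner_sum]
      exact Finset.sum_congr rfl fun l _ => dco_symm M G α k _ _
    simp only [e]
    rw [integral_finsetSum]
    · refine Finset.sum_congr rfl fun k _ => ?_
      rw [integral_finsetSum]
      intro l _
      exact hint (dco M G α k ∘ₗ dco M G α l) k l
    · intro k _
      exact integrable_finsetSum _ fun l _ => hint (dco M G α k ∘ₗ dco M G α l) k l
  have e2 : ∀ α, (2 : ℂ) * ∫ x, ⟪kp M G α φ x, kp M G α φ x⟫_ℂ =
      ∑ k, ∑ l, ((dp (ug G α k.1 k.2) (ug G α l.1 l.2) : ℝ) : ℂ) * ∫ x, ⟪P k x, P l x⟫_ℂ := by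
    intro α
    rw [two_mul]
    nth_rewrite 2 [e1 α]
    rw [e1 α]
    have e3 : ∑ k, ∑ l, ∫ x, ⟪P k x, dco M G α k (dco M G α l (P l x))⟫_ℂ =
        ∑ k, ∑ l, ∫ x, ⟪P k x, dco M G α l (dco M G α k (P l x))⟫_ℂ := by
      rw [Finset.sum_comm]
      refine Finset.sum_congr rfl fun l _ => Finset.sum_congr rfl fun k _ => ?_
      exact swap (dco M G α k ∘ₗ dco M G α l) hφ hc _ _
    nth_rewrite 2 [e3]
    rw [← Finset.sum_add_distrib]
    refine Finset.sum_congr rfl fun k _ => ?_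
    rw [← Finset.sum_add_distrib]
    refine Finset.sum_congr rfl fun l _ => ?_
    have e6 := integral_add (hint (dco M G α k ∘ₗ dco M G α l) k l)
      (hint (dco M G α l ∘ₗ dco M G α k) k l)
    simp only [LinearMap.comp_apply] at e6
    rw [← e6, ← integral_const_mul]
    refine integral_congr_ae (Eventually.of_forall fun x => ?_)
    simp only
    rw [← inner_add_right, dco_eq, dco_eq, Th_anti, inner_smul_right]
  have e4 : (2 : ℂ) * ∑ α, ∫ x, ⟪kp M G α φ x, kp M G α φ x⟫_ℂ =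
      16 * ∑ k, ∫ x, ⟪P k x, P k x⟫_ℂ := by
    rw [Finset.mul_sum, Finset.sum_congr rfl fun α _ => e2 α, Finset.sum_comm, Finset.mul_sum]
    refine Finset.sum_congr rfl fun k _ => ?_
    rw [Finset.sum_comm, Finset.sum_eq_single k]
    · rw [← Finset.sum_mul, ← Complex.ofReal_sum, sum_dp_ug, if_pos rfl]
      norm_num
    · intro l _ hl
      rw [← Finset.sum_mul, ← Complex.ofReal_sum, sum_dp_ug, if_neg (Ne.symm hl)]
      simp
    · intro h; exact absurd (Finset.mem_univ _) h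
  have e5 : ∑ α, ∫ x, ⟪kp M G α φ x, kp M G α φ x⟫_ℂ =
      (1 / 2 : ℂ) * ((2 : ℂ) * ∑ α, ∫ x, ⟪kp M G α φ x, kp M G α φ x⟫_ℂ) := by ring
  rw [e5, e4]
  ring

/-- the potential term -/
theorem wp_inner (α : Fin 16) (x : Cfg N) : ⟪wp M W α φ x, wp M W α φ x⟫_ℂ =
    ((dp (fun β A => W α β A x) (fun β A => W α β A x) / 2 : ℝ) : ℂ) * ⟪φ x, φ x⟫_ℂ := by
  unfold wp
  rw [vco_symm M _ (φ x), vco_eq, Th_sq, inner_smul_right]

/-- the derivative of the coefficient vector `W_α` in the direction `k` -/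
def dW (W : Fin 16 → Fin 16 → Fin (N ^ 2 - 1) → Cfg N → ℝ) (α : Fin 16)
    (k : Fin 9 × Fin (N ^ 2 - 1)) (x : Cfg N) : Fin 16 → Fin (N ^ 2 - 1) → ℝ :=
  fun β A => fderiv ℝ (W α β A) x (EuclideanSpace.single k 1)

theorem fderiv_wp {α : Fin 16} (hW : ∀ β A, ContDiff ℝ 1 (W α β A)) (hφ : Differentiable ℝ φ)
    (x : Cfg N) (k : Fin 9 × Fin (N ^ 2 - 1)) :
    fderiv ℝ (wp M W α φ) x (EuclideanSpace.single k 1) =
      Th M (dW W α k x) (φ x) +
        Th M (fun β A => W α β A x) (fderiv ℝ φ x (EuclideanSpace.single k 1)) := by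
  have h : ∀ β A, HasFDerivAt (fun y => ((W α β A y : ℝ) : ℂ) • M.θ β A (φ y))
      ((W α β A x) • (((LinearMap.toContinuousLinearMap (M.θ β A)).restrictScalars ℝ).comp
        (fderiv ℝ φ x)) + (fderiv ℝ (W α β A) x).smulRight (M.θ β A (φ x))) x := by
    intro β A
    have h1 : (fun y => ((W α β A y : ℝ) : ℂ) • M.θ β A (φ y)) =
        fun y => W α β A y • M.θ β A (φ y) := by
      funext y; exact Complex.coe_smul _ _
    rw [h1]
    exact HasFDerivAt.smul (((hW β A).differentiable one_ne_zero) x).hasFDerivAt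
      (((LinearMap.toContinuousLinearMap (M.θ β A)).restrictScalars ℝ).hasFDerivAt.comp x
        (hφ x).hasFDerivAt)
  have h2 : HasFDerivAt (wp M W α φ) (∑ β, ∑ A, ((W α β A x) •
      (((LinearMap.toContinuousLinearMap (M.θ β A)).restrictScalars ℝ).comp
        (fderiv ℝ φ x)) + (fderiv ℝ (W α β A) x).smulRight (M.θ β A (φ x)))) x := by
    have h3 : wp M W α φ = fun y => ∑ β, ∑ A, ((W α β A y : ℝ) : ℂ) • M.θ β A (φ y) := by
      funext y
      rw [wp, vco_eq, Th_apply]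
    rw [h3]
    exact HasFDerivAt.fun_sum fun β _ => HasFDerivAt.fun_sum fun A _ => h β A
  rw [h2.fderiv, Th_apply, Th_apply, ← Finset.sum_add_distrib]
  simp only [ContinuousLinearMap.sum_apply]
  refine Finset.sum_congr rfl fun β _ => ?_
  rw [← Finset.sum_add_distrib]
  refine Finset.sum_congr rfl fun A _ => ?_
  simp only [ContinuousLinearMap.add_apply, ContinuousLinearMap.smul_apply,
    ContinuousLinearMap.smulRight_apply, ContinuousLinearMap.comp_apply, dW]
  rw [add_comm]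
  congr 1

/-- the cross term of one component, one direction -/
theorem cross_one {α : Fin 16} (hW : ∀ β A, ContDiff ℝ 1 (W α β A)) (hφ : ContDiff ℝ 2 φ)
    (hc : HasCompactSupport φ) (k : Fin 9 × Fin (N ^ 2 - 1)) :
    (∫ x, ⟪(-Complex.I) • dco M G α k (fderiv ℝ φ x (EuclideanSpace.single k 1)),
        wp M W α φ x⟫_ℂ) +
      ∫ x, ⟪wp M W α φ x, (-Complex.I) • dco M G α k
        (fderiv ℝ φ x (EuclideanSpace.single k 1))⟫_ℂ =
    (∫ x, ⟪φ x, (-Complex.I) • dco M G α k (Th M (dW W α k x) (φ x))⟫_ℂ) +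
      ∫ x, ((dp (ug G α k.1 k.2) (fun β A => W α β A x) : ℝ) : ℂ) *
        ⟪φ x, (-Complex.I) • fderiv ℝ φ x (EuclideanSpace.single k 1)⟫_ℂ := by
  set P : Cfg N → F := fun x => fderiv ℝ φ x (EuclideanSpace.single k 1) with hP
  have h1 : ContDiff ℝ 1 φ := hφ.of_le (by norm_num)
  have hPc : Continuous P := fderiv_apply_continuous h1 _
  have hPs : HasCompactSupport P := hasCompactSupport_fderiv_apply hc _
  have hWd : ContDiff ℝ 1 (wp M W α φ) := by
    have h3 : wp M W α φ = fun y => ∑ β, ∑ A, W α β A y • M.θ β A (φ y) := by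
      funext y
      rw [wp, vco_eq, Th_apply]
      exact Finset.sum_congr rfl fun β _ => Finset.sum_congr rfl fun A _ => Complex.coe_smul _ _
    rw [h3]
    exact ContDiff.sum fun β _ => ContDiff.sum fun A _ => (hW β A).smul (contDiff_lin _ h1)
  have hWs : HasCompactSupport (wp M W α φ) := by
    refine hc.mono fun x hx h0 => hx ?_
    simp only [wp, h0, map_zero]
  have cT : ∀ (c : Cfg N → Fin 16 → Fin (N ^ 2 - 1) → ℝ) (f : Cfg N → F),
      (∀ β A, Continuous fun x => c x β A) → Continuous f →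
      Continuous fun x => Th M (c x) (f x) := by
    intro c f hcc hf
    simp only [Th_apply]
    refine continuous_finsetSum _ fun β _ => continuous_finsetSum _ fun A _ => ?_
    exact (Complex.continuous_ofReal.comp (hcc β A)).smul ((cont_lin _).comp hf)
  have cW : ∀ β A, Continuous fun x => (fun β A => W α β A x) β A := fun β A =>
    (hW β A).continuous
  have cdW : ∀ β A, Continuous fun x => dW W α k x β A := fun β A =>
    ((hW β A).continuous_fderiv one_ne_zero).clm_apply continuous_const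
  have eA : ∫ x, ⟪(-Complex.I) • dco M G α k (P x), wp M W α φ x⟫_ℂ =
      Complex.I * ∫ x, ⟪P x, dco M G α k (wp M W α φ x)⟫_ℂ := by
    rw [← integral_const_mul]
    refine integral_congr_ae (Eventually.of_forall fun x => ?_)
    simp only
    rw [inner_smul_left, dco_symm M G α k]
    simp
  have eI : ∫ x, ⟪P x, dco M G α k (wp M W α φ x)⟫_ℂ =
      -((∫ x, ⟪φ x, dco M G α k (Th M (dW W α k x) (φ x))⟫_ℂ) +
        ∫ x, ⟪φ x, dco M G α k (Th M (fun β A => W α β A x) (P x))⟫_ℂ) := by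
    rw [hP]
    simp only
    rw [ibp h1 (contDiff_lin _ hWd) (Or.inl hc)]
    congr 1
    have i1 : Integrable fun x => ⟪φ x, dco M G α k (Th M (dW W α k x) (φ x))⟫_ℂ :=
      integrable_inner_of_cont hφ.continuous ((cont_lin _).comp (cT _ _ cdW hφ.continuous))
        (Or.inl hc)
    have i2 : Integrable fun x => ⟪φ x, dco M G α k (Th M (fun β A => W α β A x)
        (fderiv ℝ φ x (EuclideanSpace.single k 1)))⟫_ℂ :=
      integrable_inner_of_cont hφ.continuous ((cont_lin _).comp (cT _ _ cW hPc)) (Or.inl hc)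
    rw [← integral_add i1 i2]
    refine integral_congr_ae (Eventually.of_forall fun x => ?_)
    simp only
    rw [fderiv_lin _ (hWd.differentiable one_ne_zero), fderiv_wp hW (h1.differentiable one_ne_zero),
      map_add, inner_add_right]
  have eB : ∫ x, ⟪wp M W α φ x, (-Complex.I) • dco M G α k (P x)⟫_ℂ =
      (-Complex.I) * ∫ x, ⟪φ x, Th M (fun β A => W α β A x) (dco M G α k (P x))⟫_ℂ := by
    rw [← integral_const_mul]
    refine integral_congr_ae (Eventually.of_forall fun x => ?_)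
    simp only [wp]
    rw [inner_smul_right, vco_symm M _ (φ x), vco_eq]
  have eC : ∫ x, ⟪φ x, (-Complex.I) • dco M G α k (Th M (dW W α k x) (φ x))⟫_ℂ =
      (-Complex.I) * ∫ x, ⟪φ x, dco M G α k (Th M (dW W α k x) (φ x))⟫_ℂ := by
    rw [← integral_const_mul]
    refine integral_congr_ae (Eventually.of_forall fun x => ?_)
    simp only
    rw [inner_smul_right]
  have eD : ∫ x, ((dp (ug G α k.1 k.2) (fun β A => W α β A x) : ℝ) : ℂ) *
        ⟪φ x, (-Complex.I) • P x⟫_ℂ =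
      (-Complex.I) * ((∫ x, ⟪φ x, dco M G α k (Th M (fun β A => W α β A x) (P x))⟫_ℂ) +
        ∫ x, ⟪φ x, Th M (fun β A => W α β A x) (dco M G α k (P x))⟫_ℂ) := by
    have i1 : Integrable fun x => ⟪φ x, dco M G α k (Th M (fun β A => W α β A x) (P x))⟫_ℂ :=
      integrable_inner_of_cont hφ.continuous ((cont_lin _).comp (cT _ _ cW hPc)) (Or.inl hc)
    have i2 : Integrable fun x => ⟪φ x, Th M (fun β A => W α β A x) (dco M G α k (P x))⟫_ℂ :=
      integrable_inner_of_cont hφ.continuous (cT _ _ cW ((cont_lin _).comp hPc)) (Or.inl hc)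
    rw [← integral_add i1 i2, ← integral_const_mul]
    refine integral_congr_ae (Eventually.of_forall fun x => ?_)
    simp only
    rw [← inner_add_right, dco_eq, Th_anti, inner_smul_right, inner_smul_right]
    ring
  change (∫ x, ⟪(-Complex.I) • dco M G α k (P x), wp M W α φ x⟫_ℂ) +
      (∫ x, ⟪wp M W α φ x, (-Complex.I) • dco M G α k (P x)⟫_ℂ) =
    (∫ x, ⟪φ x, (-Complex.I) • dco M G α k (Th M (dW W α k x) (φ x))⟫_ℂ) +
      ∫ x, ((dp (ug G α k.1 k.2) (fun β A => W α β A x) : ℝ) : ℂ) *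
        ⟪φ x, (-Complex.I) • P x⟫_ℂ
  rw [eA, eI, eB, eC, eD]
  ring

end

end Crest.Agent.R330.Weitz726

end
end

-- ▼ part R330/WeitzF_726

/-!
# Row 330, (1.1): the energy identity of a general charge (helper726)
-/

set_option autoImplicit false
set_option linter.unusedSectionVars false

open MeasureTheory Filter Topology
open scoped ContDiff InnerProductSpace ENNReal
open Crest.MathPhysics.MatrixQM
open Crest.Agent.R330.IBP837

noncomputable section

namespace Crest.Agent.R330.Weitz726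

variable {N : ℕ} {F : Type*} [NormedAddCommGroup F] [InnerProductSpace ℂ F]
  [FiniteDimensional ℂ F]

/-- the zero order (Yukawa) operator of a general charge family:
`Z(x) = -i ∑_{α,k} Θ(u_{α,k}) Θ(∂_k W_α(x))` -/
def Zop (M : FermionRep N F) (G : GammaNine)
    (W : Fin 16 → Fin 16 → Fin (N ^ 2 - 1) → Cfg N → ℝ) (x : Cfg N) : F →ₗ[ℂ] F :=
  ∑ α, ∑ k : Fin 9 × Fin (N ^ 2 - 1), (-Complex.I) • (dco M G α k ∘ₗ Th M (dW W α k x))

theorem Zop_apply (M : FermionRep N F) (G : GammaNine)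
    (W : Fin 16 → Fin 16 → Fin (N ^ 2 - 1) → Cfg N → ℝ) (x : Cfg N) (v : F) :
    Zop M G W x v = ∑ α, ∑ k : Fin 9 × Fin (N ^ 2 - 1),
      (-Complex.I) • dco M G α k (Th M (dW W α k x) v) := by
  simp [Zop, LinearMap.sum_apply]

/-- the sum of squares potential `∑_{α,β,A} W_{αβA}(x)²` -/
def Wsq (W : Fin 16 → Fin 16 → Fin (N ^ 2 - 1) → Cfg N → ℝ) (x : Cfg N) : ℝ :=
  ∑ α, dp (fun β A => W α β A x) (fun β A => W α β A x)

/-- the trace condition -/
def TrZ (G : GammaNine) (W : Fin 16 → Fin 16 → Fin (N ^ 2 - 1) → Cfg N → ℝ) : Prop :=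
  ∀ (k : Fin 9 × Fin (N ^ 2 - 1)) (x : Cfg N), ∑ α, ∑ β, G.γ k.1 α β * W α β k.2 x = 0

section

variable {M : FermionRep N F} {G : GammaNine}
  {W : Fin 16 → Fin 16 → Fin (N ^ 2 - 1) → Cfg N → ℝ} {φ : Cfg N → F}

theorem continuous_Th {c : Cfg N → Fin 16 → Fin (N ^ 2 - 1) → ℝ} {f : Cfg N → F}
    (hcc : ∀ β A, Continuous fun x => c x β A) (hf : Continuous f) :
    Continuous fun x => Th M (c x) (f x) := by
  simp only [Th_apply]
  refine continuous_finsetSum _ fun β _ => continuous_finsetSum _ fun A _ => ?_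
  exact (Complex.continuous_ofReal.comp (hcc β A)).smul ((cont_lin _).comp hf)

theorem continuous_dW {α : Fin 16} (hW : ∀ β A, ContDiff ℝ 1 (W α β A))
    (k : Fin 9 × Fin (N ^ 2 - 1)) (β : Fin 16) (A : Fin (N ^ 2 - 1)) :
    Continuous fun x => dW W α k x β A :=
  ((hW β A).continuous_fderiv one_ne_zero).clm_apply continuous_const

theorem continuous_kp {α : Fin 16} (hφ : ContDiff ℝ 1 φ) : Continuous (kp M G α φ) := by
  unfold kp
  exact continuous_finsetSum _ fun k _ => Continuous.const_smul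
    ((cont_lin _).comp (fderiv_apply_continuous hφ _)) _

theorem cs_kp {α : Fin 16} (hc : HasCompactSupport φ) : HasCompactSupport (kp M G α φ) := by
  refine (hc.fderiv (𝕜 := ℝ)).mono' fun x hx => subset_tsupport _ fun h0 => hx ?_
  simp [kp, h0]

theorem continuous_wp {α : Fin 16} (hW : ∀ β A, ContDiff ℝ 1 (W α β A)) (hφ : Continuous φ) :
    Continuous (wp M W α φ) := by
  have h : wp M W α φ = fun x => Th M (fun β A => W α β A x) (φ x) := by
    funext x; rw [wp, vco_eq]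
  rw [h]
  exact continuous_Th (fun β A => (hW β A).continuous) hφ

theorem cs_wp {α : Fin 16} (hc : HasCompactSupport φ) : HasCompactSupport (wp M W α φ) :=
  hc.mono fun x hx h0 => hx (by simp only [wp, h0, map_zero])

/-- **The energy identity, complex form.** -/
theorem weitz_complex (hW : ∀ α β A, ContDiff ℝ 1 (W α β A)) (hT : TrZ G W)
    (hφ : ContDiff ℝ 2 φ) (hc : HasCompactSupport φ) :
    ∑ α, ∫ x, ⟪chargeW M G W α φ x, chargeW M G W α φ x⟫_ℂ =
      8 * (∑ k : Fin 9 × Fin (N ^ 2 - 1), ∫ x, ⟪fderiv ℝ φ x (EuclideanSpace.single k 1),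
        fderiv ℝ φ x (EuclideanSpace.single k 1)⟫_ℂ) +
      (∫ x, ((Wsq W x / 2 : ℝ) : ℂ) * ⟪φ x, φ x⟫_ℂ) + ∫ x, ⟪φ x, Zop M G W x (φ x)⟫_ℂ := by
  have h1 : ContDiff ℝ 1 φ := hφ.of_le (by norm_num)
  have ck : ∀ α, Continuous (kp M G α φ) := fun α => continuous_kp h1
  have sk : ∀ α, HasCompactSupport (kp M G α φ) := fun α => cs_kp hc
  have cw : ∀ α, Continuous (wp M W α φ) := fun α => continuous_wp (hW α) h1.continuous
  have sw : ∀ α, HasCompactSupport (wp M W α φ) := fun α => cs_wp hc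
  -- split
  have e1 : ∀ α, ∫ x, ⟪chargeW M G W α φ x, chargeW M G W α φ x⟫_ℂ =
      (∫ x, ⟪kp M G α φ x, kp M G α φ x⟫_ℂ) + (∫ x, ⟪wp M W α φ x, wp M W α φ x⟫_ℂ) +
        ((∫ x, ⟪kp M G α φ x, wp M W α φ x⟫_ℂ) + ∫ x, ⟪wp M W α φ x, kp M G α φ x⟫_ℂ) := by
    intro α
    have i1 := integrable_inner_of_cont (μ := (volume : Measure (Cfg N))) (ck α) (ck α)
      (Or.inl (sk α))
    have i2 := integrable_inner_of_cont (μ := (volume : Measure (Cfg N))) (cw α) (cw α)
      (Or.inl (sw α))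
    have i3 := integrable_inner_of_cont (μ := (volume : Measure (Cfg N))) (ck α) (cw α)
      (Or.inl (sk α))
    have i4 := integrable_inner_of_cont (μ := (volume : Measure (Cfg N))) (cw α) (ck α)
      (Or.inl (sw α))
    have e6 := integral_add (i1.add i2) (i3.add i4)
    simp only [Pi.add_apply] at e6
    rw [← integral_add i1 i2, ← integral_add i3 i4, ← e6]
    refine integral_congr_ae (Eventually.of_forall fun x => ?_)
    simp only [chargeW_eq, inner_add_left, inner_add_right]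
    ring
  -- the cross terms
  have e2 : ∀ α, (∫ x, ⟪kp M G α φ x, wp M W α φ x⟫_ℂ) + (∫ x, ⟪wp M W α φ x, kp M G α φ x⟫_ℂ) =
      (∑ k, ∫ x, ⟪φ x, (-Complex.I) • dco M G α k (Th M (dW W α k x) (φ x))⟫_ℂ) +
      ∑ k : Fin 9 × Fin (N ^ 2 - 1), ∫ x, ((dp (ug G α k.1 k.2) (fun β A => W α β A x) : ℝ) : ℂ) *
        ⟪φ x, (-Complex.I) • fderiv ℝ φ x (EuclideanSpace.single k 1)⟫_ℂ := by
    intro α
    have j1 : ∀ k : Fin 9 × Fin (N ^ 2 - 1), Integrable fun x =>
        ⟪(-Complex.I) • dco M G α k (fderiv ℝ φ x (EuclideanSpace.single k 1)),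
          wp M W α φ x⟫_ℂ := fun k =>
      integrable_inner_of_cont (Continuous.const_smul
        ((cont_lin _).comp (fderiv_apply_continuous h1 _)) _) (cw α) (Or.inr (sw α))
    have j2 : ∀ k : Fin 9 × Fin (N ^ 2 - 1), Integrable fun x => ⟪wp M W α φ x,
        (-Complex.I) • dco M G α k (fderiv ℝ φ x (EuclideanSpace.single k 1))⟫_ℂ := fun k =>
      integrable_inner_of_cont (cw α) (Continuous.const_smul
        ((cont_lin _).comp (fderiv_apply_continuous h1 _)) _) (Or.inl (sw α))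
    have a1 : ∫ x, ⟪kp M G α φ x, wp M W α φ x⟫_ℂ = ∑ k, ∫ x,
        ⟪(-Complex.I) • dco M G α k (fderiv ℝ φ x (EuclideanSpace.single k 1)),
          wp M W α φ x⟫_ℂ := by
      rw [← integral_finsetSum _ fun k _ => j1 k]
      refine integral_congr_ae (Eventually.of_forall fun x => ?_)
      simp only [kp, sum_inner]
    have a2 : ∫ x, ⟪wp M W α φ x, kp M G α φ x⟫_ℂ = ∑ k, ∫ x, ⟪wp M W α φ x,
        (-Complex.I) • dco M G α k (fderiv ℝ φ x (EuclideanSpace.single k 1))⟫_ℂ := by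
      rw [← integral_finsetSum _ fun k _ => j2 k]
      refine integral_congr_ae (Eventually.of_forall fun x => ?_)
      simp only [kp, inner_sum]
    rw [a1, a2, ← Finset.sum_add_distrib, ← Finset.sum_add_distrib]
    exact Finset.sum_congr rfl fun k _ => cross_one (hW α) hφ hc k
  -- the trace term vanishes
  have e3 : ∑ α, ∑ k : Fin 9 × Fin (N ^ 2 - 1), ∫ x,
      ((dp (ug G α k.1 k.2) (fun β A => W α β A x) : ℝ) : ℂ) *
        ⟪φ x, (-Complex.I) • fderiv ℝ φ x (EuclideanSpace.single k 1)⟫_ℂ = 0 := by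
    rw [Finset.sum_comm]
    refine Finset.sum_eq_zero fun k _ => ?_
    rw [← integral_finsetSum]
    · have : ∀ x, ∑ α, ((dp (ug G α k.1 k.2) (fun β A => W α β A x) : ℝ) : ℂ) *
          ⟪φ x, (-Complex.I) • fderiv ℝ φ x (EuclideanSpace.single k 1)⟫_ℂ = 0 := by
        intro x
        rw [← Finset.sum_mul, ← Complex.ofReal_sum]
        simp only [dp_ug]
        rw [hT k x]
        simp
      simp only [this, integral_zero]
    · intro α _
      have hcont : Continuous fun x => ((dp (ug G α k.1 k.2) (fun β A => W α β A x) : ℝ) : ℂ) := by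
        refine Complex.continuous_ofReal.comp ?_
        simp only [dp_ug]
        exact continuous_finsetSum _ fun β _ => continuous_const.mul (hW α β k.2).continuous
      refine (hcont.mul (h1.continuous.inner (Continuous.const_smul
        (fderiv_apply_continuous h1 _) _))).integrable_of_hasCompactSupport ?_
      refine hc.mono fun x hx h0 => hx ?_
      have h00 : φ x = 0 := h0
      simp [h00]
  -- the Yukawa term
  have e4 : ∑ α, ∑ k, ∫ x, ⟪φ x, (-Complex.I) • dco M G α k (Th M (dW W α k x) (φ x))⟫_ℂ =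
      ∫ x, ⟪φ x, Zop M G W x (φ x)⟫_ℂ := by
    have j : ∀ α k, Integrable fun x =>
        ⟪φ x, (-Complex.I) • dco M G α k (Th M (dW W α k x) (φ x))⟫_ℂ := fun α k =>
      integrable_inner_of_cont h1.continuous (Continuous.const_smul ((cont_lin _).comp
        (continuous_Th (continuous_dW (hW α) k) h1.continuous)) _) (Or.inl hc)
    simp only [Zop_apply, inner_sum]
    rw [integral_finsetSum _ fun α _ => integrable_finsetSum _ fun k _ => j α k]
    exact Finset.sum_congr rfl fun α _ => (integral_finsetSum _ fun k _ => j α k).symm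
  -- the potential term
  have e5 : ∑ α, ∫ x, ⟪wp M W α φ x, wp M W α φ x⟫_ℂ =
      ∫ x, ((Wsq W x / 2 : ℝ) : ℂ) * ⟪φ x, φ x⟫_ℂ := by
    rw [← integral_finsetSum _ fun α _ => integrable_inner_of_cont (cw α) (cw α) (Or.inl (sw α))]
    refine integral_congr_ae (Eventually.of_forall fun x => ?_)
    simp only [wp_inner]
    rw [← Finset.sum_mul, ← Complex.ofReal_sum, ← Finset.sum_div, Wsq]
  simp only [e1, e2, Finset.sum_add_distrib, e3, e4, e5, add_zero, kin_int hφ hc]

/-- **The energy identity.** -/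
theorem weitz (hW : ∀ α β A, ContDiff ℝ 1 (W α β A)) (hT : TrZ G W)
    (hφ : ContDiff ℝ 2 φ) (hc : HasCompactSupport φ) :
    ∑ α, ∫ x, ‖chargeW M G W α φ x‖ ^ 2 =
      8 * (∑ k : Fin 9 × Fin (N ^ 2 - 1), ∫ x, ‖fderiv ℝ φ x (EuclideanSpace.single k 1)‖ ^ 2) +
      (∫ x, Wsq W x / 2 * ‖φ x‖ ^ 2) + (∫ x, (⟪φ x, Zop M G W x (φ x)⟫_ℂ).re) := by
  have h := congrArg Complex.re (weitz_complex (M := M) hW hT hφ hc)
  have h1 : ContDiff ℝ 1 φ := hφ.of_le (by norm_num)
  have n2 : ∀ v : F, ⟪v, v⟫_ℂ = ((‖v‖ ^ 2 : ℝ) : ℂ) := fun v => by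
    rw [inner_self_eq_norm_sq_to_K]; norm_cast
  have hZ : Integrable fun x => ⟪φ x, Zop M G W x (φ x)⟫_ℂ := by
    simp only [Zop_apply]
    refine integrable_inner_of_cont h1.continuous ?_ (Or.inl hc)
    exact continuous_finsetSum _ fun α _ => continuous_finsetSum _ fun k _ =>
      Continuous.const_smul ((cont_lin _).comp
        (continuous_Th (continuous_dW (hW α) k) h1.continuous)) _
  simp only [n2, ← Complex.ofReal_mul] at h
  simp only [integral_complex_ofReal, Complex.add_re, ← Complex.ofReal_sum] at h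
  rw [show (8 : ℂ) = ((8 : ℝ) : ℂ) by norm_num, ← Complex.ofReal_mul] at h
  simp only [Complex.ofReal_re] at h
  rw [h]
  congr 1
  exact (integral_re hZ).symm

end

end Crest.Agent.R330.Weitz726

end
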